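import Crest.Agent.R257.AYLoc_209
import Crest.Agent.R273.YauOpA_635
import Crest.Agent.R273.YauClose_635
import Crest.Agent.R273.C2f_793

-- ▼ part R257/AYReg_209
section

/-!
# R257 (S0395), E-AY (helper209): regularity of `C^{2,1/2}` solutions of `det ∂∂̄u = e^(f+u)`
-/

set_option autoImplicit false
set_option linter.unusedSectionVars false

open Set Filter Topology Complex Metric
open scoped ContDiff Matrix ComplexConjugate

namespace Crest.Agent.R257.AYReg_209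

open Crest.Agent.R275.Geo
open Crest.Agent.R273.Defs_333 Crest.Agent.R273.YauDefs_635 Crest.Agent.R273.YauCh_635
open Crest.Agent.R273.YauQ_635 Crest.Agent.R273.YauSchF_635 Crest.Agent.R273.SchA_152
open Crest.Agent.R257.AYGrad_209 Crest.Agent.R257.AYCone_209 Crest.Agent.R257.AYLoc_209

noncomputable section

theorem exists_fd2_bound {E : Type*} [NormedAddCommGroup E] [NormedSpace ℝ E] {u : E → ℝ}
    {U K : Set E} (hU : IsOpen U) (hu : ContDiffOn ℝ 2 u U) (hK : IsCompact K) (hKU : K ⊆ U) :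
    ∃ C : ℝ, ∀ z ∈ K, ‖fderiv ℝ (fderiv ℝ u) z‖ ≤ C := by
  have h1 : ContDiffOn ℝ 1 (fderiv ℝ u) U := hu.fderiv_of_isOpen hU (by norm_num)
  exact hK.exists_bound_of_continuousOn ((h1.continuousOn_fderiv_of_isOpen hU le_rfl).mono hKU)

variable {n : ℕ}

theorem cone_pt {z₀ : Cn n} {ρ : ℝ} {Z : Cn (n + 1)} (hZ : Z ∈ ball (iz n z₀) ρ) :
    pz n Z ∈ ball z₀ ρ ∧ ‖pw n Z‖ < ρ := by
  rw [mem_ball, dist_eq_norm] at hZ
  have e1 : pz n Z - z₀ = pz n (Z - iz n z₀) := by rw [map_sub, pz_iz]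
  have e2 : pw n Z = pw n (Z - iz n z₀) := by rw [map_sub, pw_iz, sub_zero]
  constructor
  · rw [mem_ball, dist_eq_norm, e1]
    exact (norm_pz_le _).trans_lt hZ
  · rw [e2]
    exact (norm_pw_le _).trans_lt hZ

theorem lev_Ph_pos {R : ℝ} {u : Cn n → ℝ} {Z : Cn (n + 1)} (hu : ContDiffAt ℝ 2 u (pz n Z))
    (hR : -R < S u Z) (hp : ∀ v : Cn n, v ≠ 0 → 0 < lev u (pz n Z) v) {V : Cn (n + 1)}
    (hV : V ≠ 0) : 0 < lev (Ph n R u) Z V := by
  rw [lev_Ph hu hR]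
  have hg := AYPsi_209.g_pos (n := n) hR
  have hh := AYPsi_209.h_pos (n := n) hR
  rcases eq_or_ne (pz n V) 0 with h0 | h0
  · have h1 : pw n V ≠ 0 := by
      intro h1
      have h2 := norm_sq_split V
      rw [h0, h1, norm_zero, norm_zero] at h2
      have h3 : ‖V‖ = 0 := by nlinarith [norm_nonneg V]
      exact hV (norm_eq_zero.1 h3)
    have h2 : 0 < ‖pw n V‖ ^ 2 := by
      have := norm_pos_iff.2 h1
      positivity
    have h3 : ‖pw n V‖ ^ 2 = (pw n V).re ^ 2 + (pw n V).im ^ 2 := by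
      rw [← Complex.normSq_eq_norm_sq, Complex.normSq_apply]
      ring
    rw [h0, smul_zero, map_zero, lev_zero, mul_zero, zero_add, zero_add, zero_sub]
    have h4 : (2 * (pw n V).re) ^ 2 + (-(2 * (pw n V).im)) ^ 2 = 4 * ‖pw n V‖ ^ 2 := by
      rw [h3]
      ring
    rw [h4]
    positivity
  · have h1 := hp _ h0
    have h2 : 0 ≤ AYPsi_209.h n R (S u Z) *
        ((fderiv ℝ u (pz n Z) (pz n V) + 2 * (pw n V).re) ^ 2 +
        (fderiv ℝ u (pz n Z) (I • pz n V) - 2 * (pw n V).im) ^ 2) := by positivity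
    have h3 := mul_pos hg h1
    linarith

/-- the function is recovered from the derivative of `Φ` -/
theorem recover {R : ℝ} {u : Cn n → ℝ} {z : Cn n} (hu : DifferentiableAt ℝ u z) (hR : -R < u z) :
    u z = - Real.log (Real.exp R -
      (fderiv ℝ (Ph n R u) (iz n z) (EuclideanSpace.single (Fin.last n) 1) / 2) ^ (n + 1) /
        (n + 1)) := by
  have h1 : DifferentiableAt ℝ u (pz n (iz n z)) := by rwa [pz_iz]
  rw [fd_Ph h1, S_iz, pz_single_last, pw_single_last, map_zero, one_re]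
  have h2 : AYPsi_209.g n R (u z) * (0 + 2 * 1) / 2 = AYPsi_209.g n R (u z) := by ring
  rw [h2, AYPsi_209.g_pow hR]
  have h3 : (n : ℝ) + 1 ≠ 0 := by positivity
  rw [mul_div_cancel_left₀ _ h3, sub_sub_cancel, Real.log_exp, neg_neg]

/-- **regularity** -/
theorem reg_ay {U : Set (Cn n)} {u f : Cn n → ℝ} (hU : IsOpen U) (hu : ContDiffOn ℝ 2 u U)
    (hf : ContDiffOn ℝ ∞ f U)
    (hh : ∀ z₀ ∈ U, ∃ r > 0, ∃ C, Metric.ball z₀ r ⊆ U ∧ ∀ z ∈ Metric.ball z₀ r,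
      ∀ w ∈ Metric.ball z₀ r,
        ‖fderiv ℝ (fderiv ℝ u) z - fderiv ℝ (fderiv ℝ u) w‖ ≤ C * ‖z - w‖ ^ (1 / 2 : ℝ))
    (hp : ∀ z ∈ U, ∀ v : Cn n, v ≠ 0 → 0 < lev u z v)
    (hd : ∀ z ∈ U, (cH u z).det = (Real.exp (f z + u z) : ℂ)) :
    ContDiffOn ℝ ∞ u U := by
  intro z₀ hz₀
  obtain ⟨r, hr, C, hrU, hC⟩ := hh z₀ hz₀
  -- a compact ball
  set ρ : ℝ := min (r / 2) 1 with hρ
  have hρ0 : 0 < ρ := lt_min (by linarith) one_pos
  have hρr : ρ ≤ r / 2 := min_le_left _ _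
  have hρ1 : ρ ≤ 1 := min_le_right _ _
  have hcb : closedBall z₀ ρ ⊆ ball z₀ r := closedBall_subset_ball (by linarith)
  have hcU : closedBall z₀ ρ ⊆ U := hcb.trans hrU
  have hK : IsCompact (closedBall z₀ ρ) := isCompact_closedBall _ _
  obtain ⟨N, hN⟩ := hK.exists_bound_of_continuousOn (hu.continuousOn.mono hcU)
  obtain ⟨G, hG⟩ := hK.exists_bound_of_continuousOn
    ((hu.continuousOn_fderiv_of_isOpen hU (by norm_num)).mono hcU)
  obtain ⟨K, hKb⟩ := exists_fd2_bound hU hu hK hcU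
  have hz₀c : z₀ ∈ closedBall z₀ ρ := mem_closedBall_self hρ0.le
  have hN0 : 0 ≤ N := (norm_nonneg _).trans (hN z₀ hz₀c)
  have hG0 : 0 ≤ G := (norm_nonneg (fderiv ℝ u z₀)).trans (hG z₀ hz₀c)
  have hK0 : 0 ≤ K := (norm_nonneg (fderiv ℝ (fderiv ℝ u) z₀)).trans (hKb z₀ hz₀c)
  have hbU : ball z₀ ρ ⊆ U := ball_subset_closedBall.trans hcU
  set R : ℝ := N + 3 with hR
  set W : Set (Cn (n + 1)) := ball (iz n z₀) ρ with hW
  have hWz : ∀ Z ∈ W, pz n Z ∈ ball z₀ ρ := fun Z hZ => (cone_pt hZ).1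
  have hsub : Icc (-(N + 2)) (N + 2) ⊆ Ioi (-R) := fun t ht => by
    have := ht.1
    rw [mem_Ioi, hR]
    linarith
  have hSI : ∀ Z ∈ W, S u Z ∈ Icc (-(N + 2)) (N + 2) := by
    intro Z hZ
    obtain ⟨z1, z2⟩ := cone_pt hZ
    have h1 := hN _ (ball_subset_closedBall z1)
    rw [Real.norm_eq_abs] at h1
    have a1 := abs_le.1 h1
    have a2 := abs_le.1 ((Complex.abs_re_le_norm (pw n Z)).trans (z2.le.trans hρ1))
    simp only [S, mem_Icc]
    constructor <;> linarith [a1.1, a1.2, a2.1, a2.2]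
  have hSR : ∀ Z ∈ W, -R < S u Z := fun Z hZ => hsub (hSI Z hZ)
  have huc : ∀ z ∈ ball z₀ ρ, ContDiffAt ℝ 2 u z := fun z hz =>
    hu.contDiffAt (hU.mem_nhds (hbU hz))
  set Φ : Cn (n + 1) → ℝ := Ph n R u with hΦ
  have hΦ2 : ContDiffOn ℝ 2 Φ W := contDiffOn_Ph two_le_inf hu (fun Z hZ => hbU (hWz Z hZ)) hSR
  set F : Cn (n + 1) → ℝ := fun Z => f (pzR n Z) - pwR n Z with hF
  have hFs : ContDiffOn ℝ ∞ F W :=
    (hf.comp (pzR n).contDiff.contDiffOn fun Z hZ => hbU (hWz Z hZ)).sub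
      (pwR n).contDiff.contDiffOn
  have hΦd : ∀ Z ∈ W, (cH Φ Z).det = (Real.exp (F Z) : ℂ) := fun Z hZ =>
    det_Ph_eq (huc _ (hWz Z hZ)) (hSR Z hZ) (hd _ (hbU (hWz Z hZ)))
  -- Hoelder bound of `D²Φ`
  have hnz : ∀ {Z Y : Cn (n + 1)}, ‖pz n Z - pz n Y‖ ≤ ‖Z - Y‖ := fun {Z Y} => by
    rw [← map_sub]
    exact norm_pz_le _
  have hhalf : ∀ Z ∈ W, ∀ Y ∈ W, ‖Z - Y‖ ≤ 2 * ‖Z - Y‖ ^ (1 / 2 : ℝ) := fun Z hZ Y hY =>
    lip_half hρ1 hZ hY
  have hSl : ∀ Z ∈ W, ∀ Y ∈ W, |S u Z - S u Y| ≤ 2 * (G + 2) * ‖Z - Y‖ ^ (1 / 2 : ℝ) := by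
    intro Z hZ Y hY
    have h1 : ‖u (pz n Z) - u (pz n Y)‖ ≤ G * ‖pz n Z - pz n Y‖ :=
      (convex_ball z₀ ρ).norm_image_sub_le_of_norm_fderiv_le (𝕜 := ℝ)
        (fun y hy => (huc y hy).differentiableAt (by norm_num))
        (fun y hy => hG y (ball_subset_closedBall hy)) (hWz Y hY) (hWz Z hZ)
    have h2 : |(pw n Z).re - (pw n Y).re| ≤ ‖Z - Y‖ := by
      rw [← Complex.sub_re, ← map_sub]
      exact (Complex.abs_re_le_norm _).trans (norm_pw_le _)
    have h3 : S u Z - S u Y = (u (pz n Z) - u (pz n Y)) + 2 * ((pw n Z).re - (pw n Y).re) := by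
      simp only [S]
      ring
    rw [h3]
    refine (abs_add_le _ _).trans ?_
    rw [abs_mul, abs_two]
    rw [Real.norm_eq_abs] at h1
    have h4 := mul_le_mul_of_nonneg_left (hnz (Z := Z) (Y := Y)) hG0
    have h5 := hhalf Z hZ Y hY
    calc _ ≤ G * ‖Z - Y‖ + 2 * ‖Z - Y‖ := by linarith
      _ = (G + 2) * ‖Z - Y‖ := by ring
      _ ≤ (G + 2) * (2 * ‖Z - Y‖ ^ (1 / 2 : ℝ)) :=
          mul_le_mul_of_nonneg_left h5 (by positivity)
      _ = _ := by ring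
  obtain ⟨Ka, hKa0, hKa⟩ := ho_comp1 (X := Cn (n + 1)) isOpen_Ioi
    ((AYPsi_209.contDiffOn_g n R).of_le (by simp)) hsub
  obtain ⟨Kb', hKb0, hKb'⟩ := ho_comp1 (X := Cn (n + 1)) isOpen_Ioi
    ((AYPsi_209.contDiffOn_h n R).of_le (by simp)) hsub
  have ha := hKa (by positivity : 0 ≤ 2 * (G + 2)) hSI hSl
  have hb := hKb' (by positivity : 0 ≤ 2 * (G + 2)) hSI hSl
  set A0 : ℝ := Ka * (1 + 2 * (G + 2)) with hA0
  set B0 : ℝ := Kb' * (1 + 2 * (G + 2)) with hB0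
  have hA00 : 0 ≤ A0 := by positivity
  have hB00 : 0 ≤ B0 := by positivity
  set P0 : ℝ := (G + 2) + 2 * K with hP0
  have hP00 : 0 ≤ P0 := by positivity
  set C1 : ℝ := max C 0 + K with hC1
  have hC10 : 0 ≤ C1 := by positivity
  have hX : ∀ V V', HO (1 / 2) (C1 * (‖V‖ * ‖V'‖)) W
      (fun Z => fderiv ℝ (fderiv ℝ u) (pz n Z) (pz n V) (pz n V')) := by
    intro V V'
    have hvv : ‖pz n V‖ * ‖pz n V'‖ ≤ ‖V‖ * ‖V'‖ :=
      mul_le_mul (norm_pz_le _) (norm_pz_le _) (norm_nonneg _) (norm_nonneg _)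
    refine ⟨fun Z hZ => ?_, fun Z hZ Y hY => ?_⟩
    · refine (ContinuousLinearMap.le_opNorm₂ _ _ _).trans ?_
      rw [mul_assoc]
      refine mul_le_mul ((hKb _ (ball_subset_closedBall (hWz Z hZ))).trans ?_) hvv
        (by positivity) hC10
      rw [hC1]
      linarith [le_max_right C 0]
    · have h1 := ContinuousLinearMap.le_opNorm₂ (fderiv ℝ (fderiv ℝ u) (pz n Z) -
        fderiv ℝ (fderiv ℝ u) (pz n Y)) (pz n V) (pz n V')
      have h2 := hC _ (hcb (ball_subset_closedBall (hWz Z hZ))) _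
        (hcb (ball_subset_closedBall (hWz Y hY)))
      have h3 : ‖pz n Z - pz n Y‖ ^ (1 / 2 : ℝ) ≤ ‖Z - Y‖ ^ (1 / 2 : ℝ) :=
        Real.rpow_le_rpow (norm_nonneg _) hnz (by norm_num)
      have h4 : ‖fderiv ℝ (fderiv ℝ u) (pz n Z) - fderiv ℝ (fderiv ℝ u) (pz n Y)‖ ≤
          C1 * ‖Z - Y‖ ^ (1 / 2 : ℝ) := by
        refine h2.trans ?_
        calc C * ‖pz n Z - pz n Y‖ ^ (1 / 2 : ℝ) ≤ max C 0 * ‖pz n Z - pz n Y‖ ^ (1 / 2 : ℝ) :=
              mul_le_mul_of_nonneg_right (le_max_left _ _) (Real.rpow_nonneg (norm_nonneg _) _)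
          _ ≤ C1 * ‖Z - Y‖ ^ (1 / 2 : ℝ) :=
              mul_le_mul (by rw [hC1]; linarith) h3 (Real.rpow_nonneg (norm_nonneg _) _) hC10
      rw [mul_assoc] at h1
      calc _ ≤ _ := h1
        _ ≤ (C1 * ‖Z - Y‖ ^ (1 / 2 : ℝ)) * (‖V‖ * ‖V'‖) :=
            mul_le_mul h4 hvv (by positivity)
              (mul_nonneg hC10 (Real.rpow_nonneg (norm_nonneg _) _))
        _ = _ := by ring
  have hgrad : ∀ V, HO (1 / 2) (P0 * ‖V‖) W
      (fun Z => fderiv ℝ u (pz n Z) (pz n V) + 2 * (pw n V).re) := by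
    intro V
    refine ⟨fun Z hZ => ?_, fun Z hZ Y hY => ?_⟩
    · have h1 := (fderiv ℝ u (pz n Z)).le_opNorm (pz n V)
      have h2 := hG _ (ball_subset_closedBall (hWz Z hZ))
      have h3 := (Complex.abs_re_le_norm (pw n V)).trans (norm_pw_le V)
      have h4 := norm_pz_le V
      refine (norm_add_le _ _).trans ?_
      rw [norm_mul, Real.norm_eq_abs 2, abs_two, Real.norm_eq_abs (pw n V).re]
      have h5 : ‖fderiv ℝ u (pz n Z)‖ * ‖pz n V‖ ≤ G * ‖V‖ :=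
        mul_le_mul h2 h4 (norm_nonneg _) hG0
      have h6 : 0 ≤ 2 * K * ‖V‖ := by positivity
      calc _ ≤ G * ‖V‖ + 2 * ‖V‖ := by linarith
        _ ≤ P0 * ‖V‖ := by rw [hP0]; linarith
    · have h1 : ‖fderiv ℝ u (pz n Z) - fderiv ℝ u (pz n Y)‖ ≤ K * ‖pz n Z - pz n Y‖ :=
        (convex_ball z₀ ρ).norm_image_sub_le_of_norm_fderiv_le (𝕜 := ℝ)
          (fun y hy => ((huc y hy).fderiv_right (m := 1) (by norm_num)).differentiableAt
            (by norm_num)) (fun y hy => hKb y (ball_subset_closedBall hy)) (hWz Y hY) (hWz Z hZ)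
      have h2 := hhalf Z hZ Y hY
      have h3 := (fderiv ℝ u (pz n Z) - fderiv ℝ u (pz n Y)).le_opNorm (pz n V)
      have h4 : fderiv ℝ u (pz n Z) (pz n V) + 2 * (pw n V).re -
          (fderiv ℝ u (pz n Y) (pz n V) + 2 * (pw n V).re) =
          (fderiv ℝ u (pz n Z) - fderiv ℝ u (pz n Y)) (pz n V) := by
        rw [_root_.sub_apply]
        ring
      rw [h4]
      have h5 : ‖fderiv ℝ u (pz n Z) - fderiv ℝ u (pz n Y)‖ ≤ P0 * ‖Z - Y‖ ^ (1 / 2 : ℝ) := by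
        calc _ ≤ K * ‖pz n Z - pz n Y‖ := h1
          _ ≤ K * (2 * ‖Z - Y‖ ^ (1 / 2 : ℝ)) :=
              mul_le_mul_of_nonneg_left (hnz.trans h2) hK0
          _ = (2 * K) * ‖Z - Y‖ ^ (1 / 2 : ℝ) := by ring
          _ ≤ _ := mul_le_mul_of_nonneg_right (by rw [hP0]; linarith)
              (Real.rpow_nonneg (norm_nonneg _) _)
      calc _ ≤ _ := h3
        _ ≤ (P0 * ‖Z - Y‖ ^ (1 / 2 : ℝ)) * ‖V‖ :=
            mul_le_mul h5 (norm_pz_le _) (norm_nonneg _)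
              (mul_nonneg hP00 (Real.rpow_nonneg (norm_nonneg _) _))
        _ = _ := by ring
  set C2 : ℝ := 2 * A0 * C1 + 2 * B0 * (2 * P0 * P0) with hC2
  have hC20 : 0 ≤ C2 := by positivity
  have hHO : HO (1 / 2) C2 W (fderiv ℝ (fderiv ℝ Φ)) := by
    refine ho_bilin hC20 fun V V' => ?_
    have h1 := ho_mul (by positivity) (by positivity) (hgrad V) (hgrad V')
    have h2 := ho_mul hB00 (by positivity) hb h1
    have h3 := ho_mul hA00 (by positivity) ha (hX V V')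
    refine ((h3.add h2).mono (le_of_eq ?_)).congr fun Z hZ => ?_
    · rw [hC2]
      ring
    · exact fd2_Ph (huc _ (hWz Z hZ)) (hSR Z hZ) V V'
  have hΦs : ContDiffOn ℝ ∞ Φ W := by
    refine Crest.Agent.R273.CReg_933.reg_holds (n + 1) W Φ F (1 / 2) isOpen_ball (by norm_num)
      (by norm_num) hΦ2 hFs (fun Z hZ => ?_)
      (fun Z hZ V hV => lev_Ph_pos (huc _ (hWz Z hZ)) (hSR Z hZ) (hp _ (hbU (hWz Z hZ))) hV) hΦd
    obtain ⟨δ, hδ, hδs⟩ := Metric.isOpen_iff.1 isOpen_ball Z hZ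
    exact ⟨δ, hδ, C2, hδs, fun y hy w hw => hHO.hol y (hδs hy) w (hδs hw)⟩
  -- recovering `u`
  have hiz : ∀ z ∈ ball z₀ ρ, iz n z ∈ W := by
    intro z hz
    rw [hW, mem_ball, dist_eq_norm, ← map_sub, norm_iz, ← dist_eq_norm]
    exact hz
  have hD : ContDiffOn ℝ ∞ (fderiv ℝ Φ) W := hΦs.fderiv_of_isOpen isOpen_ball (by simp)
  have hD1 : ContDiffOn ℝ ∞ (fun z : Cn n => fderiv ℝ Φ (iz n z)) (ball z₀ ρ) :=
    hD.comp ((iz n).restrictScalars ℝ).contDiff.contDiffOn fun z hz => hiz z hz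
  have hD2 : ContDiffOn ℝ ∞ (fun z : Cn n =>
      fderiv ℝ Φ (iz n z) (EuclideanSpace.single (Fin.last n) 1)) (ball z₀ ρ) :=
    hD1.clm_apply contDiffOn_const
  have hD3 : ContDiffOn ℝ ∞ (fun z : Cn n => Real.exp R -
      (fderiv ℝ Φ (iz n z) (EuclideanSpace.single (Fin.last n) 1) / 2) ^ (n + 1) / (n + 1))
      (ball z₀ ρ) := contDiffOn_const.sub (((hD2.div_const 2).pow (n + 1)).div_const _)
  have hrec : ∀ z ∈ ball z₀ ρ, u z = - Real.log (Real.exp R -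
      (fderiv ℝ Φ (iz n z) (EuclideanSpace.single (Fin.last n) 1) / 2) ^ (n + 1) / (n + 1)) := by
    intro z hz
    have h1 : -R < u z := by
      have := hSR _ (hiz z hz)
      rwa [S_iz] at this
    exact recover ((huc z hz).differentiableAt (by norm_num)) h1
  have hne : ∀ z ∈ ball z₀ ρ, Real.exp R -
      (fderiv ℝ Φ (iz n z) (EuclideanSpace.single (Fin.last n) 1) / 2) ^ (n + 1) / (n + 1) ≠ 0 := by
    intro z hz
    have h1 : -R < u z := by
      have := hSR _ (hiz z hz)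
      rwa [S_iz] at this
    have h2 : DifferentiableAt ℝ u (pz n (iz n z)) := by
      rw [pz_iz]
      exact (huc z hz).differentiableAt (by norm_num)
    rw [hΦ, fd_Ph h2, S_iz, pz_single_last, pw_single_last, map_zero, one_re]
    have h3 : AYPsi_209.g n R (u z) * (0 + 2 * 1) / 2 = AYPsi_209.g n R (u z) := by ring
    have h4 : (n : ℝ) + 1 ≠ 0 := by positivity
    rw [h3, AYPsi_209.g_pow h1, mul_div_cancel_left₀ _ h4, sub_sub_cancel]
    exact (Real.exp_pos _).ne'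
  have hfin : ContDiffOn ℝ ∞ u (ball z₀ ρ) := ((hD3.log hne).neg).congr hrec
  exact (hfin.contDiffAt (isOpen_ball.mem_nhds (mem_ball_self hρ0))).contDiffWithinAt

end

end Crest.Agent.R257.AYReg_209
end

-- ▼ part R257/AYClose_209

/-!
# R257 (S0395), E-AY (helper209): negative Aubin-Yau, a priori estimates and closedness

* `SolA H F t φ` : smooth solution of `(ω_H + i∂∂̄φ)^n = e^(t F + φ) ω_H^n`
* `abs_le_of_sol` (C0), `c2_of_sol` (C2)
* `close_ay` : the set of solvable parameters is closed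
-/

set_option autoImplicit false
set_option linter.unusedSectionVars false

open Set Filter Topology Complex Metric
open scoped ContDiff Matrix ComplexConjugate ComplexOrder

namespace Crest.Agent.R257.AYClose_209

open Crest.Agent.R275.Geo Crest.Agent.R275.Core144 Crest.Agent.R275.GC293
open Crest.Agent.R273.Defs_333 Crest.Agent.R273.YauDefs_635 Crest.Agent.R273.HM_333
open Crest.Agent.R273.YauCh_635 Crest.Agent.R273.YauMax_635 Crest.Agent.R273.YauLim_635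
open Crest.Agent.R273.YauLoc_635 Crest.Agent.R273.YauClose_635
open Crest.Agent.R257.AYLoc_209 Crest.Agent.R257.AYReg_209

noncomputable section

variable {n : ℕ} {M : Type} [TopologicalSpace M] {A : Atl n M} {L : LB A}

/-- smooth solution of `(ω_H + i∂∂̄φ)^n = e^(t F + φ) ω_H^n` -/
def SolA (H : HM L) (F : M → ℝ) (t : ℝ) (φ : M → ℝ) : Prop :=
  A.Sm φ ∧ KPos H φ ∧ MA H φ (fun x => t * F x + φ x)

/-- compact negative Aubin-Yau theorem -/
def AYStmt : Prop :=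
  ∀ (n : ℕ) (M : Type) [TopologicalSpace M] [T2Space M] [CompactSpace M] [ConnectedSpace M]
    (A : Atl n M) [Finite A.ι], GoodA A → Nonempty (Part A) →
    ∀ (L : LB A) (H : HM L), H.Pos → ∀ F : M → ℝ, A.Sm F →
      ∃ φ : M → ℝ, A.Sm φ ∧ KPos H φ ∧ MA H φ (fun x => F x + φ x)

/-! ### a priori estimates -/

/-- **C0 estimate** -/
theorem abs_le_of_sol [CompactSpace M] {H : HM L} (hH : H.Pos) {F φ : M → ℝ} {t K : ℝ}
    (hF : ∀ x, |F x| ≤ K) (ht0 : 0 ≤ t) (ht1 : t ≤ 1) (hs : SolA H F t φ) (x : M) :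
    |φ x| ≤ K := by
  obtain ⟨hφ, hKp, hMA⟩ := hs
  have hne : (univ : Set M).Nonempty := ⟨x, mem_univ x⟩
  have hc := continuous_of_sm hφ
  obtain ⟨x1, -, hx1⟩ := isCompact_univ.exists_isMinOn hne hc.continuousOn
  obtain ⟨x2, -, hx2⟩ := isCompact_univ.exists_isMaxOn hne hc.continuousOn
  have h1 : IsLocalMin φ x1 := hx1.isLocalMin univ_mem
  have h2 : IsLocalMax φ x2 := hx2.isLocalMax univ_mem
  have h3 := f_nonneg_of_min hH hφ hMA h1
  have h4 := f_nonpos_of_max hH hφ hKp hMA h2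
  have hK : 0 ≤ K := (abs_nonneg _).trans (hF x)
  have h5 : ∀ y, |t * F y| ≤ K := fun y => by
    rw [abs_mul, abs_of_nonneg ht0]
    calc t * |F y| ≤ 1 * K := mul_le_mul ht1 (hF y) (abs_nonneg _) zero_le_one
      _ = K := one_mul K
  have h6 : φ x1 ≤ φ x := hx1 (mem_univ x)
  have h7 : φ x ≤ φ x2 := hx2 (mem_univ x)
  have h8 := (abs_le.1 (h5 x1)).2
  have h9 := (abs_le.1 (h5 x2)).1
  rw [abs_le]
  constructor <;> linarith

theorem lev_pot_eq (H : HM L) {φ : M → ℝ} (hφ : A.Sm φ) {i : A.ι} {z : Cn n}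
    (hz : z ∈ (A.e i).target) (v : Cn n) :
    lev (pot H φ i) z v = lev (H.wt i) z v + lev (inC A i φ) z v := by
  rw [lev333_eq_lev145, lev333_eq_lev145, lev333_eq_lev145]
  have h := Crest.Agent.R273.Levi_145.lev_add (wt_c2 H i hz) (inC_c2 hφ i hz) v
  have e : Crest.Agent.R273.Levi_145.lev (pot H φ i) z v =
      Crest.Agent.R273.Levi_145.lev (H.wt i) z v +
        Crest.Agent.R273.Levi_145.lev (inC A i φ) z v := h
  rw [e]
  ring

theorem lev_wt_nonneg {H : HM L} (hH : H.Pos) {i : A.ι} {z : Cn n}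
    (hz : z ∈ (A.e i).target) (v : Cn n) : 0 ≤ lev (H.wt i) z v := by
  rcases eq_or_ne v 0 with rfl | hv
  · rw [lev_zero]
  · exact (hH i z hz v hv).le

theorem lev_pot_nonneg {H : HM L} {φ : M → ℝ} (hK : KPos H φ) {i : A.ι} {z : Cn n}
    (hz : z ∈ (A.e i).target) (v : Cn n) : 0 ≤ lev (pot H φ i) z v := by
  rcases eq_or_ne v 0 with rfl | hv
  · rw [lev_zero]
  · exact (hK i z hz v hv).le

theorem sm_rhs {F φ : M → ℝ} (hF : A.Sm F) (hφ : A.Sm φ) (t : ℝ) :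
    A.Sm (fun x => t * F x + φ x) := fun i =>
  (contDiffOn_const.mul (hF i)).add (hφ i)

/-- **C2 estimate** -/
theorem c2_of_sol [CompactSpace M] [Nonempty M] {H : HM L} (hH : H.Pos) {F : M → ℝ}
    (hF : A.Sm F) : ∃ C : ℝ, 0 < C ∧ ∀ (t : ℝ) (φ : M → ℝ), 0 ≤ t → t ≤ 1 → SolA H F t φ →
      ∀ i, ∀ z ∈ (A.e i).target, ∀ v,
        lev (pot H φ i) z v ≤ C * lev (H.wt i) z v ∧
          lev (H.wt i) z v ≤ C * lev (pot H φ i) z v := by
  have hFc : Continuous F := continuous_of_sm hF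
  obtain ⟨K0, hK0'⟩ := isCompact_univ.exists_bound_of_continuousOn hFc.continuousOn
  have hK0 : ∀ x, |F x| ≤ K0 := fun x => hK0' x (mem_univ x)
  obtain ⟨K1, hK10, hK1⟩ := exists_lev_bound hH hF
  have hK00 : 0 ≤ K0 := (abs_nonneg _).trans (hK0 (Classical.arbitrary M))
  set K2 : ℝ := max (2 * K0) (K1 + 1) with hK2
  obtain ⟨C, hC0, hC⟩ := Crest.Agent.R273.C2f_793.c2_gen (A := A) hH K2
  refine ⟨C, hC0, fun t φ ht0 ht1 hs => ?_⟩
  have hφb := abs_le_of_sol hH hK0 ht0 ht1 hs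
  obtain ⟨hφ, hKp, hMA⟩ := hs
  refine hC φ _ hφ (sm_rhs hF hφ t) hKp hMA (fun x => ?_) (fun i z hz v => ?_) (fun x y => ?_)
  · have h1 : |t * F x| ≤ K0 := by
      rw [abs_mul, abs_of_nonneg ht0]
      calc t * |F x| ≤ 1 * K0 := mul_le_mul ht1 (hK0 x) (abs_nonneg _) zero_le_one
        _ = K0 := one_mul K0
    calc |t * F x + φ x| ≤ |t * F x| + |φ x| := abs_add_le _ _
      _ ≤ K0 + K0 := add_le_add h1 (hφb x)
      _ = 2 * K0 := by ring
      _ ≤ K2 := le_max_left _ _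
  · have hcF := inC_c2 hF i hz
    have hcφ := inC_c2 hφ i hz
    have e1 : inC A i (fun x => t * F x + φ x) = fun w => t * inC A i F w + inC A i φ w := rfl
    have e2 : lev (fun w => t * inC A i F w + inC A i φ w) z v =
        t * lev (inC A i F) z v + lev (inC A i φ) z v := by
      rw [lev333_eq_lev145, lev333_eq_lev145, lev333_eq_lev145,
        Crest.Agent.R273.Levi_145.lev_add (contDiffAt_const.mul hcF) hcφ,
        Crest.Agent.R273.Levi_145.lev_const_mul t hcF]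
      ring
    have h1 := hK1 i z hz v
    have h2 := lev_pot_eq H hφ hz v
    have h3 := lev_pot_nonneg hKp hz v
    have h4 := lev_wt_nonneg hH hz v
    have h5 : |t * lev (inC A i F) z v| ≤ K1 * lev (H.wt i) z v := by
      rw [abs_mul, abs_of_nonneg ht0]
      calc t * |lev (inC A i F) z v| ≤ 1 * |lev (inC A i F) z v| :=
            mul_le_mul_of_nonneg_right ht1 (abs_nonneg _)
        _ ≤ _ := by rw [one_mul]; exact h1
    have h6 := (abs_le.1 h5).1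
    have h7 : (K1 + 1) * lev (H.wt i) z v ≤ K2 * lev (H.wt i) z v :=
      mul_le_mul_of_nonneg_right (le_max_right _ _) h4
    rw [e1, e2]
    linarith
  · have h1 := (abs_le.1 (hφb x)).2
    have h2 := (abs_le.1 (hφb y)).1
    have : 2 * K0 ≤ K2 := le_max_left _ _
    linarith

/-! ### the local right hand side -/

/-- local right hand side: `det ∂∂̄u = e^(fh + u)` -/
def fhA (H : HM L) (F : M → ℝ) (t : ℝ) (i : A.ι) (z : Cn n) : ℝ :=
  t * inC A i F z + 0 + (ldet H i z - H.wt i z)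

theorem fhA_smooth {H : HM L} (hH : H.Pos) {F : M → ℝ} (hF : A.Sm F) (t : ℝ) (i : A.ι) :
    ContDiffOn ℝ ∞ (fhA H F t i) (A.e i).target :=
  ((contDiffOn_const.mul (inC_smooth hF i)).add contDiffOn_const).add
    ((ldet_smooth hH i).sub (wt_smooth H i))

theorem det_fhA {H : HM L} (hH : H.Pos) {F φ : M → ℝ} {t : ℝ}
    (h : MA H φ (fun x => t * F x + φ x)) {i : A.ι} {z : Cn n} (hz : z ∈ (A.e i).target) :
    (cH (pot H φ i) z).det = (Real.exp (fhA H F t i z + pot H φ i z) : ℂ) := by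
  have e : fhA H F t i z + pot H φ i z =
      (t * F ((A.e i).symm z) + φ ((A.e i).symm z)) + ldet H i z := by
    simp only [fhA, pot, inC]
    ring
  rw [h i z hz, ← exp_ldet hH hz, e, Real.exp_add _ (ldet H i z)]
  simp [inC]

theorem fhA_bound {H : HM L} (hH : H.Pos) {F : M → ℝ} (hF : A.Sm F) (i : A.ι) {K : Set (Cn n)}
    (hK : IsCompact K) (hKt : K ⊆ (A.e i).target) :
    ∃ B : ℝ, ∀ t : ℝ, |t| ≤ 1 → ∀ z ∈ K, ∀ j : ℕ, 1 ≤ j → j ≤ 3 →
      ‖iteratedFDeriv ℝ j (fhA H F t i) z‖ ≤ B := by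
  have hl : ContDiffOn ℝ ∞ (fun z => ldet H i z - H.wt i z) (A.e i).target :=
    (ldet_smooth hH i).sub (wt_smooth H i)
  have h1 : ∀ j : ℕ, ∃ B : ℝ, ∀ z ∈ K, ‖iteratedFDeriv ℝ j (inC A i F) z‖ ≤ B := fun j =>
    hK.exists_bound_of_continuousOn
      ((continuousOn_iter (A.e i).open_target (inC_smooth hF i) j).mono hKt)
  have h2 : ∀ j : ℕ, ∃ B : ℝ, ∀ z ∈ K,
      ‖iteratedFDeriv ℝ j (fun z => ldet H i z - H.wt i z) z‖ ≤ B := fun j =>
    hK.exists_bound_of_continuousOn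
      ((continuousOn_iter (A.e i).open_target hl j).mono hKt)
  choose B1 hB1 using h1
  choose B2 hB2 using h2
  refine ⟨∑ j ∈ Finset.range 4, (|B1 j| + |B2 j|), fun t ht z hz j hj1 hj3 => ?_⟩
  have hzt := hKt hz
  have e1 : iteratedFDeriv ℝ j (fhA H F t i) z =
      t • iteratedFDeriv ℝ j (inC A i F) z +
        iteratedFDeriv ℝ j (fun z => ldet H i z - H.wt i z) z :=
    iter_affine (inC_contDiffAt hF i hzt)
      (hl.contDiffAt ((A.e i).open_target.mem_nhds hzt)) t 0 hj1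
  rw [e1]
  calc _ ≤ ‖t • iteratedFDeriv ℝ j (inC A i F) z‖ +
        ‖iteratedFDeriv ℝ j (fun z => ldet H i z - H.wt i z) z‖ := norm_add_le _ _
    _ ≤ |B1 j| + |B2 j| := by
        refine add_le_add ?_ ((hB2 j z hz).trans (le_abs_self _))
        rw [norm_smul, Real.norm_eq_abs]
        calc |t| * ‖iteratedFDeriv ℝ j (inC A i F) z‖ ≤ 1 * |B1 j| :=
              mul_le_mul ht ((hB1 j z hz).trans (le_abs_self _)) (norm_nonneg _) zero_le_one
          _ = |B1 j| := one_mul _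
    _ ≤ _ := Finset.single_le_sum (f := fun j => |B1 j| + |B2 j|)
        (fun j _ => add_nonneg (abs_nonneg _) (abs_nonneg _)) (Finset.mem_range.2 (by omega))

/-- smoothness of `C^{2,1/2}` solutions -/
theorem sm_of_c2a {H : HM L} (hH : H.Pos) {F Φ : M → ℝ} (hF : A.Sm F) {T : ℝ}
    (hc2 : ∀ i, ContDiffOn ℝ 2 (pot H Φ i) (A.e i).target) (hKP : KPos H Φ)
    (hMA : MA H Φ (fun x => T * F x + Φ x))
    (hh : ∀ i, ∀ z₀ ∈ (A.e i).target, ∃ r > 0, ∃ C, ball z₀ r ⊆ (A.e i).target ∧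
      ∀ z ∈ ball z₀ r, ∀ w ∈ ball z₀ r, ‖fderiv ℝ (fderiv ℝ (pot H Φ i)) z -
        fderiv ℝ (fderiv ℝ (pot H Φ i)) w‖ ≤ C * ‖z - w‖ ^ (1 / 2 : ℝ)) : SolA H F T Φ := by
  have hsm : ∀ i, ContDiffOn ℝ ∞ (pot H Φ i) (A.e i).target := fun i =>
    reg_ay (A.e i).open_target (hc2 i) (fhA_smooth hH hF T i) (hh i) (hKP i)
      (fun z hz => det_fhA hH hMA hz)
  refine ⟨fun i => ?_, hKP, hMA⟩
  have h1 := (hsm i).sub (wt_smooth H i)
  refine h1.congr fun z hz => ?_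
  simp [pot, inC]

/-- **closedness** -/
theorem close_ay (h3 : C3Stmt) [T2Space M] [CompactSpace M] [ConnectedSpace M] [Finite A.ι]
    {H : HM L} (hH : H.Pos) {F : M → ℝ} (hF : A.Sm F) {t : ℕ → ℝ} {T : ℝ}
    (ht : ∀ k, 0 ≤ t k ∧ t k ≤ 1) (hT : Tendsto t atTop (𝓝 T))
    (hsol : ∀ k, ∃ φ, SolA H F (t k) φ) : ∃ φ, SolA H F T φ := by
  choose ψ hψ using hsol
  obtain ⟨x₀⟩ : Nonempty M := inferInstance
  have hFc : Continuous F := continuous_of_sm hF
  obtain ⟨K0, hK0'⟩ := isCompact_univ.exists_bound_of_continuousOn hFc.continuousOn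
  have hK0 : ∀ x, |F x| ≤ K0 := fun x => hK0' x (mem_univ x)
  have hψb : ∀ k x, ‖ψ k x‖ ≤ K0 := fun k x => abs_le_of_sol hH hK0 (ht k).1 (ht k).2 (hψ k) x
  obtain ⟨C2, hC20, hC2⟩ := c2_of_sol hH hF
  have hcmp : ∀ k i, ∀ z ∈ (A.e i).target, ∀ v,
      lev (pot H (ψ k) i) z v ≤ C2 * lev (H.wt i) z v ∧
        lev (H.wt i) z v ≤ C2 * lev (pot H (ψ k) i) z v := fun k =>
    hC2 (t k) (ψ k) (ht k).1 (ht k).2 (hψ k)
  have htabs : ∀ k, |t k| ≤ 1 := fun k => by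
    rw [abs_of_nonneg (ht k).1]
    exact (ht k).2
  -- limits
  set U : Ultrafilter ℕ := hyperfilter ℕ with hU
  have hUle : (U : Filter ℕ) ≤ atTop := Nat.hyperfilter_le_atTop
  have htU : Tendsto t U (𝓝 T) := hT.mono_left hUle
  have hlim : ∀ x, ∃ y, Tendsto (fun k => ψ k x) U (𝓝 y) := fun x =>
    exists_lim U (fun k => hψb k x)
  choose Φ hΦ using hlim
  have hpot : ∀ i z, Tendsto (fun k => pot H (ψ k) i z) U (𝓝 (pot H Φ i z)) := fun i z =>
    tendsto_const_nhds.add (hΦ _)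
  -- local analysis
  have hloc : ∀ i, ∀ z₀ ∈ (A.e i).target, ∃ ρ C : ℝ, 0 < ρ ∧ ball z₀ ρ ⊆ (A.e i).target ∧
      ContDiffOn ℝ 2 (pot H Φ i) (ball z₀ ρ) ∧
      (∀ z ∈ ball z₀ ρ, Tendsto (fun k => fderiv ℝ (fderiv ℝ (pot H (ψ k) i)) z) U
        (𝓝 (fderiv ℝ (fderiv ℝ (pot H Φ i)) z))) ∧
      ∀ z ∈ ball z₀ ρ, ∀ w ∈ ball z₀ ρ,
        ‖fderiv ℝ (fderiv ℝ (pot H Φ i)) z - fderiv ℝ (fderiv ℝ (pot H Φ i)) w‖
          ≤ C * ‖z - w‖ ^ (1 / 2 : ℝ) := by
    intro i z₀ hz₀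
    obtain ⟨r, hr, hrs⟩ := Metric.nhds_basis_closedBall.mem_iff.1
      ((A.e i).open_target.mem_nhds hz₀)
    have hKc : IsCompact (closedBall z₀ r) := isCompact_closedBall _ _
    have hbt : ball z₀ r ⊆ (A.e i).target := ball_subset_closedBall.trans hrs
    obtain ⟨hi, hhi0, hhi⟩ := lev_upper (A.e i).open_target
      ((wt_smooth H i).of_le two_le_inf) hKc hrs
    obtain ⟨lo, hlo0, hlo⟩ := lev_lower (A.e i).open_target
      ((wt_smooth H i).of_le two_le_inf) hKc hrs (fun z hz v hv => hH i z (hrs hz) v hv)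
    obtain ⟨B, hB⟩ := fhA_bound hH hF i hKc hrs
    obtain ⟨W, hW⟩ := hKc.exists_bound_of_continuousOn ((wt_smooth H i).continuousOn.mono hrs)
    obtain ⟨ρ, C, hρ0, hρr, g1, g2, g3⟩ := local_limit_ay h3 U (z₀ := z₀) (r := r)
      (lo := lo / C2) (hi := C2 * hi) (K := B) (N := W + K0) hr (by positivity)
      (u := fun k => pot H (ψ k) i) (f := fun k => fhA H F (t k) i) (V := pot H Φ i)
      (fun k => ((wt_smooth H i).add (inC_smooth (hψ k).1 i)).mono hbt)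
      (fun k => (fhA_smooth hH hF (t k) i).mono hbt)
      (fun k z hz v => by
        have hzc := ball_subset_closedBall hz
        obtain ⟨a1, a2⟩ := hcmp k i z (hbt hz) v
        constructor
        · have a3 := (hlo z hzc v).trans a2
          rw [div_mul_eq_mul_div, div_le_iff₀ hC20]
          linarith
        · have a3 := (le_abs_self _).trans (hhi z hzc v)
          calc _ ≤ C2 * lev (H.wt i) z v := a1
            _ ≤ C2 * (hi * ‖v‖ ^ 2) := mul_le_mul_of_nonneg_left a3 hC20.le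
            _ = _ := by ring)
      (fun k z hz => det_fhA hH (hψ k).2.2 (hbt hz))
      (fun k z hz j hj1 hj3 => hB (t k) (htabs k) z (ball_subset_closedBall hz) j hj1 hj3)
      (fun k z hz => by
        have b1 := hW z (ball_subset_closedBall hz)
        have b2 := hψb k ((A.e i).symm z)
        rw [Real.norm_eq_abs] at b1 b2
        exact (abs_add_le _ _).trans (add_le_add b1 b2))
      (fun z _ => hpot i z)
    exact ⟨ρ, C, hρ0, (ball_subset_ball hρr).trans hbt, g1, g2, g3⟩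
  have hc2 : ∀ i, ContDiffOn ℝ 2 (pot H Φ i) (A.e i).target := by
    intro i z hz
    obtain ⟨ρ, C, hρ0, -, g1, -, -⟩ := hloc i z hz
    exact (g1.contDiffAt (isOpen_ball.mem_nhds (mem_ball_self hρ0))).contDiffWithinAt
  have hpt : ∀ i, ∀ z ∈ (A.e i).target,
      Tendsto (fun k => fderiv ℝ (fderiv ℝ (pot H (ψ k) i)) z) U
        (𝓝 (fderiv ℝ (fderiv ℝ (pot H Φ i)) z)) := by
    intro i z hz
    obtain ⟨ρ, C, hρ0, -, -, g2, -⟩ := hloc i z hz
    exact g2 z (mem_ball_self hρ0)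
  have hKP : KPos H Φ := by
    intro i z hz v hv
    have h1 : lev (H.wt i) z v ≤ C2 * lev (pot H Φ i) z v :=
      ge_of_tendsto ((tendsto_lev (hpt i z hz) v).const_mul C2)
        (Eventually.of_forall fun k => (hcmp k i z hz v).2)
    have h2 := hH i z hz v hv
    by_contra hcon
    push Not at hcon
    nlinarith
  have hMA : MA H Φ (fun x => T * F x + Φ x) := by
    intro i z hz
    have h1 := tendsto_det (hpt i z hz)
    have h4 : Tendsto (fun k => t k * F ((A.e i).symm z) + ψ k ((A.e i).symm z)) U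
        (𝓝 (T * F ((A.e i).symm z) + Φ ((A.e i).symm z))) := (htU.mul_const _).add (hΦ _)
    have h5 : Tendsto (fun k =>
        (Real.exp (t k * F ((A.e i).symm z) + ψ k ((A.e i).symm z)) : ℂ)
        * (cH (H.wt i) z).det) U
        (𝓝 ((Real.exp (T * F ((A.e i).symm z) + Φ ((A.e i).symm z)) : ℂ) *
          (cH (H.wt i) z).det)) :=
      (((Complex.continuous_ofReal.tendsto _).comp
        ((Real.continuous_exp.tendsto _).comp h4))).mul_const _
    refine tendsto_nhds_unique h1 (h5.congr fun k => ?_)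
    exact ((hψ k).2.2 i z hz).symm
  refine ⟨Φ, sm_of_c2a hH hF hc2 hKP hMA fun i z₀ hz₀ => ?_⟩
  obtain ⟨ρ, C, hρ0, hρt, -, -, g3⟩ := hloc i z₀ hz₀
  exact ⟨ρ, hρ0, C, hρt, g3⟩

/-- the start of the path -/
theorem solA_zero {H : HM L} (hH : H.Pos) (F : M → ℝ) : SolA H F 0 (fun _ => 0) := by
  obtain ⟨h1, h2, h3⟩ := sol_zero hH F
  refine ⟨h1, h2, ?_⟩
  intro i z hz
  rw [h3 i z hz]

end

end Crest.Agent.R257.AYClose_209
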