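import Crest.Agent.R273.SchK_152
import Crest.Agent.R273.CLinE_933
import Crest.Agent.R273.YauPf_635
import Crest.Agent.R273.YauLin_635
import Crest.Agent.R257.AYClose_209
import Crest.Agent.R273.YauOpen_635
import Crest.Agent.R273.YauC3_812
import Crest.Agent.R273.Vol_333

-- ▼ part R257/AYLin_209
section

/-!
# R257 (S0395), E-AY (helper209): linear theory of `Δ - s` on a compact Kaehler manifold

* `abs_le_of_lap`  : `|v| ≤ |f| / s` for `Lap v - s v = f`
* `ls_bound`       : `|v|_{2,1/2} ≤ C |f|_{1/2}`, uniform for `s ∈ [s0, 1]`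
* `approx`         : approximate solvability of `Lap w - w = f` (method of continuity in `s`, all
                     functions stay smooth)
-/

set_option autoImplicit false
set_option linter.unusedSectionVars false

open Set Metric Filter MeasureTheory
open scoped ContDiff Topology Matrix ComplexConjugate ComplexOrder MatrixOrder

namespace Crest.Agent.R257.AYLin_209

open Crest.Agent.R275 Crest.Agent.R275.Geo Crest.Agent.R275.Core144 Crest.Agent.R275.EDR890
open Crest.Agent.R273.Defs_333 Crest.Agent.R273.Hess_333 Crest.Agent.R273.HessB_333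
open Crest.Agent.R273.HM_333 Crest.Agent.R273.Kah_333 Crest.Agent.R273.Vol_333
open Crest.Agent.R273.Vm_333
open Crest.Agent.R273.SchA_152 Crest.Agent.R273.SchD_152 Crest.Agent.R273.SchE_152
  Crest.Agent.R273.SchF_152 Crest.Agent.R273.SchG_152 Crest.Agent.R273.SchH_152
  Crest.Agent.R273.SchI_152 Crest.Agent.R273.SchJ_152 Crest.Agent.R273.SchK_152
open Crest.Agent.R273.YauDefs_635 Crest.Agent.R273.YauCh_635 Crest.Agent.R273.YauMax_635

noncomputable section

/-! ### maximum principle -/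

theorem tr_nonneg {m : Type*} [Fintype m] [DecidableEq m] {G P : Matrix m m ℂ} (hG : G.PosDef)
    (hP : P.PosSemidef) : 0 ≤ ((G * P).trace).re := by
  obtain ⟨C, hC⟩ := CStarAlgebra.nonneg_iff_eq_star_mul_self.mp hG.posSemidef.nonneg
  rw [Matrix.star_eq_conjTranspose] at hC
  have h1 : (G * P).trace = (C * P * Cᴴ).trace := by
    rw [hC, Matrix.mul_assoc, Matrix.trace_mul_comm]
  rw [h1]
  have h2 := (hP.mul_mul_conjTranspose_same C).trace_nonneg
  exact (Complex.nonneg_iff.1 h2).1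

variable {n : ℕ} {M : Type} [TopologicalSpace M] {A : Atl n M} {L : LB A}

theorem Lap_nonneg_of_min (K : Kah A) {v : M → ℝ} (hv : A.Sm v) {x : M} (hm : IsLocalMin v x) :
    0 ≤ Lap K v x := by
  obtain ⟨i, hi⟩ := A.cover x
  have hz := (A.e i).map_source hi
  have h1 := isLap K hv i _ hz
  have h2 : (hess (inC A i v) (A.e i x)).PosSemidef :=
    posSemidef_hess (inC_contDiffAt hv i hz)
      (lev_nonneg_of_localMin (inC_c2 hv i hz) (inC_localMin hm hi))
  have h3 : inC A i (Lap K v) (A.e i x) = Lap K v x := by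
    simp only [inC, (A.e i).left_inv hi]
  rw [h3, cH_eq_hess (inC_contDiffAt hv i hz)] at h1
  rw [← h1]
  exact tr_nonneg ((pg K).pos i _ hz) h2

theorem Lap_add (K : Kah A) {v w : M → ℝ} (hv : A.Sm v) (hw : A.Sm w) :
    Lap K (fun x => v x + w x) = fun x => Lap K v x + Lap K w x := by
  refine lap_of_isLap K (fun i => (hv i).add (hw i)) fun i z hz => ?_
  have h1 := isLap K hv i z hz
  have h2 := isLap K hw i z hz
  have e1 : cH (inC A i fun x => v x + w x) z = cH (inC A i v) z + cH (inC A i w) z :=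
    Crest.Agent.R273.YauPf_635.cH_add' (inC_contDiffAt hv i hz) (inC_contDiffAt hw i hz)
  rw [e1, Matrix.mul_add, Matrix.trace_add, Complex.add_re, h1, h2]
  rfl

theorem Lap_neg (K : Kah A) {v : M → ℝ} (hv : A.Sm v) :
    Lap K (fun x => - v x) = fun x => - Lap K v x := by
  refine lap_of_isLap K (fun i => (hv i).neg) fun i z hz => ?_
  have h1 := isLap K hv i z hz
  have e1 : cH (inC A i fun x => - v x) z = - cH (inC A i v) z := by
    rw [cH_eq_hess (inC_contDiffAt (fun i => (hv i).neg) i hz), cH_eq_hess (inC_contDiffAt hv i hz)]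
    exact hess_neg (inC_contDiffAt hv i hz)
  rw [e1, Matrix.mul_neg, Matrix.trace_neg, Complex.neg_re, h1]
  rfl

theorem Lap_nonpos_of_max (K : Kah A) {v : M → ℝ} (hv : A.Sm v) {x : M} (hm : IsLocalMax v x) :
    Lap K v x ≤ 0 := by
  have h1 : IsLocalMin (fun y => - v y) x := hm.neg
  have h2 := Lap_nonneg_of_min K (fun i => (hv i).neg) h1
  rw [Lap_neg K hv] at h2
  linarith

/-- **maximum principle** for `Lap v - s v = f` -/
theorem abs_le_of_lap [CompactSpace M] (K : Kah A) {v f : M → ℝ} {s N : ℝ} (hs : 0 < s)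
    (hv : A.Sm v) (he : ∀ x, Lap K v x - s * v x = f x) (hf : ∀ x, |f x| ≤ N) (x : M) :
    |v x| ≤ N / s := by
  have hne : (univ : Set M).Nonempty := ⟨x, mem_univ x⟩
  have hc := continuous_of_sm hv
  obtain ⟨x1, -, hx1⟩ := isCompact_univ.exists_isMinOn hne hc.continuousOn
  obtain ⟨x2, -, hx2⟩ := isCompact_univ.exists_isMaxOn hne hc.continuousOn
  have h3 := Lap_nonneg_of_min K hv (hx1.isLocalMin univ_mem)
  have h4 := Lap_nonpos_of_max K hv (hx2.isLocalMax univ_mem)
  have h5 := he x1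
  have h6 := he x2
  have h7 := (abs_le.1 (hf x1)).2
  have h8 := (abs_le.1 (hf x2)).1
  have h9 : v x1 ≤ v x := hx1 (mem_univ x)
  have h10 : v x ≤ v x2 := hx2 (mem_univ x)
  have a1 : -(N / s) ≤ v x1 := by
    rw [← neg_div, div_le_iff₀ hs]
    linarith
  have a2 : v x2 ≤ N / s := by
    rw [le_div_iff₀ hs]
    linarith
  rw [abs_le]
  constructor <;> linarith

/-! ### algebra of the norms -/

theorem NH_add {B : Cb A} {a N N' : ℝ} {f f' : M → ℝ} (h : B.NH a N f) (h' : B.NH a N' f') :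
    B.NH a (N + N') (fun x => f x + f' x) := fun k => (h k).add (h' k)

theorem NH_smul {B : Cb A} {a N : ℝ} {f : M → ℝ} (c : ℝ) (h : B.NH a N f) :
    B.NH a (|c| * N) (fun x => c * f x) := by
  intro k
  refine ⟨fun z hz => ?_, fun z hz w hw => ?_⟩
  · show ‖c * inC A (B.i k) f z‖ ≤ _
    rw [norm_mul, Real.norm_eq_abs]
    exact mul_le_mul_of_nonneg_left ((h k).bdd z hz) (abs_nonneg _)
  · show ‖c * inC A (B.i k) f z - c * inC A (B.i k) f w‖ ≤ _
    rw [← mul_sub, norm_mul, Real.norm_eq_abs, mul_assoc]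
    exact mul_le_mul_of_nonneg_left ((h k).hol z hz w hw) (abs_nonneg _)


variable [T2Space M] [CompactSpace M] [ConnectedSpace M] [Finite A.ι]

/-- **Schauder estimate** for `Lap v - s v = f`, `s0 ≤ s ≤ 1` -/
theorem ls_bound (P : Part A) (K : Kah A) (B : Cb A) {a : ℝ} (ha : 0 < a) (ha1 : a < 1) {s0 : ℝ}
    (hs0 : 0 < s0) :
    ∃ C : ℝ, 0 < C ∧ ∀ (s : ℝ) (v f : M → ℝ) (N : ℝ), s0 ≤ s → s ≤ 1 → A.Sm v →
      (∀ x, Lap K v x - s * v x = f x) → B.NH a N f → B.N2 a (C * N) v := by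
  let _ : MeasurableSpace M := borel M
  have : BorelSpace M := ⟨rfl⟩
  have hfin := B.fin
  set μ := vm (volK K) with hμ
  have hμfin : IsFiniteMeasure μ := isFinite_vm (volK K)
  obtain ⟨Ks, hKs, hsch⟩ := schauder B ha ha1 (pg K)
  have hκ : Nonempty B.κ := by
    obtain ⟨x⟩ : Nonempty M := inferInstance
    exact ⟨(B.cover x).choose⟩
  -- ellipticity
  have hell : ∃ lo : ℝ, 0 < lo ∧ ∀ k, ∀ z ∈ closedBall (B.z k) (B.r k / 2), ∃ hi,
      EllC lo hi (gi K (B.i k) z) := by
    have h1 : ∀ k, ∃ lo : ℝ, 0 < lo ∧ ∀ z ∈ closedBall (B.z k) (B.r k / 2), ∃ hi,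
        EllC lo hi (gi K (B.i k) z) := by
      intro k
      obtain ⟨lo, hi, hlo, -, hell⟩ := exists_ell (G := gi K (B.i k))
        (isCompact_closedBall (B.z k) (B.r k / 2))
        (fun i j => ((pg K).sm _ i j).continuousOn.mono (B.sub' k))
        (fun z hz => (pg K).pos _ z (B.sub' k hz))
      exact ⟨lo, hlo, fun z hz => ⟨hi, hell z hz⟩⟩
    choose lo hlo hell using h1
    obtain ⟨k0, hk0⟩ := Finite.exists_min lo
    refine ⟨lo k0, hlo k0, fun k z hz => ?_⟩
    obtain ⟨hi, h⟩ := hell k z hz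
    exact ⟨hi, EllC.mono h (hk0 k) le_rfl⟩
  obtain ⟨lo, hlo, hell⟩ := hell
  set S : ℝ := 1 / s0 with hS
  have hS0 : 0 < S := by positivity
  -- radius
  obtain ⟨ρ, hρ, -, hρa⟩ := Crest.Agent.R238.Sch.exists_rpow_le (a := a)
    (κ := 1 / (2 * (Ks * (2 + 2 * S)))) ha (by positivity)
  -- measure
  have hmeas : ∃ m : ℝ, 0 < m ∧ ∀ k, ∀ z ∈ closedBall (B.z k) (B.r k / 2), ∃ E : Set M,
      MeasurableSet E ∧ (∀ x ∈ E, x ∈ (A.e (B.i k)).source ∧ A.e (B.i k) x ∈ ball z ρ ∧
        A.e (B.i k) x ∈ closedBall (B.z k) (B.r k / 2)) ∧ m ≤ μ.real E := by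
    choose m hm H using fun k => meas_lb B (volK K) hρ k
    obtain ⟨k0, hk0⟩ := Finite.exists_min m
    refine ⟨m k0, hm k0, fun k z hz => ?_⟩
    obtain ⟨E, h1, h2, h3⟩ := H k z hz
    exact ⟨E, h1, h2, (hk0 k).trans h3⟩
  obtain ⟨m, hm, hmeas⟩ := hmeas
  have hμM : 0 ≤ μ.real univ := measureReal_nonneg
  set Q : ℝ := 1 + 16 * (S * (1 + S)) * μ.real univ / (lo * m) with hQ
  have hQ0 : 0 < Q := by positivity
  refine ⟨Ks * (1 + 2 * S + Q), by positivity, ?_⟩
  intro s v f N hs hs1 hv he hN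
  have hspos : 0 < s := hs0.trans_le hs
  have hN0 : 0 ≤ N := hN.nonneg
  have hvb : ∀ x, |v x| ≤ S * N := by
    intro x
    refine (abs_le_of_lap K hspos hv he (fun x => hN.bdd x) x).trans ?_
    rw [hS, one_div, inv_mul_eq_div]
    exact div_le_div_of_nonneg_left hN0 hs0 hs
  -- the maximum of the gradient
  have hmax : ∃ (k : B.κ) (z : Cn n), z ∈ closedBall (B.z k) (B.r k / 2) ∧
      ∀ k', ∀ z' ∈ closedBall (B.z k') (B.r k' / 2),
        ‖fderiv ℝ (inC A (B.i k') v) z'‖ ≤ ‖fderiv ℝ (inC A (B.i k) v) z‖ := by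
    have h1 : ∀ k : B.κ, ∃ z ∈ closedBall (B.z k) (B.r k / 2),
        ∀ z' ∈ closedBall (B.z k) (B.r k / 2),
        ‖fderiv ℝ (inC A (B.i k) v) z'‖ ≤ ‖fderiv ℝ (inC A (B.i k) v) z‖ := by
      intro k
      have hc : ContinuousOn (fun z => ‖fderiv ℝ (inC A (B.i k) v) z‖)
          (closedBall (B.z k) (B.r k / 2)) := by
        have h2 : ContDiffOn ℝ 2 (inC A (B.i k) v) (A.e (B.i k)).target :=
          (hv (B.i k)).of_le two_le_inf
        exact ((h2.continuousOn_fderiv_of_isOpen (A.e (B.i k)).open_target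
          (by norm_num)).mono (B.sub' k)).norm
      obtain ⟨z, hz, hzm⟩ := (isCompact_closedBall (B.z k) (B.r k / 2)).exists_isMaxOn
        ⟨B.z k, mem_closedBall_self (by linarith [B.r0 k])⟩ hc
      exact ⟨z, hz, fun z' hz' => hzm hz'⟩
    choose zz hzz hzm using h1
    obtain ⟨k0, hk0⟩ := Finite.exists_max fun k => ‖fderiv ℝ (inC A (B.i k) v) (zz k)‖
    exact ⟨k0, zz k0, hzz k0, fun k' z' hz' => (hzm k' z' hz').trans (hk0 k')⟩
  obtain ⟨k0, z0, hz0, hzmax⟩ := hmax
  set G := ‖fderiv ℝ (inC A (B.i k0) v) z0‖ with hG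
  have hG0 : 0 ≤ G := norm_nonneg _
  -- Hoelder bound of `v`
  have hvNH : B.NH a (S * N + G) v := by
    intro k
    refine ⟨fun z hz => ?_, fun z hz w hw => ?_⟩
    · rw [Real.norm_eq_abs]
      exact (hvb _).trans (by linarith)
    · have h1 := (convex_closedBall (B.z k) (B.r k / 2)).norm_image_sub_le_of_norm_fderiv_le
        (𝕜 := ℝ) (f := inC A (B.i k) v) (C := G)
        (fun w hw => (inC_c2 hv (B.i k) (B.sub' k hw)).differentiableAt (by norm_num))
        (fun w hw => hzmax k w hw) hw hz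
      have h2 : ‖z - w‖ ≤ 1 := by
        rw [mem_closedBall, dist_eq_norm] at hz hw
        have e : z - w = (z - B.z k) - (w - B.z k) := by abel
        rw [e]
        refine (norm_sub_le _ _).trans ?_
        linarith [B.r1 k]
      have h3 : ‖z - w‖ ≤ ‖z - w‖ ^ a :=
        Real.self_le_rpow_of_le_one (norm_nonneg _) h2 ha1.le
      have h4 : 0 ≤ S * N * ‖z - w‖ ^ a := by positivity
      calc _ ≤ G * ‖z - w‖ := h1
        _ ≤ G * ‖z - w‖ ^ a := mul_le_mul_of_nonneg_left h3 hG0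
        _ ≤ (S * N + G) * ‖z - w‖ ^ a := by linarith
  have hlap : IsLap (gi K) v (fun x => f x + s * v x) := by
    have h1 := isLap K hv
    have e : Lap K v = fun x => f x + s * v x := by
      funext x
      linarith [he x]
    rwa [e] at h1
  have hFN : B.NH a (N + (S * N + G)) (fun x => f x + s * v x) := by
    have h1 := NH_add hN (NH_smul s hvNH)
    refine h1.mono ?_
    rw [abs_of_pos hspos]
    have : s * (S * N + G) ≤ 1 * (S * N + G) := mul_le_mul_of_nonneg_right hs1 (by positivity)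
    linarith
  have h2 := hsch v _ (N + (S * N + G)) (S * N) (Sm2.of_sm ha ha1.le hv) hlap hFN hvb
  -- the gradient bound
  suffices hfinal : G ≤ Q * N by
    refine h2.mono ?_
    have : N + (S * N + G) + S * N ≤ (1 + 2 * S + Q) * N := by linarith
    calc Ks * (N + (S * N + G) + S * N) ≤ Ks * ((1 + 2 * S + Q) * N) :=
          mul_le_mul_of_nonneg_left this hKs.le
      _ = _ := by ring
  rcases le_or_gt G N with hGN | hGN
  · have hq : 0 ≤ 16 * (S * (1 + S)) * μ.real univ / (lo * m) * N := by positivity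
    rw [hQ]
    linarith
  have hGpos : 0 < G := lt_of_le_of_lt hN0 hGN
  -- the gradient is large near `z0`
  have hgrad : ∀ z ∈ closedBall (B.z k0) (B.r k0 / 2), z ∈ ball z0 ρ →
      G / 2 ≤ ‖fderiv ℝ (inC A (B.i k0) v) z‖ := by
    intro z hz hzρ
    have h3 := (h2 k0).h1.hol z0 hz0 z hz
    have h4 : ‖z0 - z‖ ^ a ≤ 1 / (2 * (Ks * (2 + 2 * S))) := by
      refine le_trans (Real.rpow_le_rpow (norm_nonneg _) ?_ ha.le) hρa
      rw [← dist_eq_norm, dist_comm]
      exact (mem_ball.1 hzρ).le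
    have h5 : Ks * (N + (S * N + G) + S * N) * ‖z0 - z‖ ^ a ≤ G / 2 := by
      have e0 : N + (S * N + G) + S * N ≤ (2 + 2 * S) * G := by nlinarith
      have e1 : Ks * (N + (S * N + G) + S * N) ≤ Ks * (2 + 2 * S) * G := by
        rw [mul_assoc]
        exact mul_le_mul_of_nonneg_left e0 hKs.le
      have e2 : 0 ≤ ‖z0 - z‖ ^ a := Real.rpow_nonneg (norm_nonneg _) _
      calc Ks * (N + (S * N + G) + S * N) * ‖z0 - z‖ ^ a
          ≤ Ks * (2 + 2 * S) * G * ‖z0 - z‖ ^ a := mul_le_mul_of_nonneg_right e1 e2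
        _ ≤ Ks * (2 + 2 * S) * G * (1 / (2 * (Ks * (2 + 2 * S)))) :=
            mul_le_mul_of_nonneg_left h4 (by positivity)
        _ = G / 2 := by field_simp
    have h6 := norm_sub_norm_le (fderiv ℝ (inC A (B.i k0) v) z0) (fderiv ℝ (inC A (B.i k0) v) z)
    linarith
  -- energy
  obtain ⟨E, hEm, hEx, hEμ⟩ := hmeas k0 z0 hz0
  have hDgi : Integrable (Dg K v) μ := by
    obtain ⟨C, hC⟩ := isCompact_univ.exists_bound_of_continuousOn
      (continuous_Dg K hv).continuousOn
    exact Integrable.of_bound (continuous_Dg K hv).measurable.aestronglyMeasurable C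
      (Eventually.of_forall fun x => hC x (mem_univ x))
  have hDgE : ∀ x ∈ E, lo / 4 * (G / 2) ^ 2 ≤ Dg K v x := by
    intro x hx
    obtain ⟨h3, h4, h5⟩ := hEx x hx
    obtain ⟨hi, hell'⟩ := hell k0 _ h5
    have h6 := Dg_lb K hv ((A.e (B.i k0)).map_source h3) hlo.le hell'
    rw [(A.e (B.i k0)).left_inv h3] at h6
    refine le_trans ?_ h6
    have h7 := hgrad _ h5 h4
    gcongr
  have hlow : lo / 4 * (G / 2) ^ 2 * m ≤ ∫ x, Dg K v x ∂μ := by
    calc lo / 4 * (G / 2) ^ 2 * m ≤ lo / 4 * (G / 2) ^ 2 * μ.real E :=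
          mul_le_mul_of_nonneg_left hEμ (by positivity)
      _ ≤ ∫ x in E, Dg K v x ∂μ :=
          setIntegral_ge_of_const_le_real hEm (measure_ne_top _ _) hDgE hDgi.integrableOn
      _ ≤ ∫ x, Dg K v x ∂μ :=
          setIntegral_le_integral hDgi (Eventually.of_forall fun x => Dg_nonneg K hv x)
  have hcv : Continuous v := continuous_of_sm hv
  have hLb : ∀ x, |Lap K v x| ≤ (1 + S) * N := by
    intro x
    have e : Lap K v x = f x + s * v x := by linarith [he x]
    rw [e]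
    have h1 := hN.bdd x
    have h3 : |s * v x| ≤ S * N := by
      rw [abs_mul, abs_of_pos hspos]
      calc s * |v x| ≤ 1 * (S * N) := mul_le_mul hs1 (hvb x) (abs_nonneg _) zero_le_one
        _ = S * N := one_mul _
    calc |f x + s * v x| ≤ |f x| + |s * v x| := abs_add_le _ _
      _ ≤ N + S * N := add_le_add h1 h3
      _ = _ := by ring
  have hup : ∫ x, Dg K v x ∂μ ≤ (S * N) * ((1 + S) * N) * μ.real univ := by
    have h3 : ∫ x, Dg K v x ∂μ = - ∫ x, v x * Lap K v x ∂μ := by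
      have hint : ∀ g : M → ℝ, Continuous g → Integrable g μ := fun g hg => by
        obtain ⟨C, hC⟩ := isCompact_univ.exists_bound_of_continuousOn hg.continuousOn
        exact Integrable.of_bound hg.measurable.aestronglyMeasurable C
          (Eventually.of_forall fun x => hC x (mem_univ x))
      have i1 : Integrable (fun x => (1 / 2) * Lap K (fun y => v y ^ 2) x) μ :=
        hint _ (continuous_const.mul (continuous_of_sm (sm_Lap K (sm_sq hv))))
      have i2 : Integrable (fun x => v x * Lap K v x) μ :=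
        hint _ (hcv.mul (continuous_of_sm (sm_Lap K hv)))
      have e1 : ∫ x, Dg K v x ∂μ =
          ∫ x, (1 / 2) * Lap K (fun y => v y ^ 2) x ∂μ - ∫ x, v x * Lap K v x ∂μ :=
        integral_sub i1 i2
      rw [e1, integral_const_mul, int_Lap P K (sm_sq hv), mul_zero, zero_sub]
    rw [h3]
    have h4 : ‖∫ x, v x * Lap K v x ∂μ‖ ≤ (S * N) * ((1 + S) * N) * μ.real univ := by
      refine norm_integral_le_of_norm_le_const (Eventually.of_forall fun x => ?_)
      rw [norm_mul, Real.norm_eq_abs, Real.norm_eq_abs]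
      exact mul_le_mul (hvb x) (hLb x) (abs_nonneg _) (by positivity)
    have h5 := neg_le_abs (∫ x, v x * Lap K v x ∂μ)
    rw [← Real.norm_eq_abs] at h5
    exact h5.trans h4
  have hlm : 0 < lo * m := by positivity
  have hkey : G * (lo * m) ≤ 16 * (S * (1 + S)) * μ.real univ * N := by
    have h3 := hlow.trans hup
    have h4 : lo / 4 * (G / 2) ^ 2 * m = G * (G * (lo * m) / 16) := by ring
    have h5 : (S * N) * ((1 + S) * N) * μ.real univ ≤
        G * (16 * (S * (1 + S)) * μ.real univ * N / 16) := by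
      have h6 : 0 ≤ (S * (1 + S)) * μ.real univ * N := by positivity
      calc (S * N) * ((1 + S) * N) * μ.real univ = N * ((S * (1 + S)) * μ.real univ * N) := by ring
        _ ≤ G * ((S * (1 + S)) * μ.real univ * N) := mul_le_mul_of_nonneg_right hGN.le h6
        _ = _ := by ring
    rw [h4] at h3
    have h6 := le_of_mul_le_mul_left (h3.trans h5) hGpos
    linarith
  have : G ≤ 16 * (S * (1 + S)) * μ.real univ / (lo * m) * N := by
    rw [div_mul_eq_mul_div, le_div_iff₀ hlm]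
    exact hkey
  rw [hQ]
  linarith

end

end Crest.Agent.R257.AYLin_209
end

-- ▼ part R257/AYLinB_209
section

/-!
# R257 (S0395), E-AY (helper209): approximate solvability of `Lap w - w = f`

* `AI K B s` : for every `ε > 0` and smooth `f` there is a smooth `w` with
  `|f - (Lap w - s w)|_{1/2} ≤ ε |f|_{1/2}`
* `ai_one` : `AI K B 1` for `K = ω_H + i∂∂̄φ`
* `lin_ay` : the form used by the Newton iteration
-/

set_option autoImplicit false
set_option linter.unusedSectionVars false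

open Set Metric Filter MeasureTheory
open scoped ContDiff Topology Matrix ComplexConjugate ComplexOrder

namespace Crest.Agent.R257.AYLinB_209

open Crest.Agent.R275 Crest.Agent.R275.Geo Crest.Agent.R275.Core144 Crest.Agent.R275.EDR890
open Crest.Agent.R275.GC293
open Crest.Agent.R273.Defs_333 Crest.Agent.R273.Hess_333 Crest.Agent.R273.HessB_333
open Crest.Agent.R273.HM_333 Crest.Agent.R273.Kah_333 Crest.Agent.R273.Vol_333
open Crest.Agent.R273.Vm_333
open Crest.Agent.R273.SchA_152 Crest.Agent.R273.SchD_152 Crest.Agent.R273.SchE_152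
  Crest.Agent.R273.SchF_152 Crest.Agent.R273.SchG_152 Crest.Agent.R273.SchH_152
  Crest.Agent.R273.SchI_152 Crest.Agent.R273.SchJ_152 Crest.Agent.R273.SchK_152
open Crest.Agent.R273.YauDefs_635 Crest.Agent.R273.YauCh_635 Crest.Agent.R273.YauMax_635
open Crest.Agent.R273.YauPf_635 Crest.Agent.R273.YauLin_635
open Crest.Agent.R257.AYLin_209

noncomputable section

variable {n : ℕ} {M : Type} [TopologicalSpace M] {A : Atl n M} {L : LB A}

/-- residual -/
def rs (K : Kah A) (s : ℝ) (f w : M → ℝ) (x : M) : ℝ := f x - (Lap K w x - s * w x)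

/-- approximate solvability -/
def AI (K : Kah A) (B : Cb A) (s : ℝ) : Prop :=
  ∀ ε > 0, ∀ (N : ℝ) (f : M → ℝ), A.Sm f → B.NH (1 / 2) N f →
    ∃ w : M → ℝ, A.Sm w ∧ B.NH (1 / 2) (ε * N) (rs K s f w)

theorem sm_rs (K : Kah A) {s : ℝ} {f w : M → ℝ} (hf : A.Sm f) (hw : A.Sm w) :
    A.Sm (rs K s f w) := fun i =>
  (hf i).sub ((sm_Lap K hw i).sub (contDiffOn_const.mul (hw i)))

theorem Lap_const (K : Kah A) (c : ℝ) : Lap K (fun _ => c) = fun _ => 0 := by
  refine lap_of_isLap K (fun i => contDiffOn_const) fun i z hz => ?_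
  have e1 : cH (inC A i fun _ : M => c) z = 0 := by
    have e2 : fderiv ℝ (inC A i fun _ : M => c) = fun _ => 0 := by
      funext w
      exact fderiv_const_apply _
    have e3 : fderiv ℝ (fderiv ℝ (inC A i fun _ : M => c)) z = 0 := by
      rw [e2]
      exact fderiv_const_apply _
    ext a b
    simp [cH, D2, e3]
  rw [e1]
  simp [inC]

theorem Lap_add_const (K : Kah A) {v : M → ℝ} (hv : A.Sm v) (c : ℝ) :
    Lap K (fun x => v x + c) = Lap K v := by
  have h := Lap_add K hv (w := fun _ => c) (fun i => contDiffOn_const)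
  rw [h, Lap_const]
  funext x
  simp

/-- iteration -/
theorem ai_of_half {K : Kah A} {B : Cb A} {s : ℝ} [Nonempty M]
    (h : ∀ (N : ℝ) (f : M → ℝ), A.Sm f → B.NH (1 / 2) N f →
      ∃ w : M → ℝ, A.Sm w ∧ B.NH (1 / 2) (N / 2) (rs K s f w)) : AI K B s := by
  intro ε hε N f hf hN
  have key : ∀ k : ℕ, ∃ w : M → ℝ, A.Sm w ∧ B.NH (1 / 2) ((1 / 2) ^ k * N) (rs K s f w) := by
    intro k
    induction k with
    | zero =>
      refine ⟨fun _ => 0, fun i => contDiffOn_const, ?_⟩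
      have e : rs K s f (fun _ => 0) = f := by
        funext x
        simp [rs, Lap_const]
      rw [e, pow_zero, one_mul]
      exact hN
    | succ k ih =>
      obtain ⟨w, hw, hr⟩ := ih
      obtain ⟨w', hw', hr'⟩ := h _ _ (sm_rs K hf hw) hr
      refine ⟨fun x => w x + w' x, fun i => (hw i).add (hw' i), ?_⟩
      have e : rs K s f (fun x => w x + w' x) = rs K s (rs K s f w) w' := by
        funext x
        simp only [rs, Lap_add K hw hw']
        ring
      rw [e]
      refine hr'.mono (le_of_eq ?_)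
      rw [pow_succ]
      ring
  obtain ⟨k, hk⟩ := exists_pow_lt_of_lt_one hε (by norm_num : (1 / 2 : ℝ) < 1)
  obtain ⟨w, hw, hr⟩ := key k
  exact ⟨w, hw, hr.mono (mul_le_mul_of_nonneg_right hk.le hN.nonneg)⟩

variable [T2Space M] [CompactSpace M] [ConnectedSpace M] [Finite A.ι]

/-- the step in `s` -/
theorem ai_step {K : Kah A} {B : Cb A} {s0 C : ℝ} (hC : 0 < C)
    (hls : ∀ (s : ℝ) (v f : M → ℝ) (N : ℝ), s0 ≤ s → s ≤ 1 → A.Sm v →
      (∀ x, Lap K v x - s * v x = f x) → B.NH (1 / 2) N f → B.N2 (1 / 2) (C * N) v)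
    {s s' : ℝ} (h0 : s0 ≤ s) (h1 : s ≤ 1) (hss : |s' - s| * (5 * C) ≤ 1) (hs : AI K B s) :
    AI K B s' := by
  refine ai_of_half fun N f hf hN => ?_
  have hN0 : 0 ≤ N := hN.nonneg
  obtain ⟨w, hw, hr⟩ := hs (1 / 4) (by norm_num) N f hf hN
  have hg : B.NH (1 / 2) (N + 1 / 4 * N) (fun x => f x + -1 * rs K s f w x) := by
    refine (NH_add hN (NH_smul (-1) hr)).mono ?_
    rw [abs_neg, abs_one, one_mul]
  have hw2 := hls s w (fun x => f x + -1 * rs K s f w x) (N + 1 / 4 * N) h0 h1 hw (fun x => by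
    simp only [rs]
    ring) hg
  refine ⟨w, hw, ?_⟩
  have e : rs K s' f w = fun x => rs K s f w x + (s' - s) * w x := by
    funext x
    simp only [rs]
    ring
  rw [e]
  refine (NH_add hr (NH_smul (s' - s) hw2.nh)).mono ?_
  have h2 : |s' - s| * (C * (N + 1 / 4 * N)) = (|s' - s| * (5 * C)) * (N / 4) := by ring
  have h3 : (|s' - s| * (5 * C)) * (N / 4) ≤ 1 * (N / 4) :=
    mul_le_mul_of_nonneg_right hss (by positivity)
  rw [h2]
  linarith

/-- the start -/
theorem ai_start (P : Part A) {H : HM L} {φ : M → ℝ} (hφ : A.Sm φ) (hp : KPos H φ) (B : Cb A) :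
    ∃ s0 : ℝ, 0 < s0 ∧ s0 ≤ 1 ∧ AI (kp H hφ hp) B s0 := by
  obtain ⟨x0⟩ : Nonempty M := inferInstance
  obtain ⟨C, hC, hb⟩ := lin_bound P hφ hp B (a := 1 / 2) (by norm_num) (by norm_num)
  refine ⟨min 1 (1 / (2 * C)), lt_min one_pos (by positivity), min_le_left _ _, ?_⟩
  set s0 : ℝ := min 1 (1 / (2 * C)) with hs0
  have hs00 : 0 < s0 := lt_min one_pos (by positivity)
  have hs0C : s0 * C ≤ 1 / 2 := by
    have h1 : s0 ≤ 1 / (2 * C) := min_le_right _ _
    calc s0 * C ≤ 1 / (2 * C) * C := mul_le_mul_of_nonneg_right h1 hC.le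
      _ = 1 / 2 := by field_simp
  refine ai_of_half fun N f hf hN => ?_
  have hN0 : 0 ≤ N := hN.nonneg
  obtain ⟨v, m, hv, hlin⟩ := Crest.Agent.R273.CLin_933.lin_exist P H hφ hp hf
  have hlin' : LinEq H φ v f m := hlin
  have h1 := hb x0 (fun x => v x - v x0) f m N (fun i => (hv i).sub contDiffOn_const)
    (linEq_sub hlin' _) hN (sub_self _)
  have hw : A.Sm (fun x => v x - v x0) := fun i => (hv i).sub contDiffOn_const
  have hL : Lap (kp H hφ hp) (fun x => v x - v x0) = fun x => f x - m :=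
    lap_of_isLap _ hw ((linEq_sub hlin' _).isLap hφ hp)
  refine ⟨fun x => (v x - v x0) + -(m / s0), fun i => (hw i).add contDiffOn_const, ?_⟩
  have e : rs (kp H hφ hp) s0 f (fun x => (v x - v x0) + -(m / s0)) =
      fun x => s0 * (v x - v x0) := by
    funext x
    simp only [rs, Lap_add_const _ hw, hL]
    field_simp
    ring
  rw [e]
  refine (NH_smul s0 h1.nh).mono ?_
  rw [abs_of_pos hs00]
  calc s0 * (C * N) = (s0 * C) * N := by ring
    _ ≤ 1 / 2 * N := mul_le_mul_of_nonneg_right hs0C hN0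
    _ = N / 2 := by ring

/-- **approximate solvability** of `Lap w - w = f` and Schauder estimate -/
theorem ai_one (P : Part A) {H : HM L} {φ : M → ℝ} (hφ : A.Sm φ) (hp : KPos H φ) (B : Cb A) :
    AI (kp H hφ hp) B 1 ∧ ∃ C : ℝ, 0 < C ∧ ∀ (v f : M → ℝ) (N : ℝ), A.Sm v →
      (∀ x, Lap (kp H hφ hp) v x - 1 * v x = f x) → B.NH (1 / 2) N f →
        B.N2 (1 / 2) (C * N) v := by
  obtain ⟨s0, hs00, hs01, hAI⟩ := ai_start P hφ hp B
  obtain ⟨C, hC, hls⟩ := ls_bound P (kp H hφ hp) B (a := 1 / 2) (by norm_num) (by norm_num) hs00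
  refine ⟨?_, C, hC, fun v f N hv he hN => hls 1 v f N hs01 le_rfl hv he hN⟩
  set δ : ℝ := 1 / (5 * C) with hδ
  have hδ0 : 0 < δ := by positivity
  have key : ∀ k : ℕ, AI (kp H hφ hp) B (min (s0 + k * δ) 1) := by
    intro k
    induction k with
    | zero =>
      have e : min (s0 + (0 : ℕ) * δ) 1 = s0 := by
        rw [Nat.cast_zero, zero_mul, add_zero, min_eq_left hs01]
      rw [e]
      exact hAI
    | succ k ih =>
      have hk0 : (0 : ℝ) ≤ k * δ := by positivity
      refine ai_step hC hls (s := min (s0 + k * δ) 1) (le_min (by linarith) hs01)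
        (min_le_right _ _) ?_ ih
      have h1 : |min (s0 + (k + 1 : ℕ) * δ) 1 - min (s0 + k * δ) 1| ≤ δ := by
        have h2 : ((k + 1 : ℕ) : ℝ) = k + 1 := by push_cast; ring
        rw [h2]
        have h3 := abs_min_sub_min_le_max (s0 + (k + 1) * δ) 1 (s0 + k * δ) 1
        refine h3.trans (max_le ?_ ?_)
        · have : s0 + ((k : ℝ) + 1) * δ - (s0 + k * δ) = δ := by ring
          rw [this, abs_of_pos hδ0]
        · rw [sub_self, abs_zero]
          exact hδ0.le
      calc _ ≤ δ * (5 * C) := mul_le_mul_of_nonneg_right h1 (by positivity)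
        _ = 1 := by rw [hδ]; field_simp
  obtain ⟨k, hk⟩ := exists_nat_gt (1 / δ)
  have h1 := key k
  have h2 : 1 ≤ s0 + k * δ := by
    rw [div_lt_iff₀ hδ0] at hk
    linarith
  rwa [min_eq_right h2] at h1

/-- the operator of 635 and the operator of 152 -/
theorem Lf_eq_Lap {H : HM L} {φ w : M → ℝ} (hφ : A.Sm φ) (hp : KPos H φ) (hw : A.Sm w) :
    Lf H φ w = Lap (kp H hφ hp) w := by
  refine (lap_of_isLap (kp H hφ hp) hw fun i z hz => ?_).symm
  rw [Lf_read H hφ hw hz, gi_kp H hφ hp i hz]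
  rfl

/-- **linear theory for the Newton iteration** -/
theorem lin_ay (P : Part A) {H : HM L} {φ : M → ℝ} (hφ : A.Sm φ) (hp : KPos H φ) (B : Cb A) :
    ∃ C : ℝ, 0 < C ∧ ∀ (N : ℝ) (f : M → ℝ), A.Sm f → B.NH (1 / 2) N f →
      ∃ w : M → ℝ, A.Sm w ∧ B.N2 (1 / 2) (C * N) w ∧
        B.NH (1 / 2) (1 / 4 * N) (fun x => f x - (Lf H φ w x - w x)) := by
  obtain ⟨hAI, C, hC, hls⟩ := ai_one P hφ hp B
  refine ⟨C * (5 / 4), by positivity, fun N f hf hN => ?_⟩
  obtain ⟨w, hw, hr⟩ := hAI (1 / 4) (by norm_num) N f hf hN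
  have hg : B.NH (1 / 2) (N + 1 / 4 * N) (fun x => f x + -1 * rs (kp H hφ hp) 1 f w x) := by
    refine (NH_add hN (NH_smul (-1) hr)).mono ?_
    rw [abs_neg, abs_one, one_mul]
  have hw2 := hls w (fun x => f x + -1 * rs (kp H hφ hp) 1 f w x) _ hw (fun x => by
    simp only [rs]
    ring) hg
  refine ⟨w, hw, hw2.mono (le_of_eq (by ring)), ?_⟩
  have e : (fun x => f x - (Lf H φ w x - w x)) = rs (kp H hφ hp) 1 f w := by
    funext x
    simp only [rs, Lf_eq_Lap hφ hp hw, one_mul]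
  rw [e]
  exact hr

end

end Crest.Agent.R257.AYLinB_209
end

-- ▼ part R257/AYOpen_209
section

/-!
# R257 (S0395), E-AY (helper209): openness of the continuity path and the theorem

* `newton_a` : abstract Newton iteration with approximate linear solutions
* `open_ay`  : openness of the continuity path
* `ay_of_c3` : the negative Aubin-Yau theorem from `C3Stmt`
-/

set_option autoImplicit false
set_option linter.unusedSectionVars false

open Set Filter Topology Complex Metric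
open scoped ContDiff Matrix ComplexConjugate ComplexOrder

namespace Crest.Agent.R257.AYOpen_209

open Crest.Agent.R275.Geo Crest.Agent.R275.Core144 Crest.Agent.R275.GC293
open Crest.Agent.R273.Defs_333 Crest.Agent.R273.YauDefs_635 Crest.Agent.R273.HM_333
open Crest.Agent.R273.YauCh_635 Crest.Agent.R273.Hess_333 Crest.Agent.R273.HessB_333
open Crest.Agent.R273.Kah_333 Crest.Agent.R273.YauMax_635 Crest.Agent.R273.YauLoc_635
open Crest.Agent.R273.SchA_152 Crest.Agent.R273.SchD_152 Crest.Agent.R273.SchF_152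
open Crest.Agent.R273.YauQ_635
open Crest.Agent.R273.YauSchF_635 Crest.Agent.R273.YauClose_635 Crest.Agent.R273.YauPf_635
open Crest.Agent.R273.YauLim_635 Crest.Agent.R273.YauOpA_635 Crest.Agent.R273.CReg_933
open Crest.Agent.R257.AYClose_209 Crest.Agent.R257.AYReg_209 Crest.Agent.R257.AYLinB_209

noncomputable section

/-- abstract Newton iteration with approximate linear solutions -/
theorem newton_a {V : Type*} [AddCommGroup V] (N2 NH : ℝ → V → Prop) (L : V → V)
    {CS CR : ℝ} (hCS : 0 ≤ CS) (hCR : 0 ≤ CR)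
    (h20 : N2 0 0) (h2mono : ∀ {a b : ℝ} {v : V}, a ≤ b → N2 a v → N2 b v)
    (h2add : ∀ {a b : ℝ} {v w : V}, N2 a v → N2 b w → N2 (a + b) (v + w))
    (hHmono : ∀ {a b : ℝ} {v : V}, a ≤ b → NH a v → NH b v)
    (hHadd : ∀ {a b : ℝ} {v w : V}, NH a v → NH b w → NH (a + b) (v + w))
    (hlin : ∀ (N : ℝ) (ρ : V), NH N ρ → ∃ w : V, N2 (CS * N) w ∧ NH (1 / 4 * N) (ρ - L w)) :
    ∀ η > 0, ∃ δ ε : ℝ, 0 < δ ∧ δ ≤ η ∧ δ ≤ 1 ∧ 0 < ε ∧ ε ≤ δ ∧ ∀ R : V → V, NH ε (R 0) →
      (∀ (d : ℝ) (v w : V), 0 ≤ d → d ≤ δ → N2 δ v → N2 d w →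
        NH (CR * δ * d) (R (v + w) - R v + L w)) →
      ∀ k : ℕ, ∃ v : V, N2 δ v ∧ NH (ε * (1 / 2) ^ k) (R v) := by
  intro η hη
  set q : ℝ := (CR + 1) * (CS + 1) with hq
  have hq1 : 0 < q := by positivity
  have hqq : CR * CS ≤ q := by rw [hq]; nlinarith
  set δ : ℝ := min (min η 1) (1 / (4 * q)) with hδ
  have hδ0 : 0 < δ := lt_min (lt_min hη one_pos) (by positivity)
  have hδη : δ ≤ η := (min_le_left _ _).trans (min_le_left _ _)
  have hδ1 : δ ≤ 1 := (min_le_left _ _).trans (min_le_right _ _)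
  have hδq : δ ≤ 1 / (4 * q) := min_le_right _ _
  have h1 : CR * δ * CS ≤ 1 / 4 := by
    calc CR * δ * CS = (CR * CS) * δ := by ring
      _ ≤ q * (1 / (4 * q)) := mul_le_mul hqq hδq hδ0.le hq1.le
      _ = 1 / 4 := by field_simp
  set ε : ℝ := δ / (4 * (CS + 1)) with hε
  have hS1 : 0 < CS + 1 := by positivity
  have hε0 : 0 < ε := by positivity
  have hεδ : ε ≤ δ := by
    rw [hε, div_le_iff₀ (by positivity)]
    nlinarith
  have h2 : 4 * (CS * ε) ≤ δ := by
    calc 4 * (CS * ε) ≤ 4 * ((CS + 1) * ε) := by nlinarith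
      _ = δ := by rw [hε]; field_simp
  refine ⟨δ, ε, hδ0, hδη, hδ1, hε0, hεδ, fun R hR0 hquad => ?_⟩
  have key : ∀ k : ℕ, ∃ v : V, N2 (δ * (1 - (1 / 2) ^ k)) v ∧
      NH (ε * (1 / 2) ^ k) (R v) := by
    intro k
    induction k with
    | zero => exact ⟨0, by simpa using h20, by simpa using hR0⟩
    | succ k ih =>
      obtain ⟨v, hv, hρ⟩ := ih
      obtain ⟨w, hw1, hw2⟩ := hlin _ _ hρ
      set t : ℝ := (1 / 2 : ℝ) ^ k with ht
      have ht0 : 0 < t := by positivity
      have ht1 : t ≤ 1 := pow_le_one₀ (by norm_num) (by norm_num)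
      have hts : (1 / 2 : ℝ) ^ (k + 1) = t / 2 := by
        rw [pow_succ, ← ht]
        ring
      have hst : 4 * (CS * (ε * t)) ≤ δ * t := by
        calc 4 * (CS * (ε * t)) = (4 * (CS * ε)) * t := by ring
          _ ≤ δ * t := mul_le_mul_of_nonneg_right h2 ht0.le
      have hnn : 0 ≤ CS * (ε * t) := by positivity
      refine ⟨v + w, ?_, ?_⟩
      · refine h2mono ?_ (h2add hv hw1)
        rw [hts]
        nlinarith
      · have e1 : R (v + w) = (R v - L w) + (R (v + w) - R v + L w) := by abel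
        rw [e1]
        have hδv : N2 δ v := h2mono (by nlinarith) hv
        have hd : CS * (ε * t) ≤ δ := by nlinarith
        refine hHmono ?_ (hHadd hw2 (hquad _ v w hnn hd hδv hw1))
        rw [hts]
        have b2 : CR * δ * (CS * (ε * t)) ≤ 1 / 4 * (ε * t) := by
          calc CR * δ * (CS * (ε * t)) = (CR * δ * CS) * (ε * t) := by ring
            _ ≤ 1 / 4 * (ε * t) := mul_le_mul_of_nonneg_right h1 (by positivity)
        nlinarith
  intro k
  obtain ⟨v, hv, hρ⟩ := key k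
  have ht0 : (0 : ℝ) < (1 / 2) ^ k := by positivity
  exact ⟨v, h2mono (by nlinarith) hv, hρ⟩

/-- the exponential minus its linear part -/
def pe (x : ℝ) : ℝ := Real.exp x - 1 - x

theorem contDiff_pe : ContDiff ℝ 2 pe := by
  unfold pe
  fun_prop

theorem fderiv_pe : fderiv ℝ pe 0 = 0 := by
  have h1 : HasDerivAt pe (Real.exp 0 - 1) 0 := by
    have h2 := ((Real.hasDerivAt_exp 0).sub_const 1).sub (hasDerivAt_id (0 : ℝ))
    exact h2
  have h2 : HasDerivAt pe 0 0 := by
    refine h1.congr_deriv ?_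
    simp
  have h3 := h2.hasFDerivAt.fderiv
  rw [h3]
  ext
  simp

/-- the nonlinear term -/
theorem ho_expq {X : Type*} [NormedAddCommGroup X] :
    ∃ C : ℝ, 0 ≤ C ∧ ∀ {s : Set X} {δ ε d : ℝ} {e v w : X → ℝ}, 0 ≤ d → d ≤ δ → δ ≤ 1 → 0 ≤ ε →
      ε ≤ δ → HO (1 / 2) ε s e → HO (1 / 2) δ s v → HO (1 / 2) d s w →
      HO (1 / 2) (C * δ * d) s (fun z =>
        (1 + e z) * (Real.exp (v z + w z) - Real.exp (v z)) - w z) := by
  obtain ⟨C1, hC10, hC1⟩ := ho_quad contDiff_pe fderiv_pe 1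
  refine ⟨3 * C1 + 2, by positivity, fun {s δ ε d e v w} hd hdδ hδ1 hε hεδ he hv hw => ?_⟩
  have hδ0 : 0 ≤ δ := hd.trans hdδ
  have hq := hC1 (Z := X) (s := s) (a := 1 / 2) hd hdδ hδ1 hv hw
  have hq0 : 0 ≤ C1 * δ * d := by positivity
  have h1 := ho_mul hε hq0 he hq
  have h2 := ho_mul hε hd he hw
  have h3 := (hq.add h1).add h2
  refine (h3.mono ?_).congr fun z _ => ?_
  · have a1 : ε ≤ 1 := hεδ.trans hδ1
    have a2 : 2 * ε * (C1 * δ * d) ≤ 2 * 1 * (C1 * δ * d) :=
      mul_le_mul_of_nonneg_right (by linarith) hq0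
    have a3 : 2 * ε * d ≤ 2 * δ * d := mul_le_mul_of_nonneg_right (by linarith) hd
    nlinarith
  · simp only [pe]
    ring

variable {n : ℕ} {M : Type} [TopologicalSpace M] {A : Atl n M} {L : LB A}

/-- **openness** -/
theorem open_ay [T2Space M] [CompactSpace M] [ConnectedSpace M] [Finite A.ι] (P : Part A)
    {H : HM L} (hH : H.Pos) {F : M → ℝ} (hF : A.Sm F) {t₀ : ℝ} {φ₀ : M → ℝ}
    (hsol : SolA H F t₀ φ₀) : ∃ δ > 0, ∀ t, |t - t₀| < δ → ∃ φ, SolA H F t φ := by
  obtain ⟨hφ, hK, hMA₀⟩ := hsol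
  obtain ⟨Bc⟩ := Cb.nonempty A
  have hκ := Bc.fin
  obtain ⟨CS, hCS, hlin⟩ := lin_ay P hφ hK Bc
  set B : Bc.κ → Set (Cn n) := fun k => closedBall (Bc.z k) (Bc.r k / 2) with hB
  have hBt : ∀ k, B k ⊆ (A.e (Bc.i k)).target := fun k => Bc.sub' k
  have hr1 : ∀ k, Bc.r k / 2 ≤ 1 := fun k => by linarith [Bc.r1 k, Bc.r0 k]
  -- constants
  have hq := fun k => pr_quad hφ hK (hr1 k) (hBt k)
  choose Cq hCq0 hCq using hq
  obtain ⟨CR, hCR0, hCR⟩ := exists_ub Cq
  obtain ⟨Ce, hCe0, hCe⟩ := ho_expq (X := Cn n)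
  set NN2 : ℝ → (M → ℝ) → Prop := fun d v =>
    A.Sm v ∧ ∀ k, C2A (1 / 2) d (B k) (inC A (Bc.i k) v) with hNN2
  set NNH : ℝ → (M → ℝ) → Prop := fun d f =>
    A.Sm f ∧ ∀ k, HO (1 / 2) d (B k) (inC A (Bc.i k) f) with hNNH
  set Lo : (M → ℝ) → M → ℝ := fun w x => Lf H φ₀ w x - w x with hLo
  have newt := newton_a NN2 NNH Lo (CR := CR + Ce) hCS.le (by positivity)
    ⟨fun i => contDiffOn_const, fun k => c2a_zero⟩
    (fun {a b v} hab hv => ⟨hv.1, fun k => (hv.2 k).mono hab⟩)
    (fun {a b v w} hv hw => ⟨sm_add hv.1 hw.1, fun k => c2a_add (A.e (Bc.i k)).open_target (hBt k)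
      (inC_smooth hv.1 _) (inC_smooth hw.1 _) (hv.2 k) (hw.2 k)⟩)
    (fun {a b v} hab hv => ⟨hv.1, fun k => (hv.2 k).mono hab⟩)
    (fun {a b v w} hv hw => ⟨sm_add hv.1 hw.1, fun k => (hv.2 k).add (hw.2 k)⟩)
    (fun N ρ hρ => by
      obtain ⟨w, hw, hw2, hres⟩ := hlin N ρ hρ.1 hρ.2
      exact ⟨w, ⟨hw, hw2⟩, fun i => (hρ.1 i).sub ((Lf_sm hφ hK hw i).sub (hw i)), hres⟩)
  -- positivity threshold
  have hlow : ∀ k, ∃ c : ℝ, 0 < c ∧ ∀ z ∈ B k, ∀ v, c * ‖v‖ ^ 2 ≤ lev (pot H φ₀ (Bc.i k)) z v :=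
    fun k => lev_lower (A.e (Bc.i k)).open_target
      (((wt_smooth H (Bc.i k)).add (inC_smooth hφ (Bc.i k))).of_le two_le_inf)
      (isCompact_closedBall _ _) (hBt k) (fun z hz v hv => hK (Bc.i k) z (hBt k hz) v hv)
  choose lo' hlo'0 hlo' using hlow
  obtain ⟨lo, hlo0, hlo⟩ := exists_pos_lb hlo'0
  obtain ⟨η, ε, hη0, hηlo, hη1, hε0, hεη, hnewt⟩ := newt (lo / 4) (by positivity)
  -- Hoelder bound of F
  have hFH : ∀ k, ∃ V, HO (1 / 2) V (B k) (inC A (Bc.i k) F) := fun k =>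
    ho_c1 (A.e (Bc.i k)).open_target ((inC_smooth hF (Bc.i k)).of_le (by simp)) (hr1 k) (hBt k)
  choose VF hVF using hFH
  obtain ⟨KF, hKF0, hKF⟩ := exists_ub VF
  refine ⟨min (1 / (2 * KF + 1)) (ε / (6 * KF + 1)), lt_min (by positivity) (by positivity),
    fun t ht => ?_⟩
  set s : ℝ := t - t₀ with hs
  have hs1 : |s| * (2 * KF + 1) ≤ 1 := by
    have := (ht.trans_le (min_le_left _ _)).le
    rwa [le_div_iff₀ (by positivity)] at this
  have hs2 : 6 * |s| * KF ≤ ε := by
    have := (ht.trans_le (min_le_right _ _)).le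
    rw [le_div_iff₀ (by positivity)] at this
    nlinarith [abs_nonneg s]
  set e : M → ℝ := fun x => Real.exp (s * F x) - 1 with he
  have heS : A.Sm e := fun i => ((contDiffOn_const.mul (hF i)).exp).sub contDiffOn_const
  have heH : ∀ k, HO (1 / 2) ε (B k) (inC A (Bc.i k) e) := fun k =>
    (ho_exp hKF0 ((hVF k).mono (hKF k)) hs1).mono hs2
  set Rr : (M → ℝ) → M → ℝ := fun v x => (1 + e x) * Real.exp (v x) - Pf H φ₀ v x with hRr
  have hR0 : NNH ε (Rr 0) := by
    have e0 : Rr 0 = e := by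
      funext x
      have h0 : Pf H φ₀ (0 : M → ℝ) = fun _ => (1 : ℝ) := Pf_zero hφ hK
      simp only [hRr, h0, Pi.zero_apply, Real.exp_zero, mul_one]
      ring
    rw [e0]
    exact ⟨heS, heH⟩
  have hRs : ∀ v, A.Sm v → A.Sm (Rr v) := fun v hv i =>
    ((contDiffOn_const.add (heS i)).mul (hv i).exp).sub (Pf_sm hφ hK hv i)
  have hquad : ∀ (d : ℝ) (v w : M → ℝ), 0 ≤ d → d ≤ η → NN2 η v → NN2 d w →
      NNH ((CR + Ce) * η * d) (Rr (v + w) - Rr v + Lo w) := by
    intro d v w hd hdδ hv hw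
    have hvw : A.Sm (v + w) := sm_add hv.1 hw.1
    refine ⟨fun i => ((hRs _ hvw i).sub (hRs _ hv.1 i)).add
      ((Lf_sm hφ hK hw.1 i).sub (hw.1 i)), fun k => ?_⟩
    have h1 := hCq k η d v w hd hdδ hη1 hv.1 hw.1 (hv.2 k) (hw.2 k)
    have h2 : Cq k * η * d ≤ CR * η * d :=
      mul_le_mul_of_nonneg_right (mul_le_mul_of_nonneg_right (hCR k) (hd.trans hdδ)) hd
    have h3 := hCe (s := B k) (δ := η) (ε := ε) (d := d) hd hdδ hη1 hε0.le hεη (heH k)
      (hv.2 k).h0 (hw.2 k).h0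
    have h4 := (h1.mono h2).neg.add h3
    refine (h4.mono (le_of_eq (by ring))).congr fun z hz => ?_
    have e1 := Pf_read H hφ hvw (hBt k hz)
    have e2 := Pf_read H hφ hv.1 (hBt k hz)
    have e3 := Lf_read H hφ hw.1 (hBt k hz)
    have e4 : pr H φ₀ (v + w) (Bc.i k) z = pr H φ₀ (fun y => v y + w y) (Bc.i k) z := rfl
    simp only [inC] at e1 e2 e3
    simp only [inC, Pi.sub_apply, Pi.add_apply, hRr, hLo, e1, e2, e3, e4]
    ring
  have hseq := hnewt Rr hR0 hquad
  choose v hv hres using hseq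
  -- limits
  set U : Ultrafilter ℕ := hyperfilter ℕ with hU
  have hUle : (U : Filter ℕ) ≤ atTop := Nat.hyperfilter_le_atTop
  have hvb : ∀ j x, ‖v j x‖ ≤ η := by
    intro j x
    obtain ⟨k, hk, hkb⟩ := Bc.cover x
    have := ((hv j).2 k).h0.bdd (A.e (Bc.i k) x) (ball_subset_closedBall hkb)
    simpa [inC, (A.e (Bc.i k)).left_inv hk] using this
  have hlim : ∀ x, ∃ y, Tendsto (fun j => v j x) U (𝓝 y) := fun x =>
    exists_lim U (fun j => hvb j x)
  choose Φ hΦ using hlim
  set Ψ : M → ℝ := fun y => φ₀ y + Φ y with hΨ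
  -- local analysis in a ball
  have hloc : ∀ k, ContDiffOn ℝ ∞ (pot H Ψ (Bc.i k)) (ball (Bc.z k) (Bc.r k / 2)) ∧
      ∀ z ∈ ball (Bc.z k) (Bc.r k / 2), (cH (pot H Ψ (Bc.i k)) z).PosDef ∧
        (cH (pot H Ψ (Bc.i k)) z).det =
          (Real.exp (t * F ((A.e (Bc.i k)).symm z) + Ψ ((A.e (Bc.i k)).symm z)) : ℂ) *
            (cH (H.wt (Bc.i k)) z).det := by
    intro k
    set O : Set (Cn n) := ball (Bc.z k) (Bc.r k / 2) with hO
    have hOB : O ⊆ B k := ball_subset_closedBall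
    have hOt : O ⊆ (A.e (Bc.i k)).target := hOB.trans (hBt k)
    have hp0 : ContDiffOn ℝ ∞ (pot H φ₀ (Bc.i k)) (A.e (Bc.i k)).target :=
      (wt_smooth H (Bc.i k)).add (inC_smooth hφ (Bc.i k))
    set u : ℕ → Cn n → ℝ := fun j => pot H (fun y => φ₀ y + v j y) (Bc.i k) with hu
    have hue : ∀ j, u j = fun w => pot H φ₀ (Bc.i k) w + inC A (Bc.i k) (v j) w := fun j => by
      funext w
      simp only [hu, pot, inC]
      ring
    have husm : ∀ j, ContDiffOn ℝ ∞ (u j) (A.e (Bc.i k)).target := fun j => by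
      rw [hue j]
      exact hp0.add (inC_smooth (hv j).1 _)
    obtain ⟨V1, hV1⟩ := ho_smooth (A.e (Bc.i k)).open_target hp0 (hr1 k) (hBt k)
    obtain ⟨V0, hV0⟩ := (isCompact_closedBall (Bc.z k) (Bc.r k / 2)).exists_bound_of_continuousOn
      (hp0.continuousOn.mono (hBt k))
    set S : ℝ := max (max V0 V1) 0 + η with hS
    have hS0 : 0 ≤ S := add_nonneg (le_max_right _ _) hη0.le
    have hV0S : V0 + η ≤ S := add_le_add ((le_max_left _ _).trans (le_max_left _ _)) le_rfl
    have hV1S : V1 + η ≤ S := add_le_add ((le_max_right _ _).trans (le_max_left _ _)) le_rfl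
    obtain ⟨g1, g2, g3⟩ := ball_limit U (z₀ := Bc.z k) (r := Bc.r k / 2) (a := 1 / 2) (S := S)
      (by norm_num) hS0 (u := u) (V := pot H Ψ (Bc.i k))
      (fun j => ((husm j).mono hOt).of_le two_le_inf)
      (fun j z hz => by
        rw [hue j]
        have b1 := hV0 z (hOB hz)
        have b2 := ((hv j).2 k).h0.bdd z (hOB hz)
        rw [Real.norm_eq_abs] at b1 b2
        exact (abs_add_le _ _).trans ((add_le_add b1 b2).trans hV0S))
      (fun j => by
        have h1 : HO (1 / 2) (V1 + η) (B k) (fderiv ℝ (fderiv ℝ (u j))) := by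
          rw [hue j]
          exact (hV1.add ((hv j).2 k).h2).congr fun z hz =>
            fd2_add (A.e (Bc.i k)).open_target hp0 (inC_smooth (hv j).1 _) (hBt k hz)
        exact (h1.mono hV1S).subset hOB)
      (fun z hz => by
        have : ∀ j, u j z = H.wt (Bc.i k) z +
            (φ₀ ((A.e (Bc.i k)).symm z) + v j ((A.e (Bc.i k)).symm z)) := fun j => rfl
        simp only [this]
        exact tendsto_const_nhds.add (tendsto_const_nhds.add (hΦ _)))
    -- positivity
    have hlev : ∀ z ∈ O, ∀ ξ, lo / 2 * ‖ξ‖ ^ 2 ≤ lev (pot H Ψ (Bc.i k)) z ξ := by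
      intro z hz ξ
      refine ge_of_tendsto (tendsto_lev (g2 z hz) ξ) (Eventually.of_forall fun j => ?_)
      have hzt := hOt hz
      have h1 : lev (u j) z ξ = lev (pot H φ₀ (Bc.i k)) z ξ + lev (inC A (Bc.i k) (v j)) z ξ := by
        rw [lev333_eq_lev145, lev333_eq_lev145, lev333_eq_lev145, hue j,
          Crest.Agent.R273.Levi_145.lev_add
            ((pot_contDiffAt H hφ (Bc.i k) hzt).of_le two_le_inf) (inC_c2 (hv j).1 (Bc.i k) hzt)]
        ring
      have h2 := abs_lev_le (inC A (Bc.i k) (v j)) z ξ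
      have h3 := ((hv j).2 k).h2.bdd z (hOB hz)
      have h4 := (hlo' k z (hOB hz) ξ)
      have h5 := hlo k
      have h6 : 0 ≤ ‖ξ‖ ^ 2 := by positivity
      have h7 : 2 * ‖fderiv ℝ (fderiv ℝ (inC A (Bc.i k) (v j))) z‖ * ‖ξ‖ ^ 2 ≤
          2 * η * ‖ξ‖ ^ 2 :=
        mul_le_mul_of_nonneg_right (by linarith) h6
      have h8 : lo * ‖ξ‖ ^ 2 ≤ lo' k * ‖ξ‖ ^ 2 := mul_le_mul_of_nonneg_right h5 h6
      have h9 : 2 * η * ‖ξ‖ ^ 2 ≤ lo / 2 * ‖ξ‖ ^ 2 :=
        mul_le_mul_of_nonneg_right (by linarith) h6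
      have h10 := (abs_le.1 (h2.trans h7)).1
      rw [h1]
      linarith
    have hpd : ∀ z ∈ O, (cH (pot H Ψ (Bc.i k)) z).PosDef := fun z hz =>
      posDef_cH (g1.contDiffAt (isOpen_ball.mem_nhds hz)) fun ξ hξ => by
        have h1 := hlev z hz ξ
        have h2 : 0 < ‖ξ‖ ^ 2 := by
          have := norm_pos_iff.2 hξ
          positivity
        nlinarith
    -- equation
    have heq : ∀ z ∈ O, (cH (pot H Ψ (Bc.i k)) z).det =
        (Real.exp (t * F ((A.e (Bc.i k)).symm z) + Ψ ((A.e (Bc.i k)).symm z)) : ℂ) *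
          (cH (H.wt (Bc.i k)) z).det := by
      intro z hz
      have hzt := hOt hz
      set x : M := (A.e (Bc.i k)).symm z with hxd
      have l1 : Tendsto (fun j => pr H φ₀ (v j) (Bc.i k) z) U
          (𝓝 ((cH (pot H Ψ (Bc.i k)) z).det / (cH (pot H φ₀ (Bc.i k)) z).det).re) :=
        (Complex.continuous_re.tendsto _).comp ((tendsto_det (g2 z hz)).div_const _)
      have l2 : Tendsto (fun j => Real.exp (s * F x) * Real.exp (v j x)) U
          (𝓝 (Real.exp (s * F x) * Real.exp (Φ x))) :=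
        ((Real.continuous_exp.tendsto _).comp (hΦ x)).const_mul _
      have l3 : Tendsto (fun j => Real.exp (s * F x) * Real.exp (v j x) -
          pr H φ₀ (v j) (Bc.i k) z) U (𝓝 0) := by
        have l4 : Tendsto (fun j : ℕ => ε * (1 / 2 : ℝ) ^ j) U (𝓝 0) := by
          have := (tendsto_pow_atTop_nhds_zero_of_lt_one (r := (1 / 2 : ℝ)) (by norm_num)
            (by norm_num)).const_mul ε
          rw [mul_zero] at this
          exact this.mono_left hUle
        refine squeeze_zero_norm (fun j => ?_) l4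
        have h1 := ((hres j).2 k).bdd z (hOB hz)
        have h2 : inC A (Bc.i k) (Rr (v j)) z =
            Real.exp (s * F x) * Real.exp (v j x) - pr H φ₀ (v j) (Bc.i k) z := by
          have h3 := Pf_read H hφ (hv j).1 hzt
          simp only [inC] at h3
          simp only [inC, hRr, he, h3]
          ring
        rwa [h2] at h1
      have h0 := tendsto_nhds_unique l3 (l2.sub l1)
      have h1 : ((cH (pot H Ψ (Bc.i k)) z).det / (cH (pot H φ₀ (Bc.i k)) z).det).re =
          Real.exp (s * F x) * Real.exp (Φ x) := by linarith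
      have hd0 := (posDef_pot hφ hK hzt).det_pos
      have hd1 := (hpd z hz).det_pos
      have r0 : (cH (pot H φ₀ (Bc.i k)) z).det =
          (((cH (pot H φ₀ (Bc.i k)) z).det.re : ℝ) : ℂ) := by
        have := (Complex.pos_iff.1 hd0).2
        apply Complex.ext <;> simp [← this]
      have r1 : (cH (pot H Ψ (Bc.i k)) z).det = (((cH (pot H Ψ (Bc.i k)) z).det.re : ℝ) : ℂ) := by
        have := (Complex.pos_iff.1 hd1).2
        apply Complex.ext <;> simp [← this]
      have p0 : 0 < (cH (pot H φ₀ (Bc.i k)) z).det.re := (Complex.pos_iff.1 hd0).1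
      have h2 : (cH (pot H Ψ (Bc.i k)) z).det.re / (cH (pot H φ₀ (Bc.i k)) z).det.re =
          Real.exp (s * F x) * Real.exp (Φ x) := by
        rw [← h1]
        conv_rhs => rw [r0, r1]
        rw [← Complex.ofReal_div, Complex.ofReal_re]
      rw [div_eq_iff p0.ne'] at h2
      have h3 := hMA₀ (Bc.i k) z hzt
      simp only [inC] at h3
      rw [← hxd] at h3
      rw [r1, h2, Complex.ofReal_mul, ← r0, h3, ← mul_assoc, ← Complex.ofReal_mul]
      congr 2
      rw [← Real.exp_add, ← Real.exp_add, hs, hΨ]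
      congr 1
      ring
    refine ⟨?_, fun z hz => ⟨hpd z hz, heq z hz⟩⟩
    refine reg_ay isOpen_ball g1 ((fhA_smooth hH hF t (Bc.i k)).mono hOt) (fun z₀ hz₀ => ?_)
      (fun z hz ξ hξ => ?_) (fun z hz => ?_)
    · obtain ⟨ρ, hρ, hρs⟩ := Metric.isOpen_iff.1 isOpen_ball z₀ hz₀
      exact ⟨ρ, hρ, S, hρs, fun z hz w hw => g3.hol z (hρs hz) w (hρs hw)⟩
    · have h1 := hlev z hz ξ
      have h2 : 0 < ‖ξ‖ ^ 2 := by
        have := norm_pos_iff.2 hξ
        positivity
      nlinarith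
    · have e5 : fhA H F t (Bc.i k) z + pot H Ψ (Bc.i k) z =
          (t * F ((A.e (Bc.i k)).symm z) + Ψ ((A.e (Bc.i k)).symm z)) +
            ldet H (Bc.i k) z := by
        simp only [fhA, pot, inC]
        ring
      rw [heq z hz, ← exp_ldet hH (hOt hz), e5, Real.exp_add _ (ldet H (Bc.i k) z)]
      push_cast
      ring
  have hΨsm : A.Sm Ψ := by
    refine sm_of_local fun x => ?_
    obtain ⟨k, hk, hkb⟩ := Bc.cover x
    refine ⟨Bc.i k, hk, ?_⟩
    have h1 := ((hloc k).1.contDiffAt (isOpen_ball.mem_nhds hkb)).sub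
      (wt_contDiffAt H (Bc.i k) ((A.e (Bc.i k)).map_source hk))
    refine h1.congr_of_eventuallyEq (Eventually.of_forall fun w => ?_)
    simp [pot]
  refine ⟨Ψ, hΨsm, kpos_of_local hΨsm fun x => ?_, ma_of_local hH hΨsm fun x => ?_⟩
  · obtain ⟨k, hk, hkb⟩ := Bc.cover x
    exact ⟨Bc.i k, hk, ((hloc k).2 _ hkb).1⟩
  · obtain ⟨k, hk, hkb⟩ := Bc.cover x
    refine ⟨Bc.i k, hk, ?_⟩
    have := ((hloc k).2 _ hkb).2
    rwa [(A.e (Bc.i k)).left_inv hk] at this

/-- **negative Aubin-Yau theorem** from Calabi's estimate -/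
theorem ay_of_c3 (h3 : C3Stmt) : AYStmt := by
  intro n M _ _ _ _ A _ hG hP L H hH F hF
  obtain ⟨P⟩ := hP
  set S : Set ℝ := {t | t ∈ Icc (0 : ℝ) 1 ∧ ∃ φ, SolA H F t φ} with hS
  have h0 : (0 : ℝ) ∈ S := ⟨⟨le_rfl, zero_le_one⟩, _, solA_zero hH F⟩
  have hclosed : IsClosed (S ∩ Icc 0 1) := by
    refine isClosed_of_closure_subset fun T hT => ?_
    obtain ⟨t, ht, hT'⟩ := mem_closure_iff_seq_limit.1 hT
    have hT1 : T ∈ Icc (0 : ℝ) 1 := isClosed_Icc.mem_of_tendsto hT'
      (Eventually.of_forall fun k => (ht k).2)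
    obtain ⟨φ, hs⟩ := close_ay h3 hH hF (fun k => (ht k).2) hT' (fun k => (ht k).1.2)
    exact ⟨⟨hT1, φ, hs⟩, hT1⟩
  have hsub : Icc (0 : ℝ) 1 ⊆ S := by
    refine hclosed.Icc_subset_of_forall_exists_gt h0 fun t ht y hy => ?_
    obtain ⟨⟨_, φ, hs⟩, ht0, ht1⟩ := ht
    obtain ⟨δ, hδ, hop⟩ := open_ay P hH hF hs
    have hmin : t < min y (min (t + δ) 1) := lt_min hy (lt_min (by linarith) ht1)
    obtain ⟨s, hs1, hs2⟩ := exists_between hmin
    have hsy : s < y := hs2.trans_le (min_le_left _ _)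
    have hsδ : s < t + δ := hs2.trans_le ((min_le_right _ _).trans (min_le_left _ _))
    have hs1' : s < 1 := hs2.trans_le ((min_le_right _ _).trans (min_le_right _ _))
    obtain ⟨φ', h'⟩ := hop s (by rw [abs_of_pos (by linarith)]; linarith)
    exact ⟨s, ⟨⟨by linarith, hs1'.le⟩, φ', h'⟩, hs1, hsy.le⟩
  obtain ⟨-, φ, h1, h2, h3'⟩ := hsub (right_mem_Icc.2 zero_le_one)
  refine ⟨φ, h1, h2, ?_⟩
  simpa using h3'

end

end Crest.Agent.R257.AYOpen_209
end

-- ▼ part R257/AYTop_209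

/-!
# R257 (S0395), E-AY (helper209): compact negative Aubin-Yau theorem, unconditional

* `ay_holds : AYStmt`
* `ma_le_of_max` : comparison principle for two Monge-Ampere equations
* `ay_unique`
* `ay_ke` : Kaehler-Einstein metric in the class of a positive metric `H` of the canonical bundle:
  `det ∂∂̄u = e^u` for the local potentials `u = pot H φ i`
-/

set_option autoImplicit false
set_option linter.unusedSectionVars false

open Set Filter Topology Complex Metric
open scoped ContDiff Matrix ComplexConjugate ComplexOrder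

namespace Crest.Agent.R257.AYTop_209

open Crest.Agent.R275.Geo Crest.Agent.R275.Core144 Crest.Agent.R275.GC293
open Crest.Agent.R273.Defs_333 Crest.Agent.R273.YauDefs_635 Crest.Agent.R273.HM_333
open Crest.Agent.R273.YauCh_635 Crest.Agent.R273.Hess_333 Crest.Agent.R273.HessB_333
open Crest.Agent.R273.Kah_333 Crest.Agent.R273.YauMax_635 Crest.Agent.R273.YauClose_635
open Crest.Agent.R273.SchK_152 Crest.Agent.R273.Vol_333
open Crest.Agent.R257.AYClose_209 Crest.Agent.R257.AYOpen_209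

noncomputable section

/-- **compact negative Aubin-Yau theorem** -/
theorem ay_holds : AYStmt := ay_of_c3 Crest.Agent.R273.YauC3_812.c3Stmt

section Local

variable {n : ℕ}

theorem D2_congr {u v : Cn n → ℝ} {z : Cn n} (h : u =ᶠ[𝓝 z] v) : D2 u z = D2 v z := by
  funext a b
  rw [D2, D2, h.fderiv.fderiv_eq]

theorem cH_congr {u v : Cn n → ℝ} {z : Cn n} (h : u =ᶠ[𝓝 z] v) : cH u z = cH v z := by
  simp only [cH, D2_congr h]

end Local

variable {n : ℕ} {M : Type} [TopologicalSpace M] {A : Atl n M} {L : LB A}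





/-- **Kaehler-Einstein metrics**: for a positive metric `H` of the canonical bundle there is
`H' = tw H u` positive with volume form `1 / H'` (that is `Ric = - ω`) -/
theorem ay_ke [T2Space M] [CompactSpace M] [ConnectedSpace M] [Finite A.ι]
    (hG : GoodA A) (hP : Nonempty (Part A)) {H : HM (KB A)} (hp : H.Pos) :
    ∃ (u : M → ℝ) (hu : A.Sm u) (hp' : (tw H u hu).Pos), KPos H u ∧
      (∀ i, ∀ x ∈ (A.e i).source,
        (volK (kah (tw H u hu) hp')).w i x = ((tw H u hu).w i x)⁻¹) ∧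
      ∀ i, ∀ z ∈ (A.e i).target,
        (cH (pot H u i) z).det = (Real.exp (pot H u i z) : ℂ) := by
  obtain ⟨u, hu, hK, hMA⟩ := ay_holds n M A hG hP (KB A) H hp _
    (sm_ratio (volK (kah H hp)) (inv H))
  have hp' := pos_tw H hu hK
  have key : ∀ i, ∀ z ∈ (A.e i).target,
      (cH (pot H u i) z).det = (Real.exp (pot H u i z) : ℂ) := by
    intro i z hz
    have hx := (A.e i).map_target hz
    have h1 := hMA i z hz
    have h2 := w_ratio (volK (kah H hp)) (inv H) hx
    have h3 : (volK (kah H hp)).w i ((A.e i).symm z) = (cH (H.wt i) z).det.re := by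
      rw [cH_eq_hess (wt_contDiffAt H i hz), ← cur_read H i hz]
      rfl
    have h4 : (inv H).w i ((A.e i).symm z) = Real.exp (H.wt i z) := by
      have h5 := H.pos i _ hx
      simp only [HM.wt, Real.exp_neg, Real.exp_log h5]
      rfl
    rw [h3, h4] at h2
    have hd := det_wt_pos hp hz
    have r0 : (cH (H.wt i) z).det = (((cH (H.wt i) z).det.re : ℝ) : ℂ) := by
      have := (Complex.pos_iff.1 hd).2
      apply Complex.ext <;> simp [← this]
    rw [h1, r0, ← Complex.ofReal_mul]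
    congr 1
    simp only [inC, pot]
    rw [Real.exp_add _ (u ((A.e i).symm z)), mul_right_comm, ← h2, ← Real.exp_add]
  refine ⟨u, hu, hp', hK, fun i x hx => ?_, key⟩
  have hz := (A.e i).map_source hx
  have h1 := key i _ hz
  have h2 : (volK (kah (tw H u hu) hp')).w i x = (cH (pot H u i) (A.e i x)).det.re := by
    rw [← cur_pot H hu i hz, (A.e i).left_inv hx]
    rfl
  rw [h2, h1, Complex.ofReal_re]
  have h3 := (tw H u hu).pos i x hx
  have h4 : pot H u i (A.e i x) = - Real.log ((tw H u hu).w i x) := by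
    have h5 := wt_tw H u hu i hz
    simp only [HM.wt, (A.e i).left_inv hx] at h5
    simp only [pot, inC, (A.e i).left_inv hx, HM.wt]
    linarith
  rw [h4, Real.exp_neg, Real.exp_log h3]

end

end Crest.Agent.R257.AYTop_209
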