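import Crest.Agent.R273.Fam_835
import Crest.Agent.R273.Reg_835

-- ▼ part R257/Atl1_941
section

/-!
# R257 (S0395), leaf GB-ATL (helper941): atlases with partition of unity on non-compact manifolds

* `rch e c r`   : rescaled restriction of the chart `e` to the preimage of `ball c r`
* `SubAtl A C`  : every chart of `A` is such a restriction of a chart of the family `C`
* `exists_part_nc` : locally finite atlas by relatively compact charts => `Part A`
* `Fam.exists_atl_nc` : every `Fam n M` on a second countable Hausdorff space has a countable,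
  locally finite subordinate atlas with partition of unity
-/

set_option autoImplicit false
set_option linter.unusedSectionVars false

open Set Filter Topology Complex Metric
open scoped ContDiff Matrix ComplexConjugate Manifold

namespace Crest.Agent.R257.Atl_941

open Crest.Agent.R275.Geo Crest.Agent.R275.Core144 Crest.Agent.R275.GC293
open Crest.Agent.R273.Defs_333 Crest.Agent.R273.Map_835 Crest.Agent.R273.PB_835
open Crest.Agent.R273.Fam_835

noncomputable section

variable {n : ℕ} {M : Type} [TopologicalSpace M]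

/-- the rescaled restriction of the chart `e` to the preimage of `ball c r` -/
def rch (e : OpenPartialHomeomorph M (Cn n)) (c : Cn n) (r : ℝ) (hr : 0 < r) :
    OpenPartialHomeomorph M (Cn n) :=
  (e.restrOpen (e.source ∩ e ⁻¹' ball c r) (e.isOpen_inter_preimage isOpen_ball)).transHomeomorph
    (aff c r hr)

variable {e : OpenPartialHomeomorph M (Cn n)} {c : Cn n} {r : ℝ} {hr : 0 < r}

theorem rch_source : (rch e c r hr).source = e.source ∩ e ⁻¹' ball c r := by
  change (e.restrOpen (e.source ∩ e ⁻¹' ball c r) (e.isOpen_inter_preimage isOpen_ball)).source = _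
  rw [OpenPartialHomeomorph.restrOpen_source]
  exact inter_eq_right.2 inter_subset_left

theorem rch_apply (x : M) : rch e c r hr x = aff c r hr (e x) := rfl

theorem rch_symm_apply (z : Cn n) : (rch e c r hr).symm z = e.symm ((aff c r hr).symm z) := rfl

theorem rch_target (h : ball c r ⊆ e.target) :
    (rch e c r hr).target = (aff c r hr).symm ⁻¹' ball c r := by
  ext z
  constructor
  · intro hz
    have h1 := (rch e c r hr).map_target hz
    rw [rch_source] at h1
    have h2 : rch e c r hr ((rch e c r hr).symm z) = z := (rch e c r hr).right_inv hz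
    rw [rch_apply] at h2
    have h3 := congrArg (aff c r hr).symm h2
    rw [Homeomorph.symm_apply_apply] at h3
    rw [mem_preimage, ← h3]
    exact h1.2
  · intro hz
    have h1 : e.symm ((aff c r hr).symm z) ∈ (rch e c r hr).source := by
      rw [rch_source]
      refine ⟨e.map_target (h hz), ?_⟩
      rw [mem_preimage, e.right_inv (h hz)]
      exact hz
    have h2 := (rch e c r hr).map_source h1
    rw [rch_apply, e.right_inv (h hz), Homeomorph.apply_symm_apply] at h2
    exact h2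

/-- every chart of `A` is a rescaled restriction of a chart of `C` -/
structure SubAtl (A : Atl n M) (C : Fam n M) where
  j : A.ι → C.ι
  c : A.ι → Cn n
  r : A.ι → ℝ
  r_pos : ∀ i, 0 < r i
  sub : ∀ i, closedBall (c i) (r i) ⊆ (C.e (j i)).target
  eq : ∀ i, A.e i = rch (C.e (j i)) (c i) (r i) (r_pos i)

namespace SubAtl

variable {A : Atl n M} {C : Fam n M} (S : SubAtl A C)
include S

theorem ball_sub (i : A.ι) : ball (S.c i) (S.r i) ⊆ (C.e (S.j i)).target :=
  ball_subset_closedBall.trans (S.sub i)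

theorem source_eq (i : A.ι) :
    (A.e i).source = (C.e (S.j i)).source ∩ C.e (S.j i) ⁻¹' ball (S.c i) (S.r i) := by
  rw [S.eq, rch_source]


theorem target_eq (i : A.ι) :
    (A.e i).target = (aff (S.c i) (S.r i) (S.r_pos i)).symm ⁻¹' ball (S.c i) (S.r i) := by
  rw [S.eq, rch_target (S.ball_sub i)]

theorem apply (i : A.ι) (x : M) : A.e i x = aff (S.c i) (S.r i) (S.r_pos i) (C.e (S.j i) x) := by
  rw [S.eq, rch_apply]

theorem symm_apply (i : A.ι) (z : Cn n) :
    (A.e i).symm z = (C.e (S.j i)).symm ((aff (S.c i) (S.r i) (S.r_pos i)).symm z) := by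
  rw [S.eq, rch_symm_apply]

/-- the closure of a chart domain is compact -/
theorem isCompact_closure [T2Space M] (i : A.ι) : IsCompact (closure (A.e i).source) := by
  have h1 : IsCompact ((C.e (S.j i)).symm '' closedBall (S.c i) (S.r i)) :=
    (isCompact_closedBall _ _).image_of_continuousOn
      ((C.e (S.j i)).continuousOn_symm.mono (S.sub i))
  refine h1.closure_of_subset ?_
  rw [S.source_eq]
  rintro x ⟨hx, hx2⟩
  exact ⟨C.e (S.j i) x, ball_subset_closedBall hx2, (C.e (S.j i)).left_inv hx⟩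



end SubAtl

/-! ### partition of unity -/

theorem sm_of_contMDiff (A : Atl n M) {W : Type*} [NormedAddCommGroup W] [NormedSpace ℝ W]
    (f : M → W) (hM : letI := (fam A).cs; IsManifold 𝓘(ℝ, Cn n) ∞ M)
    (hf : letI := (fam A).cs; ContMDiff 𝓘(ℝ, Cn n) 𝓘(ℝ, W) ∞ f) : A.Sm f := by
  let _ := (fam A).cs
  intro i
  have hmem : (A.e i) ∈ atlas (Cn n) M := mem_range_self (f := (fam A).e) i
  have h1 : ContMDiffOn 𝓘(ℝ, Cn n) 𝓘(ℝ, Cn n) ∞ (A.e i).symm (A.e i).target :=
    contMDiffOn_symm_of_mem_maximalAtlas (StructureGroupoid.subset_maximalAtlas _ hmem)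
  have h2 : ContMDiffOn 𝓘(ℝ, Cn n) 𝓘(ℝ, W) ∞ (f ∘ (A.e i).symm) (A.e i).target :=
    hf.comp_contMDiffOn h1
  exact contMDiffOn_iff_contDiffOn.1 h2

theorem exists_part_nc [T2Space M] [SigmaCompactSpace M] (A : Atl n M)
    (hlf : LocallyFinite fun i => (A.e i).source)
    (hc : ∀ i, IsCompact (closure (A.e i).source)) : Nonempty (Part A) := by
  let _ := (fam A).cs
  have _ := (fam A).isManifold
  have hM : IsManifold 𝓘(ℝ, Cn n) ∞ M := Crest.Agent.R275.ZC352.isManifold_real
  have : LocallyCompactSpace M := ChartedSpace.locallyCompactSpace (Cn n) M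
  obtain ⟨v, hv1, hv2, hv3⟩ := exists_iUnion_eq_closure_subset
    (u := fun i => (A.e i).source) (fun i => (A.e i).open_source) (fun x => hlf.point_finite x)
    (by
      rw [eq_univ_iff_forall]
      intro x
      obtain ⟨i, hi⟩ := A.cover x
      exact mem_iUnion.2 ⟨i, hi⟩)
  obtain ⟨f, hf⟩ := SmoothPartitionOfUnity.exists_isSubordinate 𝓘(ℝ, Cn n) (s := (univ : Set M))
    isClosed_univ v hv2 (fun x _ => by rw [hv1]; exact mem_univ x)
  have h1 : ∀ i : A.ι, ∃ χ : C^∞⟮𝓘(ℝ, Cn n), M; 𝓘(ℝ), ℝ⟯,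
      (∀ᶠ x in 𝓝ˢ ((A.e i).source)ᶜ, χ x = 0) ∧
      (∀ᶠ x in 𝓝ˢ (tsupport (f i)), χ x = 1) ∧ ∀ x, χ x ∈ Icc (0 : ℝ) 1 := by
    intro i
    apply exists_contMDiffMap_zero_one_nhds_of_isClosed
    · exact (A.e i).open_source.isClosed_compl
    · exact isClosed_tsupport _
    · rw [disjoint_compl_left_iff_subset]
      exact (hf i).trans (subset_closure.trans (hv3 i))
  choose χ hχ0 hχ1 hχ using h1
  have hsub : ∀ i, tsupport (χ i) ⊆ (A.e i).source := by
    intro i x hx
    by_contra hxs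
    have h2 : ∀ᶠ y in 𝓝 x, χ i y = 0 :=
      (hχ0 i).filter_mono (nhds_le_nhdsSet (mem_compl hxs))
    exact (notMem_tsupport_iff_eventuallyEq.2 h2) hx
  refine ⟨⟨fun i x => f i x, fun i x => χ i x, fun i => ?_, fun i => ?_, fun i => ?_, hsub,
    fun i x hx => ?_, fun K hK => ?_, fun x => f.sum_eq_one (mem_univ x)⟩⟩
  · exact sm_of_contMDiff A _ hM (f i).contMDiff
  · exact sm_of_contMDiff A _ hM (χ i).contMDiff
  · exact (hc i).of_isClosed_subset (isClosed_tsupport _) ((hsub i).trans subset_closure)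
  · exact (hχ1 i).filter_mono (nhds_le_nhdsSet hx)
  · refine (hlf.finite_nonempty_inter_compact hK).subset ?_
    rintro i ⟨x, hx1, hx2⟩
    exact ⟨x, hsub i hx1, hx2⟩

/-- the atlas made of rescaled restrictions -/
def mkAtl (C : Fam n M) {α : Type} (j : α → C.ι) (c : α → Cn n) (r : α → ℝ) (hr : ∀ a, 0 < r a)
    (hsub : ∀ a, closedBall (c a) (r a) ⊆ (C.e (j a)).target)
    (hcov : ∀ x, ∃ a, x ∈ (C.e (j a)).source ∩ C.e (j a) ⁻¹' ball (c a) (r a)) : Atl n M where
  ι := α
  e a := rch (C.e (j a)) (c a) (r a) (hr a)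
  cover x := by
    obtain ⟨a, ha⟩ := hcov x
    exact ⟨a, by rw [rch_source]; exact ha⟩
  cube a z hz p := by
    rw [rch_target (ball_subset_closedBall.trans (hsub a))] at hz
    exact rc_mem_of_ball (c a) (r a) (hr a) hz p
  holo a b := by
    intro z hz
    apply DifferentiableAt.differentiableWithinAt
    have hz1 : z ∈ (rch (C.e (j a)) (c a) (r a) (hr a)).target := hz.1
    have hz2 : (rch (C.e (j a)) (c a) (r a) (hr a)).symm z ∈
      (rch (C.e (j b)) (c b) (r b) (hr b)).source := hz.2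
    rw [rch_target (ball_subset_closedBall.trans (hsub a))] at hz1
    rw [rch_source, rch_symm_apply] at hz2
    have hz3 : (aff (c a) (r a) (hr a)).symm z ∈ {z | z ∈ (C.e (j a)).target ∧
        (C.e (j a)).symm z ∈ (C.e (j b)).source} :=
      ⟨(ball_subset_closedBall.trans (hsub a)) hz1, hz2.1⟩
    have hop : IsOpen {z | z ∈ (C.e (j a)).target ∧ (C.e (j a)).symm z ∈ (C.e (j b)).source} :=
      (C.e (j a)).isOpen_inter_preimage_symm (C.e (j b)).open_source
    have h2 : DifferentiableAt ℂ (fun z => C.e (j b) ((C.e (j a)).symm z))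
        ((aff (c a) (r a) (hr a)).symm z) := (C.holo (j a) (j b)).differentiableAt
          (hop.mem_nhds hz3)
    have h3 : DifferentiableAt ℂ (fun z => aff (c b) (r b) (hr b)
        ((fun z => C.e (j b) ((C.e (j a)).symm z)) ((aff (c a) (r a) (hr a)).symm z))) z :=
      (differentiable_aff _ _ _).differentiableAt.comp z
        (h2.comp z (differentiable_aff_symm _ _ _).differentiableAt)
    exact h3

/-- non-compact version of `Fam.exists_atl` -/
theorem exists_atl_nc [T2Space M] [SecondCountableTopology M] (C : Fam n M) {κ : Type*}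
    (O : κ → Set M) (hO : ∀ k, IsOpen (O k)) (hOc : ∀ x, ∃ k, x ∈ O k) :
    ∃ A : Atl n M, Countable A.ι ∧ Nonempty (Part A) ∧ (∀ i, ∃ k, (A.e i).source ⊆ O k) ∧
      (LocallyFinite fun i => (A.e i).source) ∧ Nonempty (SubAtl A C) := by
  let _ := C.cs
  have : LocallyCompactSpace M := ChartedSpace.locallyCompactSpace (Cn n) M
  -- basis of neighbourhoods
  choose jx hjx using C.cover
  choose kx hkx using hOc
  have hB : ∀ x : M, (𝓝 x).HasBasis
      (fun r : ℝ => 0 < r ∧ closedBall (C.e (jx x) x) r ⊆ (C.e (jx x)).target ∧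
        (C.e (jx x)).source ∩ C.e (jx x) ⁻¹' ball (C.e (jx x) x) r ⊆ O (kx x))
      (fun r => (C.e (jx x)).source ∩ C.e (jx x) ⁻¹' ball (C.e (jx x) x) r) := by
    intro x
    set e := C.e (jx x) with he
    have hx : x ∈ e.source := hjx x
    refine ⟨fun t => ⟨fun ht => ?_, fun ⟨r, hr, hrt⟩ => ?_⟩⟩
    · have h1 : e.symm ⁻¹' (t ∩ O (kx x)) ∈ 𝓝 (e x) := by
        refine (e.continuousAt_symm (e.map_source hx)).preimage_mem_nhds ?_
        rw [e.left_inv hx]
        exact inter_mem ht ((hO _).mem_nhds (hkx x))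
      have h2 : e.target ∈ 𝓝 (e x) := e.open_target.mem_nhds (e.map_source hx)
      obtain ⟨r, hr, hrs⟩ := Metric.nhds_basis_closedBall.mem_iff.1 (inter_mem h1 h2)
      refine ⟨r, ⟨hr, fun z hz => (hrs hz).2, ?_⟩, ?_⟩
      · rintro y ⟨hy1, hy2⟩
        have h3 := (hrs (ball_subset_closedBall hy2)).1
        rw [mem_preimage, e.left_inv hy1] at h3
        exact h3.2
      · rintro y ⟨hy1, hy2⟩
        have h3 := (hrs (ball_subset_closedBall hy2)).1
        rw [mem_preimage, e.left_inv hy1] at h3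
        exact h3.1
    · refine mem_of_superset ?_ hrt
      exact (e.isOpen_inter_preimage isOpen_ball).mem_nhds ⟨hx, mem_ball_self hr.1⟩
  obtain ⟨α, c, r, hr, hU, hlf⟩ := refinement_of_locallyCompact_sigmaCompact_of_nhds_basis hB
  set A : Atl n M := mkAtl C (fun a => jx (c a)) (fun a => C.e (jx (c a)) (c a)) r
    (fun a => (hr a).1) (fun a => (hr a).2.1) (fun x => by
      have h1 : x ∈ ⋃ a, (C.e (jx (c a))).source ∩ C.e (jx (c a)) ⁻¹'
        ball (C.e (jx (c a)) (c a)) (r a) := by rw [hU]; exact mem_univ x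
      exact mem_iUnion.1 h1) with hA
  let S : SubAtl A C := ⟨fun a => jx (c a), fun a => C.e (jx (c a)) (c a), r, fun a => (hr a).1,
    fun a => (hr a).2.1, fun a => rfl⟩
  have hlf' : LocallyFinite fun i => (A.e i).source := by
    have h1 : (fun i => (A.e i).source) = fun a => (C.e (jx (c a))).source ∩ C.e (jx (c a)) ⁻¹'
        ball (C.e (jx (c a)) (c a)) (r a) := by
      funext i
      exact S.source_eq i
    rw [h1]
    exact hlf
  have hne : ∀ i, ((A.e i).source).Nonempty := fun i => ⟨c i, by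
    rw [S.source_eq]
    exact ⟨hjx _, mem_ball_self (hr i).1⟩⟩
  refine ⟨A, ?_, exists_part_nc A hlf' S.isCompact_closure, fun i => ⟨kx (c i), ?_⟩, hlf', ⟨S⟩⟩
  · have h1 := hlf'.countable_univ hne
    exact countable_univ_iff.1 h1
  · rw [S.source_eq]
    exact (hr i).2.2

end

end Crest.Agent.R257.Atl_941
end

-- ▼ part R257/Atl2_941

/-!
# R257 (S0395), leaf GB-ATL (helper941): families of level surfaces, adapted charts

`E` = ambient space (dimension `m + 1`, with coordinates `b`), `P` = parameter space.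
* `SFam m E P`  : holomorphic `F : E × P → ℂ` on an open `W`, `∂F/∂x ≠ 0` on `{F = 0} ∩ W`
* `X.M τ`       : the level surface `{x | (x, τ) ∈ W, F (x, τ) = 0}` (a subtype of `E`)
* `AdCh X`      : adapted chart `Φ (x, τ) = (pr x, F (x, τ), τ)`, biholomorphic; `exists_adCh`
* `Ψ.th z τ`    : the parametrisation `z ↦ Θ (z, τ)` of `X.M τ`, on `Ψ.O τ`
* `X.fam τ`     : `Fam m (X.M τ)`
-/

set_option autoImplicit false
set_option linter.unusedSectionVars false

open Set Filter Topology Complex Metric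
open scoped ContDiff Matrix ComplexConjugate Manifold

namespace Crest.Agent.R257.Atl_941

open Crest.Agent.R275.Geo Crest.Agent.R275.Core144 Crest.Agent.R275.GC293
open Crest.Agent.R273.Defs_333 Crest.Agent.R273.Map_835 Crest.Agent.R273.PB_835
open Crest.Agent.R273.Fam_835 Crest.Agent.R273.Sub_835

noncomputable section

/-- holomorphic inverse function theorem, finite dimension -/
theorem exists_invFun' {E₁ E₂ : Type*} [NormedAddCommGroup E₁] [NormedSpace ℂ E₁]
    [FiniteDimensional ℂ E₁] [NormedAddCommGroup E₂] [NormedSpace ℂ E₂] [FiniteDimensional ℂ E₂]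
    {Φ : E₁ → E₂} {V : Set E₁} (hV : IsOpen V) (hΦ : DifferentiableOn ℂ Φ V) {z : E₁} (hz : z ∈ V)
    (T : E₁ ≃L[ℂ] E₂) (hT : HasFDerivAt Φ (T : E₁ →L[ℂ] E₂) z) :
    ∃ R : OpenPartialHomeomorph E₁ E₂, z ∈ R.source ∧ R.source ⊆ V ∧ (⇑R = Φ) ∧
      DifferentiableOn ℂ R.symm R.target := by
  have : CompleteSpace E₁ := FiniteDimensional.complete ℂ E₁
  have : CompleteSpace E₂ := FiniteDimensional.complete ℂ E₂
  have han := Crest.Agent.R266.SCV.analyticOnNhd_of_differentiableOn hV hΦ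
  have hs : HasStrictFDerivAt Φ (T : E₁ →L[ℂ] E₂) z := by
    have h1 := (han z hz).hasStrictFDerivAt
    rwa [hT.fderiv] at h1
  set R₀ := hs.toOpenPartialHomeomorph Φ with hR₀
  have hc : ContinuousOn (fderiv ℂ Φ) V := han.fderiv.continuousOn
  have hW : IsOpen (V ∩ (fderiv ℂ Φ) ⁻¹' (range ((↑) : (E₁ ≃L[ℂ] E₂) → E₁ →L[ℂ] E₂))) :=
    hc.isOpen_inter_preimage hV (ContinuousLinearEquiv.isOpen)
  refine ⟨R₀.restrOpen _ hW, ?_, ?_, ?_, ?_⟩
  · rw [OpenPartialHomeomorph.restrOpen_source]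
    exact ⟨hs.mem_toOpenPartialHomeomorph_source, hz, ⟨T, hT.fderiv.symm⟩⟩
  · rw [OpenPartialHomeomorph.restrOpen_source]
    exact fun w hw => hw.2.1
  · rfl
  · intro w hw
    have h1 := (R₀.restrOpen _ hW).map_target hw
    rw [OpenPartialHomeomorph.restrOpen_source] at h1
    obtain ⟨-, h2, T', hT'⟩ := h1
    have h3 : HasFDerivAt (R₀.restrOpen _ hW) (T' : E₁ →L[ℂ] E₂)
        ((R₀.restrOpen _ hW).symm w) := by
      rw [hT']
      exact (hΦ.differentiableAt (hV.mem_nhds h2)).hasFDerivAt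
    exact ((R₀.restrOpen _ hW).hasFDerivAt_symm hw h3).differentiableAt.differentiableWithinAt

variable (m : ℕ) (E P : Type) [NormedAddCommGroup E] [NormedSpace ℂ E] [FiniteDimensional ℂ E]
  [NormedAddCommGroup P] [NormedSpace ℂ P] [FiniteDimensional ℂ P]

/-- a holomorphic family of smooth hypersurfaces -/
structure SFam where
  b : E ≃L[ℂ] (Fin (m + 1) → ℂ)
  F : E × P → ℂ
  W : Set (E × P)
  isOpen : IsOpen W
  hol : DifferentiableOn ℂ F W
  reg : ∀ q ∈ W, F q = 0 → ∃ v : E, fderiv ℂ F q (v, 0) ≠ 0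

variable {m E P}

/-- the level surface of parameter `τ` -/
abbrev SFam.M (X : SFam m E P) (τ : P) : Type := {x : E // (x, τ) ∈ X.W ∧ X.F (x, τ) = 0}

/-- the level surface as a set -/
def SFam.S (X : SFam m E P) (τ : P) : Set E := {x : E | (x, τ) ∈ X.W ∧ X.F (x, τ) = 0}

/-- adapted charts of the total space -/
structure AdCh (X : SFam m E P) where
  Φ : OpenPartialHomeomorph (E × P) (Cn m × ℂ × P)
  pr : E →L[ℂ] Cn m
  sub : Φ.source ⊆ X.W
  eq : ∀ q ∈ Φ.source, Φ q = (pr q.1, X.F q, q.2)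
  hol : DifferentiableOn ℂ Φ.symm Φ.target

variable (X : SFam m E P)

theorem SFam.an : AnalyticOnNhd ℂ X.F X.W :=
  Crest.Agent.R266.SCV.analyticOnNhd_of_differentiableOn X.isOpen X.hol

theorem SFam.diffAt {q : E × P} (hq : q ∈ X.W) : DifferentiableAt ℂ X.F q :=
  X.hol.differentiableAt (X.isOpen.mem_nhds hq)

/-- the coordinate projection forgetting the coordinate `k` -/
def prk (b : E ≃L[ℂ] (Fin (m + 1) → ℂ)) (k : Fin (m + 1)) : E →L[ℂ] Cn m :=
  ((EuclideanSpace.equiv (Fin m) ℂ).symm : (Fin m → ℂ) →L[ℂ] Cn m).comp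
    ((ContinuousLinearMap.pi fun a => ContinuousLinearMap.proj (k.succAbove a)).comp
      (b : E →L[ℂ] (Fin (m + 1) → ℂ)))

theorem prk_apply (b : E ≃L[ℂ] (Fin (m + 1) → ℂ)) (k : Fin (m + 1)) (x : E) (a : Fin m) :
    prk b k x a = b x (k.succAbove a) := rfl

theorem eq_of_prk (b : E ≃L[ℂ] (Fin (m + 1) → ℂ)) {k : Fin (m + 1)} {v : E} (h : prk b k v = 0) :
    v = b v k • b.symm (Pi.single k 1) := by
  apply b.injective
  rw [map_smul, b.apply_symm_apply]
  funext j
  rcases eq_or_ne j k with rfl | hj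
  · simp
  · obtain ⟨a, rfl⟩ := Fin.exists_succAbove_eq hj
    have h1 := congrArg (fun z : Cn m => z a) h
    simp only [prk_apply] at h1
    rw [h1]
    simp [Fin.succAbove_ne]

theorem exists_adCh {q : E × P} (hq : q ∈ X.W) (h0 : X.F q = 0) :
    ∃ Ψ : AdCh X, q ∈ Ψ.Φ.source := by
  obtain ⟨v, hv⟩ := X.reg q hq h0
  obtain ⟨k, hk⟩ : ∃ k, fderiv ℂ X.F q (X.b.symm (Pi.single k 1), 0) ≠ 0 := by
    by_contra hcon
    push Not at hcon
    apply hv
    have h1 : v = ∑ k, X.b v k • X.b.symm (Pi.single k (1 : ℂ)) := by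
      apply X.b.injective
      rw [map_sum]
      simp only [map_smul, X.b.apply_symm_apply]
      funext j
      simp [Finset.sum_apply, Pi.single_apply]
    have h2 : (v, (0 : P)) = ∑ k, X.b v k • (X.b.symm (Pi.single k (1 : ℂ)), (0 : P)) := by
      refine Prod.ext ?_ ?_
      · rw [Prod.fst_sum]
        simpa using h1
      · rw [Prod.snd_sum]
        simp
    rw [h2, map_sum]
    refine Finset.sum_eq_zero fun k _ => ?_
    rw [map_smul, hcon k, smul_zero]
  set f : E × P → Cn m × ℂ × P := fun q => (prk X.b k q.1, X.F q, q.2) with hf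
  set L : E × P →L[ℂ] Cn m × ℂ × P := ((prk X.b k).comp (ContinuousLinearMap.fst ℂ E P)).prod
    ((fderiv ℂ X.F q).prod (ContinuousLinearMap.snd ℂ E P)) with hL
  have hinj : Function.Injective L := by
    rw [injective_iff_map_eq_zero]
    rintro ⟨v, s⟩ hvs
    have h1 : prk X.b k v = 0 := congrArg Prod.fst hvs
    have h2 : fderiv ℂ X.F q (v, s) = 0 := congrArg (fun t => t.2.1) hvs
    have h3 : s = 0 := congrArg (fun t => t.2.2) hvs
    subst h3
    have h4 := eq_of_prk X.b h1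
    have h5 : (v, (0 : P)) = X.b v k • (X.b.symm (Pi.single k (1 : ℂ)), (0 : P)) := by
      refine Prod.ext h4 ?_
      simp
    rw [h5, map_smul, smul_eq_mul, mul_eq_zero] at h2
    have h6 : X.b v k = 0 := h2.resolve_right hk
    rw [h6, zero_smul] at h5
    exact h5
  have hfr : Module.finrank ℂ (E × P) = Module.finrank ℂ (Cn m × ℂ × P) := by
    have h1 : Module.finrank ℂ E = m + 1 := by
      rw [X.b.toLinearEquiv.finrank_eq]
      simp
    rw [Module.finrank_prod, Module.finrank_prod, Module.finrank_prod, h1,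
      finrank_euclideanSpace_fin, Module.finrank_self]
    ring
  let T : (E × P) ≃L[ℂ] (Cn m × ℂ × P) :=
    (LinearEquiv.ofInjectiveOfFinrankEq L.toLinearMap hinj hfr).toContinuousLinearEquiv
  have hT : (T : E × P →L[ℂ] Cn m × ℂ × P) = L := by
    ext v <;> rfl
  have hd : DifferentiableOn ℂ f X.W := by
    refine DifferentiableOn.prodMk ?_ (X.hol.prodMk differentiable_snd.differentiableOn)
    exact ((prk X.b k).differentiable.comp differentiable_fst).differentiableOn
  have hfd : HasFDerivAt f (T : E × P →L[ℂ] Cn m × ℂ × P) q := by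
    rw [hT]
    exact ((prk X.b k).hasFDerivAt.comp q hasFDerivAt_fst).prodMk
      ((X.diffAt hq).hasFDerivAt.prodMk hasFDerivAt_snd)
  obtain ⟨R, h1, h2, h3, h4⟩ := exists_invFun' X.isOpen hd hq T hfd
  exact ⟨⟨R, prk X.b k, h2, fun q _ => by rw [h3], h4⟩, h1⟩

namespace AdCh

variable {X} (Ψ : AdCh X)

theorem mem_inv {z : Cn m} {s : ℂ} {τ : P} (h : (z, s, τ) ∈ Ψ.Φ.target) :
    Ψ.pr (Ψ.Φ.symm (z, s, τ)).1 = z ∧ X.F (Ψ.Φ.symm (z, s, τ)) = s ∧
      (Ψ.Φ.symm (z, s, τ)).2 = τ := by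
  have h1 := Ψ.Φ.map_target h
  have h2 := Ψ.eq _ h1
  rw [Ψ.Φ.right_inv h] at h2
  simp only [Prod.mk.injEq] at h2
  exact ⟨h2.1.symm, h2.2.1.symm, h2.2.2.symm⟩

/-- the parametrisation -/
def th (z : Cn m) (τ : P) : E := (Ψ.Φ.symm (z, 0, τ)).1

/-- the domain of the parametrisation -/
def O (τ : P) : Set (Cn m) := {z | (z, (0 : ℂ), τ) ∈ Ψ.Φ.target}

variable {τ : P} {z : Cn m}

theorem isOpen_O : IsOpen (Ψ.O τ) :=
  Ψ.Φ.open_target.preimage (by fun_prop)

theorem symm_eq (hz : z ∈ Ψ.O τ) : Ψ.Φ.symm (z, 0, τ) = (Ψ.th z τ, τ) :=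
  Prod.ext rfl (Ψ.mem_inv hz).2.2

theorem th_source (hz : z ∈ Ψ.O τ) : (Ψ.th z τ, τ) ∈ Ψ.Φ.source := by
  rw [← Ψ.symm_eq hz]
  exact Ψ.Φ.map_target hz

theorem th_mem (hz : z ∈ Ψ.O τ) : (Ψ.th z τ, τ) ∈ X.W ∧ X.F (Ψ.th z τ, τ) = 0 := by
  refine ⟨Ψ.sub (Ψ.th_source hz), ?_⟩
  rw [← Ψ.symm_eq hz]
  exact (Ψ.mem_inv hz).2.1

theorem pr_th (hz : z ∈ Ψ.O τ) : Ψ.pr (Ψ.th z τ) = z := (Ψ.mem_inv hz).1

theorem pr_mem {x : E} (hx : (x, τ) ∈ Ψ.Φ.source) (h0 : X.F (x, τ) = 0) :
    Ψ.pr x ∈ Ψ.O τ ∧ Ψ.th (Ψ.pr x) τ = x := by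
  have h1 := Ψ.eq _ hx
  rw [h0] at h1
  have h2 := Ψ.Φ.map_source hx
  rw [h1] at h2
  refine ⟨h2, ?_⟩
  have h3 := Ψ.Φ.left_inv hx
  rw [h1] at h3
  exact congrArg Prod.fst h3

theorem diffOn_th : DifferentiableOn ℂ (fun z => Ψ.th z τ) (Ψ.O τ) := by
  have h1 : DifferentiableOn ℂ (fun z : Cn m => Ψ.Φ.symm (z, 0, τ)) (Ψ.O τ) :=
    Ψ.hol.comp (by fun_prop) fun z hz => hz
  exact differentiable_fst.comp_differentiableOn h1

theorem diffOn_th' : DifferentiableOn ℂ (fun q : Cn m × P => Ψ.th q.1 q.2)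
    {q | (q.1, (0 : ℂ), q.2) ∈ Ψ.Φ.target} := by
  have h1 : DifferentiableOn ℂ (fun q : Cn m × P => Ψ.Φ.symm (q.1, 0, q.2))
      {q | (q.1, (0 : ℂ), q.2) ∈ Ψ.Φ.target} :=
    Ψ.hol.comp (by fun_prop) fun z hz => hz
  exact differentiable_fst.comp_differentiableOn h1

theorem isOpen_tot : IsOpen {q : Cn m × P | (q.1, (0 : ℂ), q.2) ∈ Ψ.Φ.target} :=
  Ψ.Φ.open_target.preimage (by fun_prop)

open Classical in
/-- the parametrisation with values in the surface -/
def inv (x₀ : X.M τ) (z : Cn m) : X.M τ := if h : z ∈ Ψ.O τ then ⟨Ψ.th z τ, Ψ.th_mem h⟩ else x₀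

theorem inv_val {x₀ : X.M τ} (hz : z ∈ Ψ.O τ) : (Ψ.inv x₀ z).1 = Ψ.th z τ := by
  unfold inv
  rw [dif_pos hz]

/-- the chart of the surface `X.M τ` -/
def ch (x₀ : X.M τ) : OpenPartialHomeomorph (X.M τ) (Cn m) where
  toFun x := Ψ.pr x.1
  invFun := Ψ.inv x₀
  source := {x | (x.1, τ) ∈ Ψ.Φ.source}
  target := Ψ.O τ
  map_source' x hx := (Ψ.pr_mem hx x.2.2).1
  map_target' z hz := by
    change ((Ψ.inv x₀ z).1, τ) ∈ Ψ.Φ.source
    rw [Ψ.inv_val hz]
    exact Ψ.th_source hz
  left_inv' x hx := by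
    apply Subtype.ext
    rw [Ψ.inv_val (Ψ.pr_mem hx x.2.2).1]
    exact (Ψ.pr_mem hx x.2.2).2
  right_inv' z hz := by
    rw [Ψ.inv_val hz]
    exact Ψ.pr_th hz
  open_source := Ψ.Φ.open_source.preimage (by fun_prop)
  open_target := Ψ.isOpen_O
  continuousOn_toFun := (Ψ.pr.continuous.comp continuous_subtype_val).continuousOn
  continuousOn_invFun := by
    refine Topology.IsInducing.subtypeVal.continuousOn_iff.2 ?_
    exact Ψ.diffOn_th.continuousOn.congr fun z hz => Ψ.inv_val hz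

theorem ch_apply (x₀ x : X.M τ) : Ψ.ch x₀ x = Ψ.pr x.1 := rfl

theorem ch_symm_val {x₀ : X.M τ} (hz : z ∈ Ψ.O τ) : ((Ψ.ch x₀).symm z).1 = Ψ.th z τ :=
  Ψ.inv_val hz



end AdCh

/-- the charts of the surface `X.M τ` -/
def SFam.fam (τ : P) : Fam m (X.M τ) where
  ι := AdCh X × X.M τ
  e i := i.1.ch i.2
  cover x := by
    obtain ⟨Ψ, hΨ⟩ := exists_adCh X x.2.1 x.2.2
    exact ⟨(Ψ, x), hΨ⟩
  holo i j := by
    have h1 : DifferentiableOn ℂ (fun z => j.1.pr (i.1.th z τ)) (i.1.O τ) :=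
      j.1.pr.differentiable.comp_differentiableOn i.1.diffOn_th
    refine (h1.mono fun z hz => hz.1).congr fun z hz => ?_
    rw [AdCh.ch_apply, AdCh.ch_symm_val i.1 (hz.1 : z ∈ i.1.O τ)]

end

end Crest.Agent.R257.Atl_941
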