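import Crest.Agent.R257.Atl2_941
import Mathlib.LinearAlgebra.Determinant
import Crest.Agent.R273.Vm_333

-- ▼ part R257/Atl3_941
section

/-!
# R257 (S0395), leaf GB-ATL (helper941): the residue form

* `dX X q`        : `∂F/∂x (q)`
* `om X w`        : the alternating form `v ↦ det (b w, b v_1, ..., b v_m)`
* `e2 X q T`      : `|η(T e_1, ..., T e_m)|²`, `η(v) = det (w, v) / ∂F/∂x (w)`; `e2_eq` (independent
                    of `w`), `e2_comp` (change of variables), `e2_pos`
-/

set_option autoImplicit false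
set_option linter.unusedSectionVars false

open Set Filter Topology Complex Metric
open scoped ContDiff Matrix ComplexConjugate Manifold

namespace Crest.Agent.R257.Atl_941

open Crest.Agent.R275.Geo Crest.Agent.R275.Core144 Crest.Agent.R275.GC293

noncomputable section

variable {m : ℕ} {E P : Type} [NormedAddCommGroup E] [NormedSpace ℂ E] [FiniteDimensional ℂ E]
  [NormedAddCommGroup P] [NormedSpace ℂ P] [FiniteDimensional ℂ P] (X : SFam m E P)

/-- the derivative of `F` in the space direction -/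
def dX (q : E × P) : E →L[ℂ] ℂ := (fderiv ℂ X.F q).comp (ContinuousLinearMap.inl ℂ E P)

theorem dX_apply (q : E × P) (v : E) : dX X q v = fderiv ℂ X.F q (v, 0) := rfl

theorem dX_ne {q : E × P} (hq : q ∈ X.W) (h0 : X.F q = 0) : dX X q ≠ 0 := by
  obtain ⟨v, hv⟩ := X.reg q hq h0
  intro h
  apply hv
  rw [← dX_apply, h]
  rfl

/-- `v ↦ det (w, v_1, ..., v_m)` -/
def om (w : E) : E [⋀^Fin m]→ₗ[ℂ] ℂ :=
  ((Matrix.detRowAlternating (n := Fin (m + 1)) (R := ℂ)).curryLeft (X.b w)).compLinearMap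
    X.b.toLinearEquiv.toLinearMap

theorem om_apply (w : E) (v : Fin m → E) :
    om X w v = Matrix.det (Matrix.of (Matrix.vecCons (X.b w) fun a => X.b (v a))) := by
  rfl

theorem om_add (w w' : E) (v : Fin m → E) : om X (w + w') v = om X w v + om X w' v := by
  simp only [om_apply, map_add]
  exact (Matrix.detRowAlternating (n := Fin (m + 1)) (R := ℂ)).map_vecCons_add _ _ _

theorem om_smul (c : ℂ) (w : E) (v : Fin m → E) : om X (c • w) v = c * om X w v := by
  simp only [om_apply, map_smul]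
  exact (Matrix.detRowAlternating (n := Fin (m + 1)) (R := ℂ)).map_vecCons_smul _ _ _

/-- vectors in the kernel of a nonzero functional -/
theorem om_eq_zero {φ : E →L[ℂ] ℂ} (hφ : φ ≠ 0) {w : E} (hw : φ w = 0) {v : Fin m → E}
    (hv : ∀ a, φ (v a) = 0) : om X w v = 0 := by
  rw [om_apply]
  refine Matrix.exists_mulVec_eq_zero_iff.1
    ⟨fun k => φ (X.b.symm (Pi.single k (1 : ℂ))), ?_, ?_⟩
  · intro h
    apply hφ
    ext u
    have h1 : u = ∑ k, X.b u k • X.b.symm (Pi.single k (1 : ℂ)) := by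
      apply X.b.injective
      rw [map_sum]
      simp only [map_smul, X.b.apply_symm_apply]
      funext j
      simp [Finset.sum_apply, Pi.single_apply]
    rw [h1, map_sum]
    simp only [map_smul]
    have h2 : ∀ k, φ (X.b.symm (Pi.single k (1 : ℂ))) = 0 := fun k => congrFun h k
    simp [h2]
  · have h1 : ∀ u : E, ∑ k, X.b u k * φ (X.b.symm (Pi.single k (1 : ℂ))) = φ u := by
      intro u
      conv_rhs => rw [show u = ∑ k, X.b u k • X.b.symm (Pi.single k (1 : ℂ)) by
        apply X.b.injective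
        rw [map_sum]
        simp only [map_smul, X.b.apply_symm_apply]
        funext j
        simp [Finset.sum_apply, Pi.single_apply]]
      rw [map_sum]
      simp only [map_smul, smul_eq_mul]
    funext i
    refine Fin.cases ?_ (fun a => ?_) i
    · change ∑ k, X.b w k * φ (X.b.symm (Pi.single k (1 : ℂ))) = 0
      rw [h1, hw]
    · change ∑ k, X.b (v a) k * φ (X.b.symm (Pi.single k (1 : ℂ))) = 0
      rw [h1, hv]

theorem om_cross {φ : E →L[ℂ] ℂ} {v : Fin m → E} (hv : ∀ a, φ (v a) = 0) (w w' : E) :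
    om X w v * φ w' = om X w' v * φ w := by
  by_cases hφ : φ = 0
  · simp [hφ]
  have h1 : φ (φ w' • w + (-φ w) • w') = 0 := by
    simp only [map_add, map_smul, smul_eq_mul]
    ring
  have h2 := om_eq_zero X hφ h1 hv
  rw [om_add, om_smul, om_smul] at h2
  linear_combination h2

/-- the gradient vector -/
def grd (q : E × P) : E :=
  X.b.symm (fun k => conj (dX X q (X.b.symm (Pi.single k (1 : ℂ)))))

theorem dX_grd (q : E × P) :
    dX X q (grd X q) = ((∑ k, ‖dX X q (X.b.symm (Pi.single k (1 : ℂ)))‖ ^ 2 : ℝ) : ℂ) := by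
  have h1 : grd X q = ∑ k, (conj (dX X q (X.b.symm (Pi.single k (1 : ℂ))))) •
      X.b.symm (Pi.single k (1 : ℂ)) := by
    apply X.b.injective
    rw [map_sum]
    simp only [map_smul, X.b.apply_symm_apply, grd]
    funext j
    simp [Finset.sum_apply, Pi.single_apply]
  conv_lhs => rw [h1]
  rw [map_sum]
  simp only [map_smul, smul_eq_mul]
  push_cast
  refine Finset.sum_congr rfl fun k _ => ?_
  rw [mul_comm, Complex.mul_conj, Complex.normSq_eq_norm_sq]
  push_cast
  rfl

theorem dX_grd_ne {q : E × P} (h : dX X q ≠ 0) : dX X q (grd X q) ≠ 0 := by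
  rw [dX_grd]
  intro h0
  rw [Complex.ofReal_eq_zero, Finset.sum_eq_zero_iff_of_nonneg (fun _ _ => by positivity)] at h0
  apply h
  ext u
  have h1 : u = ∑ k, X.b u k • X.b.symm (Pi.single k (1 : ℂ)) := by
    apply X.b.injective
    rw [map_sum]
    simp only [map_smul, X.b.apply_symm_apply]
    funext j
    simp [Finset.sum_apply, Pi.single_apply]
  rw [h1, map_sum]
  simp only [map_smul]
  have h2 : ∀ k, dX X q (X.b.symm (Pi.single k (1 : ℂ))) = 0 := fun k => by
    have := h0 k (Finset.mem_univ k)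
    simpa using this
  simp [h2]

/-- the vectors `T e_a` -/
def fr (T : Cn m →L[ℂ] E) (a : Fin m) : E := T (EuclideanSpace.single a 1)

/-- `|η|²` at `q` on the frame `T e_1, ..., T e_m` -/
def e2 (q : E × P) (T : Cn m →L[ℂ] E) : ℝ := ‖om X (grd X q) (fr T) / dX X q (grd X q)‖ ^ 2

theorem e2_eq {q : E × P} {T : Cn m →L[ℂ] E} (hT : ∀ v, dX X q (T v) = 0) {w : E}
    (hw : dX X q w ≠ 0) : e2 X q T = ‖om X w (fr T) / dX X q w‖ ^ 2 := by
  have h0 : dX X q ≠ 0 := by
    intro h
    rw [h] at hw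
    exact hw rfl
  have h1 := dX_grd_ne X h0
  have h2 := om_cross X (φ := dX X q) (v := fr T) (fun a => hT _) (grd X q) w
  have h3 : om X (grd X q) (fr T) / dX X q (grd X q) = om X w (fr T) / dX X q w := by
    rw [div_eq_div_iff h1 hw]
    exact h2
  unfold e2
  rw [h3]


/-- the matrix of a linear endomorphism of `Cn m` -/
theorem om_comp (w : E) (T : Cn m →L[ℂ] E) (R : Cn m →L[ℂ] Cn m) :
    om X w (fr (T.comp R)) =
      (Matrix.of fun b a => (R (EuclideanSpace.single a 1)) b).det * om X w (fr T) := by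
  set B : Module.Basis (Fin m) ℂ (Cn m) := (EuclideanSpace.basisFun (Fin m) ℂ).toBasis with hB
  have hBa : ∀ a, B a = EuclideanSpace.single a 1 := fun a => by
    rw [hB, OrthonormalBasis.coe_toBasis, EuclideanSpace.basisFun_apply]
  set g : (Cn m) [⋀^Fin m]→ₗ[ℂ] ℂ := (om X w).compLinearMap T.toLinearMap with hg
  have h1 : g = g B • B.det := AlternatingMap.eq_smul_basis_det B g
  have h2 : om X w (fr (T.comp R)) = g (fun a => R (B a)) := by
    rw [hg, AlternatingMap.compLinearMap_apply]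
    congr 1
    funext a
    simp only [fr, hBa]
    rfl
  have h3 : g B = om X w (fr T) := by
    rw [hg, AlternatingMap.compLinearMap_apply]
    congr 1
    funext a
    simp only [fr, hBa]
    rfl
  have h4 : B.det (fun a => R (B a)) =
      (Matrix.of fun b a => (R (EuclideanSpace.single a 1)) b).det := by
    rw [Module.Basis.det_apply]
    congr 1
    ext b a
    rw [Module.Basis.toMatrix_apply, Matrix.of_apply, hBa]
    simp [hB]
  rw [h2, h1, AlternatingMap.smul_apply, h3, h4, smul_eq_mul, mul_comm]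

theorem e2_comp (q : E × P) (T : Cn m →L[ℂ] E) (R : Cn m →L[ℂ] Cn m) :
    e2 X q (T.comp R) =
      ‖(Matrix.of fun b a => (R (EuclideanSpace.single a 1)) b).det‖ ^ 2 * e2 X q T := by
  unfold e2
  rw [om_comp, mul_div_assoc, norm_mul, mul_pow]

theorem e2_pos {q : E × P} (hq : dX X q ≠ 0) {T : Cn m →L[ℂ] E} (hT : ∀ v, dX X q (T v) = 0)
    (hi : Function.Injective T) : 0 < e2 X q T := by
  have h1 := dX_grd_ne X hq
  have h2 : om X (grd X q) (fr T) ≠ 0 := by
    rw [om_apply]
    have hli : LinearIndependent ℂ (Matrix.vecCons (X.b (grd X q)) fun a => X.b (fr T a)) := by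
      have h3 : LinearIndependent ℂ (Matrix.vecCons (grd X q) (fr T)) := by
        refine LinearIndependent.finCons ?_ ?_
        · have h4 : LinearIndependent ℂ (fun a : Fin m =>
              (EuclideanSpace.single a (1 : ℂ) : Cn m)) := by
            have h9 : (fun a : Fin m => (EuclideanSpace.single a (1 : ℂ) : Cn m)) =
                ⇑((EuclideanSpace.basisFun (Fin m) ℂ).toBasis) := by
              funext a
              rw [OrthonormalBasis.coe_toBasis, EuclideanSpace.basisFun_apply]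
            rw [h9]
            exact (EuclideanSpace.basisFun (Fin m) ℂ).toBasis.linearIndependent
          exact h4.map' T.toLinearMap (LinearMap.ker_eq_bot.2 hi)
        · intro hmem
          apply h1
          have h5 : Submodule.span ℂ (range (fr T)) ≤ LinearMap.ker (dX X q).toLinearMap := by
            rw [Submodule.span_le]
            rintro _ ⟨a, rfl⟩
            exact hT _
          exact h5 hmem
      have h6 : (Matrix.vecCons (X.b (grd X q)) fun a => X.b (fr T a)) =
          fun i => X.b (Matrix.vecCons (grd X q) (fr T) i) := by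
        funext i
        refine Fin.cases ?_ (fun a => ?_) i <;> simp
      rw [h6]
      exact h3.map' X.b.toLinearEquiv.toLinearMap X.b.toLinearEquiv.ker
    have h7 := Matrix.linearIndependent_rows_iff_isUnit.1
      (show LinearIndependent ℂ (Matrix.of (Matrix.vecCons (X.b (grd X q))
        fun a => X.b (fr T a))).row from hli)
    exact ((Matrix.isUnit_iff_isUnit_det _).1 h7).ne_zero
  unfold e2
  have h8 : om X (grd X q) (fr T) / dX X q (grd X q) ≠ 0 := div_ne_zero h2 h1
  positivity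

end

end Crest.Agent.R257.Atl_941
end

-- ▼ part R257/Atl4_941
section

/-!
# R257 (S0395), leaf GB-ATL (helper941): the atlas of a level surface, parametrisations

* `X.A τ`          : a countable, locally finite `Atl m (X.M τ)`; `X.part τ : Part (X.A τ)`
* `Par X τ θ O`    : `θ : Cn k → X.M τ` holomorphic on the open set `O ⊆ Cn k`
* `par_chart`      : inverse charts of `X.A τ` are parametrisations, `inj_chart` : immersive
* `sm_iff_par`     : smooth = smooth along all parametrisations; `sm_val`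
* `Par.tangent`    : `∂F/∂x ∘ dθ = 0`
* `X.eta τ : HM (KB (X.A τ))⁻¹`, the volume form `|η|²`; `Par.e2_eq`
-/

set_option autoImplicit false
set_option linter.unusedSectionVars false

open Set Filter Topology Complex Metric
open scoped ContDiff Matrix ComplexConjugate Manifold

namespace Crest.Agent.R257.Atl_941

open Crest.Agent.R275.Geo Crest.Agent.R275.Core144 Crest.Agent.R275.GC293
open Crest.Agent.R273.Defs_333 Crest.Agent.R273.Map_835 Crest.Agent.R273.PB_835
open Crest.Agent.R273.Fam_835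

noncomputable section

variable {m : ℕ} {E P : Type} [NormedAddCommGroup E] [NormedSpace ℂ E] [FiniteDimensional ℂ E]
  [NormedAddCommGroup P] [NormedSpace ℂ P] [FiniteDimensional ℂ P] (X : SFam m E P) (τ : P)

theorem scE (E : Type) [NormedAddCommGroup E] [NormedSpace ℂ E] [FiniteDimensional ℂ E] :
    SecondCountableTopology E := by
  have : ProperSpace E := FiniteDimensional.proper ℂ E
  infer_instance

theorem scM : SecondCountableTopology (X.M τ) := by
  have := scE E
  infer_instance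

theorem SFam.exists_A : ∃ A : Atl m (X.M τ), Countable A.ι ∧ Nonempty (Part A) ∧
    (LocallyFinite fun i => (A.e i).source) ∧ Nonempty (SubAtl A (X.fam τ)) := by
  have := scM X τ
  obtain ⟨A, h1, h2, -, h3, h4⟩ := exists_atl_nc (X.fam τ) (fun _ : Unit => (univ : Set (X.M τ)))
    (fun _ => isOpen_univ) (fun x => ⟨(), mem_univ x⟩)
  exact ⟨A, h1, h2, h3, h4⟩

/-- the atlas of the level surface -/
def SFam.A : Atl m (X.M τ) := (SFam.exists_A X τ).choose

theorem SFam.countable : Countable (X.A τ).ι := (SFam.exists_A X τ).choose_spec.1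

/-- a partition of unity -/
def SFam.part : Part (X.A τ) := (SFam.exists_A X τ).choose_spec.2.1.some


/-- the charts are restrictions of adapted charts -/
def SFam.sb : SubAtl (X.A τ) (X.fam τ) := (SFam.exists_A X τ).choose_spec.2.2.2.some

/-- the adapted chart behind the chart `i` -/
def SFam.ad (i : (X.A τ).ι) : AdCh X := ((X.sb τ).j i).1

variable {X τ}

/-- holomorphic maps with values in the level surface -/
structure Par (X : SFam m E P) (τ : P) {k : ℕ} (θ : Cn k → X.M τ) (O : Set (Cn k)) : Prop where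
  isOpen : IsOpen O
  hol : DifferentiableOn ℂ (fun z => (θ z).1) O

theorem apply_eq (i : (X.A τ).ι) (x : X.M τ) :
    (X.A τ).e i x = aff ((X.sb τ).c i) ((X.sb τ).r i) ((X.sb τ).r_pos i) ((X.ad τ i).pr x.1) :=
  (X.sb τ).apply i x

theorem symm_val (i : (X.A τ).ι) {z : Cn m} (hz : z ∈ ((X.A τ).e i).target) :
    (((X.A τ).e i).symm z).1 =
      (X.ad τ i).th ((aff ((X.sb τ).c i) ((X.sb τ).r i) ((X.sb τ).r_pos i)).symm z) τ := by
  rw [(X.sb τ).symm_apply]
  rw [(X.sb τ).target_eq] at hz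
  exact (X.ad τ i).ch_symm_val ((X.sb τ).ball_sub i hz)

theorem aff_mem_O (i : (X.A τ).ι) {z : Cn m} (hz : z ∈ ((X.A τ).e i).target) :
    (aff ((X.sb τ).c i) ((X.sb τ).r i) ((X.sb τ).r_pos i)).symm z ∈ (X.ad τ i).O τ := by
  rw [(X.sb τ).target_eq] at hz
  exact (X.sb τ).ball_sub i hz

theorem par_chart (i : (X.A τ).ι) : Par X τ ((X.A τ).e i).symm ((X.A τ).e i).target where
  isOpen := ((X.A τ).e i).open_target
  hol := by
    have h1 : DifferentiableOn ℂ (fun z => (X.ad τ i).th
        ((aff ((X.sb τ).c i) ((X.sb τ).r i) ((X.sb τ).r_pos i)).symm z) τ)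
        ((X.A τ).e i).target :=
      (X.ad τ i).diffOn_th.comp (differentiable_aff_symm _ _ _).differentiableOn
        fun z hz => aff_mem_O i hz
    exact h1.congr fun z hz => symm_val i hz

/-- the inverse charts are immersions -/
theorem inj_chart (i : (X.A τ).ι) {z : Cn m} (hz : z ∈ ((X.A τ).e i).target) :
    Function.Injective (fderiv ℂ (fun z => (((X.A τ).e i).symm z).1) z) := by
  set T := fderiv ℂ (fun z => (((X.A τ).e i).symm z).1) z with hT
  have hd : HasFDerivAt (fun z => (((X.A τ).e i).symm z).1) T z :=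
    ((par_chart i).hol.differentiableAt (((X.A τ).e i).open_target.mem_nhds hz)).hasFDerivAt
  have h1 : HasFDerivAt (fun z => (X.ad τ i).pr (((X.A τ).e i).symm z).1)
      ((X.ad τ i).pr.comp T) z := (X.ad τ i).pr.hasFDerivAt.comp z hd
  have h2 : (fun z => (X.ad τ i).pr (((X.A τ).e i).symm z).1) =ᶠ[𝓝 z]
      fun z => ((2 * (X.sb τ).r i : ℝ) : ℂ) • (z - ctr m) + (X.sb τ).c i := by
    filter_upwards [((X.A τ).e i).open_target.mem_nhds hz] with w hw
    rw [symm_val i hw, (X.ad τ i).pr_th (aff_mem_O i hw)]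
    rfl
  have h3 : HasFDerivAt (fun z : Cn m => ((2 * (X.sb τ).r i : ℝ) : ℂ) • (z - ctr m) +
      (X.sb τ).c i) (((2 * (X.sb τ).r i : ℝ) : ℂ) • ContinuousLinearMap.id ℂ (Cn m)) z :=
    (((hasFDerivAt_id (𝕜 := ℂ) z).sub_const (ctr m)).const_smul
      ((2 * (X.sb τ).r i : ℝ) : ℂ)).add_const ((X.sb τ).c i)
  have h4 := h1.unique (h3.congr_of_eventuallyEq h2)
  intro v w hvw
  have h5 := congrArg (fun S : Cn m →L[ℂ] Cn m => S v) h4
  have h6 := congrArg (fun S : Cn m →L[ℂ] Cn m => S w) h4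
  simp only [ContinuousLinearMap.coe_comp, Function.comp_apply, smul_apply,
    ContinuousLinearMap.coe_id', id_eq] at h5 h6
  rw [hvw, h6] at h5
  have h7 : ((2 * (X.sb τ).r i : ℝ) : ℂ) ≠ 0 := by
    exact_mod_cast (mul_pos two_pos ((X.sb τ).r_pos i)).ne'
  exact (smul_right_injective (Cn m) h7 h5).symm

namespace Par

variable {k l : ℕ} {θ : Cn k → X.M τ} {O : Set (Cn k)} (h : Par X τ θ O)
include h

theorem diffAt {z : Cn k} (hz : z ∈ O) : DifferentiableAt ℂ (fun z => (θ z).1) z :=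
  h.hol.differentiableAt (h.isOpen.mem_nhds hz)

theorem contOn : ContinuousOn θ O :=
  Topology.IsInducing.subtypeVal.continuousOn_iff.2 h.hol.continuousOn

theorem contAt {z : Cn k} (hz : z ∈ O) : ContinuousAt θ z :=
  h.contOn.continuousAt (h.isOpen.mem_nhds hz)

theorem diffAt_e {z : Cn k} (hz : z ∈ O) (i : (X.A τ).ι) :
    DifferentiableAt ℂ (fun z => (X.A τ).e i (θ z)) z := by
  have h1 : DifferentiableAt ℂ (fun z => aff ((X.sb τ).c i) ((X.sb τ).r i) ((X.sb τ).r_pos i)
      ((X.ad τ i).pr (θ z).1)) z :=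
    (differentiable_aff _ _ _).differentiableAt.comp z
      ((X.ad τ i).pr.differentiableAt.comp z (h.diffAt hz))
  exact h1.congr_of_eventuallyEq (Eventually.of_forall fun w => apply_eq i (θ w))

theorem comp {ψ : Cn l → Cn k} {U : Set (Cn l)} (hU : IsOpen U) (hψ : DifferentiableOn ℂ ψ U)
    (hm : MapsTo ψ U O) : Par X τ (fun z => θ (ψ z)) U where
  isOpen := hU
  hol := h.hol.comp hψ hm

theorem mono {O' : Set (Cn k)} (hO' : IsOpen O') (hs : O' ⊆ O) : Par X τ θ O' :=
  ⟨hO', h.hol.mono hs⟩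

/-- the derivative is tangent to the level surface -/
theorem tangent {z : Cn k} (hz : z ∈ O) (v : Cn k) :
    dX X ((θ z).1, τ) (fderiv ℂ (fun z => (θ z).1) z v) = 0 := by
  have h1 : HasFDerivAt (fun z => X.F ((θ z).1, τ))
      ((fderiv ℂ X.F ((θ z).1, τ)).comp ((fderiv ℂ (fun z => (θ z).1) z).prod 0)) z :=
    (X.diffAt (θ z).2.1).hasFDerivAt.comp z ((h.diffAt hz).hasFDerivAt.prodMk
      (hasFDerivAt_const τ z))
  have h2 : HasFDerivAt (fun z => X.F ((θ z).1, τ)) (0 : Cn k →L[ℂ] ℂ) z := by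
    have h3 : (fun z => X.F ((θ z).1, τ)) = fun _ => 0 := funext fun z => (θ z).2.2
    rw [h3]
    exact hasFDerivAt_const _ _
  have h4 := congrArg (fun S : Cn k →L[ℂ] ℂ => S v) (h1.unique h2)
  exact h4

/-- smooth functions are smooth along parametrisations -/
theorem contDiffOn {W : Type*} [NormedAddCommGroup W] [NormedSpace ℝ W] {f : X.M τ → W}
    (hf : (X.A τ).Sm f) : ContDiffOn ℝ ∞ (fun z => f (θ z)) O := by
  intro z hz
  obtain ⟨i, hi⟩ := (X.A τ).cover (θ z)
  have hU : IsOpen (O ∩ θ ⁻¹' ((X.A τ).e i).source) :=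
    h.contOn.isOpen_inter_preimage h.isOpen ((X.A τ).e i).open_source
  have h1 : DifferentiableOn ℂ (fun z => (X.A τ).e i (θ z)) (O ∩ θ ⁻¹' ((X.A τ).e i).source) :=
    fun w hw => (h.diffAt_e hw.1 i).differentiableWithinAt
  have h2 : ContDiffOn ℝ ∞ (fun z => (X.A τ).e i (θ z)) (O ∩ θ ⁻¹' ((X.A τ).e i).source) :=
    ((Crest.Agent.R266.SCV.contDiffOn_omega_of_differentiableOn hU h1).of_le
      (show (∞ : WithTop ℕ∞) ≤ ω from le_top)).restrict_scalars ℝ
  have h3 : ContDiffOn ℝ ∞ ((fun z => f (((X.A τ).e i).symm z)) ∘ fun z => (X.A τ).e i (θ z))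
      (O ∩ θ ⁻¹' ((X.A τ).e i).source) :=
    (hf i).comp h2 fun w hw => ((X.A τ).e i).map_source hw.2
  have h4 := h3.contDiffAt (hU.mem_nhds ⟨hz, hi⟩)
  refine (h4.congr_of_eventuallyEq ?_).contDiffWithinAt
  filter_upwards [hU.mem_nhds ⟨hz, hi⟩] with w hw
  simp only [Function.comp]
  rw [((X.A τ).e i).left_inv hw.2]

end Par

/-- smoothness can be tested on parametrisations -/
theorem sm_iff_par {W : Type*} [NormedAddCommGroup W] [NormedSpace ℝ W] {f : X.M τ → W} :
    (X.A τ).Sm f ↔ ∀ (θ : Cn m → X.M τ) (O : Set (Cn m)), Par X τ θ O →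
      ContDiffOn ℝ ∞ (fun z => f (θ z)) O :=
  ⟨fun hf _ _ h => h.contDiffOn hf, fun hf i => hf _ _ (par_chart i)⟩

/-- ambient smooth functions are smooth on the surface -/
theorem sm_comp_val {W : Type*} [NormedAddCommGroup W] [NormedSpace ℝ W] [NormedSpace ℝ E]
    [IsScalarTower ℝ ℂ E] {f : E → W} {U : Set E} (hf : ContDiffOn ℝ ∞ f U)
    (hU : ∀ x : X.M τ, x.1 ∈ U) : (X.A τ).Sm (fun x : X.M τ => f x.1) := by
  rw [sm_iff_par]
  intro θ O h
  have : CompleteSpace E := FiniteDimensional.complete ℂ E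
  have h2 : ContDiffOn ℝ ∞ (fun z => (θ z).1) O :=
    ((Crest.Agent.R266.SCV.contDiffOn_omega_of_differentiableOn h.isOpen h.hol).of_le
      (show (∞ : WithTop ℕ∞) ≤ ω from le_top)).restrict_scalars ℝ
  exact hf.comp h2 fun z _ => hU (θ z)

/-! ### the volume form -/

/-- the derivative of the inverse chart -/
def dch (X : SFam m E P) (τ : P) (i : (X.A τ).ι) (x : X.M τ) : Cn m →L[ℂ] E :=
  fderiv ℂ (fun z => (((X.A τ).e i).symm z).1) ((X.A τ).e i x)

theorem dch_tangent (i : (X.A τ).ι) {x : X.M τ} (hx : x ∈ ((X.A τ).e i).source) (v : Cn m) :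
    dX X (x.1, τ) (dch X τ i x v) = 0 := by
  have h := (par_chart i).tangent (((X.A τ).e i).map_source hx) v
  rwa [((X.A τ).e i).left_inv hx] at h

theorem dX_ne' (x : X.M τ) : dX X (x.1, τ) ≠ 0 := dX_ne X x.2.1 x.2.2

/-- chain rule for parametrisations -/
theorem Par.fderiv_eq {k : ℕ} {θ : Cn k → X.M τ} {O : Set (Cn k)} (h : Par X τ θ O) {z : Cn k}
    (hz : z ∈ O) {i : (X.A τ).ι} (hi : θ z ∈ ((X.A τ).e i).source) :
    fderiv ℂ (fun z => (θ z).1) z =
      (dch X τ i (θ z)).comp (fderiv ℂ (fun z => (X.A τ).e i (θ z)) z) := by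
  have h1 := (h.diffAt_e hz i).hasFDerivAt
  have h2 : HasFDerivAt (fun z => (((X.A τ).e i).symm z).1) (dch X τ i (θ z))
      ((X.A τ).e i (θ z)) :=
    ((par_chart i).diffAt (((X.A τ).e i).map_source hi)).hasFDerivAt
  have h3 := h2.comp z h1
  have h4 : (fun z => (θ z).1) =ᶠ[𝓝 z]
      ((fun z => (((X.A τ).e i).symm z).1) ∘ fun z => (X.A τ).e i (θ z)) := by
    filter_upwards [(h.contAt hz).preimage_mem_nhds (((X.A τ).e i).open_source.mem_nhds hi)]
      with w hw
    simp only [Function.comp]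
    rw [((X.A τ).e i).left_inv hw]
  rw [h4.fderiv_eq]
  exact h3.fderiv

theorem dch_change {i j : (X.A τ).ι} {x : X.M τ}
    (hx : x ∈ ((X.A τ).e i).source ∩ ((X.A τ).e j).source) :
    dch X τ i x = (dch X τ j x).comp
      (fderiv ℂ (fun z => (X.A τ).e j (((X.A τ).e i).symm z)) ((X.A τ).e i x)) := by
  have h := (par_chart i).fderiv_eq (((X.A τ).e i).map_source hx.1) (i := j)
    (by rw [((X.A τ).e i).left_inv hx.1]; exact hx.2)
  rw [((X.A τ).e i).left_inv hx.1] at h
  exact h

theorem diffOn_prod {V : Type*} [NormedAddCommGroup V] [NormedSpace ℂ V] {ι : Type*}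
    (s : Finset ι) {F : ι → V → ℂ} {U : Set V} (h : ∀ k ∈ s, DifferentiableOn ℂ (F k) U) :
    DifferentiableOn ℂ (fun x => ∏ k ∈ s, F k x) U := by
  classical
  induction s using Finset.induction_on with
  | empty => simp
  | insert k s hk ih =>
    simp only [Finset.prod_insert hk]
    exact (h k (by simp)).mul (ih fun l hl => h l (by simp [hl]))

theorem smAt_e2 (i : (X.A τ).ι) :
    (X.A τ).SmAt i (fun x => e2 X (x.1, τ) (dch X τ i x)) := by
  intro z₀ hz₀
  set e := (X.A τ).e i with he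
  set q₀ : E × P := ((e.symm z₀).1, τ) with hq₀
  set w := grd X q₀ with hw
  have hw0 : dX X q₀ w ≠ 0 := dX_grd_ne X (dX_ne' (e.symm z₀))
  have hpar := par_chart (X := X) (τ := τ) i
  -- `dX` along the chart is holomorphic
  have h1 : DifferentiableOn ℂ (fun z => dX X ((e.symm z).1, τ) w) e.target := by
    have h2 : DifferentiableOn ℂ (fderiv ℂ X.F) X.W := X.an.fderiv.differentiableOn
    have h3 : DifferentiableOn ℂ (fun z => fderiv ℂ X.F ((e.symm z).1, τ)) e.target :=
      h2.comp (hpar.hol.prodMk (differentiableOn_const _)) fun z _ => (e.symm z).2.1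
    exact h3.clm_apply (differentiableOn_const _)
  have h4 : DifferentiableOn ℂ (fderiv ℂ fun z => (e.symm z).1) e.target :=
    ((Crest.Agent.R266.SCV.analyticOnNhd_of_differentiableOn hpar.isOpen
      hpar.hol).fderiv).differentiableOn
  have h5 : DifferentiableOn ℂ (fun z => om X w (fr (fderiv ℂ (fun z => (e.symm z).1) z)))
      e.target := by
    simp only [om_apply, Matrix.det_apply]
    refine DifferentiableOn.fun_sum fun σ _ => ?_
    simp only [Units.smul_def, zsmul_eq_mul]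
    refine (differentiableOn_const _).mul ?_
    refine diffOn_prod _ fun a _ => ?_
    have h6 : ∀ (r : Fin (m + 1)) (c : Fin (m + 1)), DifferentiableOn ℂ
        (fun z => (Matrix.vecCons (X.b w) fun a => X.b (fr (fderiv ℂ
          (fun z => (e.symm z).1) z) a)) r c) e.target := by
      intro r c
      refine Fin.cases ?_ (fun a => ?_) r
      · exact differentiableOn_const _
      · have h7 : DifferentiableOn ℂ (fun z => fderiv ℂ (fun z => (e.symm z).1) z
            (EuclideanSpace.single a (1 : ℂ))) e.target := h4.clm_apply (differentiableOn_const _)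
        have h8 : DifferentiableOn ℂ (fun z => X.b (fderiv ℂ (fun z => (e.symm z).1) z
            (EuclideanSpace.single a (1 : ℂ)))) e.target :=
          X.b.toContinuousLinearMap.differentiable.comp_differentiableOn h7
        exact differentiableOn_pi.1 h8 c
    exact h6 (σ a) a
  set U : Set (Cn m) := e.target ∩ (fun z => dX X ((e.symm z).1, τ) w) ⁻¹' {0}ᶜ with hU
  have hUo : IsOpen U := h1.continuousOn.isOpen_inter_preimage e.open_target isOpen_compl_singleton
  have h9 : DifferentiableOn ℂ (fun z => om X w (fr (fderiv ℂ (fun z => (e.symm z).1) z)) /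
      dX X ((e.symm z).1, τ) w) U :=
    (h5.mono inter_subset_left).mul ((h1.mono inter_subset_left).inv fun z hz => hz.2)
  have h10 : ContDiffOn ℝ ∞ (fun z => om X w (fr (fderiv ℂ (fun z => (e.symm z).1) z)) /
      dX X ((e.symm z).1, τ) w) U :=
    ((Crest.Agent.R266.SCV.contDiffOn_omega_of_differentiableOn hUo h9).of_le
      (show (∞ : WithTop ℕ∞) ≤ ω from le_top)).restrict_scalars ℝ
  have h11 : ContDiffAt ℝ ∞ (fun z => ‖om X w (fr (fderiv ℂ (fun z => (e.symm z).1) z)) /
      dX X ((e.symm z).1, τ) w‖ ^ 2) z₀ := (h10.contDiffAt (hUo.mem_nhds ⟨hz₀, hw0⟩)).norm_sq ℝ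
  refine (h11.congr_of_eventuallyEq ?_).contDiffWithinAt
  filter_upwards [hUo.mem_nhds ⟨hz₀, hw0⟩] with z hz
  have h12 : dch X τ i (e.symm z) = fderiv ℂ (fun z => (e.symm z).1) z := by
    unfold dch
    rw [← he, e.right_inv hz.1]
  rw [h12]
  exact e2_eq X (fun v => hpar.tangent hz.1 v) hz.2

/-- **the volume form `|η|²`** -/
def SFam.eta (X : SFam m E P) (τ : P) : HM (KB (X.A τ))⁻¹ where
  w i x := e2 X (x.1, τ) (dch X τ i x)
  pos i x hx := by
    refine e2_pos X (dX_ne' x) (fun v => dch_tangent i hx v) ?_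
    exact inj_chart i (((X.A τ).e i).map_source hx)
  sm i := smAt_e2 i
  tr i j x hx := by
    rw [LB.inv_g, KB_g hx, dch_change hx, e2_comp, norm_inv, inv_pow]
    have h1 : (Matrix.of fun b a => (fderiv ℂ (fun z => (X.A τ).e j (((X.A τ).e i).symm z))
        ((X.A τ).e i x) (EuclideanSpace.single a 1)) b) = Jm (X.A τ) i j x := rfl
    rw [h1]
    have h2 : (Jm (X.A τ) i j x).det ≠ 0 := by
      rw [← KB_g hx]
      exact (KB (X.A τ)).ne_zero i j x
    have h3 : ‖(Jm (X.A τ) i j x).det‖ ≠ 0 := norm_ne_zero_iff.2 h2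
    field_simp

theorem eta_w (i : (X.A τ).ι) (x : X.M τ) :
    (X.eta τ).w i x = e2 X (x.1, τ) (dch X τ i x) := rfl

/-- `|η|²` along a parametrisation -/
theorem Par.e2_eq {θ : Cn m → X.M τ} {O : Set (Cn m)} (h : Par X τ θ O) {z : Cn m}
    (hz : z ∈ O) {i : (X.A τ).ι} (hi : θ z ∈ ((X.A τ).e i).source) :
    e2 X ((θ z).1, τ) (fderiv ℂ (fun z => (θ z).1) z) =
      ‖(mt (fderiv ℂ (fun z => (X.A τ).e i (θ z)) z)).det‖ ^ 2 * (X.eta τ).w i (θ z) := by
  rw [h.fderiv_eq hz hi, e2_comp]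
  rfl

end

end Crest.Agent.R257.Atl_941
end

-- ▼ part R257/Atl5_941

/-!
# R257 (S0395), leaf GB-ATL (helper941): the measure `|η|²` on a level surface

* `X.vol τ : Measure (X.M τ)`  := `vm (X.eta τ)`, `X.nu τ : Measure E` := its image in `E`
* `ed X θ y`                    : `|η_θ|²` at the point with real coordinates `y`
* `vol_restrict_par`            : `vol|_{θ(O)} = θ_* (|η_θ|² dλ)` for an injective parametrisation
* `lintegral_par`, `integral_par`
* `isLocallyFinite_vol`, `vol_lt_top` (compact sets)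
-/

set_option autoImplicit false
set_option linter.unusedSectionVars false

open Set Filter Topology Complex Metric MeasureTheory
open scoped ContDiff Matrix ComplexConjugate Manifold ENNReal

namespace Crest.Agent.R257.Atl_941

open Crest.Agent.R275.Geo Crest.Agent.R275.Core144 Crest.Agent.R275.EDR890
open Crest.Agent.R273.Defs_333 Crest.Agent.R273.Map_835 Crest.Agent.R273.Vm_333
open Crest.Agent.R275.Pai323 Crest.Agent.R275.C1d194

noncomputable section

variable {m : ℕ} {E P : Type} [NormedAddCommGroup E] [NormedSpace ℂ E] [FiniteDimensional ℂ E]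
  [NormedAddCommGroup P] [NormedSpace ℂ P] [FiniteDimensional ℂ P] (X : SFam m E P) (τ : P)

theorem det_mt (D : Cn m →L[ℂ] Cn m) : (mt D).det = LinearMap.det (D : Cn m →ₗ[ℂ] Cn m) := by
  rw [← LinearMap.det_toMatrix (EuclideanSpace.basisFun (Fin m) ℂ).toBasis]
  congr 1

/-- real coordinates of a holomorphic map -/
theorem hasFDerivAt_rc {ψ : Cn m → Cn m} {y : RI m → ℝ} (h : DifferentiableAt ℂ ψ (cc y)) :
    ∃ L : (RI m → ℝ) →L[ℝ] (RI m → ℝ), HasFDerivAt (fun y => rc (ψ (cc y))) L y ∧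
      |L.det| = ‖(mt (fderiv ℂ ψ (cc y))).det‖ ^ 2 := by
  set D := fderiv ℂ ψ (cc y) with hD
  have h1 : HasFDerivAt ψ (D.restrictScalars ℝ) (cc y) := h.hasFDerivAt.restrictScalars ℝ
  let ccL : (RI m → ℝ) →L[ℝ] Cn m := ((rcE m).symm.toContinuousLinearEquiv : (RI m → ℝ) →L[ℝ] Cn m)
  have h2 : HasFDerivAt (cc : (RI m → ℝ) → Cn m) ccL y :=
    ((rcE m).symm.toContinuousLinearEquiv).hasFDerivAt
  have h3 : HasFDerivAt (rc : Cn m → RI m → ℝ) (rcL m) (ψ (cc y)) := by
    rw [rc_eq]; exact (rcL m).hasFDerivAt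
  have h4 := h3.comp y (h1.comp y h2)
  refine ⟨_, h4, ?_⟩
  have h5 : ((((rcL m).comp ((D.restrictScalars ℝ).comp ccL)) : (RI m → ℝ) →L[ℝ] (RI m → ℝ)) :
      (RI m → ℝ) →ₗ[ℝ] (RI m → ℝ)) = ((rcE m : Cn m →ₗ[ℝ] (RI m → ℝ)) ∘ₗ
        ((D : Cn m →ₗ[ℂ] Cn m).restrictScalars ℝ)) ∘ₗ ((rcE m).symm : (RI m → ℝ) →ₗ[ℝ] Cn m) := by
    ext v p
    rfl
  have h6 : ((rcL m).comp ((D.restrictScalars ℝ).comp ccL)).det =
      ‖LinearMap.det (D : Cn m →ₗ[ℂ] Cn m)‖ ^ 2 := by
    rw [← det_real D, ← h5]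
  rw [h6, det_mt, abs_of_nonneg (by positivity)]

variable {X τ}

/-- `|η_θ|²` at the point with real coordinates `y` -/
def ed (θ : Cn m → X.M τ) (y : RI m → ℝ) : ℝ :=
  e2 X ((θ (cc y)).1, τ) (fderiv ℂ (fun z => (θ z).1) (cc y))

/-- the domain in real coordinates -/
def dom (O : Set (Cn m)) : Set (RI m → ℝ) := {y | cc y ∈ O}

theorem isOpen_dom {O : Set (Cn m)} (hO : IsOpen O) : IsOpen (dom O) := hO.preimage continuous_cc

variable [MeasurableSpace E] [BorelSpace E]

/-- the measure `|η|²` -/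
def SFam.vol (X : SFam m E P) (τ : P) : Measure (X.M τ) :=
  haveI := X.countable τ
  vm (X.eta τ)

/-- the measure `|η|²` as a measure on the ambient space -/
def SFam.nu (X : SFam m E P) (τ : P) : Measure E := (X.vol τ).map Subtype.val

section par

variable {θ : Cn m → X.M τ} {O : Set (Cn m)} (h : Par X τ θ O)
include h

theorem Par.contOn_dom : ContinuousOn (fun y : RI m → ℝ => θ (cc y)) (dom O) :=
  h.contOn.comp continuous_cc.continuousOn fun _ hy => hy

theorem Par.meas_pre {B : Set (X.M τ)} (hB : MeasurableSet B) :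
    MeasurableSet {y : RI m → ℝ | y ∈ dom O ∧ θ (cc y) ∈ B} := by
  have h1 : Measurable ((dom O).domRestrict fun y : RI m → ℝ => θ (cc y)) :=
    (continuousOn_iff_continuous_domRestrict.1 h.contOn_dom).measurable
  have h2 := (isOpen_dom h.isOpen).measurableSet.subtype_image (h1 hB)
  convert h2 using 1
  ext y
  constructor
  · rintro ⟨hy, hyB⟩
    exact ⟨⟨y, hy⟩, hyB, rfl⟩
  · rintro ⟨⟨a, ha⟩, haB, rfl⟩
    exact ⟨ha, haB⟩

theorem Par.meas_image (hinj : InjOn θ O) {S : Set (RI m → ℝ)} (hS : MeasurableSet S)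
    (hSO : S ⊆ dom O) : MeasurableSet ((fun y : RI m → ℝ => θ (cc y)) '' S) := by
  have h2 : InjOn (fun y : RI m → ℝ => θ (cc y)) S := by
    intro a ha b hb hab
    have h3 := hinj (hSO ha) (hSO hb) hab
    have h4 := congrArg (rc : Cn m → RI m → ℝ) h3
    rwa [rc_cc, rc_cc] at h4
  have := scM X τ
  exact hS.image_of_continuousOn_injOn (h.contOn_dom.mono hSO) h2

theorem Par.ed_eq {y : RI m → ℝ} (hy : y ∈ dom O) {i : (X.A τ).ι}
    (hi : θ (cc y) ∈ ((X.A τ).e i).source) :
    ed θ y = ‖(mt (fderiv ℂ (fun z => (X.A τ).e i (θ z)) (cc y))).det‖ ^ 2 *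
      (X.eta τ).w i (θ (cc y)) := h.e2_eq hy hi

/-- the change of variables in one chart -/
theorem Par.vol_apply (hinj : InjOn θ O) (i : (X.A τ).ι) {B : Set (X.M τ)} (hB : MeasurableSet B)
    (hBs : B ⊆ ((X.A τ).e i).source) (hBO : B ⊆ θ '' O) :
    X.vol τ B = ∫⁻ y in {y : RI m → ℝ | y ∈ dom O ∧ θ (cc y) ∈ B}, ENNReal.ofReal (ed θ y) := by
  have := X.countable τ
  change vm (X.eta τ) B = _
  rw [vm_apply_chart (X.eta τ) hB hBs, chm_apply _ i hB]
  set S : Set (RI m → ℝ) := {y | y ∈ dom O ∧ θ (cc y) ∈ B} with hS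
  set ψ : (RI m → ℝ) → (RI m → ℝ) := fun y => rc ((X.A τ).e i (θ (cc y))) with hψ
  have hsg : ∀ y ∈ S, sg (X.A τ) i (ψ y) = θ (cc y) := fun y hy => sg_rc (hBs hy.2)
  have himg : {y | y ∈ Ui (X.A τ) i ∧ sg (X.A τ) i y ∈ B} = ψ '' S := by
    ext y
    constructor
    · rintro ⟨hy, hyB⟩
      obtain ⟨z, hz, hzy⟩ := hBO hyB
      have h1 : θ (cc (rc z)) = sg (X.A τ) i y := by rw [cc_rc]; exact hzy
      refine ⟨rc z, ⟨?_, ?_⟩, ?_⟩
      · change cc (rc z) ∈ O
        rw [cc_rc]; exact hz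
      · rw [h1]; exact hyB
      · change rc ((X.A τ).e i (θ (cc (rc z)))) = y
        rw [h1]
        change rc ((X.A τ).e i (((X.A τ).e i).symm (cc y))) = y
        rw [((X.A τ).e i).right_inv hy, rc_cc]
    · rintro ⟨z, hz, rfl⟩
      exact ⟨mem_Ui (hBs hz.2), by rw [hsg z hz]; exact hz.2⟩
  have hL : ∀ y : RI m → ℝ, ∃ L : (RI m → ℝ) →L[ℝ] (RI m → ℝ), y ∈ dom O →
      (HasFDerivAt ψ L y ∧
        |L.det| = ‖(mt (fderiv ℂ (fun z => (X.A τ).e i (θ z)) (cc y))).det‖ ^ 2) := by
    intro y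
    by_cases hy : y ∈ dom O
    · obtain ⟨L, hL⟩ := hasFDerivAt_rc (h.diffAt_e hy i)
      exact ⟨L, fun _ => hL⟩
    · exact ⟨0, fun h => absurd h hy⟩
  choose L hL using hL
  have hinj' : InjOn ψ S := by
    intro a ha b hb hab
    have h1 := congrArg (sg (X.A τ) i) hab
    rw [hsg a ha, hsg b hb] at h1
    have h3 := hinj ha.1 hb.1 h1
    have h4 := congrArg (rc : Cn m → RI m → ℝ) h3
    rwa [rc_cc, rc_cc] at h4
  rw [himg, lintegral_image_eq_lintegral_abs_det_fderiv_mul volume (h.meas_pre hB)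
    (fun y hy => (hL y hy.1).1.hasFDerivWithinAt) hinj' (Crest.Agent.R273.Vm_333.dn (X.eta τ) i)]
  refine setLIntegral_congr_fun (h.meas_pre hB) fun y hy => ?_
  rw [(hL y hy.1).2]
  unfold Crest.Agent.R273.Vm_333.dn
  rw [hsg y hy, h.ed_eq hy.1 (hBs hy.2), ENNReal.ofReal_mul (by positivity)]

theorem Par.ed_continuousOn : ContinuousOn (ed θ) (dom O) := by
  intro y hy
  obtain ⟨i, hi⟩ := (X.A τ).cover (θ (cc y))
  have hU : IsOpen (O ∩ θ ⁻¹' ((X.A τ).e i).source) :=
    h.contOn.isOpen_inter_preimage h.isOpen ((X.A τ).e i).open_source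
  have hD : DifferentiableOn ℂ (fun z => (X.A τ).e i (θ z)) (O ∩ θ ⁻¹' ((X.A τ).e i).source) :=
    fun w hw => (h.diffAt_e hw.1 i).differentiableWithinAt
  have h1 : ContinuousOn (fderiv ℂ (fun z => (X.A τ).e i (θ z)))
      (O ∩ θ ⁻¹' ((X.A τ).e i).source) :=
    (Crest.Agent.R266.SCV.analyticOnNhd_of_differentiableOn hU hD).fderiv.continuousOn
  have h2 : ContinuousOn (fun z => (mt (fderiv ℂ (fun z => (X.A τ).e i (θ z)) z)).det)
      (O ∩ θ ⁻¹' ((X.A τ).e i).source) := by
    refine Continuous.comp_continuousOn (g := Matrix.det) (continuous_id.matrix_det) ?_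
    refine continuousOn_pi.2 fun b => continuousOn_pi.2 fun a => ?_
    have h3 : ContinuousOn (fun z => fderiv ℂ (fun z => (X.A τ).e i (θ z)) z
        (EuclideanSpace.single a (1 : ℂ))) (O ∩ θ ⁻¹' ((X.A τ).e i).source) :=
      h1.clm_apply continuousOn_const
    exact (EuclideanSpace.proj b : Cn m →L[ℂ] ℂ).continuous.comp_continuousOn h3
  have h4 : ContinuousOn (fun z => (X.eta τ).w i (θ z)) (O ∩ θ ⁻¹' ((X.A τ).e i).source) := by
    have h5 : ContinuousOn (fun z => (X.eta τ).w i (((X.A τ).e i).symm z))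
      ((X.A τ).e i).target := ((X.eta τ).sm i).continuousOn
    have h6 : ContinuousOn (fun z => (X.eta τ).w i (((X.A τ).e i).symm ((X.A τ).e i (θ z))))
      (O ∩ θ ⁻¹' ((X.A τ).e i).source) :=
      h5.comp hD.continuousOn fun w hw => ((X.A τ).e i).map_source hw.2
    refine h6.congr fun w hw => ?_
    change (X.eta τ).w i (θ w) = (X.eta τ).w i (((X.A τ).e i).symm ((X.A τ).e i (θ w)))
    rw [((X.A τ).e i).left_inv hw.2]
  have h7 : ContinuousOn (fun y : RI m → ℝ =>
      ‖(mt (fderiv ℂ (fun z => (X.A τ).e i (θ z)) (cc y))).det‖ ^ 2 *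
      (X.eta τ).w i (θ (cc y))) (dom (O ∩ θ ⁻¹' ((X.A τ).e i).source)) :=
    ((h2.norm.pow 2).mul h4).comp continuous_cc.continuousOn fun _ hy => hy
  have h8 : dom (O ∩ θ ⁻¹' ((X.A τ).e i).source) ∈ 𝓝 y := (isOpen_dom hU).mem_nhds ⟨hy, hi⟩
  refine ((h7.continuousAt h8).congr ?_).continuousWithinAt
  filter_upwards [h8] with w hw
  exact (h.ed_eq (y := w) hw.1 hw.2).symm

theorem Par.aemeas_ed :
    AEMeasurable (fun y => ENNReal.ofReal (ed θ y)) (volume.restrict (dom O)) :=
  (h.ed_continuousOn.aemeasurable (isOpen_dom h.isOpen).measurableSet).ennreal_ofReal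

theorem Par.aemeas_th : AEMeasurable (fun y : RI m → ℝ => θ (cc y)) (volume.restrict (dom O)) :=
  h.contOn_dom.aemeasurable (isOpen_dom h.isOpen).measurableSet

theorem Par.meas_range (hinj : InjOn θ O) : MeasurableSet (θ '' O) := by
  have h1 := h.meas_image hinj (isOpen_dom h.isOpen).measurableSet Subset.rfl
  convert h1 using 1
  ext x
  constructor
  · rintro ⟨z, hz, rfl⟩
    refine ⟨rc z, ?_, ?_⟩
    · change cc (rc z) ∈ O
      rw [cc_rc]; exact hz
    · change θ (cc (rc z)) = _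
      rw [cc_rc]
  · rintro ⟨y, hy, rfl⟩
    exact ⟨cc y, hy, rfl⟩

/-- **the measure in a parametrisation** -/
theorem Par.vol_restrict (hinj : InjOn θ O) :
    (X.vol τ).restrict (θ '' O) =
      ((volume.restrict (dom O)).withDensity (fun y => ENNReal.ofReal (ed θ y))).map
        (fun y : RI m → ℝ => θ (cc y)) := by
  have := X.countable τ
  ext B hB
  have haem : AEMeasurable (fun y : RI m → ℝ => θ (cc y))
      ((volume.restrict (dom O)).withDensity (fun y => ENNReal.ofReal (ed θ y))) :=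
    h.aemeas_th.mono_ac (withDensity_absolutelyContinuous _ _)
  have h0 : NullMeasurableSet ((fun y : RI m → ℝ => θ (cc y)) ⁻¹' B) (volume.restrict (dom O)) :=
    h.aemeas_th.nullMeasurable hB
  rw [Measure.restrict_apply hB, Measure.map_apply_of_aemeasurable haem hB, withDensity_apply₀ _ h0,
    Measure.restrict_restrict₀ h0]
  -- split into the pieces
  have hBO : MeasurableSet (B ∩ θ '' O) := hB.inter (h.meas_range hinj)
  have h1 : X.vol τ (B ∩ θ '' O) = ∑' i, X.vol τ (B ∩ θ '' O ∩ Dj (X.A τ) i) := by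
    rw [← measure_iUnion]
    · rw [← inter_iUnion, iUnion_Dj, inter_univ]
    · intro a b hab
      exact (Dj_disjoint hab).mono inter_subset_right inter_subset_right
    · exact fun j => hBO.inter (meas_Dj j)
  have h2 : ∀ i, X.vol τ (B ∩ θ '' O ∩ Dj (X.A τ) i) =
      ∫⁻ y in {y : RI m → ℝ | y ∈ dom O ∧ θ (cc y) ∈ B ∩ θ '' O ∩ Dj (X.A τ) i},
        ENNReal.ofReal (ed θ y) := fun i =>
    h.vol_apply hinj i (hBO.inter (meas_Dj i)) (fun x hx => hx.2.1) fun x hx => hx.1.2
  rw [h1]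
  simp only [h2]
  rw [← lintegral_iUnion]
  · congr 2
    ext y
    simp only [mem_iUnion, mem_inter_iff, mem_preimage]
    constructor
    · rintro ⟨i, hy, h3⟩
      exact ⟨h3.1.1, hy⟩
    · rintro ⟨h3, hy⟩
      obtain ⟨i, hi⟩ := exists_Dj (A := X.A τ) (θ (cc y))
      exact ⟨i, hy, ⟨h3, ⟨cc y, hy, rfl⟩⟩, hi⟩
  · exact fun i => h.meas_pre (hBO.inter (meas_Dj i))
  · intro a b hab
    rw [Function.onFun, Set.disjoint_left]
    rintro y ⟨-, h3⟩ ⟨-, h4⟩
    exact Set.disjoint_left.1 (Dj_disjoint hab) h3.2 h4.2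

theorem Par.lintegral_eq (hinj : InjOn θ O) {φ : X.M τ → ℝ≥0∞} (hφ : Measurable φ) :
    ∫⁻ x in θ '' O, φ x ∂(X.vol τ) =
      ∫⁻ y in dom O, ENNReal.ofReal (ed θ y) * φ (θ (cc y)) := by
  rw [h.vol_restrict hinj, lintegral_map' hφ.aemeasurable
    (h.aemeas_th.mono_ac (withDensity_absolutelyContinuous _ _)),
    lintegral_withDensity_eq_lintegral_mul₀ h.aemeas_ed]
  · rfl
  · exact hφ.comp_aemeasurable h.aemeas_th



end par

theorem isLocallyFinite_vol : IsLocallyFiniteMeasure (X.vol τ) := by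
  have := X.countable τ
  exact isLocallyFinite_vm (X.eta τ)


/-- the ambient measure -/
theorem lintegral_nu {φ : E → ℝ≥0∞} (hφ : Measurable φ) :
    ∫⁻ x, φ x ∂(X.nu τ) = ∫⁻ x, φ x.1 ∂(X.vol τ) := by
  unfold SFam.nu
  rw [lintegral_map hφ measurable_subtype_coe]

end

end Crest.Agent.R257.Atl_941
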