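import Crest.Agent.R257.CLD_39

-- ▼ part R257/CLE_39
section

/-!
# Row 257 (S0395), leaf E-CL (helper39), part E: the maximum principle for traces on `(M, A)`

* `HF A D w`       : local potentials `w i` of a closed real (1,1)-form on the open set `D ⊆ M`
* `trM A u p x`    : the trace of the form of `p` with respect to the metric of `u`; `trM_eq`:
                     it is `trH (u i) (p i) (A.e i x)` in every chart
* `cl_max`         : `Δ log T ≥ -K₁ - c T`, `Δ h ≥ (c + θ) T - K₂` on `interior K`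
                     imply `T e^h ≤ max (boundary, (K₁ + K₂)/θ e^h)`
-/

set_option autoImplicit false
set_option linter.unusedSectionVars false

open Set Filter Topology Complex
open scoped ContDiff ComplexConjugate Matrix ComplexOrder

namespace Crest.Agent.R257.CLE_39

open Crest.Agent.R275.Geo Crest.Agent.R275.Core144 Crest.Agent.R275.GC293
open Crest.Agent.R273 Crest.Agent.R273.Defs_333 Crest.Agent.R273.YauDefs_635
open Crest.Agent.R273.YauMax_635 Crest.Agent.R273.HM_333 Crest.Agent.R273.Kah_333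
open Crest.Agent.R273.Hess_333 Crest.Agent.R273.HessB_333 Crest.Agent.R273.FS_333
open Crest.Agent.R257.CLC_39 Crest.Agent.R257.CLD_39

noncomputable section

variable {n : ℕ} {M : Type} [TopologicalSpace M] {A : Atl n M}

/-- the part of a chart domain over `D` -/
def dom (A : Atl n M) (D : Set M) (i : A.ι) : Set (Cn n) :=
  (A.e i).target ∩ (A.e i).symm ⁻¹' D

theorem isOpen_dom {D : Set M} (hD : IsOpen D) (i : A.ι) : IsOpen (dom A D i) :=
  (A.e i).isOpen_inter_preimage_symm hD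

theorem mem_dom {D : Set M} {i : A.ι} {x : M} (hi : x ∈ (A.e i).source) (hx : x ∈ D) :
    A.e i x ∈ dom A D i :=
  ⟨(A.e i).map_source hi, by rwa [mem_preimage, (A.e i).left_inv hi]⟩

/-- local potentials of a closed real (1,1)-form on `D` -/
structure HF (A : Atl n M) (D : Set M) (w : A.ι → Cn n → ℝ) : Prop where
  sm : ∀ i, ContDiffOn ℝ ∞ (w i) (dom A D i)
  tr : ∀ i j, ∀ x ∈ D, x ∈ (A.e i).source → x ∈ (A.e j).source →
    hess (w i) (A.e i x) = (Jm A i j x)ᵀ * hess (w j) (A.e j x) * (Jm A i j x).map conj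

theorem HF.at {D : Set M} (hD : IsOpen D) {w : A.ι → Cn n → ℝ} (h : HF A D w) {i : A.ι} {x : M}
    (hi : x ∈ (A.e i).source) (hx : x ∈ D) : ContDiffAt ℝ ∞ (w i) (A.e i x) :=
  (h.sm i).contDiffAt ((isOpen_dom hD i).mem_nhds (mem_dom hi hx))

theorem HF.mono {D D' : Set M} {w : A.ι → Cn n → ℝ} (h : HF A D w) (hD : D' ⊆ D) : HF A D' w where
  sm i := (h.sm i).mono fun _ hz => ⟨hz.1, hD hz.2⟩
  tr i j x hx := h.tr i j x (hD hx)

/-- a function -/
theorem HF.of_fun {D : Set M} (hD : IsOpen D) {φ : M → ℝ}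
    (hφ : ∀ i, ContDiffOn ℝ ∞ (inC A i φ) (dom A D i)) : HF A D (fun i => inC A i φ) where
  sm := hφ
  tr i j x hx hi hj := by
    have ho : IsOpen (A.ov i j) := isOpen_ov i j
    have hm : A.e i x ∈ A.ov i j := mem_ov ⟨hi, hj⟩
    refine hess_tr (f := fun _ => (1 : ℂ)) ⟨hi, hj⟩
      ((hφ i).contDiffAt ((isOpen_dom hD i).mem_nhds (mem_dom hi hx)))
      ((hφ j).contDiffAt ((isOpen_dom hD j).mem_nhds (mem_dom hj hx)))
      (Eventually.of_forall fun w => differentiableAt_const _) one_ne_zero ?_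
    filter_upwards [ho.mem_nhds hm] with w hw
    simp only [inC]
    rw [(A.e j).left_inv hw.2]
    simp

/-- the weights of a metric on a line bundle -/
theorem HF.of_wt {D : Set M} {L : LB A} (H : HM L) : HF A D H.wt where
  sm i := (wt_smooth H i).mono inter_subset_left
  tr _ _ _ _ hi hj := cur_tr H ⟨hi, hj⟩

theorem HF.add {D : Set M} (hD : IsOpen D) {w w' : A.ι → Cn n → ℝ} (h : HF A D w)
    (h' : HF A D w') : HF A D (fun i z => w i z + w' i z) where
  sm i := (h.sm i).add (h'.sm i)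
  tr i j x hx hi hj := by
    rw [hess_add (h.at hD hi hx) (h'.at hD hi hx), hess_add (h.at hD hj hx) (h'.at hD hj hx),
      h.tr i j x hx hi hj, h'.tr i j x hx hi hj, Matrix.mul_add, Matrix.add_mul]

theorem HF.const_mul {D : Set M} (hD : IsOpen D) {w : A.ι → Cn n → ℝ} (h : HF A D w) (c : ℝ) :
    HF A D (fun i z => c * w i z) where
  sm i := contDiffOn_const.mul (h.sm i)
  tr i j x hx hi hj := by
    rw [hess_const_mul c (h.at hD hi hx), hess_const_mul c (h.at hD hj hx),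
      h.tr i j x hx hi hj, Matrix.mul_smul, Matrix.smul_mul]

theorem HF.of_pot {D : Set M} (hD : IsOpen D) {L : LB A} (H : HM L) {φ : M → ℝ} (hφ : A.Sm φ) :
    HF A D (pot H φ) :=
  HF.add hD (HF.of_wt H) (HF.of_fun hD fun i => (hφ i).mono inter_subset_left)

theorem isUnit_Jm {i j : A.ι} {x : M} (hi : x ∈ (A.e i).source) (hj : x ∈ (A.e j).source) :
    IsUnit ((Jm A i j x)ᵀ).det := by
  rw [Matrix.det_transpose, ← KB_g ⟨hi, hj⟩]
  exact isUnit_iff_ne_zero.2 ((KB A).ne_zero i j x)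

/-- the trace does not depend on the chart -/
theorem trH_indep {D : Set M} (hD : IsOpen D) {u p : A.ι → Cn n → ℝ} (hu : HF A D u)
    (hp : HF A D p) {x : M} (hx : x ∈ D) {i j : A.ι} (hi : x ∈ (A.e i).source)
    (hj : x ∈ (A.e j).source) : trH (u i) (p i) (A.e i x) = trH (u j) (p j) (A.e j x) := by
  rw [trH_hess (hu.at hD hi hx) (hp.at hD hi hx), trH_hess (hu.at hD hj hx) (hp.at hD hj hx),
    hu.tr i j x hx hi hj, hp.tr i j x hx hi hj]
  have h1 : (Jm A i j x).map conj = ((Jm A i j x)ᵀ)ᴴ := by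
    ext a b
    simp [Matrix.conjTranspose_apply]
  rw [h1, trace_congr_frame _ _ _ (isUnit_Jm hi hj)]

/-- the trace as a function on `M` -/
def trM (A : Atl n M) (u p : A.ι → Cn n → ℝ) (x : M) : ℝ :=
  trH (u (A.cover x).choose) (p (A.cover x).choose) (A.e (A.cover x).choose x)

theorem trM_eq {D : Set M} (hD : IsOpen D) {u p : A.ι → Cn n → ℝ} (hu : HF A D u)
    (hp : HF A D p) {x : M} (hx : x ∈ D) {i : A.ι} (hi : x ∈ (A.e i).source) :
    trM A u p x = trH (u i) (p i) (A.e i x) :=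
  trH_indep hD hu hp hx (A.cover x).choose_spec hi

section cl

variable {D : Set M} (hD : IsOpen D) {u p f : A.ι → Cn n → ℝ} (hu : HF A D u) (hp : HF A D p)
  (hdet : ∀ i, ∀ z ∈ dom A D i, (cH (u i) z).det = (Real.exp (f i z) : ℂ))
  (hpos : ∀ i, ∀ z ∈ dom A D i, ∀ v : Cn n, v ≠ 0 → 0 < lev (u i) z v)

include hD hu hp hdet in
theorem contDiffOn_tr (i : A.ι) : ContDiffOn ℝ ∞ (trH (u i) (p i)) (dom A D i) :=
  contDiffOn_trH (isOpen_dom hD i) (hu.sm i) (hp.sm i) (hdet i)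

include hD hu hp hdet in
theorem continuousOn_trM : ContinuousOn (trM A u p) D := by
  intro x hx
  obtain ⟨i, hi⟩ := A.cover x
  have h1 : ContinuousAt (trH (u i) (p i)) (A.e i x) :=
    ((contDiffOn_tr hD hu hp hdet i).contDiffAt
      ((isOpen_dom hD i).mem_nhds (mem_dom hi hx))).continuousAt
  have h2 : ContinuousAt (fun y => trH (u i) (p i) (A.e i y)) x :=
    ContinuousAt.comp (f := A.e i) h1 ((A.e i).continuousAt hi)
  refine (h2.congr ?_).continuousWithinAt
  filter_upwards [(A.e i).open_source.mem_nhds hi, hD.mem_nhds hx] with y hy hyD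
  exact (trM_eq hD hu hp hyD hy).symm

include hD in
theorem continuousOn_fun {h : M → ℝ} (hh : ∀ i, ContDiffOn ℝ ∞ (inC A i h) (dom A D i)) :
    ContinuousOn h D := by
  intro x hx
  obtain ⟨i, hi⟩ := A.cover x
  have h1 : ContinuousAt (inC A i h) (A.e i x) :=
    ((hh i).contDiffAt ((isOpen_dom hD i).mem_nhds (mem_dom hi hx))).continuousAt
  have h2 : ContinuousAt (fun y => inC A i h (A.e i y)) x :=
    ContinuousAt.comp (f := A.e i) h1 ((A.e i).continuousAt hi)
  refine (h2.congr ?_).continuousWithinAt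
  filter_upwards [(A.e i).open_source.mem_nhds hi] with y hy
  simp [inC, (A.e i).left_inv hy]

include hD hu hp hdet hpos in
/-- **maximum principle for Chern-Lu** -/
theorem cl_max {K : Set M} (hK : IsCompact K) (hKD : K ⊆ D) {h : M → ℝ}
    (hh : ∀ i, ContDiffOn ℝ ∞ (inC A i h) (dom A D i)) {K₁ K₂ c θ B : ℝ} (hθ : 0 < θ)
    (hCL : ∀ i, ∀ z ∈ dom A D i, 0 < trH (u i) (p i) z →
      -K₁ - c * trH (u i) (p i) z ≤ trH (u i) (fun z => Real.log (trH (u i) (p i) z)) z)
    (hlap : ∀ i, ∀ x ∈ interior K, x ∈ (A.e i).source →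
      (c + θ) * trH (u i) (p i) (A.e i x) - K₂ ≤ trH (u i) (inC A i h) (A.e i x))
    (hB0 : 0 ≤ B) (hbd : ∀ x ∈ K, x ∉ interior K → trM A u p x * Real.exp (h x) ≤ B)
    (hB : ∀ x ∈ K, (K₁ + K₂) / θ * Real.exp (h x) ≤ B) :
    ∀ x ∈ K, trM A u p x * Real.exp (h x) ≤ B := by
  intro x hx
  have hcont : ContinuousOn (fun x => trM A u p x * Real.exp (h x)) K :=
    ((continuousOn_trM hD hu hp hdet).mul
      (Real.continuous_exp.comp_continuousOn (continuousOn_fun hD hh))).mono hKD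
  obtain ⟨y, hyK, hy⟩ := hK.exists_isMaxOn ⟨x, hx⟩ hcont
  refine le_trans (hy hx) ?_
  show trM A u p y * Real.exp (h y) ≤ B
  by_cases hyi : y ∈ interior K
  swap
  · exact hbd y hyK hyi
  obtain ⟨i, hi⟩ := A.cover y
  have hyD : y ∈ D := hKD hyK
  set z := A.e i y with hz
  have hzd : z ∈ dom A D i := mem_dom hi hyD
  have hTy : trM A u p y = trH (u i) (p i) z := trM_eq hD hu hp hyD hi
  rcases le_or_gt (trM A u p y) 0 with h0 | h0
  · exact (mul_nonpos_of_nonpos_of_nonneg h0 (Real.exp_pos _).le).trans hB0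
  have hT0 : 0 < trH (u i) (p i) z := by rwa [← hTy]
  have hn : dom A D i ∈ 𝓝 z := (isOpen_dom hD i).mem_nhds hzd
  have hTs : ContDiffAt ℝ ∞ (trH (u i) (p i)) z := (contDiffOn_tr hD hu hp hdet i).contDiffAt hn
  have hhs : ContDiffAt ℝ ∞ (inC A i h) z := (hh i).contDiffAt hn
  have hus : ContDiffAt ℝ ∞ (u i) z := hu.at hD hi hyD
  have hls : ContDiffAt ℝ ∞ (fun z => Real.log (trH (u i) (p i) z)) z := hTs.log hT0.ne'
  -- local maximum in the chart
  have hev : ∀ w ∈ dom A D i, trM A u p ((A.e i).symm w) = trH (u i) (p i) w := fun w hw => by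
    rw [trM_eq hD hu hp hw.2 ((A.e i).map_target hw.1), (A.e i).right_inv hw.1]
  have hloc : ∀ᶠ w in 𝓝 y, trM A u p w * Real.exp (h w) ≤ trM A u p y * Real.exp (h y) := by
    filter_upwards [mem_interior_iff_mem_nhds.1 hyi] with w hw
    exact hy hw
  have htend : Tendsto (A.e i).symm (𝓝 z) (𝓝 y) := by
    have := (A.e i).continuousAt_symm ((A.e i).map_source hi)
    rw [ContinuousAt, (A.e i).left_inv hi] at this
    exact this
  have hmax : IsLocalMax (fun w => Real.log (trH (u i) (p i) w) + inC A i h w) z := by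
    filter_upwards [htend.eventually hloc, hn,
      hTs.continuousAt.eventually (lt_mem_nhds hT0)] with w hw hwd hwT
    rw [hev w hwd, hTy] at hw
    have h1 : Real.log (trH (u i) (p i) w * Real.exp (h ((A.e i).symm w)))
        ≤ Real.log (trH (u i) (p i) z * Real.exp (h y)) :=
      Real.log_le_log (mul_pos hwT (Real.exp_pos _)) hw
    rw [Real.log_mul hwT.ne' (Real.exp_pos _).ne', Real.log_mul hT0.ne' (Real.exp_pos _).ne',
      Real.log_exp, Real.log_exp] at h1
    have h2 : inC A i h z = h y := by simp only [inC, hz, (A.e i).left_inv hi]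
    rw [h2]
    exact h1
  have h1 := trH_nonpos_of_localMax hus (hpos i z hzd) (hls.add hhs) hmax
  have h2 := trH_add hus hls hhs
  have h3 := hCL i z hzd hT0
  have h4 := hlap i y hyi hi
  have h5 : θ * trH (u i) (p i) z ≤ K₁ + K₂ := by
    have h6 : trH (u i) (fun w => Real.log (trH (u i) (p i) w) + inC A i h w) z ≤ 0 := h1
    rw [h2] at h6
    nlinarith [h3, h4, h6]
  have h6 : trM A u p y ≤ (K₁ + K₂) / θ := by
    rw [hTy, le_div_iff₀ hθ]
    linarith
  exact (mul_le_mul_of_nonneg_right h6 (Real.exp_pos _).le).trans (hB y hyK)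

end cl

end

end Crest.Agent.R257.CLE_39
end

-- ▼ part R257/CLF_39
section

/-!
# Row 257 (S0395), leaf E-CL (helper39), part F: the global estimate (4a)

* `cl_global`  : `tr_ω ω_FS ≤ (K + 3n/κ) exp (3/κ (φ - ρ - m))` on a compact manifold
* `cl_local`   : (4b), abstract: a bound of `tr_ω ω_eucl` on the boundary propagates inside
-/

set_option autoImplicit false
set_option linter.unusedSectionVars false

open Set Filter Topology Complex
open scoped ContDiff ComplexConjugate Matrix ComplexOrder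

namespace Crest.Agent.R257.CLF_39

open Crest.Agent.R275.Geo Crest.Agent.R275.Core144 Crest.Agent.R275.GC293
open Crest.Agent.R273 Crest.Agent.R273.Defs_333 Crest.Agent.R273.YauDefs_635
open Crest.Agent.R273.YauMax_635 Crest.Agent.R273.HM_333 Crest.Agent.R273.Kah_333
open Crest.Agent.R273.Hess_333 Crest.Agent.R273.HessB_333 Crest.Agent.R273.FS_333
open Crest.Agent.R257.CLC_39 Crest.Agent.R257.CLD_39 Crest.Agent.R257.CLE_39

noncomputable section

variable {n : ℕ} {M : Type} [TopologicalSpace M] {A : Atl n M}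


/-- the local lift in a chart -/
def FF (P : ProjD A) (i : A.ι) : Cn n → Fin (P.N + 1) → ℂ := fun w => P.F i ((A.e i).symm w)

theorem wt_fs (P : ProjD A) (i : A.ι) :
    (fs P).wt i = fun w => Real.log (sq (FF P i) w) := by
  funext w
  simp only [HM.wt, fs, Real.log_inv, neg_neg]
  rfl

theorem hol_FF (P : ProjD A) (i : A.ι) (k : Fin (P.N + 1)) :
    DifferentiableOn ℂ (fun w => FF P i w k) (A.e i).target := by
  have := P.hol i k
  unfold HolAt at this
  simpa [FF] using this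

theorem FF_ne (P : ProjD A) (i : A.ι) {z : Cn n} (hz : z ∈ (A.e i).target) : FF P i z ≠ 0 :=
  P.ne i _ ((A.e i).map_target hz)

section glob

variable {L : LB A} (H : HM L) (P : ProjD A) {φ ρ : M → ℝ} (hφ : A.Sm φ) (hρ : A.Sm ρ)
  (hKP : KPos H φ) {f : A.ι → Cn n → ℝ} (hf : ∀ i, ContDiffOn ℝ ∞ (f i) (A.e i).target)
  (hdet : ∀ i, ∀ z ∈ (A.e i).target, (cH (pot H φ i) z).det = (Real.exp (f i z) : ℂ))
  {K κ : ℝ} (hK0 : 0 ≤ K)
  (hfK : ∀ i, ∀ z ∈ (A.e i).target, ∀ v : Cn n, lev (f i) z v ≤ K * lev (pot H φ i) z v)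
  (hκ : 0 < κ)
  (hρκ : ∀ i, ∀ z ∈ (A.e i).target, ∀ v : Cn n,
    κ * lev ((fs P).wt i) z v ≤ lev (pot H ρ i) z v)

include hφ hρ hKP hf hdet hK0 hfK hκ hρκ in
/-- **(4a)** -/
theorem cl_global [CompactSpace M] {m : ℝ} (hm : ∀ x, m ≤ φ x - ρ x) :
    ∀ x, trM A (pot H φ) (fs P).wt x
      ≤ (K + 3 * n / κ) * Real.exp (3 / κ * (φ x - ρ x - m)) := by
  have hDo : IsOpen (univ : Set M) := isOpen_univ
  have hu : HF A univ (pot H φ) := HF.of_pot hDo H hφ
  have hp : HF A univ (fs P).wt := HF.of_wt (fs P)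
  have hsm : A.Sm (fun x => -(3 / κ) * (φ x - ρ x)) := fun i =>
    contDiffOn_const.mul ((hφ i).sub (hρ i))
  have hdet' : ∀ i, ∀ z ∈ dom A univ i, (cH (pot H φ i) z).det = (Real.exp (f i z) : ℂ) :=
    fun i z hz => hdet i z hz.1
  have hpos' : ∀ i, ∀ z ∈ dom A univ i, ∀ v : Cn n, v ≠ 0 → 0 < lev (pot H φ i) z v :=
    fun i z hz => hKP i z hz.1
  have key := cl_max hDo hu hp hdet' hpos' (K := univ) isCompact_univ (subset_refl _)
    (h := fun x => -(3 / κ) * (φ x - ρ x))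
    (fun i => (hsm i).mono inter_subset_left) (K₁ := K) (K₂ := 3 * n / κ) (c := 2) (θ := 1)
    (B := (K + 3 * n / κ) * Real.exp (-(3 / κ) * m)) one_pos
    (fun i z hz hT => by
      have hz' : z ∈ (A.e i).target := hz.1
      have h1 := chern_lu_fs (A.e i).open_target
        (u := pot H φ i) (f := f i)
        (fun w hw => (pot_contDiffAt H hφ i hw).contDiffWithinAt) (hf i) (hdet i)
        (fun w hw => hKP i w hw) (hfK i) (hol_FF P i) (fun w hw => FF_ne P i hw) hz'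
        (by rw [← wt_fs]; exact hT)
      rw [← wt_fs] at h1
      exact h1)
    (fun i x _ hi => by
      have hz := (A.e i).map_source hi
      set z := A.e i x with hzd
      have c1 := pot_contDiffAt H hφ i hz
      have c2 := pot_contDiffAt H hρ i hz
      have c3 := wt_contDiffAt (fs P) i hz
      have e1 : inC A i (fun x => -(3 / κ) * (φ x - ρ x))
          = fun w => -(3 / κ) * (pot H φ i w - pot H ρ i w) := by
        funext w
        simp only [inC, pot]
        ring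
      rw [e1, trH_const_mul c1 (c1.sub c2), trH_sub c1 c1 c2, trH_self c1 (hKP i z hz)]
      have h2 := trH_mono c1 (hKP i z hz) (contDiffAt_const.mul c3) c2 (fun v => by
        rw [lev_const_mul' c3 κ]
        exact hρκ i z hz v)
      rw [trH_const_mul c1 c3] at h2
      have h3 : -(3 / κ) * ((n : ℝ) - trH (pot H φ i) (pot H ρ i) z)
          = 3 / κ * trH (pot H φ i) (pot H ρ i) z - 3 * n / κ := by ring
      rw [h3]
      have h4 : 3 / κ * (κ * trH (pot H φ i) ((fs P).wt i) z)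
          ≤ 3 / κ * trH (pot H φ i) (pot H ρ i) z :=
        mul_le_mul_of_nonneg_left h2 (by positivity)
      have h5 : 3 / κ * (κ * trH (pot H φ i) ((fs P).wt i) z)
          = 3 * trH (pot H φ i) ((fs P).wt i) z := by
        field_simp
      linarith)
    (by positivity)
    (fun x _ hx => absurd (by simp) hx)
    (fun x _ => by
      rw [div_one]
      refine mul_le_mul_of_nonneg_left (Real.exp_le_exp.2 ?_) (by positivity)
      have h1 := hm x
      have h2 : 0 ≤ 3 / κ := by positivity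
      nlinarith)
  intro x
  have h1 := key x (mem_univ x)
  have h2 : Real.exp (3 / κ * (φ x - ρ x - m))
      = Real.exp (-(3 / κ) * m) * (Real.exp (-(3 / κ) * (φ x - ρ x)))⁻¹ := by
    rw [← Real.exp_neg, ← Real.exp_add]
    congr 1
    ring
  rw [h2, ← mul_assoc, ← div_eq_mul_inv, le_div_iff₀ (Real.exp_pos _)]
  exact h1

end glob

section lev

variable {N : ℕ} {U : Set (Cn n)} (hU : IsOpen U) {F : Cn n → Fin N → ℂ}
  (hF : ∀ k, DifferentiableOn ℂ (fun z => F z k) U)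

include hU hF in
/-- the Levi form of `∑ |F_k|²` -/
theorem lev_sq {z : Cn n} (hz : z ∈ U) (v : Cn n) :
    lev (FS_333.sq F) z v = 4 * ∑ k, ‖fderiv ℂ (fun z => F z k) z v‖ ^ 2 := by
  have hs : ContDiffAt ℝ ∞ (FS_333.sq F) z := (contDiffOn_sq hU hF).contDiffAt (hU.mem_nhds hz)
  have hexp : ∀ k, fderiv ℂ (fun z => F z k) z v =
      ∑ a, v a * fderiv ℂ (fun z => F z k) z (EuclideanSpace.single a 1) := by
    intro k
    have hv : v = ∑ c, v c • (EuclideanSpace.single c (1 : ℂ) : Cn n) := by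
      ext d
      simp [Finset.sum_apply, Pi.single_apply]
    conv_lhs => rw [hv, map_sum]
    simp
  apply Complex.ofReal_injective
  rw [lev_eq hs]
  unfold hq
  simp only [hess_sq hU hF hz]
  push_cast
  congr 1
  have h1 : ∀ k, ((‖fderiv ℂ (fun z => F z k) z v‖ : ℂ)) ^ 2
      = ∑ a, ∑ b, (v a * fderiv ℂ (fun z => F z k) z (EuclideanSpace.single a 1)) *
        conj (v b * fderiv ℂ (fun z => F z k) z (EuclideanSpace.single b 1)) := by
    intro k
    rw [← Complex.mul_conj', hexp, map_sum, Finset.sum_mul_sum]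
  simp only [h1]
  rw [Finset.sum_comm (s := Finset.univ) (t := Finset.univ)
    (f := fun (k : Fin N) (a : Fin n) => ∑ b,
      (v a * fderiv ℂ (fun z => F z k) z (EuclideanSpace.single a 1)) *
        conj (v b * fderiv ℂ (fun z => F z k) z (EuclideanSpace.single b 1)))]
  refine Finset.sum_congr rfl fun a _ => ?_
  rw [Finset.sum_comm]
  refine Finset.sum_congr rfl fun b _ => ?_
  rw [Finset.sum_mul, Finset.sum_mul]
  refine Finset.sum_congr rfl fun k _ => ?_
  rw [map_mul]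
  ring

theorem lev_of_hess {p q : Cn n → ℝ} {z : Cn n} (hp : ContDiffAt ℝ ∞ p z)
    (hq' : ContDiffAt ℝ ∞ q z) (h : hess p z = hess q z) (v : Cn n) :
    lev p z v = lev q z v := by
  have h1 := hq_re hp v
  have h2 := hq_re hq' v
  unfold hq at h1 h2
  rw [h] at h1
  linarith

/-- `1, Y` -/
def cons1 (Y : Cn n → Fin N → ℂ) : Cn n → Fin (N + 1) → ℂ := fun z => Fin.cons 1 (Y z)

theorem sq_cons1 (Y : Cn n → Fin N → ℂ) (z : Cn n) :
    FS_333.sq (cons1 Y) z = 1 + FS_333.sq Y z := by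
  show ∑ k, ‖cons1 Y z k‖ ^ 2 = 1 + ∑ k, ‖Y z k‖ ^ 2
  rw [Fin.sum_univ_succ]
  simp [cons1]

include hF in
theorem hol_cons1 (k : Fin (N + 1)) : DifferentiableOn ℂ (fun z => cons1 F z k) U := by
  refine Fin.cases ?_ (fun k => ?_) k
  · exact differentiableOn_const _
  · exact hF k

include hU hF in
/-- the flat metric is bounded by the Fubini-Study metric -/
theorem lev_sq_le {z : Cn n} (hz : z ∈ U) {R : ℝ} (hR : FS_333.sq F z ≤ R) (v : Cn n) :
    lev (FS_333.sq F) z v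
      ≤ (1 + R) ^ 2 * lev (fun w => Real.log (FS_333.sq (cons1 F) w)) z v := by
  have h0 : cons1 F z ≠ 0 := fun h => by
    have := congrFun h 0
    simp [cons1] at this
  rw [lev_sq hU hF hz, lev_log_sq hU (hol_cons1 hF) hz h0, sq_cons1, Fin.sum_univ_succ,
    Fin.sum_univ_succ]
  have e0 : fderiv ℂ (fun z => cons1 F z 0) z v = 0 := by
    have : (fun z => cons1 F z 0) = fun _ => (1 : ℂ) := by
      funext w; simp [cons1]
    rw [this]
    simp
  have e1 : ∀ k : Fin N, (fun z => cons1 F z k.succ) = fun z => F z k := fun k => by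
    funext w; simp [cons1]
  have e2 : ∀ k : Fin N, cons1 F z k.succ = F z k := fun k => by simp [cons1]
  simp only [e0, e1, e2, norm_zero, zero_mul, zero_add, ne_eq, OfNat.ofNat_ne_zero,
    not_false_eq_true, zero_pow]
  set a : ℝ := ∑ k, ‖fderiv ℂ (fun z => F z k) z v‖ ^ 2 with ha
  set s : ℝ := FS_333.sq F z with hs
  have hs0 : 0 ≤ s := sq_nonneg' F z
  have ha0 : 0 ≤ a := Finset.sum_nonneg fun _ _ => by positivity
  have hcs : ‖∑ k, fderiv ℂ (fun z => F z k) z v * conj (F z k)‖ ^ 2 ≤ a * s := by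
    refine (Crest.Agent.R273.YC3_812.cs _ _ _).trans (le_of_eq ?_)
    rw [ha, hs]
    congr 1
    refine Finset.sum_congr rfl fun k _ => ?_
    rw [RCLike.norm_conj]
  have h1 : a ≤ (1 + s) * a - ‖∑ k, fderiv ℂ (fun z => F z k) z v * conj (F z k)‖ ^ 2 := by
    nlinarith
  have h2 : a / (1 + s) ^ 2 ≤ ((1 + s) * a
      - ‖∑ k, fderiv ℂ (fun z => F z k) z v * conj (F z k)‖ ^ 2) / (1 + s) ^ 2 :=
    div_le_div_of_nonneg_right h1 (by positivity)
  have h3 : a ≤ (1 + R) ^ 2 * (a / (1 + s) ^ 2) := by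
    have h4 : (1 + s) ^ 2 ≤ (1 + R) ^ 2 := by
      have : 1 + s ≤ 1 + R := by linarith
      exact pow_le_pow_left₀ (by linarith) this 2
    rw [← mul_div_assoc, le_div_iff₀ (by positivity)]
    nlinarith
  have h5 := mul_le_mul_of_nonneg_left h2 (by positivity : (0 : ℝ) ≤ (1 + R) ^ 2)
  linarith

end lev

/-- `∑ |Y_k|²` as a function on `M` -/
def sqM {N : ℕ} (Y : M → Fin N → ℂ) : M → ℝ := fun x => ∑ k, ‖Y x k‖ ^ 2

theorem inC_sqM {N : ℕ} (Y : M → Fin N → ℂ) (i : A.ι) :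
    inC A i (sqM Y) = FS_333.sq (fun z => Y ((A.e i).symm z)) := rfl

section loc

variable {D : Set M} (hD : IsOpen D) {u f : A.ι → Cn n → ℝ} (hu : HF A D u)
  (hf : ∀ i, ContDiffOn ℝ ∞ (f i) (dom A D i))
  (hdet : ∀ i, ∀ z ∈ dom A D i, (cH (u i) z).det = (Real.exp (f i z) : ℂ))
  (hpos : ∀ i, ∀ z ∈ dom A D i, ∀ v : Cn n, v ≠ 0 → 0 < lev (u i) z v)
  {K : ℝ} (hK0 : 0 ≤ K)
  (hfK : ∀ i, ∀ z ∈ dom A D i, ∀ v : Cn n, lev (f i) z v ≤ K * lev (u i) z v)
  {N : ℕ} {Y : M → Fin N → ℂ}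
  (hY : ∀ i k, DifferentiableOn ℂ (fun z => Y ((A.e i).symm z) k) (dom A D i))

include hD hY in
theorem sm_sqM (i : A.ι) : ContDiffOn ℝ ∞ (inC A i (sqM Y)) (dom A D i) :=
  contDiffOn_sq (isOpen_dom hD i) (hY i)

include hD hu hf hdet hpos hK0 hfK hY in
/-- **(4b)**: the trace of the flat metric is bounded by its values on the boundary -/
theorem cl_local {Kc : Set M} (hKc : IsCompact Kc) (hKD : Kc ⊆ D) {R b : ℝ} (hR : 0 < R)
    (hRK : ∀ x ∈ Kc, sqM Y x ≤ R) (hb0 : 0 ≤ b)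
    (hbd : ∀ x ∈ Kc, x ∉ interior Kc → trM A u (fun i => inC A i (sqM Y)) x ≤ b) :
    ∀ x ∈ Kc, trM A u (fun i => inC A i (sqM Y)) x ≤ max b (K * R) * Real.exp 1 := by
  have hp : HF A D (fun i => inC A i (sqM Y)) := HF.of_fun hD fun i => sm_sqM hD hY i
  have hB0 : 0 ≤ max b (K * R) := le_max_of_le_left hb0
  have hexp : ∀ x ∈ Kc, Real.exp (R⁻¹ * sqM Y x) ≤ Real.exp 1 := fun x hx => by
    refine Real.exp_le_exp.2 ?_
    rw [inv_mul_le_iff₀ hR, mul_one]
    exact hRK x hx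
  have hT0 : ∀ x ∈ D, 0 ≤ trM A u (fun i => inC A i (sqM Y)) x := fun x hx => by
    obtain ⟨i, hi⟩ := A.cover x
    rw [trM_eq hD hu hp hx hi]
    refine trH_nonneg (hu.at hD hi hx) (hpos i _ (mem_dom hi hx)) (hp.at hD hi hx) fun v => ?_
    rw [inC_sqM, lev_sq (isOpen_dom hD i) (hY i) (mem_dom hi hx)]
    exact mul_nonneg (by norm_num) (Finset.sum_nonneg fun _ _ => by positivity)
  have key := cl_max hD hu hp hdet hpos hKc hKD (h := fun x => R⁻¹ * sqM Y x)
    (fun i => contDiffOn_const.mul (sm_sqM hD hY i)) (K₁ := K) (K₂ := 0) (c := 0) (θ := R⁻¹)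
    (B := max b (K * R) * Real.exp 1) (inv_pos.2 hR)
    (fun i z hz hT => by
      have h1 := chern_lu_flat (isOpen_dom hD i) (hu.sm i) (hf i) (hdet i) (hpos i) (hfK i)
        (hY i) hz hT
      rw [zero_mul, sub_zero]
      exact h1)
    (fun i x hx hi => by
      have hxD : x ∈ D := hKD (interior_subset hx)
      have e1 : inC A i (fun x => R⁻¹ * sqM Y x) = fun w => R⁻¹ * inC A i (sqM Y) w := rfl
      rw [e1, trH_const_mul (hu.at hD hi hxD) (hp.at hD hi hxD), zero_add, sub_zero])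
    (mul_nonneg hB0 (Real.exp_pos _).le)
    (fun x hx hxi => mul_le_mul ((hbd x hx hxi).trans (le_max_left _ _)) (hexp x hx)
      (Real.exp_pos _).le hB0)
    (fun x hx => by
      have h1 : (K + 0) / R⁻¹ = K * R := by rw [add_zero, div_inv_eq_mul]
      rw [h1]
      exact mul_le_mul (le_max_right _ _) (hexp x hx) (Real.exp_pos _).le hB0)
  intro x hx
  have h1 := key x hx
  have h2 : 1 ≤ Real.exp (R⁻¹ * sqM Y x) := by
    rw [Real.one_le_exp_iff]
    exact mul_nonneg (inv_pos.2 hR).le (Finset.sum_nonneg fun _ _ => by positivity)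
  exact (le_mul_of_one_le_right (hT0 x (hKD hx)) h2).trans h1

end loc

end

end Crest.Agent.R257.CLF_39
end

-- ▼ part R257/CLG_39
section

/-!
# Row 257 (S0395), leaf E-CL (helper39), part G: affine coordinates, the estimate up to the origin

* `D0 P`, `Yc P` : the affine patch `Z₀ ≠ 0` and the affine coordinates `Z_{k+1}/Z₀`
* `KR P R`       : the compact part `|x|² ≤ R`
* `eucl_bound`   : `tr_ω ω_eucl ≤ CB n K κ R E` on `|x|² ≤ R`
* `lev_eucl_le`  : `ω_eucl ≤ CB n K κ R E ω`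
-/

set_option autoImplicit false
set_option linter.unusedSectionVars false

open Set Filter Topology Complex
open scoped ContDiff ComplexConjugate Matrix ComplexOrder

namespace Crest.Agent.R257.CLG_39

open Crest.Agent.R275.Geo Crest.Agent.R275.Core144 Crest.Agent.R275.GC293
open Crest.Agent.R273 Crest.Agent.R273.Defs_333 Crest.Agent.R273.YauDefs_635
open Crest.Agent.R273.YauMax_635 Crest.Agent.R273.HM_333 Crest.Agent.R273.Kah_333
open Crest.Agent.R273.Hess_333 Crest.Agent.R273.HessB_333 Crest.Agent.R273.FS_333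
open Crest.Agent.R257.CLC_39 Crest.Agent.R257.CLD_39 Crest.Agent.R257.CLE_39
open Crest.Agent.R257.CLF_39

noncomputable section

variable {n : ℕ} {M : Type} [TopologicalSpace M] {A : Atl n M} (P : ProjD A)

/-- the affine patch `Z₀ ≠ 0` -/
def D0 : Set M := {x | ∀ i, x ∈ (A.e i).source → P.F i x 0 ≠ 0}

/-- the affine coordinates -/
def Yc : M → Fin P.N → ℂ := fun x k =>
  P.F (A.cover x).choose x k.succ / P.F (A.cover x).choose x 0

theorem gij_ne (i j : A.ι) (x : M) : gij P i j x ≠ 0 := (lb P).ne_zero i j x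

theorem mem_D0 {i : A.ι} {x : M} (hi : x ∈ (A.e i).source) : x ∈ D0 P ↔ P.F i x 0 ≠ 0 := by
  constructor
  · intro h
    exact h i hi
  · intro h j hj
    have h1 := gij_spec P (i := j) (j := i) ⟨hj, hi⟩
    rw [h1, Pi.smul_apply, smul_eq_mul]
    exact mul_ne_zero (gij_ne P j i x) h

theorem Yc_eq {i : A.ι} {x : M} (hi : x ∈ (A.e i).source) (k : Fin P.N) :
    Yc P x k = P.F i x k.succ / P.F i x 0 := by
  have hj := (A.cover x).choose_spec
  have h1 := gij_spec P (i := (A.cover x).choose) (j := i) ⟨hj, hi⟩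
  show P.F (A.cover x).choose x k.succ / P.F (A.cover x).choose x 0 = _
  rw [h1, Pi.smul_apply, Pi.smul_apply, smul_eq_mul, smul_eq_mul,
    mul_div_mul_left _ _ (gij_ne P _ i x)]

/-- `|Z₀|² / |Z|²` -/
def g0 : M → ℝ := fun x => nsq (fs P) (sec P 0) (A.cover x).choose x

theorem g0_eq {i : A.ι} {x : M} (hi : x ∈ (A.e i).source) :
    g0 P x = ‖P.F i x 0‖ ^ 2 * (∑ k, ‖P.F i x k‖ ^ 2)⁻¹ := by
  have hj := (A.cover x).choose_spec
  have h1 : g0 P x = nsq (fs P) (sec P 0) i x :=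
    nsq_indep (fs P) (isHS_sec P 0) ⟨hj, hi⟩ (mem_univ x)
  rw [h1, nsq, sec_eq P hi]
  rfl

theorem sum_pos {i : A.ι} {x : M} (hi : x ∈ (A.e i).source) : 0 < ∑ k, ‖P.F i x k‖ ^ 2 :=
  sq_pos (n := 0) (F := fun _ => P.F i x) (z := 0) (P.ne i x hi)

theorem continuous_g0 : Continuous (g0 P) := by
  rw [continuous_iff_continuousAt]
  intro x
  obtain ⟨i, hi⟩ := A.cover x
  have hz := (A.e i).map_source hi
  have hk : ∀ k, ContinuousAt (fun w => ‖FF P i w k‖ ^ 2) (A.e i x) := fun k =>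
    ((((hol_FF P i k).differentiableAt ((A.e i).open_target.mem_nhds hz)).continuousAt).norm).pow 2
  have h0 : (∑ k, ‖FF P i (A.e i x) k‖ ^ 2) ≠ 0 := by
    have := sum_pos P hi
    simp only [FF, (A.e i).left_inv hi]
    exact this.ne'
  have h1 : ContinuousAt (fun w => ‖FF P i w 0‖ ^ 2 * (∑ k, ‖FF P i w k‖ ^ 2)⁻¹) (A.e i x) :=
    (hk 0).mul ((tendsto_finsetSum _ fun k _ => hk k).inv₀ h0)
  have h2 : ContinuousAt (fun y => ‖FF P i (A.e i y) 0‖ ^ 2 * (∑ k, ‖FF P i (A.e i y) k‖ ^ 2)⁻¹) x :=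
    ContinuousAt.comp (f := A.e i)
      (g := fun w => ‖FF P i w 0‖ ^ 2 * (∑ k, ‖FF P i w k‖ ^ 2)⁻¹) h1 ((A.e i).continuousAt hi)
  refine h2.congr ?_
  filter_upwards [(A.e i).open_source.mem_nhds hi] with y hy
  rw [g0_eq P hy]
  simp only [FF, (A.e i).left_inv hy]

theorem g0_pos_iff (x : M) : 0 < g0 P x ↔ x ∈ D0 P := by
  obtain ⟨i, hi⟩ := A.cover x
  have hs := sum_pos P hi
  rw [g0_eq P hi, mem_D0 P hi]
  constructor
  · intro h h0
    rw [h0] at h
    simp at h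
  · intro h
    positivity

theorem isOpen_D0 : IsOpen (D0 P) := by
  have h1 : D0 P = {x | 0 < g0 P x} := by
    ext x
    exact (g0_pos_iff P x).symm
  rw [h1]
  exact isOpen_lt continuous_const (continuous_g0 P)

theorem g0_mul {x : M} (hx : x ∈ D0 P) : g0 P x * (1 + sqM (Yc P) x) = 1 := by
  obtain ⟨i, hi⟩ := A.cover x
  have hs := sum_pos P hi
  have h0 := (mem_D0 P hi).1 hx
  have h1 : ∑ k, ‖P.F i x k‖ ^ 2 = ‖P.F i x 0‖ ^ 2 * (1 + sqM (Yc P) x) := by
    rw [Fin.sum_univ_succ, sqM, mul_add, mul_one, Finset.mul_sum]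
    congr 1
    refine Finset.sum_congr rfl fun k _ => ?_
    rw [Yc_eq P hi, norm_div, div_pow]
    have : ‖P.F i x 0‖ ^ 2 ≠ 0 := by positivity
    field_simp
  rw [g0_eq P hi]
  have h2 : ‖P.F i x 0‖ ^ 2 * (∑ k, ‖P.F i x k‖ ^ 2)⁻¹ * (1 + sqM (Yc P) x)
      = (∑ k, ‖P.F i x k‖ ^ 2)⁻¹ * (‖P.F i x 0‖ ^ 2 * (1 + sqM (Yc P) x)) := by ring
  rw [h2, ← h1, inv_mul_cancel₀ hs.ne']

theorem sqM_nonneg {N : ℕ} (Y : M → Fin N → ℂ) (x : M) : 0 ≤ sqM Y x :=
  Finset.sum_nonneg fun _ _ => by positivity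

/-- the compact part `|x|² ≤ R` -/
def KR (R : ℝ) : Set M := {x | x ∈ D0 P ∧ sqM (Yc P) x ≤ R}

theorem KR_eq {R : ℝ} (hR : 0 ≤ R) : KR P R = {x | 1 ≤ (1 + R) * g0 P x} := by
  ext x
  constructor
  · rintro ⟨hx, hxR⟩
    have h1 := g0_mul P hx
    have h2 : 0 < g0 P x := (g0_pos_iff P x).2 hx
    show 1 ≤ (1 + R) * g0 P x
    nlinarith
  · intro h
    have h' : 1 ≤ (1 + R) * g0 P x := h
    have hx : x ∈ D0 P := by
      rw [← g0_pos_iff]
      by_contra h0
      push Not at h0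
      nlinarith
    refine ⟨hx, ?_⟩
    have h1 := g0_mul P hx
    have h2 : 0 < g0 P x := (g0_pos_iff P x).2 hx
    have h3 : g0 P x * (1 + sqM (Yc P) x) ≤ g0 P x * (1 + R) := by linarith
    have h4 := le_of_mul_le_mul_left h3 h2
    linarith

theorem isCompact_KR [CompactSpace M] {R : ℝ} (hR : 0 ≤ R) : IsCompact (KR P R) := by
  refine IsClosed.isCompact ?_
  rw [KR_eq P hR]
  exact isClosed_le continuous_const (continuous_const.mul (continuous_g0 P))

theorem interior_KR {R : ℝ} (hR : 0 ≤ R) {x : M} (hx : x ∈ D0 P) (h : sqM (Yc P) x < R) :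
    x ∈ interior (KR P R) := by
  rw [KR_eq P hR]
  refine mem_interior.2 ⟨{x | 1 < (1 + R) * g0 P x}, fun y hy =>
    (le_of_lt (show 1 < (1 + R) * g0 P y from hy) : 1 ≤ (1 + R) * g0 P y),
    isOpen_lt continuous_const (continuous_const.mul (continuous_g0 P)), ?_⟩
  have h1 := g0_mul P hx
  have h2 : 0 < g0 P x := (g0_pos_iff P x).2 hx
  show 1 < (1 + R) * g0 P x
  nlinarith

theorem KR_sub (R : ℝ) : KR P R ⊆ D0 P := fun _ hx => hx.1

/-- the affine coordinates in a chart -/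
theorem Yc_read {i : A.ι} {w : Cn n} (hw : w ∈ (A.e i).target) (k : Fin P.N) :
    Yc P ((A.e i).symm w) k = FF P i w k.succ / FF P i w 0 :=
  Yc_eq P ((A.e i).map_target hw) k

theorem FF_zero_ne {i : A.ι} {w : Cn n} (hw : w ∈ dom A (D0 P) i) : FF P i w 0 ≠ 0 :=
  hw.2 i ((A.e i).map_target hw.1)

theorem hol_Yc (i : A.ι) (k : Fin P.N) :
    DifferentiableOn ℂ (fun z => Yc P ((A.e i).symm z) k) (dom A (D0 P) i) := by
  have h1 : DifferentiableOn ℂ (fun z => FF P i z k.succ * (FF P i z 0)⁻¹) (dom A (D0 P) i) :=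
    ((hol_FF P i k.succ).mono inter_subset_left).mul
      (((hol_FF P i 0).mono inter_subset_left).inv fun w hw => FF_zero_ne P hw)
  exact h1.congr fun w hw => by rw [Yc_read P hw.1 k, div_eq_mul_inv]

/-- the Fubini-Study weight and the affine coordinates -/
theorem hess_fs {i : A.ι} {z : Cn n} (hz : z ∈ dom A (D0 P) i) :
    hess ((fs P).wt i) z
      = hess (fun w => Real.log (FS_333.sq (cons1 (fun z => Yc P ((A.e i).symm z))) w)) z := by
  have ho := isOpen_dom (A := A) (isOpen_D0 P) i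
  have hYs : ContDiffAt ℝ ∞ (fun w => Real.log (FS_333.sq
      (cons1 (fun z => Yc P ((A.e i).symm z))) w)) z :=
    ((contDiffOn_sq ho (hol_cons1 (hol_Yc P i))).contDiffAt (ho.mem_nhds hz)).log (by
      rw [sq_cons1]
      have := sq_nonneg' (fun z => Yc P ((A.e i).symm z)) z
      linarith)
  have hF0 : ∀ᶠ w in 𝓝 z, DifferentiableAt ℂ (fun w => FF P i w 0) w := by
    filter_upwards [ho.mem_nhds hz] with w hw
    exact (hol_FF P i 0).differentiableAt ((A.e i).open_target.mem_nhds hw.1)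
  have hlog : ContDiffAt ℝ ∞ (fun w => Real.log (‖FF P i w 0‖ ^ 2)) z :=
    ((contDiffAt_of_hol (A.e i).open_target (hol_FF P i 0) hz.1).norm_sq ℝ).log (by
      have := FF_zero_ne P hz
      positivity)
  have h1 : (fs P).wt i =ᶠ[𝓝 z] fun w => Real.log (‖FF P i w 0‖ ^ 2)
      + Real.log (FS_333.sq (cons1 (fun z => Yc P ((A.e i).symm z))) w) := by
    filter_upwards [ho.mem_nhds hz] with w hw
    rw [wt_fs]
    have h0 := FF_zero_ne P hw
    have h2 : FS_333.sq (FF P i) w = ‖FF P i w 0‖ ^ 2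
        * FS_333.sq (cons1 (fun z => Yc P ((A.e i).symm z))) w := by
      rw [sq_cons1]
      show ∑ k, ‖FF P i w k‖ ^ 2 = ‖FF P i w 0‖ ^ 2
        * (1 + ∑ k, ‖Yc P ((A.e i).symm w) k‖ ^ 2)
      rw [Fin.sum_univ_succ, mul_add, mul_one, Finset.mul_sum]
      congr 1
      refine Finset.sum_congr rfl fun k _ => ?_
      rw [Yc_read P hw.1, norm_div, div_pow]
      have : ‖FF P i w 0‖ ^ 2 ≠ 0 := by positivity
      field_simp
    have h3 : FS_333.sq (cons1 (fun z => Yc P ((A.e i).symm z))) w ≠ 0 := by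
      rw [sq_cons1]
      have := sq_nonneg' (fun z => Yc P ((A.e i).symm z)) w
      linarith
    show Real.log (FS_333.sq (FF P i) w) = _
    rw [h2, Real.log_mul (by positivity) h3]
  rw [hess_congr h1, hess_add hlog hYs, hess_log_norm hF0 (FF_zero_ne P hz), zero_add]

/-- the flat metric is bounded by the Fubini-Study metric on `|x|² ≤ R` -/
theorem lev_flat_le {i : A.ι} {x : M} (hi : x ∈ (A.e i).source) {R : ℝ} (hx : x ∈ KR P R)
    (v : Cn n) : lev (inC A i (sqM (Yc P))) (A.e i x) v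
      ≤ (1 + R) ^ 2 * lev ((fs P).wt i) (A.e i x) v := by
  have ho := isOpen_dom (A := A) (isOpen_D0 P) i
  have hz : A.e i x ∈ dom A (D0 P) i := mem_dom hi hx.1
  have hYs : ContDiffAt ℝ ∞ (fun w => Real.log (FS_333.sq
      (cons1 (fun z => Yc P ((A.e i).symm z))) w)) (A.e i x) :=
    ((contDiffOn_sq ho (hol_cons1 (hol_Yc P i))).contDiffAt (ho.mem_nhds hz)).log (by
      rw [sq_cons1]
      have := sq_nonneg' (fun z => Yc P ((A.e i).symm z)) (A.e i x)
      linarith)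
  rw [lev_of_hess (wt_contDiffAt (fs P) i hz.1) hYs (hess_fs P hz) v]
  refine lev_sq_le ho (hol_Yc P i) hz ?_ v
  show ∑ k, ‖Yc P ((A.e i).symm (A.e i x)) k‖ ^ 2 ≤ R
  rw [(A.e i).left_inv hi]
  exact hx.2

/-- the constant -/
def CB (n : ℕ) (K κ R E : ℝ) : ℝ :=
  max ((1 + R) ^ 2 * ((K + 3 * n / κ) * Real.exp (3 / κ * E))) (K * R) * Real.exp 1

section glob

variable {L : LB A} (H : HM L) {φ ρ : M → ℝ} (hφ : A.Sm φ) (hρ : A.Sm ρ)
  (hKP : KPos H φ) {f : A.ι → Cn n → ℝ} (hf : ∀ i, ContDiffOn ℝ ∞ (f i) (A.e i).target)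
  (hdet : ∀ i, ∀ z ∈ (A.e i).target, (cH (pot H φ i) z).det = (Real.exp (f i z) : ℂ))
  {K κ : ℝ} (hK0 : 0 ≤ K)
  (hfK : ∀ i, ∀ z ∈ (A.e i).target, ∀ v : Cn n, lev (f i) z v ≤ K * lev (pot H φ i) z v)
  (hκ : 0 < κ)
  (hρκ : ∀ i, ∀ z ∈ (A.e i).target, ∀ v : Cn n,
    κ * lev ((fs P).wt i) z v ≤ lev (pot H ρ i) z v)

include hφ hρ hKP hf hdet hK0 hfK hκ hρκ in
/-- **the trace of the flat metric is bounded up to the origin** -/
theorem eucl_bound [CompactSpace M] {m : ℝ} (hm : ∀ x, m ≤ φ x - ρ x) {R E : ℝ} (hR : 0 < R)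
    (hE : ∀ x ∈ D0 P, sqM (Yc P) x = R → φ x - ρ x - m ≤ E) :
    ∀ x ∈ KR P R, trM A (pot H φ) (fun i => inC A i (sqM (Yc P))) x ≤ CB n K κ R E := by
  have hD := isOpen_D0 P
  have hu : HF A (D0 P) (pot H φ) := HF.of_pot hD H hφ
  have hp : HF A (D0 P) (fun i => inC A i (sqM (Yc P))) :=
    HF.of_fun hD fun i => sm_sqM hD (hol_Yc P) i
  have hfs : HF A (D0 P) (fs P).wt := HF.of_wt (fs P)
  have hc : 0 ≤ K + 3 * n / κ := by positivity
  refine cl_local hD hu (fun i => (hf i).mono inter_subset_left) (fun i z hz => hdet i z hz.1)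
    (fun i z hz => hKP i z hz.1) hK0 (fun i z hz => hfK i z hz.1) (hol_Yc P)
    (isCompact_KR P hR.le) (KR_sub P R) hR (fun x hx => hx.2) (by positivity) ?_
  intro x hx hxi
  have hxR : sqM (Yc P) x = R := by
    refine le_antisymm hx.2 (not_lt.1 fun h => hxi ?_)
    exact interior_KR P hR.le hx.1 h
  obtain ⟨i, hi⟩ := A.cover x
  have hz := (A.e i).map_source hi
  have h1 := cl_global H P hφ hρ hKP hf hdet hK0 hfK hκ hρκ hm x
  have h2 : trM A (pot H φ) (fun i => inC A i (sqM (Yc P))) x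
      ≤ (1 + R) ^ 2 * trM A (pot H φ) (fs P).wt x := by
    rw [trM_eq hD hu hp hx.1 hi, trM_eq hD hu hfs hx.1 hi]
    have c1 := pot_contDiffAt H hφ i hz
    have c2 := wt_contDiffAt (fs P) i hz
    have h3 := trH_mono c1 (hKP i _ hz) (hp.at hD hi hx.1) (contDiffAt_const.mul c2)
      (fun v => by
        rw [lev_const_mul' c2 ((1 + R) ^ 2)]
        exact lev_flat_le P hi hx v)
    rwa [trH_const_mul c1 c2] at h3
  refine h2.trans (mul_le_mul_of_nonneg_left (h1.trans ?_) (by positivity))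
  refine mul_le_mul_of_nonneg_left (Real.exp_le_exp.2 ?_) hc
  exact mul_le_mul_of_nonneg_left (hE x hx.1 hxR) (by positivity)

include hφ hρ hKP hf hdet hK0 hfK hκ hρκ in
/-- **`ω_eucl ≤ C ω`** -/
theorem lev_eucl_le [CompactSpace M] {m : ℝ} (hm : ∀ x, m ≤ φ x - ρ x) {R E : ℝ} (hR : 0 < R)
    (hE : ∀ x ∈ D0 P, sqM (Yc P) x = R → φ x - ρ x - m ≤ E) {x : M} (hx : x ∈ KR P R)
    {i : A.ι} (hi : x ∈ (A.e i).source) (v : Cn n) :
    lev (inC A i (sqM (Yc P))) (A.e i x) v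
      ≤ CB n K κ R E * lev (pot H φ i) (A.e i x) v := by
  have hD := isOpen_D0 P
  have hu : HF A (D0 P) (pot H φ) := HF.of_pot hD H hφ
  have hp : HF A (D0 P) (fun i => inC A i (sqM (Yc P))) :=
    HF.of_fun hD fun i => sm_sqM hD (hol_Yc P) i
  have hz := (A.e i).map_source hi
  have h1 := eucl_bound P H hφ hρ hKP hf hdet hK0 hfK hκ hρκ hm hR hE x hx
  rw [trM_eq hD hu hp hx.1 hi] at h1
  have c1 := pot_contDiffAt H hφ i hz
  have h2 := lev_le_trH c1 (hKP i _ hz) (hp.at hD hi hx.1) (fun v => by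
    rw [inC_sqM, lev_sq (isOpen_dom hD i) (hol_Yc P i) (mem_dom hi hx.1)]
    exact mul_nonneg (by norm_num) (Finset.sum_nonneg fun _ _ => by positivity)) v
  have h3 : 0 ≤ lev (pot H φ i) (A.e i x) v := by
    rcases eq_or_ne v 0 with h0 | h0
    · rw [h0, lev_zero']
    · exact (hKP i _ hz v h0).le
  exact h2.trans (mul_le_mul_of_nonneg_right h1 h3)

end glob

end

end Crest.Agent.R257.CLG_39
end

-- ▼ part R257/CLH_39

/-!
# Row 257 (S0395), leaf E-CL (helper39), part H: reduction of the hypotheses, transfer to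
parametrisations, ellipticity

* `f_of_eta`        : `det ∂∂̄u = e^u |η|²` gives the hypotheses on `f` with `K = 1`
* `lev_transfer`    : Levi forms along a holomorphic map into `M`
* `lev_theta_le`    : `ω_eucl ≤ C ω` in an arbitrary holomorphic parametrisation `θ`
* `ell_of_det`      : `p ≤ C u`, `det u = κ det p` imply `u ≤ κ C^(n-1) p`
* `ell_theta`       : ellipticity in graph-like parametrisations
-/

set_option autoImplicit false
set_option linter.unusedSectionVars false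

open Set Filter Topology Complex
open scoped ContDiff ComplexConjugate Matrix ComplexOrder

namespace Crest.Agent.R257.CLH_39

open Crest.Agent.R275.Geo Crest.Agent.R275.Core144 Crest.Agent.R275.GC293
open Crest.Agent.R273 Crest.Agent.R273.Defs_333 Crest.Agent.R273.YauDefs_635
open Crest.Agent.R273.YauMax_635 Crest.Agent.R273.HM_333 Crest.Agent.R273.Kah_333
open Crest.Agent.R273.Hess_333 Crest.Agent.R273.HessB_333 Crest.Agent.R273.FS_333
open Crest.Agent.R257.CLC_39 Crest.Agent.R257.CLD_39 Crest.Agent.R257.CLE_39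
open Crest.Agent.R257.CLF_39 Crest.Agent.R257.CLG_39

noncomputable section

variable {n : ℕ}

section eta

variable {U : Set (Cn n)} (hU : IsOpen U) {u e : Cn n → ℝ} (hu : ContDiffOn ℝ ∞ u U)
  (he : ContDiffOn ℝ ∞ e U) (hep : ∀ z ∈ U, 0 < e z)

include he hep hu in
theorem f_sm : ContDiffOn ℝ ∞ (fun z => u z + Real.log (e z)) U :=
  hu.add (he.log fun z hz => (hep z hz).ne')

include hep in
theorem f_det (hdet : ∀ z ∈ U, (cH u z).det = ((Real.exp (u z) * e z : ℝ) : ℂ)) :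
    ∀ z ∈ U, (cH u z).det = (Real.exp (u z + Real.log (e z)) : ℂ) := by
  intro z hz
  rw [hdet z hz, Real.exp_add, Real.exp_log (hep z hz)]

include hU hu he hep in
theorem f_lev (heh : ∀ z ∈ U, hess (fun w => Real.log (e w)) z = 0) :
    ∀ z ∈ U, ∀ v : Cn n, lev (fun z => u z + Real.log (e z)) z v ≤ 1 * lev u z v := by
  intro z hz v
  have hn := hU.mem_nhds hz
  have c1 : ContDiffAt ℝ ∞ u z := hu.contDiffAt hn
  have c2 : ContDiffAt ℝ ∞ (fun w => Real.log (e w)) z :=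
    (he.contDiffAt hn).log (hep z hz).ne'
  rw [one_mul]
  refine le_of_eq (lev_of_hess (c1.add c2) c1 ?_ v)
  rw [hess_add c1 c2, heh z hz, add_zero]

end eta

section transfer

variable {U : Set (Cn n)}

/-- Levi forms under a holomorphic map, up to pluriharmonic functions -/
theorem lev_transfer {p q : Cn n → ℝ} {T : Cn n → Cn n} {c : Cn n → ℂ} {z : Cn n}
    (hT : ∀ᶠ w in 𝓝 z, DifferentiableAt ℂ T w) (hp : ContDiffAt ℝ ∞ p (T z))
    (hc : ∀ᶠ w in 𝓝 z, DifferentiableAt ℂ c w) (hc0 : c z ≠ 0)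
    (hq' : ∀ᶠ w in 𝓝 z, q w = p (T w) + Real.log (‖c w‖ ^ 2)) (v : Cn n) :
    lev q z v = lev p (T z) (fderiv ℂ T z v) := by
  have hTa : AnalyticAt ℂ T z := by
    obtain ⟨V, hV, hVo, hVz⟩ := eventually_nhds_iff.1 hT
    exact Crest.Agent.R266.SCV.analyticOnNhd_of_differentiableOn hVo
      (fun w hw => (hV w hw).differentiableWithinAt) z hVz
  have hTc : ContDiffAt ℝ ∞ T z := by
    obtain ⟨V, hV, hVo, hVz⟩ := eventually_nhds_iff.1 hT
    exact contDiffAt_of_hol hVo (fun w hw => (hV w hw).differentiableWithinAt) hVz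
  have hcc : ContDiffAt ℝ ∞ c z := by
    obtain ⟨V, hV, hVo, hVz⟩ := eventually_nhds_iff.1 hc
    exact contDiffAt_of_hol hVo (fun w hw => (hV w hw).differentiableWithinAt) hVz
  have hpT : ContDiffAt ℝ ∞ (fun w => p (T w)) z := hp.comp z hTc
  have hlog : ContDiffAt ℝ ∞ (fun w => Real.log (‖c w‖ ^ 2)) z :=
    (hcc.norm_sq ℝ).log (by positivity)
  have hqc : ContDiffAt ℝ ∞ q z := (hpT.add hlog).congr_of_eventuallyEq hq'
  have h1 : lev q z v = lev (fun w => p (T w)) z v := by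
    refine lev_of_hess hqc hpT ?_ v
    rw [hess_congr hq', hess_add hpT hlog, hess_log_norm hc hc0, add_zero]
  rw [h1, lev333_eq_lev145, lev333_eq_lev145, Levi_145.lev_comp hTa (two_le' hp)]

end transfer

section ke

variable {M : Type} [TopologicalSpace M] {A : Atl n M} (P : ProjD A) {L : LB A} (H : HM L)
  {φ ρ : M → ℝ} (hφ : A.Sm φ) (hρ : A.Sm ρ) (hKP : KPos H φ) {e : A.ι → Cn n → ℝ}
  (he : ∀ i, ContDiffOn ℝ ∞ (e i) (A.e i).target)
  (hep : ∀ i, ∀ z ∈ (A.e i).target, 0 < e i z)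
  (heh : ∀ i, ∀ z ∈ (A.e i).target, hess (fun w => Real.log (e i w)) z = 0)
  (hdet : ∀ i, ∀ z ∈ (A.e i).target,
    (cH (pot H φ i) z).det = ((Real.exp (pot H φ i z) * e i z : ℝ) : ℂ))
  {κ : ℝ} (hκ : 0 < κ)
  (hρκ : ∀ i, ∀ z ∈ (A.e i).target, ∀ v : Cn n,
    κ * lev ((fs P).wt i) z v ≤ lev (pot H ρ i) z v)


include hφ hρ hKP he hep heh hdet hκ hρκ in
/-- **Kähler-Einstein case of (4b)**: `ω_eucl ≤ C ω` on `|x|² ≤ R` -/
theorem ke_eucl_le [CompactSpace M] {m : ℝ} (hm : ∀ x, m ≤ φ x - ρ x) {R E : ℝ} (hR : 0 < R)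
    (hE : ∀ x ∈ D0 P, sqM (Yc P) x = R → φ x - ρ x - m ≤ E) {x : M} (hx : x ∈ KR P R)
    {i : A.ι} (hi : x ∈ (A.e i).source) (v : Cn n) :
    lev (inC A i (sqM (Yc P))) (A.e i x) v
      ≤ CB n 1 κ R E * lev (pot H φ i) (A.e i x) v :=
  lev_eucl_le P H hφ hρ hKP (f := fun i z => pot H φ i z + Real.log (e i z))
    (fun i => f_sm (fun z hz => (pot_contDiffAt H hφ i hz).contDiffWithinAt) (he i) (hep i))
    (fun i => f_det (hep i) (hdet i)) zero_le_one
    (fun i => f_lev (A.e i).open_target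
      (fun z hz => (pot_contDiffAt H hφ i hz).contDiffWithinAt) (he i) (hep i) (heh i))
    hκ hρκ hm hR hE hx hi v

end ke

section theta

variable {M : Type} [TopologicalSpace M] {A : Atl n M} (P : ProjD A) {L : LB A} (H : HM L)
  {φ : M → ℝ} (hφ : A.Sm φ)

include hφ in
/-- the inequality `ω_eucl ≤ C ω` in a parametrisation `x : Cn n → M`, `θ = ` affine coordinates -/
theorem lev_theta_le {x : Cn n → M} {z : Cn n} {i : A.ι} (hx : ContinuousAt x z)
    (hi : x z ∈ (A.e i).source)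
    (hT : ∀ᶠ w in 𝓝 z, DifferentiableAt ℂ (fun w => A.e i (x w)) w)
    {θ : Cn n → Fin P.N → ℂ} (hθ : ∀ᶠ w in 𝓝 z, Yc P (x w) = θ w)
    {c : Cn n → ℂ} (hc : ∀ᶠ w in 𝓝 z, DifferentiableAt ℂ c w) (hc0 : c z ≠ 0) {u : Cn n → ℝ}
    (hu : ∀ᶠ w in 𝓝 z, u w = pot H φ i (A.e i (x w)) + Real.log (‖c w‖ ^ 2)) {C : ℝ}
    (hD : x z ∈ D0 P)
    (hle : ∀ v, lev (inC A i (sqM (Yc P))) (A.e i (x z)) v
      ≤ C * lev (pot H φ i) (A.e i (x z)) v) (v : Cn n) :
    lev (FS_333.sq θ) z v ≤ C * lev u z v := by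
  have hz := (A.e i).map_source hi
  have hsrc : ∀ᶠ w in 𝓝 z, x w ∈ (A.e i).source := hx.eventually ((A.e i).open_source.mem_nhds hi)
  have h1 : ∀ᶠ w in 𝓝 z, FS_333.sq θ w
      = inC A i (sqM (Yc P)) (A.e i (x w)) + Real.log (‖(1 : ℂ)‖ ^ 2) := by
    filter_upwards [hθ, hsrc] with w hw hws
    show ∑ k, ‖θ w k‖ ^ 2 = (∑ k, ‖Yc P ((A.e i).symm (A.e i (x w))) k‖ ^ 2) + _
    rw [(A.e i).left_inv hws, ← hw]
    simp
  have hps : ContDiffAt ℝ ∞ (inC A i (sqM (Yc P))) (A.e i (x z)) :=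
    (sm_sqM (isOpen_D0 P) (hol_Yc P) i).contDiffAt
      ((isOpen_dom (isOpen_D0 P) i).mem_nhds (mem_dom hi hD))
  rw [lev_transfer (T := fun w => A.e i (x w)) (c := fun _ => 1) hT hps
    (Eventually.of_forall fun w => differentiableAt_const _) one_ne_zero h1 v,
    lev_transfer (T := fun w => A.e i (x w)) hT (pot_contDiffAt H hφ i hz) hc hc0 hu v]
  exact hle _

end theta

section ell

/-- `p ≤ C u`, `det u = κ det p` imply `u ≤ κ C^(n-1) p` -/
theorem ell_of_det {u p : Cn n → ℝ} {z : Cn n} (hu : ContDiffAt ℝ ∞ u z)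
    (hp : ContDiffAt ℝ ∞ p z) (hppos : ∀ v : Cn n, v ≠ 0 → 0 < lev p z v) {C κ : ℝ} (hC : 0 < C)
    (hle : ∀ v, lev p z v ≤ C * lev u z v) (hd : (cH u z).det = (κ : ℂ) * (cH p z).det)
    (v : Cn n) : lev u z v ≤ κ * C ^ (n - 1) * lev p z v := by
  have e1 : C2a_793.Um u z = cH u z := by
    ext a b
    rw [cH_eq_hs (two_le' hu)]
    rfl
  have e2 : C2a_793.Um p z = cH p z := by
    ext a b
    rw [cH_eq_hs (two_le' hp)]
    rfl
  have hpd : (C2a_793.Um p z).PosDef := C2c_793.Um_posDef (two_le' hp) fun v hv => by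
    have := hppos v hv
    rw [lev333_eq_lev145] at this
    linarith
  have h1 := C2d_793.lev_le_of_det hu hp hpd hC (fun v => by
    have h3 := hle v
    rw [lev333_eq_lev145, lev333_eq_lev145] at h3
    linarith) (by rw [e1, e2]; exact hd) v
  rw [lev333_eq_lev145, lev333_eq_lev145]
  linarith


end ell

end

end Crest.Agent.R257.CLH_39
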