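import Crest.Agent.R257.GBL1_625
import Crest.Agent.R257.C2F6_335

/-!
# R257 (S0395), part (GB), leaf GB-LIM (helper625): the second Chern form and a section, integrated

`A : Atl 2 M` (not compact), `E : HB A (Fin 2)`, `s : HSec E` (helper335), `U` open, `s ≠ 0` on `U`,
`θ` smooth with compact support in `U`, `Λ = log |s|²`.
* `ddm_smul_cl`  : `∂∂̄ (u T) = ∂∂̄u ∧ T` for `T` closed
* `Zf`, `Sf = Λ Z + bb`, `ddD_Sf : ∂∂̄ Sf = c2`
* `stokes_c2`    : `∫ θ c2 = ∫ ∂∂̄θ ∧ (Λ Z + bb)`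
* `stokes_lam`   : `∫ θ ∂∂̄Λ ∧ T = ∫ Λ ∂∂̄θ ∧ T` for `T` closed (`T` the Kaehler form)
-/

set_option autoImplicit false
set_option linter.unusedSectionVars false

open Set Filter Topology Complex MeasureTheory
open scoped ContDiff Matrix ComplexConjugate ComplexOrder

namespace Crest.Agent.R257.GBL2_625

open Crest.Agent.R275.Geo Crest.Agent.R275.TorS666
open Crest.Agent.R275.Tor812 hiding pd
open Crest.Agent.R275.C1d194 Crest.Agent.R275.Pai323 Crest.Agent.R275.OmT75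
open Crest.Agent.R275.SerG398 (lint dens)
open Crest.Agent.R275.EDR890
open Crest.Agent.R273.StokesV_332
open Crest.Agent.R273.Fock_243
open Crest.Agent.R273.Calc_243 hiding dj
open Crest.Agent.R273.Bkn_243 Crest.Agent.R273.Pos_243 Crest.Agent.R273.BochA_101
open Crest.Agent.R273.BochB_101 Crest.Agent.R273.BochC_101 Crest.Agent.R273.BochD_101
open Crest.Agent.R275.Core144 Crest.Agent.R273.Defs_333 Crest.Agent.R273.HM_333
open Crest.Agent.R273.Hess_333 Crest.Agent.R273.HessB_333 Crest.Agent.R273.Kah_333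
open Crest.Agent.R273.GreenM_5
open Crest.Agent.R257.C2F1_625 Crest.Agent.R257.C2F2_625
open Crest.Agent.R257.C2F5_335 Crest.Agent.R257.GBL1_625
open Crest.Agent.R257.C2F6_335 hiding ddD

noncomputable section

/-- closedness of a `(1,1)` form at a point -/
def Cl (T : Cn 2 → Matrix (Fin 2) (Fin 2) ℂ) (z : Cn 2) : Prop :=
  (∀ a b c, dS (-I) c (fun w => T w a b) z = dS (-I) a (fun w => T w c b) z) ∧
    ∀ a b c, dS I c (fun w => T w a b) z = dS I b (fun w => T w a c) z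

theorem Cl.congr {T T' : Cn 2 → Matrix (Fin 2) (Fin 2) ℂ} {z : Cn 2} (h : T =ᶠ[𝓝 z] T')
    (hT : Cl T z) : Cl T' z := by
  have h' : ∀ a b, (fun w => T w a b) =ᶠ[𝓝 z] fun w => T' w a b := fun a b =>
    h.mono fun y hy => by simp only [hy]
  refine ⟨fun a b c => ?_, fun a b c => ?_⟩
  · rw [← dS_congr (h' a b), ← dS_congr (h' c b)]; exact hT.1 a b c
  · rw [← dS_congr (h' a b), ← dS_congr (h' a c)]; exact hT.2 a b c

theorem Cl.sub {T T' : Cn 2 → Matrix (Fin 2) (Fin 2) ℂ} {z : Cn 2} (sT : SmM z T) (sT' : SmM z T')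
    (hT : Cl T z) (hT' : Cl T' z) : Cl (fun y => T y - T' y) z := by
  have e : ∀ (s : ℂ) (c a b : Fin 2), dS s c (fun w => (T w - T' w) a b) z
      = dS s c (fun w => T w a b) z - dS s c (fun w => T' w a b) z := by
    intro s c a b
    have h1 : (fun w => (T w - T' w) a b) = fun w => T w a b + - T' w a b := by
      funext w
      rw [Matrix.sub_apply, sub_eq_add_neg]
    rw [h1, dS_add (sT a b).diff (show Sm z _ from (sT' a b).neg).diff, dS_neg, sub_eq_add_neg]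
  refine ⟨fun a b c => ?_, fun a b c => ?_⟩
  · rw [e, e, hT.1 a b c, hT'.1 a b c]
  · rw [e, e, hT.2 a b c, hT'.2 a b c]

theorem Cl.neg {T : Cn 2 → Matrix (Fin 2) (Fin 2) ℂ} {z : Cn 2}
    (hT : Cl T z) : Cl (fun y => - T y) z := by
  have e : ∀ (s : ℂ) (c a b : Fin 2), dS s c (fun w => (- T w) a b) z
      = - dS s c (fun w => T w a b) z := by
    intro s c a b
    have h1 : (fun w => (- T w) a b) = fun w => - T w a b := rfl
    rw [h1, dS_neg]
  refine ⟨fun a b c => ?_, fun a b c => ?_⟩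
  · rw [e, e, hT.1 a b c]
  · rw [e, e, hT.2 a b c]

theorem hess_cl {u : Cn 2 → ℝ} {z : Cn 2} (hu : ∀ᶠ y in 𝓝 z, ContDiffAt ℝ ∞ u y) :
    Cl (hess u) z := by
  refine ⟨fun a b c => wd_hess hu.self_of_nhds a b c, fun a b c => ?_⟩
  have hz : Sm z (cu u) := contDiffAt_cu hu.self_of_nhds
  have h1 : ∀ d, (fun w => hess u w a d) =ᶠ[𝓝 z] dS I d (dS (-I) a (cu u)) := fun d => by
    filter_upwards [hu] with w hw
    rw [hess_eq u w a d]
    exact dS_comm (contDiffAt_cu hw)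
  rw [dS_congr (h1 b), dS_congr (h1 c)]
  exact dS_comm (hz.dS _ _)

/-- `∂∂̄ (u T) = ∂∂̄u ∧ T` for closed `T` -/
theorem ddm_smul_cl {u : Cn 2 → ℝ} {T : Cn 2 → Matrix (Fin 2) (Fin 2) ℂ} {z : Cn 2}
    (hu : ContDiffAt ℝ ∞ u z) (hT : SmM z T) (hc : ∀ᶠ y in 𝓝 z, Cl T y) :
    ddm (fun y => (u y : ℂ) • T y) z = pd (hess u z) (T z) := by
  have hU : Sm z (cu u) := contDiffAt_cu hu
  have e : ∀ a b c d, dS (-I) c (dS I d (fun y => ((u y : ℂ) • T y) a b)) z
      = hess u z c d * T z a b + dS I d (cu u) z * dS (-I) c (fun y => T y a b) z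
        + dS (-I) c (cu u) z * dS I d (fun y => T y a b) z
        + u z * dS (-I) c (dS I d (fun y => T y a b)) z := by
    intro a b c d
    rw [hess_eq]
    exact dS2_mul hU (hT a b) _ _ c d
  have h0 := hc.self_of_nhds
  have e1 : dS (-I) 0 (dS I 0 (fun y => T y 1 1)) z = dS (-I) 0 (dS I 1 (fun y => T y 1 0)) z :=
    dS_congr (hc.mono fun y hy => hy.2 1 1 0)
  have e2 : dS (-I) 1 (dS I 1 (fun y => T y 0 0)) z = dS (-I) 1 (dS I 0 (fun y => T y 0 1)) z :=
    dS_congr (hc.mono fun y hy => hy.2 0 0 1)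
  unfold ddm
  rw [e 1 1 0 0, e 0 0 1 1, e 1 0 0 1, e 0 1 1 0, e1, e2, h0.1 1 1 0, h0.1 0 0 1, h0.2 1 1 0,
    h0.2 0 0 1]
  unfold pd
  ring

theorem ddm_add {b b' : Cn 2 → Matrix (Fin 2) (Fin 2) ℂ} {z : Cn 2} (hb : SmM z b)
    (hb' : SmM z b') : ddm (fun y => b y + b' y) z = ddm b z + ddm b' z := by
  have e : ∀ i j c d, dS (-I) c (dS I d (fun y => (b y + b' y) i j)) z
      = dS (-I) c (dS I d (fun y => b y i j)) z + dS (-I) c (dS I d (fun y => b' y i j)) z :=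
    fun i j c d => dS2_add (hb i j) (hb' i j) _ _ c d
  unfold ddm
  rw [e, e, e, e]
  ring

theorem smM_rm {n : ℕ} {κ : Type} [Fintype κ] [DecidableEq κ] {H : Cn n → Matrix κ κ ℂ} {z : Cn n}
    (hH : SmM z H) (h0 : (H z).det ≠ 0) (c d : Fin n) : SmM z (fun y => rm H y c d) := by
  intro i j
  have h1 : SmM z (dM (-I) c (dM I d H)) := (hH.dM I d).dM (-I) c
  have h2 : SmM z (fun y => dM I d H y * (H y)⁻¹ * dM (-I) c H y) :=
    ((hH.dM I d).mul (SmM.inv hH h0)).mul (hH.dM (-I) c)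
  exact (h1 i j).neg.add (h2 i j)

theorem sm_hess {n : ℕ} {u : Cn n → ℝ} {z : Cn n} (hu : ContDiffAt ℝ ∞ u z) (a b : Fin n) :
    Sm z (fun y => hess u y a b) := by
  have h : (fun y => hess u y a b) = dS (-I) a (dS I b (cu u)) := funext fun y => hess_eq u y a b
  rw [h]
  exact Sm.dS (Sm.dS (contDiffAt_cu hu) _ _) _ _

variable {n : ℕ} {M : Type} [TopologicalSpace M] {A : Atl 2 M} {E : HB A (Fin 2)} (s : HSec E)







theorem sm_V {i : A.ι} {z : Cn 2} (hz : z ∈ (A.e i).target) (a : Fin 2) :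
    ∀ᶠ y in 𝓝 z, DifferentiableAt ℂ (fun w => rdM A i (s.V i) w a) y := by
  filter_upwards [(A.e i).open_target.mem_nhds hz] with y hy
  exact (s.hol i a).differentiableAt ((A.e i).open_target.mem_nhds hy)



/-- the second fundamental form is smooth -/
theorem sm_bb {i : A.ι} {x : M} (hx : x ∈ (A.e i).source) (h : s.V i x ≠ 0) :
    SmM (A.e i x) (bb (rdM A i (E.H i)) (rdM A i (s.V i))) := by
  intro c d
  have hH := E.H_sm hx
  have hz := (A.e i).map_source hx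
  have h0 : (rdM A i (E.H i) (A.e i x)).det ≠ 0 := by
    rw [rdM_at hx]; exact E.H_det_ne hx
  have hV1 : ∀ a, Sm (A.e i x) (fun z => rdM A i (s.V i) z a) := fun a => sm_of_hol (sm_V s hz a)
  have hr := smM_rm hH h0 c d
  have e1 : Sm (A.e i x) (fun z => star (rdM A i (s.V i) z) ⬝ᵥ
      (rm (rdM A i (E.H i)) z c d *ᵥ rdM A i (s.V i) z)) := by
    unfold dotProduct Matrix.mulVec dotProduct
    refine ContDiffAt.sum fun a _ => ?_
    refine (Complex.conjCLE.contDiff.contDiffAt.comp _ (hV1 a)).mul (ContDiffAt.sum fun b _ => ?_)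
    exact (hr a b).mul (hV1 b)
  have e2 : Sm (A.e i x) (fun z => ((hV (rdM A i (E.H i)) (rdM A i (s.V i)) z : ℝ) : ℂ)) :=
    contDiffAt_cu (s.sm_nq hx)
  have e3 : ((hV (rdM A i (E.H i)) (rdM A i (s.V i)) (A.e i x) : ℝ) : ℂ) ≠ 0 := by
    rw [← s.rdM_nm hz, rdM_at hx, s.nm_eq hx]
    exact Complex.ofReal_ne_zero.2 (s.nq_pos hx h).ne'
  refine (sm_hess (s.sm_lam hx h) c d).add ?_
  simp only [div_eq_mul_inv]
  exact e1.mul (e2.inv e3)








variable {s} {U : Set M}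











section st

variable [T2Space M] {K : Set M} {θ : M → ℝ}









end st

end

end Crest.Agent.R257.GBL2_625
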