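import Crest.Agent.R257.Idx3_761
import Crest.Agent.R257.GBL2_625
import Crest.Agent.R257.KEG_952

-- ▼ part R257/Idx4_761
section

/-!
# R257 (S0395), leaf GB-IDX, part 4 (helper761): the residue of `log q` at a nondegenerate zero

`Gd q p r c C` : the estimates of part 3 hold on the ball `B(p, r)`, `r ≤ 1`.
* `exists_good` : `NZ q p → ∃ r c C, Gd q p r c C` (and then for every smaller radius)
* `res` : `∫ Λ pd (hs κ) (hess Λ) = π² κ(p) + ∫ κ pd (hess Λ) (hess Λ)`, `Λ = log q`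
* `res1` : `∫ Λ pd (hs κ) W = ∫ κ pd (hess Λ) W` for `W` smooth and closed
-/

set_option autoImplicit false
set_option linter.unusedSectionVars false

open Set Filter Topology Complex MeasureTheory Asymptotics
open scoped ContDiff Matrix ComplexConjugate ComplexOrder

namespace Crest.Agent.R257.Idx4_761

open Crest.Agent.R275.Geo Crest.Agent.R275.EDR890 Crest.Agent.R273.Calc_243
open Crest.Agent.R273.Hess_333 Crest.Agent.R273.HessB_333 Crest.Agent.R273.BochD_101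
open Crest.Agent.R257.C2F1_625 Crest.Agent.R257.C2F2_625
open Crest.Agent.R257.Idx1_761 Crest.Agent.R257.Idx2_761
open Crest.Agent.R257.Idx3_761 Crest.Agent.R257.Idx3_761.NZ

noncomputable section

theorem Oo.exs {n : ℕ} {p : Cn n} {k : ℕ} {ι : Type} [Fintype ι] {f : ι → Cn n → ℂ}
    (h : ∀ i, Oo p k (f i)) :
    ∃ C > 0, ∀ᶠ z in 𝓝 p, ∀ i, ‖f i z‖ ≤ C * ‖z - p‖ ^ k := by
  have h1 : (fun z i => f i z) =O[𝓝 p] fun z => ‖z - p‖ ^ k := isBigO_pi.2 h
  obtain ⟨C, hC, hb⟩ := h1.exists_pos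
  refine ⟨C, hC, ?_⟩
  filter_upwards [hb.bound] with z hz i
  have h2 := (norm_le_pi_norm (fun i => f i z) i).trans hz
  rwa [norm_pow, norm_norm] at h2

/-- the estimates near a nondegenerate zero -/
structure Gd (q : Cn 2 → ℝ) (p : Cn 2) (r c C : ℝ) : Prop where
  r0 : 0 < r
  r1 : r ≤ 1
  c0 : 0 < c
  C0 : 0 < C
  pos : (hess q p).PosDef
  sm : ∀ z ∈ Metric.ball p r, ContDiffAt ℝ ∞ q z
  v0 : q p = 0
  lo : ∀ z ∈ Metric.ball p r, c * ‖z - p‖ ^ 2 ≤ q z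
  hi : ∀ z ∈ Metric.ball p r, q z ≤ C
  qa : ∀ z ∈ Metric.ball p r, ∀ a, ‖dS (-I) a (cu q) z‖ ≤ C * ‖z - p‖
  qb : ∀ z ∈ Metric.ball p r, ∀ a, ‖dS I a (cu q) z‖ ≤ C * ‖z - p‖
  Q : ∀ z ∈ Metric.ball p r, ∀ a b, ‖hess q z a b‖ ≤ C
  N : ∀ z ∈ Metric.ball p r, ‖NN q z‖ ≤ C * ‖z - p‖ ^ 3
  B : ∀ z ∈ Metric.ball p r, |q z - qf (hess q p) (z - p)| ≤ C * ‖z - p‖ ^ 3

theorem Gd.mono {q : Cn 2 → ℝ} {p : Cn 2} {r r' c C : ℝ} (h : Gd q p r c C) (h0 : 0 < r')
    (hr : r' ≤ r) : Gd q p r' c C := by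
  have hs : Metric.ball p r' ⊆ Metric.ball p r := Metric.ball_subset_ball hr
  exact ⟨h0, hr.trans h.r1, h.c0, h.C0, h.pos, fun z hz => h.sm z (hs hz), h.v0,
    fun z hz => h.lo z (hs hz), fun z hz => h.hi z (hs hz), fun z hz => h.qa z (hs hz),
    fun z hz => h.qb z (hs hz), fun z hz => h.Q z (hs hz), fun z hz => h.N z (hs hz),
    fun z hz => h.B z (hs hz)⟩

theorem exists_good {q : Cn 2 → ℝ} {p : Cn 2} (h : NZ q p) : ∃ r c C, Gd q p r c C := by
  obtain ⟨c0, hc0, hqf⟩ := qf_ge h.pos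
  obtain ⟨C1, hC1, e1⟩ := Oo.exs (ι := Unit) (f := fun _ z => cu q z - qq (hess q p) p z)
    (fun _ => h.oB)
  obtain ⟨C2, hC2, e2⟩ := Oo.exs (f := fun a => dS (-I) a (cu q)) h.oqa
  obtain ⟨C3, hC3, e3⟩ := Oo.exs (f := fun a => dS I a (cu q)) h.oqb
  obtain ⟨C4, hC4, e4⟩ := Oo.exs (ι := Unit) (f := fun _ => NN q) (fun _ => h.oNN)
  obtain ⟨C5, hC5, e5⟩ := Oo.exs (ι := Fin 2 × Fin 2) (p := p) (k := 0)
    (f := fun ab z => hess q z ab.1 ab.2) (fun ab =>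
      Oo.of_cont (contDiffAt_hess h.sm.self_of_nhds ab.1 ab.2).continuousAt)
  obtain ⟨C6, hC6, e6⟩ := Oo.exs (ι := Unit) (p := p) (k := 0) (f := fun _ => cu q)
    (fun _ => Oo.of_cont h.smq.continuousAt)
  obtain ⟨r0, hr0, hb⟩ := Metric.eventually_nhds_iff_ball.1
    (((((((e1.and e2).and e3).and e4).and e5).and e6)).and h.sm)
  set C := C1 + C2 + C3 + C4 + C5 + C6 with hC
  have l1 : C1 ≤ C := by rw [hC]; linarith
  have l2 : C2 ≤ C := by rw [hC]; linarith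
  have l3 : C3 ≤ C := by rw [hC]; linarith
  have l4 : C4 ≤ C := by rw [hC]; linarith
  have l5 : C5 ≤ C := by rw [hC]; linarith
  have l6 : C6 ≤ C := by rw [hC]; linarith
  have hCp : 0 < C := by linarith
  set r := min (min r0 1) (c0 / (2 * C)) with hr
  have hrpos : 0 < r := lt_min (lt_min hr0 one_pos) (by positivity)
  have hrr0 : r ≤ r0 := (min_le_left _ _).trans (min_le_left _ _)
  have hr1 : r ≤ 1 := (min_le_left _ _).trans (min_le_right _ _)
  have hrc : r ≤ c0 / (2 * C) := min_le_right _ _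
  have hB : ∀ z ∈ Metric.ball p r, |q z - qf (hess q p) (z - p)| ≤ C * ‖z - p‖ ^ 3 := by
    intro z hz
    obtain ⟨⟨⟨⟨⟨⟨g1, g2⟩, g3⟩, g4⟩, g5⟩, g6⟩, g7⟩ := hb z (Metric.ball_subset_ball hrr0 hz)
    have h1 := g1 ()
    have h2 : q z - qf (hess q p) (z - p) = (cu q z - qq (hess q p) p z).re := by
      rw [Complex.sub_re, qq_re]
      rfl
    rw [h2]
    exact (Complex.abs_re_le_norm _).trans (h1.trans
      (mul_le_mul_of_nonneg_right l1 (by positivity)))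
  refine ⟨r, c0 / 2, C, hrpos, hr1, by positivity, hCp, h.pos, fun z hz =>
    (hb z (Metric.ball_subset_ball hrr0 hz)).2, h.v0, ?_, ?_, ?_, ?_, ?_, ?_, hB⟩
  · intro z hz
    have h1 := (abs_le.1 (hB z hz)).1
    have h2 := hqf (z - p)
    have h3 : ‖z - p‖ < r := by rwa [← dist_eq_norm]
    have h4 : C * ‖z - p‖ ≤ c0 / 2 := by
      have h5 : ‖z - p‖ ≤ c0 / (2 * C) := h3.le.trans hrc
      calc C * ‖z - p‖ ≤ C * (c0 / (2 * C)) := mul_le_mul_of_nonneg_left h5 hCp.le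
        _ = c0 / 2 := by field_simp
    have h6 : C * ‖z - p‖ ^ 3 ≤ c0 / 2 * ‖z - p‖ ^ 2 := by
      calc C * ‖z - p‖ ^ 3 = (C * ‖z - p‖) * ‖z - p‖ ^ 2 := by ring
        _ ≤ _ := mul_le_mul_of_nonneg_right h4 (by positivity)
    linarith
  · intro z hz
    obtain ⟨⟨⟨⟨⟨⟨g1, g2⟩, g3⟩, g4⟩, g5⟩, g6⟩, g7⟩ := hb z (Metric.ball_subset_ball hrr0 hz)
    have h1 := g6 ()
    rw [pow_zero, mul_one] at h1
    have h2 : q z = (cu q z).re := rfl
    rw [h2]
    exact ((le_abs_self _).trans (Complex.abs_re_le_norm _)).trans (h1.trans l6)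
  · intro z hz a
    obtain ⟨⟨⟨⟨⟨⟨g1, g2⟩, g3⟩, g4⟩, g5⟩, g6⟩, g7⟩ := hb z (Metric.ball_subset_ball hrr0 hz)
    have h1 := g2 a
    rw [pow_one] at h1
    exact h1.trans (mul_le_mul_of_nonneg_right l2 (norm_nonneg _))
  · intro z hz a
    obtain ⟨⟨⟨⟨⟨⟨g1, g2⟩, g3⟩, g4⟩, g5⟩, g6⟩, g7⟩ := hb z (Metric.ball_subset_ball hrr0 hz)
    have h1 := g3 a
    rw [pow_one] at h1
    exact h1.trans (mul_le_mul_of_nonneg_right l3 (norm_nonneg _))
  · intro z hz a b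
    obtain ⟨⟨⟨⟨⟨⟨g1, g2⟩, g3⟩, g4⟩, g5⟩, g6⟩, g7⟩ := hb z (Metric.ball_subset_ball hrr0 hz)
    have h1 := g5 (a, b)
    rw [pow_zero, mul_one] at h1
    exact h1.trans l5
  · intro z hz
    obtain ⟨⟨⟨⟨⟨⟨g1, g2⟩, g3⟩, g4⟩, g5⟩, g6⟩, g7⟩ := hb z (Metric.ball_subset_ball hrr0 hz)
    exact (g4 ()).trans (mul_le_mul_of_nonneg_right l4 (by positivity))

/-! ### `log (q + δ)` -/

/-- `log (q + δ)` -/
def Ld (q : Cn 2 → ℝ) (δ : ℝ) (z : Cn 2) : ℝ := Real.log (q z + δ)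

theorem cu_add_const (q : Cn 2 → ℝ) (δ : ℝ) : cu (fun z => q z + δ) = fun z => cu q z + (δ : ℂ) := by
  funext z; simp [cu]

theorem dS_cu_add (q : Cn 2 → ℝ) (δ : ℝ) (s : ℂ) (a : Fin 2) :
    dS s a (cu fun z => q z + δ) = dS s a (cu q) := by
  funext z
  rw [cu_add_const, dS, dS, fderiv_add_const]

theorem sm_Ld {q : Cn 2 → ℝ} {δ : ℝ} {z : Cn 2} (hq : ContDiffAt ℝ ∞ q z) (h0 : 0 < q z + δ) :
    ContDiffAt ℝ ∞ (Ld q δ) z := (hq.add contDiffAt_const).log h0.ne'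

/-- explicit Hessian of `log (q + δ)` -/
theorem hess_Ld {q : Cn 2 → ℝ} {δ : ℝ} {z : Cn 2} (hq : ContDiffAt ℝ ∞ q z) (h0 : 0 < q z + δ)
    (a b : Fin 2) : hess (Ld q δ) z a b = hess q z a b / ((q z + δ : ℝ) : ℂ)
      - YY q z a b / ((q z + δ : ℝ) : ℂ) ^ 2 := by
  have h1 : Sm z (cu fun z => q z + δ) := contDiffAt_cu (hq.add contDiffAt_const)
  have h2 := lg_eq_hess h1 (Eventually.of_forall fun y => by simp [cu])
    (by simpa [cu] using h0) a b
  have h3 : (fun y => Real.log ((cu fun z => q z + δ) y).re) = Ld q δ := by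
    funext y
    show Real.log (((q y + δ : ℝ) : ℂ)).re = _
    rw [ofReal_re]
    rfl
  rw [h3] at h2
  rw [← h2, lg, dS_cu_add, dS_cu_add]
  rfl

theorem pd_Ld {q : Cn 2 → ℝ} {δ : ℝ} {z : Cn 2} (hq : ContDiffAt ℝ ∞ q z) (h0 : 0 < q z + δ) :
    pd (hess (Ld q δ) z) (hess (Ld q δ) z) =
      2 * NN q z / ((q z + δ : ℝ) : ℂ) ^ 3 + 2 * δ * (hess q z).det / ((q z + δ : ℝ) : ℂ) ^ 3 := by
  have hm : ((q z + δ : ℝ) : ℂ) ≠ 0 := by exact_mod_cast h0.ne'
  have e : (q z : ℂ) = ((q z + δ : ℝ) : ℂ) - δ := by push_cast; ring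
  simp only [pd, hess_Ld hq h0, NN, YY, Matrix.of_apply, Matrix.det_fin_two]
  rw [e]
  field_simp
  ring

/-! ### dominated convergence -/

theorem norm_pd_le {X Y : Matrix (Fin 2) (Fin 2) ℂ} {A B : ℝ} (hX : ∀ a b, ‖X a b‖ ≤ A)
    (hY : ∀ a b, ‖Y a b‖ ≤ B) : ‖pd X Y‖ ≤ 4 * (A * B) := by
  have hA : 0 ≤ A := (norm_nonneg _).trans (hX 0 0)
  have h : ∀ a b c d, ‖X a b * Y c d‖ ≤ A * B := fun a b c d => by
    rw [norm_mul]
    exact mul_le_mul (hX a b) (hY c d) (norm_nonneg _) hA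
  unfold pd
  calc ‖X 0 0 * Y 1 1 + X 1 1 * Y 0 0 - X 0 1 * Y 1 0 - X 1 0 * Y 0 1‖
      ≤ ‖X 0 0 * Y 1 1‖ + ‖X 1 1 * Y 0 0‖ + ‖X 0 1 * Y 1 0‖ + ‖X 1 0 * Y 0 1‖ :=
        (norm_sub_le _ _).trans (add_le_add_left ((norm_sub_le _ _).trans
          (add_le_add_left (norm_add_le _ _) _)) _)
    _ ≤ _ := by linarith [h 0 0 1 1, h 1 1 0 0, h 0 1 1 0, h 1 0 0 1]

/-- the dominating function -/
def dom (p : Cn 2) (r : ℝ) : Cn 2 → ℝ := (Metric.ball p r).indicator fun z => (‖z - p‖ ^ 3)⁻¹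

theorem dom_int (p : Cn 2) (r : ℝ) : Integrable (dom p r) := by
  have h := (int_norm3 r).integrable_indicator measurableSet_ball
  have h2 := h.comp_sub_right p
  refine h2.congr (Eventually.of_forall fun z => ?_)
  unfold dom
  by_cases hz : z ∈ Metric.ball p r
  · have : z - p ∈ Metric.ball (0 : Cn 2) r := by rwa [mem_ball_zero_iff, ← dist_eq_norm]
    rw [indicator_of_mem hz]
    exact indicator_of_mem this _
  · have : z - p ∉ Metric.ball (0 : Cn 2) r := by rwa [mem_ball_zero_iff, ← dist_eq_norm]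
    rw [indicator_of_notMem hz]
    exact indicator_of_notMem this _

theorem dom_of_mem {p : Cn 2} {r : ℝ} {z : Cn 2} (hz : z ∈ Metric.ball p r) :
    dom p r z = (‖z - p‖ ^ 3)⁻¹ := indicator_of_mem hz _

theorem dom_nonneg (p : Cn 2) (r : ℝ) (z : Cn 2) : 0 ≤ dom p r z :=
  indicator_nonneg (fun _ _ => by positivity) _

theorem ae_ne (p : Cn 2) : ∀ᵐ z : Cn 2, z ≠ p := by
  rw [ae_iff]
  simp

theorem dct {p : Cn 2} {r K : ℝ} {F : ℝ → Cn 2 → ℂ} {f : Cn 2 → ℂ}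
    (hm : ∀ᶠ δ in 𝓝[>] (0 : ℝ), AEStronglyMeasurable (F δ) volume)
    (hb : ∀ᶠ δ in 𝓝[>] (0 : ℝ), ∀ z, z ≠ p → ‖F δ z‖ ≤ K * dom p r z)
    (hl : ∀ z, z ≠ p → Tendsto (fun δ => F δ z) (𝓝[>] 0) (𝓝 (f z))) :
    Tendsto (fun δ => ∫ z, F δ z) (𝓝[>] 0) (𝓝 (∫ z, f z)) ∧ Integrable f := by
  have hlae : ∀ᵐ z : Cn 2, Tendsto (fun δ => F δ z) (𝓝[>] 0) (𝓝 (f z)) :=
    (ae_ne p).mono fun z hz => hl z hz
  refine ⟨tendsto_integral_filter_of_dominated_convergence (fun z => K * dom p r z) hm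
    (hb.mono fun δ h => (ae_ne p).mono fun z hz => h z hz) ((dom_int p r).const_mul K) hlae, ?_⟩
  obtain ⟨u, hu⟩ := exists_seq_tendsto (𝓝[>] (0 : ℝ))
  have hm' : AEStronglyMeasurable f volume := by
    obtain ⟨N, hN⟩ := eventually_atTop.1 (hu.eventually hm)
    refine aestronglyMeasurable_of_tendsto_ae (u := atTop) (f := fun k => F (u (k + N)))
      (fun k => hN _ (Nat.le_add_left _ _)) ?_
    filter_upwards [hlae] with z hz
    exact (hz.comp hu).comp (tendsto_add_atTop_nat N)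
  refine Integrable.mono' ((dom_int p r).const_mul K) hm' ?_
  filter_upwards [ae_ne p] with z hz
  exact le_of_tendsto (hl z hz).norm (hb.mono fun δ h => h z hz)

namespace Gd

variable {q : Cn 2 → ℝ} {p : Cn 2} {r c C : ℝ}

theorem wpos {z : Cn 2} (hz : z ≠ p) : 0 < ‖z - p‖ := norm_pos_iff.2 (sub_ne_zero.2 hz)

theorem wle (h : Gd q p r c C) {z : Cn 2} (hz : z ∈ Metric.ball p r) : ‖z - p‖ ≤ 1 := by
  rw [← dist_eq_norm]
  exact (Metric.mem_ball.1 hz).le.trans h.r1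

theorem q_nonneg (h : Gd q p r c C) {z : Cn 2} (hz : z ∈ Metric.ball p r) : 0 ≤ q z :=
  (mul_nonneg h.c0.le (by positivity)).trans (h.lo z hz)

theorem q_pos (h : Gd q p r c C) {z : Cn 2} (hz : z ∈ Metric.ball p r) (hzp : z ≠ p) : 0 < q z :=
  lt_of_lt_of_le (mul_pos h.c0 (pow_pos (wpos hzp) 2)) (h.lo z hz)

theorem qd_pos (h : Gd q p r c C) {z : Cn 2} (hz : z ∈ Metric.ball p r) {δ : ℝ} (hδ : 0 < δ) :
    0 < q z + δ := add_pos_of_nonneg_of_pos (h.q_nonneg hz) hδ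

/-- bound of `log (q + δ)` -/
theorem Ld_le (h : Gd q p r c C) {z : Cn 2} (hz : z ∈ Metric.ball p r) (hzp : z ≠ p) {δ : ℝ}
    (h0 : 0 ≤ δ) (h1 : δ ≤ 1) : |Ld q δ z| ≤ (C + 2 / √c) * ‖z - p‖⁻¹ := by
  have hw := wpos hzp
  have hw1 := h.wle hz
  have hx : c * ‖z - p‖ ^ 2 ≤ q z + δ := (h.lo z hz).trans (by linarith)
  have hx0 : 0 < q z + δ := lt_of_lt_of_le (mul_pos h.c0 (pow_pos hw 2)) hx
  have hinv : 1 ≤ ‖z - p‖⁻¹ := (one_le_inv₀ hw).2 hw1
  have hC := h.C0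
  have hc : 0 < √c := Real.sqrt_pos.2 h.c0
  rw [abs_le]
  constructor
  · have h2 : √c * ‖z - p‖ ≤ √(q z + δ) := by
      have : √(c * ‖z - p‖ ^ 2) = √c * ‖z - p‖ := by
        rw [Real.sqrt_mul h.c0.le, Real.sqrt_sq hw.le]
      rw [← this]
      exact Real.sqrt_le_sqrt hx
    have h3 : 0 < √(q z + δ) := Real.sqrt_pos.2 hx0
    have h4 : Real.log (√(q z + δ))⁻¹ ≤ (√(q z + δ))⁻¹ - 1 := Real.log_le_sub_one_of_pos (by positivity)
    rw [Real.log_inv, Real.log_sqrt hx0.le] at h4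
    have h5 : (√(q z + δ))⁻¹ ≤ (√c)⁻¹ * ‖z - p‖⁻¹ := by
      rw [← mul_inv]
      exact inv_anti₀ (by positivity) h2
    have h6 : 0 ≤ C * ‖z - p‖⁻¹ := by positivity
    have h7 : (2 / √c) * ‖z - p‖⁻¹ = 2 * ((√c)⁻¹ * ‖z - p‖⁻¹) := by ring
    unfold Ld
    rw [add_mul, h7]
    linarith
  · have h2 := Real.log_le_sub_one_of_pos hx0
    have h3 := h.hi z hz
    have h4 : C ≤ C * ‖z - p‖⁻¹ := le_mul_of_one_le_right hC.le hinv
    have h5 : 0 ≤ (2 / √c) * ‖z - p‖⁻¹ := by positivity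
    unfold Ld
    rw [add_mul]
    linarith

/-- bound of the Hessian of `log (q + δ)` -/
theorem hess_le (h : Gd q p r c C) {z : Cn 2} (hz : z ∈ Metric.ball p r) (hzp : z ≠ p) {δ : ℝ}
    (h0 : 0 ≤ δ) (a b : Fin 2) :
    ‖hess (Ld q δ) z a b‖ ≤ (C / c + C ^ 2 / c ^ 2) * (‖z - p‖ ^ 2)⁻¹ := by
  have hw := wpos hzp
  have hx : c * ‖z - p‖ ^ 2 ≤ q z + δ := (h.lo z hz).trans (by linarith)
  have hcw : 0 < c * ‖z - p‖ ^ 2 := mul_pos h.c0 (pow_pos hw 2)
  have hx0 : 0 < q z + δ := lt_of_lt_of_le hcw hx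
  have hn : ‖((q z + δ : ℝ) : ℂ)‖ = q z + δ := by rw [norm_real, Real.norm_of_nonneg hx0.le]
  rw [hess_Ld (h.sm z hz) hx0]
  have e1 : ‖hess q z a b / ((q z + δ : ℝ) : ℂ)‖ ≤ C / (c * ‖z - p‖ ^ 2) := by
    rw [norm_div, hn]
    exact div_le_div₀ h.C0.le (h.Q z hz a b) hcw hx
  have e2 : ‖YY q z a b / ((q z + δ : ℝ) : ℂ) ^ 2‖ ≤
      (C * ‖z - p‖) * (C * ‖z - p‖) / (c * ‖z - p‖ ^ 2) ^ 2 := by
    rw [norm_div, norm_pow, hn]
    refine div_le_div₀ (by have := h.C0; positivity) ?_ (by positivity)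
      (pow_le_pow_left₀ hcw.le hx 2)
    show ‖dS (-I) a (cu q) z * dS I b (cu q) z‖ ≤ _
    rw [norm_mul]
    exact mul_le_mul (h.qa z hz a) (h.qb z hz b) (norm_nonneg _)
      (mul_nonneg h.C0.le (norm_nonneg _))
  refine (norm_sub_le _ _).trans ((add_le_add e1 e2).trans (le_of_eq ?_))
  have hc := h.c0.ne'
  have := hw.ne'
  field_simp

end Gd

/-- bound of a `CS` function -/
theorem cs_bdd {n : ℕ} {U : Set (Cn n)} {f : Cn n → ℂ} (hf : CS U f) : ∃ K > 0, ∀ z, ‖f z‖ ≤ K := by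
  obtain ⟨K, hK⟩ := hf.cpt.exists_bound_of_continuous hf.sm.continuous
  exact ⟨max K 1, lt_max_of_lt_right one_pos, fun z => (hK z).trans (le_max_left _ _)⟩

theorem cs_hs {U : Set (Cn 2)} {f : Cn 2 → ℂ} (hf : CS U f) (a b : Fin 2) :
    CS U (fun z => hs f z a b) := (hf.dS I b).dS (-I) a

theorem cs_hs_bdd {U : Set (Cn 2)} {f : Cn 2 → ℂ} (hf : CS U f) :
    ∃ K > 0, ∀ z a b, ‖hs f z a b‖ ≤ K := by
  have h := fun ab : Fin 2 × Fin 2 => cs_bdd (cs_hs hf ab.1 ab.2)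
  choose K hK hb using h
  refine ⟨∑ ab, K ab, Finset.sum_pos (fun ab _ => hK ab) Finset.univ_nonempty, fun z a b => ?_⟩
  exact (hb (a, b) z).trans (Finset.single_le_sum (f := K) (fun ab _ => (hK ab).le)
    (Finset.mem_univ (a, b)))

theorem cs_pd {U : Set (Cn 2)} {f : Cn 2 → ℂ} {W : Cn 2 → Matrix (Fin 2) (Fin 2) ℂ} (hf : CS U f)
    (hW : ∀ z ∈ U, SmM z W) : CS U (fun z => pd (hs f z) (W z)) := by
  have h := fun i j k l => (cs_hs hf i j).mul (fun z hz => hW z hz k l)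
  exact (((h 0 0 1 1).add (h 1 1 0 0)).sub' (h 0 1 1 0)).sub' (h 1 0 0 1)

/-! ### the three limits -/

namespace Gd

variable {q : Cn 2 → ℝ} {p : Cn 2} {r c C : ℝ} {κ : Cn 2 → ℂ}

theorem sm_hess_Ld (h : Gd q p r c C) {δ : ℝ} (hδ : 0 < δ) {z : Cn 2} (hz : z ∈ Metric.ball p r) :
    SmM z (hess (Ld q δ)) := fun a b =>
  contDiffAt_hess (sm_Ld (h.sm z hz) (h.qd_pos hz hδ)) a b

theorem cl_hess_Ld (h : Gd q p r c C) {δ : ℝ} (hδ : 0 < δ) {z : Cn 2} (hz : z ∈ Metric.ball p r) :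
    Cl (hess (Ld q δ)) z := by
  have h1 : hess (Ld q δ) = hs (cu (Ld q δ)) := funext fun z => (hs_cu _ z).symm
  rw [h1]
  exact cl_hs Metric.isOpen_ball (fun y hy => contDiffAt_cu (sm_Ld (h.sm y hy) (h.qd_pos hy hδ))) hz

theorem tendsto_Ld (h : Gd q p r c C) {z : Cn 2} (hz : z ∈ Metric.ball p r) (hzp : z ≠ p) :
    Tendsto (fun δ => Ld q δ z) (𝓝[>] 0) (𝓝 (Ld q 0 z)) := by
  have h0 := h.q_pos hz hzp
  have h1 : Tendsto (fun δ : ℝ => q z + δ) (𝓝[>] 0) (𝓝 (q z + 0)) :=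
    (tendsto_const_nhds.add tendsto_id).mono_left nhdsWithin_le_nhds
  exact (Real.continuousAt_log (by rw [add_zero]; exact h0.ne')).tendsto.comp h1

theorem tendsto_hess (h : Gd q p r c C) {z : Cn 2} (hz : z ∈ Metric.ball p r) (hzp : z ≠ p)
    (a b : Fin 2) : Tendsto (fun δ => hess (Ld q δ) z a b) (𝓝[>] 0) (𝓝 (hess (Ld q 0) z a b)) := by
  have h0 := h.q_pos hz hzp
  have h1 : Tendsto (fun δ : ℝ => ((q z + δ : ℝ) : ℂ)) (𝓝[>] 0) (𝓝 ((q z + 0 : ℝ) : ℂ)) :=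
    (Complex.continuous_ofReal.tendsto _).comp
      ((tendsto_const_nhds.add tendsto_id).mono_left nhdsWithin_le_nhds)
  have hne : ((q z + 0 : ℝ) : ℂ) ≠ 0 := by
    rw [add_zero]; exact_mod_cast h0.ne'
  rw [hess_Ld (h.sm z hz) (by rw [add_zero]; exact h0)]
  have h2 : Tendsto (fun δ : ℝ => hess q z a b / ((q z + δ : ℝ) : ℂ)
      - YY q z a b / ((q z + δ : ℝ) : ℂ) ^ 2) (𝓝[>] 0) (𝓝 (hess q z a b / ((q z + 0 : ℝ) : ℂ)
      - YY q z a b / ((q z + 0 : ℝ) : ℂ) ^ 2)) :=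
    (tendsto_const_nhds.div h1 hne).sub (tendsto_const_nhds.div (h1.pow 2) (pow_ne_zero 2 hne))
  refine h2.congr' ?_
  filter_upwards [self_mem_nhdsWithin] with δ hδ
  exact (hess_Ld (h.sm z hz) (h.qd_pos hz hδ) a b).symm

theorem tendsto_pd (h : Gd q p r c C) {z : Cn 2} (hz : z ∈ Metric.ball p r) (hzp : z ≠ p)
    (X : Matrix (Fin 2) (Fin 2) ℂ) :
    Tendsto (fun δ => pd X (hess (Ld q δ) z)) (𝓝[>] 0) (𝓝 (pd X (hess (Ld q 0) z))) := by
  have t := fun a b => h.tendsto_hess hz hzp a b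
  unfold pd
  exact (((tendsto_const_nhds.mul (t 1 1)).add (tendsto_const_nhds.mul (t 0 0))).sub
    (tendsto_const_nhds.mul (t 1 0))).sub (tendsto_const_nhds.mul (t 0 1))

theorem ev01 : ∀ᶠ δ : ℝ in 𝓝[>] 0, 0 < δ ∧ δ ≤ 1 := by
  have h1 : ∀ᶠ δ : ℝ in 𝓝[>] 0, δ < 1 := nhdsWithin_le_nhds (gt_mem_nhds one_pos)
  filter_upwards [self_mem_nhdsWithin, h1] with δ h2 h3
  exact ⟨h2, h3.le⟩

/-- first limit -/
theorem lim1 (h : Gd q p r c C) (hκ : CS (Metric.ball p r) κ) :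
    Tendsto (fun δ => ∫ z, (Ld q δ z : ℂ) * pd (hs κ z) (hess (Ld q δ) z)) (𝓝[>] 0)
      (𝓝 (∫ z, (Ld q 0 z : ℂ) * pd (hs κ z) (hess (Ld q 0) z))) ∧
    Integrable (fun z => (Ld q 0 z : ℂ) * pd (hs κ z) (hess (Ld q 0) z)) := by
  obtain ⟨Kκ, hKκ, hκb⟩ := cs_hs_bdd hκ
  have hC := h.C0
  have hc := h.c0
  refine dct (p := p) (r := r)
    (K := (C + 2 / √c) * (4 * (Kκ * (C / c + C ^ 2 / c ^ 2)))) ?_ ?_ ?_
  · filter_upwards [self_mem_nhdsWithin] with δ hδ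
    have : CS (Metric.ball p r) (fun z => (Ld q δ z : ℂ) * pd (hs κ z) (hess (Ld q δ) z)) :=
      CS.mul' (fun z hz => contDiffAt_cu (sm_Ld (h.sm z hz) (h.qd_pos hz hδ)))
        (cs_pd hκ fun z hz => h.sm_hess_Ld hδ hz)
    exact this.sm.continuous.aestronglyMeasurable
  · filter_upwards [ev01] with δ hδ z hzp
    by_cases hz : z ∈ Metric.ball p r
    · have hw := wpos hzp
      rw [dom_of_mem hz, norm_mul, norm_real]
      have e1 := h.Ld_le hz hzp hδ.1.le hδ.2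
      have e2 := norm_pd_le (hκb z) (fun a b => h.hess_le hz hzp hδ.1.le a b)
      calc ‖Ld q δ z‖ * ‖pd (hs κ z) (hess (Ld q δ) z)‖
          ≤ ((C + 2 / √c) * ‖z - p‖⁻¹) * (4 * (Kκ * ((C / c + C ^ 2 / c ^ 2) * (‖z - p‖ ^ 2)⁻¹))) :=
            mul_le_mul e1 e2 (norm_nonneg _) (by positivity)
        _ = _ := by
          field_simp
    · have : CS (Metric.ball p r) (fun z => pd (hs κ z) (hess (Ld q δ) z)) :=
        cs_pd hκ fun z hz => h.sm_hess_Ld hδ.1 hz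
      rw [this.zero_off hz, mul_zero, norm_zero]
      exact mul_nonneg (by positivity) (dom_nonneg _ _ _)
  · intro z hzp
    by_cases hz : z ∈ Metric.ball p r
    · exact ((Complex.continuous_ofReal.tendsto _).comp (h.tendsto_Ld hz hzp)).mul
        (h.tendsto_pd hz hzp _)
    · have : hs κ z = 0 := by
        ext a b
        exact (cs_hs hκ a b).zero_off hz
      simp only [this, pd, Matrix.zero_apply, zero_mul, add_zero, sub_zero, mul_zero]
      exact tendsto_const_nhds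

/-- second limit -/
theorem lim2 (h : Gd q p r c C) (hκ : CS (Metric.ball p r) κ) :
    Tendsto (fun δ => ∫ z, κ z * (2 * NN q z / ((q z + δ : ℝ) : ℂ) ^ 3)) (𝓝[>] 0)
      (𝓝 (∫ z, κ z * (2 * NN q z / ((q z + 0 : ℝ) : ℂ) ^ 3))) ∧
    Integrable (fun z => κ z * (2 * NN q z / ((q z + 0 : ℝ) : ℂ) ^ 3)) := by
  obtain ⟨Kκ, hKκ, hκb⟩ := cs_bdd hκ
  have hC := h.C0
  have hc := h.c0
  refine dct (p := p) (r := r) (K := Kκ * (2 * C / c ^ 3)) ?_ ?_ ?_
  · filter_upwards [self_mem_nhdsWithin] with δ hδ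
    have : CS (Metric.ball p r) (fun z => κ z * (2 * NN q z / ((q z + δ : ℝ) : ℂ) ^ 3)) := by
      refine hκ.mul fun z hz => ?_
      have s1 : Sm z (cu q) := contDiffAt_cu (h.sm z hz)
      have s2 : ∀ a b, Sm z (fun y => hess q y a b) := fun a b => contDiffAt_hess (h.sm z hz) a b
      have s3 : ∀ a b, Sm z (fun y => YY q y a b) := fun a b => (s1.dS _ _).mul (s1.dS _ _)
      have s4 : Sm z (NN q) := by
        have : NN q = fun y => cu q y * (hess q y 0 0 * hess q y 1 1 - hess q y 0 1 * hess q y 1 0) -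
            (((hess q y 0 0 * YY q y 1 1 + hess q y 1 1 * YY q y 0 0) -
              hess q y 0 1 * YY q y 1 0) - hess q y 1 0 * YY q y 0 1) := by
          funext y
          simp only [NN, pd, Matrix.det_fin_two]
          rfl
        rw [this]
        exact (s1.mul (((s2 0 0).mul (s2 1 1)).sub ((s2 0 1).mul (s2 1 0)))).sub
          (((((s2 0 0).mul (s3 1 1)).add ((s2 1 1).mul (s3 0 0))).sub
            ((s2 0 1).mul (s3 1 0))).sub ((s2 1 0).mul (s3 0 1)))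
      have s5 : Sm z (fun y => ((q y + δ : ℝ) : ℂ) ^ 3) :=
        (contDiffAt_cu ((h.sm z hz).add contDiffAt_const)).pow 3
      have h0 : ((q z + δ : ℝ) : ℂ) ^ 3 ≠ 0 := by
        have := h.qd_pos hz hδ
        exact pow_ne_zero 3 (by exact_mod_cast this.ne')
      have s6 : Sm z (fun y => (((q y + δ : ℝ) : ℂ) ^ 3)⁻¹) := s5.inv h0
      have e : (fun y => 2 * NN q y / ((q y + δ : ℝ) : ℂ) ^ 3) =
          fun y => 2 * NN q y * (((q y + δ : ℝ) : ℂ) ^ 3)⁻¹ := by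
        funext y; rw [div_eq_mul_inv]
      rw [e]
      exact (contDiffAt_const.mul s4).mul s6
    exact this.sm.continuous.aestronglyMeasurable
  · filter_upwards [ev01] with δ hδ z hzp
    by_cases hz : z ∈ Metric.ball p r
    · have hw := wpos hzp
      have hx : c * ‖z - p‖ ^ 2 ≤ q z + δ := (h.lo z hz).trans (by linarith [hδ.1])
      have hcw : 0 < c * ‖z - p‖ ^ 2 := mul_pos h.c0 (pow_pos hw 2)
      have hx0 : 0 < q z + δ := lt_of_lt_of_le hcw hx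
      rw [dom_of_mem hz, norm_mul, norm_div, norm_pow, norm_real, Real.norm_of_nonneg hx0.le,
        norm_mul, Complex.norm_two]
      calc ‖κ z‖ * (2 * ‖NN q z‖ / (q z + δ) ^ 3)
          ≤ Kκ * (2 * (C * ‖z - p‖ ^ 3) / (c * ‖z - p‖ ^ 2) ^ 3) := by
            refine mul_le_mul (hκb z) ?_ (by positivity) hKκ.le
            exact div_le_div₀ (by positivity) (mul_le_mul_of_nonneg_left (h.N z hz) (by norm_num))
              (by positivity) (pow_le_pow_left₀ hcw.le hx 3)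
        _ = _ := by
          field_simp
    · rw [hκ.zero_off hz, zero_mul, norm_zero]
      exact mul_nonneg (by positivity) (dom_nonneg _ _ _)
  · intro z hzp
    by_cases hz : z ∈ Metric.ball p r
    · have h0 := h.q_pos hz hzp
      have h1 : Tendsto (fun δ : ℝ => ((q z + δ : ℝ) : ℂ) ^ 3) (𝓝[>] 0)
          (𝓝 (((q z + 0 : ℝ) : ℂ) ^ 3)) :=
        ((Complex.continuous_ofReal.tendsto _).comp
          ((tendsto_const_nhds.add tendsto_id).mono_left nhdsWithin_le_nhds)).pow 3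
      exact tendsto_const_nhds.mul (tendsto_const_nhds.div h1
        (pow_ne_zero 3 (by rw [add_zero]; exact_mod_cast h0.ne')))
    · simp only [hκ.zero_off hz, zero_mul]
      exact tendsto_const_nhds

theorem sm_det (h : Gd q p r c C) {z : Cn 2} (hz : z ∈ Metric.ball p r) :
    Sm z (fun y => (hess q y).det) := by
  have s2 : ∀ a b, Sm z (fun y => hess q y a b) := fun a b => contDiffAt_hess (h.sm z hz) a b
  simp only [Matrix.det_fin_two]
  exact ((s2 0 0).mul (s2 1 1)).sub ((s2 0 1).mul (s2 1 0))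

/-- third limit: the approximate identity -/
theorem lim3 (h : Gd q p r c C) (hκ : CS (Metric.ball p r) κ) :
    Tendsto (fun ε : ℝ => ∫ z, κ z * (2 * ((ε ^ 2 : ℝ) : ℂ) * (hess q z).det /
      ((q z + ε ^ 2 : ℝ) : ℂ) ^ 3)) (𝓝[>] 0) (𝓝 ((Real.pi : ℂ) ^ 2 * κ p)) := by
  set Φ : Cn 2 → ℂ := fun z => κ z * (2 * (hess q z).det) with hΦ
  have cΦ : CS (Metric.ball p r) Φ := hκ.mul fun z hz => contDiffAt_const.mul (h.sm_det hz)
  obtain ⟨K, hK, hKb⟩ := cs_bdd cΦ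
  set G := hess q p with hG
  have hC := h.C0
  have hc := h.c0
  -- rescaling
  have e1 : ∀ ε : ℝ, 0 < ε → ∫ z, κ z * (2 * ((ε ^ 2 : ℝ) : ℂ) * (hess q z).det /
      ((q z + ε ^ 2 : ℝ) : ℂ) ^ 3) =
      ∫ w : Cn 2, Φ (p + ε • w) / ((q (p + ε • w) / ε ^ 2 + 1 : ℝ) : ℂ) ^ 3 := by
    intro ε hε
    set F : Cn 2 → ℂ := fun z => κ z * (2 * ((ε ^ 2 : ℝ) : ℂ) * (hess q z).det /
      ((q z + ε ^ 2 : ℝ) : ℂ) ^ 3) with hF
    have h1 : ∫ z, F z = ∫ z, F (p + z) := (integral_add_left_eq_self F p).symm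
    have h2 := Measure.integral_comp_smul (volume : Measure (Cn 2)) (fun z => F (p + z)) ε
    rw [finrank4] at h2
    have h3 : |(ε ^ 4)⁻¹| = (ε ^ 4)⁻¹ := abs_of_pos (by positivity)
    rw [h3] at h2
    have h4 : ∫ z, F (p + z) = (ε ^ 4 : ℝ) • ∫ w, F (p + ε • w) := by
      rw [h2, smul_smul, mul_inv_cancel₀ (by positivity), one_smul]
    rw [h1, h4, ← integral_smul]
    refine integral_congr_ae (Eventually.of_forall fun w => ?_)
    have hε0 : (ε : ℂ) ≠ 0 := by exact_mod_cast hε.ne'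
    show (ε ^ 4 : ℝ) • F (p + ε • w) = _
    rw [Complex.real_smul, hF, hΦ]
    have h5 : ((q (p + ε • w) / ε ^ 2 + 1 : ℝ) : ℂ) = ((q (p + ε • w) + ε ^ 2 : ℝ) : ℂ) / (ε : ℂ) ^ 2 := by
      push_cast
      field_simp
    simp only [h5]
    push_cast
    rw [div_pow, div_div_eq_mul_div]
    ring
  -- the dominating function
  set m := min c 1 with hm
  have hm0 : 0 < m := lt_min hc one_pos
  have hbint : Integrable (fun w : Cn 2 => K / (2 * m ^ 3) * (2 / (‖w‖ ^ 2 + 1) ^ 3)) :=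
    flat_intble.const_mul _
  have hlow : ∀ (ε : ℝ), 0 < ε → ∀ w : Cn 2, p + ε • w ∈ Metric.ball p r →
      m * (‖w‖ ^ 2 + 1) ≤ q (p + ε • w) / ε ^ 2 + 1 := by
    intro ε hε w hw
    have h1 := h.lo _ hw
    rw [add_sub_cancel_left, norm_smul, Real.norm_of_nonneg hε.le, mul_pow] at h1
    have h2 : c * ‖w‖ ^ 2 ≤ q (p + ε • w) / ε ^ 2 := by
      rw [le_div_iff₀ (by positivity)]
      linarith
    have h3 : m * ‖w‖ ^ 2 ≤ c * ‖w‖ ^ 2 := mul_le_mul_of_nonneg_right (min_le_left _ _) (by positivity)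
    have h4 : m ≤ 1 := min_le_right _ _
    linarith
  have key : Tendsto (fun ε : ℝ => ∫ w : Cn 2, Φ (p + ε • w) /
      ((q (p + ε • w) / ε ^ 2 + 1 : ℝ) : ℂ) ^ 3) (𝓝[>] 0)
      (𝓝 (∫ w : Cn 2, Φ p / ((qf G w + 1 : ℝ) : ℂ) ^ 3)) := by
    refine tendsto_integral_filter_of_dominated_convergence
      (fun w => K / (2 * m ^ 3) * (2 / (‖w‖ ^ 2 + 1) ^ 3)) ?_ ?_ hbint ?_
    · filter_upwards [self_mem_nhdsWithin] with ε hε
      have hε' : (0:ℝ) < ε := hε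
      have hcs : CS (Metric.ball p r) (fun z => Φ z / ((q z / ε ^ 2 + 1 : ℝ) : ℂ) ^ 3) := by
        simp only [div_eq_mul_inv]
        refine cΦ.mul fun z hz => ?_
        have s1 : ContDiffAt ℝ ∞ (fun y => q y * (ε ^ 2)⁻¹ + 1) z :=
          ((h.sm z hz).mul contDiffAt_const).add contDiffAt_const
        have s2 : Sm z (fun y => ((q y * (ε ^ 2)⁻¹ + 1 : ℝ) : ℂ) ^ 3) := (contDiffAt_cu s1).pow 3
        refine s2.inv (pow_ne_zero 3 ?_)
        have h1 := h.q_nonneg hz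
        have : (0:ℝ) < q z * (ε ^ 2)⁻¹ + 1 := by positivity
        exact_mod_cast this.ne'
      have hcont : Continuous fun w : Cn 2 => p + ε • w := by fun_prop
      exact (hcs.sm.continuous.comp hcont).aestronglyMeasurable
    · filter_upwards [self_mem_nhdsWithin] with ε hε
      refine Eventually.of_forall fun w => ?_
      have hε' : (0:ℝ) < ε := hε
      by_cases hw : p + ε • w ∈ Metric.ball p r
      · have h1 := hlow ε hε' w hw
        have h2 : 0 < m * (‖w‖ ^ 2 + 1) := by positivity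
        have h3 : 0 < q (p + ε • w) / ε ^ 2 + 1 := lt_of_lt_of_le h2 h1
        rw [norm_div, norm_pow, norm_real, Real.norm_of_nonneg h3.le]
        calc ‖Φ (p + ε • w)‖ / (q (p + ε • w) / ε ^ 2 + 1) ^ 3
            ≤ K / (m * (‖w‖ ^ 2 + 1)) ^ 3 :=
              div_le_div₀ hK.le (hKb _) (by positivity) (pow_le_pow_left₀ h2.le h1 3)
          _ = _ := by
            field_simp
      · rw [cΦ.zero_off hw, zero_div, norm_zero]
        positivity
    · refine Eventually.of_forall fun w => ?_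
      have hin : ∀ᶠ ε : ℝ in 𝓝[>] 0, p + ε • w ∈ Metric.ball p r := by
        have hcont : Tendsto (fun ε : ℝ => p + ε • w) (𝓝 0) (𝓝 (p + (0:ℝ) • w)) :=
          (continuous_const.add (continuous_id.smul continuous_const)).tendsto 0
        rw [zero_smul, add_zero] at hcont
        exact nhdsWithin_le_nhds (hcont (Metric.ball_mem_nhds p h.r0))
      have h1 : Tendsto (fun ε : ℝ => Φ (p + ε • w)) (𝓝[>] 0) (𝓝 (Φ p)) := by
        have hcont : Continuous fun ε : ℝ => Φ (p + ε • w) := cΦ.sm.continuous.comp (by fun_prop)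
        have := hcont.tendsto 0
        rw [zero_smul, add_zero] at this
        exact this.mono_left nhdsWithin_le_nhds
      have h2 : Tendsto (fun ε : ℝ => q (p + ε • w) / ε ^ 2) (𝓝[>] 0) (𝓝 (qf G w)) := by
        rw [tendsto_iff_norm_sub_tendsto_zero]
        have hz : Tendsto (fun ε : ℝ => C * ‖w‖ ^ 3 * ε) (𝓝[>] 0) (𝓝 0) := by
          have : Tendsto (fun ε : ℝ => C * ‖w‖ ^ 3 * ε) (𝓝 0) (𝓝 (C * ‖w‖ ^ 3 * 0)) :=
            (continuous_const.mul continuous_id).tendsto 0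
          rw [mul_zero] at this
          exact this.mono_left nhdsWithin_le_nhds
        refine squeeze_zero' (Eventually.of_forall fun _ => norm_nonneg _) ?_ hz
        filter_upwards [hin, self_mem_nhdsWithin] with ε hε1 hε2
        have hε' : (0:ℝ) < ε := hε2
        have h3 := h.B _ hε1
        rw [add_sub_cancel_left] at h3
        have h4 : qf G (ε • w) = ε ^ 2 * qf G w := by
          unfold qf
          have : ∀ a b : Fin 2, G a b * (ε • w) a * conj ((ε • w) b) =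
              ((ε ^ 2 : ℝ) : ℂ) * (G a b * w a * conj (w b)) := by
            intro a b
            simp only [PiLp.smul_apply, Complex.real_smul, map_mul, conj_ofReal]
            push_cast
            ring
          simp only [this, ← Finset.mul_sum]
          rw [Complex.re_ofReal_mul]
        rw [h4, norm_smul, Real.norm_of_nonneg hε'.le] at h3
        have h5 : q (p + ε • w) / ε ^ 2 - qf G w = (q (p + ε • w) - ε ^ 2 * qf G w) / ε ^ 2 := by
          field_simp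
        rw [h5, Real.norm_eq_abs, abs_div, abs_of_pos (by positivity : (0:ℝ) < ε ^ 2),
          div_le_iff₀ (by positivity)]
        refine h3.trans (le_of_eq ?_)
        ring
      have h3 : Tendsto (fun ε : ℝ => ((q (p + ε • w) / ε ^ 2 + 1 : ℝ) : ℂ) ^ 3) (𝓝[>] 0)
          (𝓝 (((qf G w + 1 : ℝ) : ℂ) ^ 3)) :=
        ((Complex.continuous_ofReal.tendsto _).comp (h2.add tendsto_const_nhds)).pow 3
      refine h1.div h3 (pow_ne_zero 3 ?_)
      obtain ⟨c', hc', hq'⟩ := qf_ge h.pos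
      have : 0 < qf G w + 1 := by
        have := hq' w
        have h6 : 0 ≤ c' * ‖w‖ ^ 2 := by positivity
        linarith
      exact_mod_cast this.ne'
  have hval : ∫ w : Cn 2, Φ p / ((qf G w + 1 : ℝ) : ℂ) ^ 3 = (Real.pi : ℂ) ^ 2 * κ p := by
    obtain ⟨f1, f2⟩ := flat_G h.pos
    have h1 : (fun w : Cn 2 => Φ p / ((qf G w + 1 : ℝ) : ℂ) ^ 3) =
        fun w => κ p * ((2 * G.det.re / (qf G w + 1) ^ 3 : ℝ) : ℂ) := by
      funext w
      have h2 : ((G.det.re : ℝ) : ℂ) = G.det := herm_det_im h.pos.isHermitian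
      rw [hΦ]
      push_cast
      rw [h2]
      ring
    rw [h1, integral_const_mul, integral_complex_ofReal, f2]
    push_cast
    ring
  rw [← hval]
  refine key.congr' ?_
  filter_upwards [self_mem_nhdsWithin] with ε hε
  exact (e1 ε hε).symm

/-- `pd (hess Λ) (hess Λ) = 2 N / q³` off `p` -/
theorem pd_L0 (h : Gd q p r c C) {z : Cn 2} (hz : z ∈ Metric.ball p r) (hzp : z ≠ p) :
    pd (hess (Ld q 0) z) (hess (Ld q 0) z) = 2 * NN q z / ((q z + 0 : ℝ) : ℂ) ^ 3 := by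
  rw [pd_Ld (h.sm z hz) (by rw [add_zero]; exact h.q_pos hz hzp)]
  simp

/-- **the residue of `log q`** -/
theorem res (h : Gd q p r c C) (hκ : CS (Metric.ball p r) κ) :
    Integrable (fun z => (Ld q 0 z : ℂ) * pd (hs κ z) (hess (Ld q 0) z)) ∧
    Integrable (fun z => κ z * pd (hess (Ld q 0) z) (hess (Ld q 0) z)) ∧
    ∫ z, (Ld q 0 z : ℂ) * pd (hs κ z) (hess (Ld q 0) z) =
      (Real.pi : ℂ) ^ 2 * κ p + ∫ z, κ z * pd (hess (Ld q 0) z) (hess (Ld q 0) z) := by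
  obtain ⟨l1, i1⟩ := h.lim1 hκ
  obtain ⟨l2, i2⟩ := h.lim2 hκ
  have l3 := h.lim3 hκ
  have hE : (fun z => κ z * (2 * NN q z / ((q z + 0 : ℝ) : ℂ) ^ 3)) =ᵐ[volume]
      fun z => κ z * pd (hess (Ld q 0) z) (hess (Ld q 0) z) := by
    filter_upwards [ae_ne p] with z hz
    by_cases hzb : z ∈ Metric.ball p r
    · rw [h.pd_L0 hzb hz]
    · rw [hκ.zero_off hzb, zero_mul, zero_mul]
  refine ⟨i1, i2.congr hE, ?_⟩
  have ht : Tendsto (fun ε : ℝ => ε ^ 2) (𝓝[>] 0) (𝓝[>] 0) := by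
    refine tendsto_nhdsWithin_iff.2 ⟨?_, ?_⟩
    · have : Tendsto (fun ε : ℝ => ε ^ 2) (𝓝 0) (𝓝 (0 ^ 2)) := (continuous_pow 2).tendsto 0
      rw [zero_pow two_ne_zero] at this
      exact this.mono_left nhdsWithin_le_nhds
    · filter_upwards [self_mem_nhdsWithin] with ε hε
      have : (0:ℝ) < ε := hε
      exact pow_pos this 2
  have l1' := l1.comp ht
  have l2' := l2.comp ht
  have l23 := l2'.add l3
  rw [← integral_congr_ae hE, add_comm]
  refine tendsto_nhds_unique l1' (l23.congr' ?_)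
  filter_upwards [self_mem_nhdsWithin] with ε hε
  have hε' : (0:ℝ) < ε := hε
  have hδ : (0:ℝ) < ε ^ 2 := pow_pos hε' 2
  -- the regularised identity
  have e1 : ∫ z, (Ld q (ε ^ 2) z : ℂ) * pd (hs κ z) (hess (Ld q (ε ^ 2)) z) =
      ∫ z, κ z * pd (hess (Ld q (ε ^ 2)) z) (hess (Ld q (ε ^ 2)) z) := by
    have := parts_pd (a := cu (Ld q (ε ^ 2))) (W := hess (Ld q (ε ^ 2))) hκ
      (fun z hz => contDiffAt_cu (sm_Ld (h.sm z hz) (h.qd_pos hz hδ)))
      (fun z hz => h.cl_hess_Ld hδ hz)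
    simp only [hs_cu] at this
    exact this
  show (∫ z, κ z * (2 * NN q z / ((q z + ε ^ 2 : ℝ) : ℂ) ^ 3)) +
    (∫ z, κ z * (2 * ((ε ^ 2 : ℝ) : ℂ) * (hess q z).det / ((q z + ε ^ 2 : ℝ) : ℂ) ^ 3)) =
    ∫ z, (Ld q (ε ^ 2) z : ℂ) * pd (hs κ z) (hess (Ld q (ε ^ 2)) z)
  rw [e1]
  have sden : ∀ z ∈ Metric.ball p r, Sm z (fun y => (((q y + ε ^ 2 : ℝ) : ℂ) ^ 3)⁻¹) := by
    intro z hz
    have s5 : Sm z (fun y => ((q y + ε ^ 2 : ℝ) : ℂ) ^ 3) :=
      (contDiffAt_cu ((h.sm z hz).add contDiffAt_const)).pow 3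
    exact s5.inv (pow_ne_zero 3 (by exact_mod_cast (h.qd_pos hz hδ).ne'))
  have sN : ∀ z ∈ Metric.ball p r, Sm z (NN q) := by
    intro z hz
    have s1 : Sm z (cu q) := contDiffAt_cu (h.sm z hz)
    have s2 : ∀ a b, Sm z (fun y => hess q y a b) := fun a b => contDiffAt_hess (h.sm z hz) a b
    have s3 : ∀ a b, Sm z (fun y => YY q y a b) := fun a b => (s1.dS _ _).mul (s1.dS _ _)
    have : NN q = fun y => cu q y * (hess q y 0 0 * hess q y 1 1 - hess q y 0 1 * hess q y 1 0) -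
        (((hess q y 0 0 * YY q y 1 1 + hess q y 1 1 * YY q y 0 0) -
          hess q y 0 1 * YY q y 1 0) - hess q y 1 0 * YY q y 0 1) := by
      funext y
      simp only [NN, pd, Matrix.det_fin_two]
      rfl
    rw [this]
    exact (s1.mul (((s2 0 0).mul (s2 1 1)).sub ((s2 0 1).mul (s2 1 0)))).sub
      (((((s2 0 0).mul (s3 1 1)).add ((s2 1 1).mul (s3 0 0))).sub
        ((s2 0 1).mul (s3 1 0))).sub ((s2 1 0).mul (s3 0 1)))
  have j1 : Integrable fun z => κ z * (2 * NN q z / ((q z + ε ^ 2 : ℝ) : ℂ) ^ 3) := by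
    simp only [div_eq_mul_inv]
    exact (hκ.mul fun z hz => (contDiffAt_const.mul (sN z hz)).mul (sden z hz)).integrable
  have j2 : Integrable fun z => κ z * (2 * ((ε ^ 2 : ℝ) : ℂ) * (hess q z).det /
      ((q z + ε ^ 2 : ℝ) : ℂ) ^ 3) := by
    simp only [div_eq_mul_inv]
    exact (hκ.mul fun z hz => (contDiffAt_const.mul (h.sm_det hz)).mul (sden z hz)).integrable
  rw [← integral_add j1 j2]
  refine integral_congr_ae (Eventually.of_forall fun z => ?_)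
  by_cases hz : z ∈ Metric.ball p r
  · show _ = κ z * pd (hess (Ld q (ε ^ 2)) z) (hess (Ld q (ε ^ 2)) z)
    rw [pd_Ld (h.sm z hz) (h.qd_pos hz hδ), mul_add]
  · show _ + _ = κ z * _
    rw [hκ.zero_off hz]
    ring

/-- no residue for `Λ W`, `W` smooth closed -/
theorem res1 (h : Gd q p r c C) (hκ : CS (Metric.ball p r) κ) {W : Cn 2 → Matrix (Fin 2) (Fin 2) ℂ}
    (hW : ∀ z ∈ Metric.ball p r, Cl W z) :
    Integrable (fun z => (Ld q 0 z : ℂ) * pd (hs κ z) (W z)) ∧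
    Integrable (fun z => κ z * pd (hess (Ld q 0) z) (W z)) ∧
    ∫ z, (Ld q 0 z : ℂ) * pd (hs κ z) (W z) = ∫ z, κ z * pd (hess (Ld q 0) z) (W z) := by
  have hC := h.C0
  have hc := h.c0
  have cW : CS (Metric.ball p r) (fun z => pd (hs κ z) (W z)) := cs_pd hκ fun z hz => (hW z hz).sm
  have cκW : ∀ a b, CS (Metric.ball p r) (fun z => κ z * W z a b) := fun a b =>
    hκ.mul fun z hz => (hW z hz).sm a b
  obtain ⟨K1, hK1, hb1⟩ := cs_bdd cW
  have hK2 : ∃ K > 0, ∀ z a b, ‖κ z * W z a b‖ ≤ K := by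
    have h := fun ab : Fin 2 × Fin 2 => cs_bdd (cκW ab.1 ab.2)
    choose K hK hb using h
    refine ⟨∑ ab, K ab, Finset.sum_pos (fun ab _ => hK ab) Finset.univ_nonempty, fun z a b => ?_⟩
    exact (hb (a, b) z).trans (Finset.single_le_sum (f := K) (fun ab _ => (hK ab).le)
      (Finset.mem_univ (a, b)))
  obtain ⟨K2, hK2, hb2⟩ := hK2
  have A := dct (p := p) (r := r) (K := (C + 2 / √c) * K1)
    (F := fun δ z => (Ld q δ z : ℂ) * pd (hs κ z) (W z))
    (f := fun z => (Ld q 0 z : ℂ) * pd (hs κ z) (W z)) (by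
      filter_upwards [self_mem_nhdsWithin] with δ hδ
      exact (CS.mul' (fun z hz => contDiffAt_cu (sm_Ld (h.sm z hz)
        (h.qd_pos hz hδ))) cW).sm.continuous.aestronglyMeasurable) (by
      filter_upwards [ev01] with δ hδ z hzp
      by_cases hz : z ∈ Metric.ball p r
      · have hw := wpos hzp
        have hw1 := h.wle hz
        rw [dom_of_mem hz, norm_mul, norm_real]
        have e1 := h.Ld_le hz hzp hδ.1.le hδ.2
        have e3 : ‖z - p‖⁻¹ ≤ (‖z - p‖ ^ 3)⁻¹ :=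
          inv_anti₀ (by positivity) (by
            calc ‖z - p‖ ^ 3 ≤ ‖z - p‖ ^ 1 := pow_le_pow_of_le_one hw.le hw1 (by norm_num)
              _ = _ := pow_one _)
        calc ‖Ld q δ z‖ * ‖pd (hs κ z) (W z)‖ ≤ ((C + 2 / √c) * ‖z - p‖⁻¹) * K1 :=
              mul_le_mul e1 (hb1 z) (norm_nonneg _) (by positivity)
          _ ≤ ((C + 2 / √c) * (‖z - p‖ ^ 3)⁻¹) * K1 := by gcongr
          _ = _ := by ring
      · rw [cW.zero_off hz, mul_zero, norm_zero]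
        exact mul_nonneg (by positivity) (dom_nonneg _ _ _)) (by
      intro z hzp
      by_cases hz : z ∈ Metric.ball p r
      · exact ((Complex.continuous_ofReal.tendsto _).comp (h.tendsto_Ld hz hzp)).mul
          tendsto_const_nhds
      · simp only [cW.zero_off hz, mul_zero]
        exact tendsto_const_nhds)
  have hpd : ∀ (X : Matrix (Fin 2) (Fin 2) ℂ) z, κ z * pd X (W z) = pd X (κ z • W z) := by
    intro X z
    rw [pd_smul]
  have B := dct (p := p) (r := r) (K := 4 * ((C / c + C ^ 2 / c ^ 2) * K2))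
    (F := fun δ z => κ z * pd (hess (Ld q δ) z) (W z))
    (f := fun z => κ z * pd (hess (Ld q 0) z) (W z)) (by
      filter_upwards [self_mem_nhdsWithin] with δ hδ
      have : CS (Metric.ball p r) (fun z => κ z * pd (hess (Ld q δ) z) (W z)) := by
        refine hκ.mul fun z hz => ?_
        have s1 := h.sm_hess_Ld hδ hz
        have s2 := (hW z hz).sm
        exact ((((s1 0 0).mul (s2 1 1)).add ((s1 1 1).mul (s2 0 0))).sub
          ((s1 0 1).mul (s2 1 0))).sub ((s1 1 0).mul (s2 0 1))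
      exact this.sm.continuous.aestronglyMeasurable) (by
      filter_upwards [ev01] with δ hδ z hzp
      by_cases hz : z ∈ Metric.ball p r
      · have hw := wpos hzp
        have hw1 := h.wle hz
        rw [dom_of_mem hz, hpd]
        have e3 : (‖z - p‖ ^ 2)⁻¹ ≤ (‖z - p‖ ^ 3)⁻¹ :=
          inv_anti₀ (by positivity) (pow_le_pow_of_le_one hw.le hw1 (by norm_num))
        calc ‖pd (hess (Ld q δ) z) (κ z • W z)‖
            ≤ 4 * (((C / c + C ^ 2 / c ^ 2) * (‖z - p‖ ^ 2)⁻¹) * K2) :=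
              norm_pd_le (fun a b => h.hess_le hz hzp hδ.1.le a b) (fun a b => hb2 z a b)
          _ ≤ 4 * (((C / c + C ^ 2 / c ^ 2) * (‖z - p‖ ^ 3)⁻¹) * K2) := by gcongr
          _ = _ := by ring
      · rw [hκ.zero_off hz, zero_mul, norm_zero]
        exact mul_nonneg (by positivity) (dom_nonneg _ _ _)) (by
      intro z hzp
      by_cases hz : z ∈ Metric.ball p r
      · refine tendsto_const_nhds.mul ?_
        simp only [pd_comm _ (W z)]
        exact h.tendsto_pd hz hzp _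
      · simp only [hκ.zero_off hz, zero_mul]
        exact tendsto_const_nhds)
  refine ⟨A.2, B.2, tendsto_nhds_unique A.1 (B.1.congr' ?_)⟩
  filter_upwards [self_mem_nhdsWithin] with δ hδ
  have := parts_pd (a := cu (Ld q δ)) (W := W) hκ
      (fun z hz => contDiffAt_cu (sm_Ld (h.sm z hz) (h.qd_pos hz hδ))) hW
  simp only [hs_cu] at this
  exact this.symm

end Gd

end

end Crest.Agent.R257.Idx4_761
end

-- ▼ part R257/Idx5_761
section

/-!
# R257 (S0395), leaf GB-IDX, part 5 (helper761): forms without residue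

* `res0` : `∫ pd (hs κ) (hess Λ) = 0`
* `resT` : `∫ κ ddm Θ = ∫ pd (hs κ) Θ` for `Θ = f / q`, `f` smooth, `f = O(|z - p|^2)`
-/

set_option autoImplicit false
set_option linter.unusedSectionVars false

open Set Filter Topology Complex MeasureTheory Asymptotics
open scoped ContDiff Matrix ComplexConjugate ComplexOrder

namespace Crest.Agent.R257.Idx5_761

open Crest.Agent.R275.Geo Crest.Agent.R275.EDR890 Crest.Agent.R273.Calc_243
open Crest.Agent.R273.Hess_333 Crest.Agent.R273.HessB_333 Crest.Agent.R273.BochD_101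
open Crest.Agent.R257.C2F1_625 Crest.Agent.R257.C2F2_625
open Crest.Agent.R257.Idx1_761 Crest.Agent.R257.Idx2_761
open Crest.Agent.R257.Idx3_761 Crest.Agent.R257.Idx3_761.NZ Crest.Agent.R257.Idx4_761

noncomputable section

variable {q : Cn 2 → ℝ} {p : Cn 2} {r c C : ℝ} {κ : Cn 2 → ℂ}

/-- no residue for `hess Λ` -/
theorem res0 (h : Gd q p r c C) (hκ : CS (Metric.ball p r) κ) :
    Integrable (fun z => pd (hs κ z) (hess (Ld q 0) z)) ∧
    ∫ z, pd (hs κ z) (hess (Ld q 0) z) = 0 := by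
  have hC := h.C0
  have hc := h.c0
  obtain ⟨Kκ, hKκ, hκb⟩ := cs_hs_bdd hκ
  have A := dct (p := p) (r := r) (K := 4 * (Kκ * (C / c + C ^ 2 / c ^ 2)))
    (F := fun δ z => pd (hs κ z) (hess (Ld q δ) z))
    (f := fun z => pd (hs κ z) (hess (Ld q 0) z)) (by
      filter_upwards [self_mem_nhdsWithin] with δ hδ
      exact (cs_pd hκ fun z hz => h.sm_hess_Ld hδ hz).sm.continuous.aestronglyMeasurable) (by
      filter_upwards [Gd.ev01] with δ hδ z hzp
      by_cases hz : z ∈ Metric.ball p r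
      · have hw := Gd.wpos hzp
        have hw1 := h.wle hz
        rw [dom_of_mem hz]
        have e3 : (‖z - p‖ ^ 2)⁻¹ ≤ (‖z - p‖ ^ 3)⁻¹ :=
          inv_anti₀ (by positivity) (pow_le_pow_of_le_one hw.le hw1 (by norm_num))
        calc ‖pd (hs κ z) (hess (Ld q δ) z)‖
            ≤ 4 * (Kκ * ((C / c + C ^ 2 / c ^ 2) * (‖z - p‖ ^ 2)⁻¹)) :=
              norm_pd_le (hκb z) (fun a b => h.hess_le hz hzp hδ.1.le a b)
          _ ≤ 4 * (Kκ * ((C / c + C ^ 2 / c ^ 2) * (‖z - p‖ ^ 3)⁻¹)) := by gcongr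
          _ = _ := by ring
      · rw [(cs_pd hκ fun z hz => h.sm_hess_Ld hδ.1 hz).zero_off hz, norm_zero]
        exact mul_nonneg (by positivity) (dom_nonneg _ _ _)) (by
      intro z hzp
      by_cases hz : z ∈ Metric.ball p r
      · exact h.tendsto_pd hz hzp _
      · have : hs κ z = 0 := by
          ext a b
          exact (cs_hs hκ a b).zero_off hz
        simp only [this, pd, Matrix.zero_apply, zero_mul, add_zero, sub_zero]
        exact tendsto_const_nhds)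
  refine ⟨A.2, tendsto_nhds_unique A.1 (tendsto_const_nhds.congr' ?_)⟩
  filter_upwards [self_mem_nhdsWithin] with δ hδ
  have e := parts_pd (a := fun _ => (1 : ℂ)) (W := hess (Ld q δ)) hκ
      (fun z _ => contDiffAt_const) (fun z hz => h.cl_hess_Ld hδ hz)
  have h1 : ∀ z, hs (fun _ : Cn 2 => (1 : ℂ)) z = 0 := by
    intro z
    ext a b
    rw [hs_apply]
    have : dS I b (fun _ : Cn 2 => (1 : ℂ)) = fun _ => 0 := by
      funext y; exact dS_const
    rw [this]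
    exact dS_const
  simp only [one_mul, h1, pd, Matrix.zero_apply, zero_mul, add_zero, sub_zero, mul_zero,
    integral_zero] at e
  exact e.symm

/-- `f / (q + δ)` -/
def Th (q : Cn 2 → ℝ) (f : Cn 2 → ℂ) (δ : ℝ) (z : Cn 2) : ℂ := f z * (((q z + δ : ℝ) : ℂ))⁻¹

theorem dS_inv {n : ℕ} {f : Cn n → ℂ} {z : Cn n} (hf : DifferentiableAt ℝ f z) (h0 : f z ≠ 0)
    (s : ℂ) (a : Fin n) : dS s a (fun y => (f y)⁻¹) z = - dS s a f z * ((f z)⁻¹) ^ 2 := by
  have h1 : (fun y => f y * (f y)⁻¹) =ᶠ[𝓝 z] fun _ => (1 : ℂ) := by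
    filter_upwards [hf.continuousAt.eventually_ne h0] with y hy
    exact mul_inv_cancel₀ hy
  have h2 := dS_congr (s := s) (a := a) h1
  rw [dS_const, dS_mul (g := fun y => (f y)⁻¹) hf (hf.inv h0)] at h2
  have h3 : f z * dS s a (fun y => (f y)⁻¹) z = - (dS s a f z * (f z)⁻¹) := by
    linear_combination h2
  field_simp
  field_simp at h3
  linear_combination h3

theorem dS_pow2 {n : ℕ} {f : Cn n → ℂ} {z : Cn n} (hf : DifferentiableAt ℝ f z)
    (s : ℂ) (a : Fin n) : dS s a (fun y => (f y) ^ 2) z = 2 * f z * dS s a f z := by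
  have : (fun y => (f y) ^ 2) = fun y => f y * f y := by funext y; ring
  rw [this, dS_mul hf hf]
  ring

theorem sm_qd {δ : ℝ} {z : Cn 2} (hq : ContDiffAt ℝ ∞ q z) (h0 : 0 < q z + δ) :
    Sm z (fun y => (((q y + δ : ℝ) : ℂ))⁻¹) := by
  have hq' : Sm z (fun y => ((q y + δ : ℝ) : ℂ)) := contDiffAt_cu (hq.add contDiffAt_const)
  exact hq'.inv (by exact_mod_cast h0.ne')

theorem sm_Th {f : Cn 2 → ℂ} {δ : ℝ} {z : Cn 2} (hf : Sm z f) (hq : ContDiffAt ℝ ∞ q z)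
    (h0 : 0 < q z + δ) : Sm z (Th q f δ) := hf.mul (sm_qd hq h0)

theorem dS_qd {δ : ℝ} {z : Cn 2} (hq : ContDiffAt ℝ ∞ q z) (h0 : 0 < q z + δ) (s : ℂ) (a : Fin 2) :
    dS s a (fun y => (((q y + δ : ℝ) : ℂ))⁻¹) z =
      - dS s a (cu q) z * ((((q z + δ : ℝ) : ℂ))⁻¹) ^ 2 := by
  have hq' : Sm z (fun y => ((q y + δ : ℝ) : ℂ)) := contDiffAt_cu (hq.add contDiffAt_const)
  rw [dS_inv hq'.diff (by exact_mod_cast h0.ne')]
  congr 2
  exact congrFun (dS_cu_add q δ s a) z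

/-- first derivative of a quotient by `q + δ` -/
theorem dS_Th {f : Cn 2 → ℂ} {δ : ℝ} {z : Cn 2} (hf : Sm z f) (hq : ContDiffAt ℝ ∞ q z)
    (h0 : 0 < q z + δ) (s : ℂ) (a : Fin 2) :
    dS s a (Th q f δ) z = dS s a f z * (((q z + δ : ℝ) : ℂ))⁻¹
      - f z * (dS s a (cu q) z * ((((q z + δ : ℝ) : ℂ))⁻¹) ^ 2) := by
  have : Th q f δ = fun y => f y * (((q y + δ : ℝ) : ℂ))⁻¹ := rfl
  rw [this, dS_mul hf.diff (sm_qd hq h0).diff, dS_qd hq h0]
  ring

/-- second derivative of a quotient by `q + δ` -/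
def E2 (q : Cn 2 → ℝ) (f : Cn 2 → ℂ) (a b : Fin 2) (δ : ℝ) (z : Cn 2) : ℂ :=
  dS (-I) a (dS I b f) z * (((q z + δ : ℝ) : ℂ))⁻¹
    - (dS I b f z * dS (-I) a (cu q) z + dS (-I) a f z * dS I b (cu q) z + f z * hess q z a b) *
      ((((q z + δ : ℝ) : ℂ))⁻¹) ^ 2
    + 2 * f z * dS I b (cu q) z * dS (-I) a (cu q) z * ((((q z + δ : ℝ) : ℂ))⁻¹) ^ 3

theorem dS2_Th {f : Cn 2 → ℂ} {δ : ℝ} {z : Cn 2} (hf : ∀ᶠ y in 𝓝 z, Sm y f)
    (hq : ∀ᶠ y in 𝓝 z, ContDiffAt ℝ ∞ q y) (h0 : ∀ᶠ y in 𝓝 z, 0 < q y + δ) (a b : Fin 2) :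
    dS (-I) a (dS I b (Th q f δ)) z = E2 q f a b δ z := by
  have e1 : dS I b (Th q f δ) =ᶠ[𝓝 z] fun y => dS I b f y * (((q y + δ : ℝ) : ℂ))⁻¹
      - f y * (dS I b (cu q) y * ((((q y + δ : ℝ) : ℂ))⁻¹) ^ 2) := by
    filter_upwards [hf, hq, h0] with y h1 h2 h3
    exact dS_Th h1 h2 h3 I b
  have sf := hf.self_of_nhds
  have sq := hq.self_of_nhds
  have s0 := h0.self_of_nhds
  have cq : Sm z (cu q) := contDiffAt_cu sq
  have sI := sm_qd sq s0
  have sI2 : Sm z (fun y => ((((q y + δ : ℝ) : ℂ))⁻¹) ^ 2) := sI.pow 2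
  have d1 : Sm z (fun y => dS I b f y * (((q y + δ : ℝ) : ℂ))⁻¹) := (sf.dS I b).mul sI
  have d2 : Sm z (fun y => dS I b (cu q) y * ((((q y + δ : ℝ) : ℂ))⁻¹) ^ 2) := (cq.dS I b).mul sI2
  have d3 : Sm z (fun y => f y * (dS I b (cu q) y * ((((q y + δ : ℝ) : ℂ))⁻¹) ^ 2)) := sf.mul d2
  rw [dS_congr e1, dS_sub d1.diff d3.diff, dS_mul (sf.dS I b).diff sI.diff, dS_mul sf.diff d2.diff,
    dS_mul (cq.dS I b).diff sI2.diff, dS_pow2 sI.diff, dS_qd sq s0, E2, hess_eq]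
  ring

/-- bounds for a smooth function vanishing to second order -/
structure FB (f : Cn 2 → ℂ) (p : Cn 2) (r K : ℝ) : Prop where
  K0 : 0 < K
  sm : ∀ z ∈ Metric.ball p r, Sm z f
  b0 : ∀ z ∈ Metric.ball p r, ‖f z‖ ≤ K * ‖z - p‖ ^ 2
  b1 : ∀ z ∈ Metric.ball p r, ∀ a, ‖dS (-I) a f z‖ ≤ K * ‖z - p‖
  b1' : ∀ z ∈ Metric.ball p r, ∀ a, ‖dS I a f z‖ ≤ K * ‖z - p‖
  b2 : ∀ z ∈ Metric.ball p r, ∀ a b, ‖dS (-I) a (dS I b f) z‖ ≤ K

theorem FB.mono {f : Cn 2 → ℂ} {r' K : ℝ} (h : FB f p r K) (hr : r' ≤ r) : FB f p r' K := by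
  have hs : Metric.ball p r' ⊆ Metric.ball p r := Metric.ball_subset_ball hr
  exact ⟨h.K0, fun z hz => h.sm z (hs hz), fun z hz => h.b0 z (hs hz), fun z hz => h.b1 z (hs hz),
    fun z hz => h.b1' z (hs hz), fun z hz => h.b2 z (hs hz)⟩

theorem exists_FB {f : Cn 2 → ℂ} (hf : ∀ᶠ z in 𝓝 p, Sm z f) (h2 : Oo p 2 f) :
    ∃ r > 0, ∃ K, FB f p r K := by
  have sf := hf.self_of_nhds
  have hf0 : f p = 0 := by
    obtain ⟨C, hC⟩ := IsBigO.bound h2
    have := hC.self_of_nhds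
    simpa using this
  have hfd : fderiv ℝ f p = 0 := by
    have h3 : f =o[𝓝 p] fun z => z - p := by
      refine IsBigO.trans_isLittleO h2 ?_
      have h4 : (fun z : Cn 2 => ‖z - p‖ ^ 2) = fun z => ‖z - p‖ * ‖z - p‖ := by
        funext z; ring
      rw [h4]
      have h5 : (fun z : Cn 2 => ‖z - p‖ * ‖z - p‖) =o[𝓝 p] fun z => (1:ℝ) * ‖z - p‖ := by
        refine IsLittleO.mul_isBigO ?_ (isBigO_refl _ _)
        refine (isLittleO_one_iff ℝ).2 ?_
        have : Tendsto (fun z : Cn 2 => ‖z - p‖) (𝓝 p) (𝓝 ‖p - p‖) :=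
          (continuous_id.sub continuous_const).norm.tendsto p
        rwa [sub_self, norm_zero] at this
      simp only [one_mul] at h5
      exact h5.of_norm_right
    have h6 : HasFDerivAt f (0 : Cn 2 →L[ℝ] ℂ) p := by
      rw [hasFDerivAt_iff_isLittleO]
      simpa [hf0] using h3
    exact h6.fderiv
  have z1 : ∀ s a, dS s a f p = 0 := fun s a => by simp [dS, hfd]
  obtain ⟨C1, hC1, e1⟩ := Oo.exs (ι := Unit) (f := fun _ => f) (fun _ => h2)
  obtain ⟨C2, hC2, e2⟩ := Oo.exs (f := fun a => dS (-I) a f) (fun a =>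
    Oo.of_diff (sf.dS (-I) a).diff (z1 _ _))
  obtain ⟨C3, hC3, e3⟩ := Oo.exs (f := fun a => dS I a f) (fun a =>
    Oo.of_diff (sf.dS I a).diff (z1 _ _))
  obtain ⟨C4, hC4, e4⟩ := Oo.exs (ι := Fin 2 × Fin 2) (p := p) (k := 0)
    (f := fun ab => dS (-I) ab.1 (dS I ab.2 f)) (fun ab =>
      Oo.of_cont ((sf.dS I ab.2).dS (-I) ab.1).continuousAt)
  obtain ⟨r, hr, hb⟩ := Metric.eventually_nhds_iff_ball.1 (((((e1.and e2).and e3).and e4)).and hf)
  set K := C1 + C2 + C3 + C4 with hK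
  refine ⟨r, hr, K, by positivity, fun z hz => (hb z hz).2, ?_, ?_, ?_, ?_⟩
  · intro z hz
    exact ((hb z hz).1.1.1.1 ()).trans (mul_le_mul_of_nonneg_right (by rw [hK]; linarith)
      (by positivity))
  · intro z hz a
    have := (hb z hz).1.1.1.2 a
    rw [pow_one] at this
    exact this.trans (mul_le_mul_of_nonneg_right (by rw [hK]; linarith) (norm_nonneg _))
  · intro z hz a
    have := (hb z hz).1.1.2 a
    rw [pow_one] at this
    exact this.trans (mul_le_mul_of_nonneg_right (by rw [hK]; linarith) (norm_nonneg _))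
  · intro z hz a b
    have := (hb z hz).1.2 (a, b)
    rw [pow_zero, mul_one] at this
    exact this.trans (by rw [hK]; linarith)

/-- bound of the second derivative -/
theorem E2_le (h : Gd q p r c C) {f : Cn 2 → ℂ} {K : ℝ} (hf : FB f p r K) {z : Cn 2}
    (hz : z ∈ Metric.ball p r) (hzp : z ≠ p) {δ : ℝ} (h0 : 0 ≤ δ) (a b : Fin 2) :
    ‖E2 q f a b δ z‖ ≤ (K / c + 3 * K * C / c ^ 2 + 2 * K * C ^ 2 / c ^ 3) * (‖z - p‖ ^ 2)⁻¹ := by
  have hw := Gd.wpos hzp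
  have hC := h.C0
  have hc := h.c0
  have hK := hf.K0
  have hx : c * ‖z - p‖ ^ 2 ≤ q z + δ := (h.lo z hz).trans (by linarith)
  have hcw : 0 < c * ‖z - p‖ ^ 2 := mul_pos h.c0 (pow_pos hw 2)
  have hx0 : 0 < q z + δ := lt_of_lt_of_le hcw hx
  set m := (((q z + δ : ℝ) : ℂ))⁻¹ with hm
  have hmn : ‖m‖ ≤ (c * ‖z - p‖ ^ 2)⁻¹ := by
    rw [hm, norm_inv, norm_real, Real.norm_of_nonneg hx0.le]
    exact inv_anti₀ hcw hx
  have g1 : ‖dS (-I) a (dS I b f) z * m‖ ≤ K * (c * ‖z - p‖ ^ 2)⁻¹ := by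
    rw [norm_mul]
    exact mul_le_mul (hf.b2 z hz a b) hmn (norm_nonneg _) hK.le
  have g2 : ‖(dS I b f z * dS (-I) a (cu q) z + dS (-I) a f z * dS I b (cu q) z
      + f z * hess q z a b) * m ^ 2‖ ≤ 3 * K * C * ‖z - p‖ ^ 2 * ((c * ‖z - p‖ ^ 2)⁻¹) ^ 2 := by
    rw [norm_mul, norm_pow]
    refine mul_le_mul ?_ (pow_le_pow_left₀ (norm_nonneg _) hmn 2) (by positivity) (by positivity)
    have t1 : ‖dS I b f z * dS (-I) a (cu q) z‖ ≤ (K * ‖z - p‖) * (C * ‖z - p‖) := by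
      rw [norm_mul]
      exact mul_le_mul (hf.b1' z hz b) (h.qa z hz a) (norm_nonneg _) (by positivity)
    have t2 : ‖dS (-I) a f z * dS I b (cu q) z‖ ≤ (K * ‖z - p‖) * (C * ‖z - p‖) := by
      rw [norm_mul]
      exact mul_le_mul (hf.b1 z hz a) (h.qb z hz b) (norm_nonneg _) (by positivity)
    have t3 : ‖f z * hess q z a b‖ ≤ (K * ‖z - p‖ ^ 2) * C := by
      rw [norm_mul]
      exact mul_le_mul (hf.b0 z hz) (h.Q z hz a b) (norm_nonneg _) (by positivity)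
    refine (norm_add_le _ _).trans ?_
    have t4 := norm_add_le (dS I b f z * dS (-I) a (cu q) z) (dS (-I) a f z * dS I b (cu q) z)
    nlinarith
  have g3 : ‖2 * f z * dS I b (cu q) z * dS (-I) a (cu q) z * m ^ 3‖ ≤
      2 * (K * ‖z - p‖ ^ 2) * (C * ‖z - p‖) * (C * ‖z - p‖) * ((c * ‖z - p‖ ^ 2)⁻¹) ^ 3 := by
    rw [norm_mul, norm_mul, norm_mul, norm_mul, norm_pow, Complex.norm_two]
    refine mul_le_mul ?_ (pow_le_pow_left₀ (norm_nonneg _) hmn 3) (by positivity) (by positivity)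
    refine mul_le_mul ?_ (h.qa z hz a) (norm_nonneg _) (by positivity)
    refine mul_le_mul ?_ (h.qb z hz b) (norm_nonneg _) (by positivity)
    exact mul_le_mul_of_nonneg_left (hf.b0 z hz) (by norm_num)
  have e : E2 q f a b δ z = dS (-I) a (dS I b f) z * m -
      (dS I b f z * dS (-I) a (cu q) z + dS (-I) a f z * dS I b (cu q) z
      + f z * hess q z a b) * m ^ 2 + 2 * f z * dS I b (cu q) z * dS (-I) a (cu q) z * m ^ 3 := rfl
  rw [e]
  refine (norm_add_le _ _).trans ((add_le_add ((norm_sub_le _ _).trans (add_le_add g1 g2)) g3).trans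
    (le_of_eq ?_))
  have := hw.ne'
  have := hc.ne'
  field_simp

theorem Th_le (h : Gd q p r c C) {f : Cn 2 → ℂ} {K : ℝ} (hf : FB f p r K) {z : Cn 2}
    (hz : z ∈ Metric.ball p r) (hzp : z ≠ p) {δ : ℝ} (h0 : 0 ≤ δ) :
    ‖Th q f δ z‖ ≤ K / c := by
  have hw := Gd.wpos hzp
  have hc := h.c0
  have hK := hf.K0
  have hx : c * ‖z - p‖ ^ 2 ≤ q z + δ := (h.lo z hz).trans (by linarith)
  have hcw : 0 < c * ‖z - p‖ ^ 2 := mul_pos h.c0 (pow_pos hw 2)
  have hx0 : 0 < q z + δ := lt_of_lt_of_le hcw hx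
  rw [Th, norm_mul, norm_inv, norm_real, Real.norm_of_nonneg hx0.le]
  calc ‖f z‖ * (q z + δ)⁻¹ ≤ (K * ‖z - p‖ ^ 2) * (c * ‖z - p‖ ^ 2)⁻¹ :=
        mul_le_mul (hf.b0 z hz) (inv_anti₀ hcw hx) (by positivity) (by positivity)
    _ = _ := by field_simp

theorem tendsto_m (h : Gd q p r c C) {z : Cn 2} (hz : z ∈ Metric.ball p r) (hzp : z ≠ p) :
    Tendsto (fun δ : ℝ => (((q z + δ : ℝ) : ℂ))⁻¹) (𝓝[>] 0) (𝓝 ((((q z + 0 : ℝ) : ℂ))⁻¹)) := by
  have h0 := h.q_pos hz hzp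
  have h1 : Tendsto (fun δ : ℝ => ((q z + δ : ℝ) : ℂ)) (𝓝[>] 0) (𝓝 ((q z + 0 : ℝ) : ℂ)) :=
    (Complex.continuous_ofReal.tendsto _).comp
      ((tendsto_const_nhds.add tendsto_id).mono_left nhdsWithin_le_nhds)
  exact h1.inv₀ (by rw [add_zero]; exact_mod_cast h0.ne')

theorem tendsto_E2 (h : Gd q p r c C) (f : Cn 2 → ℂ) {z : Cn 2} (hz : z ∈ Metric.ball p r)
    (hzp : z ≠ p) (a b : Fin 2) :
    Tendsto (fun δ => E2 q f a b δ z) (𝓝[>] 0) (𝓝 (E2 q f a b 0 z)) := by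
  have hm := tendsto_m h hz hzp
  exact ((tendsto_const_nhds.mul hm).sub (tendsto_const_nhds.mul (hm.pow 2))).add
    (tendsto_const_nhds.mul (hm.pow 3))

/-- the matrix version of `Th` -/
def TM (q : Cn 2 → ℝ) (f : Cn 2 → Matrix (Fin 2) (Fin 2) ℂ) (δ : ℝ) (z : Cn 2) :
    Matrix (Fin 2) (Fin 2) ℂ := Matrix.of fun a b => Th q (fun y => f y a b) δ z

/-- `ddm` of `f / (q + δ)` in terms of `E2` -/
def DE (q : Cn 2 → ℝ) (f : Cn 2 → Matrix (Fin 2) (Fin 2) ℂ) (δ : ℝ) (z : Cn 2) : ℂ :=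
  E2 q (fun y => f y 1 1) 0 0 δ z + E2 q (fun y => f y 0 0) 1 1 δ z
    - E2 q (fun y => f y 1 0) 0 1 δ z - E2 q (fun y => f y 0 1) 1 0 δ z

theorem ddm_TM {f : Cn 2 → Matrix (Fin 2) (Fin 2) ℂ} {δ : ℝ} {z : Cn 2}
    (hf : ∀ a b, ∀ᶠ y in 𝓝 z, Sm y (fun y => f y a b))
    (hq : ∀ᶠ y in 𝓝 z, ContDiffAt ℝ ∞ q y) (h0 : ∀ᶠ y in 𝓝 z, 0 < q y + δ) :
    ddm (TM q f δ) z = DE q f δ z := by
  have e := fun a b i j => dS2_Th (δ := δ) (hf i j) hq h0 a b
  have e' : ∀ i j, (fun y => TM q f δ y i j) = Th q (fun y => f y i j) δ := fun i j => rfl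
  unfold ddm DE
  rw [e', e', e', e', e, e, e, e]

/-- no residue for a bounded form `f / q` -/
theorem resT (h : Gd q p r c C) (hκ : CS (Metric.ball p r) κ)
    {f : Cn 2 → Matrix (Fin 2) (Fin 2) ℂ} {K : ℝ} (hf : ∀ a b, FB (fun y => f y a b) p r K) :
    Integrable (fun z => κ z * ddm (TM q f 0) z) ∧
    Integrable (fun z => pd (hs κ z) (TM q f 0 z)) ∧
    ∫ z, κ z * ddm (TM q f 0) z = ∫ z, pd (hs κ z) (TM q f 0 z) := by
  have hC := h.C0
  have hc := h.c0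
  have hK := (hf 0 0).K0
  obtain ⟨Kκ, hKκ, hκb⟩ := cs_bdd hκ
  obtain ⟨Kh, hKh, hhb⟩ := cs_hs_bdd hκ
  have hev : ∀ z ∈ Metric.ball p r, ∀ᶠ y in 𝓝 z, y ∈ Metric.ball p r := fun z hz =>
    Metric.isOpen_ball.mem_nhds hz
  have sT : ∀ δ, 0 < δ → ∀ z ∈ Metric.ball p r, SmM z (TM q f δ) := fun δ hδ z hz a b =>
    sm_Th ((hf a b).sm z hz) (h.sm z hz) (h.qd_pos hz hδ)
  have dT : ∀ δ, 0 < δ → ∀ z ∈ Metric.ball p r, ddm (TM q f δ) z = DE q f δ z := by
    intro δ hδ z hz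
    refine ddm_TM (fun a b => ?_) ?_ ?_
    · filter_upwards [hev z hz] with y hy using (hf a b).sm y hy
    · filter_upwards [hev z hz] with y hy using h.sm y hy
    · filter_upwards [hev z hz] with y hy using h.qd_pos hy hδ
  have dT0 : ∀ z ∈ Metric.ball p r, z ≠ p → ddm (TM q f 0) z = DE q f 0 z := by
    intro z hz hzp
    refine ddm_TM (fun a b => ?_) ?_ ?_
    · filter_upwards [hev z hz] with y hy using (hf a b).sm y hy
    · filter_upwards [hev z hz] with y hy using h.sm y hy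
    · filter_upwards [hev z hz, isOpen_ne.mem_nhds hzp] with y hy hy2
      rw [add_zero]
      exact h.q_pos hy hy2
  set K2 := K / c + 3 * K * C / c ^ 2 + 2 * K * C ^ 2 / c ^ 3 with hK2
  have hK2p : 0 < K2 := by positivity
  have hDE : ∀ δ, 0 ≤ δ → ∀ z ∈ Metric.ball p r, z ≠ p →
      ‖DE q f δ z‖ ≤ 4 * K2 * (‖z - p‖ ^ 2)⁻¹ := by
    intro δ hδ z hz hzp
    have t := fun a b i j => E2_le h (hf i j) hz hzp hδ a b
    unfold DE
    calc _ ≤ ‖E2 q (fun y => f y 1 1) 0 0 δ z‖ + ‖E2 q (fun y => f y 0 0) 1 1 δ z‖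
          + ‖E2 q (fun y => f y 1 0) 0 1 δ z‖ + ‖E2 q (fun y => f y 0 1) 1 0 δ z‖ :=
        (norm_sub_le _ _).trans (add_le_add_left ((norm_sub_le _ _).trans
          (add_le_add_left (norm_add_le _ _) _)) _)
      _ ≤ _ := by linarith [t 0 0 1 1, t 1 1 0 0, t 0 1 1 0, t 1 0 0 1]
  have A := dct (p := p) (r := r) (K := Kκ * (4 * K2))
    (F := fun δ z => κ z * ddm (TM q f δ) z)
    (f := fun z => κ z * ddm (TM q f 0) z) (by
      filter_upwards [self_mem_nhdsWithin] with δ hδ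
      have : CS (Metric.ball p r) (fun z => κ z * ddm (TM q f δ) z) := by
        refine hκ.mul fun z hz => ?_
        have s := fun s t a b i j => ((sT δ hδ z hz i j).dS t b).dS s a
        exact (((s (-I) I 0 0 1 1).add (s (-I) I 1 1 0 0)).sub (s (-I) I 0 1 1 0)).sub
          (s (-I) I 1 0 0 1)
      exact this.sm.continuous.aestronglyMeasurable) (by
      filter_upwards [Gd.ev01] with δ hδ z hzp
      by_cases hz : z ∈ Metric.ball p r
      · have hw := Gd.wpos hzp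
        have hw1 := h.wle hz
        rw [dom_of_mem hz, norm_mul, dT δ hδ.1 z hz]
        have e3 : (‖z - p‖ ^ 2)⁻¹ ≤ (‖z - p‖ ^ 3)⁻¹ :=
          inv_anti₀ (by positivity) (pow_le_pow_of_le_one hw.le hw1 (by norm_num))
        calc ‖κ z‖ * ‖DE q f δ z‖ ≤ Kκ * (4 * K2 * (‖z - p‖ ^ 2)⁻¹) :=
              mul_le_mul (hκb z) (hDE δ hδ.1.le z hz hzp) (norm_nonneg _) hKκ.le
          _ ≤ Kκ * (4 * K2 * (‖z - p‖ ^ 3)⁻¹) := by gcongr
          _ = _ := by ring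
      · rw [hκ.zero_off hz, zero_mul, norm_zero]
        exact mul_nonneg (by positivity) (dom_nonneg _ _ _)) (by
      intro z hzp
      by_cases hz : z ∈ Metric.ball p r
      · rw [dT0 z hz hzp]
        have t := fun a b i j => tendsto_E2 h (fun y => f y i j) hz hzp a b
        have t2 : Tendsto (fun δ => κ z * DE q f δ z) (𝓝[>] 0) (𝓝 (κ z * DE q f 0 z)) :=
          tendsto_const_nhds.mul ((((t 0 0 1 1).add (t 1 1 0 0)).sub (t 0 1 1 0)).sub (t 1 0 0 1))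
        refine t2.congr' ?_
        filter_upwards [self_mem_nhdsWithin] with δ hδ
        rw [dT δ hδ z hz]
      · simp only [hκ.zero_off hz, zero_mul]
        exact tendsto_const_nhds)
  have B := dct (p := p) (r := r) (K := 4 * (Kh * (K / c)))
    (F := fun δ z => pd (hs κ z) (TM q f δ z))
    (f := fun z => pd (hs κ z) (TM q f 0 z)) (by
      filter_upwards [self_mem_nhdsWithin] with δ hδ
      exact (cs_pd hκ (sT δ hδ)).sm.continuous.aestronglyMeasurable) (by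
      filter_upwards [Gd.ev01] with δ hδ z hzp
      by_cases hz : z ∈ Metric.ball p r
      · have hw := Gd.wpos hzp
        have hw1 := h.wle hz
        rw [dom_of_mem hz]
        have e3 : 1 ≤ (‖z - p‖ ^ 3)⁻¹ :=
          (one_le_inv₀ (by positivity)).2 (pow_le_one₀ hw.le hw1)
        calc ‖pd (hs κ z) (TM q f δ z)‖ ≤ 4 * (Kh * (K / c)) :=
              norm_pd_le (hhb z) (fun a b => Th_le h (hf a b) hz hzp hδ.1.le)
          _ ≤ _ := le_mul_of_one_le_right (by positivity) e3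
      · rw [(cs_pd hκ (sT δ hδ.1)).zero_off hz, norm_zero]
        exact mul_nonneg (by positivity) (dom_nonneg _ _ _)) (by
      intro z hzp
      by_cases hz : z ∈ Metric.ball p r
      · have hm := tendsto_m h hz hzp
        have t : ∀ a b, Tendsto (fun δ => TM q f δ z a b) (𝓝[>] 0) (𝓝 (TM q f 0 z a b)) :=
          fun a b => tendsto_const_nhds.mul hm
        unfold pd
        exact (((tendsto_const_nhds.mul (t 1 1)).add (tendsto_const_nhds.mul (t 0 0))).sub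
          (tendsto_const_nhds.mul (t 1 0))).sub (tendsto_const_nhds.mul (t 0 1))
      · have : hs κ z = 0 := by
          ext a b
          exact (cs_hs hκ a b).zero_off hz
        simp only [this, pd, Matrix.zero_apply, zero_mul, add_zero, sub_zero]
        exact tendsto_const_nhds)
  refine ⟨A.2, B.2, tendsto_nhds_unique A.1 (B.1.congr' ?_)⟩
  filter_upwards [self_mem_nhdsWithin] with δ hδ
  exact (parts_ddm hκ (sT δ hδ)).symm

end

end Crest.Agent.R257.Idx5_761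
end

-- ▼ part R257/Idx6_761
section

/-!
# R257 (S0395), leaf GB-IDX, part 6 (helper761): **local index formula**

`ND H V p` : `H` (metric matrix) smooth and positive definite near `p`, `V` holomorphic near `p`
with a nondegenerate zero at `p`.
* `idx` : for `κ` smooth with compact support in a small ball around `p`
  `∫ κ c2(H) = ∫ pd (hs κ) (Λ (hess log det H - hess Λ) + bb H V) + π² κ(p)`, `Λ = log |V|²_H`
-/

set_option autoImplicit false
set_option linter.unusedSectionVars false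

open Set Filter Topology Complex MeasureTheory Asymptotics
open scoped ContDiff Matrix ComplexConjugate ComplexOrder

namespace Crest.Agent.R257.Idx6_761

open Crest.Agent.R275.Geo Crest.Agent.R275.EDR890 Crest.Agent.R273.Calc_243
open Crest.Agent.R273.Fock_243 Crest.Agent.R273.Bkn_243 Crest.Agent.R273.Pos_243
open Crest.Agent.R273.BochA_101 Crest.Agent.R273.BochB_101 Crest.Agent.R273.BochC_101
open Crest.Agent.R273.Hess_333 Crest.Agent.R273.HessB_333 Crest.Agent.R273.BochD_101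
open Crest.Agent.R257.C2F1_625 Crest.Agent.R257.C2F2_625
open Crest.Agent.R257.Idx1_761 Crest.Agent.R257.Idx2_761
open Crest.Agent.R257.Idx3_761 Crest.Agent.R257.Idx3_761.NZ Crest.Agent.R257.Idx4_761
open Crest.Agent.R257.Idx5_761

noncomputable section

/-- nondegenerate zero of a holomorphic section -/
structure ND (H : Cn 2 → Matrix (Fin 2) (Fin 2) ℂ) (V : Cn 2 → Fin 2 → ℂ) (p : Cn 2) : Prop where
  mH : ∀ᶠ y in 𝓝 p, SmM y H
  mP : ∀ᶠ y in 𝓝 p, (H y).PosDef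
  mV : ∀ i, ∀ᶠ y in 𝓝 p, DifferentiableAt ℂ (fun w => V w i) y
  v0 : V p = 0
  nd : (Matrix.of fun i a => dS (-I) a (fun w => V w i) p : Matrix (Fin 2) (Fin 2) ℂ).det ≠ 0

section hol

variable {n : ℕ} {p : Cn n} {v X : Cn n → ℂ}

theorem hol_sm (hv : ∀ᶠ y in 𝓝 p, DifferentiableAt ℂ v y) : ∀ᶠ y in 𝓝 p, Sm y v := by
  filter_upwards [hv.eventually_nhds] with y hy using sm_of_hol hy

theorem hol_dbar (hv : ∀ᶠ y in 𝓝 p, DifferentiableAt ℂ v y) (a : Fin n) :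
    ∀ᶠ y in 𝓝 p, dS I a v y = 0 := by
  filter_upwards [hv] with y hy
  exact wd_hol hy a

theorem sm_conj {z : Cn n} (hv : Sm z v) : Sm z (fun y => conj (v y)) :=
  Complex.conjCLE.contDiff.contDiffAt.comp z hv

/-- derivatives of `conj v * X` -/
theorem d1_cX (hv : ∀ᶠ y in 𝓝 p, DifferentiableAt ℂ v y) (hX : ∀ᶠ y in 𝓝 p, Sm y X) (a : Fin n) :
    dS (-I) a (fun y => conj (v y) * X y) =ᶠ[𝓝 p] fun y => conj (v y) * dS (-I) a X y := by
  filter_upwards [hol_sm hv, hol_dbar hv a, hX] with y h1 h2 h3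
  rw [dS_mul (sm_conj h1).diff h3.diff, dS_conj h1.diff, conjnI, h2, map_zero]
  ring

theorem d1_cX' (hv : ∀ᶠ y in 𝓝 p, DifferentiableAt ℂ v y) (hX : ∀ᶠ y in 𝓝 p, Sm y X) (a : Fin n) :
    dS I a (fun y => conj (v y) * X y) =ᶠ[𝓝 p] fun y =>
      conj (dS (-I) a v y) * X y + conj (v y) * dS I a X y := by
  filter_upwards [hol_sm hv, hX] with y h1 h3
  rw [dS_mul (sm_conj h1).diff h3.diff, dS_conj h1.diff, Complex.conj_I]

theorem cX1 (hv : ∀ᶠ y in 𝓝 p, DifferentiableAt ℂ v y) (hX : ∀ᶠ y in 𝓝 p, Sm y X) (h0 : v p = 0)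
    (a : Fin n) : dS (-I) a (fun y => conj (v y) * X y) p = 0 := by
  have h1 : dS (-I) a (fun y => conj (v y) * X y) p = conj (v p) * dS (-I) a X p :=
    (d1_cX hv hX a).self_of_nhds
  rw [h1, h0, map_zero, zero_mul]

theorem cX2 (hv : ∀ᶠ y in 𝓝 p, DifferentiableAt ℂ v y) (hX : ∀ᶠ y in 𝓝 p, Sm y X) (h0 : v p = 0)
    (a b : Fin n) : dS (-I) a (dS (-I) b (fun y => conj (v y) * X y)) p = 0 := by
  have sv := (hol_sm hv).self_of_nhds
  have sX := hX.self_of_nhds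
  rw [dS_congr (d1_cX hv hX b), dS_mul (sm_conj sv).diff (sX.dS _ _).diff, dS_conj sv.diff, conjnI,
    (hol_dbar hv a).self_of_nhds, h0]
  simp

theorem cX3 (hv : ∀ᶠ y in 𝓝 p, DifferentiableAt ℂ v y) (hX : ∀ᶠ y in 𝓝 p, Sm y X) (h0 : v p = 0)
    (hX0 : X p = 0) (a b : Fin n) : dS (-I) a (dS I b (fun y => conj (v y) * X y)) p =
      conj (dS (-I) b v p) * dS (-I) a X p := by
  have sv := (hol_sm hv).self_of_nhds
  have sX := hX.self_of_nhds
  have s1 : Sm p (fun y => conj (dS (-I) b v y)) := sm_conj (sv.dS _ _)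
  have s2 : Sm p (fun y => conj (dS (-I) b v y) * X y) := s1.mul sX
  have s3 : Sm p (fun y => conj (v y) * dS I b X y) := (sm_conj sv).mul (sX.dS _ _)
  rw [dS_congr (d1_cX' hv hX b), dS_add s2.diff s3.diff, dS_mul s1.diff sX.diff,
    dS_mul (sm_conj sv).diff (sX.dS _ _).diff, dS_conj sv.diff, conjnI,
    (hol_dbar hv a).self_of_nhds, h0, hX0]
  simp

end hol

variable {H : Cn 2 → Matrix (Fin 2) (Fin 2) ℂ} {V : Cn 2 → Fin 2 → ℂ} {p : Cn 2}

namespace ND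

/-- `X = H V` -/
def X (H : Cn 2 → Matrix (Fin 2) (Fin 2) ℂ) (V : Cn 2 → Fin 2 → ℂ) (i : Fin 2) (y : Cn 2) : ℂ :=
  H y i 0 * V y 0 + H y i 1 * V y 1

theorem smX (h : ND H V p) (i : Fin 2) : ∀ᶠ y in 𝓝 p, Sm y (X H V i) := by
  filter_upwards [h.mH, hol_sm (h.mV 0), hol_sm (h.mV 1)] with y h1 h2 h3
  exact ((h1 i 0).mul h2).add ((h1 i 1).mul h3)

theorem X0 (h : ND H V p) (i : Fin 2) : X H V i p = 0 := by
  simp [X, h.v0]

theorem hVc (H : Cn 2 → Matrix (Fin 2) (Fin 2) ℂ) (V : Cn 2 → Fin 2 → ℂ) (y : Cn 2) :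
    star (V y) ⬝ᵥ (H y *ᵥ V y) = conj (V y 0) * X H V 0 y + conj (V y 1) * X H V 1 y := by
  simp [dotProduct, Matrix.mulVec, Fin.sum_univ_two, X]

theorem cu_hV (h : ND H V p) : cu (hV H V) =ᶠ[𝓝 p] fun y =>
    conj (V y 0) * X H V 0 y + conj (V y 1) * X H V 1 y := by
  filter_upwards [h.mP] with y hy
  rw [← hVc]
  have h1 : 0 ≤ star (V y) ⬝ᵥ (H y *ᵥ V y) := hy.posSemidef.dotProduct_mulVec_nonneg _
  show (((star (V y) ⬝ᵥ (H y *ᵥ V y)).re : ℝ) : ℂ) = _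
  exact Complex.ext (by simp) (by simpa using (Complex.le_def.1 h1).2)

theorem dX (h : ND H V p) (i a : Fin 2) : dS (-I) a (X H V i) p =
    H p i 0 * dS (-I) a (fun w => V w 0) p + H p i 1 * dS (-I) a (fun w => V w 1) p := by
  have s0 := (hol_sm (h.mV 0)).self_of_nhds
  have s1 := (hol_sm (h.mV 1)).self_of_nhds
  have sH := h.mH.self_of_nhds
  have e : X H V i = fun y => H y i 0 * V y 0 + H y i 1 * V y 1 := rfl
  have d0 : DifferentiableAt ℝ (fun y => H y i 0 * V y 0) p := (sH i 0).diff.mul s0.diff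
  have d1 : DifferentiableAt ℝ (fun y => H y i 1 * V y 1) p := (sH i 1).diff.mul s1.diff
  rw [e, dS_add d0 d1, dS_mul (f := fun y => H y i 0) (sH i 0).diff s0.diff,
    dS_mul (f := fun y => H y i 1) (sH i 1).diff s1.diff, h.v0]
  simp

theorem sm_hV (h : ND H V p) : ∀ᶠ z in 𝓝 p, ContDiffAt ℝ ∞ (hV H V) z := by
  filter_upwards [h.mH, hol_sm (h.mV 0), hol_sm (h.mV 1)] with y h1 h2 h3
  have e : hV H V = fun y => (conj (V y 0) * X H V 0 y + conj (V y 1) * X H V 1 y).re := by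
    funext y
    rw [← hVc]
    rfl
  rw [e]
  have sX : ∀ i, Sm y (X H V i) := fun i => ((h1 i 0).mul h2).add ((h1 i 1).mul h3)
  exact Complex.reCLM.contDiff.contDiffAt.comp y
    (((sm_conj h2).mul (sX 0)).add ((sm_conj h3).mul (sX 1)))

/-- `|V|²_H` has a nondegenerate zero -/
theorem nz (h : ND H V p) : NZ (hV H V) p := by
  set J : Matrix (Fin 2) (Fin 2) ℂ := Matrix.of fun i a => dS (-I) a (fun w => V w i) p with hJ
  have f0 := h.smX 0
  have f1 := h.smX 1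
  have sv : ∀ i, Sm p (fun w => V w i) := fun i => (hol_sm (h.mV i)).self_of_nhds
  have e1 : ∀ i, ∀ᶠ y in 𝓝 p, Sm y (fun y => conj (V y i) * X H V i y) := by
    intro i
    filter_upwards [hol_sm (h.mV i), h.smX i] with y h1 h2
    exact (sm_conj h1).mul h2
  have add1 : ∀ s a, dS s a (cu (hV H V)) =ᶠ[𝓝 p] fun y =>
      dS s a (fun y => conj (V y 0) * X H V 0 y) y + dS s a (fun y => conj (V y 1) * X H V 1 y) y := by
    intro s a
    filter_upwards [h.cu_hV.eventually_nhds, e1 0, e1 1] with y h1 h2 h3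
    rw [dS_congr h1]
    exact dS_add h2.diff h3.diff
  have add2 : ∀ s a t b, dS t b (dS s a (cu (hV H V))) p =
      dS t b (dS s a (fun y => conj (V y 0) * X H V 0 y)) p +
      dS t b (dS s a (fun y => conj (V y 1) * X H V 1 y)) p := by
    intro s a t b
    rw [dS_congr (add1 s a)]
    exact dS_add ((e1 0).self_of_nhds.dS _ _).diff ((e1 1).self_of_nhds.dS _ _).diff
  have v0 : ∀ i, V p i = 0 := fun i => by rw [h.v0]; rfl
  have hG : hess (hV H V) p = (Jᴴ * H p * J)ᵀ := by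
    ext a b
    rw [hess_eq, add2, cX3 (h.mV 0) f0 (v0 0) (h.X0 0), cX3 (h.mV 1) f1 (v0 1) (h.X0 1), h.dX, h.dX]
    simp only [Matrix.transpose_apply, Matrix.mul_apply, Fin.sum_univ_two,
      Matrix.conjTranspose_apply, hJ, Matrix.of_apply, RCLike.star_def]
    ring
  refine ⟨h.sm_hV, ?_, ?_, ?_, ?_⟩
  · simp [hV, h.v0]
  · intro a
    rw [(add1 (-I) a).self_of_nhds]
    show dS (-I) a (fun y => conj (V y 0) * X H V 0 y) p +
      dS (-I) a (fun y => conj (V y 1) * X H V 1 y) p = 0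
    rw [cX1 (h.mV 0) f0 (v0 0), cX1 (h.mV 1) f1 (v0 1), add_zero]
  · intro a b
    rw [add2, cX2 (h.mV 0) f0 (v0 0), cX2 (h.mV 1) f1 (v0 1), add_zero]
  · rw [hG]
    exact (posDef_frame h.mP.self_of_nhds h.nd).transpose

/-- numerators of the curvature term -/
def ff (H : Cn 2 → Matrix (Fin 2) (Fin 2) ℂ) (V : Cn 2 → Fin 2 → ℂ) (y : Cn 2) :
    Matrix (Fin 2) (Fin 2) ℂ := Matrix.of fun c d => star (V y) ⬝ᵥ (rm H y c d *ᵥ V y)

theorem smM_rm {z : Cn 2} (hH : SmM z H) (h0 : (H z).det ≠ 0) (c d : Fin 2) :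
    SmM z (fun y => rm H y c d) := by
  have h1 : SmM z (fun y => dM I d H y * (H y)⁻¹ * dM (-I) c H y) :=
    SmM.mul (SmM.mul (SmM.dM hH _ _) (SmM.inv hH h0)) (SmM.dM hH _ _)
  have h2 : SmM z (fun y => dM (-I) c (dM I d H) y) := SmM.dM (SmM.dM hH _ _) _ _
  intro S T
  have : (fun y => rm H y c d S T) = fun y => - dM (-I) c (dM I d H) y S T +
      (dM I d H y * (H y)⁻¹ * dM (-I) c H y) S T := rfl
  rw [this]
  exact (h2 S T).neg.add (h1 S T)

theorem ff_eq (H : Cn 2 → Matrix (Fin 2) (Fin 2) ℂ) (V : Cn 2 → Fin 2 → ℂ) (c d : Fin 2) (y : Cn 2) :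
    ff H V y c d = conj (V y 0) * (rm H y c d 0 0 * V y 0 + rm H y c d 0 1 * V y 1) +
      conj (V y 1) * (rm H y c d 1 0 * V y 0 + rm H y c d 1 1 * V y 1) := by
  simp [ff, dotProduct, Matrix.mulVec, Fin.sum_univ_two]

theorem sm_ff (h : ND H V p) (c d : Fin 2) : ∀ᶠ y in 𝓝 p, Sm y (fun y => ff H V y c d) := by
  filter_upwards [h.mH, h.mP, hol_sm (h.mV 0), hol_sm (h.mV 1)] with y h1 h2 h3 h4
  have hr := smM_rm h1 h2.det_pos.ne' c d
  simp only [ff_eq]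
  exact ((sm_conj h3).mul (((hr 0 0).mul h3).add ((hr 0 1).mul h4))).add
    ((sm_conj h4).mul (((hr 1 0).mul h3).add ((hr 1 1).mul h4)))

theorem oo_ff (h : ND H V p) (c d : Fin 2) : Oo p 2 (fun y => ff H V y c d) := by
  have hr := smM_rm h.mH.self_of_nhds h.mP.self_of_nhds.det_pos.ne' c d
  have oV : ∀ i, Oo p 1 (fun y => V y i) := fun i =>
    Oo.of_diff (hol_sm (h.mV i)).self_of_nhds.diff (by rw [h.v0]; rfl)
  have oR : ∀ i j, Oo p 0 (fun y => rm H y c d i j) := fun i j =>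
    Oo.of_cont (hr i j).continuousAt
  have t : ∀ i j, Oo p 2 (fun y => conj (V y i) * (rm H y c d i j * V y j)) := fun i j =>
    (oV i).cjg.mul ((oR i j).mul (oV j))
  refine (((t 0 0).add (t 0 1)).add ((t 1 0).add (t 1 1))).congr (Eventually.of_forall fun y => ?_)
  show _ = ff H V y c d
  rw [ff_eq]
  ring

end ND

/-- **local index formula** -/
theorem idx (h : ND H V p) : ∃ r > 0, ∀ κ : Cn 2 → ℂ, CS (Metric.ball p r) κ →
    Integrable (fun z => κ z * c2 H z) ∧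
    Integrable (fun z => pd (hs κ z) ((Real.log (hV H V z) : ℂ) •
      (hess (fun y => Real.log (H y).det.re) z - hess (fun y => Real.log (hV H V y)) z)
        + bb H V z)) ∧
    ∫ z, κ z * c2 H z = (∫ z, pd (hs κ z) ((Real.log (hV H V z) : ℂ) •
      (hess (fun y => Real.log (H y).det.re) z - hess (fun y => Real.log (hV H V y)) z)
        + bb H V z)) + (Real.pi : ℂ) ^ 2 * κ p := by
  obtain ⟨r0, c, C, hgd⟩ := exists_good h.nz
  have hFB := fun ab : Fin 2 × Fin 2 => exists_FB (h.sm_ff ab.1 ab.2) (h.oo_ff ab.1 ab.2)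
  choose rF hrF KF hFB using hFB
  -- common constant
  have hev := ((h.mH.and h.mP).and ((h.mV 0).and (h.mV 1)))
  obtain ⟨r1, hr1, hb⟩ := Metric.eventually_nhds_iff_ball.1 hev
  set r := min (min r0 r1) (min (min (rF (0, 0)) (rF (0, 1))) (min (rF (1, 0)) (rF (1, 1)))) with hr
  have hr0 : 0 < r := lt_min (lt_min hgd.r0 hr1)
    (lt_min (lt_min (hrF _) (hrF _)) (lt_min (hrF _) (hrF _)))
  have hg : Gd (hV H V) p r c C := hgd.mono hr0 ((min_le_left _ _).trans (min_le_left _ _))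
  have hrr1 : r ≤ r1 := (min_le_left _ _).trans (min_le_right _ _)
  set K := ∑ ab, KF ab with hK
  have hKF : ∀ ab, KF ab ≤ K := fun ab =>
    Finset.single_le_sum (f := KF) (fun ab _ => (hFB ab).K0.le) (Finset.mem_univ ab)
  have hFr : ∀ ab, r ≤ rF ab := by
    have hx : r ≤ min (min (rF (0, 0)) (rF (0, 1))) (min (rF (1, 0)) (rF (1, 1))) := min_le_right _ _
    rintro ⟨a, b⟩
    fin_cases a <;> fin_cases b
    · exact hx.trans ((min_le_left _ _).trans (min_le_left _ _))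
    · exact hx.trans ((min_le_left _ _).trans (min_le_right _ _))
    · exact hx.trans ((min_le_right _ _).trans (min_le_left _ _))
    · exact hx.trans ((min_le_right _ _).trans (min_le_right _ _))
  have hF : ∀ a b, FB (fun y => ND.ff H V y a b) p r K := by
    intro a b
    have h1 := (hFB (a, b)).mono (hFr (a, b))
    have hle := hKF (a, b)
    exact ⟨lt_of_lt_of_le h1.K0 hle, h1.sm, fun z hz => (h1.b0 z hz).trans
      (mul_le_mul_of_nonneg_right hle (by positivity)), fun z hz a => (h1.b1 z hz a).trans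
      (mul_le_mul_of_nonneg_right hle (norm_nonneg _)), fun z hz a => (h1.b1' z hz a).trans
      (mul_le_mul_of_nonneg_right hle (norm_nonneg _)), fun z hz a b => (h1.b2 z hz a b).trans hle⟩
  refine ⟨r, hr0, fun κ hκ => ?_⟩
  have hin : ∀ z ∈ Metric.ball p r, ∀ᶠ y in 𝓝 z, y ∈ Metric.ball p r := fun z hz =>
    Metric.isOpen_ball.mem_nhds hz
  have hbr : ∀ z ∈ Metric.ball p r, (SmM z H ∧ (H z).PosDef) ∧
      (DifferentiableAt ℂ (fun w => V w 0) z ∧ DifferentiableAt ℂ (fun w => V w 1) z) :=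
    fun z hz => hb z (Metric.ball_subset_ball hrr1 hz)
  set D : Cn 2 → ℝ := fun y => Real.log (H y).det.re with hD
  have sD : ∀ z ∈ Metric.ball p r, ContDiffAt ℝ ∞ D z := by
    intro z hz
    have h1 := hbr z hz
    exact (Complex.reCLM.contDiff.contDiffAt.comp z (SmM.det h1.1.1)).log
      (det_re_pos'' h1.1.2).ne'
  have clD : ∀ z ∈ Metric.ball p r, Cl (hess D) z := by
    intro z hz
    have h1 : hess D = hs (cu D) := funext fun z => (hs_cu _ z).symm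
    rw [h1]
    exact cl_hs Metric.isOpen_ball (fun y hy => contDiffAt_cu (sD y hy)) hz
  obtain ⟨i1, i2, e1⟩ := hg.res hκ
  obtain ⟨i3, i4, e2⟩ := hg.res1 hκ clD
  obtain ⟨i5, e3⟩ := res0 hg hκ
  obtain ⟨i6, i7, e4⟩ := resT hg hκ hF
  have hL0 : (fun y => Real.log (hV H V y)) = Ld (hV H V) 0 := by
    funext y; simp [Ld]
  have hLz : ∀ z, Real.log (hV H V z) = Ld (hV H V) 0 z := fun z => by simp [Ld]
  have hbb : ∀ z, bb H V z = hess (Ld (hV H V) 0) z + TM (hV H V) (ND.ff H V) 0 z := by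
    intro z
    ext a b
    rw [Matrix.add_apply, bb, Matrix.of_apply, hL0]
    congr 1
    show _ = Th (hV H V) (fun y => ND.ff H V y a b) 0 z
    rw [Th, add_zero, div_eq_mul_inv]
    rfl
  -- the pointwise identity
  have hVne : ∀ z ∈ Metric.ball p r, z ≠ p → V z ≠ 0 := by
    intro z hz hzp h0
    have := hg.q_pos hz hzp
    rw [hV, h0] at this
    simp at this
  have sL : ∀ z ∈ Metric.ball p r, z ≠ p → ContDiffAt ℝ ∞ (Ld (hV H V) 0) z := fun z hz hzp =>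
    sm_Ld (hg.sm z hz) (by rw [add_zero]; exact hg.q_pos hz hzp)
  have hddm : ∀ z ∈ Metric.ball p r, z ≠ p → ddm (bb H V) z = ddm (TM (hV H V) (ND.ff H V) 0) z := by
    intro z hz hzp
    have hin' : ∀ᶠ y in 𝓝 z, y ∈ Metric.ball p r ∧ y ≠ p := (hin z hz).and (isOpen_ne.mem_nhds hzp)
    have e : bb H V =ᶠ[𝓝 z] fun y => hess (Ld (hV H V) 0) y + TM (hV H V) (ND.ff H V) 0 y :=
      Eventually.of_forall hbb
    rw [ddm_congr e]
    have s1 : ∀ a b, ∀ᶠ y in 𝓝 z, Sm y (fun y => hess (Ld (hV H V) 0) y a b) := by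
      intro a b
      filter_upwards [hin'] with y hy
      exact contDiffAt_hess (sL y hy.1 hy.2) a b
    have s2 : ∀ a b, ∀ᶠ y in 𝓝 z, Sm y (fun y => TM (hV H V) (ND.ff H V) 0 y a b) := by
      intro a b
      filter_upwards [hin'] with y hy
      exact sm_Th ((hF a b).sm y hy.1) (hg.sm y hy.1) (by rw [add_zero]; exact hg.q_pos hy.1 hy.2)
    have s3 : ∀ s c t d a b, dS s c (dS t d (fun y => (hess (Ld (hV H V) 0) y +
        TM (hV H V) (ND.ff H V) 0 y) a b)) z =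
        dS s c (dS t d (fun y => hess (Ld (hV H V) 0) y a b)) z +
        dS s c (dS t d (fun y => TM (hV H V) (ND.ff H V) 0 y a b)) z := fun s c t d a b =>
      dS2_add (s1 a b).self_of_nhds (s2 a b).self_of_nhds s t c d
    have s4 : ∀ y, y ∈ Metric.ball p r ∧ y ≠ p → Sm y (cu (Ld (hV H V) 0)) := fun y hy =>
      contDiffAt_cu (sL y hy.1 hy.2)
    have s5 : ddm (hess (Ld (hV H V) 0)) z = 0 := by
      set L := cu (Ld (hV H V) 0) with hL
      have g0 : ∀ a b, (fun y => hess (Ld (hV H V) 0) y a b) = dS (-I) a (dS I b L) := fun a b => rfl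
      have f2 : ∀ a b d : Fin 2, dS I d (dS (-I) a (dS I b L)) =ᶠ[𝓝 z]
          dS I b (dS (-I) a (dS I d L)) := by
        intro a b d
        filter_upwards [hin'.eventually_nhds] with y hy
        have hy0 := s4 y hy.self_of_nhds
        have g3 : dS I d (dS I b L) =ᶠ[𝓝 y] dS I b (dS I d L) := by
          filter_upwards [hy] with w hw
          exact dS_comm (s4 w hw)
        rw [dS_comm (hy0.dS _ _), dS_congr g3, dS_comm (hy0.dS _ _)]
      unfold ddm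
      rw [g0, g0, g0, g0, dS_congr (f2 1 0 1), dS_congr (f2 0 1 0)]
      ring
    have s6 : ddm (fun y => hess (Ld (hV H V) 0) y + TM (hV H V) (ND.ff H V) 0 y) z =
        ddm (hess (Ld (hV H V) 0)) z + ddm (TM (hV H V) (ND.ff H V) 0) z := by
      unfold ddm
      rw [s3, s3, s3, s3]
      ring
    rw [s6, s5, zero_add]
  have hpt : ∀ z ∈ Metric.ball p r, z ≠ p → κ z * c2 H z =
      (κ z * pd (hess (Ld (hV H V) 0) z) (hess D z) -
        κ z * pd (hess (Ld (hV H V) 0) z) (hess (Ld (hV H V) 0) z)) +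
      κ z * ddm (TM (hV H V) (ND.ff H V) 0) z := by
    intro z hz hzp
    have a1 : ∀ᶠ y in 𝓝 z, SmM y H := by
      filter_upwards [hin z hz] with y hy using (hbr y hy).1.1
    have a2 : ∀ᶠ y in 𝓝 z, (H y).PosDef := by
      filter_upwards [hin z hz] with y hy using (hbr y hy).1.2
    have a3 : ∀ i, ∀ᶠ y in 𝓝 z, DifferentiableAt ℂ (fun w => V w i) y := by
      intro i
      fin_cases i
      · filter_upwards [hin z hz] with y hy using (hbr y hy).2.1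
      · filter_upwards [hin z hz] with y hy using (hbr y hy).2.2
    rw [c2_eq a1 a2 a3 (hVne z hz hzp), hL0, hddm z hz hzp, pd_sub]
    ring
  have hae : (fun z => κ z * c2 H z) =ᵐ[volume] fun z =>
      (κ z * pd (hess (Ld (hV H V) 0) z) (hess D z) -
        κ z * pd (hess (Ld (hV H V) 0) z) (hess (Ld (hV H V) 0) z)) +
      κ z * ddm (TM (hV H V) (ND.ff H V) 0) z := by
    filter_upwards [ae_ne p] with z hz
    by_cases hzb : z ∈ Metric.ball p r
    · exact hpt z hzb hz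
    · rw [hκ.zero_off hzb]; ring
  have hR : (fun z => pd (hs κ z) ((Real.log (hV H V z) : ℂ) •
      (hess D z - hess (fun y => Real.log (hV H V y)) z) + bb H V z)) = fun z =>
      (((Ld (hV H V) 0 z : ℂ) * pd (hs κ z) (hess D z) -
        (Ld (hV H V) 0 z : ℂ) * pd (hs κ z) (hess (Ld (hV H V) 0) z)) +
        pd (hs κ z) (hess (Ld (hV H V) 0) z)) + pd (hs κ z) (TM (hV H V) (ND.ff H V) 0 z) := by
    funext z
    rw [hbb, hL0, hLz, pd_add, pd_add, pd_smul, pd_sub]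
    ring
  have j1 : Integrable (fun z => κ z * pd (hess (Ld (hV H V) 0) z) (hess D z) -
      κ z * pd (hess (Ld (hV H V) 0) z) (hess (Ld (hV H V) 0) z)) := i4.sub i2
  have j2 : Integrable (fun z => (κ z * pd (hess (Ld (hV H V) 0) z) (hess D z) -
      κ z * pd (hess (Ld (hV H V) 0) z) (hess (Ld (hV H V) 0) z)) +
      κ z * ddm (TM (hV H V) (ND.ff H V) 0) z) := j1.add i6
  have j3 : Integrable (fun z => (Ld (hV H V) 0 z : ℂ) * pd (hs κ z) (hess D z) -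
        (Ld (hV H V) 0 z : ℂ) * pd (hs κ z) (hess (Ld (hV H V) 0) z)) := i3.sub i1
  have j4 : Integrable (fun z => ((Ld (hV H V) 0 z : ℂ) * pd (hs κ z) (hess D z) -
        (Ld (hV H V) 0 z : ℂ) * pd (hs κ z) (hess (Ld (hV H V) 0) z)) +
        pd (hs κ z) (hess (Ld (hV H V) 0) z)) := j3.add i5
  refine ⟨j2.congr hae.symm, ?_, ?_⟩
  · rw [hR]
    exact j4.add i7
  · rw [integral_congr_ae hae, hR, integral_add j1 i6, integral_sub i4 i2,
      integral_add j4 i7, integral_add j3 i5, integral_sub i3 i1,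
      e1, e2, e3, e4]
    ring

end

end Crest.Agent.R257.Idx6_761
end

-- ▼ part R257/OutB_309
section

/-!
# R257 (S0395), leaf GB-OUT (helper309), part B: the form `Γ = Λ Z + bb` in a chart

* `Gm H V`     : `log |V|² (∂∂̄ log det H - ∂∂̄ log |V|²) + bb H V`
* `BV H V p`   : `H` smooth positive definite, `V` holomorphic near `p`
* `BV.c2_ddm`  : `c2 H = ∂∂̄ Γ` where `V ≠ 0`
* `BV.loc`     : `∫ κ c2 = ∫ ∂∂̄κ ∧ Γ + π² κ(p) [V p = 0]`
* `BV.gm_trans`, `BV.c2_trans` : changes of coordinates and frames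
-/

set_option autoImplicit false
set_option linter.unusedSectionVars false

open Set Filter Topology Complex MeasureTheory
open scoped ContDiff Matrix ComplexConjugate ComplexOrder

namespace Crest.Agent.R257.OutB_309

open Crest.Agent.R275.Geo Crest.Agent.R275.EDR890
open Crest.Agent.R273.Fock_243 Crest.Agent.R273.Calc_243
open Crest.Agent.R273.Bkn_243 Crest.Agent.R273.Pos_243 Crest.Agent.R273.BochA_101
open Crest.Agent.R273.BochB_101
open Crest.Agent.R273.BochC_101 Crest.Agent.R273.BochD_101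
open Crest.Agent.R273.Hess_333 Crest.Agent.R273.HessB_333
open Crest.Agent.R257.C2F1_625 Crest.Agent.R257.C2F2_625 Crest.Agent.R257.C2F3_625
open Crest.Agent.R257.C2F4_335 Crest.Agent.R257.C2F5_335 Crest.Agent.R257.C2F6_335
open Crest.Agent.R257.GBL2_625 (ddm_add ddm_smul_cl hess_cl smM_rm sm_hess)
open Crest.Agent.R257.Idx1_761 (CS hs hs_cu)

noncomputable section

/-- the form `Γ` -/
def Gm (H : Cn 2 → Matrix (Fin 2) (Fin 2) ℂ) (V : Cn 2 → Fin 2 → ℂ) (z : Cn 2) :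
    Matrix (Fin 2) (Fin 2) ℂ :=
  (Real.log (hV H V z) : ℂ) •
    (hess (fun y => Real.log (H y).det.re) z - hess (fun y => Real.log (hV H V y)) z) + bb H V z

/-- Hermitian metric and holomorphic section near `p` -/
structure BV (H : Cn 2 → Matrix (Fin 2) (Fin 2) ℂ) (V : Cn 2 → Fin 2 → ℂ) (p : Cn 2) : Prop where
  mH : ∀ᶠ y in 𝓝 p, SmM y H
  mP : ∀ᶠ y in 𝓝 p, (H y).PosDef
  mV : ∀ i, ∀ᶠ y in 𝓝 p, DifferentiableAt ℂ (fun w => V w i) y

variable {H : Cn 2 → Matrix (Fin 2) (Fin 2) ℂ} {V : Cn 2 → Fin 2 → ℂ} {p : Cn 2}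

theorem BV.ev (h : BV H V p) : ∀ᶠ y in 𝓝 p, BV H V y := by
  have h1 : ∀ᶠ y in 𝓝 p, ∀ i, ∀ᶠ w in 𝓝 y, DifferentiableAt ℂ (fun x => V x i) w := by
    rw [eventually_all]
    exact fun i => (h.mV i).eventually_nhds
  filter_upwards [h.mH.eventually_nhds, h.mP.eventually_nhds, h1] with y a b c
  exact ⟨a, b, c⟩

theorem BV.smV (h : BV H V p) (a : Fin 2) : Sm p (fun z => V z a) := sm_of_hol (h.mV a)

theorem BV.ne_ev (h : BV H V p) (h0 : V p ≠ 0) : ∀ᶠ y in 𝓝 p, V y ≠ 0 := by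
  obtain ⟨k, hk⟩ : ∃ k, V p k ≠ 0 := by
    by_contra hcon
    push Not at hcon
    exact h0 (funext hcon)
  filter_upwards [(h.mV k).self_of_nhds.continuousAt.eventually_ne hk] with y hy h1
  exact hy (by rw [h1]; rfl)

theorem hV_pos {K : Matrix (Fin 2) (Fin 2) ℂ} {v : Fin 2 → ℂ} (hK : K.PosDef) (hv : v ≠ 0) :
    0 < (star v ⬝ᵥ (K *ᵥ v)).re := (Complex.lt_def.1 (hK.dotProduct_mulVec_pos hv)).1

theorem BV.pos (h : BV H V p) (h0 : V p ≠ 0) : 0 < hV H V p := hV_pos h.mP.self_of_nhds h0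

theorem BV.sm_hV (h : BV H V p) : ContDiffAt ℝ ∞ (hV H V) p := by
  have h1 : Sm p (fun z => star (V z) ⬝ᵥ (H z *ᵥ V z)) := by
    unfold dotProduct Matrix.mulVec dotProduct
    refine ContDiffAt.sum fun a _ => ?_
    refine (conjCLE.contDiff.contDiffAt.comp _ (h.smV a)).mul (ContDiffAt.sum fun b _ => ?_)
    exact (h.mH.self_of_nhds a b).mul (h.smV b)
  exact Complex.reCLM.contDiff.contDiffAt.comp _ h1

theorem BV.sm_lam (h : BV H V p) (h0 : V p ≠ 0) :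
    ContDiffAt ℝ ∞ (fun z => Real.log (hV H V z)) p := h.sm_hV.log (h.pos h0).ne'

theorem BV.sm_ld (h : BV H V p) : ContDiffAt ℝ ∞ (fun y => Real.log (H y).det.re) p :=
  (Complex.reCLM.contDiff.contDiffAt.comp p (SmM.det h.mH.self_of_nhds)).log
    (det_re_pos'' h.mP.self_of_nhds).ne'

theorem BV.sm_bb (h : BV H V p) (h0 : V p ≠ 0) : SmM p (bb H V) := by
  intro c d
  have hd : (H p).det ≠ 0 := h.mP.self_of_nhds.det_pos.ne'
  have hr := smM_rm h.mH.self_of_nhds hd c d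
  have e1 : Sm p (fun z => star (V z) ⬝ᵥ (rm H z c d *ᵥ V z)) := by
    unfold dotProduct Matrix.mulVec dotProduct
    refine ContDiffAt.sum fun a _ => ?_
    refine (Complex.conjCLE.contDiff.contDiffAt.comp _ (h.smV a)).mul
      (ContDiffAt.sum fun b _ => ?_)
    exact (hr a b).mul (h.smV b)
  have e2 : Sm p (fun z => ((hV H V z : ℝ) : ℂ)) := contDiffAt_cu h.sm_hV
  have e3 : ((hV H V p : ℝ) : ℂ) ≠ 0 := Complex.ofReal_ne_zero.2 (h.pos h0).ne'
  refine (sm_hess (h.sm_lam h0) c d).add ?_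
  simp only [div_eq_mul_inv]
  exact e1.mul (e2.inv e3)

theorem BV.sm_Z (h : BV H V p) (h0 : V p ≠ 0) :
    SmM p (fun z => hess (fun y => Real.log (H y).det.re) z
      - hess (fun y => Real.log (hV H V y)) z) := fun a b =>
  (sm_hess h.sm_ld a b).sub (sm_hess (h.sm_lam h0) a b)

theorem BV.sm_LZ (h : BV H V p) (h0 : V p ≠ 0) :
    SmM p (fun z => (Real.log (hV H V z) : ℂ) • (hess (fun y => Real.log (H y).det.re) z
      - hess (fun y => Real.log (hV H V y)) z)) := fun a b =>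
  (contDiffAt_cu (h.sm_lam h0) : Sm p (cu _)).mul (h.sm_Z h0 a b)

theorem BV.sm_Gm (h : BV H V p) (h0 : V p ≠ 0) : SmM p (Gm H V) := fun a b =>
  (h.sm_LZ h0 a b).add (h.sm_bb h0 a b)

/-- **`c2 = ∂∂̄ Γ`** -/
theorem BV.c2_ddm (h : BV H V p) (h0 : V p ≠ 0) : c2 H p = ddm (Gm H V) p := by
  have hcl : ∀ᶠ y in 𝓝 p, GBL2_625.Cl (fun z => hess (fun y => Real.log (H y).det.re) z
        - hess (fun y => Real.log (hV H V y)) z) y := by
    have a1 : ∀ᶠ y in 𝓝 p, ContDiffAt ℝ ∞ (fun y => Real.log (H y).det.re) y :=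
      h.ev.mono fun y hy => hy.sm_ld
    have a2 : ∀ᶠ y in 𝓝 p, ContDiffAt ℝ ∞ (fun y => Real.log (hV H V y)) y := by
      filter_upwards [h.ev, h.ne_ev h0] with y hy hy0 using hy.sm_lam hy0
    filter_upwards [a1, a2, a1.eventually_nhds, a2.eventually_nhds] with y h1 h2 h3 h4
    exact GBL2_625.Cl.sub (fun a b => sm_hess h1 a b) (fun a b => sm_hess h2 a b) (hess_cl h3)
      (hess_cl h4)
  show _ = ddm (fun z => (Real.log (hV H V z) : ℂ) • (hess (fun y => Real.log (H y).det.re) z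
      - hess (fun y => Real.log (hV H V y)) z) + bb H V z) p
  rw [ddm_add (h.sm_LZ h0) (h.sm_bb h0), ddm_smul_cl (h.sm_lam h0) (h.sm_Z h0) hcl,
    c2_eq h.mH h.mP h.mV h0]

/-- nondegenerate zero -/
def Nd (V : Cn 2 → Fin 2 → ℂ) (p : Cn 2) : Prop :=
  (Matrix.of fun i a => dS (-I) a (fun w => V w i) p : Matrix (Fin 2) (Fin 2) ℂ).det ≠ 0

open Classical in
/-- **the local index formula, all points** -/
theorem BV.loc (h : BV H V p) (hnd : V p = 0 → Nd V p) :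
    ∃ r > 0, ∀ κ : Cn 2 → ℂ, CS (Metric.ball p r) κ →
      Integrable (fun z => κ z * c2 H z) ∧ Integrable (fun z => pd (hs κ z) (Gm H V z)) ∧
      ∫ z, κ z * c2 H z = (∫ z, pd (hs κ z) (Gm H V z)) +
        (if V p = 0 then (Real.pi : ℂ) ^ 2 * κ p else 0) := by
  by_cases h0 : V p = 0
  · obtain ⟨r, hr, hk⟩ := Idx6_761.idx (H := H) (V := V) (p := p) ⟨h.mH, h.mP, h.mV, h0, hnd h0⟩
    refine ⟨r, hr, fun κ hκ => ?_⟩
    rw [if_pos h0]
    exact hk κ hκ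
  · obtain ⟨r, hr, hb⟩ := Metric.eventually_nhds_iff_ball.1 (h.ev.and (h.ne_ev h0))
    refine ⟨r, hr, fun κ hκ => ?_⟩
    have hG : ∀ z ∈ Metric.ball p r, SmM z (Gm H V) := fun z hz => (hb z hz).1.sm_Gm (hb z hz).2
    have e1 : (fun z => κ z * c2 H z) = fun z => κ z * ddm (Gm H V) z := by
      funext z
      by_cases hz : z ∈ Metric.ball p r
      · rw [(hb z hz).1.c2_ddm (hb z hz).2]
      · rw [hκ.zero_off hz, zero_mul, zero_mul]
    have j1 : ∀ (s t : ℂ) (c d i j : Fin 2),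
        Integrable fun z => κ z * dS s c (dS t d (fun y => Gm H V y i j)) z :=
      fun s t c d i j => (hκ.mul (fun z hz => ((hG z hz i j).dS t d).dS s c)).integrable
    have j2 : ∀ (s t : ℂ) (c d i j : Fin 2), Integrable fun z => dS s c (dS t d κ) z * Gm H V z i j :=
      fun s t c d i j => (((hκ.dS t d).dS s c).mul (fun z hz => hG z hz i j)).integrable
    rw [if_neg h0, add_zero, e1]
    refine ⟨?_, ?_, Idx1_761.parts_ddm hκ hG⟩
    · have := (((j1 (-I) I 0 0 1 1).add (j1 (-I) I 1 1 0 0)).sub (j1 (-I) I 0 1 1 0)).sub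
        (j1 (-I) I 1 0 0 1)
      refine this.congr (Eventually.of_forall fun z => ?_)
      simp only [Pi.sub_apply, Pi.add_apply, ddm]
      ring
    · have := (((j2 (-I) I 0 0 1 1).add (j2 (-I) I 1 1 0 0)).sub (j2 (-I) I 0 1 1 0)).sub
        (j2 (-I) I 1 0 0 1)
      refine this.congr (Eventually.of_forall fun z => ?_)
      simp only [Pi.sub_apply, Pi.add_apply, pd, hs, Matrix.of_apply]

/-! ### changes of coordinates and frames -/

/-- data of a change: `H' = Fᴴ (H ∘ T) F`, `V ∘ T = F V'` near `p` -/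
structure Chg (H' : Cn 2 → Matrix (Fin 2) (Fin 2) ℂ) (V' : Cn 2 → Fin 2 → ℂ)
    (H : Cn 2 → Matrix (Fin 2) (Fin 2) ℂ) (V : Cn 2 → Fin 2 → ℂ) (T : Cn 2 → Cn 2)
    (F : Cn 2 → Matrix (Fin 2) (Fin 2) ℂ) (p : Cn 2) : Prop where
  T_hol : ∀ᶠ w in 𝓝 p, DifferentiableAt ℂ T w
  F_hol : HolM p F
  F_ne : (F p).det ≠ 0
  eH : ∀ᶠ w in 𝓝 p, H' w = (F w)ᴴ * H (T w) * F w
  eV : ∀ᶠ w in 𝓝 p, V (T w) = F w *ᵥ V' w

variable {H' : Cn 2 → Matrix (Fin 2) (Fin 2) ℂ} {V' : Cn 2 → Fin 2 → ℂ} {T : Cn 2 → Cn 2}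
  {F : Cn 2 → Matrix (Fin 2) (Fin 2) ℂ}

theorem Chg.smHT (c : Chg H' V' H V T F p) (h : BV H V (T p)) :
    ∀ᶠ y in 𝓝 p, SmM y (fun y => H (T y)) := by
  have h1 := (c.T_hol.self_of_nhds.continuousAt).eventually h.mH
  filter_upwards [h1, c.T_hol.eventually_nhds] with y hy hy' S S'
  exact (hy S S').comp y (T_sm hy')

theorem Chg.c2_eq (c : Chg H' V' H V T F p) (h : BV H V (T p)) :
    c2 H' p = (Jac T p).det * conj (Jac T p).det * c2 H (T p) := by
  have hne : (H (T p)).det ≠ 0 := h.mP.self_of_nhds.det_pos.ne'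
  rw [c2_congr c.eH, c2_frame (c.smHT h) hne c.F_hol c.F_ne, c2_comp h.mH.self_of_nhds c.T_hol]

theorem Chg.hV_eq (c : Chg H' V' H V T F p) :
    (fun w => hV H' V' w) =ᶠ[𝓝 p] fun w => hV H V (T w) := by
  filter_upwards [c.eH, c.eV] with w h1 h2
  unfold hV
  rw [h1, star_gram, h2]

theorem Chg.det_hol (c : Chg H' V' H V T F p) :
    ∀ᶠ w in 𝓝 p, DifferentiableAt ℂ (fun w => (F w).det) w := by
  have hij : ∀ i j, ∀ᶠ w in 𝓝 p, DifferentiableAt ℂ (fun y => F y i j) w := fun i j => c.F_hol i j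
  have e : (fun w => (F w).det) = fun w => F w 0 0 * F w 1 1 - F w 0 1 * F w 1 0 :=
    funext fun w => Matrix.det_fin_two _
  rw [e]
  filter_upwards [hij 0 0, hij 0 1, hij 1 0, hij 1 1] with w a0 a1 a2 a3
  exact (a0.fun_mul a3).fun_sub (a1.fun_mul a2)

theorem Chg.gm_eq (c : Chg H' V' H V T F p) (h : BV H V (T p)) (h0 : V (T p) ≠ 0) :
    Gm H' V' p = pbk T (Gm H V) p := by
  have hne : (H (T p)).det ≠ 0 := h.mP.self_of_nhds.det_pos.ne'
  -- log |V|²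
  have e1 : (fun w => Real.log (hV H' V' w)) =ᶠ[𝓝 p] fun w => (fun y => Real.log (hV H V y)) (T w) :=
    c.hV_eq.mono fun w hw => by simp only [hw]
  have e2 : hess (fun w => Real.log (hV H' V' w)) p
      = pbk T (hess fun y => Real.log (hV H V y)) p := by
    rw [hess_congr e1]
    exact hess_comp' (u := fun y => Real.log (hV H V y)) (h.sm_lam h0) c.T_hol
  -- log det
  have hdet := c.det_hol
  have hFev : ∀ᶠ w in 𝓝 p, (F w).det ≠ 0 :=
    hdet.self_of_nhds.continuousAt.eventually_ne c.F_ne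
  have hP := (c.T_hol.self_of_nhds.continuousAt).eventually h.mP
  have e3 : (fun w => Real.log (H' w).det.re) =ᶠ[𝓝 p] fun w =>
      Real.log (‖(F w).det‖ ^ 2) + (fun y => Real.log (H y).det.re) (T w) := by
    filter_upwards [c.eH, hFev, hP] with w h1 h2 h3
    have h4 := det_re_pos'' h3
    have h5 : (H' w).det = ((‖(F w).det‖ ^ 2 : ℝ) : ℂ) * (H (T w)).det := by
      rw [h1, Matrix.det_mul, Matrix.det_mul, Matrix.det_conjTranspose,
        ← Complex.normSq_eq_norm_sq, Complex.normSq_eq_conj_mul_self]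
      show star (F w).det * _ * _ = conj (F w).det * _ * _
      rw [Complex.star_def]
      ring
    rw [h5, Complex.re_ofReal_mul, Real.log_mul
      (pow_ne_zero 2 (norm_ne_zero_iff.2 h2)) h4.ne']
  have sT : ContDiffAt ℝ ∞ (fun w => (fun y => Real.log (H y).det.re) (T w)) p :=
    ContDiffAt.comp p (g := fun y => Real.log (H y).det.re) h.sm_ld (T_sm c.T_hol)
  have sF : ContDiffAt ℝ ∞ (fun w => Real.log (‖(F w).det‖ ^ 2)) p := by
    have a1 : Sm p (fun w => (F w).det) := sm_of_hol hdet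
    exact (a1.norm_sq ℝ).log (pow_ne_zero 2 (norm_ne_zero_iff.2 c.F_ne))
  have e4 : hess (fun w => Real.log (H' w).det.re) p
      = pbk T (hess fun y => Real.log (H y).det.re) p := by
    rw [hess_congr e3, hess_add sF sT, hess_log_norm hdet c.F_ne, zero_add]
    exact hess_comp' (u := fun y => Real.log (H y).det.re) h.sm_ld c.T_hol
  -- bb
  have e5 : bb H' V' p = pbk T (bb H V) p := by
    have hev : (fun y => F y *ᵥ V' y) =ᶠ[𝓝 p] fun y => V (T y) := c.eV.mono fun w hw => hw.symm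
    rw [HSec.bb_congr c.eH EventuallyEq.rfl, bb_frame (c.smHT h) hne c.F_hol c.F_ne,
      HSec.bb_congr EventuallyEq.rfl hev, bb_comp (V := V) h.mH.self_of_nhds c.T_hol (h.sm_lam h0)]
  have e0 : Real.log (hV H' V' p) = Real.log (hV H V (T p)) := e1.self_of_nhds
  show (Real.log (hV H' V' p) : ℂ) • (hess (fun y => Real.log (H' y).det.re) p
    - hess (fun y => Real.log (hV H' V' y)) p) + bb H' V' p = _
  rw [e0, e2, e4, e5]
  unfold Gm
  simp only [pbk, Matrix.mul_add, Matrix.add_mul, Matrix.mul_sub, Matrix.sub_mul,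
    Matrix.mul_smul, Matrix.smul_mul, smul_sub]

end

end Crest.Agent.R257.OutB_309
end

-- ▼ part R257/LossD_309

/-!
R257 / LossD_309 (helper309): the leaves of `LossStmt` (KEG_952) and `BdStmt` (KED_952).

Bundle `Ω¹ ⊗ L_φ` with the metric `HO u φ = e^{-φ} (∂∂̄u)⁻¹`, section `dh` : `dV h`, so that
`hV (HO u φ θ) (dV h θ) = e^{-φ} |dh|²`; form `Γ` = `OutB_309.Gm`; `oxd` = density of `∂∂̄χ ∧ Γ`.

* `E1Stmt`     : one smooth level, nondegenerate zeros: `∫ χ c₂ = ∫ ∂∂̄χ ∧ Γ + π² Σ χ`   [309]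
* `SardStmt`   : generic linear perturbations have nondegenerate zeros                    [761]
* `CntStmt`    : number of the zeros = `col (mnr f h)`                                     [889, 827]
* `MnrStmt`    : `dV` and `mnr`                                                            [149]
* `OxCvStmt`   : convergence of the densities `oxd`                                        [397, 941]
* `V0Stmt`     : the singular level: loss lemma                                            [625]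
* `GenLinStmt` : a function with `ColFin (mnr f h)`                                        [812, 827]
-/

set_option autoImplicit false

open Topology Filter MeasureTheory Set
open scoped ENNReal ContDiff Matrix

noncomputable section

namespace Crest.Agent.R257.LossD_309

open Crest.Agent.R275.Geo
open Crest.Agent.R257.Defs_219
open Crest.Agent.R257.KED_952 Crest.Agent.R257.KEG_952
open Crest.Agent.R257.V1Defs_822 (SmL LvlOK lgh)
open Crest.Agent.R273.Defs_333 (lev)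
open Crest.Agent.R273.YauDefs_635 (cH)
open Crest.Agent.R257.PN_835 (nsq)
open Crest.Agent.R257.Aff_835 (eta2a nga)
open Crest.Agent.R257.C2F1_625 (pd)
open Crest.Agent.R257.OutB_309 (Gm Nd)

/-- metric of `Ω¹ ⊗ L_φ` in a parametrisation -/
def HO (u φ : E3 → ℝ) (θ : Cn 2 → E3) (y : Cn 2) : Matrix (Fin 2) (Fin 2) ℂ :=
  ((Real.exp (-φ (θ y)) : ℝ) : ℂ) • (cH (fun z => u (θ z)) y)⁻¹

/-- `d(h ∘ θ)` -/
def dV (h : E3 → ℂ) (θ : Cn 2 → E3) (y : Cn 2) : Fin 2 → ℂ :=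
  fun i => fderiv ℂ (fun z => h (θ z)) y (EuclideanSpace.single i 1)

/-- density of `∂∂̄χ ∧ Γ` -/
def oxd (f : E3 → ℂ) (u φ : E3 → ℝ) (h : E3 → ℂ) (χ : E3 → ℝ) : E3 → ℝ :=
  dns f fun θ z => (pd (cH (fun z => χ (θ z)) z) (Gm (HO u φ θ) (dV h θ) z)).re

/-- linear perturbation -/
def ptb (h : E3 → ℂ) (a : E3) (x : E3) : ℂ := h x + ∑ i, a i * x i

/-- the identity on a smooth level -/
def E1Stmt : Prop := ∀ (f : E3 → ℂ) (s : ℂ) (r : ℝ), LvlOK f s r → f 0 ≠ s → ∀ u, KEon f s r u →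
  ∀ ν, IsNu f s r ν → ∀ χ, Cut r χ → ∀ h : E3 → ℂ, (∀ x, nsq x < r ^ 2 → AnalyticAt ℂ h x) →
  (∀ θ O, PE f s r θ O → ∀ z ∈ O, dV h θ z = 0 → Nd (dV h θ) z) →
  ∀ Z : Finset E3, (∀ x ∈ Z, f x = s ∧ nsq x < r ^ 2) →
  (∀ θ O, PE f s r θ O → ∀ z ∈ O, θ z ∈ tsupport χ → (θ z ∈ Z ↔ dV h θ z = 0)) →
  Integrable (fun x => χ x * c2d f u x) ν ∧ Integrable (oxd f u (fun _ => 0) h χ) ν ∧
  ∫ x, χ x * c2d f u x ∂ν = ∫ x, oxd f u (fun _ => 0) h χ x ∂ν + Real.pi ^ 2 * ∑ x ∈ Z, χ x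

/-- Sard -/
def SardStmt : Prop := ∀ (f : E3 → ℂ) (s : ℂ) (r : ℝ), LvlOK f s r → f 0 ≠ s → ∀ h : E3 → ℂ,
  (∀ x, nsq x < r ^ 2 → AnalyticAt ℂ h x) →
  ∀ᵐ a : E3, ∀ θ O, PE f s r θ O → ∀ z ∈ O, dV (ptb h a) θ z = 0 → Nd (dV (ptb h a) θ) z

/-- the zero set -/
def ZM (Φ : E3 × PP → ℂ) (h : E3 → ℂ) (ρ : ℝ) (q : PP × E3) : Set E3 :=
  {x | nsq x < ρ ^ 2 ∧ ∀ j, mnr (fun x => Φ (x, q.1)) (ptb h q.2) j x = 0}

/-- number of the critical points -/
def CntStmt : Prop := ∀ (Φ : E3 × PP → ℂ) (τ₀ : PP), AnalyticAt ℂ Φ (0, τ₀) → ∀ f,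
  f = (fun x => Φ (x, τ₀)) → Iso f → ∀ h : E3 → ℂ, AnalyticAt ℂ h 0 → ColFin (mnr f h) →
  ∃ ρ : ℝ, 0 < ρ ∧ ∀ ε : ℝ, 0 < ε → ∀ᶠ q : PP × E3 in 𝓝 (τ₀, 0),
    (ZM Φ h ρ q).Finite ∧ (∀ x ∈ ZM Φ h ρ q, nsq x < ε ^ 2) ∧
    ((∀ x ∈ ZM Φ h ρ q, ∀ v : E3,
        (∀ j, fderiv ℂ (mnr (fun x => Φ (x, q.1)) (ptb h q.2) j) x v = 0) → v = 0) →
      (ZM Φ h ρ q).ncard = col (mnr f h))

/-- `dV` and `mnr` -/
def MnrStmt : Prop := ∀ (f : E3 → ℂ) (r : ℝ), LvlOK f 0 r → ∀ h : E3 → ℂ,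
  (∀ x, nsq x < r ^ 2 → AnalyticAt ℂ h x) → ∀ θ O, PE f 0 r θ O → ∀ z ∈ O,
  (dV h θ z = 0 ↔ ∀ j, mnr f h j (θ z) = 0) ∧
  (dV h θ z = 0 → Nd (dV h θ) z → ∀ v : E3, (∀ j, fderiv ℂ (mnr f h j) (θ z) v = 0) → v = 0)

/-- convergence of the densities `oxd` -/
def OxCvStmt : Prop := ∀ (Φ : E3 × PP → ℂ) (τ₀ : PP) (l : Filter PP) (r C : ℝ)
  (w : PP → E3 → ℝ) (u : E3 → ℝ), SmD Φ τ₀ l r C w u → ∀ f, f = (fun x => Φ (x, τ₀)) →
  ∀ χ, Cut r χ → ∀ h : E3 → ℂ, (∀ x, nsq x ≤ r ^ 2 → AnalyticAt ℂ h x) → NoZ f r h →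
  ∀ a : PP → E3, Tendsto a l (𝓝 0) →
  Cv0 Φ r l τ₀ (fun τ => oxd (fun x => Φ (x, τ)) (w τ) (fun _ => 0) (ptb h (a τ)) χ)
    (oxd f u (fun _ => 0) h χ) ∧
  CtL f 0 r (oxd f u (fun _ => 0) h χ) ∧
  ∀ᶠ τ in l, CtL (fun x => Φ (x, τ)) 0 r
    (oxd (fun x => Φ (x, τ)) (w τ) (fun _ => 0) (ptb h (a τ)) χ)

/-- the loss lemma on the singular level -/
def V0Stmt : Prop := ∀ (f : E3 → ℂ) (r C : ℝ) (u : E3 → ℝ), Iso f → LvlOK f 0 r →
  KEon f 0 r u → Bd f 0 r C u → ∀ ν, IsNu f 0 r ν → ∀ χ, Cut r χ → C2I ν f u χ < ⊤ →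
  VOL ν u χ < ⊤ → ∀ A : ℝ, Esc f r u A → ∀ φ : E3 → ℝ, SmL f 0 r φ →
  (∀ θ O, PE f 0 r θ O → ∀ z ∈ O, ∀ v : Cn 2, 0 ≤ lev (fun z => φ (θ z)) z v) →
  (∀ x, f x = 0 → x ≠ 0 → nsq x < r ^ 2 → - A * (A - u x) ≤ φ x ∧ φ x ≤ A) →
  Integrable (fun x => χ x * mxd f φ φ x) ν →
  ∀ (N : ℕ) (h : E3 → ℂ), (∀ x, nsq x ≤ r ^ 2 → AnalyticAt ℂ h x) →
  NoZ f r h → UpB f r u A N φ h →
  (∫ x, oxd f u (fun _ => 0) h χ x ∂ν ≤
    (C2I ν f u χ).toReal - Real.pi ^ 2 * (mss ν f u φ χ + mss ν f φ φ χ)) ∧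
  (LoB f r u A N φ h → (C2I ν f u χ).toReal - Real.pi ^ 2 * (mss ν f u φ χ + mss ν f φ φ χ) ≤
    ∫ x, oxd f u (fun _ => 0) h χ x ∂ν)

/-- a function with an isolated critical point on `{f = 0}` -/
def GenLinStmt : Prop := ∀ f : E3 → ℂ, Iso f → ∃ h : E3 → ℂ, AnalyticAt ℂ h 0 ∧ h 0 = 0 ∧
  ColFin (mnr f h)

end Crest.Agent.R257.LossD_309
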