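import Crest.Agent.R257.OutA_309
import Crest.Agent.R257.LossD_309

-- ▼ part R257/OutC_309
section

/-!
# R257 (S0395), leaf GB-OUT (helper309), part C: the identity `∫ χ c₂ = ∫ ∂∂̄χ ∧ Γ + π² Σ χ`

* `dns_rep`  : `dns` at a point is read in one parametrisation
* `Bun`      : Hermitian bundle of rank 2 with a holomorphic section on a level
* `c2x`, `ox`: densities
* `Bun.e1`   : the identity
-/

set_option autoImplicit false
set_option linter.unusedSectionVars false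

open Set Filter Topology Complex MeasureTheory
open scoped ContDiff Matrix ComplexConjugate ComplexOrder ENNReal

namespace Crest.Agent.R257.OutC_309

open Crest.Agent.R275.Geo Crest.Agent.R275.EDR890
open Crest.Agent.R273.Fock_243 Crest.Agent.R273.Calc_243
open Crest.Agent.R273.Bkn_243 Crest.Agent.R273.Pos_243 Crest.Agent.R273.BochA_101
open Crest.Agent.R273.BochB_101
open Crest.Agent.R273.BochC_101 Crest.Agent.R273.BochD_101
open Crest.Agent.R273.Hess_333 Crest.Agent.R273.HessB_333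
open Crest.Agent.R273.YauDefs_635 (cH)
open Crest.Agent.R273.YauMax_635 (cH_eq_hess)
open Crest.Agent.R257.C2F1_625 Crest.Agent.R257.C2F2_625 Crest.Agent.R257.C2F3_625
open Crest.Agent.R257.C2F4_335 Crest.Agent.R257.C2F5_335 Crest.Agent.R257.C2F6_335
open Crest.Agent.R257.Idx1_761 (CS hs hs_cu)
open Crest.Agent.R257.Defs_219
open Crest.Agent.R257.PN_835 (nsq)
open Crest.Agent.R257.Aff_835 (eta2a)
open Crest.Agent.R257.KED_952 Crest.Agent.R257.Ked1_397 Crest.Agent.R257.Ked2_397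
open Crest.Agent.R257.V1Defs_822 (SmL LvlOK)
open Crest.Agent.R257.OutA_309 Crest.Agent.R257.OutB_309 Crest.Agent.R257.LossD_309

noncomputable section

variable {f : E3 → ℂ} {s : ℂ} {r : ℝ}

theorem hol_contDiffAt {O : Set (Cn 2)} {θ : Cn 2 → E3} (h : PE f s r θ O) {z : Cn 2}
    (hz : z ∈ O) : ContDiffAt ℝ ∞ θ z :=
  ((Crest.Agent.R266.SCV.contDiffOn_omega_of_differentiableOn h.par.isOpen
    h.par.hol).restrict_scalars ℝ |>.of_le le_top).contDiffAt (h.par.isOpen.mem_nhds hz)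

/-- `dns` at a point is read in one parametrisation -/
theorem dns_rep (L : LvlOK f s r) {x : E3} (hx : f x = s) (h0 : x ≠ 0) (hr : nsq x < r ^ 2) :
    ∃ (θ : Cn 2 → E3) (O : Set (Cn 2)) (z : Cn 2), PE f s r θ O ∧ z ∈ O ∧ θ z = x ∧
      0 < eta2a (n := 2) f θ z ∧
      ∀ D : (Cn 2 → E3) → Cn 2 → ℝ, dns f D x = D θ z / eta2a (n := 2) f θ z := by
  obtain ⟨θ₁, ρ₁, q₁, N₁, c⟩ := exists_lc (r := r) (L.an x hr) (L.sm x h0 hr hx) hx h0 hr
  have hex : ∃ p : (Cn 2 → E3) × Set (Cn 2) × Cn 2,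
      Aff_835.Par (n := 2) f (f x) p.1 p.2.1 ∧ p.2.2 ∈ p.2.1 ∧ p.1 p.2.2 = x :=
    ⟨(θ₁, Metric.ball 0 ρ₁, 0), by rw [hx]; exact c.pe.par, Metric.mem_ball_self c.pos, c.zero⟩
  obtain ⟨h1, h2, h3⟩ := hex.choose_spec
  set θ' := hex.choose.1 with hθ'
  set O' := hex.choose.2.1 with hO'
  set z' := hex.choose.2.2 with hz'
  rw [hx] at h1
  have hct : ContinuousOn θ' O' := h1.hol.continuousOn
  have hopen : IsOpen (O' ∩ θ' ⁻¹' {y | y ≠ 0 ∧ nsq y < r ^ 2}) :=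
    hct.isOpen_inter_preimage h1.isOpen
      (isOpen_ne.inter (isOpen_lt continuous_nsq continuous_const))
  have hpe : PE f s r θ' (O' ∩ θ' ⁻¹' {y | y ≠ 0 ∧ nsq y < r ^ 2}) :=
    ⟨h1.mono hopen inter_subset_left, fun z hz => hz.2.1, fun z hz => hz.2.2⟩
  have hmem : z' ∈ O' ∩ θ' ⁻¹' {y | y ≠ 0 ∧ nsq y < r ^ 2} :=
    ⟨h2, by show θ' z' ≠ 0 ∧ nsq (θ' z') < r ^ 2; rw [h3]; exact ⟨h0, hr⟩⟩
  refine ⟨θ', _, z', hpe, hmem, h3, eta2a_nn hpe L.sm hmem, fun D => ?_⟩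
  unfold dns
  rw [dif_pos hex]

/-- additivity of `dns` at the points of the level -/
theorem dns_add (L : LvlOK f s r) {D₁ D₂ D₃ : (Cn 2 → E3) → Cn 2 → ℝ}
    (hD : ∀ θ O, PE f s r θ O → ∀ z ∈ O, D₃ θ z = D₁ θ z + D₂ θ z) {x : E3} (hx : f x = s)
    (h0 : x ≠ 0) (hr : nsq x < r ^ 2) : dns f D₃ x = dns f D₁ x + dns f D₂ x := by
  obtain ⟨θ, O, z, h, hz, -, -, e⟩ := dns_rep L hx h0 hr
  rw [e D₁, e D₂, e D₃, hD θ O h z hz, add_div]

theorem dns_zero (L : LvlOK f s r) {D : (Cn 2 → E3) → Cn 2 → ℝ} {x : E3}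
    (hD : ∀ θ O, PE f s r θ O → ∀ z ∈ O, θ z = x → D θ z = 0) (hx : f x = s)
    (h0 : x ≠ 0) (hr : nsq x < r ^ 2) : dns f D x = 0 := by
  obtain ⟨θ, O, z, h, hz, hzx, -, e⟩ := dns_rep L hx h0 hr
  rw [e D, hD θ O h z hz hzx, zero_div]

/-- Hermitian bundle of rank 2 with a holomorphic section on a level -/
structure Bun (f : E3 → ℂ) (s : ℂ) (r : ℝ) (H : (Cn 2 → E3) → Cn 2 → Matrix (Fin 2) (Fin 2) ℂ)
    (V : (Cn 2 → E3) → Cn 2 → Fin 2 → ℂ) : Prop where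
  bv : ∀ θ O, PE f s r θ O → ∀ z ∈ O, BV (H θ) (V θ) z
  tr : ∀ θ O, PE f s r θ O → ∀ (θ' : Cn 2 → E3) (z' : Cn 2) (T : Cn 2 → Cn 2),
      (∀ᶠ w in 𝓝 z', DifferentiableAt ℂ T w) → T z' ∈ O →
      (∀ᶠ w in 𝓝 z', T w ∈ O ∧ θ' w = θ (T w)) → (Jac T z').det ≠ 0 →
      ∃ F, Chg (H θ') (V θ') (H θ) (V θ) T F z'

/-- density of the second Chern form -/
def c2x (f : E3 → ℂ) (H : (Cn 2 → E3) → Cn 2 → Matrix (Fin 2) (Fin 2) ℂ) : E3 → ℝ :=
  dns f fun θ z => (c2 (H θ) z).re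

/-- density of `∂∂̄χ ∧ Γ` -/
def ox (f : E3 → ℂ) (H : (Cn 2 → E3) → Cn 2 → Matrix (Fin 2) (Fin 2) ℂ)
    (V : (Cn 2 → E3) → Cn 2 → Fin 2 → ℂ) (χ : E3 → ℝ) : E3 → ℝ :=
  dns f fun θ z => (pd (cH (fun z => χ (θ z)) z) (Gm (H θ) (V θ) z)).re


variable {H : (Cn 2 → E3) → Cn 2 → Matrix (Fin 2) (Fin 2) ℂ}
  {V : (Cn 2 → E3) → Cn 2 → Fin 2 → ℂ} {χ : E3 → ℝ}

theorem comp_sm (hχ : ContDiff ℝ ∞ χ) {O : Set (Cn 2)} {θ : Cn 2 → E3} (h : PE f s r θ O)
    {z : Cn 2} (hz : z ∈ O) : ContDiffAt ℝ ∞ (fun z => χ (θ z)) z :=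
  hχ.contDiffAt.comp z (hol_contDiffAt h hz)

theorem hess_zero (z : Cn 2) : hess (fun _ : Cn 2 => (0 : ℝ)) z = 0 := by
  ext a b
  rw [hess_eq]
  have h1 : (cu fun _ : Cn 2 => (0 : ℝ)) = fun _ => (0 : ℂ) := by
    funext y; simp [cu]
  have h2 : dS I b (fun _ : Cn 2 => (0 : ℂ)) = fun _ => 0 := by
    funext y; simp [dS]
  rw [h1, h2]
  simp [dS]

theorem cH_zero {O : Set (Cn 2)} {θ : Cn 2 → E3} (h : PE f s r θ O)
    {z : Cn 2} (hz : z ∈ O) (h0 : ∀ᶠ x in 𝓝 (θ z), χ x = 0) : cH (fun z => χ (θ z)) z = 0 := by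
  have hc : ContinuousAt θ z := (hol_contDiffAt h hz).continuousAt
  have e : (fun z => χ (θ z)) =ᶠ[𝓝 z] fun _ => (0 : ℝ) := hc.eventually h0
  have h1 : ContDiffAt ℝ ∞ (fun z => χ (θ z)) z := contDiffAt_const.congr_of_eventuallyEq e
  rw [cH_eq_hess h1, hess_congr e, hess_zero]

theorem Bun.c2x_eq (B : Bun f s r H V) (L : LvlOK f s r) {O : Set (Cn 2)} {θ : Cn 2 → E3}
    (h : PE f s r θ O) {z : Cn 2} (hz : z ∈ O) :
    c2x f H (θ z) * eta2a (n := 2) f θ z = (c2 (H θ) z).re := by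
  refine dns_eq (D := fun θ z => (c2 (H θ) z).re) h.par hz (L.an _ (h.lt z hz))
    (L.sm _ (h.ne z hz) (h.lt z hz) (h.par.lvl z hz)) ?_
  intro θ' z' T hT hTz hTe hdet
  have hTO : T z' ∈ O := by rw [hTz]; exact hz
  obtain ⟨F, c⟩ := B.tr θ O h θ' z' T hT hTO hTe hdet
  have e := c.c2_eq (B.bv θ O h _ hTO)
  show (c2 (H θ') z').re = _
  rw [e, hTz, Complex.mul_conj, Complex.normSq_eq_norm_sq, Complex.re_ofReal_mul]

theorem Bun.ox_eq (B : Bun f s r H V) (L : LvlOK f s r) (hχ : ContDiff ℝ ∞ χ) {O : Set (Cn 2)}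
    {θ : Cn 2 → E3} (h : PE f s r θ O) {z : Cn 2} (hz : z ∈ O) (h0 : V θ z ≠ 0) :
    ox f H V χ (θ z) * eta2a (n := 2) f θ z =
      (pd (cH (fun z => χ (θ z)) z) (Gm (H θ) (V θ) z)).re := by
  refine dns_eq (D := fun θ z => (pd (cH (fun z => χ (θ z)) z) (Gm (H θ) (V θ) z)).re) h.par hz
    (L.an _ (h.lt z hz)) (L.sm _ (h.ne z hz) (h.lt z hz) (h.par.lvl z hz)) ?_
  intro θ' z' T hT hTz hTe hdet
  have hTO : T z' ∈ O := by rw [hTz]; exact hz
  obtain ⟨F, c⟩ := B.tr θ O h θ' z' T hT hTO hTe hdet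
  have e := c.gm_eq (B.bv θ O h _ hTO) (by rw [hTz]; exact h0)
  have ha := comp_sm (χ := χ) hχ h hz
  obtain ⟨a1, a2⟩ := hess_trans hT hTe (a := χ) (by rw [hTz]; exact ha)
  show (pd (cH (fun z => χ (θ' z)) z') (Gm (H θ') (V θ') z')).re = _
  rw [cH_eq_hess a1, cH_eq_hess ha, a2, e, pd_pbk, hTz,
    Complex.mul_conj, Complex.normSq_eq_norm_sq, Complex.re_ofReal_mul]

theorem ox_zero (L : LvlOK f s r) {x : E3} (hχ : ∀ᶠ y in 𝓝 x, χ y = 0) (hx : f x = s)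
    (h0 : x ≠ 0) (hr : nsq x < r ^ 2) : ox f H V χ x = 0 := by
  refine dns_zero L (fun θ O h z hz hzx => ?_) hx h0 hr
  rw [cH_zero (χ := χ) h hz (by rw [hzx]; exact hχ)]
  simp [pd]

theorem ox_add (L : LvlOK f s r) {χ' : E3 → ℝ} (hχ : ContDiff ℝ ∞ χ) (hχ' : ContDiff ℝ ∞ χ')
    {x : E3} (hx : f x = s) (h0 : x ≠ 0) (hr : nsq x < r ^ 2) :
    ox f H V (fun x => χ x + χ' x) x = ox f H V χ x + ox f H V χ' x := by
  refine dns_add L (fun θ O h z hz => ?_) hx h0 hr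
  have h1 := comp_sm (χ := χ) hχ h hz
  have h2 := comp_sm (χ := χ') hχ' h hz
  rw [cH_eq_hess (h1.add h2), cH_eq_hess h1, cH_eq_hess h2,
    hess_add (u := fun z => χ (θ z)) (v := fun z => χ' (θ z)) h1 h2, add_pd, Complex.add_re]

/-- isolated zeros -/
theorem BV.iso_zero {H : Cn 2 → Matrix (Fin 2) (Fin 2) ℂ} {V : Cn 2 → Fin 2 → ℂ} {p : Cn 2}
    (h : BV H V p) (hnd : V p = 0 → Nd V p) :
    ∃ ρ > 0, ∀ z ∈ Metric.ball p ρ, z ≠ p → V z ≠ 0 := by
  by_cases h0 : V p = 0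
  · have hN : Idx6_761.ND H V p := ⟨h.mH, h.mP, h.mV, h0, hnd h0⟩
    obtain ⟨ρ, c, C, hG⟩ := Idx4_761.exists_good hN.nz
    refine ⟨ρ, hG.r0, fun z hz hzp hz0 => ?_⟩
    have h1 := hG.q_pos hz hzp
    unfold hV at h1
    rw [hz0] at h1
    simp at h1
  · obtain ⟨ρ, hρ, hb⟩ := Metric.eventually_nhds_iff_ball.1 (h.ne_ev h0)
    exact ⟨ρ, hρ, fun z hz _ => hb z hz⟩

open Classical in
/-- the local statement -/
theorem Bun.loc (B : Bun f s r H V) (L : LvlOK f s r) {ν : Measure E3} (hν : IsNu f s r ν)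
    (hnd : ∀ θ O, PE f s r θ O → ∀ z ∈ O, V θ z = 0 → Nd (V θ) z) {p : E3} (hp : f p = s)
    (hp0 : p ≠ 0) (hpr : nsq p < r ^ 2) {W : Set E3} (hW : IsOpen W) (hpW : p ∈ W) :
    ∃ N : Set E3, IsOpen N ∧ p ∈ N ∧ N ⊆ W ∧ ∃ b : Prop,
      (∀ θ O, PE f s r θ O → ∀ z ∈ O, θ z = p → (V θ z = 0 ↔ b)) ∧
      ∀ φ : E3 → ℝ, ContDiff ℝ ∞ φ → HasCompactSupport φ → tsupport φ ⊆ N →
      Integrable (fun x => φ x * c2x f H x) ν ∧ Integrable (ox f H V φ) ν ∧
      ∫ x, φ x * c2x f H x ∂ν = ∫ x, ox f H V φ x ∂ν + (if b then Real.pi ^ 2 * φ p else 0) := by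
  obtain ⟨θ, ρ, q, N, c⟩ := exists_lc (r := r) (L.an p hpr) (L.sm p hp0 hpr hp) hp hp0 hpr
  have h0B : (0 : Cn 2) ∈ Metric.ball (0 : Cn 2) ρ := Metric.mem_ball_self c.pos
  have hbv := B.bv θ _ c.pe 0 h0B
  have hnd0 := hnd θ _ c.pe 0 h0B
  obtain ⟨r₀, hr₀, hloc⟩ := hbv.loc hnd0
  obtain ⟨r₁, hr₁, hiso⟩ := BV.iso_zero hbv hnd0
  set ρ' := min ρ (min r₀ r₁) with hρ'
  have hρ'0 : 0 < ρ' := lt_min c.pos (lt_min hr₀ hr₁)
  have hB : IsOpen {x : E3 | nsq x < r ^ 2} := isOpen_lt continuous_nsq continuous_const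
  have c' := c.shrink hρ'0 (min_le_left _ _) (hW.inter hB) ⟨hpW, hpr⟩
  set N' := N ∩ (q ⁻¹' Metric.ball 0 ρ' ∩ (W ∩ {x : E3 | nsq x < r ^ 2})) with hN'
  have hsub0 : Metric.ball (0 : Cn 2) ρ' ⊆ Metric.ball 0 r₀ :=
    Metric.ball_subset_ball ((min_le_right _ _).trans (min_le_left _ _))
  have hsub1 : Metric.ball (0 : Cn 2) ρ' ⊆ Metric.ball 0 r₁ :=
    Metric.ball_subset_ball ((min_le_right _ _).trans (min_le_right _ _))
  have hpe := c'.pe
  refine ⟨N', c'.No, c'.Np, fun x hx => hx.2.2.1, V θ 0 = 0, ?_, ?_⟩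
  · intro θ' O' h' z' hz' hzp
    obtain ⟨T, hT, hTz, hTe⟩ := exists_trans h'.par hpe.par hz' (Metric.mem_ball_self hρ'0)
      (by rw [hzp, c.zero]) (L.an _ (by rw [c.zero]; exact hpr)).hasStrictFDerivAt
      (L.sm _ (by rw [c.zero]; exact hp0) (by rw [c.zero]; exact hpr) (by rw [c.zero]; exact hp))
    have hdet := det_trans h'.par hpe.par hz' hT hTe
    have hTO : T z' ∈ Metric.ball (0 : Cn 2) ρ' := by rw [hTz]; exact Metric.mem_ball_self hρ'0
    obtain ⟨F, cg⟩ := B.tr θ _ hpe θ' z' T hT hTO hTe hdet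
    have e := cg.eV.self_of_nhds
    rw [hTz] at e
    constructor
    · intro h1
      rw [e, h1, Matrix.mulVec_zero]
    · intro h1
      rw [h1] at e
      by_contra h2
      exact cg.F_ne (Matrix.exists_mulVec_eq_zero_iff.1 ⟨_, h2, e.symm⟩)
  intro φ hφ hc hsp
  obtain ⟨s1, s2, s3⟩ := c'.cut L.an (fun x hx => hx.2.2.2) hφ hc hsp (a := fun _ => (1 : ℝ))
    contDiffOn_const
  simp only [mul_one] at s1 s2 s3
  set κ : Cn 2 → ℝ := rdc θ ρ' φ with hκ
  have hCS : CS (Metric.ball (0 : Cn 2) ρ') (cu κ) := by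
    refine ⟨Complex.ofRealCLM.contDiff.comp s1, ?_, ?_⟩
    · exact s2.comp_left (g := fun x : ℝ => (x : ℂ)) Complex.ofReal_zero
    · refine (closure_mono fun z hz => ?_).trans s3
      intro h1
      exact hz (by show ((κ z : ℝ) : ℂ) = 0; rw [h1]; simp)
  obtain ⟨i1, i2, i3⟩ := hloc (cu κ) (hCS.mono hsub0)
  have hφ0 : ∀ x, x ∉ N' → ∀ᶠ y in 𝓝 x, φ y = 0 := fun x hx =>
    notMem_tsupport_iff_eventuallyEq.1 fun h => hx (hsp h)
  -- second Chern form
  have A1 := c'.integral hν L.an L.sm (F := fun x => φ x * c2x f H x)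
    (G := fun z => (cu κ z * c2 (H θ) z).re) i1.re
    (fun z hz => by
      show φ (θ z) * c2x f H (θ z) * _ = (((κ z : ℝ) : ℂ) * _).re
      rw [mul_assoc, B.c2x_eq L hpe hz, Complex.re_ofReal_mul, hκ, rdc_in hz])
    (fun z hz => by
      show (((κ z : ℝ) : ℂ) * _).re = 0
      rw [hκ, rdc_off hz]; simp)
    (fun x _ _ _ hx => by
      show φ x * _ = 0
      rw [(hφ0 x hx).self_of_nhds, zero_mul])
  -- outer form
  have hae : ∀ᵐ z : Cn 2, z ≠ 0 := Idx4_761.ae_ne 0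
  have A2 := c'.integral_ae hν L.an L.sm (F := ox f H V φ)
    (G := fun z => (pd (hs (cu κ) z) (Gm (H θ) (V θ) z)).re) i2.re
    (by
      filter_upwards [hae] with z hz0 hz
      rw [B.ox_eq L hφ hpe hz (hiso z (hsub1 hz) hz0), hs_cu, cH_eq_hess (comp_sm hφ hpe hz)]
      rw [hess_congr (rdc_ev hz)])
    (fun z hz => by
      have h1 : (cu κ) =ᶠ[𝓝 z] fun _ => (0 : ℂ) := by
        have h2 : z ∉ tsupport (cu κ) := fun h => hz (hCS.sub h)
        exact notMem_tsupport_iff_eventuallyEq.1 h2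
      have h2 : hs (cu κ) z = 0 := by
        rw [hs_cu]
        have h3 : κ =ᶠ[𝓝 z] fun _ => (0 : ℝ) := by
          filter_upwards [h1] with y hy
          exact Complex.ofReal_eq_zero.1 hy
        rw [hess_congr h3, hess_zero]
      rw [h2]
      simp [pd])
    (fun x hx hx0 hxr hxN => ox_zero L (hφ0 x hxN) hx hx0 hxr)
  refine ⟨A1.1, A2.1, ?_⟩
  rw [A1.2, A2.2]
  have e1 : ∫ z, (cu κ z * c2 (H θ) z).re = (∫ z, cu κ z * c2 (H θ) z).re := integral_re i1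
  have e2 : ∫ z, (pd (hs (cu κ) z) (Gm (H θ) (V θ) z)).re
      = (∫ z, pd (hs (cu κ) z) (Gm (H θ) (V θ) z)).re := integral_re i2
  rw [e1, e2, i3, Complex.add_re]
  congr 1
  by_cases hb : V θ 0 = 0
  · rw [if_pos hb, if_pos hb]
    have h1 : κ 0 = φ p := by
      rw [hκ, rdc_in (Metric.mem_ball_self hρ'0), c.zero]
    show ((Real.pi : ℂ) ^ 2 * ((κ 0 : ℝ) : ℂ)).re = _
    rw [h1]
    have h2 : ((Real.pi : ℂ) ^ 2 * ((φ p : ℝ) : ℂ)) = ((Real.pi ^ 2 * φ p : ℝ) : ℂ) := by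
      push_cast; ring
    rw [h2, Complex.ofReal_re]
  · rw [if_neg hb, if_neg hb]
    simp

open Classical in
/-- **the identity** -/
theorem Bun.e1 (B : Bun f s r H V) (L : LvlOK f s r) {ν : Measure E3} (hν : IsNu f s r ν)
    (hχ : ContDiff ℝ ∞ χ) (hc : HasCompactSupport χ)
    (hr : ∀ x ∈ tsupport χ, nsq x < r ^ 2) (h0 : ∀ x ∈ tsupport χ, f x = s → x ≠ 0)
    (hnd : ∀ θ O, PE f s r θ O → ∀ z ∈ O, V θ z = 0 → Nd (V θ) z) (Z : Finset E3)
    (hZ : ∀ x ∈ Z, f x = s)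
    (hZV : ∀ θ O, PE f s r θ O → ∀ z ∈ O, θ z ∈ tsupport χ → (θ z ∈ Z ↔ V θ z = 0)) :
    Integrable (fun x => χ x * c2x f H x) ν ∧ Integrable (ox f H V χ) ν ∧
    ∫ x, χ x * c2x f H x ∂ν = ∫ x, ox f H V χ x ∂ν + Real.pi ^ 2 * ∑ x ∈ Z, χ x := by
  have hlv : ∀ᵐ x ∂ν, f x = s ∧ x ≠ 0 ∧ nsq x < r ^ 2 := by
    rw [ae_iff]; exact hν.null
  refine glob (P := fun φ => Integrable (fun x => φ x * c2x f H x) ν ∧
    Integrable (ox f H V φ) ν ∧
    ∫ x, φ x * c2x f H x ∂ν = ∫ x, ox f H V φ x ∂ν + Real.pi ^ 2 * ∑ x ∈ Z, φ x)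
    ?_ ?_ hc.isCompact ?_ hχ hc Subset.rfl
  · -- zero
    have e : ox f H V (fun _ => 0) =ᵐ[ν] fun _ => 0 := by
      filter_upwards [hlv] with x hx
      exact ox_zero L (Eventually.of_forall fun _ => rfl) hx.1 hx.2.1 hx.2.2
    refine ⟨by simp, (integrable_zero _ _ _).congr e.symm, ?_⟩
    rw [integral_congr_ae e]
    simp
  · -- sum
    rintro φ φ' hφ hφ' - - ⟨a1, a2, a3⟩ ⟨b1, b2, b3⟩
    have e : ox f H V (fun x => φ x + φ' x) =ᵐ[ν] fun x => ox f H V φ x + ox f H V φ' x := by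
      filter_upwards [hlv] with x hx
      exact ox_add L hφ hφ' hx.1 hx.2.1 hx.2.2
    have e' : (fun x => (φ x + φ' x) * c2x f H x) =
        fun x => φ x * c2x f H x + φ' x * c2x f H x := funext fun x => by ring
    refine ⟨by rw [e']; exact a1.add b1, (a2.add b2).congr e.symm, ?_⟩
    rw [integral_congr_ae e, e', integral_add a1 b1, integral_add a2 b2, a3, b3,
      Finset.sum_add_distrib]
    ring
  · -- local
    intro p hp
    have hB : IsOpen {x : E3 | nsq x < r ^ 2} := isOpen_lt continuous_nsq continuous_const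
    have hpr := hr p hp
    by_cases hps : f p = s
    · have hp0 := h0 p hp hps
      set W : Set E3 := ((Z.erase p : Finset E3) : Set E3)ᶜ with hW
      have hWo : IsOpen W := (Finset.finite_toSet _).isClosed.isOpen_compl
      have hpW : p ∈ W := by
        intro h1
        exact Finset.notMem_erase p Z (Finset.mem_coe.1 h1)
      obtain ⟨N, hNo, hpN, hNW, b, hb, hk⟩ := B.loc L hν hnd hps hp0 hpr hWo hpW
      refine ⟨N, hNo, hpN, fun φ hφ hcφ hsφ => ?_⟩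
      obtain ⟨k1, k2, k3⟩ := hk φ hφ hcφ hsφ
      refine ⟨k1, k2, ?_⟩
      rw [k3]
      congr 1
      have hz : ∀ x ∈ Z, x ≠ p → φ x = 0 := by
        intro x hx hxp
        refine image_eq_zero_of_notMem_tsupport fun h1 => ?_
        exact hNW (hsφ h1) (Finset.mem_coe.2 (Finset.mem_erase.2 ⟨hxp, hx⟩))
      obtain ⟨θ, O, z, hpe, hzO, hzp, -, -⟩ := dns_rep L hps hp0 hpr
      have hbZ : p ∈ Z ↔ b := by
        rw [← hb θ O hpe z hzO hzp, ← hZV θ O hpe z hzO (by rw [hzp]; exact hp), hzp]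
      by_cases hpZ : p ∈ Z
      · rw [if_pos (hbZ.1 hpZ), Finset.sum_eq_single_of_mem p hpZ hz]
      · rw [if_neg fun h1 => hpZ (hbZ.2 h1), Finset.sum_eq_zero, mul_zero]
        intro x hx
        exact hz x hx fun h1 => hpZ (h1 ▸ hx)
    · have hfc : ContinuousOn f {x : E3 | nsq x < r ^ 2} := fun x hx =>
        (L.an x hx).continuousAt.continuousWithinAt
      refine ⟨{x : E3 | nsq x < r ^ 2} ∩ f ⁻¹' {s}ᶜ,
        hfc.isOpen_inter_preimage hB isClosed_singleton.isOpen_compl, ⟨hpr, hps⟩,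
        fun φ hφ hcφ hsφ => ?_⟩
      have hz : ∀ x, f x = s → ∀ᶠ y in 𝓝 x, φ y = 0 := fun x hx =>
        notMem_tsupport_iff_eventuallyEq.1 fun h => (hsφ h).2 hx
      have e1 : (fun x => φ x * c2x f H x) =ᵐ[ν] fun _ => 0 := by
        filter_upwards [hlv] with x hx
        rw [(hz x hx.1).self_of_nhds, zero_mul]
      have e2 : ox f H V φ =ᵐ[ν] fun _ => 0 := by
        filter_upwards [hlv] with x hx
        exact ox_zero L (hz x hx.1) hx.1 hx.2.1 hx.2.2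
      refine ⟨(integrable_zero _ _ _).congr e1.symm, (integrable_zero _ _ _).congr e2.symm, ?_⟩
      rw [integral_congr_ae e1, integral_congr_ae e2, Finset.sum_eq_zero fun x hx =>
        (hz x (hZ x hx)).self_of_nhds]
      simp

end

end Crest.Agent.R257.OutC_309
end

-- ▼ part R257/OutD_309

/-!
# R257 (S0395), leaf GB-OUT (helper309), part D: the bundle `Ω¹ ⊗ L_φ`

* `c2_dual`    : `c2 (e^{-ψ} G⁻¹) = c2 Gᵀ + pd (∂∂̄ log det G) (∂∂̄ψ) + pd (∂∂̄ψ) (∂∂̄ψ)`, `G = ∂∂̄v`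
* `bunO`       : `Bun f s r (HO u φ) (dV h)`
* `c2x_HO`     : `c2x f (HO u φ) = c2d f u + mxd f u φ + mxd f φ φ` for Kähler-Einstein weights
* `e1Stmt`     : **`E1Stmt`**
-/

set_option autoImplicit false
set_option linter.unusedSectionVars false

open Set Filter Topology Complex MeasureTheory
open scoped ContDiff Matrix ComplexConjugate ComplexOrder ENNReal

namespace Crest.Agent.R257.OutD_309

open Crest.Agent.R275.Geo Crest.Agent.R275.EDR890
open Crest.Agent.R273.Fock_243 Crest.Agent.R273.Calc_243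
open Crest.Agent.R273.Bkn_243 Crest.Agent.R273.Pos_243 Crest.Agent.R273.BochA_101
open Crest.Agent.R273.BochB_101
open Crest.Agent.R273.BochC_101 Crest.Agent.R273.BochD_101
open Crest.Agent.R273.Hess_333 Crest.Agent.R273.HessB_333
open Crest.Agent.R273.Defs_333 (lev)
open Crest.Agent.R273.YauDefs_635 (cH)
open Crest.Agent.R273.YauMax_635 (cH_eq_hess)
open Crest.Agent.R257.C2F1_625 Crest.Agent.R257.C2F2_625 Crest.Agent.R257.C2F3_625
open Crest.Agent.R257.C2F4_335 Crest.Agent.R257.C2F5_335 Crest.Agent.R257.C2F6_335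
open Crest.Agent.R257.Defs_219
open Crest.Agent.R257.PN_835 (nsq)
open Crest.Agent.R257.Aff_835 (eta2a)
open Crest.Agent.R257.KED_952 Crest.Agent.R257.Ked1_397 Crest.Agent.R257.Ked2_397
open Crest.Agent.R257.V1Defs_822 (SmL LvlOK)
open Crest.Agent.R257.OutA_309 Crest.Agent.R257.OutB_309 Crest.Agent.R257.LossD_309
open Crest.Agent.R257.OutC_309

noncomputable section

/-! ### linear algebra -/

/-- the symplectic matrix -/
def Js : Matrix (Fin 2) (Fin 2) ℂ := !![0, 1; -1, 0]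

theorem Js_det : Js.det = 1 := by simp [Js, Matrix.det_fin_two]

theorem inv_eq_Js (G : Matrix (Fin 2) (Fin 2) ℂ) :
    G⁻¹ = (G.det)⁻¹ • (Jsᴴ * Gᵀ * Js) := by
  rw [Matrix.inv_def, Ring.inverse_eq_inv', Matrix.adjugate_fin_two]
  congr 1
  ext i j
  fin_cases i <;> fin_cases j <;>
    simp [Js, Matrix.mul_apply, Fin.sum_univ_two, Matrix.conjTranspose_apply]

/-! ### the chart -/

section
variable {v ψ : Cn 2 → ℝ} {z : Cn 2}

/-- the metric in a chart -/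
def Hc (v ψ : Cn 2 → ℝ) (y : Cn 2) : Matrix (Fin 2) (Fin 2) ℂ :=
  ((Real.exp (-ψ y) : ℝ) : ℂ) • (cH v y)⁻¹

theorem HO_eq (u φ : E3 → ℝ) (θ : Cn 2 → E3) :
    HO u φ θ = Hc (fun z => u (θ z)) (fun z => φ (θ z)) := rfl

/-- the potential is smooth and strictly psh near `z` -/
structure Pot (v : Cn 2 → ℝ) (z : Cn 2) : Prop where
  sm : ∀ᶠ y in 𝓝 z, ContDiffAt ℝ ∞ v y
  pos : ∀ᶠ y in 𝓝 z, (hess v y).PosDef

theorem Pot.of_on {O : Set (Cn 2)} (hO : IsOpen O) (h1 : ContDiffOn ℝ ∞ v O)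
    (h2 : ∀ y ∈ O, ∀ w, w ≠ 0 → 0 < lev v y w) (hz : z ∈ O) : Pot v z := by
  have hs : ∀ y ∈ O, ContDiffAt ℝ ∞ v y := fun _ hy => h1.contDiffAt (hO.mem_nhds hy)
  constructor
  · filter_upwards [hO.mem_nhds hz] with y hy
    exact hs y hy
  · filter_upwards [hO.mem_nhds hz] with y hy using posDef_hess (hs y hy) (h2 y hy)

theorem Pot.ev (h : Pot v z) : ∀ᶠ y in 𝓝 z, Pot v y := by
  filter_upwards [h.sm.eventually_nhds, h.pos.eventually_nhds] with y a b using ⟨a, b⟩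

theorem Pot.cH_ev (h : Pot v z) : (fun y => cH v y) =ᶠ[𝓝 z] fun y => hess v y :=
  h.sm.mono fun y hy => cH_eq_hess hy

theorem Pot.smM (h : Pot v z) : SmM z (fun y => hess v y) := fun S T =>
  contDiffAt_hess h.sm.self_of_nhds S T

theorem Pot.det_ne (h : Pot v z) : (hess v z).det ≠ 0 := h.pos.self_of_nhds.det_pos.ne'


/-- `log det ∂∂̄v` -/
def ldt (v : Cn 2 → ℝ) (y : Cn 2) : ℝ := Real.log (hess v y).det.re

theorem Pot.sm_ldt (h : Pot v z) : ContDiffAt ℝ ∞ (ldt v) z :=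
  (Complex.reCLM.contDiff.contDiffAt.comp z (SmM.det h.smM)).log
    (det_re_pos'' h.pos.self_of_nhds).ne'

theorem Hc_ev (h : Pot v z) :
    Hc v ψ =ᶠ[𝓝 z] fun y => ((Real.exp (-(ψ y + ldt v y)) : ℝ) : ℂ) •
      (Jsᴴ * (hess v y)ᵀ * Js) := by
  filter_upwards [h.cH_ev, h.pos] with y h1 h2
  have h3 := det_re_pos'' h2
  have h4 : (hess v y).det = (((hess v y).det.re : ℝ) : ℂ) :=
    Complex.ext (Complex.ofReal_re _).symm (by
      rw [Complex.ofReal_im]; exact (Complex.lt_def.1 h2.det_pos).2.symm)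
  unfold Hc
  rw [h1, inv_eq_Js, smul_smul]
  congr 1
  rw [neg_add, Real.exp_add, ldt, Real.exp_neg (Real.log _), Real.exp_log h3]
  rw [h4]
  push_cast
  simp

theorem Hc_smM (h : Pot v z) (hψ : ∀ᶠ y in 𝓝 z, ContDiffAt ℝ ∞ ψ y) : SmM z (Hc v ψ) := by
  have h1 : SmM z (fun y => (hess v y)⁻¹) := SmM.inv h.smM h.det_ne
  have h2 : Sm z (fun y => ((Real.exp (-ψ y) : ℝ) : ℂ)) :=
    contDiffAt_cu (hψ.self_of_nhds.neg.exp)
  intro S T
  have h3 : (fun y => Hc v ψ y S T) =ᶠ[𝓝 z] fun y =>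
      ((Real.exp (-ψ y) : ℝ) : ℂ) * (hess v y)⁻¹ S T := by
    filter_upwards [h.cH_ev] with y hy
    unfold Hc
    rw [hy]
    rfl
  exact (h2.mul (h1 S T)).congr_of_eventuallyEq h3

theorem Hc_posDef (h : Pot v z) (ψ : Cn 2 → ℝ) : (Hc v ψ z).PosDef := by
  have h1 : cH v z = hess v z := h.cH_ev.self_of_nhds
  unfold Hc
  rw [h1]
  exact (h.pos.self_of_nhds.inv).smul (Complex.zero_lt_real.2 (Real.exp_pos _))

/-- the second Chern form of `Ω¹ ⊗ L` -/
theorem c2_dual (h : Pot v z) (hψ : ∀ᶠ y in 𝓝 z, ContDiffAt ℝ ∞ ψ y) :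
    c2 (Hc v ψ) z = c2 (fun y => (cH v y)ᵀ) z + pd (hess (ldt v) z) (hess ψ z)
      + pd (hess ψ z) (hess ψ z) := by
  set K : Cn 2 → Matrix (Fin 2) (Fin 2) ℂ := fun y => (hess v y)ᵀ with hK
  have hKsm : ∀ᶠ y in 𝓝 z, SmM y K := by
    filter_upwards [h.ev] with y hy S T
    exact hy.smM T S
  have hKd : (K z).det ≠ 0 := by
    rw [hK, Matrix.det_transpose]; exact h.det_ne
  have hJ : HolM z (fun _ : Cn 2 => Js) := fun S T =>
    Eventually.of_forall fun y => differentiableAt_const _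
  have hJd : (Js).det ≠ 0 := by rw [Js_det]; exact one_ne_zero
  -- the frame
  set K' : Cn 2 → Matrix (Fin 2) (Fin 2) ℂ := fun y => Jsᴴ * K y * Js with hK'
  have e1 : c2 K' z = c2 K z := c2_frame (F := fun _ => Js) hKsm hKd hJ hJd
  have hJc : (Jsᴴ).det = 1 := by rw [Matrix.det_conjTranspose, Js_det, star_one]
  have hdet : ∀ y, (K' y).det = (hess v y).det := fun y => by
    rw [hK', Matrix.det_mul, Matrix.det_mul, hJc, Js_det, one_mul, mul_one, hK,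
      Matrix.det_transpose]
  have hK'sm : SmM z K' := by
    have h1 := hKsm.self_of_nhds
    intro S T
    have h2 : (fun y => K' y S T) = fun y => ∑ b, (∑ a, Jsᴴ S a * K y a b) * Js b T := by
      funext y
      simp only [hK', Matrix.mul_apply]
    rw [h2]
    refine ContDiffAt.sum fun b _ => ContDiffAt.mul (ContDiffAt.sum fun a _ => ?_)
      contDiffAt_const
    exact contDiffAt_const.mul (h1 a b)
  have hK'h : ∀ᶠ y in 𝓝 z, (K' y).IsHermitian := by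
    filter_upwards [h.pos] with y hy
    have h1 : (K y).IsHermitian := hy.isHermitian.transpose
    show (Jsᴴ * K y * Js)ᴴ = Jsᴴ * K y * Js
    rw [Matrix.conjTranspose_mul, Matrix.conjTranspose_mul, Matrix.conjTranspose_conjTranspose,
      h1.eq, Matrix.mul_assoc]
  have hK'd : (K' z).det ≠ 0 := by rw [hdet]; exact h.det_ne
  have hK'p : 0 < (K' z).det.re := by rw [hdet]; exact det_re_pos'' h.pos.self_of_nhds
  have hld := h.sm_ldt
  have hψz := hψ.self_of_nhds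
  have e2 : Matrix.of (ric K' z) = - hess (ldt v) z := by
    ext a b
    rw [Matrix.of_apply, ← hess_neg_log_det hK'sm hK'h hK'p a b]
    have e3 : (fun y => - Real.log (K' y).det.re) = fun y => - ldt v y := by
      funext y
      rw [hdet, ldt]
    rw [e3, hess_neg hld]
  have e4 := c2_twist (H := K') (φ := fun y => ψ y + ldt v y) hK'sm hK'd (hψz.add hld)
  rw [c2_congr (Hc_ev h), e4, e1, e2, hess_add (u := ψ) (v := ldt v) hψz hld]
  have e5 : c2 K z = c2 (fun y => (cH v y)ᵀ) z := by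
    refine c2_congr ?_
    filter_upwards [h.cH_ev] with y hy
    rw [hK]
    simp only [hy]
  rw [e5]
  simp only [pd_neg, pd_add, add_pd]
  rw [pd_comm (hess ψ z) (hess (ldt v) z)]
  ring

end

/-! ### the section `dh` -/

variable {f : E3 → ℂ} {s : ℂ} {r : ℝ}

theorem comp_hol {h : E3 → ℂ} {O : Set (Cn 2)} {θ : Cn 2 → E3}
    (hh : ∀ x, nsq x < r ^ 2 → AnalyticAt ℂ h x) (hP : PE f s r θ O) :
    DifferentiableOn ℂ (fun z => h (θ z)) O := fun z hz =>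
  (hh _ (hP.lt z hz)).differentiableAt.comp_differentiableWithinAt z (hP.par.hol z hz)

theorem dV_hol {h : E3 → ℂ} {O : Set (Cn 2)} {θ : Cn 2 → E3}
    (hh : ∀ x, nsq x < r ^ 2 → AnalyticAt ℂ h x) (hP : PE f s r θ O) (i : Fin 2) :
    DifferentiableOn ℂ (fun w => dV h θ w i) O := by
  have h3 : AnalyticOnNhd ℂ (fderiv ℂ fun z => h (θ z)) O :=
    (Crest.Agent.R266.SCV.analyticOnNhd_of_differentiableOn hP.par.isOpen (comp_hol hh hP)).fderiv
  exact h3.differentiableOn.clm_apply (differentiableOn_const _)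

/-- `fderiv` from `dV` -/
theorem fderiv_eq_dV {h : E3 → ℂ} {θ : Cn 2 → E3} {z : Cn 2} (w : Cn 2) :
    fderiv ℂ (fun z => h (θ z)) z w = ∑ a, w a * dV h θ z a := by
  have h1 : w = ∑ a, w a • (EuclideanSpace.single a (1 : ℂ) : Cn 2) := by
    ext b
    simp [Fin.sum_univ_two, PiLp.single_apply]
    fin_cases b <;> simp
  conv_lhs => rw [h1]
  rw [map_sum]
  refine Finset.sum_congr rfl fun a _ => ?_
  rw [map_smul, smul_eq_mul]
  rfl

/-- change of coordinates -/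
theorem dV_trans {h : E3 → ℂ} {O : Set (Cn 2)} {θ θ' : Cn 2 → E3} {w : Cn 2} {T : Cn 2 → Cn 2}
    (hh : ∀ x, nsq x < r ^ 2 → AnalyticAt ℂ h x) (hP : PE f s r θ O)
    (hT : DifferentiableAt ℂ T w) (hTe : ∀ᶠ y in 𝓝 w, T y ∈ O ∧ θ' y = θ (T y)) :
    dV h θ' w = (Jac T w)ᵀ *ᵥ dV h θ (T w) := by
  have e : (fun y => h (θ' y)) =ᶠ[𝓝 w] fun y => (fun z => h (θ z)) (T y) := by
    filter_upwards [hTe] with y hy
    show h (θ' y) = h (θ (T y))
    rw [hy.2]
  have hTw := hTe.self_of_nhds.1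
  have hd : DifferentiableAt ℂ (fun z => h (θ z)) (T w) :=
    (comp_hol hh hP).differentiableAt (hP.par.isOpen.mem_nhds hTw)
  funext c
  show fderiv ℂ (fun y => h (θ' y)) w (EuclideanSpace.single c 1) = _
  rw [e.fderiv_eq]
  have h1 : fderiv ℂ (fun y => (fun z => h (θ z)) (T y)) w =
      (fderiv ℂ (fun z => h (θ z)) (T w)).comp (fderiv ℂ T w) := fderiv_fun_comp w hd hT
  rw [h1, ContinuousLinearMap.comp_apply, fderiv_eq_dV]
  simp only [Matrix.mulVec, dotProduct, Matrix.transpose_apply, Jac, Matrix.of_apply]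

/-- **the bundle `Ω¹ ⊗ L_φ` with the section `dh`** -/
theorem bunO (L : LvlOK f s r) {u φ : E3 → ℝ} (hu : SmL f s r u)
    (hpos : ∀ θ O, PE f s r θ O → ∀ z ∈ O, ∀ v, v ≠ 0 → 0 < lev (fun z => u (θ z)) z v)
    (hφ : SmL f s r φ) {h : E3 → ℂ} (hh : ∀ x, nsq x < r ^ 2 → AnalyticAt ℂ h x) :
    Bun f s r (HO u φ) (dV h) where
  bv θ O hP z hz := by
    have hO := hP.par.isOpen
    have hψ : ∀ y ∈ O, ContDiffAt ℝ ∞ (fun z => φ (θ z)) y := fun y hy =>
      (hφ θ O hP).contDiffAt (hO.mem_nhds hy)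
    have hpt : ∀ y ∈ O, Pot (fun z => u (θ z)) y := fun y hy =>
      Pot.of_on hO (hu θ O hP) (hpos θ O hP) hy
    refine ⟨?_, ?_, fun i => ?_⟩
    · filter_upwards [hO.mem_nhds hz] with y hy
      refine Hc_smM (hpt y hy) ?_
      filter_upwards [hO.mem_nhds hy] with y' hy' using hψ y' hy'
    · filter_upwards [hO.mem_nhds hz] with y hy
      exact Hc_posDef (hpt y hy) (fun z => φ (θ z))
    · filter_upwards [hO.mem_nhds hz] with y hy
      exact (dV_hol hh hP i).differentiableAt (hO.mem_nhds hy)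
  tr θ O hP θ' z' T hT hTO hTe hdet := by
    have hO := hP.par.isOpen
    have hTe' := eventually_eventually_nhds.2 hTe
    have hT' := eventually_eventually_nhds.2 hT
    have hJij : ∀ i j, ∀ᶠ y in 𝓝 z', DifferentiableAt ℂ (fun w => Jac T w i j) y :=
      fun i j => J_hol hT i j
    have hdc : ∀ᶠ y in 𝓝 z', (Jac T y).det ≠ 0 := by
      have h1 : ContinuousAt (fun y => (Jac T y).det) z' := by
        have : (fun y => (Jac T y).det) = fun y => Jac T y 0 0 * Jac T y 1 1 -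
            Jac T y 0 1 * Jac T y 1 0 := funext fun y => Matrix.det_fin_two _
        rw [this]
        exact ((hJij 0 0).self_of_nhds.continuousAt.mul
          (hJij 1 1).self_of_nhds.continuousAt).sub
          ((hJij 0 1).self_of_nhds.continuousAt.mul (hJij 1 0).self_of_nhds.continuousAt)
      exact h1.eventually_ne hdet
    refine ⟨fun w => ((Jac T w)ᵀ)⁻¹, hT, ?_, ?_, ?_, ?_⟩
    · -- holomorphic
      intro i j
      have e : ∀ y, ((Jac T y)ᵀ)⁻¹ i j = ((Jac T y).det)⁻¹ * (Jac T y)ᵀ.adjugate i j := by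
        intro y
        rw [Matrix.inv_def, Ring.inverse_eq_inv', Matrix.det_transpose]
        rfl
      have ha : ∀ᶠ y in 𝓝 z', DifferentiableAt ℂ (fun w => (Jac T w)ᵀ.adjugate i j) y := by
        have e2 : ∀ w, (Jac T w)ᵀ.adjugate i j =
            !![Jac T w 1 1, -Jac T w 1 0; -Jac T w 0 1, Jac T w 0 0] i j := by
          intro w
          rw [Matrix.adjugate_fin_two]
          rfl
        simp only [e2]
        filter_upwards [hJij 0 0, hJij 0 1, hJij 1 0, hJij 1 1] with y a b c d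
        fin_cases i <;> fin_cases j
        · exact d
        · exact c.neg
        · exact b.neg
        · exact a
      have hdd : ∀ᶠ y in 𝓝 z', DifferentiableAt ℂ (fun w => (Jac T w).det) y := by
        have : (fun y => (Jac T y).det) = fun y => Jac T y 0 0 * Jac T y 1 1 -
            Jac T y 0 1 * Jac T y 1 0 := funext fun y => Matrix.det_fin_two _
        rw [this]
        filter_upwards [hJij 0 0, hJij 0 1, hJij 1 0, hJij 1 1] with y a b c d
        exact (a.fun_mul d).fun_sub (b.fun_mul c)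
      simp only [e]
      filter_upwards [ha, hdd, hdc] with y h1 h2 h3
      exact (h2.fun_inv h3).fun_mul h1
    · -- invertible
      rw [Matrix.det_nonsing_inv, Ring.inverse_eq_inv', Matrix.det_transpose]
      exact inv_ne_zero hdet
    · -- metrics
      filter_upwards [hTe', hT', hdc] with w h1 h2 h3
      have hTw := h1.self_of_nhds
      have hP' : ContDiffAt ℝ ∞ (fun z => u (θ z)) (T w) :=
        (hu θ O hP).contDiffAt (hO.mem_nhds hTw.1)
      obtain ⟨a1, a2⟩ := hess_trans h2 h1 (a := u) hP'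
      have e1 : cH (fun z => u (θ' z)) w = (Jac T w)ᵀ * cH (fun z => u (θ z)) (T w) *
          (Jac T w).map conj := by
        rw [cH_eq_hess a1, a2, cH_eq_hess hP']
        rfl
      unfold HO
      rw [e1, hTw.2, Matrix.mul_inv_rev, Matrix.mul_inv_rev]
      have e2 : ((Jac T w)ᵀ⁻¹)ᴴ = ((Jac T w).map conj)⁻¹ := by
        rw [Matrix.conjTranspose_nonsing_inv]
        rfl
      rw [e2]
      simp only [Matrix.mul_smul, Matrix.smul_mul, Matrix.mul_assoc]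
    · -- sections
      filter_upwards [hTe', hT', hdc] with w h1 h2 h3
      rw [dV_trans hh hP h2.self_of_nhds h1, Matrix.mulVec_mulVec, Matrix.nonsing_inv_mul _
        (by rw [Matrix.det_transpose]; exact isUnit_iff_ne_zero.2 h3), Matrix.one_mulVec]

/-! ### Kähler–Einstein weights -/

theorem ke_pot {u : E3 → ℝ} (hu : KEon f s r u) {θ : Cn 2 → E3} {O : Set (Cn 2)}
    (hP : PE f s r θ O) {z : Cn 2} (hz : z ∈ O) : Pot (fun z => u (θ z)) z :=
  Pot.of_on hP.par.isOpen (hu.sm θ O hP) (hu.pos θ O hP) hz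

/-- `∂∂̄ log det ∂∂̄u = ∂∂̄u` -/
theorem hess_ldt (L : LvlOK f s r) {u : E3 → ℝ} (hu : KEon f s r u) {θ : Cn 2 → E3}
    {O : Set (Cn 2)} (hP : PE f s r θ O) {z : Cn 2} (hz : z ∈ O) :
    hess (ldt fun z => u (θ z)) z = hess (fun z => u (θ z)) z := by
  have hO := hP.par.isOpen
  have hva : ∀ y ∈ O, ContDiffAt ℝ ∞ (fun z => u (θ z)) y := fun y hy =>
    (hu.sm θ O hP).contDiffAt (hO.mem_nhds hy)
  obtain ⟨q, hq, hq0, hqe⟩ := eta2a_norm (n := 2) hP.par hz (L.an _ (hP.lt z hz))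
    (L.sm _ (hP.ne z hz) (hP.lt z hz) (hP.par.lvl z hz))
  have hqd : ∀ᶠ w in 𝓝 z, DifferentiableAt ℂ q w :=
    hq.eventually_analyticAt.mono fun w hw => hw.differentiableAt
  set g : Cn 2 → ℝ := fun w => Real.log (‖q w‖ ^ 2) with hg
  have hgs : ContDiffAt ℝ ∞ g z := KEl_835.c2_log hq hq0 ∞
  have e3 : (ldt fun z => u (θ z)) =ᶠ[𝓝 z] fun y => (fun z => u (θ z)) y + g y := by
    filter_upwards [hO.mem_nhds hz, hqe, hq.continuousAt.eventually_ne hq0] with y hy hy' hy0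
    have h1 : eta2a (n := 2) f θ y = ‖q y‖ ^ 2 := hy'
    have h2 : 0 < ‖q y‖ := norm_pos_iff.2 hy0
    unfold ldt
    rw [← cH_eq_hess (hva y hy), hu.ma θ O hP y hy, ofReal_re, h1,
      Real.log_mul (Real.exp_pos _).ne' (by positivity), Real.log_exp]
  rw [hess_congr e3, hess_add (hva z hz) hgs, hess_log_norm hqd hq0, add_zero]

/-- **the second Chern form of `Ω¹ ⊗ L_φ`** -/
theorem c2x_HO (L : LvlOK f s r) {u φ : E3 → ℝ} (hu : KEon f s r u) (hφ : SmL f s r φ)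
    {x : E3} (hx : f x = s) (h0 : x ≠ 0) (hr : nsq x < r ^ 2) :
    c2x f (HO u φ) x = c2d f u x + mxd f u φ x + mxd f φ φ x := by
  obtain ⟨θ, O, z, hP, hz, -, -, e⟩ := dns_rep L hx h0 hr
  have hO := hP.par.isOpen
  have hψ : ∀ᶠ y in 𝓝 z, ContDiffAt ℝ ∞ (fun z => φ (θ z)) y := by
    filter_upwards [hO.mem_nhds hz] with y hy
    exact (hφ θ O hP).contDiffAt (hO.mem_nhds hy)
  have e1 := c2_dual (ke_pot hu hP hz) hψ
  rw [hess_ldt L hu hP hz, ← cH_eq_hess (ke_pot hu hP hz).sm.self_of_nhds,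
    ← cH_eq_hess hψ.self_of_nhds] at e1
  unfold c2x c2d mxd
  rw [e, e, e, e]
  show (c2 (Hc (fun z => u (θ z)) (fun z => φ (θ z))) z).re / _ = _
  rw [e1, Complex.add_re, Complex.add_re, add_div, add_div]

theorem mxd_zero_right {u : E3 → ℝ} (L : LvlOK f s r) {x : E3} (hx : f x = s) (h0 : x ≠ 0)
    (hr : nsq x < r ^ 2) : mxd f u (fun _ => 0) x = 0 := by
  refine dns_zero L (fun θ O h z hz hzx => ?_) hx h0 hr
  rw [cH_zero (χ := fun _ => (0 : ℝ)) h hz (Eventually.of_forall fun _ => rfl)]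
  simp [pd]

theorem smL_const (c : ℝ) : SmL f s r (fun _ => c) := fun _ _ _ => contDiffOn_const

theorem c2x_HO_zero (L : LvlOK f s r) {u : E3 → ℝ} (hu : KEon f s r u)
    {x : E3} (hx : f x = s) (h0 : x ≠ 0) (hr : nsq x < r ^ 2) :
    c2x f (HO u fun _ => 0) x = c2d f u x := by
  rw [c2x_HO L hu (smL_const 0) hx h0 hr, mxd_zero_right L hx h0 hr, mxd_zero_right L hx h0 hr]
  ring

theorem cut_tsupport {χ : E3 → ℝ} (hχ : Cut r χ) :
    ∃ r' : ℝ, 0 < r' ∧ r' < r ∧ tsupport χ ⊆ {x | nsq x ≤ r' ^ 2} := by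
  obtain ⟨r', h1, h2, h3⟩ := hχ.supp
  refine ⟨r', h1, h2, closure_minimal (fun x hx => ?_)
    (isClosed_le continuous_nsq continuous_const)⟩
  by_contra h4
  exact hx (h3 x (not_le.1 h4).le)

theorem cut_lt {χ : E3 → ℝ} (hχ : Cut r χ) {x : E3} (hx : x ∈ tsupport χ) :
    nsq x < r ^ 2 := by
  obtain ⟨r', h1, h2, h3⟩ := cut_tsupport hχ
  have h4 : nsq x ≤ r' ^ 2 := h3 hx
  nlinarith

theorem isCompact_nsq_le (R : ℝ) : IsCompact {x : E3 | nsq x ≤ R} := by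
  refine Metric.isCompact_of_isClosed_isBounded (isClosed_le continuous_nsq continuous_const) ?_
  rw [isBounded_iff_forall_norm_le]
  refine ⟨√ (max R 0), fun x hx => ?_⟩
  refine (pi_norm_le_iff_of_nonneg (Real.sqrt_nonneg _)).2 fun i => ?_
  refine Real.le_sqrt_of_sq_le ?_
  have h1 : ‖x i‖ ^ 2 ≤ nsq x := by
    unfold nsq
    exact Finset.single_le_sum (f := fun i => ‖x i‖ ^ 2) (fun j _ => by positivity)
      (Finset.mem_univ i)
  exact (h1.trans hx).trans (le_max_left _ _)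

theorem cut_cpt {χ : E3 → ℝ} (hχ : Cut r χ) : HasCompactSupport χ := by
  obtain ⟨r', -, -, h3⟩ := cut_tsupport hχ
  exact (isCompact_nsq_le (r' ^ 2)).of_isClosed_subset (isClosed_tsupport _) h3

/-- **`E1Stmt`** -/
theorem e1Stmt : E1Stmt := by
  intro f s r L hf0 u hu ν hν χ hχ h hh hnd Z hZ hZV
  have B := bunO L hu.sm hu.pos (smL_const 0) hh (φ := fun _ => 0)
  obtain ⟨a1, a2, a3⟩ := B.e1 L hν hχ.sm (cut_cpt hχ) (fun x hx => cut_lt hχ hx)
    (fun x _ hx hx0 => hf0 (by rw [← hx0]; exact hx)) hnd Z (fun x hx => (hZ x hx).1) hZV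
  have hlv : ∀ᵐ x ∂ν, f x = s ∧ x ≠ 0 ∧ nsq x < r ^ 2 := by
    rw [ae_iff]; exact hν.null
  have e : (fun x => χ x * c2x f (HO u fun _ => 0) x) =ᵐ[ν] fun x => χ x * c2d f u x := by
    filter_upwards [hlv] with x hx
    rw [c2x_HO_zero L hu hx.1 hx.2.1 hx.2.2]
  refine ⟨a1.congr e, a2, ?_⟩
  rw [← integral_congr_ae e, a3]
  rfl


end

end Crest.Agent.R257.OutD_309
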