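import Crest.Agent.R273.C2e_793

-- ▼ part R257/GradA_537
section

/-!
# R257 (S0395), leaf E-GRAD (helper537), part a: the gradient estimate, pointwise computation

`u` strictly plurisubharmonic, `det (u_{a b̄}) = e^{ld u}`, `w = A - u > 0`.
* `hs_conj`, `hs_normSq'` : Levi form of `|p|²`, `p` complex valued
* `PV u V = ∂_V u`, `dbj_PV`, `hs_PV_one`
* `grad_one` : at a maximum point of `|∂_ξ u|² / (w² u_{ξ ξ̄})` (in coordinates with
  `u_{a b̄}(x) = δ_ab`) one has `2 |∂_v u|² / (w² u_{v v̄}) ≤ lev (ld u) v / lev u v`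
-/

set_option autoImplicit false
set_option linter.unusedSectionVars false

open Set Filter Topology Complex
open scoped ContDiff Matrix ComplexConjugate ComplexOrder

namespace Crest.Agent.R257.GradA_537

open Crest.Agent.R275.Geo Crest.Agent.R275.Core144 Crest.Agent.R275.GC293
open Crest.Agent.R275.OmT75
open Crest.Agent.R273 Crest.Agent.R273.Levi_145 Crest.Agent.R273.C2a_793
open Crest.Agent.R273.C2b_793 Crest.Agent.R273.C2c_793 Crest.Agent.R273.C2d_793
open Crest.Agent.R273.C2e_793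

noncomputable section

variable {n : ℕ} {u : Cn n → ℝ} {x : Cn n} {V : Cn n → Cn n}

theorem c2_conj {p : Cn n → ℂ} (hp : ContDiffAt ℝ 2 p x) :
    ContDiffAt ℝ 2 (fun w => conj (p w)) x :=
  Complex.conjCLE.contDiff.contDiffAt.comp x hp

/-- `∂_a ∂̄_b` of a conjugate -/
theorem hs_conj {p : Cn n → ℂ} (hp : ContDiffAt ℝ 2 p x) (a b : Fin n) :
    hs (fun w => conj (p w)) x a b = conj (hs p x b a) := by
  have h1 : dbj b (fun w => conj (p w)) =ᶠ[𝓝 x] fun w => conj (dj b p w) := by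
    filter_upwards [c2_evd hp] with y hy
    exact dbj_conj hy b
  unfold hs
  rw [dj_congr h1, dj_conj (diff_dj hp b), dj_dbj_comm hp b a]

theorem hs_normSq' {p : Cn n → ℂ} (hp : ContDiffAt ℝ 2 p x) (c : Fin n) :
    hs (cx fun w => ‖p w‖ ^ 2) x c c = hs p x c c * conj (p x) + p x * conj (hs p x c c)
      + dj c p x * conj (dj c p x) + dbj c p x * conj (dbj c p x) := by
  rw [cx_normSq, hs_mul hp (c2_conj hp), hs_conj hp, dbj_conj (c2_diff hp), dj_conj (c2_diff hp)]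

theorem dj_normSq' {p : Cn n → ℂ} (hp : ContDiffAt ℝ 2 p x) (c : Fin n) :
    dj c (cx fun w => ‖p w‖ ^ 2) x = dj c p x * conj (p x) + p x * conj (dbj c p x) := by
  rw [cx_normSq]
  have e := dj_mul (a := c) (g := fun w => conj (p w)) (c2_diff hp) (c2_diff (c2_conj hp))
  rw [e, dj_conj (c2_diff hp)]

theorem c2_normSq' {p : Cn n → ℂ} (hp : ContDiffAt ℝ 2 p x) :
    ContDiffAt ℝ 2 (fun w => ‖p w‖ ^ 2) x := by
  have e : (fun w => ‖p w‖ ^ 2) = fun w => (p w).re * (p w).re + (p w).im * (p w).im := by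
    funext w
    rw [← Complex.normSq_eq_norm_sq, Complex.normSq_apply]
  rw [e]
  have hre : ContDiffAt ℝ 2 (fun w => (p w).re) x := Complex.reCLM.contDiff.contDiffAt.comp x hp
  have him : ContDiffAt ℝ 2 (fun w => (p w).im) x := Complex.imCLM.contDiff.contDiffAt.comp x hp
  exact (hre.mul hre).add (him.mul him)

theorem dj_log {g : Cn n → ℝ} (hg : DifferentiableAt ℝ g x) (h0 : 0 < g x) (c : Fin n) :
    dj c (cx fun y => Real.log (g y)) x = dj c (cx g) x / g x := by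
  have e : HasFDerivAt (fun y => Real.log (g y)) ((g x)⁻¹ • fderiv ℝ g x) x :=
    (Real.hasDerivAt_log h0.ne').comp_hasFDerivAt x hg.hasFDerivAt
  have hc : (g x : ℂ) ≠ 0 := by exact_mod_cast h0.ne'
  unfold dj
  rw [fderiv_cx e.differentiableAt, fderiv_cx e.differentiableAt, fderiv_cx hg, fderiv_cx hg,
    e.fderiv]
  simp only [_root_.smul_apply, smul_eq_mul]
  push_cast
  field_simp

theorem dj_cx_sub {f g : Cn n → ℝ} (hf : DifferentiableAt ℝ f x) (hg : DifferentiableAt ℝ g x)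
    (c : Fin n) : dj c (cx fun y => f y - g y) x = dj c (cx f) x - dj c (cx g) x := by
  have hfg : DifferentiableAt ℝ (fun y => f y - g y) x := hf.sub hg
  unfold dj
  rw [fderiv_cx hfg, fderiv_cx hfg, fderiv_cx hf, fderiv_cx hf, fderiv_cx hg,
    fderiv_cx hg, fderiv_fun_sub hf hg]
  simp only [_root_.sub_apply, smul_eq_mul]
  push_cast
  ring

theorem dj_cx_smul {f : Cn n → ℝ} (hf : DifferentiableAt ℝ f x) (k : ℝ)
    (c : Fin n) : dj c (cx fun y => k * f y) x = k * dj c (cx f) x := by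
  unfold dj
  rw [fderiv_cx (hf.const_mul k), fderiv_cx (hf.const_mul k), fderiv_cx hf, fderiv_cx hf,
    fderiv_const_mul hf]
  simp only [_root_.smul_apply, smul_eq_mul]
  push_cast
  ring

theorem dj_cx_zero {f : Cn n → ℝ} (hf : DifferentiableAt ℝ f x) (h : fderiv ℝ f x = 0)
    (c : Fin n) : dj c (cx f) x = 0 := by
  unfold dj
  rw [fderiv_cx hf, fderiv_cx hf, h]
  simp

/-! ### the derivative in the direction of a holomorphic field -/

/-- `∂_V u` -/
def PV (u : Cn n → ℝ) (V : Cn n → Cn n) (z : Cn n) : ℂ := gr u z (V z)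

theorem c2_PV (hu : ContDiffAt ℝ ∞ u x) (hV : ∀ᶠ z in 𝓝 x, DifferentiableAt ℂ V z) :
    ContDiffAt ℝ 2 (PV u V) x := by
  have h : ContDiffAt ℝ 2 (fun z => ∑ a, dj a (cx u) z * V z a) x :=
    ContDiffAt.sum fun a _ => (sm2 (sm_dj (sm_cx hu) a)).mul
      (c2_of_anal (anal_of_ev (hV_apply hV a)) 2)
  exact h

theorem dbj_PV (hu : ContDiffAt ℝ 2 u x) (hV : DifferentiableAt ℂ V x) (c : Fin n) :
    dbj c (PV u V) x = ∑ a, hs (cx u) x a c * V x a := by
  have hVa : ∀ a, DifferentiableAt ℂ (fun z => V z a) x := fun a =>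
    (EuclideanSpace.proj (𝕜 := ℂ) a : Cn n →L[ℂ] ℂ).differentiableAt.comp x hV
  have hm : ∀ a : Fin n, DifferentiableAt ℝ (fun z => dj a (cx u) z * V z a) x := fun a =>
    (diff_dj (cx_c2 hu) a).mul ((hVa a).restrictScalars ℝ)
  unfold PV gr
  rw [dbj_sum fun a _ => hm a]
  refine Finset.sum_congr rfl fun a _ => ?_
  have e := dbj_mul' (a := c) (g := fun z => V z a) (diff_dj (cx_c2 hu) a)
    ((hVa a).restrictScalars ℝ)
  rw [e, dbj_holo (hVa a), mul_zero, add_zero, ← dj_dbj_comm (cx_c2 hu)]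
  rfl

theorem hs_PV (hu : ContDiffAt ℝ ∞ u x) (hV : ∀ᶠ z in 𝓝 x, DifferentiableAt ℂ V z) (c : Fin n) :
    hs (PV u V) x c c = ∑ a, (tt u x a c c * V x a
      + hs (cx u) x a c * (fderiv ℂ V x (ee c)) a) := by
  have hVa := hV_apply hV
  have h1 : dbj c (PV u V) =ᶠ[𝓝 x] fun z => ∑ a, hs (cx u) z a c * V z a := by
    filter_upwards [ev_sm2 hu, hV] with y hy hy2
    exact dbj_PV hy hy2 c
  have hd : ∀ a, DifferentiableAt ℝ (fun z => hs (cx u) z a c) x := fun a =>
    c2_diff (sm2 (sm_hs (sm_cx hu) a c))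
  have hr : ∀ a, DifferentiableAt ℝ (fun z => V z a) x := fun a =>
    ((hVa a).self_of_nhds).restrictScalars ℝ
  unfold hs
  rw [dj_congr h1, dj_sum (f := fun a z => hs (cx u) z a c * V z a) fun a _ => (hd a).mul (hr a)]
  refine Finset.sum_congr rfl fun a _ => ?_
  have e : fderiv ℂ (fun z => V z a) x (ee c) = (fderiv ℂ V x (ee c)) a := by
    have : HasFDerivAt (fun z => V z a)
        ((EuclideanSpace.proj (𝕜 := ℂ) a : Cn n →L[ℂ] ℂ).comp (fderiv ℂ V x)) x :=
      (EuclideanSpace.proj (𝕜 := ℂ) a : Cn n →L[ℂ] ℂ).hasFDerivAt.comp x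
        hV.self_of_nhds.hasFDerivAt
    rw [this.fderiv]; rfl
  rw [dj_mul (hd a) (hr a), dj_holo (hVa a).self_of_nhds, e]
  rfl

theorem hs_PV_one (hu : ContDiffAt ℝ ∞ u x) (h1 : Um u x = 1)
    (hV : ∀ᶠ z in 𝓝 x, DifferentiableAt ℂ V z)
    (hB : ∀ c b, (fderiv ℂ V x (ee c)) b = - tau u x (V x) c b) (c : Fin n) :
    hs (PV u V) x c c = 0 := by
  rw [hs_PV hu hV]
  have e1 : ∀ a b, hs (cx u) x a b = (1 : Matrix (Fin n) (Fin n) ℂ) a b := fun a b => by
    rw [← h1]; rfl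
  simp only [e1, Finset.sum_add_distrib, Matrix.one_apply, ite_mul, one_mul, zero_mul,
    Finset.sum_ite_eq', Finset.mem_univ, if_true, hB, tau]
  ring


end

end Crest.Agent.R257.GradA_537
end

-- ▼ part R257/GradB_537

/-!
# R257 (S0395), leaf E-GRAD (helper537), part b: the gradient estimate in arbitrary coordinates,
and the calculus of the cut-off functions `χ (log (A - u) / j)`

* `gr_comp`     : chain rule of `∂u` for a holomorphic map
* `grad_at_max` : at a maximum point of `|∂_ξ u|² / ((A-u)² u_{ξ ξ̄})` over `(z, ξ)` the maximum is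
  `≤ κ/2` if `lev (log det u_{a b̄}) ≤ κ lev u` (Kaehler-Einstein: `κ = 1`)
* `gr_rho_le`, `lev_rho_le`, `cut_off` : `ρ = log (A - u)` has `|∂ρ|² ≤ C ω`, `|∂∂̄ρ| ≤ (C + 1/w) ω`;
  `|∂∂̄ χ(ρ/j)| ≤ C'/j ω`
-/

set_option autoImplicit false
set_option linter.unusedSectionVars false

open Set Filter Topology Complex
open scoped ContDiff Matrix ComplexConjugate ComplexOrder

namespace Crest.Agent.R257.GradB_537

open Crest.Agent.R275.Geo Crest.Agent.R275.Core144 Crest.Agent.R275.GC293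
open Crest.Agent.R275.OmT75
open Crest.Agent.R273 Crest.Agent.R273.Levi_145 Crest.Agent.R273.C2a_793
open Crest.Agent.R273.C2b_793 Crest.Agent.R273.C2c_793 Crest.Agent.R273.C2d_793
open Crest.Agent.R273.C2e_793 Crest.Agent.R257.GradA_537

noncomputable section

variable {n : ℕ} {u : Cn n → ℝ} {x : Cn n}

/-- chain rule of `∂u` for a holomorphic map -/
theorem gr_comp {m : ℕ} {u : Cn m → ℝ} {T : Cn n → Cn m} {z : Cn n}
    (hT : DifferentiableAt ℂ T z) (hu : DifferentiableAt ℝ u (T z)) (v : Cn n) :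
    gr (fun w => u (T w)) z v = gr u (T z) (fderiv ℂ T z v) := by
  have hTr : HasFDerivAt T ((fderiv ℂ T z).restrictScalars ℝ) z :=
    hT.hasFDerivAt.restrictScalars ℝ
  have hc : HasFDerivAt (fun w => u (T w))
      ((fderiv ℝ u (T z)).comp ((fderiv ℂ T z).restrictScalars ℝ)) z :=
    hu.hasFDerivAt.comp z hTr
  rw [gr_eq hc.differentiableAt, gr_eq hu, hc.fderiv]
  simp

theorem gr_lin {y : Cn n} {E : Matrix (Fin n) (Fin n) ℂ} (hu : DifferentiableAt ℝ u (TT x E y))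
    (η : Cn n) : gr (fun y => u (TT x E y)) y η = gr u (TT x E y) (ml E η) := by
  rw [gr_comp (anal_TT x E y).differentiableAt hu, fderiv_TT]

theorem lev_lin' {y : Cn n} {E : Matrix (Fin n) (Fin n) ℂ} (hu : ContDiffAt ℝ 2 u (TT x E y))
    (η : Cn n) : lev (fun y => u (TT x E y)) y η = lev u (TT x E y) (ml E η) := by
  rw [lev_comp (u := u) (T := TT x E) (anal_TT x E y) hu, fderiv_TT]


/-! ### the exhaustion function -/

section Exh

variable {A C : ℝ}

theorem gr_comp_real {χ : ℝ → ℝ} {χ' : ℝ} (hu : DifferentiableAt ℝ u x)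
    (h : HasDerivAt χ χ' (u x)) (v : Cn n) :
    gr (fun y => χ (u y)) x v = χ' * gr u x v := by
  have e : HasFDerivAt (fun y => χ (u y)) (χ' • fderiv ℝ u x) x :=
    h.comp_hasFDerivAt x hu.hasFDerivAt
  rw [gr_eq e.differentiableAt, gr_eq hu, e.fderiv]
  simp only [_root_.smul_apply, smul_eq_mul]
  push_cast
  ring

/-- `ρ = log (A - u)` -/
def rho (A : ℝ) (u : Cn n → ℝ) (z : Cn n) : ℝ := Real.log (A - u z)

theorem hasDerivAt_logA {t : ℝ} (h : t < A) :
    HasDerivAt (fun t => Real.log (A - t)) (-(A - t)⁻¹) t := by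
  have h1 : HasDerivAt (fun t => A - t) (-1) t := by
    simpa using (hasDerivAt_id t).const_sub A
  have h2 := h1.log (by linarith : A - t ≠ 0)
  refine h2.congr_deriv ?_
  ring

theorem hasDerivAt_invA {t : ℝ} (h : t < A) :
    HasDerivAt (fun t => -(A - t)⁻¹) (-((A - t) ^ 2)⁻¹) t := by
  have h1 : HasDerivAt (fun t => A - t) (-1) t := by
    simpa using (hasDerivAt_id t).const_sub A
  have h2 := (h1.inv (by linarith : A - t ≠ 0)).neg
  refine h2.congr_deriv ?_
  ring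

theorem sm_rho (hu : ContDiffAt ℝ ∞ u x) (hA : u x < A) : ContDiffAt ℝ ∞ (rho A u) x :=
  (contDiffAt_const.sub hu).log (by linarith)

theorem gr_rho (hu : DifferentiableAt ℝ u x) (hA : u x < A) (v : Cn n) :
    gr (rho A u) x v = -((A - u x)⁻¹ : ℝ) * gr u x v := by
  have := gr_comp_real hu (hasDerivAt_logA hA) v
  rw [← Complex.ofReal_neg]
  exact this

theorem lev_rho (hu : ContDiffAt ℝ 2 u x) (hA : u x < A) (v : Cn n) :
    lev (rho A u) x v = - (lev u x v / (A - u x)) - ‖gr u x v‖ ^ 2 / (A - u x) ^ 2 := by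
  have h : lev (fun y => Real.log (A - u y)) x v = _ :=
    lev_comp_real (χ := fun t => Real.log (A - t)) (χ' := fun t => -(A - t)⁻¹)
    (χ'' := -((A - u x) ^ 2)⁻¹) hu ((gt_mem_nhds hA).mono fun t ht => hasDerivAt_logA ht)
    (hasDerivAt_invA hA) v
  have e : lev (rho A u) x v = lev (fun y => Real.log (A - u y)) x v := rfl
  rw [e, h]
  ring

/-- `|∂ρ|² ≤ C ω` -/
theorem gr_rho_le (hu : DifferentiableAt ℝ u x) (hA : u x < A) (v : Cn n)
    (hC : ‖gr u x v‖ ^ 2 ≤ C * ((A - u x) ^ 2 * lev u x v)) :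
    ‖gr (rho A u) x v‖ ^ 2 ≤ C * lev u x v := by
  have hw : 0 < A - u x := by linarith
  rw [gr_rho hu hA, norm_mul, norm_neg, Complex.norm_real, Real.norm_eq_abs, mul_pow, sq_abs,
    inv_pow, inv_mul_le_iff₀ (by positivity)]
  linarith

/-- `|∂∂̄ρ| ≤ (C + 1/w) ω` -/
theorem lev_rho_le (hu : ContDiffAt ℝ 2 u x) (hA : u x + 1 ≤ A) (v : Cn n)
    (h0 : 0 ≤ lev u x v) (hC : ‖gr u x v‖ ^ 2 ≤ C * ((A - u x) ^ 2 * lev u x v)) :
    |lev (rho A u) x v| ≤ (C + 1) * lev u x v := by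
  have hw : 1 ≤ A - u x := by linarith
  have hw0 : 0 < A - u x := by linarith
  have h1 : lev u x v / (A - u x) ≤ lev u x v := div_le_self h0 hw
  have h2 : ‖gr u x v‖ ^ 2 / (A - u x) ^ 2 ≤ C * lev u x v := by
    rw [div_le_iff₀ (by positivity)]
    linarith
  have h3 : 0 ≤ lev u x v / (A - u x) := by positivity
  have h4 : 0 ≤ ‖gr u x v‖ ^ 2 / (A - u x) ^ 2 := by positivity
  rw [lev_rho hu (by linarith), abs_le]
  constructor
  · nlinarith
  · nlinarith

/-- **the cut-off functions** `χ (ρ / j)`: `|∂∂̄ χ(ρ/j)| ≤ (K (2C+1)/j) ω` -/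
theorem cut_off {χ χ' χ'' : ℝ → ℝ} {K j : ℝ} (hχ : ∀ t, HasDerivAt χ (χ' t) t)
    (hχ' : ∀ t, HasDerivAt χ' (χ'' t) t) (hK1 : ∀ t, |χ' t| ≤ K) (hK2 : ∀ t, |χ'' t| ≤ K)
    (hj : 1 ≤ j) (hu : ContDiffAt ℝ ∞ u x) (hA : u x + 1 ≤ A) (v : Cn n)
    (h0 : 0 ≤ lev u x v) (hC : ‖gr u x v‖ ^ 2 ≤ C * ((A - u x) ^ 2 * lev u x v)) :
    |lev (fun z => χ (rho A u z / j)) x v| ≤ K * (2 * C + 1) / j * lev u x v ∧
      ‖gr (fun z => χ (rho A u z / j)) x v‖ ^ 2 ≤ K ^ 2 * C / j ^ 2 * lev u x v := by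
  have hj0 : 0 < j := by linarith
  have hK0 : 0 ≤ K := (abs_nonneg _).trans (hK1 0)
  have hd : ∀ t, HasDerivAt (fun t => χ (t / j)) (χ' (t / j) / j) t := by
    intro t
    have h1 : HasDerivAt (fun t : ℝ => t / j) (1 / j) t := (hasDerivAt_id t).div_const j
    exact ((hχ (t / j)).comp t h1).congr_deriv (by ring)
  have hd' : ∀ t, HasDerivAt (fun t => χ' (t / j) / j) (χ'' (t / j) / j ^ 2) t := by
    intro t
    have h1 : HasDerivAt (fun t : ℝ => t / j) (1 / j) t := (hasDerivAt_id t).div_const j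
    exact (((hχ' (t / j)).comp t h1).div_const j).congr_deriv (by field_simp)
  have hr := sm_rho hu (by linarith : u x < A)
  have e := lev_comp_real (χ := fun t => χ (t / j)) (χ' := fun t => χ' (t / j) / j)
    (χ'' := χ'' (rho A u x / j) / j ^ 2) (sm2 hr) (Eventually.of_forall hd) (hd' _) v
  have eg := gr_comp_real (χ := fun t => χ (t / j)) (c2_diff (sm2 hr)) (hd _) v
  have g1 := gr_rho_le (c2_diff (sm2 hu)) (by linarith : u x < A) v hC
  have g2 := lev_rho_le (sm2 hu) hA v h0 hC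
  have g0 : 0 ≤ C * lev u x v := (sq_nonneg _).trans g1
  refine ⟨?_, ?_⟩
  · rw [e]
    have a1 : |χ'' (rho A u x / j) / j ^ 2 * ‖gr (rho A u) x v‖ ^ 2| ≤ K / j * (C * lev u x v) := by
      rw [abs_mul, abs_div, abs_of_pos (by positivity : 0 < j ^ 2),
        abs_of_nonneg (sq_nonneg ‖gr (rho A u) x v‖)]
      have b1 : |χ'' (rho A u x / j)| / j ^ 2 ≤ K / j := by
        rw [div_le_div_iff₀ (by positivity) hj0]
        have c1 := hK2 (rho A u x / j)
        nlinarith [mul_le_mul_of_nonneg_right c1 hj0.le, mul_nonneg hK0 hj0.le]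
      exact mul_le_mul b1 g1 (sq_nonneg _) (by positivity)
    have a2 : |χ' (rho A u x / j) / j * lev (rho A u) x v| ≤ K / j * ((C + 1) * lev u x v) := by
      rw [abs_mul, abs_div, abs_of_pos hj0]
      have b1 : |χ' (rho A u x / j)| / j ≤ K / j := by
        gcongr
        exact hK1 _
      exact mul_le_mul b1 g2 (abs_nonneg _) (by positivity)
    calc _ ≤ _ := abs_add_le _ _
      _ ≤ K / j * (C * lev u x v) + K / j * ((C + 1) * lev u x v) := add_le_add a1 a2
      _ = _ := by ring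
  · rw [eg, norm_mul, Complex.norm_real, Real.norm_eq_abs, mul_pow, sq_abs]
    have b1 : (χ' (rho A u x / j) / j) ^ 2 ≤ K ^ 2 / j ^ 2 := by
      rw [div_pow]
      have b0 : χ' (rho A u x / j) ^ 2 ≤ K ^ 2 := sq_le_sq' (abs_le.1 (hK1 _)).1 (abs_le.1 (hK1 _)).2
      gcongr
    calc _ ≤ K ^ 2 / j ^ 2 * (C * lev u x v) := mul_le_mul b1 g1 (sq_nonneg _) (by positivity)
      _ = _ := by ring

end Exh

end

end Crest.Agent.R257.GradB_537
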