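import Crest.Agent.R257.C2F1_625
import Crest.Agent.R257.GradB_537
import Crest.Agent.R273.YauDefs_635
import Crest.Agent.R273.YC3c_812
import Crest.Agent.R273.Kah_333

/-!
# R257 (S0395), part (GB), leaf GBLCUT (helper844, for GB-LIM of helper625)

* `kap`          : smooth, `1` on `(-∞, 1]`, `0` on `[2, ∞)`
* `chi ρ j`      : `kap (ρ / j) ^ 4`
* `lev_chi_le`, `gr_chi_le` : `|∂∂̄ρ| ≤ C ω`, `|∂ρ|² ≤ C ω` imply `|∂∂̄ χ_j| ≤ (cK C / j) √χ_j ω`,
  `|∂ χ_j|² ≤ (cK C / j²) χ_j^{3/2} ω`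
* `psd_of_lev`, `psd_chi`, `psd_chi_hsf` : the same as inequalities between Hermitian matrices
* `pd_nonneg`, `pd_abs_le`, `pd_abs_le_maj`, `pd_sq_le` : mixed discriminants of `2 × 2` matrices
-/

set_option autoImplicit false
set_option linter.unusedSectionVars false

open Set Filter Topology Complex
open scoped ContDiff Matrix ComplexConjugate ComplexOrder

namespace Crest.Agent.R257.GBLcut_844

open Crest.Agent.R275.Geo Crest.Agent.R275.Core144
open Crest.Agent.R273 Crest.Agent.R273.Levi_145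
open Crest.Agent.R257.GradB_537

noncomputable section

/-! ### the cut-off function of one variable -/

/-- `1` on `(-∞, 1]`, `0` on `[2, ∞)` -/
def kap (t : ℝ) : ℝ := Real.smoothTransition (2 - t)

theorem kap_sm : ContDiff ℝ ∞ kap :=
  Real.smoothTransition.contDiff.comp (contDiff_const.sub contDiff_id)



theorem kap_one {t : ℝ} (h : t ≤ 1) : kap t = 1 :=
  Real.smoothTransition.one_of_one_le (by linarith)

theorem kap_zero {t : ℝ} (h : 2 ≤ t) : kap t = 0 :=
  Real.smoothTransition.zero_of_nonpos (by linarith)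


theorem dkap_sm : ContDiff ℝ ∞ (deriv kap) := by
  have := (contDiff_infty_iff_deriv.1 kap_sm).2
  exact this

theorem hasDerivAt_kap (t : ℝ) : HasDerivAt kap (deriv kap t) t :=
  ((kap_sm.differentiable (by simp)) t).hasDerivAt


theorem kap_loc {t : ℝ} (h : t ∉ Icc (1 : ℝ) 2) : ∃ c : ℝ, kap =ᶠ[𝓝 t] fun _ => c := by
  rcases lt_or_ge t 1 with h1 | h1
  · exact ⟨1, (gt_mem_nhds h1).mono fun s hs => kap_one (le_of_lt hs)⟩
  · have h2 : 2 < t := by
      by_contra hc
      exact h ⟨h1, not_lt.1 hc⟩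
    exact ⟨0, (lt_mem_nhds h2).mono fun s hs => kap_zero (le_of_lt hs)⟩

theorem dkap_off {t : ℝ} (h : t ∉ Icc (1 : ℝ) 2) : deriv kap t = 0 ∧ deriv (deriv kap) t = 0 := by
  obtain ⟨c, hc⟩ := kap_loc h
  have h1 : deriv kap =ᶠ[𝓝 t] fun _ => 0 := by
    refine hc.deriv.trans (Eventually.of_forall fun s => ?_)
    exact deriv_const s c
  exact ⟨h1.self_of_nhds, by rw [h1.deriv_eq]; exact deriv_const t 0⟩








/-! ### the cut-off functions -/

/-- `kap (ρ / j) ^ 4` -/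
def chi {α : Type*} (ρ : α → ℝ) (j : ℝ) (z : α) : ℝ := kap (ρ z / j) ^ 4

section chiB

variable {α : Type*} {ρ : α → ℝ} {j : ℝ} {z : α}








end chiB

variable {n : ℕ} {u ρ : Cn n → ℝ} {x : Cn n} {j C : ℝ}


/-- first derivative of `t ↦ kap (t / j) ^ 4` -/
def d1 (j t : ℝ) : ℝ := 4 * kap (t / j) ^ 3 * deriv kap (t / j) / j

/-- second derivative of `t ↦ kap (t / j) ^ 4` -/
def d2 (j t : ℝ) : ℝ :=
  (12 * kap (t / j) ^ 2 * deriv kap (t / j) ^ 2
    + 4 * kap (t / j) ^ 3 * deriv (deriv kap) (t / j)) / j ^ 2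







/-! ### matrices -/

section psd

variable {f g : Cn n → ℝ}

/-- a bound of Levi forms as an inequality of Hermitian matrices -/
theorem psd_of_lev {c : ℝ} (hf : ContDiffAt ℝ ∞ f x) (hu : ContDiffAt ℝ ∞ u x)
    (h : ∀ v, |lev f x v| ≤ c * lev u x v) :
    ((c : ℂ) • Hess_333.hess u x - Hess_333.hess f x).PosSemidef ∧
      ((c : ℂ) • Hess_333.hess u x + Hess_333.hess f x).PosSemidef := by
  have hcu : ContDiffAt ℝ ∞ (fun z => c * u z) x := contDiffAt_const.mul hu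
  have h2 : (2 : WithTop ℕ∞) ≤ ∞ := WithTop.coe_le_coe.2 (le_top : (2 : ℕ∞) ≤ ⊤)
  rw [← HessB_333.hess_const_mul c hu, ← HessB_333.hess_sub hcu hf, ← HessB_333.hess_add hcu hf]
  constructor
  · refine HessB_333.posSemidef_hess (hcu.sub hf) fun v => ?_
    rw [YauDefs_635.lev333_eq_lev145, lev_sub (hcu.of_le h2) (hf.of_le h2),
      lev_const_mul c (hu.of_le h2)]
    have := (abs_le.1 (h v)).2
    linarith
  · refine HessB_333.posSemidef_hess (hcu.add hf) fun v => ?_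
    rw [YauDefs_635.lev333_eq_lev145, lev_add (hcu.of_le h2) (hf.of_le h2),
      lev_const_mul c (hu.of_le h2)]
    have := (abs_le.1 (h v)).1
    linarith



end psd

/-! ### on a complex manifold -/

section atl

variable {M : Type} [TopologicalSpace M] {A : Atl n M} {w r : M → ℝ}



end atl

/-! ### mixed discriminants of `2 × 2` matrices -/

section pd

open Crest.Agent.R257.C2F1_625 (pd pd_self pd_comm pd_add add_pd pd_sub sub_pd pd_smul smul_pd
  pd_neg neg_pd pd_mul)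

variable {X Y Z K W P Q : Matrix (Fin 2) (Fin 2) ℂ}

theorem herm_off (h : X.IsHermitian) : X 1 0 = conj (X 0 1) := (h.apply 1 0).symm

theorem herm_diag (h : X.IsHermitian) (i : Fin 2) : X i i = (((X i i).re : ℝ) : ℂ) := by
  have h1 : conj (X i i) = X i i := h.apply i i
  exact (Complex.conj_eq_iff_real.1 h1).elim fun r hr => by rw [hr, ofReal_re]

/-- the mixed discriminant of Hermitian matrices -/
theorem pd_herm (hX : X.IsHermitian) (hY : Y.IsHermitian) :
    pd X Y = (((X 0 0).re * (Y 1 1).re + (X 1 1).re * (Y 0 0).re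
      - 2 * ((X 0 1).re * (Y 0 1).re + (X 0 1).im * (Y 0 1).im) : ℝ) : ℂ) := by
  rw [pd, herm_off hX, herm_off hY, herm_diag hX 0, herm_diag hX 1, herm_diag hY 0, herm_diag hY 1]
  simp only [ofReal_re]
  apply Complex.ext
  · simp
    ring
  · simp
    ring

theorem pd_herm_im (hX : X.IsHermitian) (hY : Y.IsHermitian) : (pd X Y).im = 0 := by
  rw [pd_herm hX hY, ofReal_im]

theorem det_herm (hX : X.IsHermitian) :
    X.det = (((X 0 0).re * (X 1 1).re - ((X 0 1).re ^ 2 + (X 0 1).im ^ 2) : ℝ) : ℂ) := by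
  have h := pd_herm hX hX
  rw [pd_self] at h
  have h2 : (2 : ℂ) ≠ 0 := two_ne_zero
  apply mul_left_cancel₀ h2
  rw [h]
  push_cast
  ring

theorem psd_diag (h : X.PosSemidef) (i : Fin 2) : 0 ≤ (X i i).re := by
  have := h.diag_nonneg (i := i)
  exact (Complex.le_def.1 this).1

theorem psd_det (h : X.PosSemidef) :
    (X 0 1).re ^ 2 + (X 0 1).im ^ 2 ≤ (X 0 0).re * (X 1 1).re := by
  have h1 : 0 ≤ X.det := h.det_nonneg
  rw [det_herm h.1] at h1
  have h2 : (0 : ℝ) ≤ (X 0 0).re * (X 1 1).re - ((X 0 1).re ^ 2 + (X 0 1).im ^ 2) := by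
    exact_mod_cast h1
  linarith

/-- **positivity of the mixed discriminant** -/
theorem pd_nonneg (hP : P.PosSemidef) (hQ : Q.PosSemidef) : 0 ≤ (pd P Q).re := by
  rw [pd_herm hP.1 hQ.1, ofReal_re]
  have a0 := psd_diag hP 0
  have a1 := psd_diag hP 1
  have b0 := psd_diag hQ 0
  have b1 := psd_diag hQ 1
  have dP := psd_det hP
  have dQ := psd_det hQ
  set p0 := (P 0 0).re
  set p1 := (P 1 1).re
  set q0 := (Q 0 0).re
  set q1 := (Q 1 1).re
  set s := (P 0 1).re
  set t := (P 0 1).im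
  set s' := (Q 0 1).re
  set t' := (Q 0 1).im
  have h1 : (s * s' + t * t') ^ 2 ≤ (s ^ 2 + t ^ 2) * (s' ^ 2 + t' ^ 2) := by
    nlinarith [sq_nonneg (s * t' - t * s')]
  have h2 : (s ^ 2 + t ^ 2) * (s' ^ 2 + t' ^ 2) ≤ (p0 * p1) * (q0 * q1) :=
    mul_le_mul dP dQ (by positivity) (by positivity)
  have h3 : (2 * (s * s' + t * t')) ^ 2 ≤ (p0 * q1 + p1 * q0) ^ 2 := by
    nlinarith [sq_nonneg (p0 * q1 - p1 * q0)]
  have h4 := abs_le_of_sq_le_sq' h3 (by positivity)
  linarith [h4.2]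

theorem pd_im_zero (hP : P.PosSemidef) (hQ : Q.PosSemidef) : (pd P Q).im = 0 :=
  pd_herm_im hP.1 hQ.1




theorem cs2 (a b c d e f g h : ℝ) :
    (a * d + b * c - 2 * (e * g + f * h)) ^ 2 ≤
      (a ^ 2 + b ^ 2 + 2 * (e ^ 2 + f ^ 2)) * (c ^ 2 + d ^ 2 + 2 * (g ^ 2 + h ^ 2)) := by
  nlinarith [sq_nonneg (a * c - b * d), sq_nonneg (a * g + e * d), sq_nonneg (a * h + f * d),
    sq_nonneg (b * g + e * c), sq_nonneg (b * h + f * c), sq_nonneg (e * h - f * g)]



end pd

end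

end Crest.Agent.R257.GBLcut_844
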