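import Crest.Agent.R257.CmpL_822
import Crest.Agent.R257.KEG_952
import Crest.Agent.R257.KedM1_941
import Crest.Agent.R257.Cmp2_101
import Crest.Agent.R257.GBLcut_844
import Crest.Agent.R273.FIa0_597

-- ▼ part R257/MsJ1_617
section

/-!
R257 / MsJ1_617 (helper617), leaf GB-MASSJ, part 1: calculus of `mxd` on a level, Stokes, the
plurisubharmonic cut-offs `χ Qp (R - (A - u))`.

* `mxd_loc`  : locality of `mxd` on the level
* `stk`      : `∫ c ∂∂̄b ∧ ∂∂̄a = ∫ a ∂∂̄b ∧ ∂∂̄c`, `c` smooth on the level, compact support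
* `stk_one`  : `∫ ∂∂̄b ∧ ∂∂̄c = 0`
* `mxd_nonneg`, `mxd_cv` : positivity, convex functions of psh functions
* `mxd_exp`  : `e^{-ψ} ∂∂̄b ∧ ∂∂̄e^ψ = (1 - ψ) ∂∂̄b ∧ ∂∂̄ψ + 1/2 ∂∂̄b ∧ ∂∂̄ψ²`
-/

set_option autoImplicit false
set_option linter.unusedSectionVars false

open Topology Filter MeasureTheory Set
open scoped ENNReal ContDiff Matrix ComplexOrder

noncomputable section

namespace Crest.Agent.R257.MsJ_617

open Crest.Agent.R275.Geo Crest.Agent.R275.Core144 Crest.Agent.R275.EDR890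
open Crest.Agent.R275.Pai323 Crest.Agent.R275.C1d194
open Crest.Agent.R273.StokesV_332
open Crest.Agent.R273.Defs_333 Crest.Agent.R273.Vm_333 Crest.Agent.R273.Kah_333
open Crest.Agent.R273.Hess_333 Crest.Agent.R273.HessB_333
open Crest.Agent.R273.YauDefs_635 (cH)
open Crest.Agent.R257.Defs_219 Crest.Agent.R257.KED_952 Crest.Agent.R257.V1Defs_822
open Crest.Agent.R257.V1Pe_822 Crest.Agent.R257.V1W_822 Crest.Agent.R257.UpK_938
open Crest.Agent.R257.Bridge_822 Crest.Agent.R257.CmpL_822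
open Crest.Agent.R257.PN_835 (nsq)
open Crest.Agent.R257.Aff_835 (eta2a)
open Crest.Agent.R257.C2F1_625 (pd pd_add pd_sub pd_smul pd_comm)
open Crest.Agent.R257.KedM_941 (L Gd ctL_contOn)

variable {f : E3 → ℂ} {s : ℂ} {r : ℝ}

theorem gd (hf : LvlOK f s r) : Gd f s r := ⟨hf.an, hf.sm⟩

/-! ### locality -/

open Classical in
/-- `mxd` only depends on the germ along the level -/
theorem mxd_loc {a b b' : E3 → ℝ} {x : E3} (hb : ∀ᶠ y in 𝓝 x, f y = f x → b y = b' y) :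
    mxd f a b x = mxd f a b' x := by
  unfold mxd dns
  split_ifs with h
  · obtain ⟨h1, h2, h3⟩ := h.choose_spec
    have hc : ContinuousAt h.choose.1 h.choose.2.2 :=
      h1.hol.continuousOn.continuousAt (h1.isOpen.mem_nhds h2)
    have h5 : Tendsto h.choose.1 (𝓝 h.choose.2.2) (𝓝 x) := by
      have := hc.tendsto
      rwa [h3] at this
    have h4 : (fun z => b (h.choose.1 z)) =ᶠ[𝓝 h.choose.2.2] fun z => b' (h.choose.1 z) := by
      filter_upwards [h5.eventually hb, h1.isOpen.mem_nhds h2] with z hz hz'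
      exact hz (h1.lvl z hz')
    change (pd _ (cH (fun z => b (h.choose.1 z)) h.choose.2.2)).re / _ =
      (pd _ (cH (fun z => b' (h.choose.1 z)) h.choose.2.2)).re / _
    rw [KEl_835.cH_congr h4]
  · rfl

theorem mxd_loc0 {a b : E3 → ℝ} {x : E3} (hb : ∀ᶠ y in 𝓝 x, f y = f x → b y = 0) :
    mxd f a b x = 0 := by
  rw [mxd_loc (b' := fun _ => 0) hb]
  exact mxd_zero (Eventually.of_forall fun _ => rfl)

theorem mem_L_ev {x : E3} (h1 : f x = s) (h2 : x ≠ 0) (h3 : nsq x < r ^ 2) :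
    ∀ᶠ y in 𝓝 x, f y = f x → y ∈ L f s r := by
  have e1 : ∀ᶠ y in 𝓝 x, y ≠ 0 := isOpen_ne.mem_nhds h2
  have e2 : ∀ᶠ y in 𝓝 x, nsq y < r ^ 2 := continuous_nsq3.continuousAt.eventually_lt continuousAt_const h3
  filter_upwards [e1, e2] with y a1 a2 a3
  exact ⟨a3.trans h1, a1, a2⟩

/-- continuity along the level -/
theorem ctL_ev (hf : LvlOK f s r) {φ : E3 → ℝ} (hφ : CtL f s r φ) {x : E3} (h1 : f x = s)
    (h2 : x ≠ 0) (h3 : nsq x < r ^ 2) {p : ℝ → Prop} (hp : ∀ᶠ t in 𝓝 (φ x), p t) :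
    ∀ᶠ y in 𝓝 x, f y = f x → p (φ y) := by
  have hc := ctL_contOn (gd hf) hφ x ⟨h1, h2, h3⟩
  have h4 : ∀ᶠ y in 𝓝[L f s r] x, p (φ y) := hc.eventually hp
  rw [eventually_nhdsWithin_iff] at h4
  filter_upwards [h4, mem_L_ev h1 h2 h3] with y a1 a2 a3
  exact a1 (a2 a3)

/-! ### algebra -/

theorem smL_const (c : ℝ) : SmL f s r fun _ => c := fun _ _ _ => contDiffOn_const

theorem smL_add {a b : E3 → ℝ} (ha : SmL f s r a) (hb : SmL f s r b) :
    SmL f s r fun x => a x + b x := fun θ O hθ => (ha θ O hθ).add (hb θ O hθ)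

theorem smL_sub {a b : E3 → ℝ} (ha : SmL f s r a) (hb : SmL f s r b) :
    SmL f s r fun x => a x - b x := fun θ O hθ => (ha θ O hθ).sub (hb θ O hθ)

theorem smL_comp {F : ℝ → ℝ} (hF : ContDiff ℝ ∞ F) {a : E3 → ℝ} (ha : SmL f s r a) :
    SmL f s r fun x => F (a x) := fun θ O hθ => hF.comp_contDiffOn (ha θ O hθ)

theorem eta_pos {u : E3 → ℝ} (hu : KEon f s r u) {θ : Cn 2 → E3}
    {O : Set (Cn 2)} (h : PE f s r θ O) {z : Cn 2} (hz : z ∈ O) : 0 < eta2a (n := 2) f θ z := by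
  refine lt_of_le_of_ne (Crest.Agent.R257.KedM_941.eta_nonneg f θ z) fun h10 => ?_
  have h5 := hu.ma θ O h z hz
  have h9 : (cH (fun z => u (θ z)) z).det ≠ 0 := by
    rw [Crest.Agent.R273.YauMax_635.cH_eq_hess (smAt (a := u) hu.sm h hz)]
    exact (posDef_hess (smAt (a := u) hu.sm h hz) (hu.pos θ O h z hz)).det_pos.ne'
  rw [h5, ← h10] at h9
  simp at h9

/-- the first argument is the Kaehler-Einstein weight: everything in one chart -/
theorem mxd_hess (hf : LvlOK f s r) {x : E3} (hx : x ≠ 0) (hr : nsq x < r ^ 2) (hfx : f x = s) :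
    ∃ (θ : Cn 2 → E3) (O : Set (Cn 2)) (z : Cn 2), PE f s r θ O ∧ z ∈ O ∧ θ z = x ∧
      ∀ a b : E3 → ℝ, SmL f s r a → SmL f s r b → mxd f a b x =
        (pd (hess (fun z => a (θ z)) z) (hess (fun z => b (θ z)) z)).re / eta2a (n := 2) f θ z := by
  obtain ⟨θ, O, z, h1, h2, h3, h4⟩ := mxd_cases hx hr hfx hf
  refine ⟨θ, O, z, h1, h2, h3, fun a b ha hb => ?_⟩
  rw [h4, Crest.Agent.R273.YauMax_635.cH_eq_hess (smAt ha h1 h2),
    Crest.Agent.R273.YauMax_635.cH_eq_hess (smAt hb h1 h2)]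

theorem mxd_add (hL : LvlOK f s r) {a b b' : E3 → ℝ} (ha : SmL f s r a) (hb : SmL f s r b)
    (hb' : SmL f s r b') {x : E3} (hx : x ≠ 0) (hr : nsq x < r ^ 2) (hfx : f x = s) :
    mxd f a (fun y => b y + b' y) x = mxd f a b x + mxd f a b' x := by
  obtain ⟨θ, O, z, h1, h2, -, h4⟩ := mxd_hess hL hx hr hfx
  rw [h4 _ _ ha (smL_add hb hb'), h4 _ _ ha hb, h4 _ _ ha hb',
    hess_add (u := fun z => b (θ z)) (v := fun z => b' (θ z)) (smAt hb h1 h2) (smAt hb' h1 h2),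
    pd_add, Complex.add_re, add_div]

theorem mxd_cmul (hL : LvlOK f s r) {a b : E3 → ℝ} (hb : SmL f s r b) (c : ℝ)
    {x : E3} (hx : x ≠ 0) (hr : nsq x < r ^ 2) (hfx : f x = s) :
    mxd f a (fun y => c * b y) x = c * mxd f a b x := by
  rw [mxd_comm hL hx hr hfx, mxd_mul hL hb c hx hr hfx, mxd_comm hL hx hr hfx]

theorem mxd_cst {a : E3 → ℝ} (c : ℝ) (x : E3) : mxd f a (fun _ => c) x = 0 :=
  V1Top_822.mxd_const (c := c) (Eventually.of_forall fun _ => rfl)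

/-! ### positivity -/

/-- the Kaehler-Einstein weight has a positive semidefinite Hessian -/
theorem ke_psd {u : E3 → ℝ} (hu : KEon f s r u) {θ : Cn 2 → E3} {O : Set (Cn 2)}
    (h : PE f s r θ O) {z : Cn 2} (hz : z ∈ O) : (hess (fun z => u (θ z)) z).PosSemidef :=
  (posDef_hess (smAt (a := u) hu.sm h hz) (hu.pos θ O h z hz)).posSemidef

theorem psh_psd {ψ : E3 → ℝ} (hψ : SmL f s r ψ)
    (hp : ∀ θ O, PE f s r θ O → ∀ z ∈ O, ∀ v, 0 ≤ lev (fun z => ψ (θ z)) z v)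
    {θ : Cn 2 → E3} {O : Set (Cn 2)} (h : PE f s r θ O) {z : Cn 2} (hz : z ∈ O) :
    (hess (fun z => ψ (θ z)) z).PosSemidef :=
  posSemidef_hess (smAt hψ h hz) (hp θ O h z hz)

theorem mxd_nonneg (hf : LvlOK f s r) {u : E3 → ℝ} (hu : KEon f s r u) {ψ : E3 → ℝ}
    (hψ : SmL f s r ψ)
    (hp : ∀ θ O, PE f s r θ O → ∀ z ∈ O, ∀ v, 0 ≤ lev (fun z => ψ (θ z)) z v)
    {x : E3} (hx : x ≠ 0) (hr : nsq x < r ^ 2) (hfx : f x = s) : 0 ≤ mxd f u ψ x := by
  obtain ⟨θ, O, z, h1, h2, -, h4⟩ := mxd_hess hf hx hr hfx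
  rw [h4 _ _ hu.sm hψ]
  exact div_nonneg (GBLcut_844.pd_nonneg (ke_psd hu h1 h2) (psh_psd hψ hp h1 h2))
    (eta_pos hu h1 h2).le

/-- `∂∂̄u ∧ ∂∂̄ Q(φ) ≥ Q'(φ) ∂∂̄u ∧ ∂∂̄φ` for `Q` convex -/
theorem mxd_cv (hf : LvlOK f s r) {u : E3 → ℝ} (hu : KEon f s r u) {φ : E3 → ℝ}
    (hφ : SmL f s r φ) {Q H H' : ℝ → ℝ} (hQs : ContDiff ℝ ∞ Q) (hQ : ∀ t, HasDerivAt Q (H t) t)
    (hH : ∀ t, HasDerivAt H (H' t) t) {x : E3} (h0 : 0 ≤ H' (φ x)) (hx : x ≠ 0)
    (hr : nsq x < r ^ 2) (hfx : f x = s) :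
    H (φ x) * mxd f u φ x ≤ mxd f u (fun y => Q (φ y)) x := by
  obtain ⟨θ, O, z, h1, h2, h3, h4⟩ := mxd_hess hf hx hr hfx
  have e := eta_pos hu h1 h2
  have hQφ : SmL f s r (fun y => Q (φ y)) := smL_comp hQs hφ
  rw [h4 _ _ hu.sm hφ, h4 _ _ hu.sm hQφ]
  have h5 := Cmp2_101.psd_cv (φ := fun z => φ (θ z)) (z := z) hQs hQ hH
    (by rw [h3]; exact h0) (smAt hφ h1 h2)
  have h6 := GBLcut_844.pd_nonneg (ke_psd hu h1 h2) h5
  rw [pd_sub, pd_smul, Complex.sub_re, Complex.re_ofReal_mul] at h6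
  rw [h3] at h6
  rw [← mul_div_assoc]
  exact div_le_div_of_nonneg_right (by linarith) e.le

/-- `e^{-ψ} ∂∂̄u ∧ ∂∂̄ e^ψ = (1 - ψ) ∂∂̄u ∧ ∂∂̄ψ + 1/2 ∂∂̄u ∧ ∂∂̄ψ²` -/
theorem mxd_exp (hf : LvlOK f s r) {u : E3 → ℝ} (hu : SmL f s r u) {ψ : E3 → ℝ}
    (hψ : SmL f s r ψ) {x : E3} (hx : x ≠ 0) (hr : nsq x < r ^ 2) (hfx : f x = s) :
    Real.exp (-ψ x) * mxd f u (fun y => Real.exp (ψ y)) x =
      (1 - ψ x) * mxd f u ψ x + 1 / 2 * mxd f u (fun y => ψ y ^ 2) x := by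
  obtain ⟨θ, O, z, h1, h2, h3, h4⟩ := mxd_hess hf hx hr hfx
  have s1 : SmL f s r (fun y => Real.exp (ψ y)) := smL_comp Real.contDiff_exp hψ
  have s2 : SmL f s r (fun y => ψ y ^ 2) :=
    smL_comp (F := fun t => t ^ 2) (contDiff_id.pow 2) hψ
  rw [h4 _ _ hu hψ, h4 _ _ hu s1, h4 _ _ hu s2]
  have hψz : ContDiffAt ℝ ∞ (fun z => ψ (θ z)) z := smAt hψ h1 h2
  set G : Matrix (Fin 2) (Fin 2) ℂ := fun a b =>
    wd (false, a) (cu (fun z => ψ (θ z))) z * wd (true, b) (cu (fun z => ψ (θ z))) z with hG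
  have e1 : hess (fun z => Real.exp (ψ (θ z))) z =
      (Real.exp (ψ x) : ℂ) • (hess (fun z => ψ (θ z)) z + G) := by
    ext a b
    rw [R273.FIa0_597.hess_comp_real (φ := Real.exp) (φ' := Real.exp) hψz
      (Eventually.of_forall fun t => Real.hasDerivAt_exp t) (Real.hasDerivAt_exp _), h3,
      Matrix.smul_apply, Matrix.add_apply, hG]
    simp only [smul_eq_mul]
    ring
  have e2 : hess (fun z => ψ (θ z) ^ 2) z =
      (2 : ℂ) • ((ψ x : ℂ) • hess (fun z => ψ (θ z)) z + G) := by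
    ext a b
    rw [R273.FIa0_597.hess_comp_real (φ := fun t => t ^ 2) (φ' := fun t => 2 * t) (d2 := 2) hψz
      (Eventually.of_forall fun t => by simpa using hasDerivAt_pow 2 t)
      (by simpa using (hasDerivAt_id (ψ (θ z))).const_mul 2), h3,
      Matrix.smul_apply, Matrix.add_apply, Matrix.smul_apply, hG]
    simp only [smul_eq_mul]
    push_cast
    ring
  rw [e1, e2]
  have e3 : (pd (hess (fun z => u (θ z)) z) ((Real.exp (ψ x) : ℂ) •
      (hess (fun z => ψ (θ z)) z + G))).re = Real.exp (ψ x) *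
      ((pd (hess (fun z => u (θ z)) z) (hess (fun z => ψ (θ z)) z)).re +
        (pd (hess (fun z => u (θ z)) z) G).re) := by
    rw [pd_smul, Complex.re_ofReal_mul, pd_add, Complex.add_re]
  have e4 : (pd (hess (fun z => u (θ z)) z) ((2 : ℂ) •
      ((ψ x : ℂ) • hess (fun z => ψ (θ z)) z + G))).re = 2 *
      (ψ x * (pd (hess (fun z => u (θ z)) z) (hess (fun z => ψ (θ z)) z)).re +
        (pd (hess (fun z => u (θ z)) z) G).re) := by
    rw [pd_smul, show (2 : ℂ) = ((2 : ℝ) : ℂ) by norm_num, Complex.re_ofReal_mul, pd_add,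
      Complex.add_re, pd_smul, Complex.re_ofReal_mul]
  rw [e3, e4]
  have e5 : Real.exp (-ψ x) * Real.exp (ψ x) = 1 := by
    rw [← Real.exp_add]
    simp
  set P := (pd (hess (fun z => u (θ z)) z) (hess (fun z => ψ (θ z)) z)).re
  set Q := (pd (hess (fun z => u (θ z)) z) G).re
  rw [show Real.exp (-ψ x) * (Real.exp (ψ x) * (P + Q) / eta2a (n := 2) f θ z) =
    (Real.exp (-ψ x) * Real.exp (ψ x)) * ((P + Q) / eta2a (n := 2) f θ z) by ring, e5]
  ring

/-! ### Stokes -/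

/-- **Stokes**: `∫ c ∂∂̄b ∧ ∂∂̄a = ∫ a ∂∂̄b ∧ ∂∂̄c`, `c` with compact support in the level -/
theorem stk (hf : LvlOK f s r) {ν : Measure E3} (hν : IsNu f s r ν) {a b c : E3 → ℝ}
    (ha : SmL f s r a) (hb : SmL f s r b) (hc : SmL f s r c) {r₁ r₂ : ℝ} (h1 : 0 < r₁)
    (h2 : 0 ≤ r₂) (h3 : r₂ < r)
    (h0 : ∀ x, f x = s → x ≠ 0 → nsq x < r ^ 2 → nsq x < r₁ ^ 2 ∨ r₂ ^ 2 < nsq x → c x = 0) :
    Integrable (fun x => c x * mxd f b a x) ν ∧ Integrable (fun x => a x * mxd f b c x) ν ∧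
    ∫ x, c x * mxd f b a x ∂ν = ∫ x, a x * mxd f b c x ∂ν := by
  set K : Set ((LX hf).M 0) := {x | r₁ ^ 2 ≤ nsq x.1 ∧ nsq x.1 ≤ r₂ ^ 2} with hKd
  have hK : IsCompact K := ann_compact hf h1 h2 h3
  have hoff : ∀ x : (LX hf).M 0, x ∉ K → ∀ᶠ y in 𝓝 x.1, f y = f x.1 → c y = 0 := by
    intro x hx
    have h4 : nsq x.1 < r₁ ^ 2 ∨ r₂ ^ 2 < nsq x.1 := by
      by_contra hcon
      push Not at hcon
      exact hx hcon
    obtain ⟨m1, m2, m3⟩ := mem_M hf x
    rcases h4 with h4 | h4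
    · filter_upwards [continuous_nsq3.continuousAt.eventually_lt continuousAt_const h4,
        mem_L_ev m1 m2 m3] with y hy hy' hy2
      exact h0 y (hy' hy2).1 (hy' hy2).2.1 (hy' hy2).2.2 (Or.inl hy)
    · filter_upwards [continuousAt_const.eventually_lt continuous_nsq3.continuousAt h4,
        mem_L_ev m1 m2 m3] with y hy hy' hy2
      exact h0 y (hy' hy2).1 (hy' hy2).2.1 (hy' hy2).2.2 (Or.inr hy)
  have P := (LX hf).part 0
  have c1 : Continuous fun x : (LX hf).M 0 => c x.1 * mxd f b a x.1 :=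
    (cont_val hf fun θ O hθ => (hc θ O hθ).continuousOn).mul (cont_mxd hf hb ha)
  have c2 : Continuous fun x : (LX hf).M 0 => a x.1 * mxd f b c x.1 :=
    (cont_val hf fun θ O hθ => (ha θ O hθ).continuousOn).mul (cont_mxd hf hb hc)
  obtain ⟨i1, e1⟩ := bridge hf hν (φ := c) hb ha P hK c1 fun x hx => by
    rw [(hoff x hx).self_of_nhds rfl, zero_mul]
  obtain ⟨i2, e2⟩ := bridge hf hν (φ := a) hb hc P hK c2 fun x hx => by
    rw [mxd_loc0 (hoff x hx), mul_zero]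
  refine ⟨i1, i2, ?_⟩
  have e3 := Cmp1_101.stokes_pd P (sm_val hf hc) (sm_val hf ha) (sm_val hf hb) hK
    (fun x hx => (hoff x hx).self_of_nhds rfl)
  have e4 : ((∫ x, c x * mxd f b a x ∂ν : ℝ) : ℂ) = ((∫ x, a x * mxd f b c x ∂ν : ℝ) : ℂ) := by
    rw [e1, e2]
    simp only [pd_comm (hsf ((LX hf).A 0) (fun x => b x.1) _ _)]
    exact e3
  exact_mod_cast e4

/-- `∫ ∂∂̄b ∧ ∂∂̄c = 0`, `c` with compact support in the level -/
theorem stk_one (hf : LvlOK f s r) {ν : Measure E3} (hν : IsNu f s r ν) {b c : E3 → ℝ}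
    (hb : SmL f s r b) (hc : SmL f s r c) {r₁ r₂ : ℝ} (h1 : 0 < r₁)
    (h2 : 0 ≤ r₂) (h3 : r₂ < r)
    (h0 : ∀ x, f x = s → x ≠ 0 → nsq x < r ^ 2 → nsq x < r₁ ^ 2 ∨ r₂ ^ 2 < nsq x → c x = 0) :
    Integrable (fun x => mxd f b c x) ν ∧ ∫ x, mxd f b c x ∂ν = 0 := by
  obtain ⟨-, i2, e⟩ := stk hf hν (smL_const 1) hb hc h1 h2 h3 h0
  simp only [one_mul, mxd_cst, mul_zero, integral_zero] at i2 e
  exact ⟨i2, e.symm⟩

end Crest.Agent.R257.MsJ_617
end
end

-- ▼ part R257/MsJ2_617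
section

/-!
R257 / MsJ2_617 (helper617), leaf GB-MASSJ, part 2: masses.

`W = A - u`.  For a psh function `ψ` on the punctured level:
* `mass_one` : `|ψ| ≤ B W^N`  ⟹ `∫_{W ≤ R} χ ∂∂̄u ∧ ∂∂̄ψ ≤ C R^N`
* `mass_two` : `|ψ| ≤ B W^N`  ⟹ `∫_{W ≤ R} χ e^{-ψ} ∂∂̄u ∧ ∂∂̄e^ψ ≤ C R^(2N)`
* `mass_fin` : `ψ ≤ B`        ⟹ `χ ∂∂̄u ∧ ∂∂̄ψ` is integrable
-/

set_option autoImplicit false
set_option linter.unusedSectionVars false

open Topology Filter MeasureTheory Set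
open scoped ENNReal ContDiff Matrix ComplexOrder

noncomputable section

namespace Crest.Agent.R257.MsJ_617

open Crest.Agent.R275.Geo
open Crest.Agent.R273.Defs_333 (lev)
open Crest.Agent.R257.Defs_219 Crest.Agent.R257.KED_952 Crest.Agent.R257.KEG_952
open Crest.Agent.R257.V1Defs_822
open Crest.Agent.R257.V1Pe_822 Crest.Agent.R257.V1W_822 Crest.Agent.R257.UpK_938
open Crest.Agent.R257.Bridge_822 Crest.Agent.R257.CmpL_822
open Crest.Agent.R257.PN_835 (nsq)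
open Crest.Agent.R257.Cmp2_101 (Qp Qp_deriv Qp_sm Qp_zero st_deriv_nonneg st_hasDeriv prim)
open Crest.Agent.R257.KedM_941 (L Gd ctL_contOn aem_of_ctL)

/-! ### the function `Qp` -/

theorem Qp_nonneg (t : ℝ) : 0 ≤ Qp t := by
  rcases le_total t 0 with h | h
  · rw [Qp_zero h]
  · unfold Qp prim
    exact intervalIntegral.integral_nonneg h fun x _ => Real.smoothTransition.nonneg x

theorem Qp_le {t : ℝ} (h : 0 ≤ t) : Qp t ≤ t := by
  unfold Qp prim
  calc ∫ σ in (0 : ℝ)..t, Real.smoothTransition σ ≤ ∫ σ in (0 : ℝ)..t, (1 : ℝ) :=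
        intervalIntegral.integral_mono_on h
          (Real.smoothTransition.continuous.intervalIntegrable _ _)
          (continuous_const.intervalIntegrable _ _) fun x _ => Real.smoothTransition.le_one x
    _ = t := by simp

/-- the constant -/
def c0 : ℝ := 1 - Qp 1

theorem c0_nonneg : 0 ≤ c0 := by
  have := Qp_le (t := 1) zero_le_one
  unfold c0
  linarith

theorem c0_le : c0 ≤ 1 := by
  have := Qp_nonneg 1
  unfold c0
  linarith

theorem Qp_eq {t : ℝ} (h : 1 ≤ t) : Qp t = t - c0 := by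
  have h1 : Qp t = Qp 1 + ∫ σ in (1 : ℝ)..t, Real.smoothTransition σ := by
    unfold Qp prim
    rw [intervalIntegral.integral_add_adjacent_intervals
      (Real.smoothTransition.continuous.intervalIntegrable _ _)
      (Real.smoothTransition.continuous.intervalIntegrable _ _)]
  have h2 : ∫ σ in (1 : ℝ)..t, Real.smoothTransition σ = ∫ σ in (1 : ℝ)..t, (1 : ℝ) := by
    refine intervalIntegral.integral_congr fun x hx => ?_
    rw [uIcc_of_le h] at hx
    exact Real.smoothTransition.one_of_one_le hx.1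
  rw [h1, h2, intervalIntegral.integral_const, smul_eq_mul]
  unfold c0
  ring

theorem le_Qp (t : ℝ) : t - 1 ≤ Qp t := by
  rcases le_total 1 t with h | h
  · rw [Qp_eq h]
    linarith [c0_le]
  · linarith [Qp_nonneg t]

/-! ### the cut-offs -/

/-- `χ Qp (R - A + u)` -/
def Th (χ u : E3 → ℝ) (A R : ℝ) (x : E3) : ℝ := χ x * Qp (R - A + u x)

variable {f : E3 → ℂ} {r A : ℝ} {u χ : E3 → ℝ}

theorem Th_nonneg (hχ : Cut r χ) (R : ℝ) (x : E3) : 0 ≤ Th χ u A R x :=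
  mul_nonneg (hχ.nn x) (Qp_nonneg _)

theorem sm_arg (hK : KEon f 0 r u) (R : ℝ) : SmL f 0 r fun x => R - A + u x :=
  smL_add (smL_const _) hK.sm

theorem sm_Th (hK : KEon f 0 r u) (hχ : Cut r χ) (R : ℝ) : SmL f 0 r (Th χ u A R) :=
  smL_mul (cut_smL hχ) (smL_comp Qp_sm (sm_arg hK R))

theorem Th_ge (hχ : Cut r χ) {R : ℝ} (hR : 4 ≤ R) {x : E3} (hx : A - u x ≤ R / 2) :
    χ x * (R / 4) ≤ Th χ u A R x := by
  unfold Th
  refine mul_le_mul_of_nonneg_left ?_ (hχ.nn x)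
  have := le_Qp (R - A + u x)
  linarith

theorem Th_zero {R : ℝ} {x : E3} (hx : R ≤ A - u x) : Th χ u A R x = 0 := by
  unfold Th
  rw [Qp_zero (by linarith), mul_zero]


/-- the cut-offs have compact support in the punctured level -/
theorem Th_supp (hE : Esc f r u A) (hχ : Cut r χ) : ∃ ρ : ℝ, 0 < ρ ∧ ρ < r ∧ ∀ R : ℝ, ∃ δ : ℝ,
    0 < δ ∧ ∀ x, f x = 0 → x ≠ 0 → nsq x < r ^ 2 → nsq x < δ ^ 2 ∨ ρ ^ 2 < nsq x →
      Th χ u A R x = 0 := by
  obtain ⟨ρ, h1, h2, h3⟩ := hχ.supp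
  refine ⟨ρ, h1, h2, fun R => ?_⟩
  obtain ⟨δ, h4, h5⟩ := hE.inf (A - R)
  refine ⟨δ, h4, fun x hx hx0 hxr hx2 => ?_⟩
  rcases hx2 with h | h
  · exact Th_zero (by linarith [h5 x hx hx0 h])
  · unfold Th
    rw [h3 x h.le, zero_mul]

/-- `∂∂̄u ∧ ∂∂̄Θ_R = 0` where `A - u > R` -/
theorem mxd_Th_zero (hf : LvlOK f 0 r) (hK : KEon f 0 r u) {R : ℝ} {x : E3} (h1 : f x = 0)
    (h2 : x ≠ 0) (h3 : nsq x < r ^ 2) (hx : R < A - u x) : mxd f u (Th χ u A R) x = 0 := by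
  refine mxd_loc0 ?_
  have h4 : ∀ᶠ t in 𝓝 (u x), R < A - t := by
    have : Tendsto (fun t : ℝ => A - t) (𝓝 (u x)) (𝓝 (A - u x)) :=
      (continuous_const.sub continuous_id).tendsto _
    exact this.eventually (lt_mem_nhds hx)
  filter_upwards [ctL_ev hf (smL_ctl hK.sm) h1 h2 h3 h4] with y hy hy2
  exact Th_zero (hy hy2).le

/-- the outer density -/
def gO (f : E3 → ℂ) (u χ κ : E3 → ℝ) (A : ℝ) (x : E3) : ℝ :=
  (1 - κ x) * (|mxd f u χ x| + |mxd f u (fun y => χ y * (A - u y)) x|)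

theorem sm_W (hK : KEon f 0 r u) : SmL f 0 r fun x => A - u x := smL_sub (smL_const A) hK.sm

theorem gO_nonneg {κ : E3 → ℝ} (hκ : Cut r κ) (x : E3) : 0 ≤ gO f u χ κ A x :=
  mul_nonneg (by linarith [hκ.le x]) (by positivity)

/-- integrability of continuous functions with compact support in the level -/
theorem integrable_cs (hf : LvlOK f 0 r) {ν : Measure E3} (hν : IsNu f 0 r ν) {g : E3 → ℝ}
    (hg : Continuous fun x : (LX hf).M 0 => g x.1) {r₁ r₂ : ℝ} (h1 : 0 < r₁) (h2 : 0 ≤ r₂)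
    (h3 : r₂ < r) (h0 : ∀ x, f x = 0 → x ≠ 0 → nsq x < r ^ 2 → nsq x < r₁ ^ 2 ∨ r₂ ^ 2 < nsq x →
      g x = 0) : Integrable g ν := by
  refine integrable_nu hf hν (integrable_vol hf hg (ann_compact hf h1 h2 h3) fun x hx => ?_)
  obtain ⟨m1, m2, m3⟩ := mem_M hf x
  refine h0 x.1 m1 m2 m3 ?_
  by_contra hcon
  push Not at hcon
  exact hx ⟨hcon.1, hcon.2⟩

/-- **the psh cut-offs**: `∂∂̄u ∧ ∂∂̄Θ_R ≥ - R g` with a fixed integrable `g` -/
theorem exists_g (hf : LvlOK f 0 r) (hK : KEon f 0 r u) (hχ : Cut r χ) :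
    ∃ (g : E3 → ℝ) (R₀ : ℝ), 4 ≤ R₀ ∧ (∀ x, 0 ≤ g x) ∧
      (∀ (ν : Measure E3), IsNu f 0 r ν → ∀ ψ : E3 → ℝ, CtL f 0 r ψ →
        Integrable (fun x => ψ x * g x) ν) ∧
      ∀ R, R₀ ≤ R → ∀ x, f x = 0 → x ≠ 0 → nsq x < r ^ 2 →
        - (R * g x) ≤ mxd f u (Th χ u A R) x := by
  obtain ⟨r₁, ρ, h1, h2, h3, h4, h5, h6⟩ := cut_rad hχ
  obtain ⟨κ, hκ⟩ := exists_cut (r := min r₁ r) (lt_min h1 hf.pos)
  have hκr : Cut r κ := cut_mono hκ (min_le_right _ _)
  obtain ⟨r₁', ρ', k1, k2, k3, k4, k5, k6⟩ := cut_rad hκ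
  -- bound of `A - u` on the outer part
  have hcomp := ann_compact hf h1 h2.le h3
  have cW : Continuous fun x : (LX hf).M 0 => A - u x.1 := cont_val hf (smL_ctl (sm_W hK))
  obtain ⟨B, hB⟩ := hcomp.exists_bound_of_continuousOn cW.continuousOn
  have smχ : SmL f 0 r χ := cut_smL hχ
  have smχW : SmL f 0 r fun y => χ y * (A - u y) := smL_mul smχ (sm_W hK)
  refine ⟨gO f u χ κ A, max 4 (B + 2), le_max_left _ _, gO_nonneg hκr, ?_, ?_⟩
  · intro ν hν ψ hψ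
    have c1 : Continuous fun x : (LX hf).M 0 => ψ x.1 * gO f u χ κ A x.1 :=
      (cont_val hf hψ).mul ((continuous_const.sub (cont_val hf (smL_ctl (cut_smL hκr)))).mul
        ((cont_mxd hf hK.sm smχ).abs.add (cont_mxd hf hK.sm smχW).abs))
    refine integrable_cs hf hν c1 k1 h2.le h3 fun x _ _ _ hx => ?_
    rcases hx with hx | hx
    · have : κ x = 1 := (k4 x hx).self_of_nhds
      unfold gO
      rw [this]
      ring
    · unfold gO
      rw [mxd_zero (h6 x hx), mxd_zero ((h6 x hx).mono fun y hy => by simp only [hy, zero_mul])]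
      simp
  · intro R hR x hx hx0 hxr
    have hR4 : 4 ≤ R := (le_max_left _ _).trans hR
    have hRB : B + 2 ≤ R := (le_max_right _ _).trans hR
    have hg0 := gO_nonneg (f := f) (u := u) (χ := χ) (A := A) hκr x
    by_cases hin : nsq x < r₁ ^ 2
    · -- inner part: `χ = 1`
      have e1 : mxd f u (Th χ u A R) x = mxd f u (fun y => Qp (R - A + u y)) x := by
        refine mxd_loc ?_
        filter_upwards [h4 x hin] with y hy _
        unfold Th
        rw [hy, one_mul]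
      have e2 := mxd_cv hf hK (sm_arg (A := A) hK R) Qp_sm Qp_deriv st_hasDeriv
        (st_deriv_nonneg (R - A + u x)) hx0 hxr hx
      have e3 : mxd f u (fun y => R - A + u y) x = mxd f u u x := by
        rw [mxd_add hf hK.sm (smL_const (R - A)) hK.sm hx0 hxr hx, mxd_cst, zero_add]
      have e4 : 0 ≤ mxd f u u x := by
        rw [mxd_ke hf hK hx0 hxr hx]
        positivity
      have e5 : 0 ≤ Real.smoothTransition (R - A + u x) * mxd f u (fun y => R - A + u y) x := by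
        rw [e3]
        exact mul_nonneg (Real.smoothTransition.nonneg _) e4
      rw [e1]
      have : 0 ≤ R * gO f u χ κ A x := mul_nonneg (by linarith) hg0
      linarith
    · by_cases hout : ρ ^ 2 < nsq x
      · rw [mxd_zero ((h6 x hout).mono fun y hy => by unfold Th; rw [hy, zero_mul])]
        have : 0 ≤ R * gO f u χ κ A x := mul_nonneg (by linarith) hg0
        linarith
      · -- the annulus
        have hWB := hB (mkM hf hx hx0 hxr) ⟨not_lt.1 hin, not_lt.1 hout⟩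
        have hW : A - u x ≤ B := (le_abs_self _).trans hWB
        have h7 : ∀ᶠ t in 𝓝 (u x), 1 < R - A + t := by
          have : Tendsto (fun t : ℝ => R - A + t) (𝓝 (u x)) (𝓝 (R - A + u x)) :=
            (continuous_const.add continuous_id).tendsto _
          exact this.eventually (lt_mem_nhds (by linarith))
        have e1 : mxd f u (Th χ u A R) x =
            mxd f u (fun y => (R - c0) * χ y - χ y * (A - u y)) x := by
          refine mxd_loc ?_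
          filter_upwards [ctL_ev hf (smL_ctl hK.sm) hx hx0 hxr h7] with y hy hy2
          unfold Th
          rw [Qp_eq (hy hy2).le]
          ring
        have smc : SmL f 0 r fun y => (R - c0) * χ y := smL_mul (smL_const _) smχ
        have hκ0 : κ x = 0 := by
          refine k5 x ?_
          have : ρ' ^ 2 ≤ r₁ ^ 2 := pow_le_pow_left₀ k2.le (k3.le.trans (min_le_left _ _)) 2
          exact this.trans (not_lt.1 hin)
        rw [e1, mxd_sub hf smc smχW hx0 hxr hx, mxd_cmul hf smχ _ hx0 hxr hx]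
        unfold gO
        rw [hκ0, sub_zero, one_mul]
        have a1 := neg_abs_le (mxd f u χ x)
        have a2 := le_abs_self (mxd f u (fun y => χ y * (A - u y)) x)
        have a3 := abs_nonneg (mxd f u χ x)
        have a4 := abs_nonneg (mxd f u (fun y => χ y * (A - u y)) x)
        have b1 := c0_nonneg
        have b2 := c0_le
        have a5 : -(R * |mxd f u χ x|) ≤ (R - c0) * mxd f u χ x := by nlinarith
        have a6 : |mxd f u (fun y => χ y * (A - u y)) x| ≤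
            R * |mxd f u (fun y => χ y * (A - u y)) x| := by nlinarith
        linarith

end Crest.Agent.R257.MsJ_617
end
end

-- ▼ part R257/MsJ3_617
section

/-!
R257 / MsJ3_617 (helper617), leaf GB-MASSJ, part 3: the mass theorems `mass_one`, `mass_two`,
`mass_fin` (see MsJ2_617).
-/

set_option autoImplicit false
set_option linter.unusedSectionVars false

open Topology Filter MeasureTheory Set
open scoped ENNReal ContDiff Matrix ComplexOrder

noncomputable section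

namespace Crest.Agent.R257.MsJ_617

open Crest.Agent.R275.Geo
open Crest.Agent.R273.Defs_333 (lev)
open Crest.Agent.R257.Defs_219 Crest.Agent.R257.KED_952 Crest.Agent.R257.KEG_952
open Crest.Agent.R257.V1Defs_822
open Crest.Agent.R257.V1Pe_822 Crest.Agent.R257.V1W_822 Crest.Agent.R257.UpK_938
open Crest.Agent.R257.Bridge_822 Crest.Agent.R257.CmpL_822
open Crest.Agent.R257.PN_835 (nsq)
open Crest.Agent.R257.KedM_941 (L Gd ctL_contOn aem_of_ctL contOn_ctL)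

variable {f : E3 → ℂ} {r A : ℝ} {u χ : E3 → ℝ}

/-- Stokes with `Θ_R` -/
theorem stk_Th (hf : LvlOK f 0 r) (hK : KEon f 0 r u) (hE : Esc f r u A) (hχ : Cut r χ)
    {ν : Measure E3} (hν : IsNu f 0 r ν) (R : ℝ) {a : E3 → ℝ} (ha : SmL f 0 r a) :
    Integrable (fun x => Th χ u A R x * mxd f u a x) ν ∧
    Integrable (fun x => a x * mxd f u (Th χ u A R) x) ν ∧
    ∫ x, Th χ u A R x * mxd f u a x ∂ν = ∫ x, a x * mxd f u (Th χ u A R) x ∂ν := by
  obtain ⟨ρ, h1, h2, h3⟩ := Th_supp hE hχ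
  obtain ⟨δ, h4, h5⟩ := h3 R
  exact stk hf hν ha hK.sm (sm_Th hK hχ R) h4 h1.le h2 h5

theorem stk_Th_one (hf : LvlOK f 0 r) (hK : KEon f 0 r u) (hE : Esc f r u A) (hχ : Cut r χ)
    {ν : Measure E3} (hν : IsNu f 0 r ν) (R : ℝ) :
    Integrable (fun x => mxd f u (Th χ u A R) x) ν ∧ ∫ x, mxd f u (Th χ u A R) x ∂ν = 0 := by
  obtain ⟨ρ, h1, h2, h3⟩ := Th_supp hE hχ
  obtain ⟨δ, h4, h5⟩ := h3 R
  exact stk_one hf hν hK.sm (sm_Th hK hχ R) h4 h1.le h2 h5

/-- `∫ |∂∂̄u ∧ ∂∂̄Θ_R| ≤ 2 R ∫ g` -/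
theorem abs_mass (hf : LvlOK f 0 r) (hK : KEon f 0 r u) (hE : Esc f r u A) (hχ : Cut r χ)
    {ν : Measure E3} (hν : IsNu f 0 r ν) {g : E3 → ℝ} {R : ℝ} (hR : 0 ≤ R) (hg0 : ∀ x, 0 ≤ g x)
    (hg : Integrable g ν)
    (hle : ∀ x, f x = 0 → x ≠ 0 → nsq x < r ^ 2 → - (R * g x) ≤ mxd f u (Th χ u A R) x) :
    ∫ x, |mxd f u (Th χ u A R) x| ∂ν ≤ 2 * R * ∫ x, g x ∂ν := by
  obtain ⟨i1, e1⟩ := stk_Th_one hf hK hE hχ hν R
  calc ∫ x, |mxd f u (Th χ u A R) x| ∂ν
      ≤ ∫ x, (mxd f u (Th χ u A R) x + 2 * R * g x) ∂ν := by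
        refine integral_mono_ae i1.abs (i1.add (hg.const_mul _)) ?_
        refine isNu_ae hν fun x hx0 hxr hx => ?_
        have h1 := hle x hx hx0 hxr
        have h2 : 0 ≤ R * g x := mul_nonneg hR (hg0 x)
        show |mxd f u (Th χ u A R) x| ≤ mxd f u (Th χ u A R) x + 2 * R * g x
        rcases abs_cases (mxd f u (Th χ u A R) x) with ⟨h3, -⟩ | ⟨h3, -⟩ <;> rw [h3] <;> nlinarith
    _ = 2 * R * ∫ x, g x ∂ν := by
        rw [integral_add i1 (hg.const_mul _), e1, zero_add, integral_const_mul]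

/-- bound of `∫ a ∂∂̄u ∧ ∂∂̄Θ_R` -/
theorem bd_mass (hf : LvlOK f 0 r) (hK : KEon f 0 r u) (hE : Esc f r u A) (hχ : Cut r χ)
    {ν : Measure E3} (hν : IsNu f 0 r ν) {g : E3 → ℝ} {R : ℝ} (hR : 0 ≤ R) (hg0 : ∀ x, 0 ≤ g x)
    (hg : Integrable g ν)
    (hle : ∀ x, f x = 0 → x ≠ 0 → nsq x < r ^ 2 → - (R * g x) ≤ mxd f u (Th χ u A R) x)
    {a : E3 → ℝ} (ha : SmL f 0 r a) {b : ℝ} (hb : 0 ≤ b)
    (hab : ∀ x, f x = 0 → x ≠ 0 → nsq x < r ^ 2 → A - u x ≤ R → |a x| ≤ b) :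
    ∫ x, Th χ u A R x * mxd f u a x ∂ν ≤ b * (2 * R * ∫ x, g x ∂ν) := by
  obtain ⟨-, i2, e⟩ := stk_Th hf hK hE hχ hν R ha
  obtain ⟨i1, e1⟩ := stk_Th_one hf hK hE hχ hν R
  rw [e]
  calc ∫ x, a x * mxd f u (Th χ u A R) x ∂ν ≤ ∫ x, b * |mxd f u (Th χ u A R) x| ∂ν := by
        refine integral_mono_ae i2 (i1.abs.const_mul b) ?_
        refine isNu_ae hν fun x hx0 hxr hx => ?_
        show a x * mxd f u (Th χ u A R) x ≤ b * |mxd f u (Th χ u A R) x|
        rcases le_or_gt (A - u x) R with h | h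
        · calc a x * mxd f u (Th χ u A R) x ≤ |a x * mxd f u (Th χ u A R) x| := le_abs_self _
            _ = |a x| * |mxd f u (Th χ u A R) x| := abs_mul _ _
            _ ≤ _ := mul_le_mul_of_nonneg_right (hab x hx hx0 hxr h) (abs_nonneg _)
        · rw [mxd_Th_zero hf hK hx hx0 hxr h]
          simp
    _ = b * ∫ x, |mxd f u (Th χ u A R) x| ∂ν := integral_const_mul _ _
    _ ≤ _ := mul_le_mul_of_nonneg_left (abs_mass hf hK hE hχ hν hR hg0 hg hle) hb

/-- from cut-offs to sublevel sets -/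
theorem lint_sub (hχ : Cut r χ) {ν : Measure E3} (hν : IsNu f 0 r ν) {D : E3 → ℝ}
    (hD : ∀ x, f x = 0 → x ≠ 0 → nsq x < r ^ 2 → 0 ≤ D x) {R b : ℝ} (hR : 4 ≤ R)
    (hi : Integrable (fun x => Th χ u A R x * D x) ν)
    (hb : ∫ x, Th χ u A R x * D x ∂ν ≤ R * b) :
    ∫⁻ x in {x | A - u x ≤ R / 2}, ENNReal.ofReal (χ x * D x) ∂ν ≤ ENNReal.ofReal (4 * b) := by
  have hR0 : 0 < R := by linarith
  have hi' : Integrable (fun x => 4 / R * (Th χ u A R x * D x)) ν := hi.const_mul _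
  calc ∫⁻ x in {x | A - u x ≤ R / 2}, ENNReal.ofReal (χ x * D x) ∂ν
      ≤ ∫⁻ x in {x | A - u x ≤ R / 2}, ENNReal.ofReal (4 / R * (Th χ u A R x * D x)) ∂ν := by
        refine setLIntegral_mono_ae hi'.aemeasurable.ennreal_ofReal.restrict ?_
        refine isNu_ae hν fun x hx0 hxr hx hxS => ?_
        refine ENNReal.ofReal_le_ofReal ?_
        have h1 := Th_ge (A := A) (u := u) hχ hR hxS
        have h2 := hD x hx hx0 hxr
        have h3 : χ x * (R / 4) * D x ≤ Th χ u A R x * D x := mul_le_mul_of_nonneg_right h1 h2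
        rw [div_mul_eq_mul_div, le_div_iff₀ hR0]
        linarith
    _ ≤ ∫⁻ x, ENNReal.ofReal (4 / R * (Th χ u A R x * D x)) ∂ν := setLIntegral_le_lintegral _ _
    _ = ENNReal.ofReal (∫ x, 4 / R * (Th χ u A R x * D x) ∂ν) := by
        rw [ofReal_integral_eq_lintegral_ofReal hi']
        refine isNu_ae hν fun x hx0 hxr hx => ?_
        exact mul_nonneg (by positivity) (mul_nonneg (Th_nonneg hχ R x) (hD x hx hx0 hxr))
    _ ≤ ENNReal.ofReal (4 * b) := by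
        refine ENNReal.ofReal_le_ofReal ?_
        rw [integral_const_mul, div_mul_eq_mul_div, div_le_iff₀ hR0]
        linarith

theorem arith_R {R R₀ : ℝ} (hR : 1 ≤ R) (hR₀ : 4 ≤ R₀) (n : ℕ) :
    (2 * R + R₀) ^ n ≤ (2 + R₀) ^ n * R ^ n := by
  rw [← mul_pow]
  refine pow_le_pow_left₀ (by linarith) ?_ n
  nlinarith


/-- **mass of `e^{-ψ} ∂∂̄e^ψ = ∂∂̄ψ + ∂ψ ∧ ∂̄ψ`, polynomial growth** -/
theorem mass_two (hf : LvlOK f 0 r) (hK : KEon f 0 r u) (hE : Esc f r u A) (hχ : Cut r χ)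
    {ν : Measure E3} (hν : IsNu f 0 r ν) {ψ : E3 → ℝ} (hψ : SmL f 0 r ψ)
    (hp : ∀ θ O, PE f 0 r θ O → ∀ z ∈ O, ∀ v, 0 ≤ lev (fun z => ψ (θ z)) z v) {B : ℝ} {N : ℕ}
    (hB : 0 ≤ B)
    (hb : ∀ x, f x = 0 → x ≠ 0 → nsq x < r ^ 2 → |ψ x| ≤ B * (A - u x) ^ N) :
    ∃ C : ℝ, 0 ≤ C ∧ ∀ R : ℝ, 1 ≤ R →
      ∫⁻ x in {x | A - u x ≤ R}, ENNReal.ofReal
        (χ x * (Real.exp (-ψ x) * mxd f u (fun y => Real.exp (ψ y)) x)) ∂ν ≤
        ENNReal.ofReal (C * R ^ (2 * N)) := by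
  obtain ⟨g, R₀, hR₀, g0, gi, gle⟩ := exists_g (A := A) hf hK hχ
  have gi1 : Integrable g ν := by
    have := gi ν hν (fun _ => 1) (smL_ctl (smL_const 1))
    simpa using this
  have hG : 0 ≤ ∫ x, g x ∂ν := integral_nonneg g0
  set G := ∫ x, g x ∂ν with hGd
  have hψ2 : SmL f 0 r (fun y => ψ y ^ 2) := smL_comp (F := fun t => t ^ 2) (contDiff_id.pow 2) hψ
  have hψe : SmL f 0 r (fun y => Real.exp (ψ y)) := smL_comp Real.contDiff_exp hψ
  set D : E3 → ℝ := fun x => Real.exp (-ψ x) * mxd f u (fun y => Real.exp (ψ y)) x with hD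
  have hmx : ∀ x, f x = 0 → x ≠ 0 → nsq x < r ^ 2 → 0 ≤ mxd f u ψ x := fun x hx hx0 hxr =>
    mxd_nonneg hf hK hψ hp hx0 hxr hx
  have hD0 : ∀ x, f x = 0 → x ≠ 0 → nsq x < r ^ 2 → 0 ≤ D x := by
    intro x hx hx0 hxr
    have h1 := mxd_cv hf hK hψ Real.contDiff_exp Real.hasDerivAt_exp Real.hasDerivAt_exp
      (Real.exp_pos (ψ x)).le hx0 hxr hx
    have h2 := mul_nonneg (Real.exp_pos (ψ x)).le (hmx x hx hx0 hxr)
    exact mul_nonneg (Real.exp_pos _).le (h2.trans h1)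
  refine ⟨4 * ((1 + B) * (B * (2 * G)) + B ^ 2 * G) * (2 + R₀) ^ (2 * N), by positivity,
    fun R hR => ?_⟩
  set S := 2 * R + R₀ with hS
  have hS0 : R₀ ≤ S := by rw [hS]; linarith
  have hS4 : 4 ≤ S := hR₀.trans hS0
  have hS1 : 1 ≤ S := by linarith
  have hSN : 1 ≤ S ^ N := one_le_pow₀ hS1
  have hψb : ∀ x, f x = 0 → x ≠ 0 → nsq x < r ^ 2 → A - u x ≤ S → |ψ x| ≤ B * S ^ N :=
    fun x hx hx0 hxr hW => (hb x hx hx0 hxr).trans (mul_le_mul_of_nonneg_left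
      (pow_le_pow_left₀ (by linarith [hE.one x hx hx0 hxr]) hW N) hB)
  have key1 := bd_mass hf hK hE hχ hν (R := S) (by linarith) g0 gi1 (gle S hS0) hψ
    (b := B * S ^ N) (by positivity) hψb
  have key2 := bd_mass hf hK hE hχ hν (R := S) (by linarith) g0 gi1 (gle S hS0) hψ2
    (b := (B * S ^ N) ^ 2) (by positivity) fun x hx hx0 hxr hW => by
      rw [abs_of_nonneg (sq_nonneg _), ← sq_abs (ψ x)]
      exact pow_le_pow_left₀ (abs_nonneg _) (hψb x hx hx0 hxr hW) 2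
  obtain ⟨j1, -, -⟩ := stk_Th hf hK hE hχ hν S hψ
  obtain ⟨j2, -, -⟩ := stk_Th hf hK hE hχ hν S hψ2
  obtain ⟨je, -, -⟩ := stk_Th hf hK hE hχ hν S hψe
  -- the integral with the cut-off
  have hcD : Continuous fun x : (LX hf).M 0 => Th χ u A S x.1 * D x.1 :=
    (cont_val hf (smL_ctl (sm_Th hK hχ S))).mul ((Real.continuous_exp.comp
      (cont_val hf (smL_ctl hψ)).neg).mul (cont_mxd hf hK.sm hψe))
  have jD : Integrable (fun x => Th χ u A S x * D x) ν := by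
    obtain ⟨ρ, h1, h2, h3⟩ := Th_supp hE hχ
    obtain ⟨δ, h4, h5⟩ := h3 S
    exact integrable_cs hf hν hcD h4 h1.le h2 fun x a1 a2 a3 a4 => by
      rw [h5 x a1 a2 a3 a4, zero_mul]
  have key : ∫ x, Th χ u A S x * D x ∂ν ≤
      S * (((1 + B * S ^ N) * (B * S ^ N * (2 * G))) + (B * S ^ N) ^ 2 * G) := by
    calc ∫ x, Th χ u A S x * D x ∂ν
        ≤ ∫ x, ((1 + B * S ^ N) * (Th χ u A S x * mxd f u ψ x) +
            1 / 2 * (Th χ u A S x * mxd f u (fun y => ψ y ^ 2) x)) ∂ν := by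
          refine integral_mono_ae jD ((j1.const_mul _).add (j2.const_mul _)) ?_
          refine isNu_ae hν fun x hx0 hxr hx => ?_
          show Th χ u A S x * D x ≤ (1 + B * S ^ N) * (Th χ u A S x * mxd f u ψ x) +
            1 / 2 * (Th χ u A S x * mxd f u (fun y => ψ y ^ 2) x)
          have e := mxd_exp hf hK.sm hψ hx0 hxr hx
          rw [hD]
          simp only
          rw [e]
          have t0 := Th_nonneg (A := A) (u := u) hχ S x
          have m0 := hmx x hx hx0 hxr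
          rcases le_or_gt (A - u x) S with h | h
          · have h2 := (abs_le.1 (hψb x hx hx0 hxr h)).1
            have h3 : Th χ u A S x * ((1 - ψ x) * mxd f u ψ x) ≤
                Th χ u A S x * ((1 + B * S ^ N) * mxd f u ψ x) :=
              mul_le_mul_of_nonneg_left (mul_le_mul_of_nonneg_right (by linarith) m0) t0
            nlinarith
          · rw [Th_zero h.le]
            simp
      _ = (1 + B * S ^ N) * ∫ x, Th χ u A S x * mxd f u ψ x ∂ν +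
            1 / 2 * ∫ x, Th χ u A S x * mxd f u (fun y => ψ y ^ 2) x ∂ν := by
          rw [integral_add (j1.const_mul _) (j2.const_mul _), integral_const_mul,
            integral_const_mul]
      _ ≤ (1 + B * S ^ N) * (B * S ^ N * (2 * S * G)) +
            1 / 2 * ((B * S ^ N) ^ 2 * (2 * S * G)) := by
          gcongr
      _ = _ := by ring
  have h1 := lint_sub (f := f) (A := A) (u := u) hχ hν hD0 hS4 jD key
  refine (lintegral_mono_set ?_).trans (h1.trans (ENNReal.ofReal_le_ofReal ?_))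
  · intro x hx
    have : A - u x ≤ R := hx
    show A - u x ≤ S / 2
    rw [hS]
    linarith
  · have h2 := arith_R hR hR₀ (2 * N)
    have h3 : 1 + B * S ^ N ≤ (1 + B) * S ^ N := by nlinarith
    calc 4 * (((1 + B * S ^ N) * (B * S ^ N * (2 * G))) + (B * S ^ N) ^ 2 * G)
        ≤ 4 * ((((1 + B) * S ^ N) * (B * S ^ N * (2 * G))) + (B * S ^ N) ^ 2 * G) := by gcongr
      _ = 4 * ((1 + B) * (B * (2 * G)) + B ^ 2 * G) * S ^ (2 * N) := by ring
      _ ≤ 4 * ((1 + B) * (B * (2 * G)) + B ^ 2 * G) * ((2 + R₀) ^ (2 * N) * R ^ (2 * N)) := by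
          gcongr
      _ = _ := by ring

end Crest.Agent.R257.MsJ_617
end
end

-- ▼ part R257/MsJ4_617

/-!
R257 / MsJ4_617 (helper617), leaf GB-MASSJ, part 4: finite mass, Jensen.

* `mass_fin` : `ψ` psh, `ψ ≤ B` ⟹ `χ ∂∂̄u ∧ ∂∂̄ψ` is integrable
* `jensen`   : polynomial masses of `T ≥ 0`, finite volume ⟹
  `∫_{j ≤ log W ≤ 2j} χ log² (e + T) e^u ≤ ε j²` for large `j`, `W = A - u`
* `jensenV`  : the same for `V²`, `|V| ≤ C (1 + log W + log (e + T))`
-/

set_option autoImplicit false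
set_option linter.unusedSectionVars false

open Topology Filter MeasureTheory Set
open scoped ENNReal ContDiff Matrix ComplexOrder

noncomputable section

namespace Crest.Agent.R257.MsJ_617

open Crest.Agent.R275.Geo
open Crest.Agent.R273.Defs_333 (lev)
open Crest.Agent.R257.Defs_219 Crest.Agent.R257.KED_952 Crest.Agent.R257.KEG_952
open Crest.Agent.R257.V1Defs_822
open Crest.Agent.R257.V1Pe_822 Crest.Agent.R257.V1W_822 Crest.Agent.R257.UpK_938
open Crest.Agent.R257.Bridge_822 Crest.Agent.R257.CmpL_822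
open Crest.Agent.R257.PN_835 (nsq)
open Crest.Agent.R257.KedM_941 (L Gd ctL_contOn aem_of_ctL contOn_ctL)

variable {f : E3 → ℂ} {r A : ℝ} {u χ : E3 → ℝ}

/-- monotone limit over the sublevel sets of `A - u` -/
theorem lint_lim {ν : Measure E3} {F : E3 → ℝ≥0∞} {C : ℝ≥0∞}
    (h : ∀ n : ℕ, ∫⁻ x in {x | A - u x ≤ n}, F x ∂ν ≤ C) : ∫⁻ x, F x ∂ν ≤ C := by
  have h1 : (⋃ n : ℕ, {x | A - u x ≤ n}) = univ := by
    refine eq_univ_of_forall fun x => ?_
    obtain ⟨n, hn⟩ := exists_nat_ge (A - u x)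
    exact mem_iUnion.2 ⟨n, hn⟩
  have hm : Monotone fun n : ℕ => {x | A - u x ≤ (n : ℝ)} := fun m n hmn x hx =>
    (show A - u x ≤ m from hx).trans (by exact_mod_cast hmn)
  have h3 : ∫⁻ x in ⋃ n : ℕ, {x | A - u x ≤ (n : ℝ)}, F x ∂ν ≤ C := by
    rw [setLIntegral_iUnion_of_directed F (hm.directed_le)]
    exact iSup_le h
  rwa [h1, Measure.restrict_univ] at h3

/-- **finite mass** -/
theorem mass_fin (hf : LvlOK f 0 r) (hK : KEon f 0 r u) (hE : Esc f r u A) (hχ : Cut r χ)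
    {ν : Measure E3} (hν : IsNu f 0 r ν) {ψ : E3 → ℝ} (hψ : SmL f 0 r ψ)
    (hp : ∀ θ O, PE f 0 r θ O → ∀ z ∈ O, ∀ v, 0 ≤ lev (fun z => ψ (θ z)) z v) {B : ℝ}
    (hb : ∀ x, f x = 0 → x ≠ 0 → nsq x < r ^ 2 → ψ x ≤ B) :
    Integrable (fun x => χ x * mxd f u ψ x) ν := by
  obtain ⟨g, R₀, hR₀, g0, gi, gle⟩ := exists_g (A := A) hf hK hχ
  have hBψ : CtL f 0 r (fun x => B - ψ x) := smL_ctl (smL_sub (smL_const B) hψ)
  have gi2 := gi ν hν _ hBψ
  set G := ∫ x, (B - ψ x) * g x ∂ν with hGd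
  have key : ∀ S, R₀ ≤ S → ∫ x, Th χ u A S x * mxd f u ψ x ∂ν ≤ S * G := by
    intro S hS
    obtain ⟨-, i2, e⟩ := stk_Th hf hK hE hχ hν S hψ
    obtain ⟨i1, e1⟩ := stk_Th_one hf hK hE hχ hν S
    rw [e]
    calc ∫ x, ψ x * mxd f u (Th χ u A S) x ∂ν
        ≤ ∫ x, (B * mxd f u (Th χ u A S) x + S * ((B - ψ x) * g x)) ∂ν := by
          refine integral_mono_ae i2 ((i1.const_mul B).add (gi2.const_mul S)) ?_
          refine isNu_ae hν fun x hx0 hxr hx => ?_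
          show ψ x * mxd f u (Th χ u A S) x ≤
            B * mxd f u (Th χ u A S) x + S * ((B - ψ x) * g x)
          have h1 := gle S hS x hx hx0 hxr
          have h2 : 0 ≤ B - ψ x := by linarith [hb x hx hx0 hxr]
          nlinarith [mul_le_mul_of_nonneg_left h1 h2]
      _ = S * G := by
          rw [integral_add (i1.const_mul B) (gi2.const_mul S), integral_const_mul,
            integral_const_mul, e1]
          ring
  have hc : Continuous fun x : (LX hf).M 0 => χ x.1 * mxd f u ψ x.1 :=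
    (cont_val hf (smL_ctl (cut_smL hχ))).mul (cont_mxd hf hK.sm hψ)
  refine ⟨(CmpL_822.aemeas_nu hf hν hc).aestronglyMeasurable, ?_⟩
  rw [hasFiniteIntegral_iff_ofReal (isNu_ae hν fun x hx0 hxr hx =>
    mul_nonneg (hχ.nn x) (mxd_nonneg hf hK hψ hp hx0 hxr hx))]
  refine lt_of_le_of_lt (lint_lim (A := A) (u := u) (C := ENNReal.ofReal (4 * G)) fun n => ?_)
    ENNReal.ofReal_lt_top
  have hS : R₀ ≤ 2 * (n : ℝ) + R₀ := by
    have : (0 : ℝ) ≤ n := Nat.cast_nonneg n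
    linarith
  refine (lintegral_mono_set ?_).trans (lint_sub (f := f) (A := A) (u := u) hχ hν
    (D := mxd f u ψ) (fun x hx hx0 hxr => mxd_nonneg hf hK hψ hp hx0 hxr hx) (hR₀.trans hS)
    (stk_Th hf hK hE hχ hν _ hψ).1 (key _ hS))
  intro x hx
  have : A - u x ≤ n := hx
  show A - u x ≤ (2 * (n : ℝ) + R₀) / 2
  linarith

/-! ### Jensen -/

theorem one_le_log {t : ℝ} (ht : 0 ≤ t) : 1 ≤ Real.log (Real.exp 1 + t) := by
  rw [Real.le_log_iff_exp_le (by positivity)]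
  linarith

/-- `log² (e + t) ≤ 2 log² (e + m) + 8 t / m` -/
theorem log_sq_le {t m : ℝ} (ht : 0 ≤ t) (hm : 0 < m) :
    Real.log (Real.exp 1 + t) ^ 2 ≤ 2 * Real.log (Real.exp 1 + m) ^ 2 + 8 * (t / m) := by
  have he := Real.exp_pos 1
  set q := Real.sqrt (t / m) with hq
  have hq0 : 0 ≤ q := Real.sqrt_nonneg _
  have hq2 : q ^ 2 = t / m := Real.sq_sqrt (by positivity)
  have h1 : Real.exp 1 + t ≤ (Real.exp 1 + m) * (1 + q) ^ 2 := by
    have h2 : t = m * q ^ 2 := by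
      rw [hq2]
      field_simp
    have h3 : t ≤ (Real.exp 1 + m) * q ^ 2 := by
      rw [h2]
      nlinarith [sq_nonneg q]
    nlinarith [mul_nonneg he.le hq0, mul_nonneg hm.le hq0]
  have h4 : Real.log (Real.exp 1 + t) ≤ Real.log (Real.exp 1 + m) + 2 * q := by
    calc Real.log (Real.exp 1 + t) ≤ Real.log ((Real.exp 1 + m) * (1 + q) ^ 2) :=
          Real.log_le_log (by positivity) h1
      _ = Real.log (Real.exp 1 + m) + 2 * Real.log (1 + q) := by
          rw [Real.log_mul (by positivity) (by positivity), Real.log_pow]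
          push_cast
          ring
      _ ≤ _ := by
          have := Real.log_le_sub_one_of_pos (show 0 < 1 + q by linarith)
          linarith
  have h5 := one_le_log ht
  have h6 := one_le_log hm.le
  calc Real.log (Real.exp 1 + t) ^ 2 ≤ (Real.log (Real.exp 1 + m) + 2 * q) ^ 2 :=
        pow_le_pow_left₀ (by linarith) h4 2
    _ ≤ 2 * Real.log (Real.exp 1 + m) ^ 2 + 8 * q ^ 2 := by
        nlinarith [sq_nonneg (Real.log (Real.exp 1 + m) - 2 * q)]
    _ = _ := by rw [hq2]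

theorem log_exp_add {y : ℝ} (hy : 0 ≤ y) : Real.log (Real.exp 1 + Real.exp y) ≤ y + 2 := by
  rw [Real.log_le_iff_le_exp (by positivity)]
  have h1 : Real.exp 1 ≤ Real.exp (y + 1) := Real.exp_le_exp.2 (by linarith)
  have h2 : Real.exp y ≤ Real.exp (y + 1) := Real.exp_le_exp.2 (by linarith)
  have h3 : Real.exp (y + 2) = Real.exp (y + 1) * Real.exp 1 := by
    rw [← Real.exp_add]
    ring_nf
  have h4 : 2 ≤ Real.exp 1 := by
    have := Real.add_one_le_exp (1 : ℝ)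
    linarith
  rw [h3]
  nlinarith [Real.exp_pos (y + 1)]

/-- the shells -/
def Sh (u : E3 → ℝ) (A j : ℝ) : Set E3 := {x | j ≤ Real.log (A - u x) ∧ Real.log (A - u x) ≤ 2 * j}





end Crest.Agent.R257.MsJ_617
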