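import Mathlib
import Crest.Agent.Lib.ODEFlow

-- ▼ part R257/FlowA_941
section

/-!
R257 / FlowA_941: smooth solutions of the affine conditions `d_x c_j (w) = - ∂_t c_j` off the axis.
-/

set_option autoImplicit false
set_option linter.unusedSectionVars false
set_option linter.deprecated false

open Set Filter Topology Metric
open scoped ContDiff Manifold

noncomputable section

namespace Crest.Agent.R257.Flow_941

variable {E : Type} [NormedAddCommGroup E] [NormedSpace ℂ E] [FiniteDimensional ℂ E]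

/-- the derivative in the `x`-direction -/
def dx (c : E × ℂ → ℂ) (p : E × ℂ) : E →L[ℂ] ℂ :=
  (fderiv ℂ c p).comp (ContinuousLinearMap.inl ℂ E ℂ)

/-- the derivative in the `t`-direction -/
def dt (c : E × ℂ → ℂ) (p : E × ℂ) : ℂ := fderiv ℂ c p (0, 1)

theorem analyticAt_dx {c : E × ℂ → ℂ} {p : E × ℂ} (hc : AnalyticAt ℂ c p) :
    AnalyticAt ℂ (dx c) p := by
  have : CompleteSpace E := FiniteDimensional.complete ℂ E
  have h1 : AnalyticAt ℂ (fderiv ℂ c) p := hc.fderiv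
  have h2 : dx c = fun q => ((ContinuousLinearMap.compL ℂ E (E × ℂ) ℂ).flip
      (ContinuousLinearMap.inl ℂ E ℂ)) (fderiv ℂ c q) := by
    funext q; rfl
  rw [h2]
  exact (ContinuousLinearMap.analyticAt _ _).comp h1

theorem analyticAt_dt {c : E × ℂ → ℂ} {p : E × ℂ} (hc : AnalyticAt ℂ c p) :
    AnalyticAt ℂ (dt c) p := by
  have : CompleteSpace E := FiniteDimensional.complete ℂ E
  have h1 : AnalyticAt ℂ (fderiv ℂ c) p := hc.fderiv
  have h2 : dt c = fun q => (ContinuousLinearMap.apply ℂ ℂ ((0, 1) : E × ℂ)) (fderiv ℂ c q) := by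
    funext q; rfl
  rw [h2]
  exact (ContinuousLinearMap.analyticAt _ _).comp h1

/-- linearly independent functionals form a surjective map -/
theorem surj_of_li {k : ℕ} {a : Fin k → (E →L[ℂ] ℂ)} (h : LinearIndependent ℂ a) :
    Function.Surjective (LinearMap.pi fun i => ((a i : E →L[ℂ] ℂ) : E →ₗ[ℂ] ℂ)) := by
  rw [← LinearMap.dualMap_injective_iff, injective_iff_map_eq_zero]
  intro φ hφ
  have h1 : ∑ i, φ (Pi.single i 1) • a i = 0 := by
    ext x
    have h2 := congrArg (fun ψ : Module.Dual ℂ E => ψ x) hφ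
    simp only [LinearMap.dualMap_apply, LinearMap.zero_apply] at h2
    have h3 : (LinearMap.pi (fun i => ((a i : E →L[ℂ] ℂ) : E →ₗ[ℂ] ℂ)) x : Fin k → ℂ)
        = ∑ i, (a i x) • (Pi.single i (1 : ℂ) : Fin k → ℂ) := by
      funext j
      simp [Finset.sum_apply, Pi.single_apply]
    rw [h3, map_sum] at h2
    simp only [map_smul, smul_eq_mul] at h2
    simp only [ContinuousLinearMap.coe_sum', Finset.sum_apply, ContinuousLinearMap.coe_smul',
      Pi.smul_apply, smul_eq_mul, ContinuousLinearMap.zero_apply]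
    rw [← h2]
    exact Finset.sum_congr rfl fun i _ => mul_comm _ _
  have h4 := (Fintype.linearIndependent_iff.1 h) (fun i => φ (Pi.single i 1)) h1
  apply LinearMap.ext
  intro y
  have h5 : y = ∑ i, (y i) • (Pi.single i (1 : ℂ) : Fin k → ℂ) := by
    funext j
    simp [Finset.sum_apply, Pi.single_apply]
  rw [h5, map_sum]
  simp [h4]

/-- local holomorphic solution of an underdetermined linear system of full rank -/
theorem local_section {k : ℕ} {a : Fin k → (E × ℂ) → (E →L[ℂ] ℂ)} {b : Fin k → E × ℂ → ℂ}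
    {p₀ : E × ℂ} (ha : ∀ i, AnalyticAt ℂ (a i) p₀) (hb : ∀ i, AnalyticAt ℂ (b i) p₀)
    (hli : LinearIndependent ℂ fun i => a i p₀) :
    ∃ w : E × ℂ → E, AnalyticAt ℂ w p₀ ∧ ∀ᶠ p in 𝓝 p₀, ∀ i, a i p (w p) = b i p := by
  have : CompleteSpace E := FiniteDimensional.complete ℂ E
  obtain ⟨R0, hR0⟩ := LinearMap.exists_rightInverse_of_surjective _
    (LinearMap.range_eq_top.2 (surj_of_li hli))
  let R : (Fin k → ℂ) →L[ℂ] E := LinearMap.toContinuousLinearMap R0
  have hR : ∀ (i : Fin k) (y : Fin k → ℂ), a i p₀ (R y) = y i := by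
    intro i y
    have := congrArg (fun g : (Fin k → ℂ) →ₗ[ℂ] (Fin k → ℂ) => g y i) hR0
    simpa [R] using this
  -- the square system
  let Φ : Fin k → ((E →L[ℂ] ℂ) →L[ℂ] ((Fin k → ℂ) →L[ℂ] (Fin k → ℂ))) := fun i =>
    LinearMap.toContinuousLinearMap
      { toFun := fun f => (f.comp R).smulRight (Pi.single i (1 : ℂ) : Fin k → ℂ)
        map_add' := by
          intro f g; ext y j
          simp [add_mul]
        map_smul' := by
          intro c f; ext y j
          simp [mul_assoc] }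
  let M : E × ℂ → ((Fin k → ℂ) →L[ℂ] (Fin k → ℂ)) := fun p => ∑ i, Φ i (a i p)
  have hMapp : ∀ p (y : Fin k → ℂ) j, M p y j = a j p (R y) := by
    intro p y j
    simp [M, Φ, ContinuousLinearMap.sum_apply, Finset.sum_apply, Pi.single_apply]
  have hM0 : M p₀ = 1 := by
    ext y j
    rw [hMapp, hR]
    rfl
  have hMan : AnalyticAt ℂ M p₀ := by
    have : M = ∑ i, fun p => Φ i (a i p) := by
      funext p; simp [M, Finset.sum_apply]
    rw [this]
    refine Finset.analyticAt_sum _ fun i _ => ?_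
    exact ((Φ i).analyticAt _).comp (ha i)
  have hinv : AnalyticAt ℂ (fun p => Ring.inverse (M p)) p₀ := by
    have h1 : AnalyticAt ℂ Ring.inverse (M p₀) := by
      have := analyticAt_inverse (𝕜 := ℂ) (1 : ((Fin k → ℂ) →L[ℂ] (Fin k → ℂ))ˣ)
      rw [Units.val_one] at this
      rwa [hM0]
    exact h1.comp hMan
  have hban : AnalyticAt ℂ (fun p => fun i => b i p) p₀ := AnalyticAt.pi hb
  refine ⟨fun p => R (Ring.inverse (M p) (fun i => b i p)), ?_, ?_⟩
  · have h1 : AnalyticAt ℂ (fun p => Ring.inverse (M p) (fun i => b i p)) p₀ := by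
      have h2 : AnalyticAt ℂ (fun q : ((Fin k → ℂ) →L[ℂ] (Fin k → ℂ)) × (Fin k → ℂ) => q.1 q.2)
          (Ring.inverse (M p₀), fun i => b i p₀) :=
        (ContinuousLinearMap.id ℂ ((Fin k → ℂ) →L[ℂ] (Fin k → ℂ))).analyticAt_bilinear _
      exact AnalyticAt.fun_comp
        (g := fun q : ((Fin k → ℂ) →L[ℂ] (Fin k → ℂ)) × (Fin k → ℂ) => q.1 q.2)
        (f := fun p => (Ring.inverse (M p), fun i => b i p)) h2 (hinv.prod hban)
    exact (R.analyticAt _).fun_comp h1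
  · have hunit : ∀ᶠ p in 𝓝 p₀, IsUnit (M p) := by
      have : {x : (Fin k → ℂ) →L[ℂ] (Fin k → ℂ) | IsUnit x} ∈ 𝓝 (M p₀) :=
        Units.isOpen.mem_nhds (by rw [hM0]; exact isUnit_one)
      exact hMan.continuousAt this
    filter_upwards [hunit] with p hp i
    have h1 : M p * Ring.inverse (M p) = 1 := Ring.mul_inverse_cancel _ hp
    have h2 := congrArg (fun g : (Fin k → ℂ) →L[ℂ] (Fin k → ℂ) => g (fun i => b i p) i) h1
    simp only [ContinuousLinearMap.mul_apply, ContinuousLinearMap.one_apply] at h2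
    rw [hMapp] at h2
    exact h2

end Crest.Agent.R257.Flow_941
end
end

-- ▼ part R257/FlowB_941
section

/-!
R257 / FlowB_941: the smooth vector field off the axis (partition of unity).
-/

set_option autoImplicit false
set_option linter.unusedSectionVars false
set_option linter.deprecated false

open Set Filter Topology Metric
open scoped ContDiff Manifold

noncomputable section

namespace Crest.Agent.R257.Flow_941

variable {E : Type} [NormedAddCommGroup E] [NormedSpace ℂ E] [FiniteDimensional ℂ E]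

/-- the polydisc -/
def Om (E : Type) [NormedAddCommGroup E] (ε δ : ℝ) : Set (E × ℂ) := {p | ‖p.1‖ < ε ∧ ‖p.2‖ < δ}

/-- the punctured cylinder -/
def U0 (E : Type) [NormedAddCommGroup E] (δ : ℝ) : Set (E × ℂ) := {p | p.1 ≠ 0 ∧ ‖p.2‖ < δ}

theorem isOpen_Om {ε δ : ℝ} : IsOpen (Om E ε δ) :=
  (isOpen_lt (continuous_norm.comp continuous_fst) continuous_const).inter
    (isOpen_lt (continuous_norm.comp continuous_snd) continuous_const)

theorem isOpen_U0 {δ : ℝ} : IsOpen (U0 E δ) :=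
  (isOpen_ne_fun continuous_fst continuous_const).inter
    (isOpen_lt (continuous_norm.comp continuous_snd) continuous_const)

/-- the affine conditions on the `x`-component of a lift of `∂_t` -/
def Act (c : ℕ → E × ℂ → ℂ) (m : ℕ) (p : E × ℂ) (w : E) : Prop :=
  ∀ j ≤ m, (∀ i < j, c i p = 0) → dx (c j) p w = - dt (c j) p

/-- the flag condition at an off-axis point: the first non-vanishing function of the flag exists and
the differentials up to it are independent -/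
def Flag (c : ℕ → E × ℂ → ℂ) (m : ℕ) (p : E × ℂ) : Prop :=
  ∃ k ≤ m, c k p ≠ 0 ∧ (∀ j < k, c j p = 0) ∧
    LinearIndependent ℂ (fun i : Fin (k + 1) => dx (c i) p)

theorem convex_act (c : ℕ → E × ℂ → ℂ) (m : ℕ) (p : E × ℂ) : Convex ℝ {w | Act c m p w} := by
  intro x hx y hy a b _ _ hab j hj hz
  have h1 := hx j hj hz
  have h2 := hy j hj hz
  have h3 : dx (c j) p (a • x + b • y) = a • dx (c j) p x + b • dx (c j) p y := by
    rw [map_add]
    have e1 : (a • x : E) = (a : ℂ) • x := rfl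
    have e2 : (b • y : E) = (b : ℂ) • y := rfl
    rw [e1, e2, map_smul, map_smul]
    rfl
  rw [h3, h1, h2, ← add_smul, hab, one_smul]

theorem exists_field {ε ε₁ ε₂ δ : ℝ} (h12 : ε₁ < ε₂) (h2 : ε₂ < ε)
    {c : ℕ → E × ℂ → ℂ} {m : ℕ} (hc : ∀ j ≤ m, ∀ p ∈ Om E ε δ, AnalyticAt ℂ (c j) p)
    (H : ∀ p ∈ Om E ε δ, p.1 ≠ 0 → Flag c m p) :
    ∃ w : E × ℂ → E, ContDiffOn ℝ ∞ w (U0 E δ) ∧
      ∀ p ∈ U0 E δ, (‖p.1‖ ≤ ε₁ → Act c m p (w p)) ∧ (ε₂ ≤ ‖p.1‖ → w p = 0) := by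
  classical
  have : CompleteSpace E := FiniteDimensional.complete ℂ E
  have : FiniteDimensional ℝ E := FiniteDimensional.complexToReal E
  let U : TopologicalSpace.Opens (E × ℂ) := ⟨U0 E δ, isOpen_U0⟩
  have hσ : SigmaCompactSpace U := by
    have : LocallyCompactSpace U := U.isOpen.locallyCompactSpace
    have : SecondCountableTopology (E × ℂ) := secondCountable_of_proper
    infer_instance
  let t : U → Set E := fun p => {w | (‖p.1.1‖ ≤ ε₁ → Act c m p.1 w) ∧ (ε₂ ≤ ‖p.1.1‖ → w = 0)}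
  have ht : ∀ p, Convex ℝ (t p) := by
    intro p x hx y hy a b ha hb hab
    refine ⟨fun h => convex_act c m p.1 (hx.1 h) (hy.1 h) ha hb hab, fun h => ?_⟩
    rw [hx.2 h, hy.2 h]; simp
  obtain ⟨g, hg⟩ := exists_contMDiffMap_forall_mem_convex_of_local (n := (⊤ : ℕ∞))
    (𝓘(ℝ, E × ℂ)) (M := U) (t := t) ht (by
      intro x
      by_cases hx : ε₁ < ‖x.1.1‖
      · refine ⟨{y : U | ε₁ < ‖y.1.1‖}, ?_, fun _ => 0, contMDiffOn_const, ?_⟩
        · exact (isOpen_lt continuous_const (continuous_norm.comp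
            (continuous_fst.comp continuous_subtype_val))).mem_nhds hx
        · intro y hy
          exact ⟨fun h => absurd h (not_le.2 hy), fun _ => rfl⟩
      · push Not at hx
        have hxOm : x.1 ∈ Om E ε δ := ⟨hx.trans_lt (h12.trans h2), x.2.2⟩
        obtain ⟨k, hkm, hk0, hkz, hli⟩ := H x.1 hxOm x.2.1
        obtain ⟨w, hw, hweq⟩ := local_section (k := k + 1) (a := fun i => dx (c i))
          (b := fun i p => - dt (c i) p) (p₀ := x.1)
          (fun i => analyticAt_dx (hc i (by omega) _ hxOm))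
          (fun i => (analyticAt_dt (hc i (by omega) _ hxOm)).neg) hli
        have hne : ∀ᶠ q in 𝓝 x.1, c k q ≠ 0 :=
          (hc k hkm _ hxOm).continuousAt.eventually_ne hk0
        have hlt : ∀ᶠ q : E × ℂ in 𝓝 x.1, ‖q.1‖ < ε₂ :=
          (isOpen_lt (continuous_norm.comp continuous_fst) continuous_const).mem_nhds
            (hx.trans_lt h12)
        have hall : ∀ᶠ q in 𝓝 x.1, AnalyticAt ℂ w q ∧
            (∀ i : Fin (k + 1), dx (c i) q (w q) = - dt (c i) q) ∧ c k q ≠ 0 ∧ ‖q.1‖ < ε₂ := by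
          filter_upwards [hw.eventually_analyticAt, hweq, hne, hlt] with q h1 h2 h3 h4
          exact ⟨h1, h2, h3, h4⟩
        refine ⟨_, continuous_subtype_val.continuousAt.preimage_mem_nhds hall,
          fun y => w y.1, ?_, ?_⟩
        · intro y hy
          have hy' := (hy : _ ∧ _).1
          have h1 : ContDiffAt ℝ ∞ w y.1 := hy'.contDiffAt.restrict_scalars ℝ
          have h2 : ContMDiffAt 𝓘(ℝ, E × ℂ) 𝓘(ℝ, E) ∞ w y.1 := h1.contMDiffAt
          exact (contMDiffAt_subtype_iff.2 h2).contMDiffWithinAt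
        · intro y hy
          obtain ⟨-, heq, hnek, hlt'⟩ := (hy : _ ∧ _)
          refine ⟨fun _ j hj hz => ?_, fun h => absurd h (not_le.2 hlt')⟩
          have hjk : j ≤ k := by
            by_contra hcon
            push Not at hcon
            exact hnek (hz k hcon)
          exact heq ⟨j, by omega⟩)
  refine ⟨fun p => if h : p ∈ U0 E δ then g ⟨p, h⟩ else 0, ?_, ?_⟩
  · intro p hp
    have h1 : ContMDiffAt 𝓘(ℝ, E × ℂ) 𝓘(ℝ, E) ∞
        (fun x : U => (fun p => if h : p ∈ U0 E δ then g ⟨p, h⟩ else 0) (x : E × ℂ)) ⟨p, hp⟩ := by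
      have : (fun x : U => (fun p => if h : p ∈ U0 E δ then g ⟨p, h⟩ else 0) (x : E × ℂ)) = g := by
        funext x
        have hx : (x : E × ℂ) ∈ U0 E δ := x.2
        simp only [hx, dite_true]
      rw [this]
      exact g.contMDiff.contMDiffAt
    have h2 := (contMDiffAt_subtype_iff (I := 𝓘(ℝ, E × ℂ)) (I' := 𝓘(ℝ, E)) (n := ∞) (U := U)
      (f := fun p => if h : p ∈ U0 E δ then g ⟨p, h⟩ else 0) (x := ⟨p, hp⟩)).1 h1
    exact (contMDiffAt_iff_contDiffAt.1 h2).contDiffWithinAt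
  · intro p hp
    simp only [hp, dite_true]
    exact hg ⟨p, hp⟩

end Crest.Agent.R257.Flow_941
end
end

-- ▼ part R257/FlowC_941
section

/-!
R257 / FlowC_941: completeness of the lifted flow off the axis (no trajectory reaches the axis).
-/

set_option autoImplicit false
set_option linter.unusedSectionVars false
set_option linter.deprecated false

open Set Filter Topology Metric
open scoped ContDiff Manifold

noncomputable section

namespace Crest.Agent.R257.Flow_941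

open Crest.Agent.Lib.ODEFlow

section General

variable {F : Type*} [NormedAddCommGroup F] [NormedSpace ℝ F]

theorem const_of_hasDerivAt_zero {f : ℝ → F} {a b : ℝ} (h : ∀ r ∈ Icc a b, HasDerivAt f 0 r) :
    ∀ r ∈ Icc a b, f r = f a :=
  constant_of_has_deriv_right_zero (fun r hr => (h r hr).continuousAt.continuousWithinAt)
    (fun r hr => (h r (Ico_subset_Icc_self hr)).hasDerivWithinAt)

theorem last_time {f : ℝ → ℝ} {a b R : ℝ} (hab : a ≤ b) (hf : ContinuousOn f (Icc a b))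
    (ha : f a ≤ R) (hb : R < f b) :
    ∃ r₀ ∈ Ico a b, f r₀ = R ∧ ∀ r ∈ Ioc r₀ b, R < f r := by
  have hcl : IsClosed (Icc a b ∩ f ⁻¹' Iic R) := hf.preimage_isClosed_of_isClosed isClosed_Icc
    isClosed_Iic
  have hcomp : IsCompact (Icc a b ∩ f ⁻¹' Iic R) := isCompact_Icc.of_isClosed_subset hcl
    inter_subset_left
  have hne : (Icc a b ∩ f ⁻¹' Iic R).Nonempty := ⟨a, ⟨le_rfl, hab⟩, ha⟩
  have hmem := hcomp.sSup_mem hne
  set r₀ := sSup (Icc a b ∩ f ⁻¹' Iic R) with hr₀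
  have hlt : r₀ < b := by
    rcases hmem.1.2.lt_or_eq with h | h
    · exact h
    · exfalso
      have := hmem.2
      rw [mem_preimage, h] at this
      exact absurd hb (not_lt.2 this)
  have hafter : ∀ r ∈ Ioc r₀ b, R < f r := by
    intro r hr
    by_contra hcon
    push Not at hcon
    have : r ∈ Icc a b ∩ f ⁻¹' Iic R := ⟨⟨hmem.1.1.trans hr.1.le, hr.2⟩, hcon⟩
    exact absurd (le_csSup hcomp.bddAbove this) (not_le.2 hr.1)
  refine ⟨r₀, ⟨hmem.1.1, hlt⟩, le_antisymm hmem.2 ?_, hafter⟩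
  have hc : ContinuousWithinAt f (Ioc r₀ b) r₀ :=
    (hf r₀ hmem.1).mono fun r hr => ⟨hmem.1.1.trans hr.1.le, hr.2⟩
  have hcl2 : r₀ ∈ closure (Ioc r₀ b) := by
    rw [closure_Ioc hlt.ne]; exact ⟨le_rfl, hlt.le⟩
  exact ContinuousWithinAt.closure_le hcl2 continuousWithinAt_const hc
    (fun r hr => (hafter r hr).le)

end General

variable {E : Type} [NormedAddCommGroup E] [NormedSpace ℂ E] [FiniteDimensional ℂ E]

theorem hd_fst {f : ℝ → E × ℂ × ℂ} {f' : E × ℂ × ℂ} {r : ℝ} (h : HasDerivAt f f' r) :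
    HasDerivAt (fun s => (f s).1) f'.1 r :=
  (ContinuousLinearMap.fst ℝ E (ℂ × ℂ)).hasFDerivAt.comp_hasDerivAt r h

theorem hd_tau {f : ℝ → E × ℂ × ℂ} {f' : E × ℂ × ℂ} {r : ℝ} (h : HasDerivAt f f' r) :
    HasDerivAt (fun s => (f s).2.1) f'.2.1 r :=
  ((ContinuousLinearMap.fst ℝ ℂ ℂ).comp
    (ContinuousLinearMap.snd ℝ E (ℂ × ℂ))).hasFDerivAt.comp_hasDerivAt r h

theorem hd_t {f : ℝ → E × ℂ × ℂ} {f' : E × ℂ × ℂ} {r : ℝ} (h : HasDerivAt f f' r) :
    HasDerivAt (fun s => (f s).2.2) f'.2.2 r :=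
  ((ContinuousLinearMap.snd ℝ ℂ ℂ).comp
    (ContinuousLinearMap.snd ℝ E (ℂ × ℂ))).hasFDerivAt.comp_hasDerivAt r h

/-- the autonomous vector field on `E × ℂ × ℂ` (point, current parameter, direction) -/
def vf (w : E × ℂ → E) (q : E × ℂ × ℂ) : E × ℂ × ℂ := (q.2.2 • w (q.1, q.2.1), q.2.2, 0)

/-- its domain -/
def US (E : Type) [NormedAddCommGroup E] (δ : ℝ) : Set (E × ℂ × ℂ) :=
  {q | q.1 ≠ 0 ∧ ‖q.2.1‖ < δ}

theorem isOpen_US {δ : ℝ} : IsOpen (US E δ) :=
  (isOpen_ne_fun continuous_fst continuous_const).inter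
    (isOpen_lt (continuous_norm.comp (continuous_fst.comp continuous_snd)) continuous_const)

theorem contDiffOn_vf {δ : ℝ} {w : E × ℂ → E} (hw : ContDiffOn ℝ ∞ w (U0 E δ)) :
    ContDiffOn ℝ 1 (vf w) (US E δ) := by
  have h1 : ContDiffOn ℝ 1 (fun q : E × ℂ × ℂ => w (q.1, q.2.1)) (US E δ) := by
    have h2 : ContDiff ℝ 1 (fun q : E × ℂ × ℂ => ((q.1, q.2.1) : E × ℂ)) := by fun_prop
    exact (hw.of_le (by exact_mod_cast le_top)).comp h2.contDiffOn fun q hq => hq
  have h3 : ContDiffOn ℝ 1 (fun q : E × ℂ × ℂ => q.2.2 • w (q.1, q.2.1)) (US E δ) := by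
    have h4 : ContDiff ℝ 1 (fun q : ℂ × E => q.1 • q.2) :=
      (isBoundedBilinearMap_smul (𝕜 := ℝ) (A := ℂ) (E := E)).contDiff
    have h5 : ContDiff ℝ 1 (fun q : E × ℂ × ℂ => q.2.2) := by fun_prop
    exact h4.comp_contDiffOn (h5.contDiffOn.prodMk h1)
  have h6 : ContDiff ℝ 1 (fun q : E × ℂ × ℂ => ((q.2.2, 0) : ℂ × ℂ)) := by fun_prop
  exact h3.prodMk h6.contDiffOn

section Flow

variable {δ : ℝ} {w : E × ℂ → E}

/-- the flow -/
def fl (δ : ℝ) (w : E × ℂ → E) (q : E × ℂ × ℂ) (s : ℝ) : E × ℂ × ℂ :=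
  flow (vf w) (US E δ) (q, s)

/-- the flow domain -/
def dm (δ : ℝ) (w : E × ℂ → E) : Set ((E × ℂ × ℂ) × ℝ) := dom (vf w) (US E δ)

theorem hasDerivAt_fl [CompleteSpace E] (hw : ContDiffOn ℝ ∞ w (U0 E δ)) {q : E × ℂ × ℂ} {s : ℝ}
    (h : (q, s) ∈ dm δ w) : HasDerivAt (fun r => fl δ w q r) (vf w (fl δ w q s)) s :=
  hasDerivAt_flow isOpen_US (contDiffOn_vf hw) h

theorem fl_mem [CompleteSpace E] (hw : ContDiffOn ℝ ∞ w (U0 E δ)) {q : E × ℂ × ℂ} {s : ℝ}
    (h : (q, s) ∈ dm δ w) : fl δ w q s ∈ US E δ :=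
  flow_mem isOpen_US (contDiffOn_vf hw) h

theorem dm_of_le [CompleteSpace E] {q : E × ℂ × ℂ} {s r : ℝ}
    (h : (q, s) ∈ dm δ w) (hr : r ∈ Icc 0 s) : (q, r) ∈ dm δ w :=
  mem_dom_of_uIcc h (by rw [uIcc_of_le (hr.1.trans hr.2)]; exact hr)

theorem fl_zero [CompleteSpace E] (hw : ContDiffOn ℝ ∞ w (U0 E δ)) {q : E × ℂ × ℂ}
    (h : q ∈ US E δ) : fl δ w q 0 = q :=
  flow_zero isOpen_US (contDiffOn_vf hw) h

theorem fl_t [CompleteSpace E] (hw : ContDiffOn ℝ ∞ w (U0 E δ)) {q : E × ℂ × ℂ} {s : ℝ}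
    (hs : 0 ≤ s) (h : (q, s) ∈ dm δ w) : (fl δ w q s).2.2 = q.2.2 := by
  have hq : q ∈ US E δ := mem_of_mem_dom h
  have h1 : ∀ r ∈ Icc 0 s, HasDerivAt (fun r => (fl δ w q r).2.2) 0 r := by
    intro r hr
    have := (hasDerivAt_fl hw (dm_of_le h hr))
    exact hd_t this
  have h2 := const_of_hasDerivAt_zero h1 s ⟨hs, le_rfl⟩
  rw [fl_zero hw hq] at h2
  exact h2

theorem fl_tau [CompleteSpace E] (hw : ContDiffOn ℝ ∞ w (U0 E δ)) {q : E × ℂ × ℂ} {s : ℝ}
    (hs : 0 ≤ s) (h : (q, s) ∈ dm δ w) : (fl δ w q s).2.1 = q.2.1 + s • q.2.2 := by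
  have hq : q ∈ US E δ := mem_of_mem_dom h
  have h1 : ∀ r ∈ Icc 0 s, HasDerivAt (fun r => (fl δ w q r).2.1 - r • q.2.2) 0 r := by
    intro r hr
    have h2 := hd_tau (hasDerivAt_fl hw (dm_of_le h hr))
    have h3 : (vf w (fl δ w q r)).2.1 = q.2.2 := fl_t hw hr.1 (dm_of_le h hr)
    rw [h3] at h2
    have h4 : HasDerivAt (fun r : ℝ => r • q.2.2) ((1 : ℝ) • q.2.2) r :=
      (hasDerivAt_id r).smul_const q.2.2
    rw [one_smul] at h4
    have h5 := h2.sub h4
    rw [sub_self] at h5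
    exact h5
  have h2 := const_of_hasDerivAt_zero h1 s ⟨hs, le_rfl⟩
  rw [fl_zero hw hq] at h2
  simp only [zero_smul, sub_zero] at h2
  rw [← h2]; ring

theorem continuousOn_fl [CompleteSpace E] (hw : ContDiffOn ℝ ∞ w (U0 E δ)) {q : E × ℂ × ℂ}
    {s : ℝ} (h : (q, s) ∈ dm δ w) : ContinuousOn (fun r => fl δ w q r) (Icc 0 s) :=
  fun _ hr => (hasDerivAt_fl hw (dm_of_le h hr)).continuousAt.continuousWithinAt

theorem norm_fl_le [CompleteSpace E] {ε₂ : ℝ} (hw : ContDiffOn ℝ ∞ w (U0 E δ))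
    (hw0 : ∀ p ∈ U0 E δ, ε₂ ≤ ‖p.1‖ → w p = 0) {q : E × ℂ × ℂ} {s : ℝ}
    (hs : 0 ≤ s) (h : (q, s) ∈ dm δ w) : ‖(fl δ w q s).1‖ ≤ max ‖q.1‖ ε₂ := by
  by_contra hcon
  push Not at hcon
  have hq : q ∈ US E δ := mem_of_mem_dom h
  obtain ⟨r₀, hr₀, heq, hafter⟩ := last_time (f := fun r => ‖(fl δ w q r).1‖) hs
    (continuous_norm.comp_continuousOn (continuous_fst.comp_continuousOn (continuousOn_fl hw h)))
    (by simp only [fl_zero hw hq]; exact le_max_left _ _) hcon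
  have h1 : ∀ r ∈ Icc r₀ s, HasDerivAt (fun r => (fl δ w q r).1) 0 r := by
    intro r hr
    have hd := dm_of_le h (⟨hr₀.1.trans hr.1, hr.2⟩ : r ∈ Icc 0 s)
    have h2 := hd_fst (hasDerivAt_fl hw hd)
    have h3 : (vf w (fl δ w q r)).1 = 0 := by
      have h4 : ε₂ ≤ ‖(fl δ w q r).1‖ := by
        rcases hr.1.eq_or_lt with h5 | h5
        · rw [← h5, heq]; exact le_max_right _ _
        · exact (le_max_right _ _).trans (hafter r ⟨h5, hr.2⟩).le
      have h6 := hw0 ((fl δ w q r).1, (fl δ w q r).2.1) (fl_mem hw hd) h4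
      simp [vf, h6]
    rwa [h3] at h2
  have h2 := const_of_hasDerivAt_zero h1 s ⟨hr₀.2.le, le_rfl⟩
  have h3 : ‖(fl δ w q s).1‖ = max ‖q.1‖ ε₂ := by rw [h2]; exact heq
  exact absurd hcon (by rw [h3]; exact lt_irrefl _)

end Flow

end Crest.Agent.R257.Flow_941
end
end

-- ▼ part R257/FlowD_941
section

/-!
R257 / FlowD_941: no trajectory reaches the axis; the lifted flow is complete off the axis.
-/

set_option autoImplicit false
set_option linter.unusedSectionVars false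
set_option linter.deprecated false

open Set Filter Topology Metric
open scoped ContDiff Manifold

noncomputable section

namespace Crest.Agent.R257.Flow_941

open Crest.Agent.Lib.ODEFlow

variable {E : Type} [NormedAddCommGroup E] [NormedSpace ℂ E] [FiniteDimensional ℂ E]

/-- The standing hypotheses on the flag `c_0 = F, c_1, …, c_m` and the field `w`. -/
structure Hyp (ε ε₁ ε₂ δ : ℝ) (c : ℕ → E × ℂ → ℂ) (m : ℕ) (w : E × ℂ → E) : Prop where
  pos : 0 < ε₁
  h12 : ε₁ < ε₂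
  h2 : ε₂ < ε
  an : ∀ j ≤ m, ∀ p ∈ Om E ε δ, AnalyticAt ℂ (c j) p
  ax : ∀ j ≤ m, ∀ t : ℂ, ‖t‖ < δ → c j (0, t) = 0
  flag : ∀ p ∈ Om E ε δ, p.1 ≠ 0 → Flag c m p
  smooth : ContDiffOn ℝ ∞ w (U0 E δ)
  act : ∀ p ∈ U0 E δ, ‖p.1‖ ≤ ε₁ → Act c m p (w p)
  zero : ∀ p ∈ U0 E δ, ε₂ ≤ ‖p.1‖ → w p = 0

variable {ε ε₁ ε₂ δ : ℝ} {c : ℕ → E × ℂ → ℂ} {m : ℕ} {w : E × ℂ → E}

/-- the point of `E × ℂ` of a state -/
def pt (q : E × ℂ × ℂ) : E × ℂ := (q.1, q.2.1)

theorem hasDerivAt_pt {f : ℝ → E × ℂ × ℂ} {f' : E × ℂ × ℂ} {r : ℝ} (h : HasDerivAt f f' r) :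
    HasDerivAt (fun s => pt (f s)) (f'.1, f'.2.1) r :=
  (hd_fst h).prodMk (hd_tau h)

/-- derivative of a flag function along a trajectory -/
theorem hasDerivAt_c [CompleteSpace E] (hH : Hyp ε ε₁ ε₂ δ c m w) {q : E × ℂ × ℂ} {r : ℝ}
    (h : (q, r) ∈ dm δ w) (hle : ‖(fl δ w q r).1‖ ≤ ε₁) {j : ℕ} (hj : j ≤ m)
    (hz : ∀ i < j, c i (pt (fl δ w q r)) = 0) :
    HasDerivAt (fun s => c j (pt (fl δ w q s))) 0 r := by
  have hmem := fl_mem hH.smooth h
  have hOm : pt (fl δ w q r) ∈ Om E ε δ :=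
    ⟨lt_of_le_of_lt hle (hH.h12.trans hH.h2), hmem.2⟩
  have h1 := hasDerivAt_pt (hasDerivAt_fl hH.smooth h)
  have h2 : HasFDerivAt (c j) (fderiv ℂ (c j) (pt (fl δ w q r))) (pt (fl δ w q r)) :=
    (hH.an j hj _ hOm).differentiableAt.hasFDerivAt
  have h3 := (h2.restrictScalars ℝ).comp_hasDerivAt r h1
  have h4 : (fderiv ℂ (c j) (pt (fl δ w q r))).restrictScalars ℝ
      ((vf w (fl δ w q r)).1, (vf w (fl δ w q r)).2.1) = 0 := by
    have ha := hH.act (pt (fl δ w q r)) hmem hle j hj hz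
    set T : ℂ := (fl δ w q r).2.2 with hT
    have h5 : (((vf w (fl δ w q r)).1, (vf w (fl δ w q r)).2.1) : E × ℂ)
        = T • ((w (pt (fl δ w q r)), 1) : E × ℂ) := by
      simp [vf, pt, hT, Prod.smul_mk]
    have h6 : ((w (pt (fl δ w q r)), 1) : E × ℂ)
        = ContinuousLinearMap.inl ℂ E ℂ (w (pt (fl δ w q r))) + ((0, 1) : E × ℂ) := by
      simp
    show (fderiv ℂ (c j) (pt (fl δ w q r)))
      ((vf w (fl δ w q r)).1, (vf w (fl δ w q r)).2.1) = 0
    rw [h5, map_smul, h6, map_add]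
    have h7 : fderiv ℂ (c j) (pt (fl δ w q r))
        (ContinuousLinearMap.inl ℂ E ℂ (w (pt (fl δ w q r))))
        = dx (c j) (pt (fl δ w q r)) (w (pt (fl δ w q r))) := rfl
    have h8 : fderiv ℂ (c j) (pt (fl δ w q r)) ((0, 1) : E × ℂ) = dt (c j) (pt (fl δ w q r)) := rfl
    rw [h7, h8, ha, neg_add_cancel, smul_zero]
  rw [h4] at h3
  exact h3

/-- **No escape.** -/
theorem mem_dm [CompleteSpace E] (hH : Hyp ε ε₁ ε₂ δ c m w) {q : E × ℂ × ℂ} {s : ℝ}
    (hq : q ∈ US E δ) (hs : 0 ≤ s) (hend : ‖q.2.1 + s • q.2.2‖ < δ) : (q, s) ∈ dm δ w := by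
  have : ProperSpace E := FiniteDimensional.proper ℂ E
  by_contra hnot
  -- norm of the parameter along the segment
  set δ₁ := max ‖q.2.1‖ ‖q.2.1 + s • q.2.2‖ with hδ₁
  have hδ₁lt : δ₁ < δ := max_lt hq.2 hend
  have hseg : ∀ r ∈ Icc 0 s, ‖q.2.1 + r • q.2.2‖ ≤ δ₁ := by
    intro r hr
    rcases hs.eq_or_lt with h0 | h0
    · have : r = 0 := le_antisymm (by rw [h0]; exact hr.2) hr.1
      rw [this, zero_smul, add_zero]; exact le_max_left _ _
    · have h1 : q.2.1 + r • q.2.2 = (1 - r / s) • q.2.1 + (r / s) • (q.2.1 + s • q.2.2) := by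
        have : (r / s) • (s • q.2.2) = r • q.2.2 := by
          rw [smul_smul]; congr 1; field_simp
        rw [smul_add, this, sub_smul, one_smul]; ring
      rw [h1]
      have h2 : 0 ≤ r / s := div_nonneg hr.1 hs
      have h3 : r / s ≤ 1 := div_le_one_of_le₀ hr.2 hs
      calc ‖(1 - r / s) • q.2.1 + (r / s) • (q.2.1 + s • q.2.2)‖
          ≤ ‖(1 - r / s) • q.2.1‖ + ‖(r / s) • (q.2.1 + s • q.2.2)‖ := norm_add_le _ _
        _ = (1 - r / s) * ‖q.2.1‖ + (r / s) * ‖q.2.1 + s • q.2.2‖ := by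
            rw [norm_smul, norm_smul, Real.norm_of_nonneg (by linarith), Real.norm_of_nonneg h2]
        _ ≤ (1 - r / s) * δ₁ + (r / s) * δ₁ := by
            gcongr
            · exact le_max_left _ _
            · exact le_max_right _ _
        _ = δ₁ := by ring
  -- the first bad time
  have hopen : IsOpen (dm δ w) := isOpen_dom isOpen_US (contDiffOn_vf hH.smooth)
  set B : Set ℝ := Icc 0 s ∩ {r | (q, r) ∉ dm δ w} with hB
  have hBcl : IsClosed B := by
    refine isClosed_Icc.inter ?_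
    exact (hopen.preimage (by fun_prop : Continuous fun r : ℝ => (q, r))).isClosed_compl
  have hBne : B.Nonempty := ⟨s, ⟨hs, le_rfl⟩, hnot⟩
  have hBc : IsCompact B := isCompact_Icc.of_isClosed_subset hBcl inter_subset_left
  have hs₁ := hBc.sInf_mem hBne
  set s₁ := sInf B with hs₁def
  have hbefore : ∀ r ∈ Ico 0 s₁, (q, r) ∈ dm δ w := by
    intro r hr
    by_contra hcon
    have : r ∈ B := ⟨⟨hr.1, hr.2.le.trans hs₁.1.2⟩, hcon⟩
    exact absurd (csInf_le hBc.bddBelow this) (not_le.2 hr.2)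
  have hs₁pos : 0 < s₁ := by
    rcases hs₁.1.1.eq_or_lt with h0 | h0
    · exfalso
      apply hs₁.2
      rw [← h0]
      exact mem_dom_zero hq
    · exact h0
  set R := max ‖q.1‖ ε₂ with hR
  -- arbitrarily close to the axis
  have hclose : ∀ η > 0, ∃ r ∈ Ico 0 s₁, ‖(fl δ w q r).1‖ < η := by
    intro η hη
    by_contra hcon
    push Not at hcon
    apply hs₁.2
    set K : Set (E × ℂ × ℂ) :=
      (closedBall (0 : E) R ∩ {x | η ≤ ‖x‖}) ×ˢ (closedBall (0 : ℂ) δ₁ ×ˢ ({q.2.2} : Set ℂ)) with hK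
    have hKc : IsCompact K := by
      refine IsCompact.prod ?_ ((isCompact_closedBall _ _).prod isCompact_singleton)
      exact (isCompact_closedBall _ _).inter_right (isClosed_le continuous_const continuous_norm)
    refine mem_dom_of_compact isOpen_US (contDiffOn_vf hH.smooth) hKc ?_ hq ?_ hs₁pos.le
    · rintro ⟨x, τ, t⟩ ⟨⟨-, hx⟩, hτ, -⟩
      refine ⟨?_, ?_⟩
      · intro h0
        have h0' : x = 0 := h0
        rw [mem_ofPred_eq, h0', norm_zero] at hx
        exact absurd hη (not_lt.2 hx)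
      · exact (mem_closedBall_zero_iff.1 hτ).trans_lt hδ₁lt
    · intro r hr hd
      refine ⟨⟨?_, hcon r hr⟩, ?_, ?_⟩
      · rw [mem_closedBall_zero_iff]
        exact norm_fl_le hH.smooth hH.zero hr.1 hd
      · rw [mem_closedBall_zero_iff]
        have := fl_tau hH.smooth hr.1 hd
        show ‖(fl δ w q r).2.1‖ ≤ δ₁
        rw [this]
        exact hseg r ⟨hr.1, hr.2.le.trans hs₁.1.2⟩
      · exact fl_t hH.smooth hr.1 hd
  have hclose' : ∀ s' ∈ Ico 0 s₁, ∀ η > 0, ∃ r ∈ Ioo s' s₁, ‖(fl δ w q r).1‖ < η := by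
    intro s' hs' η hη
    have hd' := hbefore s' hs'
    have hcont : ContinuousOn (fun r => ‖(fl δ w q r).1‖) (Icc 0 s') :=
      continuous_norm.comp_continuousOn
        (continuous_fst.comp_continuousOn (continuousOn_fl hH.smooth hd'))
    obtain ⟨r₁, hr₁, hmin⟩ := isCompact_Icc.exists_isMinOn (nonempty_Icc.2 hs'.1) hcont
    have hμ : 0 < ‖(fl δ w q r₁).1‖ := norm_pos_iff.2 (fl_mem hH.smooth (dm_of_le hd' hr₁)).1
    obtain ⟨r, hr, hlt⟩ := hclose (min η ‖(fl δ w q r₁).1‖) (lt_min hη hμ)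
    refine ⟨r, ⟨?_, hr.2⟩, hlt.trans_le (min_le_left _ _)⟩
    by_contra hcon
    push Not at hcon
    have := hmin ⟨hr.1, hcon⟩
    exact absurd (hlt.trans_le (min_le_right _ _)) (not_lt.2 this)
  -- bound of the field away from the axis
  obtain ⟨C, hC⟩ : ∃ C, ∀ x : E, ∀ τ : ℂ, ε₁ / 2 ≤ ‖x‖ → ‖τ‖ ≤ δ₁ → ‖w (x, τ)‖ ≤ C := by
    have hKc : IsCompact ((closedBall (0 : E) ε₂ ∩ {x | ε₁ / 2 ≤ ‖x‖}) ×ˢ closedBall (0 : ℂ) δ₁) :=
      ((isCompact_closedBall _ _).inter_right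
        (isClosed_le continuous_const continuous_norm)).prod (isCompact_closedBall _ _)
    have hsub : ((closedBall (0 : E) ε₂ ∩ {x | ε₁ / 2 ≤ ‖x‖}) ×ˢ closedBall (0 : ℂ) δ₁) ⊆ U0 E δ := by
      rintro ⟨x, τ⟩ ⟨⟨-, hx⟩, hτ⟩
      refine ⟨?_, (mem_closedBall_zero_iff.1 hτ).trans_lt hδ₁lt⟩
      intro h0
      have h0' : x = 0 := h0
      rw [mem_ofPred_eq, h0', norm_zero] at hx
      linarith [hH.pos]
    obtain ⟨C, hC⟩ := hKc.exists_bound_of_continuousOn (hH.smooth.continuousOn.mono hsub)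
    refine ⟨max C 0, fun x τ hx hτ => ?_⟩
    by_cases h : ‖x‖ ≤ ε₂
    · exact (hC (x, τ) ⟨⟨mem_closedBall_zero_iff.2 h, hx⟩, mem_closedBall_zero_iff.2 hτ⟩).trans
        (le_max_left _ _)
    · push Not at h
      have hmem : (x, τ) ∈ U0 E δ := by
        refine ⟨?_, hτ.trans_lt hδ₁lt⟩
        intro h0
        have h0' : x = 0 := h0
        rw [h0', norm_zero] at hx
        linarith [hH.pos]
      rw [hH.zero (x, τ) hmem h.le, norm_zero]
      exact le_max_right _ _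
  set D : ℝ := ‖q.2.2‖ * C with hD
  have hC0 : 0 ≤ C := by
    obtain ⟨r, hr, -⟩ := hclose' 0 ⟨le_rfl, hs₁pos⟩ 1 one_pos
    -- a point with norm ≥ ε₁/2 exists unless E is trivial; use any value
    by_contra hneg
    push Not at hneg
    have hx1 := (fl_mem hH.smooth (hbefore r ⟨hr.1.le, hr.2⟩)).1
    have hn : 0 < ‖(fl δ w q r).1‖ := norm_pos_iff.2 hx1
    have := hC (((ε₁ / ‖(fl δ w q r).1‖ : ℝ) : ℂ) • (fl δ w q r).1) 0 (by
      rw [norm_smul, Complex.norm_real, Real.norm_of_nonneg (by positivity [hH.pos])]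
      rw [div_mul_cancel₀ _ hn.ne']
      linarith [hH.pos]) (by rw [norm_zero]; exact (norm_nonneg _).trans (le_max_left _ _))
    exact absurd ((norm_nonneg _).trans this) (not_le.2 hneg)
  have hD0 : 0 ≤ D := mul_nonneg (norm_nonneg _) hC0
  have hvb : ∀ r ∈ Ico 0 s₁, ε₁ / 2 ≤ ‖(fl δ w q r).1‖ → ‖(vf w (fl δ w q r)).1‖ ≤ D := by
    intro r hr hge
    have hd := hbefore r hr
    show ‖(fl δ w q r).2.2 • w ((fl δ w q r).1, (fl δ w q r).2.1)‖ ≤ D
    rw [norm_smul, fl_t hH.smooth hr.1 hd]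
    refine mul_le_mul_of_nonneg_left (hC _ _ hge ?_) (norm_nonneg _)
    rw [fl_tau hH.smooth hr.1 hd]
    exact hseg r ⟨hr.1, hr.2.le.trans hs₁.1.2⟩
  -- a late time from which the trajectory stays in `‖x‖ < ε₁`
  obtain ⟨s', hs', hs'2⟩ : ∃ s' ∈ Ico 0 s₁, s₁ - s' ≤ ε₁ / (4 * (D + 1)) := by
    refine ⟨max 0 (s₁ - ε₁ / (4 * (D + 1))), ⟨le_max_left _ _, max_lt hs₁pos ?_⟩, ?_⟩
    · have : 0 < ε₁ / (4 * (D + 1)) := div_pos hH.pos (by linarith)
      linarith
    · have := le_max_right 0 (s₁ - ε₁ / (4 * (D + 1)))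
      linarith
  obtain ⟨a, ha, halt⟩ := hclose' s' hs' (ε₁ / 2) (by linarith [hH.pos])
  have ha0 : 0 ≤ a := hs'.1.trans ha.1.le
  have hstay : ∀ r ∈ Ico a s₁, ‖(fl δ w q r).1‖ < ε₁ := by
    intro r hr
    by_contra hcon
    push Not at hcon
    have hdr := hbefore r ⟨ha0.trans hr.1, hr.2⟩
    have hcont : ContinuousOn (fun r => ‖(fl δ w q r).1‖) (Icc a r) :=
      (continuous_norm.comp_continuousOn
        (continuous_fst.comp_continuousOn (continuousOn_fl hH.smooth hdr))).mono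
        (Icc_subset_Icc_left ha0)
    obtain ⟨r₀, hr₀, heq, hafter⟩ := last_time (f := fun r => ‖(fl δ w q r).1‖) hr.1 hcont
      halt.le (lt_of_lt_of_le (by linarith [hH.pos]) hcon)
    have hbd := norm_image_sub_le_of_norm_deriv_le_segment' (f := fun r => (fl δ w q r).1)
      (f' := fun r => (vf w (fl δ w q r)).1) (a := r₀) (b := r) (C := D)
      (fun x hx => (hd_fst (hasDerivAt_fl hH.smooth
        (hbefore x ⟨(ha0.trans hr₀.1).trans hx.1, hx.2.trans_lt hr.2⟩))).hasDerivWithinAt)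
      (fun x hx => hvb x ⟨(ha0.trans hr₀.1).trans hx.1, hx.2.trans hr.2⟩ (by
        rcases hx.1.eq_or_lt with h5 | h5
        · rw [← h5]; exact heq.ge
        · exact (hafter x ⟨h5, hx.2.le⟩).le)) r ⟨hr₀.2.le, le_rfl⟩
    have h1 : ‖(fl δ w q r).1‖ - ‖(fl δ w q r₀).1‖ ≤ D * (r - r₀) :=
      (norm_sub_norm_le _ _).trans hbd
    have h2 : D * (r - r₀) ≤ D * (ε₁ / (4 * (D + 1))) := by
      refine mul_le_mul_of_nonneg_left ?_ hD0
      linarith [hr₀.1, hr.2, ha.1]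
    have h3 : D * (ε₁ / (4 * (D + 1))) ≤ ε₁ / 4 := by
      rw [mul_div_assoc', div_le_div_iff₀ (by linarith) (by norm_num)]
      nlinarith [hH.pos]
    have h4 : ‖(fl δ w q r₀).1‖ = ε₁ / 2 := heq
    linarith [hH.pos]
  -- all flag functions vanish on the trajectory
  have hzero : ∀ j ≤ m, ∀ r ∈ Ico a s₁, c j (pt (fl δ w q r)) = 0 := by
    intro j
    induction j using Nat.strong_induction_on with
    | _ j ih =>
      intro hj
      have hconst : ∀ r ∈ Ico a s₁, c j (pt (fl δ w q r)) = c j (pt (fl δ w q a)) := by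
        intro r hr
        refine const_of_hasDerivAt_zero (f := fun r => c j (pt (fl δ w q r))) (a := a) (b := r)
          (fun x hx => ?_) r ⟨hr.1, le_rfl⟩
        have hx' : x ∈ Ico a s₁ := ⟨hx.1, hx.2.trans_lt hr.2⟩
        exact hasDerivAt_c hH (hbefore x ⟨ha0.trans hx'.1, hx'.2⟩) (hstay x hx').le hj
          (fun i hi => ih i hi (hi.le.trans hj) x hx')
      have hval : c j (pt (fl δ w q a)) = 0 := by
        have hτ1 : ‖q.2.1 + s₁ • q.2.2‖ < δ := (hseg s₁ hs₁.1).trans_lt hδ₁lt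
        have hcont : ContinuousAt (c j) ((0 : E), q.2.1 + s₁ • q.2.2) :=
          (hH.an j hj _ ⟨by rw [norm_zero]; linarith [hH.pos, hH.h12, hH.h2], hτ1⟩).continuousAt
        have h0 : c j ((0 : E), q.2.1 + s₁ • q.2.2) = 0 := hH.ax j hj _ hτ1
        by_contra hne
        have hpos : 0 < ‖c j (pt (fl δ w q a))‖ := norm_pos_iff.2 hne
        have hev : ∀ᶠ p in 𝓝 ((0 : E), q.2.1 + s₁ • q.2.2), ‖c j p‖ < ‖c j (pt (fl δ w q a))‖ := by
          have : Tendsto (fun p => ‖c j p‖) (𝓝 ((0 : E), q.2.1 + s₁ • q.2.2)) (𝓝 0) := by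
            have := hcont.norm
            rw [ContinuousAt, h0, norm_zero] at this
            exact this
          exact this.eventually_lt_const hpos
        obtain ⟨η, hη, hball⟩ := Metric.eventually_nhds_iff.1 hev
        -- a late time
        obtain ⟨s'', hs'', hs''2⟩ : ∃ s'' ∈ Ico a s₁, (s₁ - s'') * ‖q.2.2‖ < η := by
          refine ⟨max a (s₁ - η / (2 * (‖q.2.2‖ + 1))), ⟨le_max_left _ _, max_lt ha.2 ?_⟩, ?_⟩
          · have : 0 < η / (2 * (‖q.2.2‖ + 1)) := by positivity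
            linarith
          · have h1 := le_max_right a (s₁ - η / (2 * (‖q.2.2‖ + 1)))
            have h2 : s₁ - max a (s₁ - η / (2 * (‖q.2.2‖ + 1))) ≤ η / (2 * (‖q.2.2‖ + 1)) := by
              linarith
            calc (s₁ - max a (s₁ - η / (2 * (‖q.2.2‖ + 1)))) * ‖q.2.2‖
                ≤ η / (2 * (‖q.2.2‖ + 1)) * ‖q.2.2‖ :=
                  mul_le_mul_of_nonneg_right h2 (norm_nonneg _)
              _ ≤ η / 2 := by
                  rw [div_mul_eq_mul_div, div_le_div_iff₀ (by positivity) (by norm_num)]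
                  nlinarith [norm_nonneg q.2.2]
              _ < η := by linarith
        obtain ⟨r, hr, hrlt⟩ := hclose' s'' ⟨ha0.trans hs''.1, hs''.2⟩ η hη
        have hra : r ∈ Ico a s₁ := ⟨hs''.1.trans hr.1.le, hr.2⟩
        have hdist : dist (pt (fl δ w q r)) ((0 : E), q.2.1 + s₁ • q.2.2) < η := by
          rw [Prod.dist_eq]
          refine max_lt ?_ ?_
          · show dist (fl δ w q r).1 0 < η
            rwa [dist_zero_right]
          · show dist (fl δ w q r).2.1 (q.2.1 + s₁ • q.2.2) < η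
            rw [fl_tau hH.smooth (ha0.trans hra.1) (hbefore r ⟨ha0.trans hra.1, hra.2⟩),
              dist_eq_norm]
            have : q.2.1 + r • q.2.2 - (q.2.1 + s₁ • q.2.2) = (r - s₁) • q.2.2 := by
              rw [sub_smul]; ring
            rw [this, norm_smul, Real.norm_eq_abs, abs_of_nonpos (by linarith [hr.2])]
            refine lt_of_le_of_lt ?_ hs''2
            refine mul_le_mul_of_nonneg_right ?_ (norm_nonneg _)
            linarith [hr.1]
        have := hball hdist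
        rw [hconst r hra] at this
        exact lt_irrefl _ this
      intro r hr
      rw [hconst r hr, hval]
  -- contradiction with the flag condition
  have hda := hbefore a ⟨ha0, ha.2⟩
  have hmem := fl_mem hH.smooth hda
  obtain ⟨k, hkm, hk, -⟩ := hH.flag (pt (fl δ w q a))
    ⟨(hstay a ⟨le_rfl, ha.2⟩).trans (hH.h12.trans hH.h2), hmem.2⟩ hmem.1
  exact hk (hzero k hkm a ⟨le_rfl, ha.2⟩)

end Crest.Agent.R257.Flow_941
end
end

-- ▼ part R257/FlowE_941
section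

/-!
R257 / FlowE_941: A-FLOW.  A flag `c_0 = F, c_1, …, c_m` gives the topological trivialisation of `F`
asked for in S0395.
-/

set_option autoImplicit false
set_option linter.unusedSectionVars false
set_option linter.deprecated false

open Set Filter Topology Metric
open scoped ContDiff Manifold

noncomputable section

namespace Crest.Agent.R257.Flow_941

open Crest.Agent.Lib.ODEFlow

variable {E : Type} [NormedAddCommGroup E] [NormedSpace ℂ E] [FiniteDimensional ℂ E]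
variable {ε ε₁ ε₂ δ : ℝ} {c : ℕ → E × ℂ → ℂ} {m : ℕ} {w : E × ℂ → E}

/-- reversal of the direction -/
def rev : (E × ℂ × ℂ) →L[ℝ] (E × ℂ × ℂ) :=
  (ContinuousLinearMap.fst ℝ E (ℂ × ℂ)).prod
    (((ContinuousLinearMap.fst ℝ ℂ ℂ).comp (ContinuousLinearMap.snd ℝ E (ℂ × ℂ))).prod
      (-((ContinuousLinearMap.snd ℝ ℂ ℂ).comp (ContinuousLinearMap.snd ℝ E (ℂ × ℂ)))))

theorem rev_apply (q : E × ℂ × ℂ) : rev q = (q.1, q.2.1, -q.2.2) := rfl

theorem vf_rev (q : E × ℂ × ℂ) : rev (-vf w q) = vf w (rev q) := by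
  simp [rev_apply, vf]

/-- running backwards -/
theorem fl_rev [CompleteSpace E] (hw : ContDiffOn ℝ ∞ w (U0 E δ)) {q : E × ℂ × ℂ} {s : ℝ}
    (hs : 0 ≤ s) (h : (q, s) ∈ dm δ w) :
    (rev (fl δ w q s), s) ∈ dm δ w ∧ fl δ w (rev (fl δ w q s)) s = rev q := by
  have hq : q ∈ US E δ := mem_of_mem_dom h
  have key := flow_of_integralCurve' (v := vf w) (U := US E δ) isOpen_US (contDiffOn_vf hw)
    (c := fun r => rev (fl δ w q (s - r))) (x := rev (fl δ w q s)) (l := s) (by simp)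
    (fun r hr => by
      rw [uIcc_of_le hs] at hr
      exact fl_mem hw (dm_of_le h (⟨by linarith [hr.2], by linarith [hr.1]⟩ : s - r ∈ Icc 0 s)))
    (fun r hr => by
      rw [uIcc_of_le hs] at hr
      have h1 := hasDerivAt_fl hw
        (dm_of_le h (⟨by linarith [hr.2], by linarith [hr.1]⟩ : s - r ∈ Icc 0 s))
      have h2 : HasDerivAt (fun r : ℝ => s - r) (-1) r := by
        simpa using (hasDerivAt_id r).const_sub s
      have h3 := h1.scomp r h2
      have h4 := (rev (E := E)).hasFDerivAt.comp_hasDerivAt r h3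
      have h5 : rev ((-1 : ℝ) • vf w (fl δ w q (s - r))) = vf w (rev (fl δ w q (s - r))) := by
        rw [neg_smul, one_smul]; exact vf_rev _
      rw [h5] at h4
      exact h4)
  refine ⟨key.1, ?_⟩
  have h1 := key.2
  simp only [sub_self] at h1
  rw [fl_zero hw hq] at h1
  exact h1

/-- uniform continuity at the axis -/
theorem unif_axis [CompleteSpace E] (hH : Hyp ε ε₁ ε₂ δ c m w) {δ₁ T η : ℝ} (hδ₁ : δ₁ < δ)
    (hη : 0 < η) :
    ∃ μ > 0, ∀ q : E × ℂ × ℂ, ∀ s ∈ Icc (0 : ℝ) 1, q.1 ≠ 0 → ‖q.1‖ < μ → ‖q.2.1‖ ≤ δ₁ →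
      ‖q.2.2‖ ≤ T → ‖q.2.1 + s • q.2.2‖ ≤ δ₁ → ‖(fl δ w q s).1‖ < η := by
  have : ProperSpace E := FiniteDimensional.proper ℂ E
  set A : Set ((E × ℂ × ℂ) × ℝ) :=
    (((closedBall (0 : E) ε₂ ∩ {x | η ≤ ‖x‖}) ×ˢ (closedBall (0 : ℂ) δ₁ ×ˢ closedBall (0 : ℂ) T))
      ×ˢ Icc (0 : ℝ) 1) ∩ {p | ‖p.1.2.1 + p.2 • p.1.2.2‖ ≤ δ₁} with hA
  have hAc : IsCompact A := by
    refine IsCompact.inter_right ?_ ?_
    · refine IsCompact.prod ?_ isCompact_Icc
      refine IsCompact.prod ?_ ((isCompact_closedBall _ _).prod (isCompact_closedBall _ _))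
      exact (isCompact_closedBall _ _).inter_right (isClosed_le continuous_const continuous_norm)
    · exact isClosed_le (by fun_prop) continuous_const
  have hAdm : A ⊆ dm δ w := by
    rintro ⟨q, s⟩ ⟨⟨⟨⟨-, hx⟩, hτ, -⟩, hs⟩, hend⟩
    refine mem_dm hH ⟨?_, (mem_closedBall_zero_iff.1 hτ).trans_lt hδ₁⟩ hs.1
      (lt_of_le_of_lt hend hδ₁)
    intro h0
    rw [mem_ofPred_eq, h0, norm_zero] at hx
    exact absurd hη (not_lt.2 hx)
  have hcont : ContinuousOn (fun p : (E × ℂ × ℂ) × ℝ => ‖(fl δ w p.1 p.2).1‖) A := by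
    have h1 : ContinuousOn (flow (vf w) (US E δ)) (dom (vf w) (US E δ)) :=
      (contDiffOn_flow (n := 1) le_rfl isOpen_US (contDiffOn_vf hH.smooth)).continuousOn
    exact continuous_norm.comp_continuousOn (continuous_fst.comp_continuousOn (h1.mono hAdm))
  obtain ⟨μ₀, hμ₀, hmin⟩ : ∃ μ₀ > 0, ∀ p ∈ A, μ₀ ≤ ‖(fl δ w p.1 p.2).1‖ := by
    rcases A.eq_empty_or_nonempty with he | hne
    · exact ⟨1, one_pos, fun p hp => by rw [he] at hp; exact absurd hp (notMem_empty p)⟩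
    · obtain ⟨p, hp, hmin⟩ := hAc.exists_isMinOn hne hcont
      exact ⟨_, norm_pos_iff.2 (fl_mem hH.smooth (hAdm hp)).1, fun p' hp' => hmin hp'⟩
  refine ⟨min ε₂ μ₀, lt_min (hH.pos.trans hH.h12) hμ₀, ?_⟩
  intro q s hs hx hlt hτ ht hend
  by_contra hcon
  push Not at hcon
  have hd : (q, s) ∈ dm δ w := mem_dm hH ⟨hx, hτ.trans_lt hδ₁⟩ hs.1 (hend.trans_lt hδ₁)
  obtain ⟨h1, h2⟩ := fl_rev hH.smooth hs.1 hd
  have hτ' := fl_tau hH.smooth hs.1 hd
  have ht' := fl_t hH.smooth hs.1 hd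
  have hmem : (rev (fl δ w q s), s) ∈ A := by
    refine ⟨⟨⟨⟨?_, hcon⟩, ?_, ?_⟩, hs⟩, ?_⟩
    · rw [mem_closedBall_zero_iff]
      refine (norm_fl_le hH.smooth hH.zero hs.1 hd).trans (max_le ?_ le_rfl)
      exact (hlt.trans_le (min_le_left _ _)).le
    · rw [mem_closedBall_zero_iff, rev_apply]
      show ‖(fl δ w q s).2.1‖ ≤ δ₁
      rw [hτ']; exact hend
    · rw [mem_closedBall_zero_iff, rev_apply]
      show ‖-(fl δ w q s).2.2‖ ≤ T
      rw [norm_neg, ht']; exact ht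
    · show ‖(fl δ w q s).2.1 + s • (-(fl δ w q s).2.2)‖ ≤ δ₁
      rw [hτ', ht', smul_neg, add_neg_cancel_right]
      exact hτ
  have h3 := hmin _ hmem
  simp only [h2] at h3
  exact absurd (hlt.trans_le (min_le_right _ _)) (not_lt.2 h3)

/-- forward map -/
def Fw (δ : ℝ) (w : E × ℂ → E) (p : E × ℂ) : E × ℂ :=
  open Classical in if p.1 = 0 then p else ((fl δ w (p.1, 0, p.2) 1).1, p.2)

/-- backward map -/
def Bw (δ : ℝ) (w : E × ℂ → E) (p : E × ℂ) : E × ℂ :=
  open Classical in if p.1 = 0 then p else ((fl δ w (p.1, p.2, -p.2) 1).1, p.2)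

theorem Fw_snd (p : E × ℂ) : (Fw δ w p).2 = p.2 := by
  unfold Fw; split_ifs <;> rfl

theorem Bw_snd (p : E × ℂ) : (Bw δ w p).2 = p.2 := by
  unfold Bw; split_ifs <;> rfl

theorem mem_fw (hH : Hyp ε ε₁ ε₂ δ c m w) {p : E × ℂ} (hp : ‖p.2‖ < δ) (h0 : p.1 ≠ 0) :
    (((p.1, 0, p.2) : E × ℂ × ℂ), (1 : ℝ)) ∈ dm δ w := by
  have : CompleteSpace E := FiniteDimensional.complete ℂ E
  refine mem_dm hH ⟨h0, ?_⟩ zero_le_one ?_
  · simpa using (norm_nonneg _).trans_lt hp
  · simpa using hp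

theorem mem_bw (hH : Hyp ε ε₁ ε₂ δ c m w) {p : E × ℂ} (hp : ‖p.2‖ < δ) (h0 : p.1 ≠ 0) :
    (((p.1, p.2, -p.2) : E × ℂ × ℂ), (1 : ℝ)) ∈ dm δ w := by
  have : CompleteSpace E := FiniteDimensional.complete ℂ E
  refine mem_dm hH ⟨h0, hp⟩ zero_le_one ?_
  simpa using (norm_nonneg _).trans_lt hp

theorem Bw_Fw (hH : Hyp ε ε₁ ε₂ δ c m w) {p : E × ℂ} (hp : ‖p.2‖ < δ) :
    Bw δ w (Fw δ w p) = p := by
  classical
  have : CompleteSpace E := FiniteDimensional.complete ℂ E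
  by_cases h0 : p.1 = 0
  · simp [Fw, Bw, h0]
  · have hd := mem_fw hH hp h0
    obtain ⟨h1, h2⟩ := fl_rev hH.smooth zero_le_one hd
    have hτ := fl_tau hH.smooth zero_le_one hd
    have ht := fl_t hH.smooth zero_le_one hd
    simp only [zero_add, one_smul] at hτ
    have hne := (fl_mem hH.smooth hd).1
    have hrev : rev (fl δ w (p.1, 0, p.2) 1) = ((fl δ w (p.1, 0, p.2) 1).1, p.2, -p.2) := by
      rw [rev_apply, hτ, ht]
    rw [hrev] at h2
    simp only [Fw, h0, if_false, Bw, hne]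
    rw [h2, rev_apply]

theorem Fw_Bw (hH : Hyp ε ε₁ ε₂ δ c m w) {p : E × ℂ} (hp : ‖p.2‖ < δ) :
    Fw δ w (Bw δ w p) = p := by
  classical
  have : CompleteSpace E := FiniteDimensional.complete ℂ E
  by_cases h0 : p.1 = 0
  · simp [Fw, Bw, h0]
  · have hd := mem_bw hH hp h0
    obtain ⟨h1, h2⟩ := fl_rev hH.smooth zero_le_one hd
    have hτ := fl_tau hH.smooth zero_le_one hd
    have ht := fl_t hH.smooth zero_le_one hd
    simp only [one_smul, add_neg_cancel] at hτ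
    have hne := (fl_mem hH.smooth hd).1
    have hrev : rev (fl δ w (p.1, p.2, -p.2) 1) = ((fl δ w (p.1, p.2, -p.2) 1).1, 0, p.2) := by
      rw [rev_apply, hτ, ht, neg_neg]
    rw [hrev] at h2
    simp only [Fw, h0, if_false, Bw, hne]
    rw [h2, rev_apply]

theorem cont_aux (hH : Hyp ε ε₁ ε₂ δ c m w) {a b : ℂ → ℂ} (ha : Continuous a) (hb : Continuous b)
    (ha' : ∀ t, ‖a t‖ ≤ ‖t‖) (hb' : ∀ t, ‖b t‖ ≤ ‖t‖) (hab : ∀ t, ‖a t + b t‖ ≤ ‖t‖)
    (G : E × ℂ → E × ℂ) (hG0 : ∀ p : E × ℂ, p.1 = 0 → G p = p)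
    (hG : ∀ p : E × ℂ, p.1 ≠ 0 → G p = ((fl δ w (p.1, a p.2, b p.2) 1).1, p.2)) :
    ContinuousOn G {p : E × ℂ | ‖p.2‖ < δ} := by
  have : CompleteSpace E := FiniteDimensional.complete ℂ E
  have hopen : IsOpen {p : E × ℂ | ‖p.2‖ < δ} :=
    isOpen_lt (continuous_norm.comp continuous_snd) continuous_const
  intro p hp
  refine ContinuousAt.continuousWithinAt ?_
  by_cases h0 : p.1 = 0
  · -- at the axis
    obtain ⟨δ₁, hδ₁, hδ₁'⟩ := exists_between (show ‖p.2‖ < δ from hp)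
    rw [ContinuousAt, hG0 p h0]
    rw [Metric.tendsto_nhds_nhds]
    intro η hη
    obtain ⟨μ, hμ, hun⟩ := unif_axis hH (T := δ₁) hδ₁' hη
    obtain ⟨ν, hν, hball⟩ := Metric.isOpen_iff.1
      (isOpen_lt (continuous_norm (E := ℂ)) (continuous_const (y := δ₁))) p.2 hδ₁
    refine ⟨min (min μ ν) η, lt_min (lt_min hμ hν) hη, ?_⟩
    intro p' hp'
    rw [Prod.dist_eq] at hp'
    have hx : dist p'.1 p.1 < min (min μ ν) η := (le_max_left _ _).trans_lt hp'
    have ht : dist p'.2 p.2 < min (min μ ν) η := (le_max_right _ _).trans_lt hp'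
    have ht1 : ‖p'.2‖ < δ₁ := hball (ht.trans_le ((min_le_left _ _).trans (min_le_right _ _)))
    rw [h0, dist_zero_right] at hx
    by_cases h0' : p'.1 = 0
    · rw [hG0 p' h0', Prod.dist_eq, h0, h0', dist_self]
      exact max_lt hη (ht.trans_le (min_le_right _ _))
    · rw [hG p' h0', Prod.dist_eq]
      refine max_lt ?_ (ht.trans_le (min_le_right _ _))
      show dist (fl δ w (p'.1, a p'.2, b p'.2) 1).1 p.1 < η
      rw [h0, dist_zero_right]
      refine hun _ 1 ⟨zero_le_one, le_rfl⟩ h0'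
        (hx.trans_le ((min_le_left _ _).trans (min_le_left _ _))) ((ha' _).trans ht1.le)
        ((hb' _).trans ht1.le) ?_
      show ‖a p'.2 + (1 : ℝ) • b p'.2‖ ≤ δ₁
      rw [one_smul]; exact (hab _).trans ht1.le
  · -- off the axis
    have hd : (((p.1, a p.2, b p.2) : E × ℂ × ℂ), (1 : ℝ)) ∈ dm δ w := by
      refine mem_dm hH ⟨h0, (ha' _).trans_lt hp⟩ zero_le_one ?_
      show ‖a p.2 + (1 : ℝ) • b p.2‖ < δ
      rw [one_smul]; exact (hab _).trans_lt hp
    have h1 : ContinuousAt (flow (vf w) (US E δ)) (((p.1, a p.2, b p.2) : E × ℂ × ℂ), (1 : ℝ)) :=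
      ((contDiffOn_flow (n := 1) le_rfl isOpen_US
        (contDiffOn_vf hH.smooth)).continuousOn).continuousAt
        ((isOpen_dom isOpen_US (contDiffOn_vf hH.smooth)).mem_nhds hd)
    have h2 : ContinuousAt (fun p : E × ℂ => (((p.1, a p.2, b p.2) : E × ℂ × ℂ), (1 : ℝ))) p := by
      fun_prop
    have h3 : ContinuousAt (fun p : E × ℂ => ((fl δ w (p.1, a p.2, b p.2) 1).1, p.2)) p := by
      refine ContinuousAt.prodMk ?_ continuousAt_snd
      exact (ContinuousAt.comp (x := p) (g := flow (vf w) (US E δ)) h1 h2).fst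
    refine h3.congr ?_
    have : ∀ᶠ p' : E × ℂ in 𝓝 p, p'.1 ≠ 0 :=
      (isOpen_ne_fun continuous_fst continuous_const).mem_nhds h0
    filter_upwards [this] with p' hp'
    exact (hG p' hp').symm

theorem continuousOn_Fw (hH : Hyp ε ε₁ ε₂ δ c m w) :
    ContinuousOn (Fw δ w) {p : E × ℂ | ‖p.2‖ < δ} := by
  classical
  refine cont_aux hH (a := fun _ => 0) (b := fun t => t) continuous_const continuous_id
    (fun t => by simp) (fun t => le_rfl) (fun t => by simp) (Fw δ w) ?_ ?_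
  · intro p hp; simp [Fw, hp]
  · intro p hp; simp [Fw, hp]

theorem continuousOn_Bw (hH : Hyp ε ε₁ ε₂ δ c m w) :
    ContinuousOn (Bw δ w) {p : E × ℂ | ‖p.2‖ < δ} := by
  classical
  refine cont_aux hH (a := fun t => t) (b := fun t => -t) continuous_id continuous_neg
    (fun t => le_rfl) (fun t => by simp) (fun t => by simp) (Bw δ w) ?_ ?_
  · intro p hp; simp [Bw, hp]
  · intro p hp; simp [Bw, hp]

/-- **A-FLOW, flag form.** -/
theorem flow_flag {ε δ : ℝ} (hε : 0 < ε) (hδ : 0 < δ) {c : ℕ → E × ℂ → ℂ} {m : ℕ}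
    (hc : ∀ j ≤ m, ∀ p ∈ Om E ε δ, AnalyticAt ℂ (c j) p)
    (hax : ∀ j ≤ m, ∀ t : ℂ, ‖t‖ < δ → c j (0, t) = 0)
    (hflag : ∀ p ∈ Om E ε δ, p.1 ≠ 0 → Flag c m p) :
    ∃ δ' : ℝ, 0 < δ' ∧ ∃ Φ : OpenPartialHomeomorph (E × ℂ) (E × ℂ),
      (∀ t : ℂ, ‖t‖ < δ' → ((0 : E), t) ∈ Φ.source ∧ Φ (0, t) = (0, t)) ∧
      (∀ p ∈ Φ.source, (Φ p).2 = p.2 ∧ c 0 (Φ p) = c 0 (p.1, 0)) ∧
      (∀ x : E, (x, (0 : ℂ)) ∈ Φ.source → Φ (x, 0) = (x, 0)) := by
  classical
  have : CompleteSpace E := FiniteDimensional.complete ℂ E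
  obtain ⟨w, hw, hwp⟩ := exists_field (ε := ε) (ε₁ := ε / 3) (ε₂ := ε / 2) (δ := δ)
    (by linarith) (by linarith) hc hflag
  have hH : Hyp ε (ε / 3) (ε / 2) δ c m w :=
    ⟨by positivity, by linarith, by linarith, hc, hax, hflag, hw,
      fun p hp => (hwp p hp).1, fun p hp => (hwp p hp).2⟩
  obtain ⟨μ, hμ, hun⟩ := unif_axis hH (δ₁ := δ / 2) (T := δ) (η := ε / 3) (by linarith)
    (by positivity)
  let Θ : OpenPartialHomeomorph (E × ℂ) (E × ℂ) :=
    { toFun := Fw δ w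
      invFun := Bw δ w
      source := {p | ‖p.2‖ < δ}
      target := {p | ‖p.2‖ < δ}
      map_source' := fun p hp => by
        show ‖(Fw δ w p).2‖ < δ
        rw [Fw_snd]; exact hp
      map_target' := fun p hp => by
        show ‖(Bw δ w p).2‖ < δ
        rw [Bw_snd]; exact hp
      left_inv' := fun p hp => Bw_Fw hH hp
      right_inv' := fun p hp => Fw_Bw hH hp
      open_source := isOpen_lt (continuous_norm.comp continuous_snd) continuous_const
      open_target := isOpen_lt (continuous_norm.comp continuous_snd) continuous_const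
      continuousOn_toFun := continuousOn_Fw hH
      continuousOn_invFun := continuousOn_Bw hH }
  have hS : IsOpen (Om E μ (δ / 2)) := isOpen_Om
  refine ⟨δ / 2, by positivity, Θ.restrOpen (Om E μ (δ / 2)) hS, ?_, ?_, ?_⟩
  · intro t ht
    refine ⟨⟨show ‖t‖ < δ by linarith, ?_⟩, ?_⟩
    · exact ⟨by rw [norm_zero]; exact hμ, ht⟩
    · show Fw δ w (0, t) = (0, t)
      simp [Fw]
  · rintro p ⟨hp, hp1, hp2⟩
    have hp' : ‖p.2‖ < δ := hp
    refine ⟨Fw_snd p, ?_⟩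
    show c 0 (Fw δ w p) = c 0 (p.1, 0)
    by_cases h0 : p.1 = 0
    · have h1 : Fw δ w p = p := by simp [Fw, h0]
      have h2 : p = ((0 : E), p.2) := by rw [← h0]
      rw [h1, h0]
      rw [h2]
      rw [hax 0 (Nat.zero_le _) _ hp', hax 0 (Nat.zero_le _) _ (by rw [norm_zero]; exact hδ)]
    · have hd := mem_fw hH hp' h0
      have hsmall : ∀ r ∈ Icc (0 : ℝ) 1, ‖(fl δ w (p.1, 0, p.2) r).1‖ ≤ ε / 3 := by
        intro r hr
        refine (hun (p.1, 0, p.2) r hr h0 hp1 ?_ hp'.le ?_).le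
        · simpa using (by positivity : (0 : ℝ) ≤ δ / 2)
        · show ‖0 + r • p.2‖ ≤ δ / 2
          rw [zero_add, norm_smul, Real.norm_of_nonneg hr.1]
          calc r * ‖p.2‖ ≤ 1 * ‖p.2‖ := mul_le_mul_of_nonneg_right hr.2 (norm_nonneg _)
            _ ≤ δ / 2 := by rw [one_mul]; exact hp2.le
      have hconst := const_of_hasDerivAt_zero
        (f := fun r => c 0 (pt (fl δ w (p.1, 0, p.2) r))) (a := 0) (b := 1)
        (fun r hr => hasDerivAt_c hH (dm_of_le hd hr) (hsmall r hr) (Nat.zero_le _)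
          (fun i hi => absurd hi (Nat.not_lt_zero i))) 1 ⟨zero_le_one, le_rfl⟩
      have hτ := fl_tau hH.smooth zero_le_one hd
      simp only [zero_add, one_smul] at hτ
      have hmem : ((p.1, 0, p.2) : E × ℂ × ℂ) ∈ US E δ := by
        refine ⟨h0, ?_⟩
        simpa using hδ
      have h1 : Fw δ w p = pt (fl δ w (p.1, 0, p.2) 1) := by
        simp only [Fw, h0, if_false, pt]
        rw [hτ]
      rw [h1, hconst, fl_zero hH.smooth hmem]
      rfl
  · rintro x ⟨hx, hx1, -⟩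
    show Fw δ w (x, 0) = (x, 0)
    by_cases h0 : x = 0
    · simp [Fw, h0]
    · have h1 := flow_of_zero (v := vf w) (U := US E δ) isOpen_US (contDiffOn_vf hH.smooth)
        (x := (x, 0, 0)) ⟨h0, by simpa using hδ⟩ (by simp [vf]) 1
      have h2 : fl δ w (x, 0, 0) 1 = (x, 0, 0) := h1.2
      simp only [Fw, h0, if_false]
      rw [h2]

end Crest.Agent.R257.Flow_941
end
end

-- ▼ part R257/FlowF_941

/-!
R257 / FlowF_941: A-FLOW for three functions `F, g, h` on `ℂ³ × ℂ`, in the exact shape of the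
conclusion of S0395.
-/

set_option autoImplicit false
set_option linter.unusedSectionVars false
set_option linter.deprecated false

open Set Filter Topology Metric

noncomputable section

namespace Crest.Agent.R257.Flow_941

variable {E : Type} [NormedAddCommGroup E] [NormedSpace ℂ E] [FiniteDimensional ℂ E]

/-- `dx` is the partial derivative of the slice. -/
theorem dx_eq {c : E × ℂ → ℂ} {p : E × ℂ} (hc : DifferentiableAt ℂ c p) :
    dx c p = fderiv ℂ (fun x => c (x, p.2)) p.1 := by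
  have h1 : HasFDerivAt (fun x : E => ((x, p.2) : E × ℂ)) (ContinuousLinearMap.inl ℂ E ℂ) p.1 :=
    hasFDerivAt_prodMk_left p.1 p.2
  have h2 : HasFDerivAt c (fderiv ℂ c p) ((fun x : E => ((x, p.2) : E × ℂ)) p.1) :=
    hc.hasFDerivAt
  exact (h2.comp p.1 h1).fderiv.symm

/-- a neighbourhood of `(0,0)` contains a polydisc -/
theorem exists_Om {P : E × ℂ → Prop} (h : ∀ᶠ p in 𝓝 ((0 : E), (0 : ℂ)), P p) :
    ∃ r > 0, ∀ p ∈ Om E r r, P p := by
  obtain ⟨r, hr, hb⟩ := Metric.eventually_nhds_iff.1 h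
  refine ⟨r, hr, fun p hp => hb ?_⟩
  rw [Prod.dist_eq]
  exact max_lt (by simpa using hp.1) (by simpa using hp.2)

/-- **A-FLOW.** Three functions analytic near the origin of `E × ℂ`, zero on the axis, such that
near the origin and off the axis: `d_x F ≠ 0`; where `F = 0`, `d_x F` and `d_x g` are independent;
where `F = g = 0`, `h ≠ 0` and `d_x F, d_x g, d_x h` are independent. -/
theorem flow_three {F g h : E × ℂ → ℂ} (hF : AnalyticAt ℂ F (0, 0)) (hg : AnalyticAt ℂ g (0, 0))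
    (hh : AnalyticAt ℂ h (0, 0))
    (hax : ∀ᶠ t : ℂ in 𝓝 0, F (0, t) = 0 ∧ g (0, t) = 0 ∧ h (0, t) = 0)
    (h1 : ∀ᶠ p : E × ℂ in 𝓝 (0, 0), p.1 ≠ 0 → fderiv ℂ (fun x => F (x, p.2)) p.1 ≠ 0)
    (h2 : ∀ᶠ p : E × ℂ in 𝓝 (0, 0), p.1 ≠ 0 → F p = 0 →
      LinearIndependent ℂ ![fderiv ℂ (fun x => F (x, p.2)) p.1,
        fderiv ℂ (fun x => g (x, p.2)) p.1])
    (h3 : ∀ᶠ p : E × ℂ in 𝓝 (0, 0), p.1 ≠ 0 → F p = 0 → g p = 0 → h p ≠ 0 ∧
      LinearIndependent ℂ ![fderiv ℂ (fun x => F (x, p.2)) p.1,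
        fderiv ℂ (fun x => g (x, p.2)) p.1, fderiv ℂ (fun x => h (x, p.2)) p.1]) :
    ∃ δ : ℝ, 0 < δ ∧ ∃ Φ : OpenPartialHomeomorph (E × ℂ) (E × ℂ),
      (∀ t : ℂ, ‖t‖ < δ → ((0 : E), t) ∈ Φ.source ∧ Φ (0, t) = (0, t)) ∧
      (∀ p ∈ Φ.source, (Φ p).2 = p.2 ∧ F (Φ p) = F (p.1, 0)) ∧
      (∀ x : E, (x, (0 : ℂ)) ∈ Φ.source → Φ (x, 0) = (x, 0)) := by
  have hax' : ∀ᶠ p : E × ℂ in 𝓝 ((0 : E), (0 : ℂ)),
      F (0, p.2) = 0 ∧ g (0, p.2) = 0 ∧ h (0, p.2) = 0 :=
    (continuous_snd.continuousAt (x := ((0 : E), (0 : ℂ)))).eventually hax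
  obtain ⟨r, hr, hP⟩ := exists_Om (((hF.eventually_analyticAt.and hg.eventually_analyticAt).and
    (hh.eventually_analyticAt.and hax')).and ((h1.and h2).and h3))
  let c : ℕ → E × ℂ → ℂ := fun j => if j = 0 then F else if j = 1 then g else h
  have hc : ∀ j ≤ 2, ∀ p ∈ Om E r r, AnalyticAt ℂ (c j) p := by
    intro j _ p hp
    obtain ⟨⟨⟨a1, a2⟩, a3, -⟩, -⟩ := hP p hp
    simp only [c]
    split_ifs
    · exact a1
    · exact a2
    · exact a3
  refine flow_flag (ε := r) (δ := r) hr hr (c := c) (m := 2) hc ?_ ?_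
  · intro j _ t ht
    obtain ⟨⟨-, -, a4⟩, -⟩ := hP ((0 : E), t) ⟨by simpa using hr, ht⟩
    simp only [c]
    split_ifs
    · exact a4.1
    · exact a4.2.1
    · exact a4.2.2
  · intro p hp hp0
    obtain ⟨⟨⟨a1, a2⟩, a3, -⟩, ⟨b1, b2⟩, b3⟩ := hP p hp
    have e0 : dx (c 0) p = fderiv ℂ (fun x => F (x, p.2)) p.1 := dx_eq a1.differentiableAt
    have e1 : dx (c 1) p = fderiv ℂ (fun x => g (x, p.2)) p.1 := dx_eq a2.differentiableAt
    have e2 : dx (c 2) p = fderiv ℂ (fun x => h (x, p.2)) p.1 := dx_eq a3.differentiableAt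
    by_cases hF0 : F p = 0
    · by_cases hg0 : g p = 0
      · obtain ⟨hne, hli⟩ := b3 hp0 hF0 hg0
        refine ⟨2, le_rfl, hne, ?_, ?_⟩
        · intro j hj
          interval_cases j
          · exact hF0
          · exact hg0
        · convert hli using 1
          funext i
          fin_cases i
          · exact e0
          · exact e1
          · exact e2
      · refine ⟨1, by norm_num, hg0, ?_, ?_⟩
        · intro j hj
          interval_cases j
          exact hF0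
        · convert b2 hp0 hF0 using 1
          funext i
          fin_cases i
          · exact e0
          · exact e1
    · refine ⟨0, by norm_num, hF0, fun j hj => absurd hj (Nat.not_lt_zero j), ?_⟩
      show LinearIndependent ℂ (fun i : Fin 1 => dx (c i) p)
      refine linearIndependent_unique_iff.2 ?_
      show dx (c 0) p ≠ 0
      rw [e0]; exact b1 hp0

end Crest.Agent.R257.Flow_941
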