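import Crest.Agent.R257.XFDefs_157
import Crest.Agent.R257.SkelA_219
import Crest.Agent.R257.SkelB_219
import Crest.Agent.R257.ColAdd_812

-- ▼ part R257/XFin_157
section

/-!
R257 / XFin_157: an exact pair gives `XStmt` and `XUStmt`.
-/

set_option autoImplicit false

open Topology Filter MeasureTheory Set
open scoped ENNReal
open Crest.AlgGeometry.Germ

noncomputable section

namespace Crest.Agent.R257.XFin_157

open Crest.Agent.R257.Defs_219 Crest.Agent.R257.Skel_219 Crest.Agent.R257.XF_157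

section algebra

variable {n m l : ℕ}

theorem gens_le_of_mem {G : Fin m → (Fin n → ℂ) → ℂ} {G' : Fin l → (Fin n → ℂ) → ℂ}
    (h : ∀ j, ∃ i, G j = G' i) : gens G ≤ gens G' := by
  refine gens_le fun j => ?_
  obtain ⟨i, hi⟩ := h j
  refine ⟨fun k => if k = i then fun _ => 1 else fun _ => 0, fun k => ?_, ?_⟩
  · dsimp only
    split_ifs <;> exact analyticAt_const
  · refine Eventually.of_forall fun x => ?_
    rw [hi]
    dsimp only
    rw [Finset.sum_eq_single i]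
    · simp
    · intro b _ hb
      simp [hb]
    · intro h'
      exact absurd (Finset.mem_univ i) h'

theorem gens_swap (f g h : E3 → ℂ) : gens ![f, g, h] = gens ![f, h, g] := by
  refine le_antisymm (gens_le_of_mem fun j => ?_) (gens_le_of_mem fun j => ?_) <;>
  · fin_cases j
    · exact ⟨0, rfl⟩
    · exact ⟨2, rfl⟩
    · exact ⟨1, rfl⟩

theorem col_swap (f g h : E3 → ℂ) : col ![f, g, h] = col ![f, h, g] := col_congr (gens_swap f g h)

theorem colFin_swap (f g h : E3 → ℂ) : ColFin ![f, g, h] ↔ ColFin ![f, h, g] :=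
  colFin_congr (gens_swap f g h)

variable {f g h : E3 → ℂ}

theorem pow_right (mul : MulStmt) (hf : AnalyticAt ℂ f 0) (hg : AnalyticAt ℂ g 0)
    (hh : AnalyticAt ℂ h 0) (f0 : f 0 = 0) (g0 : g 0 = 0) (h0 : h 0 = 0)
    (hfin : ColFin ![f, g, h]) (n : ℕ) :
    ColFin ![f, g, h ^ (n + 1)] ∧ col ![f, g, h ^ (n + 1)] = (n + 1) * col ![f, g, h] := by
  induction n with
  | zero => simpa using hfin
  | succ n ih =>
    have h1 : (h ^ (n + 1)) 0 = 0 := by simp [h0]
    have := mul f g (h ^ (n + 1)) h hf hg (hh.pow _) hh f0 g0 h1 h0 ih.1 hfin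
    rw [pow_succ h (n + 1)]
    refine ⟨this.1, ?_⟩
    rw [this.2, ih.2]; ring

theorem pow_both (mul : MulStmt) (hf : AnalyticAt ℂ f 0) (hg : AnalyticAt ℂ g 0)
    (hh : AnalyticAt ℂ h 0) (f0 : f 0 = 0) (g0 : g 0 = 0) (h0 : h 0 = 0)
    (hfin : ColFin ![f, g, h]) {a b : ℕ} (ha : a ≠ 0) (hb : b ≠ 0) :
    ColFin ![f, g ^ a, h ^ b] ∧ col ![f, g ^ a, h ^ b] = a * b * col ![f, g, h] := by
  obtain ⟨a, rfl⟩ := Nat.exists_eq_succ_of_ne_zero ha
  obtain ⟨b, rfl⟩ := Nat.exists_eq_succ_of_ne_zero hb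
  have h1 := pow_right mul hf hg hh f0 g0 h0 hfin b
  have h2 : ColFin ![f, h ^ (b + 1), g] := (colFin_swap _ _ _).1 h1.1
  have h3 : (h ^ (b + 1)) 0 = 0 := by simp [h0]
  have h4 := pow_right mul hf (hh.pow (b + 1)) hg f0 h3 g0 h2 a
  refine ⟨(colFin_swap _ _ _).1 h4.1, ?_⟩
  rw [col_swap, h4.2, ← col_swap, h1.2]
  simp only [Nat.succ_eq_add_one]; push_cast; ring

end algebra

/-- `k`-th roots of the inequalities of `Exact.e2` -/
theorem root {S Q C a : ℝ} {k : ℕ} (hk : k ≠ 0) (hS : 0 ≤ S) (hQ : 0 ≤ Q)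
    (h : Q ^ k ≤ C * S ^ a) : Q ≤ (max C 0) ^ (1 / (k : ℝ)) * S ^ (a / k) := by
  have hk' : (0 : ℝ) < k := by exact_mod_cast Nat.pos_of_ne_zero hk
  have h1 : Q ^ k ≤ max C 0 * S ^ a :=
    h.trans (mul_le_mul_of_nonneg_right (le_max_left _ _) (Real.rpow_nonneg hS _))
  have h2 : Q = (Q ^ k) ^ (1 / (k : ℝ)) := by
    rw [← Real.rpow_natCast, ← Real.rpow_mul hQ]
    rw [mul_one_div_cancel hk'.ne', Real.rpow_one]
  rw [h2]
  calc (Q ^ k) ^ (1 / (k : ℝ)) ≤ (max C 0 * S ^ a) ^ (1 / (k : ℝ)) :=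
        Real.rpow_le_rpow (pow_nonneg hQ _) h1 (by positivity)
    _ = _ := by
        rw [Real.mul_rpow (le_max_right _ _) (Real.rpow_nonneg hS _), ← Real.rpow_mul hS]
        congr 2
        ring

variable {f g h : E3 → ℂ} {k : ℕ}

theorem _root_.Crest.Agent.R257.XF_157.Exact.dom (E : Exact f k g h) {a : ℝ} (ha : 1 ≤ a) {q : E3 → ℂ} (hq : AnalyticAt ℂ q 0)
    (h1 : a = 1 → InJ 1 f q) (h2 : ∀ p : ℝ, 1 ≤ p → p < a → InJ p f q) :
    ∃ C r : ℝ, 0 < r ∧ ∀ x, ‖x‖ < r → f x = 0 → ‖q x‖ ≤ C * (‖g x‖ + ‖h x‖) ^ (a / k) := by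
  obtain ⟨C, r, hr, hC⟩ := E.e2 a ha q hq h1 h2
  refine ⟨(max C 0) ^ (1 / (k : ℝ)), r, hr, fun x hx hfx => ?_⟩
  have hk : k ≠ 0 := by have := E.k2; omega
  exact root hk (by positivity) (norm_nonneg _) (hC x hx hfx)

/-- monotonicity of `InJ` in the exponent, from a larger exponent to a smaller one -/
theorem InJ.mono {a p : ℝ} (hp : 1 ≤ p) (hpa : p ≤ a) {q : E3 → ℂ} (hq : AnalyticAt ℂ q 0)
    (hJ : InJ a f q) : InJ p f q := by
  obtain ⟨r, hr, hJr⟩ := hJ
  -- bound of `q`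
  obtain ⟨B, hB1, hB⟩ : ∃ B : ℝ, 1 ≤ B ∧ ∀ᶠ x in 𝓝 (0 : E3), ‖q x‖ ≤ B := by
    refine ⟨‖q 0‖ + 1, by linarith [norm_nonneg (q 0)], ?_⟩
    have := hq.continuousAt.norm
    exact (this.eventually (gt_mem_nhds (by linarith : ‖q 0‖ < ‖q 0‖ + 1))).mono
      fun x hx => le_of_lt hx
  obtain ⟨s, hs, hBs⟩ := Metric.eventually_nhds_iff.1 hB
  set ρ : ℝ := min r s with hρ
  have hρ0 : 0 < ρ := lt_min hr hs
  refine ⟨ρ, hρ0, ?_⟩
  have ha0 : (0 : ℝ) < a := by linarith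
  have hp0 : (0 : ℝ) < p := by linarith
  have he : 2 / a ≤ 2 / p := div_le_div_of_nonneg_left (by norm_num) hp0 hpa
  have key : Jint p (fun _ => ρ) f q ≤
      ENNReal.ofReal (B ^ (2 / p - 2 / a)) * Jint a (fun _ => r) f q := by
    unfold Jint
    rw [← MeasureTheory.lintegral_const_mul' _ _ ENNReal.ofReal_ne_top]
    have hsub : {x' : Fin 2 → ℂ | ∀ i, ‖x' i‖ < ρ} ⊆ {x' : Fin 2 → ℂ | ∀ i, ‖x' i‖ < r} :=
      fun x' hx' i => (hx' i).trans_le (min_le_left _ _)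
    refine (MeasureTheory.setLIntegral_mono' ?_ ?_).trans
      (MeasureTheory.lintegral_mono_set hsub)
    · have : {x' : Fin 2 → ℂ | ∀ i, ‖x' i‖ < ρ} = Metric.ball 0 ρ := by
        ext x'
        simp only [Set.mem_ofPred_eq, Metric.mem_ball, dist_zero_right]
        exact (pi_norm_lt_iff hρ0).symm
      rw [this]; exact measurableSet_ball
    intro x' hx'
    rw [← ENNReal.tsum_mul_left]
    let ψ : {z : ℂ // ‖z‖ < ρ ∧ f (Fin.cons z x') = 0 ∧ coordDeriv f 0 (Fin.cons z x') ≠ 0} →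
        {z : ℂ // ‖z‖ < r ∧ f (Fin.cons z x') = 0 ∧ coordDeriv f 0 (Fin.cons z x') ≠ 0} :=
      fun z => ⟨z.1, z.2.1.trans_le (min_le_left _ _), z.2.2⟩
    have hψ : Function.Injective ψ := by
      intro z w hzw
      have h3 : (ψ z).1 = (ψ w).1 := congrArg Subtype.val hzw
      exact Subtype.ext h3
    refine le_trans ?_ (ENNReal.tsum_comp_le_tsum_of_injective hψ _)
    refine ENNReal.tsum_le_tsum fun z => ?_
    rw [← ENNReal.ofReal_mul (by positivity)]
    refine ENNReal.ofReal_le_ofReal ?_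
    have hz : ‖q (Fin.cons z.1 x')‖ ≤ B := by
      refine hBs ?_
      rw [dist_zero_right]
      refine (pi_norm_lt_iff hs).2 fun i => ?_
      refine Fin.cases ?_ (fun j => ?_) i
      · simpa using z.2.1.trans_le (min_le_right _ _)
      · simpa using (hx' j).trans_le (min_le_right _ _)
    have hN : 0 ≤ ‖q (Fin.cons z.1 x')‖ := norm_nonneg _
    rw [← mul_div_assoc]
    refine div_le_div_of_nonneg_right ?_ (by positivity)
    show ‖q (Fin.cons z.1 x')‖ ^ (2 / p) ≤ B ^ (2 / p - 2 / a) * ‖q (Fin.cons z.1 x')‖ ^ (2 / a)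
    rcases hN.eq_or_lt with h0 | h0
    · rw [← h0, Real.zero_rpow (by positivity), Real.zero_rpow (by positivity), mul_zero]
    · have e1 : ‖q (Fin.cons z.1 x')‖ ^ (2 / p) = ‖q (Fin.cons z.1 x')‖ ^ (2 / p - 2 / a) *
          ‖q (Fin.cons z.1 x')‖ ^ (2 / a) := by
        rw [← Real.rpow_add h0]; congr 1; ring
      rw [e1]
      exact mul_le_mul_of_nonneg_right (Real.rpow_le_rpow hN hz (by linarith))
        (Real.rpow_nonneg hN _)
  refine lt_of_le_of_lt key (ENNReal.mul_lt_top ENNReal.ofReal_lt_top hJr)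

theorem _root_.Crest.Agent.R257.XF_157.Exact.dom' (E : Exact f k g h) {a : ℝ} (ha : 1 ≤ a) {q : E3 → ℂ} (hq : AnalyticAt ℂ q 0)
    (hJ : InJ a f q) :
    ∃ C r : ℝ, 0 < r ∧ ∀ x, ‖x‖ < r → f x = 0 → ‖q x‖ ≤ C * (‖g x‖ + ‖h x‖) ^ (a / k) := by
  refine Exact.dom E ha hq (fun h1 => h1 ▸ hJ) fun p hp hpa => InJ.mono hp hpa.le hq hJ

theorem _root_.Crest.Agent.R257.XF_157.Exact.colFin (E : Exact f k g h) (isf : IsoFinStmt) (hf : AnalyticAt ℂ f 0) :
    ColFin ![f, g, h] := by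
  refine isf _ (fun j => ?_) ?_
  · fin_cases j
    · exact hf
    · exact E.ang
    · exact E.anh
  · filter_upwards [E.e4] with x hx hj
    exact hx (hj 0) (hj 1) (hj 2)

theorem _root_.Crest.Agent.R257.XF_157.Exact.colFin' (E : Exact f k g h) (isf : IsoFinStmt) (hf : AnalyticAt ℂ f 0) :
    ColFin ![f, g, Dt f g h] := by
  obtain ⟨C, r, hr, hC⟩ := E.e3
  refine isf _ (fun j => ?_) ?_
  · fin_cases j
    · exact hf
    · exact E.ang
    · exact analyticAt_Dt hf E.ang E.anh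
  · filter_upwards [E.e4, Metric.ball_mem_nhds (0 : E3) hr] with x hx hxr hj
    have h0 : f x = 0 := hj 0
    have h1 : g x = 0 := hj 1
    have h2 : Dt f g h x = 0 := hj 2
    refine hx h0 h1 ?_
    have h3 := hC x (by simpa using hxr) h0
    have hk : k ≠ 0 := by have := E.k2; omega
    rw [h1, h2, norm_zero, zero_pow hk, zero_pow (by omega)] at h3
    have h4 : ‖h x‖ ^ (2 * k + 1) = 0 := le_antisymm (by simpa using h3) (by positivity)
    exact norm_eq_zero.1 (pow_eq_zero_iff (by omega) |>.1 h4)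

theorem lim_le {k : ℕ} (hk : 2 ≤ k) {m I : ℝ} (H : ∀ p : ℝ, 1 ≤ p → p < k → p * p * m ≤ I) :
    (k : ℝ) ^ 2 * m ≤ I := by
  have h1 : Tendsto (fun p : ℝ => p * p * m) (𝓝[<] (k : ℝ)) (𝓝 ((k : ℝ) * k * m)) := by
    refine Tendsto.mono_left ?_ nhdsWithin_le_nhds
    exact (Continuous.tendsto (by fun_prop) _)
  have hk' : (2 : ℝ) ≤ k := by exact_mod_cast hk
  have h2 : ∀ᶠ p in 𝓝[<] (k : ℝ), p * p * m ≤ I := by
    have h3 : ∀ᶠ p in 𝓝[<] (k : ℝ), (1 : ℝ) < p :=
      (eventually_nhdsWithin_of_eventually_nhds (lt_mem_nhds (by linarith)))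
    filter_upwards [h3, self_mem_nhdsWithin] with p hp hpk
    exact H p hp.le hpk
  have := le_of_tendsto h1 h2
  rw [sq]; exact this

/-- the colength of an exact pair -/
theorem _root_.Crest.Agent.R257.XF_157.Exact.col_eq (E : Exact f k g h) (cmp : CmpStmt) (isf : IsoFinStmt) (hI : Iso f)
    (hpos : 0 < mstar f) : (col ![f, g, h] : ℝ) = (k : ℝ) ^ 2 * mstar f := by
  have hk2 := E.k2
  have hkR : (2 : ℝ) ≤ k := by exact_mod_cast hk2
  have hk0 : (0 : ℝ) < k := by linarith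
  have hfin := E.colFin isf hI.an
  refine le_antisymm ?_ ?_
  · -- upper bound
    have hne : (mset f).Nonempty := ⟨_, 1, 1, le_rfl, le_rfl, g, h, E.ang, E.anh,
      (E.e1 1 le_rfl (by linarith)).1, (E.e1 1 le_rfl (by linarith)).2, hfin, rfl⟩
    have : (col ![f, g, h] : ℝ) / (k : ℝ) ^ 2 ≤ mstar f := by
      refine le_csInf hne ?_
      rintro c ⟨a, b, ha, hb, p, q, hp, hq, hpJ, hqJ, hpq, rfl⟩
      -- `p 0 = 0` and `q 0 = 0`
      have hle : mstar f ≤ (col ![f, p, q] : ℝ) / (a * b) :=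
        csInf_le (bddBelow_mset f) ⟨a, b, ha, hb, p, q, hp, hq, hpJ, hqJ, hpq, rfl⟩
      have hcol : col ![f, p, q] ≠ 0 := by
        intro h0
        rw [h0] at hle
        simp at hle
        linarith
      have hp0 : p 0 = 0 := by
        by_contra hne
        exact hcol (col_eq_zero (G := ![f, p, q]) (j := 1) hp hne)
      have hq0 : q 0 = 0 := by
        by_contra hne
        exact hcol (col_eq_zero (G := ![f, p, q]) (j := 2) hq hne)
      obtain ⟨C1, r1, hr1, h1⟩ := Exact.dom' E ha hp hpJ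
      obtain ⟨C2, r2, hr2, h2⟩ := Exact.dom' E hb hq hqJ
      have key := cmp f p q g h hI.an hp hq E.ang E.anh hI.zero hp0 hq0 E.g0 E.h0 hfin hpq
        (a / k) (b / k) (by positivity) (by positivity)
        ⟨max C1 C2, min r1 r2, lt_min hr1 hr2, fun x hx hfx => ⟨?_, ?_⟩⟩
      · have hab : 0 < a * b := by positivity
        rw [div_le_div_iff₀ (by positivity) hab]
        have : a / k * (b / k) * (col ![f, g, h] : ℝ) = (col ![f, g, h] : ℝ) * (a * b) / k ^ 2 := by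
          field_simp
        rw [this, div_le_iff₀ (by positivity)] at key
        linarith
      · exact (h1 x (hx.trans_le (min_le_left _ _)) hfx).trans
          (mul_le_mul_of_nonneg_right (le_max_left _ _) (by positivity))
      · exact (h2 x (hx.trans_le (min_le_right _ _)) hfx).trans
          (mul_le_mul_of_nonneg_right (le_max_right _ _) (by positivity))
    rw [div_le_iff₀ (by positivity)] at this
    linarith
  · refine lim_le hk2 fun p hp hpk => ?_
    exact mul_mstar_le hp hp E.ang E.anh (E.e1 p hp hpk).1 (E.e1 p hp hpk).2 hfin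

/-- `Dt ∈ J_q` for all `q < 2k + 1` -/
theorem _root_.Crest.Agent.R257.XF_157.Exact.det_mem (E : Exact f k g h) (det : DetStmt) (isf : IsoFinStmt)
    (hf : AnalyticAt ℂ f 0) {q : ℝ} (hq : 1 ≤ q) (hqk : q < 2 * k + 1) :
    InJ q f (Dt f g h) := by
  have hkR : (2 : ℝ) ≤ k := by exact_mod_cast E.k2
  set s : ℝ := ((q - 1) / 2 + k) / 2 with hs
  have hs1 : 1 ≤ s := by rw [hs]; linarith
  have hsk : s < k := by rw [hs]; linarith
  have hsq : q < s + s + 1 := by rw [hs]; linarith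
  exact det f g h hf E.ang E.anh (E.colFin isf hf) s s q hs1 hs1 hq hsq (E.e1 s hs1 hsk).1
    (E.e1 s hs1 hsk).2

theorem _root_.Crest.Agent.R257.XF_157.Exact.det_le (E : Exact f k g h) (det : DetStmt) (isf : IsoFinStmt)
    (hf : AnalyticAt ℂ f 0) : ∃ C r : ℝ, 0 < r ∧ ∀ x, ‖x‖ < r → f x = 0 →
    ‖Dt f g h x‖ ≤ C * (‖g x‖ + ‖h x‖) ^ ((2 * (k : ℝ) + 1) / k) := by
  have hkR : (2 : ℝ) ≤ k := by exact_mod_cast E.k2
  refine Exact.dom E (by linarith) (analyticAt_Dt hf E.ang E.anh) (fun h1 => ?_) fun p hp hpk => ?_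
  · linarith
  · exact E.det_mem det isf hf hp hpk

theorem Dt_zero (hI : Iso f) (g h : E3 → ℂ) : Dt f g h 0 = 0 := by
  rw [Dt_eq]
  simp [hI.crit]

theorem _root_.Crest.Agent.R257.XF_157.Exact.col_eq' (E : Exact f k g h) (cmp : CmpStmt) (mul : MulStmt) (isf : IsoFinStmt)
    (det : DetStmt) (hI : Iso f) (hpos : 0 < mstar f) :
    (col ![f, g, Dt f g h] : ℝ) = (2 * (k : ℝ) ^ 2 + k) * mstar f := by
  have hkR : (2 : ℝ) ≤ k := by exact_mod_cast E.k2
  have hk0 : (0 : ℝ) < k := by linarith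
  have hfin := E.colFin isf hI.an
  have hfin' := E.colFin' isf hI.an
  have hD := analyticAt_Dt hI.an E.ang E.anh
  have hD0 := Dt_zero hI g h
  have hcol := E.col_eq cmp isf hI hpos
  refine le_antisymm ?_ ?_
  · -- upper bound by (E3)
    obtain ⟨C, r, hr, hC⟩ := E.e3
    have hkn : k ≠ 0 := by have := E.k2; omega
    have hp := pow_both mul hI.an E.ang hD hI.zero E.g0 hD0 hfin' (a := 2 * k + 1) (b := k)
      (by omega) hkn
    set α : ℝ := 1 / ((2 * k + 1 : ℕ) : ℝ) with hα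
    have hk21 : (0 : ℝ) < ((2 * k + 1 : ℕ) : ℝ) := by positivity
    have hα0 : 0 < α := by positivity
    have e1 : ∀ x : E3, ‖(g ^ (2 * k + 1)) x‖ + ‖(Dt f g h ^ k) x‖
        = ‖g x‖ ^ (2 * k + 1) + ‖Dt f g h x‖ ^ k := by
      intro x; simp [norm_pow]
    have e2 : ∀ y : ℝ, 0 ≤ y → (y ^ (2 * k + 1)) ^ α = y := by
      intro y hy
      rw [hα, ← Real.rpow_natCast, ← Real.rpow_mul hy, mul_one_div_cancel hk21.ne', Real.rpow_one]
    have key := cmp f g h (g ^ (2 * k + 1)) (Dt f g h ^ k) hI.an E.ang E.anh (E.ang.pow _)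
      (hD.pow _) hI.zero E.g0 E.h0 (by simp [E.g0]) (by simp [hD0, hkn]) hp.1 hfin α α hα0 hα0
      ⟨max 1 ((max C 0) ^ α), r, hr, fun x hx hfx => ?_⟩
    · rw [hp.2] at key
      push_cast at key
      have e3 : α * α * ((2 * (k : ℝ) + 1) * k * (col ![f, g, Dt f g h] : ℝ))
          = k * (col ![f, g, Dt f g h] : ℝ) / (2 * (k : ℝ) + 1) := by
        rw [hα]; push_cast; field_simp
      rw [e3, hcol, div_le_iff₀ (by positivity)] at key
      have : (k : ℝ) * (col ![f, g, Dt f g h] : ℝ) ≤ k * ((2 * (k : ℝ) ^ 2 + k) * mstar f) := by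
        calc _ ≤ _ := key
          _ = _ := by ring
      exact le_of_mul_le_mul_left this hk0
    · rw [e1]
      have hS : 0 ≤ ‖g x‖ ^ (2 * k + 1) + ‖Dt f g h x‖ ^ k := by positivity
      have hSα : 0 ≤ (‖g x‖ ^ (2 * k + 1) + ‖Dt f g h x‖ ^ k) ^ α := Real.rpow_nonneg hS _
      refine ⟨?_, ?_⟩
      · calc ‖g x‖ = (‖g x‖ ^ (2 * k + 1)) ^ α := (e2 _ (norm_nonneg _)).symm
          _ ≤ (‖g x‖ ^ (2 * k + 1) + ‖Dt f g h x‖ ^ k) ^ α :=
            Real.rpow_le_rpow (by positivity) (by linarith [pow_nonneg (norm_nonneg (Dt f g h x)) k])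
              hα0.le
          _ ≤ _ := le_mul_of_one_le_left hSα (le_max_left _ _)
      · calc ‖h x‖ = (‖h x‖ ^ (2 * k + 1)) ^ α := (e2 _ (norm_nonneg _)).symm
          _ ≤ (max C 0 * (‖g x‖ ^ (2 * k + 1) + ‖Dt f g h x‖ ^ k)) ^ α := by
            refine Real.rpow_le_rpow (by positivity) ((hC x hx hfx).trans ?_) hα0.le
            exact mul_le_mul_of_nonneg_right (le_max_left _ _) hS
          _ = (max C 0) ^ α * (‖g x‖ ^ (2 * k + 1) + ‖Dt f g h x‖ ^ k) ^ α :=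
            Real.mul_rpow (le_max_right _ _) hS
          _ ≤ _ := mul_le_mul_of_nonneg_right (le_max_right _ _) hSα
  · -- lower bound by (E2)
    obtain ⟨C, r, hr, hC⟩ := E.det_le det isf hI.an
    have key := cmp f g (Dt f g h) g h hI.an E.ang hD E.ang E.anh hI.zero E.g0 hD0 E.g0 E.h0
      hfin hfin' 1 ((2 * (k : ℝ) + 1) / k) one_pos (by positivity)
      ⟨max 1 C, r, hr, fun x hx hfx => ⟨?_, ?_⟩⟩
    · rw [hcol] at key
      calc (2 * (k : ℝ) ^ 2 + k) * mstar f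
          = 1 * ((2 * (k : ℝ) + 1) / k) * ((k : ℝ) ^ 2 * mstar f) := by field_simp
        _ ≤ _ := key
    · rw [Real.rpow_one]
      have h1 : ‖g x‖ ≤ ‖g x‖ + ‖h x‖ := by linarith [norm_nonneg (h x)]
      exact h1.trans (le_mul_of_one_le_left (by positivity) (le_max_left _ _))
    · exact (hC x hx hfx).trans (mul_le_mul_of_nonneg_right (le_max_right _ _) (by positivity))

/-- `XStmt` from the existence of exact pairs -/
theorem xStmt (ep : EPStmt) (cmp : CmpStmt) (mul : MulStmt) (isf : IsoFinStmt) (det : DetStmt) :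
    XStmt := by
  intro f hI hpos
  obtain ⟨k, g, h, E⟩ := ep f hI hpos
  exact ⟨k, g, h, E.k2, E.ang, E.anh, E.e1, E.colFin isf hI.an, E.col_eq cmp isf hI hpos,
    E.colFin' isf hI.an, E.col_eq' cmp mul isf det hI hpos⟩



end Crest.Agent.R257.XFin_157
end
end

-- ▼ part R257/Cmp_157

/-!
R257 / Cmp_157: the comparison theorem for intersection numbers

`|g| ≤ C |Φ|^α`, `|h| ≤ C |Φ|^β` on `{f = 0}`, `Φ = (p, q)` ⟹ `αβ I(f,p,q) ≤ I(f,g,h)`.

Strict rational exponents; for a fixed `t ≠ 0` the homotopy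
`(f, s g^b + t p^a, s h^d + t q^c)`, `s ∈ [0,1]`, has the only zero `0`.
-/

set_option autoImplicit false

open Topology Filter MeasureTheory Set
open scoped ENNReal
open Crest.AlgGeometry.Germ

noncomputable section

namespace Crest.Agent.R257.Cmp_157

open Crest.Agent.R257.Defs_219 Crest.Agent.R257.Skel_219 Crest.Agent.R257.XF_157

/-- additivity -/
theorem mulStmt : MulStmt := by
  intro f g h h' hf hg hh hh' _ _ _ _ h1 h2
  have k1 : ColFin ![f, h, g] := (XFin_157.colFin_swap _ _ _).1 h1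
  have k2 : ColFin ![f, h', g] := (XFin_157.colFin_swap _ _ _).1 h2
  have key := CM_812.col3_mul hf hh hh' hg
  have k3 : ColFin ![f, fun x => h x * h' x, g] := key.1.2 ⟨k1, k2⟩
  have k4 := key.2 k1 k2
  have e : (h * h') = fun x => h x * h' x := rfl
  rw [e]
  refine ⟨(XFin_157.colFin_swap _ _ _).1 k3, ?_⟩
  rw [XFin_157.col_swap, k4, XFin_157.col_swap f h g, XFin_157.col_swap f h' g]

/-- finite colength ⟹ isolated common zero -/
theorem iso_of_colFin {G : Fin 3 → E3 → ℂ} (hG : ∀ j, AnalyticAt ℂ (G j) 0) (h : ColFin G) :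
    ∀ᶠ x in 𝓝 (0 : E3), (∀ j, G j x = 0) → x = 0 := by
  have h1 : ∀ᶠ q in 𝓝 ((0 : E3), (0 : ℂ)), (∀ j, G j q.1 = 0) → q.1 = 0 := by
    refine UI939.cnStmt 3 (fun j q => G j q.1) (fun j => ?_) h ?_
    · exact (hG j).comp_of_eq analyticAt_fst rfl
    · exact (Eventually.of_forall fun t => le_rfl).frequently
  have h2 : Tendsto (fun x : E3 => (x, (0 : ℂ))) (𝓝 0) (𝓝 ((0 : E3), (0 : ℂ))) :=
    (Continuous.prodMk_left (0 : ℂ)).continuousAt
  exact h2.eventually h1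

section homotopy

variable {f P Q G H : E3 → ℂ}

/-- the members of the homotopy -/
def Fm (f P Q G H : E3 → ℂ) (t s : ℂ) : Fin 3 → E3 → ℂ :=
  ![f, fun x => s * G x + t * P x, fun x => s * H x + t * Q x]

theorem an_Fm (hf : AnalyticAt ℂ f 0) (hP : AnalyticAt ℂ P 0) (hQ : AnalyticAt ℂ Q 0)
    (hG : AnalyticAt ℂ G 0) (hH : AnalyticAt ℂ H 0) (t s : ℂ) (j : Fin 3) :
    AnalyticAt ℂ (Fm f P Q G H t s j) 0 := by
  fin_cases j
  · exact hf
  · exact (analyticAt_const.mul hG).add (analyticAt_const.mul hP)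
  · exact (analyticAt_const.mul hH).add (analyticAt_const.mul hQ)

/-- constancy along the homotopy -/
theorem const_of_zeros (cne : CNEStmt) (isf : IsoFinStmt) (hf : AnalyticAt ℂ f 0)
    (hP : AnalyticAt ℂ P 0) (hQ : AnalyticAt ℂ Q 0) (hG : AnalyticAt ℂ G 0)
    (hH : AnalyticAt ℂ H 0) (t : ℂ) {R : ℝ} (hR : 1 < R)
    (hz : ∀ᶠ x in 𝓝 (0 : E3), ∀ s : ℂ, ‖s‖ < R → (∀ j, Fm f P Q G H t s j x = 0) → x = 0) :
    col (Fm f P Q G H t 0) = col (Fm f P Q G H t 1) := by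
  have hfin : ∀ s : ℂ, ‖s‖ < R → ColFin (Fm f P Q G H t s) := fun s hs =>
    isf _ (an_Fm hf hP hQ hG hH t s) (hz.mono fun x hx => hx s hs)
  have hloc : ∀ s : ℂ, ‖s‖ < R → ∀ᶠ w in 𝓝 s, col (Fm f P Q G H t w) = col (Fm f P Q G H t s) := by
    intro s hs
    set F' : Fin 3 → E3 × ℂ → ℂ := ![fun z => f z.1, fun z => (s + z.2) * G z.1 + t * P z.1,
      fun z => (s + z.2) * H z.1 + t * Q z.1] with hF'
    have e : ∀ τ : ℂ, (fun j => sl (F' j) τ) = Fm f P Q G H t (s + τ) := by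
      intro τ
      funext j
      fin_cases j <;> rfl
    have han : ∀ j, AnalyticAt ℂ (F' j) (0, 0) := by
      have a1 : ∀ {φ : E3 → ℂ}, AnalyticAt ℂ φ 0 →
          AnalyticAt ℂ (fun z : E3 × ℂ => φ z.1) (0, 0) := fun h =>
        h.comp_of_eq analyticAt_fst rfl
      have a2 : AnalyticAt ℂ (fun z : E3 × ℂ => s + z.2) (0, 0) :=
        analyticAt_const.add analyticAt_snd
      intro j
      fin_cases j
      · exact a1 hf
      · exact (a2.mul (a1 hG)).add (analyticAt_const.mul (a1 hP))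
      · exact (a2.mul (a1 hH)).add (analyticAt_const.mul (a1 hQ))
    have hball : ∀ᶠ τ in 𝓝 (0 : ℂ), ‖s + τ‖ < R := by
      have : Tendsto (fun τ : ℂ => ‖s + τ‖) (𝓝 0) (𝓝 ‖s + 0‖) :=
        ((continuous_const.add continuous_id).norm.tendsto 0)
      rw [add_zero] at this
      exact this.eventually (gt_mem_nhds hs)
    have hzero : ∀ᶠ q in 𝓝 ((0 : E3), (0 : ℂ)), (∀ j, F' j q = 0) → q.1 = 0 := by
      have h1 := hz.prod_nhds hball
      filter_upwards [h1] with q hq hj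
      refine hq.1 (s + q.2) hq.2 fun j => ?_
      have := hj j
      fin_cases j <;> exact this
    have h0 : ColFin (fun j => sl (F' j) 0) := by rw [e, add_zero]; exact hfin s hs
    have key := cne F' han h0 hzero
    have h2 : ∀ᶠ τ in 𝓝 (0 : ℂ), col (Fm f P Q G H t (s + τ)) = col (Fm f P Q G H t s) := by
      filter_upwards [key] with τ hτ
      have h3 := hτ.2
      rw [e τ, e 0, add_zero] at h3
      exact h3
    have h4 : Tendsto (fun w : ℂ => w - s) (𝓝 s) (𝓝 0) := by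
      have : Tendsto (fun w : ℂ => w - s) (𝓝 s) (𝓝 (s - s)) :=
        (continuous_id.sub continuous_const).tendsto s
      rwa [sub_self] at this
    filter_upwards [h4.eventually h2] with w hw
    rwa [add_sub_cancel] at hw
  have hcont : ContinuousOn (fun s => col (Fm f P Q G H t s)) (Metric.ball (0 : ℂ) R) := by
    intro s hs
    have hs' : ‖s‖ < R := by simpa using hs
    refine ContinuousAt.continuousWithinAt ?_
    refine (tendsto_const_nhds (x := col (Fm f P Q G H t s))).congr' ?_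
    filter_upwards [hloc s hs'] with w hw
    exact hw.symm
  have hpre : IsPreconnected (Metric.ball (0 : ℂ) R) := (convex_ball _ _).isPreconnected
  exact hpre.constant hcont (by simp; linarith) (by simpa using hR)

/-- zeros of the homotopy -/
theorem zeros_only {p q g h : E3 → ℂ} {a b c d : ℕ} (ha : 0 < a) (hc : 0 < c)
    {α β : ℝ} (hα : (a : ℝ) < b * α) (hβ : (c : ℝ) < d * β)
    (hp : AnalyticAt ℂ p 0) (hq : AnalyticAt ℂ q 0) (p0 : p 0 = 0) (q0 : q 0 = 0)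
    (hiso : ∀ᶠ x in 𝓝 (0 : E3), f x = 0 → p x = 0 → q x = 0 → x = 0)
    {C r : ℝ} (hr : 0 < r) (hb : ∀ x, ‖x‖ < r → f x = 0 →
      ‖g x‖ ≤ C * (‖p x‖ + ‖q x‖) ^ α ∧ ‖h x‖ ≤ C * (‖p x‖ + ‖q x‖) ^ β)
    {t : ℂ} (ht : t ≠ 0) (R : ℝ) :
    ∀ᶠ x in 𝓝 (0 : E3), ∀ s : ℂ, ‖s‖ < R →
      (∀ j, Fm f (fun x => p x ^ a) (fun x => q x ^ c) (fun x => g x ^ b) (fun x => h x ^ d)
        t s j x = 0) → x = 0 := by
  have ha' : (0 : ℝ) < a := by exact_mod_cast ha
  have hc' : (0 : ℝ) < c := by exact_mod_cast hc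
  have ht' : 0 < ‖t‖ := norm_pos_iff.2 ht
  set C' : ℝ := max C 0 with hC'
  have hC0 : 0 ≤ C' := le_max_right _ _
  set R' : ℝ := max R 0 with hR'
  have hR0 : 0 ≤ R' := le_max_right _ _
  set ε₁ : ℝ := b * α / a - 1 with hε₁
  set ε₂ : ℝ := d * β / c - 1 with hε₂
  have hε₁0 : 0 < ε₁ := by
    rw [hε₁, sub_pos, lt_div_iff₀ ha']; linarith
  have hε₂0 : 0 < ε₂ := by
    rw [hε₂, sub_pos, lt_div_iff₀ hc']; linarith
  set K₁ : ℝ := (R' / ‖t‖ * C' ^ b) ^ (1 / (a : ℝ)) with hK₁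
  set K₂ : ℝ := (R' / ‖t‖ * C' ^ d) ^ (1 / (c : ℝ)) with hK₂
  -- `S → 0`
  have hS : Tendsto (fun x : E3 => K₁ * (‖p x‖ + ‖q x‖) ^ ε₁ + K₂ * (‖p x‖ + ‖q x‖) ^ ε₂)
      (𝓝 0) (𝓝 0) := by
    have h1 : Tendsto (fun x : E3 => ‖p x‖ + ‖q x‖) (𝓝 0) (𝓝 0) := by
      have h0 : Tendsto (fun x : E3 => ‖p x‖ + ‖q x‖) (𝓝 0) (𝓝 (‖p 0‖ + ‖q 0‖)) :=
        hp.continuousAt.norm.tendsto.add hq.continuousAt.norm.tendsto
      simpa [p0, q0] using h0
    have h2 : ∀ {ε : ℝ}, 0 < ε → Tendsto (fun x : E3 => (‖p x‖ + ‖q x‖) ^ ε) (𝓝 0) (𝓝 0) := by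
      intro ε hε
      have := (Real.continuousAt_rpow_const 0 ε (Or.inr hε.le)).tendsto.comp h1
      simpa [Real.zero_rpow hε.ne', Function.comp_def] using this
    have := ((h2 hε₁0).const_mul K₁).add ((h2 hε₂0).const_mul K₂)
    simpa using this
  have hS1 := hS.eventually (gt_mem_nhds (zero_lt_one))
  filter_upwards [hS1, hiso, Metric.ball_mem_nhds (0 : E3) hr] with x hx1 hx2 hxr s hs hj
  have hfx : f x = 0 := hj 0
  have h1 : s * g x ^ b + t * p x ^ a = 0 := hj 1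
  have h2 : s * h x ^ d + t * q x ^ c = 0 := hj 2
  obtain ⟨hg, hh⟩ := hb x (by simpa using hxr) hfx
  set S : ℝ := ‖p x‖ + ‖q x‖ with hSd
  have hS0 : 0 ≤ S := by positivity
  by_cases hSz : S = 0
  · have hp' : ‖p x‖ = 0 := by
      have := norm_nonneg (p x); have := norm_nonneg (q x); linarith
    have hq' : ‖q x‖ = 0 := by
      have := norm_nonneg (p x); have := norm_nonneg (q x); linarith
    exact hx2 hfx (norm_eq_zero.1 hp') (norm_eq_zero.1 hq')
  have hSpos : 0 < S := lt_of_le_of_ne hS0 (Ne.symm hSz)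
  exfalso
  -- general estimate
  have est : ∀ {u v : ℂ} {m n : ℕ} {γ : ℝ}, 0 < m → s * v ^ n + t * u ^ m = 0 →
      ‖v‖ ≤ C * S ^ γ → ‖u‖ ≤ (R' / ‖t‖ * C' ^ n) ^ (1 / (m : ℝ)) * S ^ ((n : ℝ) * γ / m) := by
    intro u v m n γ hm he hv
    have hm' : (0 : ℝ) < m := by exact_mod_cast hm
    have e1 : ‖t‖ * ‖u‖ ^ m = ‖s‖ * ‖v‖ ^ n := by
      have : t * u ^ m = - (s * v ^ n) := by linear_combination he
      have := congrArg norm this
      simpa [norm_mul, norm_pow] using this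
    have e2 : ‖v‖ ^ n ≤ C' ^ n * S ^ ((n : ℝ) * γ) := by
      have h3 : ‖v‖ ≤ C' * S ^ γ :=
        hv.trans (mul_le_mul_of_nonneg_right (le_max_left _ _) (Real.rpow_nonneg hS0 _))
      calc ‖v‖ ^ n ≤ (C' * S ^ γ) ^ n := pow_le_pow_left₀ (norm_nonneg _) h3 n
        _ = C' ^ n * S ^ ((n : ℝ) * γ) := by
            rw [mul_pow, ← Real.rpow_natCast (S ^ γ) n, ← Real.rpow_mul hS0, mul_comm γ]
    have e3 : ‖u‖ ^ m ≤ R' / ‖t‖ * C' ^ n * S ^ ((n : ℝ) * γ) := by
      have h4 : ‖s‖ ≤ R' := hs.le.trans (le_max_left _ _)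
      have h5 : ‖t‖ * ‖u‖ ^ m ≤ R' * (C' ^ n * S ^ ((n : ℝ) * γ)) := by
        rw [e1]
        exact mul_le_mul h4 e2 (by positivity) hR0
      calc ‖u‖ ^ m = ‖t‖ * ‖u‖ ^ m / ‖t‖ := by field_simp
        _ ≤ R' * (C' ^ n * S ^ ((n : ℝ) * γ)) / ‖t‖ :=
            div_le_div_of_nonneg_right h5 ht'.le
        _ = _ := by ring
    have e4 : ‖u‖ = (‖u‖ ^ m) ^ (1 / (m : ℝ)) := by
      rw [← Real.rpow_natCast, ← Real.rpow_mul (norm_nonneg _), mul_one_div_cancel hm'.ne',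
        Real.rpow_one]
    rw [e4]
    calc (‖u‖ ^ m) ^ (1 / (m : ℝ)) ≤ (R' / ‖t‖ * C' ^ n * S ^ ((n : ℝ) * γ)) ^ (1 / (m : ℝ)) :=
          Real.rpow_le_rpow (by positivity) e3 (by positivity)
      _ = _ := by
          rw [Real.mul_rpow (by positivity) (Real.rpow_nonneg hS0 _), ← Real.rpow_mul hS0,
            mul_one_div]
  have u1 := est ha h1 hg
  have u2 := est hc h2 hh
  have w1 : S ^ ((b : ℝ) * α / a) = S * S ^ ε₁ := by
    have : (b : ℝ) * α / a = 1 + ε₁ := by rw [hε₁]; ring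
    rw [this, Real.rpow_add hSpos, Real.rpow_one]
  have w2 : S ^ ((d : ℝ) * β / c) = S * S ^ ε₂ := by
    have : (d : ℝ) * β / c = 1 + ε₂ := by rw [hε₂]; ring
    rw [this, Real.rpow_add hSpos, Real.rpow_one]
  rw [w1, ← hK₁] at u1
  rw [w2, ← hK₂] at u2
  have : S ≤ S * (K₁ * S ^ ε₁ + K₂ * S ^ ε₂) := by
    calc S = ‖p x‖ + ‖q x‖ := hSd
      _ ≤ K₁ * (S * S ^ ε₁) + K₂ * (S * S ^ ε₂) := add_le_add u1 u2
      _ = _ := by ring
  have h6 : S * (K₁ * S ^ ε₁ + K₂ * S ^ ε₂) < S * 1 := mul_lt_mul_of_pos_left hx1 hSpos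
  linarith

end homotopy

/-- natural exponents -/
theorem cmp_nat (cne : CNEStmt) (isf : IsoFinStmt) {f g h p q : E3 → ℂ}
    (hf : AnalyticAt ℂ f 0) (hg : AnalyticAt ℂ g 0) (hh : AnalyticAt ℂ h 0)
    (hp : AnalyticAt ℂ p 0) (hq : AnalyticAt ℂ q 0) (p0 : p 0 = 0) (q0 : q 0 = 0)
    (hpq : ColFin ![f, p, q]) (hgh : ColFin ![f, g, h]) {α β : ℝ}
    (hb : ∃ C r : ℝ, 0 < r ∧ ∀ x, ‖x‖ < r → f x = 0 →
      ‖g x‖ ≤ C * (‖p x‖ + ‖q x‖) ^ α ∧ ‖h x‖ ≤ C * (‖p x‖ + ‖q x‖) ^ β)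
    {a b c d : ℕ} (ha : 0 < a) (hb' : 0 < b) (hc : 0 < c) (hd : 0 < d)
    (hα : (a : ℝ) < b * α) (hβ : (c : ℝ) < d * β) :
    a * c * col ![f, p, q] ≤ b * d * col ![f, g, h] := by
  obtain ⟨C, r, hr, hb⟩ := hb
  set P : E3 → ℂ := fun x => p x ^ a with hP
  set Q : E3 → ℂ := fun x => q x ^ c with hQ
  set G : E3 → ℂ := fun x => g x ^ b with hG
  set H : E3 → ℂ := fun x => h x ^ d with hH
  have aP : AnalyticAt ℂ P 0 := hp.pow a
  have aQ : AnalyticAt ℂ Q 0 := hq.pow c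
  have aG : AnalyticAt ℂ G 0 := hg.pow b
  have aH : AnalyticAt ℂ H 0 := hh.pow d
  have k1 := CM_812.col3_pow hf hp hq hpq ha hc
  have k2 := CM_812.col3_pow hf hg hh hgh hb' hd
  -- upper semicontinuity in `t` at `t = 0`
  set F' : Fin 3 → E3 × ℂ → ℂ := ![fun z => f z.1, fun z => 1 * G z.1 + z.2 * P z.1,
    fun z => 1 * H z.1 + z.2 * Q z.1] with hF'
  have e : ∀ t : ℂ, (fun j => sl (F' j) t) = Fm f P Q G H t 1 := by
    intro t
    funext j
    fin_cases j <;> rfl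
  have han : ∀ j, AnalyticAt ℂ (F' j) (0, 0) := by
    have a1 : ∀ {φ : E3 → ℂ}, AnalyticAt ℂ φ 0 →
        AnalyticAt ℂ (fun z : E3 × ℂ => φ z.1) (0, 0) := fun h =>
      h.comp_of_eq analyticAt_fst rfl
    have a2 : AnalyticAt ℂ (fun z : E3 × ℂ => z.2) (0, 0) := analyticAt_snd
    intro j
    fin_cases j
    · exact a1 hf
    · exact (analyticAt_const.mul (a1 aG)).add (a2.mul (a1 aP))
    · exact (analyticAt_const.mul (a1 aH)).add (a2.mul (a1 aQ))
  have e0 : Fm f P Q G H 0 1 = ![f, G, H] := by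
    funext j
    fin_cases j
    · rfl
    · funext x; simp [Fm]
    · funext x; simp [Fm]
  have h0 : ColFin (fun j => sl (F' j) 0) := by rw [e, e0]; exact k2.1
  have husc := UI939.uscStmt 3 F' han h0
  obtain ⟨t, ht, ht0⟩ : ∃ t : ℂ, (ColFin (fun j => sl (F' j) t) ∧
      col (fun j => sl (F' j) t) ≤ col (fun j => sl (F' j) 0)) ∧ t ≠ 0 := by
    have h3 : ∀ᶠ t in 𝓝[≠] (0 : ℂ), (ColFin (fun j => sl (F' j) t) ∧
      col (fun j => sl (F' j) t) ≤ col (fun j => sl (F' j) 0)) :=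
      husc.filter_mono nhdsWithin_le_nhds
    obtain ⟨t, ht1, ht2⟩ := (h3.and self_mem_nhdsWithin).exists
    exact ⟨t, ht1, ht2⟩
  rw [e t, e 0, e0] at ht
  -- the homotopy
  have hiso : ∀ᶠ x in 𝓝 (0 : E3), f x = 0 → p x = 0 → q x = 0 → x = 0 := by
    have := iso_of_colFin (G := ![f, p, q]) (fun j => by
      fin_cases j
      · exact hf
      · exact hp
      · exact hq) hpq
    filter_upwards [this] with x hx h1 h2 h3
    refine hx fun j => ?_
    fin_cases j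
    · exact h1
    · exact h2
    · exact h3
  have hz := zeros_only (f := f) (g := g) (h := h) ha hc hα hβ hp hq p0 q0 hiso hr hb ht0 2
  have hconst := const_of_zeros cne isf hf aP aQ aG aH t (R := 2) (by norm_num) hz
  -- `s = 0`
  have e1 : gens (Fm f P Q G H t 0) = gens ![f, P, Q] := by
    refine le_antisymm (gens_le fun j => ?_) (gens_le fun j => ?_)
    · refine ⟨fun i => if i = j then (fun _ => if j = 0 then 1 else t) else fun _ => 0,
        fun i => ?_, ?_⟩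
      · dsimp only; split_ifs <;> exact analyticAt_const
      · refine Eventually.of_forall fun x => ?_
        dsimp only
        rw [Finset.sum_eq_single j (fun b _ hb => by simp [hb])
          (fun h' => absurd (Finset.mem_univ j) h')]
        fin_cases j <;> simp [Fm]
    · refine ⟨fun i => if i = j then (fun _ => if j = 0 then 1 else t⁻¹) else fun _ => 0,
        fun i => ?_, ?_⟩
      · dsimp only; split_ifs <;> exact analyticAt_const
      · refine Eventually.of_forall fun x => ?_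
        dsimp only
        rw [Finset.sum_eq_single j (fun b _ hb => by simp [hb])
          (fun h' => absurd (Finset.mem_univ j) h')]
        fin_cases j <;> simp [Fm, ht0]
  have h5 : col (Fm f P Q G H t 0) = a * c * col ![f, p, q] := by
    rw [col_congr e1]; exact k1.2
  rw [← h5, hconst]
  exact ht.2.trans (le_of_eq k2.2)

/-- **the comparison theorem** -/
theorem cmp_of (cne : CNEStmt) (isf : IsoFinStmt) : CmpStmt := by
  intro f g h p q hf hg hh hp hq _ _ _ p0 q0 hpq hgh α β hα hβ hb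
  -- rational exponents
  have key : ∀ x y : ℚ, 0 < x → 0 < y → (x : ℝ) < α → (y : ℝ) < β →
      (x : ℝ) * y * (col ![f, p, q] : ℝ) ≤ (col ![f, g, h] : ℝ) := by
    intro x y hx hy hxα hyβ
    have hxn : 0 < x.num.toNat := by
      have := Rat.num_pos.2 hx; omega
    have hyn : 0 < y.num.toNat := by
      have := Rat.num_pos.2 hy; omega
    have ex : (x : ℝ) = (x.num.toNat : ℝ) / (x.den : ℝ) := by
      have h1 : ((x.num.toNat : ℤ) : ℝ) = (x.num : ℝ) := by
        rw [Int.toNat_of_nonneg (Rat.num_pos.2 hx).le]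
      rw [Int.cast_natCast] at h1
      rw [h1]
      exact Rat.cast_def x
    have ey : (y : ℝ) = (y.num.toNat : ℝ) / (y.den : ℝ) := by
      have h1 : ((y.num.toNat : ℤ) : ℝ) = (y.num : ℝ) := by
        rw [Int.toNat_of_nonneg (Rat.num_pos.2 hy).le]
      rw [Int.cast_natCast] at h1
      rw [h1]
      exact Rat.cast_def y
    have hxd : (0 : ℝ) < x.den := by exact_mod_cast x.den_pos
    have hyd : (0 : ℝ) < y.den := by exact_mod_cast y.den_pos
    have h1 : (x.num.toNat : ℝ) < x.den * α := by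
      rw [ex, div_lt_iff₀ hxd] at hxα; linarith
    have h2 : (y.num.toNat : ℝ) < y.den * β := by
      rw [ey, div_lt_iff₀ hyd] at hyβ; linarith
    have h3 := cmp_nat cne isf hf hg hh hp hq p0 q0 hpq hgh hb hxn x.den_pos hyn y.den_pos h1 h2
    have h4 : (x.num.toNat : ℝ) * y.num.toNat * (col ![f, p, q] : ℝ)
        ≤ x.den * y.den * (col ![f, g, h] : ℝ) := by exact_mod_cast h3
    rw [ex, ey, div_mul_div_comm, div_mul_eq_mul_div, div_le_iff₀ (by positivity)]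
    linarith
  -- limit
  have lim : Tendsto (fun θ : ℝ => θ * α * (θ * β) * (col ![f, p, q] : ℝ)) (𝓝[<] 1)
      (𝓝 (1 * α * (1 * β) * (col ![f, p, q] : ℝ))) := by
    refine Tendsto.mono_left ?_ nhdsWithin_le_nhds
    exact (Continuous.tendsto (by fun_prop) _)
  have hev : ∀ᶠ θ : ℝ in 𝓝[<] 1, θ * α * (θ * β) * (col ![f, p, q] : ℝ) ≤ (col ![f, g, h] : ℝ) := by
    have h3 : ∀ᶠ θ in 𝓝[<] (1 : ℝ), (0 : ℝ) < θ :=
      (eventually_nhdsWithin_of_eventually_nhds (lt_mem_nhds one_pos))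
    filter_upwards [h3, self_mem_nhdsWithin] with θ hθ hθ1
    have hθ1' : θ < 1 := hθ1
    obtain ⟨x, hx1, hx2⟩ := exists_rat_btwn (show θ * α < α by nlinarith)
    obtain ⟨y, hy1, hy2⟩ := exists_rat_btwn (show θ * β < β by nlinarith)
    have hx0 : (0 : ℝ) < x := lt_trans (by positivity) hx1
    have hy0 : (0 : ℝ) < y := lt_trans (by positivity) hy1
    refine le_trans ?_ (key x y (by exact_mod_cast hx0) (by exact_mod_cast hy0) hx2 hy2)
    refine mul_le_mul_of_nonneg_right ?_ (Nat.cast_nonneg _)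
    exact mul_le_mul hx1.le hy1.le (by positivity) hx0.le
  have := le_of_tendsto lim hev
  simpa using this

/-- `XStmt` from exact pairs, conservation of number, the Nullstellensatz and `DetStmt` -/
theorem xStmt_of (ep : EPStmt) (cne : CNEStmt) (isf : IsoFinStmt) (det : DetStmt) : XStmt :=
  XFin_157.xStmt ep (cmp_of cne isf) mulStmt isf det


end Crest.Agent.R257.Cmp_157
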