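import Mathlib
import Crest.Agent.R257.Uni2_554
import Crest.Agent.R257.CNS_939

-- ▼ part R257/NS0a_554
section

/-!
Row 257 (S0395), leaf NS0, part a (helper554): the norm of a generic combination of polynomials
modulo a monic polynomial.
-/

set_option autoImplicit false

open Polynomial

noncomputable section

namespace Crest.Agent.R257.NS0554

/-- matrix of multiplication by `g` modulo `p` in the basis `1, X, …, X^(d-1)` -/
def mulMat {S : Type*} [CommRing S] (p g : S[X]) (d : ℕ) : Matrix (Fin d) (Fin d) S :=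
  Matrix.of fun a b => ((X ^ (b : ℕ) * g) %ₘ p).coeff a

lemma mulMat_map {S T : Type*} [CommRing S] [CommRing T] (f : S →+* T) {p g : S[X]}
    (hp : p.Monic) (d : ℕ) :
    (mulMat p g d).map f = mulMat (p.map f) (g.map f) d := by
  ext a b
  rw [Matrix.map_apply, mulMat, mulMat, Matrix.of_apply, Matrix.of_apply, ← coeff_map,
    map_modByMonic f hp, Polynomial.map_mul, Polynomial.map_pow, map_X]

lemma natDegree_lt_iff_degree_lt_aux {S : Type*} [CommRing S] {q : S[X]} {d : ℕ} (h0 : d ≠ 0) :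
    q.degree < d ↔ q.natDegree < d := by
  by_cases hq : q = 0
  · subst hq
    simp only [degree_zero, natDegree_zero]
    exact ⟨fun _ => Nat.pos_of_ne_zero h0, fun _ => WithBot.bot_lt_coe d⟩
  · exact (natDegree_lt_iff_degree_lt hq).symm


/-- the defining relation -/
lemma mulMat_spec {S : Type*} [CommRing S] [Nontrivial S] {p g : S[X]} (hp : p.Monic) {d : ℕ}
    (hd : p.natDegree = d) (b : Fin d) :
    ∃ q : S[X], X ^ (b : ℕ) * g = p * q + ∑ a : Fin d, C (mulMat p g d a b) * X ^ (a : ℕ) := by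
  refine ⟨(X ^ (b : ℕ) * g) /ₘ p, ?_⟩
  have h1 := modByMonic_add_div (X ^ (b : ℕ) * g) p
  have h2 : (X ^ (b : ℕ) * g) %ₘ p =
      ∑ a : Fin d, C (mulMat p g d a b) * X ^ (a : ℕ) := by
    have hdeg : ((X ^ (b : ℕ) * g) %ₘ p).degree < d := by
      have := degree_modByMonic_lt (X ^ (b : ℕ) * g) hp
      rwa [degree_eq_natDegree hp.ne_zero, hd] at this
    by_cases h0 : d = 0
    · subst h0
      have : (X ^ (b : ℕ) * g) %ₘ p = 0 := by
        rw [← degree_eq_bot]
        by_contra hne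
        rw [degree_eq_natDegree (fun h => hne (by rw [h, degree_zero]))] at hdeg
        norm_cast at hdeg
      rw [this]; simp
    · have hnd : ((X ^ (b : ℕ) * g) %ₘ p).natDegree < d := by
        rw [← natDegree_lt_iff_degree_lt_aux h0]
        exact hdeg
      conv_lhs => rw [as_sum_range' _ d hnd]
      rw [Finset.sum_range]
      refine Finset.sum_congr rfl (fun a _ => ?_)
      rw [← C_mul_X_pow_eq_monomial]
      rfl
  rw [← h2]
  conv_lhs => rw [← h1]
  ring

/-- the norm lies in the ideal -/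
lemma det_mem {S B : Type*} [CommRing S] [Nontrivial S] [CommRing B] (φ : S[X] →+* B)
    (I : Ideal B) {p g : S[X]} (hp : p.Monic) {d : ℕ} (hd : p.natDegree = d)
    (hpI : φ p ∈ I) (hgI : φ g ∈ I) : φ (C (mulMat p g d).det) ∈ I := by
  set π := (Ideal.Quotient.mk I).comp φ with hπ
  have hπp : π p = 0 := Ideal.Quotient.eq_zero_iff_mem.2 hpI
  have hπg : π g = 0 := Ideal.Quotient.eq_zero_iff_mem.2 hgI
  suffices h : π (C (mulMat p g d).det) = 0 from Ideal.Quotient.eq_zero_iff_mem.1 h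
  rcases Nat.eq_zero_or_pos d with rfl | hd0
  · have : p = 1 := hp.natDegree_eq_zero.1 hd
    rw [this, map_one] at hπp
    have h2 : ∀ x : B ⧸ I, x = 0 := fun x => by rw [← one_mul x, hπp, zero_mul]
    exact h2 _
  -- the vector of powers
  set ψ : S →+* B ⧸ I := π.comp C with hψ
  set w : Fin d → B ⧸ I := fun a => π X ^ (a : ℕ) with hw
  have h1 : Matrix.vecMul w ((mulMat p g d).map ψ) = 0 := by
    funext b
    obtain ⟨q, hq⟩ := mulMat_spec (g := g) hp hd b
    have h3 := congrArg π hq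
    rw [map_mul, map_add, map_mul, hπp, hπg, mul_zero, zero_mul, zero_add, map_sum] at h3
    rw [Pi.zero_apply, h3, Matrix.vecMul, dotProduct]
    refine Finset.sum_congr rfl (fun a _ => ?_)
    rw [map_mul, map_pow, Matrix.map_apply, mul_comm]
    rfl
  have h2 : Matrix.vecMul w (((mulMat p g d).map ψ) * ((mulMat p g d).map ψ).adjugate) = 0 := by
    rw [← Matrix.vecMul_vecMul, h1, Matrix.zero_vecMul]
  rw [Matrix.mul_adjugate, Matrix.vecMul_smul, Matrix.vecMul_one] at h2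
  have h3 := congrFun h2 ⟨0, hd0⟩
  rw [Pi.smul_apply, Pi.zero_apply, smul_eq_mul] at h3
  have h4 : w ⟨0, hd0⟩ = 1 := by simp [hw]
  rw [h4, mul_one] at h3
  have h5 : ((mulMat p g d).map ψ).det = ψ (mulMat p g d).det := (RingHom.map_det ψ _).symm
  rw [h5] at h3
  exact h3

section field

variable {p : ℂ[X]} {d : ℕ}

/-- the norm of a polynomial without zero on the roots is nonzero -/
lemma det_ne_zero (hp : p.Monic) (hd : p.natDegree = d) {g : ℂ[X]}
    (hg : ∀ w, p.IsRoot w → g.eval w ≠ 0) : (mulMat p g d).det ≠ 0 := by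
  intro h0
  obtain ⟨c, hc, hc0⟩ := Matrix.exists_mulVec_eq_zero_iff.2 h0
  set h : ℂ[X] := ∑ b : Fin d, C (c b) * X ^ (b : ℕ) with hh
  have h1 : p ∣ h * g := by
    rw [← modByMonic_eq_zero_iff_dvd hp]
    have h2 : (h * g) %ₘ p = ∑ b : Fin d, c b • ((X ^ (b : ℕ) * g) %ₘ p) := by
      have h2 : ∀ q : ℂ[X], q %ₘ p = modByMonicHom p q := fun q => rfl
      rw [h2, hh, Finset.sum_mul, map_sum]
      refine Finset.sum_congr rfl (fun b _ => ?_)
      have h3 : C (c b) * X ^ (b : ℕ) * g = c b • (X ^ (b : ℕ) * g) := by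
        rw [smul_eq_C_mul]; ring
      rw [h3, map_smul]
      rfl
    rw [h2]
    ext a
    rw [finsetSum_coeff, coeff_zero]
    by_cases ha : a < d
    · have h3 := congrFun hc0 ⟨a, ha⟩
      rw [Matrix.mulVec, dotProduct, Pi.zero_apply] at h3
      rw [← h3]
      refine Finset.sum_congr rfl (fun b _ => ?_)
      rw [coeff_smul, smul_eq_mul, mul_comm]
      rfl
    · refine Finset.sum_eq_zero (fun b _ => ?_)
      rw [coeff_smul, smul_eq_mul, coeff_eq_zero_of_degree_lt, mul_zero]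
      have := degree_modByMonic_lt (X ^ (b : ℕ) * g) hp
      rw [degree_eq_natDegree hp.ne_zero, hd] at this
      refine this.trans_le ?_
      exact_mod_cast not_lt.1 ha
  have hcop : IsCoprime p g := by
    rw [← EuclideanDomain.gcd_isUnit_iff]
    by_contra hu
    have hdeg : (EuclideanDomain.gcd p g).degree ≠ 0 := by
      intro hz
      refine hu (isUnit_iff_degree_eq_zero.2 hz)
    obtain ⟨w, hw⟩ := IsAlgClosed.exists_root _ hdeg
    have hw1 : p.IsRoot w := hw.dvd (EuclideanDomain.gcd_dvd_left p g)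
    have hw2 : g.IsRoot w := hw.dvd (EuclideanDomain.gcd_dvd_right p g)
    exact hg w hw1 hw2
  have h4 : p ∣ h := hcop.dvd_of_dvd_mul_right h1
  have h5 : h = 0 := by
    by_contra hne
    have h6 := degree_le_of_dvd h4 hne
    have h7 : h.degree < d := by
      refine (degree_sum_le _ _).trans_lt ?_
      rw [Finset.sup_lt_iff (by exact WithBot.bot_lt_coe d)]
      intro b _
      refine (degree_C_mul_X_pow_le _ _).trans_lt ?_
      exact_mod_cast b.2
    rw [degree_eq_natDegree hp.ne_zero, hd] at h6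
    exact absurd h7 (not_lt.2 h6)
  refine hc ?_
  funext b
  have h8 := congrArg (fun q => q.coeff (b : ℕ)) h5
  simp only [hh, finsetSum_coeff, coeff_C_mul, coeff_X_pow, coeff_zero] at h8
  rw [Finset.sum_eq_single b] at h8
  · simpa using h8
  · intro b' _ hb'
    rw [if_neg (fun h => hb' (Fin.ext h.symm)), mul_zero]
  · intro h; exact absurd (Finset.mem_univ b) h

/-- a combination with no common zero -/
lemma exists_comb (hp : p.Monic) (hd : p.natDegree = d) {m : ℕ} (r : Fin m → ℂ[X])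
    (hr : ∀ w, p.IsRoot w → ∃ j, (r j).eval w ≠ 0) :
    ∃ s ∈ Finset.range (d * m + 1), ∀ w, p.IsRoot w →
      (∑ j : Fin m, C ((s : ℂ) ^ (j : ℕ)) * r j).eval w ≠ 0 := by
  classical
  set T : ℂ → ℂ[X] := fun w => ∑ j : Fin m, C ((r j).eval w) * X ^ (j : ℕ) with hT
  have hT0 : ∀ w, p.IsRoot w → T w ≠ 0 := by
    intro w hw h0
    obtain ⟨j, hj⟩ := hr w hw
    refine hj ?_
    have h8 := congrArg (fun q => q.coeff (j : ℕ)) h0
    simp only [hT, finsetSum_coeff, coeff_C_mul, coeff_X_pow, coeff_zero] at h8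
    rw [Finset.sum_eq_single j] at h8
    · simpa using h8
    · intro b' _ hb'
      rw [if_neg (fun h => hb' (Fin.ext h.symm)), mul_zero]
    · intro h; exact absurd (Finset.mem_univ j) h
  have hTd : ∀ w, (T w).natDegree ≤ m := by
    intro w
    refine natDegree_sum_le_of_forall_le _ _ (fun j _ => ?_)
    exact (natDegree_C_mul_X_pow_le _ _).trans j.2.le
  set Q : ℂ[X] := ∏ w ∈ p.roots.toFinset, T w with hQ
  have hQ0 : Q ≠ 0 := by
    rw [hQ, Finset.prod_ne_zero_iff]
    intro w hw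
    refine hT0 w ?_
    rw [Multiset.mem_toFinset, mem_roots hp.ne_zero] at hw
    exact hw
  have hQd : Q.natDegree ≤ d * m := by
    rw [hQ]
    refine (natDegree_prod_le _ _).trans ?_
    refine (Finset.sum_le_card_nsmul _ _ m (fun w _ => hTd w)).trans ?_
    rw [smul_eq_mul]
    refine Nat.mul_le_mul_right _ ?_
    refine (Multiset.toFinset_card_le _).trans ?_
    rw [← hd]
    exact card_roots' p
  obtain ⟨s, hs, hsQ⟩ : ∃ s ∈ Finset.range (d * m + 1), Q.eval (s : ℂ) ≠ 0 := by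
    by_contra hcon
    push Not at hcon
    refine hQ0 (eq_zero_of_natDegree_lt_card_of_eval_eq_zero' Q
      ((Finset.range (d * m + 1)).image (fun s : ℕ => (s : ℂ))) ?_ ?_)
    · intro z hz
      obtain ⟨s, hs, rfl⟩ := Finset.mem_image.1 hz
      exact hcon s hs
    · rw [Finset.card_image_of_injective _ Nat.cast_injective, Finset.card_range]
      omega
  refine ⟨s, hs, fun w hw => ?_⟩
  rw [hQ, eval_prod, Finset.prod_ne_zero_iff] at hsQ
  have h9 := hsQ w (by rw [Multiset.mem_toFinset, mem_roots hp.ne_zero]; exact hw)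
  simp only [hT, eval_finsetSum, eval_mul, eval_C, eval_pow, eval_X] at h9
  simp only [eval_finsetSum, eval_mul, eval_C]
  intro h10
  refine h9 ?_
  rw [← h10]
  exact Finset.sum_congr rfl (fun j _ => by ring)

/-- if all the norms vanish, there is a common root -/
theorem common_root (hp : p.Monic) (hd : p.natDegree = d) {m : ℕ} (r : Fin m → ℂ[X])
    (h : ∀ s ∈ Finset.range (d * m + 1),
      (mulMat p (∑ j : Fin m, C ((s : ℂ) ^ (j : ℕ)) * r j) d).det = 0) :
    ∃ w, p.IsRoot w ∧ ∀ j, (r j).eval w = 0 := by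
  by_contra hcon
  push Not at hcon
  obtain ⟨s, hs, hs'⟩ := exists_comb hp hd r hcon
  exact det_ne_zero hp hd hs' (h s hs)

end field

end Crest.Agent.R257.NS0554
end
end

-- ▼ part R257/NS0b_554
section

/-!
Row 257 (S0395), leaf NS0, part b (helper554): elimination of one variable. Germs with an isolated
common zero in `E × ℂ`, one of them regular in the last variable, have norms in the base ring with
an isolated common zero.
-/

set_option autoImplicit false

open Set Filter Topology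
open Crest.Agent.R275.Loc2879
open scoped Polynomial

noncomputable section

namespace Crest.Agent.R257.NS0554

universe u

variable {E : Type u} [NormedAddCommGroup E] [NormedSpace ℂ E]

/-- functions analytic at `z₀` -/
def SS (z₀ : E) : Subring (E → ℂ) where
  carrier := {f | AnalyticAt ℂ f z₀}
  mul_mem' := fun hf hg => AnalyticAt.mul hf hg
  one_mem' := analyticAt_const
  add_mem' := fun hf hg => AnalyticAt.add hf hg
  zero_mem' := analyticAt_const
  neg_mem' := fun hf => AnalyticAt.neg hf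

/-- the germ -/
def toO (z₀ : E) : SS z₀ →+* OO z₀ where
  toFun f := gm f.1 f.2
  map_one' := rfl
  map_mul' _ _ := rfl
  map_zero' := rfl
  map_add' _ _ := rfl

lemma toO_surj (z₀ : E) : Function.Surjective (toO z₀) := by
  intro x
  obtain ⟨f, hf, rfl⟩ := exists_gm x
  exact ⟨⟨f, hf⟩, rfl⟩

/-- the value -/
def evy (z₀ : E) (y : E) : SS z₀ →+* ℂ where
  toFun f := f.1 y
  map_one' := rfl
  map_mul' _ _ := rfl
  map_zero' := rfl
  map_add' _ _ := rfl

instance (z₀ : E) : Nontrivial (SS z₀) := (evy z₀ z₀).domain_nontrivial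

variable {z₀ : E}

lemma ev_toO (Q : (SS z₀)[X]) :
    ∃ h, ev z₀ (Q.map (toO z₀)) =
      gm (p := ((z₀, (0 : ℂ)) : E × ℂ)) (fun p => (Q.map (evy z₀ p.1)).eval p.2) h := by
  induction Q using Polynomial.induction_on' with
  | add p q hp hq =>
    obtain ⟨h1, e1⟩ := hp
    obtain ⟨h2, e2⟩ := hq
    refine ⟨by simpa using h1.fun_add h2, ?_⟩
    rw [Polynomial.map_add, map_add, e1, e2, gm_add, gm_eq_gm]
    exact Eventually.of_forall (fun p => by simp)
  | monomial n a =>
    have h1 : AnalyticAt ℂ (fun p : E × ℂ => a.1 p.1 * p.2 ^ n) (z₀, 0) := by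
      have h2 : AnalyticAt ℂ (fun p : E × ℂ => a.1 p.1) (z₀, 0) :=
        AnalyticAt.comp (g := a.1) (f := Prod.fst) a.2 analyticAt_fst
      exact h2.mul (analyticAt_snd.pow n)
    have e0 : (fun p : E × ℂ => ((Polynomial.monomial n a).map (evy z₀ p.1)).eval p.2) =
        fun p => a.1 p.1 * p.2 ^ n := by
      funext p
      rw [Polynomial.map_monomial, Polynomial.eval_monomial]
      rfl
    refine ⟨by rw [e0]; exact h1, ?_⟩
    rw [Polynomial.map_monomial, ← Polynomial.C_mul_X_pow_eq_monomial, map_mul, map_pow]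
    have e1 : ev z₀ (Polynomial.C (toO z₀ a)) = iot z₀ (toO z₀ a) := by
      simp [ev]
    have e2 : ev z₀ Polynomial.X = Wv z₀ := by simp [ev]
    rw [e1, e2]
    have e3 : iot z₀ (toO z₀ a) * Wv z₀ ^ n = gm (p := ((z₀, (0 : ℂ)) : E × ℂ))
      (fun p => a.1 p.1 * p.2 ^ n) h1 := by
      rw [Wv, gm_pow]
      rfl
    rw [e3, gm_eq_gm]
    exact Eventually.of_forall (fun p => (congrFun e0 p).symm)

/-- the roots tend to zero -/
lemma roots_small {P : (SS z₀)[X]} (hP : P.Monic) {d : ℕ} (hd : P.natDegree = d)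
    (h0 : ∀ i < d, (P.coeff i).1 z₀ = 0) {ρ : ℝ} (hρ : 0 < ρ) :
    ∀ᶠ y in 𝓝 z₀, ∀ w, (P.map (evy z₀ y)).IsRoot w → ‖w‖ < ρ := by
  have h1 : ∀ᶠ y in 𝓝 z₀, ∀ i ∈ Finset.range d, ‖(P.coeff i).1 y‖ < ρ ^ (d - i) / (d + 1) := by
    rw [Filter.eventually_all_finset]
    intro i hi
    have hc : ContinuousAt (fun y => ‖(P.coeff i).1 y‖) z₀ := (P.coeff i).2.continuousAt.norm
    refine hc.eventually_lt continuousAt_const ?_
    rw [h0 i (Finset.mem_range.1 hi), norm_zero]
    positivity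
  filter_upwards [h1] with y hy w hw
  by_contra hcon
  push Not at hcon
  have hw0 : 0 < ‖w‖ := hρ.trans_le hcon
  have hPy : (P.map (evy z₀ y)).Monic := hP.map _
  have hdy : (P.map (evy z₀ y)).natDegree = d := by rw [hP.natDegree_map, hd]
  have h2 : w ^ d = -∑ i ∈ Finset.range d, (P.coeff i).1 y * w ^ i := by
    have h3 : (P.map (evy z₀ y)).eval w = 0 := hw
    rw [Polynomial.eval_eq_sum_range, hdy, Finset.sum_range_succ] at h3
    have h4 : (P.map (evy z₀ y)).coeff d = 1 := by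
      rw [← hdy]; exact hPy.coeff_natDegree
    rw [h4, one_mul] at h3
    have h5 : ∀ i, (P.map (evy z₀ y)).coeff i = (P.coeff i).1 y := fun i => by
      rw [Polynomial.coeff_map]; rfl
    simp only [h5] at h3
    linear_combination h3
  have h6 : ‖w‖ ^ d ≤ ∑ i ∈ Finset.range d, ‖w‖ ^ d / (d + 1) := by
    have h60 : ‖w‖ ^ d ≤ ∑ i ∈ Finset.range d, ‖(P.coeff i).1 y * w ^ i‖ := by
      rw [← norm_pow, h2, norm_neg]
      exact norm_sum_le _ _
    refine h60.trans (Finset.sum_le_sum (fun i hi => ?_))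
    have hid : i < d := Finset.mem_range.1 hi
    rw [norm_mul, norm_pow]
    have h7 : ρ ^ (d - i) ≤ ‖w‖ ^ (d - i) := pow_le_pow_left₀ hρ.le hcon _
    have h8 : ‖w‖ ^ d = ‖w‖ ^ (d - i) * ‖w‖ ^ i := by
      rw [← pow_add, Nat.sub_add_cancel hid.le]
    calc ‖(P.coeff i).1 y‖ * ‖w‖ ^ i ≤ ρ ^ (d - i) / (d + 1) * ‖w‖ ^ i :=
          mul_le_mul_of_nonneg_right (hy i hi).le (by positivity)
      _ ≤ ‖w‖ ^ (d - i) / (d + 1) * ‖w‖ ^ i := by gcongr
      _ = ‖w‖ ^ d / (d + 1) := by rw [h8]; ring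
  rw [Finset.sum_const, Finset.card_range, nsmul_eq_mul] at h6
  have h9 : 0 < ‖w‖ ^ d := by positivity
  have h10 : (d : ℝ) * (‖w‖ ^ d / (d + 1)) < ‖w‖ ^ d := by
    rw [← mul_div_assoc, div_lt_iff₀ (by positivity)]
    nlinarith
  linarith

/-- **elimination** -/
theorem elim (I : Ideal (OO ((z₀, (0 : ℂ)) : E × ℂ))) {f : OO ((z₀, (0 : ℂ)) : E × ℂ)}
    [FiniteDimensional ℂ E] (hf : f ∈ I) {d : ℕ} (hreg : Reg f d) {m : ℕ}
    (G : Fin m → E × ℂ → ℂ) (hG : ∀ j, AnalyticAt ℂ (G j) (z₀, 0))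
    (hGI : ∀ j, gm (G j) (hG j) ∈ I)
    (hiso : ∀ᶠ p in 𝓝 ((z₀, 0) : E × ℂ), (∀ j, G j p = 0) → p = (z₀, 0)) :
    ∃ (M : ℕ) (D : Fin M → E → ℂ) (hD : ∀ s, AnalyticAt ℂ (D s) z₀),
      (∀ s, iot z₀ (gm (D s) (hD s)) ∈ I) ∧
      ∀ᶠ y in 𝓝 z₀, (∀ s, D s y = 0) → y = z₀ := by
  obtain ⟨P, u, hPm, hPd, hfP, hPc⟩ := wprep hreg
  have hPI : ev z₀ P ∈ I := by
    have : ev z₀ P = (u⁻¹ : (OO ((z₀, (0 : ℂ)) : E × ℂ))ˣ) * f := by
      rw [hfP, ← mul_assoc, Units.inv_mul, one_mul]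
    rw [this]
    exact I.mul_mem_left _ hf
  have hregP : Reg (ev z₀ P) d := by
    rw [hfP] at hreg
    exact Reg.of_unit_mul' u hreg
  -- lifts
  obtain ⟨P', hP', hPd', hPm'⟩ := Polynomial.lifts_and_natDegree_eq_and_monic
    (f := toO z₀) (p := P) ((Polynomial.mem_lifts P).2 (Polynomial.map_surjective _ (toO_surj z₀) P))
    hPm
  rw [hPd] at hPd'
  choose q r hr hGr using fun j => div_exists_poly hregP (gm (G j) (hG j))
  choose r' hr' using fun j => Polynomial.map_surjective _ (toO_surj z₀) (r j)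
  set g : ℕ → (SS z₀)[X] := fun s => ∑ j : Fin m, Polynomial.C ((s : SS z₀) ^ (j : ℕ)) * r' j
    with hg
  set φ : (SS z₀)[X] →+* OO ((z₀, (0 : ℂ)) : E × ℂ) :=
    (ev z₀).comp (Polynomial.mapRingHom (toO z₀)) with hφ
  have hφP : φ P' ∈ I := by
    change ev z₀ (P'.map (toO z₀)) ∈ I
    rw [hP']; exact hPI
  have hφr : ∀ j, φ (r' j) ∈ I := by
    intro j
    change ev z₀ ((r' j).map (toO z₀)) ∈ I
    rw [hr']
    have h1 : ev z₀ (r j) = gm (G j) (hG j) - q j * ev z₀ P := by rw [hGr j]; ring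
    rw [h1]
    exact I.sub_mem (hGI j) (I.mul_mem_left _ hPI)
  have hφg : ∀ s, φ (g s) ∈ I := by
    intro s
    rw [hg, map_sum]
    refine Ideal.sum_mem _ (fun j _ => ?_)
    rw [map_mul]
    exact I.mul_mem_left _ (hφr j)
  refine ⟨d * m + 1, fun s => ((mulMat P' (g s) d).det : SS z₀).1,
    fun s => ((mulMat P' (g s) d).det : SS z₀).2, fun s => ?_, ?_⟩
  · have h1 := det_mem φ I hPm' hPd' hφP (hφg s)
    have h2 : φ (Polynomial.C (mulMat P' (g s) d).det) =
        iot z₀ (toO z₀ (mulMat P' (g s) d).det) := by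
      change ev z₀ ((Polynomial.C (mulMat P' (g s) d).det).map (toO z₀)) = _
      rw [Polynomial.map_C]
      simp [ev]
    rw [h2] at h1
    exact h1
  -- the relations as functions
  have hrel : ∀ᶠ p in 𝓝 ((z₀, 0) : E × ℂ), ∀ j, (P'.map (evy z₀ p.1)).eval p.2 = 0 →
      ((r' j).map (evy z₀ p.1)).eval p.2 = 0 → G j p = 0 := by
    rw [Filter.eventually_all]
    intro j
    obtain ⟨Q, hQ, hQq⟩ := exists_gm (q j)
    obtain ⟨a1, e1⟩ := ev_toO P'
    obtain ⟨a2, e2⟩ := ev_toO (r' j)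
    have h1 := hGr j
    rw [← hr' j, e2, ← hP', e1, ← hQq, gm_mul, gm_add, gm_eq_gm] at h1
    filter_upwards [h1] with p hp h2 h3
    rw [hp]
    simp only [Pi.add_apply, Pi.mul_apply, h2, h3, mul_zero, add_zero]
  have hall := hiso.and hrel
  rw [nhds_prod_eq] at hall
  obtain ⟨pa, hpa, pb, hpb, hab⟩ := Filter.eventually_prod_iff.1 hall
  obtain ⟨ρ, hρ, hρb⟩ := Metric.eventually_nhds_iff.1 hpb
  have h0 : ∀ i < d, (P'.coeff i).1 z₀ = 0 := by
    intro i hi
    have h1 := hPc i hi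
    rw [← hP', Polynomial.coeff_map] at h1
    exact h1
  filter_upwards [hpa, roots_small hPm' hPd' h0 hρ] with y hy hroots hD
  obtain ⟨w, hw, hwr⟩ := common_root (p := P'.map (evy z₀ y)) (d := d) (hPm'.map _)
    (by rw [hPm'.natDegree_map, hPd']) (fun j => (r' j).map (evy z₀ y)) (by
      intro s hs
      have h1 : (evy z₀ y) (mulMat P' (g s) d).det = 0 := hD ⟨s, Finset.mem_range.1 hs⟩
      rw [RingHom.map_det] at h1
      have h2 : (evy z₀ y).mapMatrix (mulMat P' (g s) d) =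
          mulMat (P'.map (evy z₀ y)) ((g s).map (evy z₀ y)) d := mulMat_map _ hPm' d
      rw [h2] at h1
      have h3 : (g s).map (evy z₀ y) =
          ∑ j : Fin m, Polynomial.C ((s : ℂ) ^ (j : ℕ)) * (r' j).map (evy z₀ y) := by
        rw [hg, Polynomial.map_sum]
        refine Finset.sum_congr rfl (fun j _ => ?_)
        rw [Polynomial.map_mul, Polynomial.map_C, map_pow, map_natCast]
      rw [h3] at h1
      exact h1)
  have h4 := hroots w hw
  obtain ⟨h5, h6⟩ := hab hy (hρb (y := w) (by rw [dist_zero_right]; exact h4))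
  have h7 := h5 (fun j => h6 j hw (hwr j))
  exact congrArg Prod.fst h7

end Crest.Agent.R257.NS0554
end
end

-- ▼ part R257/NS0c_554

/-!
Row 257 (S0395), leaf NS0, part c (helper554): a common zero is isolated iff the quotient of the
ring of germs is finite-dimensional (Rückert's Nullstellensatz for points).
-/

set_option autoImplicit false

open Set Filter Topology
open Crest.Agent.R275.Loc2879
open scoped Polynomial

noncomputable section

namespace Crest.Agent.R257.NS0554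

open Crest.Agent.R257.Uni554 Crest.Agent.R257.Defs_219

universe u v

/-- the ideal contains finitely many functions with isolated common zero `p` -/
def Isol {E : Type u} [NormedAddCommGroup E] [NormedSpace ℂ E] (p : E) (I : Ideal (OO p)) : Prop :=
  ∃ (m : ℕ) (G : Fin m → E → ℂ) (hG : ∀ j, AnalyticAt ℂ (G j) p),
    (∀ j, gm (G j) (hG j) ∈ I) ∧ ∀ᶠ x in 𝓝 p, (∀ j, G j x = 0) → x = p

section step

variable {E : Type u} [NormedAddCommGroup E] [NormedSpace ℂ E] [FiniteDimensional ℂ E] {z₀ : E}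

/-- finiteness goes up -/
theorem finite_up (I : Ideal (OO ((z₀, (0 : ℂ)) : E × ℂ))) {f : OO ((z₀, (0 : ℂ)) : E × ℂ)}
    (hf : f ∈ I) {d : ℕ} (hreg : Reg f d) (J : Ideal (OO z₀)) (hJ : J ≤ I.comap (iot z₀))
    (hfin : Module.Finite ℂ (OO z₀ ⧸ J)) : Module.Finite ℂ (OO ((z₀, (0 : ℂ)) : E × ℂ) ⧸ I) := by
  set qm : OO z₀ ⧸ J →+* OO ((z₀, (0 : ℂ)) : E × ℂ) ⧸ I := Ideal.quotientMap I (iot z₀) hJ with hqm
  have hs : ∀ (a : ℂ) (x : OO z₀ ⧸ J), qm (a • x) = a • qm x := by
    intro a x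
    rw [Algebra.smul_def, map_mul, Algebra.smul_def]
    rfl
  let L : (Fin d → OO z₀ ⧸ J) →ₗ[ℂ] (OO ((z₀, (0 : ℂ)) : E × ℂ) ⧸ I) :=
    { toFun := fun c => ∑ j, qm (c j) * Ideal.Quotient.mk I (Wv z₀ ^ (j : ℕ))
      map_add' := fun c c' => by
        simp only [Pi.add_apply, map_add, add_mul, Finset.sum_add_distrib]
      map_smul' := fun a c => by
        simp only [Pi.smul_apply, hs, RingHom.id_apply, Finset.smul_sum, smul_mul_assoc] }
  refine Module.Finite.of_surjective L (fun y => ?_)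
  obtain ⟨y, rfl⟩ := Ideal.Quotient.mk_surjective y
  obtain ⟨q, c, h⟩ := div_exists hreg y
  refine ⟨fun j => Ideal.Quotient.mk J (c j), ?_⟩
  change ∑ j, qm (Ideal.Quotient.mk J (c j)) * Ideal.Quotient.mk I (Wv z₀ ^ (j : ℕ)) = _
  rw [h, map_add, map_mul, Ideal.Quotient.eq_zero_iff_mem.2 hf, mul_zero, zero_add, map_sum]
  refine Finset.sum_congr rfl (fun j _ => ?_)
  rw [map_mul, hqm, Ideal.quotientMap_mk]

end step

/-- **Rückert's Nullstellensatz for points** -/
theorem finite_of_isol : ∀ (n : ℕ) (I : Ideal (OO (0 : Fin n → ℂ))), Isol 0 I →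
    Module.Finite ℂ (OO (0 : Fin n → ℂ) ⧸ I)
  | 0, I, _ => by
    have h1 : Function.Surjective (Algebra.linearMap ℂ (OO (0 : Fin 0 → ℂ))) := by
      intro x
      obtain ⟨f, hf, rfl⟩ := exists_gm x
      refine ⟨f 0, ?_⟩
      rw [Algebra.linearMap_apply, Crest.Agent.R275.Loc2879.algebraMap_apply, gm_eq_gm]
      refine Eventually.of_forall (fun p => ?_)
      have : p = 0 := Subsingleton.elim _ _
      rw [this]
    have h2 : Module.Finite ℂ (OO (0 : Fin 0 → ℂ)) := Module.Finite.of_surjective _ h1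
    exact Module.Finite.of_surjective (Ideal.Quotient.mkₐ ℂ I).toLinearMap
      Ideal.Quotient.mk_surjective
  | n + 1, I, hI => by
    obtain ⟨m, G, hG, hGI, hiso⟩ := hI
    -- one of the functions is not zero
    obtain ⟨j₀, hj₀⟩ : ∃ j, gm (G j) (hG j) ≠ 0 := by
      by_contra hcon
      push Not at hcon
      have h1 : ∀ᶠ x in 𝓝 (0 : Fin (n + 1) → ℂ), ∀ j, G j x = 0 :=
        Filter.eventually_all.2 (fun j => gm_eq_zero.1 (hcon j))
      have h2 : ∀ᶠ x in 𝓝 (0 : Fin (n + 1) → ℂ), x = 0 := by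
        filter_upwards [h1, hiso] with x hx hx2 using hx2 hx
      have h3 : ({0} : Set (Fin (n + 1) → ℂ)) ∈ 𝓝 0 := h2
      have h4 : IsOpen ({0} : Set (Fin (n + 1) → ℂ)) := isOpen_singleton_iff_nhds_eq_pure _ |>.2
        (le_antisymm (by rwa [Filter.le_pure_iff]) (pure_le_nhds _))
      exact not_isOpen_singleton (0 : Fin (n + 1) → ℂ) h4
    obtain ⟨e, d, hreg⟩ := exists_regular_chart (F := Fin (n + 1) → ℂ) (n := n)
      (by simp) hj₀
    set a := affEquiv e (0 : Fin (n + 1) → ℂ) with ha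
    set I' : Ideal (OO (((0 : Fin n → ℂ), (0 : ℂ)))) := I.map (a : OO (0 : Fin (n + 1) → ℂ) →+*
      OO (0 : (Fin n → ℂ) × ℂ)) with hI'
    have hf : a (gm (G j₀) (hG j₀)) ∈ I' := Ideal.mem_map_of_mem _ (hGI j₀)
    have hGe : ∀ j, AnalyticAt ℂ (fun x : (Fin n → ℂ) × ℂ => G j (0 + e x)) 0 := fun j =>
      analyticAt_comp_aff e (hG j)
    obtain ⟨M, D, hD, hDI, hDiso⟩ := elim (z₀ := (0 : Fin n → ℂ)) I' hf hreg
      (fun j (x : (Fin n → ℂ) × ℂ) => G j (0 + e x)) hGe
      (fun j => Ideal.mem_map_of_mem (a : OO (0 : Fin (n + 1) → ℂ) →+*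
        OO (0 : (Fin n → ℂ) × ℂ)) (hGI j))
      (by
        have h1 : Tendsto (fun x : (Fin n → ℂ) × ℂ => (0 : Fin (n + 1) → ℂ) + e x)
            (𝓝 (0, 0)) (𝓝 0) := by
          have h2 : Continuous (fun x : (Fin n → ℂ) × ℂ => (0 : Fin (n + 1) → ℂ) + e x) :=
            continuous_const.add e.continuous
          have h3 := h2.tendsto ((0 : Fin n → ℂ), (0 : ℂ))
          have h4 : (0 : Fin (n + 1) → ℂ) + e ((0 : Fin n → ℂ), (0 : ℂ)) = 0 := by
            have : ((0 : Fin n → ℂ), (0 : ℂ)) = 0 := rfl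
            rw [this, map_zero, add_zero]
          rwa [h4] at h3
        filter_upwards [h1.eventually hiso] with x hx h5
        have h6 := hx h5
        rw [zero_add] at h6
        exact e.injective (by rw [h6]; exact (map_zero e).symm))
    set J : Ideal (OO (0 : Fin n → ℂ)) := Ideal.span (range fun s => gm (D s) (hD s)) with hJ
    have hJI : J ≤ I'.comap (iot (0 : Fin n → ℂ)) := by
      rw [hJ, Ideal.span_le]
      rintro _ ⟨s, rfl⟩
      exact hDI s
    have hJfin : Module.Finite ℂ (OO (0 : Fin n → ℂ) ⧸ J) :=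
      finite_of_isol n J ⟨M, D, hD, fun s => Ideal.subset_span ⟨s, rfl⟩, hDiso⟩
    have h7 := finite_up I' hf hreg J hJI hJfin
    let θ : OO (0 : Fin (n + 1) → ℂ) ≃ₐ[ℂ] OO (0 : (Fin n → ℂ) × ℂ) :=
      AlgEquiv.ofRingEquiv (f := a) (fun _ => rfl)
    have e2 : (OO (0 : Fin (n + 1) → ℂ) ⧸ I) ≃ₐ[ℂ] (OO (0 : (Fin n → ℂ) × ℂ) ⧸ I') :=
      Ideal.quotientEquivAlg I I' θ hI'
    exact Module.Finite.equiv e2.toLinearEquiv.symm

/-- isolated zero implies finite-dimensional, with the ideal `JI` -/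
theorem finite_JI {n : ℕ} {m : ℕ} {G : Fin m → (Fin n → ℂ) → ℂ} (hG : ∀ j, AnalyticAt ℂ (G j) 0)
    (hiso : ∀ᶠ x in 𝓝 (0 : Fin n → ℂ), (∀ j, G j x = 0) → x = 0) :
    Module.Finite ℂ (On n ⧸ JI G) :=
  finite_of_isol n _ ⟨m, G, hG, fun j => Ideal.subset_span ⟨j, hG j, rfl⟩, hiso⟩

/-- finite-dimensional implies isolated zero -/
theorem isolated {n : ℕ} {m : ℕ} {G : Fin m → (Fin n → ℂ) → ℂ} (hG : ∀ j, AnalyticAt ℂ (G j) 0)
    (hfin : Module.Finite ℂ (On n ⧸ JI G)) :
    ∀ᶠ x in 𝓝 (0 : Fin n → ℂ), (∀ j, G j x = 0) → x = 0 := by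
  set μ := Module.finrank ℂ (On n ⧸ JI G) with hμ
  have h1 := pow_le (JI G) hfin hμ.symm
  have h2 : ∀ i : Fin n, ∃ a : Fin m → (Fin n → ℂ) → ℂ,
      ∀ᶠ x in 𝓝 (0 : Fin n → ℂ), x i ^ μ = ∑ j, a j x * G j x := by
    intro i
    have h3 : Xo i ^ μ ∈ JI G := h1 (Ideal.pow_mem_pow (Xo_mem i) μ)
    rw [JI_eq_span hG, Ideal.mem_span_range_iff_exists_fun] at h3
    obtain ⟨c, hc⟩ := h3
    choose A hA hAa using fun i => exists_gm (c i)
    obtain rfl : (fun i => gm (A i) (hA i)) = c := funext hAa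
    simp only [gm_mul] at hc
    obtain ⟨h2, e2⟩ := gm_sum Finset.univ (fun i => A i * G i) (fun i => (hA i).mul (hG i))
    rw [e2, Xo, gm_pow, gm_eq_gm] at hc
    refine ⟨A, ?_⟩
    filter_upwards [hc] with x hx
    simp only [Pi.mul_apply, Pi.pow_apply] at hx
    exact hx.symm
  choose a ha using h2
  filter_upwards [Filter.eventually_all.2 ha] with x hx hx0
  funext i
  have h4 := hx i
  simp only [hx0, mul_zero, Finset.sum_const_zero] at h4
  by_contra h5
  exact pow_ne_zero μ h5 h4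

/-- **the dictionary**: `ColFin` iff the common zero is isolated -/
theorem colFin_iff_isolated {n : ℕ} {m : ℕ} {G : Fin m → (Fin n → ℂ) → ℂ}
    (hG : ∀ j, AnalyticAt ℂ (G j) 0) :
    ColFin G ↔ ∀ᶠ x in 𝓝 (0 : Fin n → ℂ), (∀ j, G j x = 0) → x = 0 := by
  rw [UI939.colFin_iff hG]
  have h1 : UI939.Idl (0 : Fin n → ℂ) G = JI G := by
    rw [JI_eq_span hG, UI939.Idl]
    congr 1
    congr 1
    funext j
    exact UI939.gz_eq (hG j)
  rw [h1]
  exact ⟨isolated hG, finite_JI hG⟩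

end Crest.Agent.R257.NS0554
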