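import Mathlib
import Crest.Agent.R273.FIa0_597
import Crest.Agent.R273.FS_333
import Crest.Agent.R273.GreenG_5
import Crest.Agent.R273.MassA_5
import Crest.Agent.R273.Mass_5

-- ▼ part R257/Up1_938
section

/-!
# R257 (S0395), leaf E-UP (helper938), part 1: a convex function `N` on the line

* `mb`  : a smooth bump, `0 ≤ mb`, zero off `(1/4, 3/4)`, integral one
* `Tb`  : its primitive, `0` for `τ ≤ 1/4`, `1` for `τ ≥ 3/4`
* `Nb`  : primitive of `Tb` with `Nb τ = τ` for `τ ≥ 3/4`; smooth, `1/4 ≤ Nb`, `τ Tb ≤ Nb`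
* `persp_le` : `ε² Nb (t/ε²) ≤ r² Nb (t/r²)` for `0 < ε ≤ r`, `0 ≤ t`
* `rh`  : `2 G' + τ G''` for `G = -1/Nb`; `0 ≤ rh`, zero for `τ ≥ 1`, bounded, `0 < rh (1/2)`
-/

set_option autoImplicit false

open Set Filter Topology MeasureTheory intervalIntegral
open scoped ContDiff

namespace Crest.Agent.R257.Up1_938

noncomputable section

/-- the bump -/
def bb : ContDiffBump (1 / 2 : ℝ) := ⟨1 / 8, 1 / 4, by norm_num, by norm_num⟩

/-- the normalised bump -/
def mb : ℝ → ℝ := bb.normed volume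

theorem mb_contDiff : ContDiff ℝ ∞ mb := bb.contDiff_normed

theorem mb_cont : Continuous mb := mb_contDiff.continuous

theorem mb_nonneg (t : ℝ) : 0 ≤ mb t := bb.nonneg_normed t

theorem mb_zero {t : ℝ} (h : t ∉ Ioo (1 / 4 : ℝ) (3 / 4)) : mb t = 0 := by
  have h1 : Function.support mb = Metric.ball (1 / 2 : ℝ) (1 / 4) := bb.support_normed_eq
  by_contra h2
  have h3 : t ∈ Function.support mb := h2
  rw [h1, Metric.mem_ball, Real.dist_eq, abs_lt] at h3
  exact h ⟨by linarith [h3.1], by linarith [h3.2]⟩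

theorem mb_pos : 0 < mb (1 / 2) := by
  have h1 : Function.support mb = Metric.ball (1 / 2 : ℝ) (1 / 4) := bb.support_normed_eq
  have h2 : (1 / 2 : ℝ) ∈ Function.support mb := by
    rw [h1]; exact Metric.mem_ball_self (by norm_num)
  exact lt_of_le_of_ne (mb_nonneg _) (Ne.symm h2)

theorem mb_integral : ∫ t, mb t = 1 := bb.integral_normed

/-- the primitive of the bump -/
def Tb (t : ℝ) : ℝ := ∫ s in (0 : ℝ)..t, mb s

theorem hasDerivAt_Tb (t : ℝ) : HasDerivAt Tb (mb t) t :=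
  intervalIntegral.integral_hasDerivAt_right (mb_cont.intervalIntegrable _ _)
    (mb_cont.stronglyMeasurableAtFilter _ _) mb_cont.continuousAt

theorem Tb_contDiff : ContDiff ℝ ∞ Tb := by
  rw [contDiff_infty_iff_deriv]
  refine ⟨fun t => (hasDerivAt_Tb t).differentiableAt, ?_⟩
  have h : deriv Tb = mb := funext fun t => (hasDerivAt_Tb t).deriv
  rw [h]
  exact mb_contDiff

theorem Tb_mono : Monotone Tb :=
  monotone_of_deriv_nonneg (fun t => (hasDerivAt_Tb t).differentiableAt) fun t => by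
    rw [(hasDerivAt_Tb t).deriv]; exact mb_nonneg t

theorem Tb_zero {t : ℝ} (h : t ≤ 1 / 4) : Tb t = 0 := by
  unfold Tb
  rw [intervalIntegral.integral_congr (g := fun _ => (0 : ℝ)), intervalIntegral.integral_zero]
  intro s hs
  refine mb_zero fun hs2 => ?_
  rcases le_total 0 t with h0 | h0
  · rw [uIcc_of_le h0] at hs
    linarith [hs.2, hs2.1]
  · rw [uIcc_of_ge h0] at hs
    linarith [hs.2, hs2.1]

theorem Tb_one {t : ℝ} (h : 3 / 4 ≤ t) : Tb t = 1 := by
  rw [← mb_integral]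
  unfold Tb
  rw [intervalIntegral.integral_of_le (by linarith),
    ← MeasureTheory.integral_indicator measurableSet_Ioc]
  refine integral_congr_ae (Eventually.of_forall fun s => ?_)
  by_cases hs : s ∈ Ioc 0 t
  · simp only [indicator_of_mem hs]
  · simp only [indicator_of_notMem hs]
    refine (mb_zero fun hs2 => hs ⟨by linarith [hs2.1], by linarith [hs2.2]⟩).symm

theorem Tb_nonneg (t : ℝ) : 0 ≤ Tb t := by
  rcases le_total t (1 / 4) with h | h
  · rw [Tb_zero h]
  · rw [← Tb_zero (le_refl (1 / 4 : ℝ))]; exact Tb_mono h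

theorem Tb_le_one (t : ℝ) : Tb t ≤ 1 := by
  rcases le_total (3 / 4) t with h | h
  · rw [Tb_one h]
  · rw [← Tb_one (le_refl (3 / 4 : ℝ))]; exact Tb_mono h

/-- the convex function -/
def Nb (t : ℝ) : ℝ := 1 + ∫ s in (1 : ℝ)..t, Tb s

theorem hasDerivAt_Nb (t : ℝ) : HasDerivAt Nb (Tb t) t :=
  (intervalIntegral.integral_hasDerivAt_right (Tb_contDiff.continuous.intervalIntegrable _ _)
    (Tb_contDiff.continuous.stronglyMeasurableAtFilter _ _)
    Tb_contDiff.continuous.continuousAt).const_add 1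

theorem Nb_contDiff : ContDiff ℝ ∞ Nb := by
  rw [contDiff_infty_iff_deriv]
  refine ⟨fun t => (hasDerivAt_Nb t).differentiableAt, ?_⟩
  have h : deriv Nb = Tb := funext fun t => (hasDerivAt_Nb t).deriv
  rw [h]
  exact Tb_contDiff

theorem Nb_eq {t : ℝ} (h : 3 / 4 ≤ t) : Nb t = t := by
  unfold Nb
  rw [intervalIntegral.integral_congr (g := fun _ => (1 : ℝ)), intervalIntegral.integral_const,
    smul_eq_mul]
  · ring
  · intro s hs
    refine Tb_one ?_
    rcases le_total 1 t with h0 | h0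
    · rw [uIcc_of_le h0] at hs
      linarith [hs.1]
    · rw [uIcc_of_ge h0] at hs
      linarith [hs.1]

/-- `Nb t - t` is antitone -/
theorem Nb_sub_anti : Antitone fun t => Nb t - t :=
  antitone_of_deriv_nonpos
    (fun t => ((hasDerivAt_Nb t).sub (hasDerivAt_id t)).differentiableAt) fun t => by
      have h : HasDerivAt (fun t => Nb t - t) (Tb t - 1) t :=
        (hasDerivAt_Nb t).sub (hasDerivAt_id t)
      rw [h.deriv]; linarith [Tb_le_one t]


theorem le_Nb (t : ℝ) : t ≤ Nb t := by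
  rcases le_total t 1 with h | h
  · have h1 := Nb_sub_anti h
    simp only [Nb_eq (show (3 / 4 : ℝ) ≤ 1 by norm_num)] at h1
    linarith
  · exact (Nb_eq (by linarith)).ge

theorem quarter_le_Nb (t : ℝ) : 1 / 4 ≤ Nb t := by
  rcases le_total (1 / 4) t with h | h
  · exact h.trans (le_Nb t)
  · have h1 : Nb (1 / 4) - Nb t = ∫ s in t..(1 / 4 : ℝ), Tb s := by
      unfold Nb
      have h2 := intervalIntegral.integral_add_adjacent_intervals
        (Tb_contDiff.continuous.intervalIntegrable (μ := volume) 1 t)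
        (Tb_contDiff.continuous.intervalIntegrable (μ := volume) t (1 / 4))
      linarith
    have h3 : ∫ s in t..(1 / 4 : ℝ), Tb s = 0 := by
      rw [intervalIntegral.integral_congr (g := fun _ => (0 : ℝ)), intervalIntegral.integral_zero]
      intro s hs
      rw [uIcc_of_le h] at hs
      exact Tb_zero hs.2
    have h4 := le_Nb (1 / 4)
    linarith

theorem Nb_pos (t : ℝ) : 0 < Nb t := lt_of_lt_of_le (by norm_num) (quarter_le_Nb t)

theorem mul_Tb_le {t : ℝ} (h0 : 0 ≤ t) : t * Tb t ≤ Nb t :=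
  le_trans (mul_le_of_le_one_right h0 (Tb_le_one t)) (le_Nb t)

/-- `Nb τ / τ` is antitone -/
theorem div_anti {a b : ℝ} (ha : 0 < a) (hab : a ≤ b) : Nb b / b ≤ Nb a / a := by
  have hd : ∀ t ∈ Ioi (0 : ℝ), HasDerivAt (fun t => Nb t / t) ((Tb t * t - Nb t * 1) / t ^ 2) t :=
    fun t ht => (hasDerivAt_Nb t).div (hasDerivAt_id t) (ne_of_gt ht)
  have h := antitoneOn_of_deriv_nonpos (convex_Ioi (0 : ℝ)) (f := fun t => Nb t / t)
    (fun t ht => (hd t ht).continuousAt.continuousWithinAt)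
    (fun t ht => by
      rw [interior_Ioi] at ht
      exact (hd t ht).differentiableAt.differentiableWithinAt)
    (fun t ht => by
      rw [interior_Ioi] at ht
      rw [(hd t ht).deriv]
      refine div_nonpos_of_nonpos_of_nonneg ?_ (by positivity)
      have := mul_Tb_le (le_of_lt ht)
      linarith)
  exact h ha (lt_of_lt_of_le ha hab : (0 : ℝ) < b) hab

theorem persp_le {e r t : ℝ} (he : 0 < e) (her : e ≤ r) (ht : 0 ≤ t) :
    e ^ 2 * Nb (t / e ^ 2) ≤ r ^ 2 * Nb (t / r ^ 2) := by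
  have hr : 0 < r := lt_of_lt_of_le he her
  rcases ht.eq_or_lt with h0 | h0
  · rw [← h0, zero_div, zero_div]
    exact mul_le_mul_of_nonneg_right (by gcongr) (Nb_pos 0).le
  · have h1 : t / r ^ 2 ≤ t / e ^ 2 := by gcongr
    have h2 := div_anti (show 0 < t / r ^ 2 by positivity) h1
    have h3 : e ^ 2 * Nb (t / e ^ 2) = t * (Nb (t / e ^ 2) / (t / e ^ 2)) := by
      field_simp
    have h4 : r ^ 2 * Nb (t / r ^ 2) = t * (Nb (t / r ^ 2) / (t / r ^ 2)) := by
      field_simp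
    rw [h3, h4]
    exact mul_le_mul_of_nonneg_left h2 h0.le

/-! ### the functions `G` -/

/-- `G_e(t) = -1 / (e² Nb (t/e²))` -/
def Gs (e t : ℝ) : ℝ := -(e ^ 2 * Nb (t / e ^ 2))⁻¹

/-- first derivative -/
def G1 (e t : ℝ) : ℝ := Tb (t / e ^ 2) / (e ^ 2 * Nb (t / e ^ 2)) ^ 2

/-- second derivative -/
def G2 (e t : ℝ) : ℝ := mb (t / e ^ 2) / e ^ 2 / (e ^ 2 * Nb (t / e ^ 2)) ^ 2 -
  2 * Tb (t / e ^ 2) ^ 2 / (e ^ 2 * Nb (t / e ^ 2)) ^ 3

theorem hasDerivAt_D {e : ℝ} (he : e ≠ 0) (t : ℝ) :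
    HasDerivAt (fun t => e ^ 2 * Nb (t / e ^ 2)) (Tb (t / e ^ 2)) t := by
  have h1 : HasDerivAt (fun t : ℝ => t / e ^ 2) (1 / e ^ 2) t := (hasDerivAt_id t).div_const _
  have h2 := ((hasDerivAt_Nb (t / e ^ 2)).comp t h1).const_mul (e ^ 2)
  have e1 : e ^ 2 * (Tb (t / e ^ 2) * (1 / e ^ 2)) = Tb (t / e ^ 2) := by field_simp
  rw [e1] at h2
  exact h2

theorem D_pos {e : ℝ} (he : e ≠ 0) (t : ℝ) : 0 < e ^ 2 * Nb (t / e ^ 2) :=
  mul_pos (by positivity) (Nb_pos _)

theorem hasDerivAt_Gs {e : ℝ} (he : e ≠ 0) (t : ℝ) : HasDerivAt (Gs e) (G1 e t) t := by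
  have h := ((hasDerivAt_D he t).inv (D_pos he t).ne').neg
  have e1 : -(-Tb (t / e ^ 2) / (e ^ 2 * Nb (t / e ^ 2)) ^ 2) = G1 e t := by
    unfold G1; ring
  rw [e1] at h
  exact h

theorem hasDerivAt_G1 {e : ℝ} (he : e ≠ 0) (t : ℝ) : HasDerivAt (G1 e) (G2 e t) t := by
  have h1 : HasDerivAt (fun t : ℝ => t / e ^ 2) (1 / e ^ 2) t := (hasDerivAt_id t).div_const _
  have h2 : HasDerivAt (fun t => Tb (t / e ^ 2)) (mb (t / e ^ 2) * (1 / e ^ 2)) t :=
    HasDerivAt.comp (h₂ := Tb) t (hasDerivAt_Tb (t / e ^ 2)) h1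
  have hD := D_pos he t
  have h3 : HasDerivAt (fun t => (e ^ 2 * Nb (t / e ^ 2)) ^ 2)
      (2 * (e ^ 2 * Nb (t / e ^ 2)) * Tb (t / e ^ 2)) t := by
    have h := (hasDerivAt_D he t).fun_pow 2
    refine h.congr_deriv ?_
    norm_num
  have h4 : HasDerivAt (G1 e) ((mb (t / e ^ 2) * (1 / e ^ 2) * (e ^ 2 * Nb (t / e ^ 2)) ^ 2 -
      Tb (t / e ^ 2) * (2 * (e ^ 2 * Nb (t / e ^ 2)) * Tb (t / e ^ 2))) /
        ((e ^ 2 * Nb (t / e ^ 2)) ^ 2) ^ 2) t :=
    h2.div h3 (pow_ne_zero 2 hD.ne')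
  refine h4.congr_deriv ?_
  unfold G2
  have hN := Nb_pos (t / e ^ 2)
  field_simp

theorem Gs_contDiff {e : ℝ} (he : e ≠ 0) : ContDiff ℝ ∞ (Gs e) := by
  unfold Gs
  refine (ContDiff.inv ?_ fun t => (D_pos he t).ne').neg
  exact contDiff_const.mul (Nb_contDiff.comp (contDiff_id.div_const _))

/-- for `0 < e ≤ r`, `0 ≤ t` -/
theorem Gs_mono {e r t : ℝ} (he : 0 < e) (her : e ≤ r) (ht : 0 ≤ t) : Gs e t ≤ Gs r t := by
  unfold Gs
  have h := persp_le he her ht
  have h0 := D_pos he.ne' t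
  exact neg_le_neg (inv_anti₀ h0 h)

theorem Gs_eq {e t : ℝ} (he : 0 < e) (ht : e ^ 2 ≤ t) : Gs e t = -t⁻¹ := by
  unfold Gs
  rw [Nb_eq]
  · congr 2
    field_simp
  · have h1 : 1 ≤ t / e ^ 2 := (one_le_div (by positivity)).2 ht
    linarith

/-! ### the kernel -/

/-- `2 G' + τ G''` -/
def rh (t : ℝ) : ℝ := 2 * (Tb t / Nb t ^ 2) + t * (mb t / Nb t ^ 2 - 2 * Tb t ^ 2 / Nb t ^ 3)

theorem rh_cont : Continuous rh := by
  unfold rh
  have hN : Continuous Nb := Nb_contDiff.continuous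
  have hT : Continuous Tb := Tb_contDiff.continuous
  have h2 : ∀ t, Nb t ^ 2 ≠ 0 := fun t => pow_ne_zero 2 (Nb_pos t).ne'
  have h3 : ∀ t, Nb t ^ 3 ≠ 0 := fun t => pow_ne_zero 3 (Nb_pos t).ne'
  exact (continuous_const.mul (hT.div (hN.pow 2) h2)).add (continuous_id.mul
    ((mb_cont.div (hN.pow 2) h2).sub ((continuous_const.mul (hT.pow 2)).div (hN.pow 3) h3)))

theorem rh_nonneg {t : ℝ} (ht : 0 ≤ t) : 0 ≤ rh t := by
  have hN := Nb_pos t
  have h1 : rh t = (2 * Tb t * (Nb t - t * Tb t) + t * Nb t * mb t) / Nb t ^ 3 := by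
    unfold rh
    field_simp
    ring
  rw [h1]
  have h2 := mul_Tb_le ht
  have h3 := Tb_nonneg t
  have h4 := mb_nonneg t
  have h5 : 0 ≤ 2 * Tb t * (Nb t - t * Tb t) := mul_nonneg (by positivity) (by linarith)
  positivity

theorem rh_zero {t : ℝ} (ht : 3 / 4 ≤ t) : rh t = 0 := by
  unfold rh
  rw [Tb_one ht, Nb_eq ht, mb_zero fun h => absurd h.2 (not_lt.2 ht)]
  have : t ≠ 0 := by linarith
  field_simp
  ring

theorem rh_pos_half : 0 < rh (1 / 2) := by
  have hN := Nb_pos (1 / 2)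
  have h1 : rh (1 / 2) = (2 * Tb (1 / 2) * (Nb (1 / 2) - (1 / 2) * Tb (1 / 2)) +
      (1 / 2) * Nb (1 / 2) * mb (1 / 2)) / Nb (1 / 2) ^ 3 := by
    unfold rh
    field_simp
    ring
  rw [h1]
  have h2 := mul_Tb_le (show (0 : ℝ) ≤ 1 / 2 by norm_num)
  have h3 := Tb_nonneg (1 / 2)
  have h4 := mb_pos
  have h5 : 0 ≤ 2 * Tb (1 / 2) * (Nb (1 / 2) - (1 / 2) * Tb (1 / 2)) :=
    mul_nonneg (by positivity) (by linarith)
  positivity

theorem exists_rh_le : ∃ B : ℝ, 0 ≤ B ∧ ∀ t, 0 ≤ t → rh t ≤ B := by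
  obtain ⟨C, hC⟩ := isCompact_Icc.exists_bound_of_continuousOn (s := Icc (0 : ℝ) 1)
    rh_cont.continuousOn
  refine ⟨|C|, abs_nonneg _, fun t ht => ?_⟩
  rcases le_total t 1 with h | h
  · exact (le_abs_self _).trans ((hC t ⟨ht, h⟩).trans (le_abs_self _))
  · rw [rh_zero (by linarith)]; exact abs_nonneg _

theorem rho_eq {e : ℝ} (he : e ≠ 0) (t : ℝ) :
    2 * G1 e t + t * G2 e t = rh (t / e ^ 2) / e ^ 4 := by
  unfold G1 G2 rh
  have hN := Nb_pos (t / e ^ 2)
  field_simp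

end

end Crest.Agent.R257.Up1_938
end

-- ▼ part R257/Up2_938
section

/-!
# R257 (S0395), leaf E-UP (helper938), part 2: Green's formula and the pulled back kernel

* `green_sym` : `∫ φ tr(adj(∂∂̄w) ∂∂̄f) = ∫ f tr(adj(∂∂̄w) ∂∂̄φ)` (real parts), `φ` with compact support
* `trace_eq`  : `tr(adj(∂∂̄|F|²) ∂∂̄ G_e(|F-y|²)) = |det ∂F|² rh(|F-y|²/e²)/e⁴`
-/

set_option autoImplicit false
set_option linter.unusedSectionVars false

open Set Filter Topology Complex MeasureTheory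
open scoped ContDiff Matrix ComplexConjugate ComplexOrder

namespace Crest.Agent.R257.Up2_938

open Crest.Agent.R275 Crest.Agent.R275.Geo Crest.Agent.R275.Core144 Crest.Agent.R275.EDR890
open Crest.Agent.R275.Pai323 Crest.Agent.R275.C1d194
open Crest.Agent.R275.SerG398 (lint dens)
open Crest.Agent.R275.OmT75 (dj dl)
open Crest.Agent.R273.Defs_333 Crest.Agent.R273.Hess_333 Crest.Agent.R273.HessB_333
open Crest.Agent.R273.Kah_333 Crest.Agent.R273.StV_37 Crest.Agent.R273.Green_5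
open Crest.Agent.R273.GreenM_5 Crest.Agent.R273.GreenG_5 Crest.Agent.R273.FS_333
open Crest.Agent.R273.FIa0_597 (hess_comp_real)
open Crest.Agent.R273.MassA_5 (qa_conj)
open Crest.Agent.R257.Up1_938

noncomputable section

section green

variable {n : ℕ} {M : Type} [TopologicalSpace M] {A : Atl n M} [T2Space M]
variable {g : A.ι → M → Matrix (Fin n) (Fin n) ℂ}

open Classical in
/-- **Green's formula**, `u` supported in the compact set `K` -/
theorem green_u (P : Part A) (hg : CF A g) {φ u : M → ℂ} (hφ : ∀ i, A.SmAt i φ)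
    (hu : ∀ i, A.SmAt i u) {K : Set M} (hK : IsCompact K) {F : Finset A.ι} (hF : Fn P hK ⊆ F)
    (h0 : ∀ x ∉ K, u x = 0) :
    tot P F (fun i x => φ x * ((g i x).adjugate * hm A u i x).trace) =
      - tot P F (grd g φ u) := by
  set Y : A.ι → M → Fin n → ℂ := fun i x a =>
    if x ∈ (A.e i).source then adjY A g φ u i x a else 0 with hY
  have hv := v10_adj hg hφ hu
  have hYe : ∀ i, ∀ x ∈ (A.e i).source, ∀ a, Y i x a = adjY A g φ u i x a :=
    fun i x hx a => by simp only [hY, if_pos hx]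
  have hvY : V10 A Y := by
    refine ⟨fun i a => (hv.sm i a).congr fun z hz => hYe i _ ((A.e i).map_target hz) a,
      fun i j x hx b => ?_⟩
    rw [Finset.sum_congr rfl fun a _ => by rw [hYe i x hx.1 a], hYe j x hx.2 b]
    exact hv.tr i j x hx b
  have h1 := stokes10 P hvY hK hF fun i x hx => by
    funext a
    by_cases hxi : x ∈ (A.e i).source
    · rw [hYe i x hxi]
      have h2 : u =ᶠ[𝓝 x] 0 := by
        filter_upwards [hK.isClosed.isOpen_compl.mem_nhds hx] with y hy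
        exact h0 y hy
      unfold adjY
      rw [Finset.sum_eq_zero fun b _ => by rw [db_zero_of hxi h2, mul_zero], mul_zero]
      rfl
    · simp only [hY, if_neg hxi]
      rfl
  have h2 : tot P F (fun i x => ∑ a, dl A i a (fun y => Y i y a) x) =
      tot P F (fun i x => φ x * ((g i x).adjugate * hm A u i x).trace + grd g φ u i x) := by
    refine tot_congr P F fun i _ x hx => ?_
    rw [show φ x * ((g i x).adjugate * hm A u i x).trace + grd g φ u i x =
      ∑ a, dl A i a (fun y => adjY A g φ u i y a) x from (div_adjY hg (hφ i) (hu i) hx).symm]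
    refine Finset.sum_congr rfl fun a _ => ?_
    unfold OmT75.dl
    refine OmT75.dj_congr ?_
    filter_upwards [(A.e i).open_target.mem_nhds ((A.e i).map_source hx)] with z hz
    rw [hYe i _ ((A.e i).map_target hz)]
  rw [h2, tot_add P F (f := fun i x => φ x * ((g i x).adjugate * hm A u i x).trace)
      (g := grd g φ u)
      (fun i => (hφ i).mul (smAt_tr hg (hu i))) (fun i => smAt_grd hg hφ hu i)] at h1
  exact eq_neg_of_add_eq_zero_left h1

theorem hsf_isHerm {w : M → ℝ} (hw : A.Sm w) {i : A.ι} {x : M} (hx : x ∈ (A.e i).source) :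
    (hsf A w i x).IsHermitian := hsf_herm hw hx

/-- symmetry of the gradient term -/
theorem grd_symm {w : M → ℝ} (hw : A.Sm w) (f φ : M → ℝ) {i : A.ι} {x : M}
    (hx : x ∈ (A.e i).source) :
    grd (hsf A w) (fun y => (f y : ℂ)) (fun y => (φ y : ℂ)) i x =
      conj (grd (hsf A w) (fun y => (φ y : ℂ)) (fun y => (f y : ℂ)) i x) := by
  rw [grd_qa, grd_qa]
  have h1 : ∀ u : M → ℝ, (fun b => A.db i b (fun y => (u y : ℂ)) x) =
      fun b => conj (dl A i b (fun y => (u y : ℂ)) x) := fun u => funext fun b => db_ofReal u i b x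
  rw [h1 f, h1 φ, qa_conj (hsf_isHerm hw hx).adjugate]

theorem green_sym (P : Part A) {w f φ : M → ℝ} (hw : A.Sm w) (hf : A.Sm f) (hφ : A.Sm φ)
    {K : Set M} (hK : IsCompact K) {F : Finset A.ι} (hF : Fn P hK ⊆ F) (h0 : ∀ x ∉ K, φ x = 0) :
    (tot P F (fun i x => (φ x : ℂ) * ((hsf A w i x).adjugate * hsf A f i x).trace)).re =
      (tot P F (fun i x => (f x : ℂ) * ((hsf A w i x).adjugate * hsf A φ i x).trace)).re := by
  have hfc : ∀ i, A.SmAt i (fun x => (f x : ℂ)) := fun i => smAt_ofReal (hf i)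
  have hφc : ∀ i, A.SmAt i (fun x => (φ x : ℂ)) := fun i => smAt_ofReal (hφ i)
  have h0c : ∀ x ∉ K, (φ x : ℂ) = 0 := fun x hx => by rw [h0 x hx, ofReal_zero]
  have h1 := green P (hsf_cf hw) hφc hfc hK hF h0c
  have h2 := green_u P (hsf_cf hw) hfc hφc hK hF h0c
  have e1 : tot P F (fun i x => (φ x : ℂ) * ((hsf A w i x).adjugate * hsf A f i x).trace) =
      tot P F (fun i x => (φ x : ℂ) *
        ((hsf A w i x).adjugate * hm A (fun y => (f y : ℂ)) i x).trace) :=
    tot_congr P F fun i _ x hx => by rw [hm_ofReal f i hx]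
  have e2 : tot P F (fun i x => (f x : ℂ) * ((hsf A w i x).adjugate * hsf A φ i x).trace) =
      tot P F (fun i x => (f x : ℂ) *
        ((hsf A w i x).adjugate * hm A (fun y => (φ y : ℂ)) i x).trace) :=
    tot_congr P F fun i _ x hx => by rw [hm_ofReal φ i hx]
  have e3 : tot P F (grd (hsf A w) (fun y => (f y : ℂ)) (fun y => (φ y : ℂ))) =
      conj (tot P F (grd (hsf A w) (fun y => (φ y : ℂ)) (fun y => (f y : ℂ)))) := by
    rw [← tot_conj]
    exact tot_congr P F fun i _ x hx => grd_symm hw f φ hx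
  rw [e1, e2, h1, h2, e3, neg_re, neg_re, conj_re]
  rfl

end green

/-! ### the local computation -/

section LA2


/-- the trace with `∂∂̄|F|²` -/
theorem tr_local (D : Matrix (Fin 2) (Fin 2) ℂ) (v : Fin 2 → ℂ) (a b : ℂ)
    (g H : Matrix (Fin 2) (Fin 2) ℂ) (hg : ∀ p q, g p q = ∑ k, D k p * conj (D k q))
    (hH : ∀ p q, H p q = a * g p q + b * ((∑ k, D k p * conj (v k)) * ∑ k, v k * conj (D k q))) :
    (g.adjugate * H).trace =
      (D.det * conj D.det) * (2 * a + b * ∑ k, v k * conj (v k)) := by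
  simp only [Matrix.trace_fin_two, Matrix.adjugate_fin_two, Matrix.mul_apply, Fin.sum_univ_two,
    Matrix.det_fin_two, Matrix.of_apply, Matrix.cons_val', Matrix.cons_val_zero,
    Matrix.cons_val_one, Matrix.cons_val_fin_one, hH, hg, map_sub, map_mul]
  ring

end LA2

section Local

/-- Jacobian matrix of `F : Cn 2 → ℂ²` -/
def DF (F : Cn 2 → Fin 2 → ℂ) (z : Cn 2) : Matrix (Fin 2) (Fin 2) ℂ :=
  Matrix.of fun k a => fderiv ℂ (fun z => F z k) z (EuclideanSpace.single a 1)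

theorem trace_eq {F : Cn 2 → Fin 2 → ℂ} {U : Set (Cn 2)} (hU : IsOpen U)
    (hF : ∀ k, DifferentiableOn ℂ (fun z => F z k) U) {z : Cn 2} (hz : z ∈ U) (y : Fin 2 → ℂ)
    {e : ℝ} (he : e ≠ 0) :
    ((hess (sq F) z).adjugate * hess (fun w => Gs e (sq (fun w k => F w k - y k) w)) z).trace =
      ((‖(DF F z).det‖ ^ 2 * (rh (sq (fun w k => F w k - y k) z / e ^ 2) / e ^ 4) : ℝ) : ℂ) := by
  set F' : Cn 2 → Fin 2 → ℂ := fun w k => F w k - y k with hF'
  have hFd : ∀ k, DifferentiableOn ℂ (fun z => F' z k) U := fun k => (hF k).sub_const _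
  have hfd : ∀ k, ∀ w, fderiv ℂ (fun z => F' z k) w = fderiv ℂ (fun z => F z k) w := fun k w =>
    fderiv_sub_const _
  have hsm : ContDiffAt ℝ ∞ (sq F') z :=
    ContDiffAt.sum fun k _ => (contDiffAt_of_hol hU (hFd k) hz).norm_sq ℝ
  have h1 := fun a b => hess_comp_real (φ := Gs e) (φ' := G1 e) (d2 := G2 e (sq F' z)) hsm
    (Eventually.of_forall fun s => hasDerivAt_Gs he s) (hasDerivAt_G1 he _) a b
  have hg : ∀ p q, hess (sq F) z p q = ∑ k, DF F z k p * conj (DF F z k q) := fun p q =>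
    hess_sq hU hF hz p q
  have hg' : ∀ p q, hess (sq F') z p q = hess (sq F) z p q := fun p q => by
    rw [hess_sq hU hFd hz p q, hess_sq hU hF hz p q]
    simp only [hfd]
  have hH : ∀ p q, hess (fun w => Gs e (sq F' w)) z p q = (G1 e (sq F' z) : ℂ) * hess (sq F) z p q +
      (G2 e (sq F' z) : ℂ) * ((∑ k, DF F z k p * conj (F' z k)) *
        ∑ k, F' z k * conj (DF F z k q)) := by
    intro p q
    rw [h1 p q, hg' p q, wd_sq' hU hFd hz p, wd_sq hU hFd hz q]
    simp only [hfd]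
    rfl
  rw [tr_local (DF F z) (F' z) _ _ _ _ hg hH]
  have h2 : ∑ k, F' z k * conj (F' z k) = ((sq F' z : ℝ) : ℂ) := by
    have := congrFun (cu_sq F') z
    simp only [cu] at this
    exact this.symm
  rw [h2, Complex.mul_conj, Complex.normSq_eq_norm_sq]
  rw [← rho_eq he]
  push_cast
  ring

end Local

end

end Crest.Agent.R257.Up2_938
end

-- ▼ part R257/Up3_938

/-!
# R257 (S0395), leaf E-UP (helper938), part 3: the global inequality

* `tot_eq`      : the integral of a density with compact support as an integral against `vm h`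
* `adj_tr_nn`   : `0 ≤ tr(adj G S)` for `G, S ≥ 0`
* `hsf_exp_psd` : `∂∂̄ e^u ≥ 0`
* `sqM F y = |F - y|²`, `J2 h F = |det ∂F|²/h`
* `mono_int`    : `∫ f |∂F|² ρ_e(F-y) ≤ ∫ f |∂F|² ρ_r(F-y)`, `∂∂̄f ≥ 0`, `e ≤ r`
-/

set_option autoImplicit false
set_option linter.unusedSectionVars false

open Set Filter Topology Complex MeasureTheory
open scoped ContDiff Matrix ComplexConjugate ComplexOrder ENNReal

namespace Crest.Agent.R257.Up3_938

open Crest.Agent.R275 Crest.Agent.R275.Geo Crest.Agent.R275.Core144 Crest.Agent.R275.EDR890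
open Crest.Agent.R275.Pai323 Crest.Agent.R275.C1d194
open Crest.Agent.R275.SerG398 (lint dens)
open Crest.Agent.R275.OmT75 (dj dl)
open Crest.Agent.R273.Defs_333 Crest.Agent.R273.Hess_333 Crest.Agent.R273.HessB_333
open Crest.Agent.R273.HM_333 Crest.Agent.R273.Kah_333 Crest.Agent.R273.Vol_333
open Crest.Agent.R273.Vm_333
open Crest.Agent.R273.StV_37 Crest.Agent.R273.Green_5
open Crest.Agent.R273.GreenM_5 Crest.Agent.R273.GreenG_5 Crest.Agent.R273.FS_333
open Crest.Agent.R273.FIa0_597 (hess_comp_real gr star_gr exists_sq)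
open Crest.Agent.R273.Mass_5 (w_dens fH wC_ne fH_div sm_fH)
open Crest.Agent.R257.Up1_938 Crest.Agent.R257.Up2_938

noncomputable section

/-! ### linear algebra -/

section LA

variable {n : ℕ}

theorem adj_tr_nn {G S : Matrix (Fin n) (Fin n) ℂ} (hG : G.PosSemidef) (hS : S.PosSemidef) :
    0 ≤ (G.adjugate * S).trace := by
  obtain ⟨B, hB⟩ := exists_sq hG
  have h1 : G.adjugate = B.adjugate * (B.adjugate)ᴴ := by
    rw [hB, Matrix.adjugate_mul_distrib, ← Matrix.adjugate_conjTranspose]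
  rw [h1, Matrix.mul_assoc, Matrix.trace_mul_comm, Matrix.mul_assoc]
  have h2 : (B.adjugate)ᴴ * (S * B.adjugate) = (B.adjugate)ᴴ * S * B.adjugate := by
    rw [Matrix.mul_assoc]
  rw [h2]
  exact (hS.conjTranspose_mul_mul_same B.adjugate).trace_nonneg

theorem hess_exp {U : Cn n → ℝ} {z : Cn n} (hU : ContDiffAt ℝ ∞ U z) :
    hess (fun w => Real.exp (U w)) z = (Real.exp (U z) : ℂ) • hess U z +
      (Real.exp (U z) : ℂ) • Matrix.vecMulVec (gr U z) (star (gr U z)) := by
  ext a b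
  rw [hess_comp_real hU (Eventually.of_forall fun s => Real.hasDerivAt_exp s)
    (Real.hasDerivAt_exp _), Matrix.add_apply, Matrix.smul_apply, Matrix.smul_apply,
    Matrix.vecMulVec_apply, star_gr (hU.differentiableAt (by simp))]
  simp only [gr, smul_eq_mul]

theorem hess_exp_psd {U : Cn n → ℝ} {z : Cn n} (hU : ContDiffAt ℝ ∞ U z)
    (h : (hess U z).PosSemidef) : (hess (fun w => Real.exp (U w)) z).PosSemidef := by
  rw [hess_exp hU]
  have h0 : (0 : ℂ) ≤ (Real.exp (U z) : ℂ) := by exact_mod_cast (Real.exp_pos _).le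
  exact (h.smul h0).add ((Matrix.posSemidef_vecMulVec_self_star (gr U z)).smul h0)

end LA

variable {n : ℕ} {M : Type} [TopologicalSpace M] {A : Atl n M}

theorem exp_sm {u : M → ℝ} (hu : A.Sm u) : A.Sm (fun x => Real.exp (u x)) := fun i =>
  Real.contDiff_exp.comp_contDiffOn (hu i)

theorem hsf_exp_psd {u : M → ℝ} (hu : A.Sm u) {i : A.ι} {x : M} (hx : x ∈ (A.e i).source)
    (h : (hsf A u i x).PosSemidef) : (hsf A (fun x => Real.exp (u x)) i x).PosSemidef :=
  hess_exp_psd (sm_contDiffAt hu i ((A.e i).map_source hx)) h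

/-! ### integrals of densities, `M` not compact -/

section meas

variable [T2Space M] [MeasurableSpace M] [BorelSpace M] [Countable A.ι]

theorem integrable_cs (h : HM (KB A)⁻¹) {W : Type*} [NormedAddCommGroup W] {f : M → W}
    (hf : Continuous f) {K : Set M} (hK : IsCompact K) (h0 : ∀ x ∉ K, f x = 0) :
    Integrable f (vm h) := by
  have := isLocallyFinite_vm h
  exact hf.integrable_of_hasCompactSupport (HasCompactSupport.intro hK h0)

/-- the integral of a density with compact support -/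
theorem tot_eq (h : HM (KB A)⁻¹) (P : Part A) {f : A.ι → M → ℂ} (hf : Dn A f)
    (hs : ∀ i, A.SmAt i (f i)) {K : Set M} (hK : IsCompact K) {F : Finset A.ι}
    (hF : Fn P hK ⊆ F) (h0 : ∀ x ∉ K, fH h f x = 0) :
    tot P F f = ∫ x, fH h f x ∂(vm h) := by
  have hfc : Continuous (fH h f) := sm_continuous (sm_fH h hf hs)
  have hint : ∀ i, Integrable (fun x => (P.ψ i x : ℂ) * fH h f x) (vm h) := by
    intro i
    have hc : Continuous fun x => (P.ψ i x : ℂ) :=
      Complex.continuous_ofReal.comp (sm_continuous (P.ψ_sm i))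
    exact integrable_cs h (hc.mul hfc) hK fun x hx => by rw [h0 x hx, mul_zero]
  have h1 : (fun x => fH h f x) = fun x => ∑ i ∈ F, (P.ψ i x : ℂ) * fH h f x := by
    funext x
    rw [← Finset.sum_mul]
    by_cases hx : x ∈ K
    · rw [sum_psiC P hK hF hx, one_mul]
    · rw [h0 x hx, mul_zero]
  rw [h1, integral_finsetSum _ fun i _ => hint i]
  unfold tot
  refine Finset.sum_congr rfl fun i _ => ?_
  have h3 : ∫ x, (P.ψ i x : ℂ) * fH h f x ∂(vm h) =
      ∫ x in (A.e i).source, (P.ψ i x : ℂ) * fH h f x ∂(vm h) := by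
    symm
    refine setIntegral_eq_integral_of_forall_compl_eq_zero fun x hx => ?_
    rw [psi_off P hx, Complex.ofReal_zero, zero_mul]
  rw [h3, setIntegral_vm h i (hint i).aestronglyMeasurable]
  unfold Crest.Agent.R275.SerG398.lint
  rw [← setIntegral_eq_integral_of_forall_compl_eq_zero (s := Ui A i)
    (fun y hy => rd_off hy)]
  refine setIntegral_congr_fun (Crest.Agent.R273.Vm_333.isOpen_Ui i).measurableSet fun y hy => ?_
  rw [rd_of_mem hy]
  change (P.ψ i (sg A i y) : ℂ) * f i (sg A i y) =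
    (h.w i (sg A i y)) • ((P.ψ i (sg A i y) : ℂ) * fH h f (sg A i y))
  rw [fH_div h hf (sg_mem hy), Complex.real_smul]
  have h4 := wC_ne h (sg_mem hy)
  field_simp

end meas

/-! ### the functions -/

section fns

variable {N : ℕ}

/-- `|F - y|²` -/
def sqM (F : M → Fin N → ℂ) (y : Fin N → ℂ) (x : M) : ℝ := ∑ k, ‖F x k - y k‖ ^ 2

theorem sqM_nonneg (F : M → Fin N → ℂ) (y : Fin N → ℂ) (x : M) : 0 ≤ sqM F y x :=
  Finset.sum_nonneg fun _ _ => by positivity

/-- holomorphic maps to `ℂ^N` -/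
def HolM (A : Atl n M) (F : M → Fin N → ℂ) : Prop :=
  ∀ i k, DifferentiableOn ℂ (fun z => F ((A.e i).symm z) k) (A.e i).target

theorem sqM_sm {F : M → Fin N → ℂ} (hF : HolM A F) (y : Fin N → ℂ) : A.Sm (sqM F y) := by
  intro i z hz
  refine ContDiffAt.contDiffWithinAt ?_
  exact ContDiffAt.sum fun k _ => (contDiffAt_of_hol (A.e i).open_target
    ((hF i k).sub_const (y k)) hz).norm_sq ℝ

theorem Gs_sm {F : M → Fin N → ℂ} (hF : HolM A F) (y : Fin N → ℂ) {e : ℝ} (he : e ≠ 0) :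
    A.Sm (fun x => Gs e (sqM F y x)) := fun i =>
  (Gs_contDiff he).comp_contDiffOn (sqM_sm hF y i)

theorem sqM_read (F : M → Fin N → ℂ) (i : A.ι) :
    (fun z => sqM F 0 ((A.e i).symm z)) =
      Crest.Agent.R273.FS_333.sq (fun z => F ((A.e i).symm z)) := by
  funext z
  simp [sqM, Crest.Agent.R273.FS_333.sq]

theorem hsf_sqM_psd {F : M → Fin N → ℂ} (hF : HolM A F) {i : A.ι} {x : M}
    (hx : x ∈ (A.e i).source) : (hsf A (sqM F 0) i x).PosSemidef := by
  have hz := (A.e i).map_source hx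
  have h1 : hsf A (sqM F 0) i x = ∑ k, Matrix.vecMulVec
      (fun a => fderiv ℂ (fun z => F ((A.e i).symm z) k) (A.e i x) (EuclideanSpace.single a 1))
      (star fun a =>
        fderiv ℂ (fun z => F ((A.e i).symm z) k) (A.e i x) (EuclideanSpace.single a 1)) := by
    ext p q
    unfold hsf
    rw [sqM_read, hess_sq (A.e i).open_target (hF i) hz p q, Matrix.sum_apply]
    rfl
  rw [h1]
  exact Matrix.posSemidef_sum _ fun k _ => Matrix.posSemidef_vecMulVec_self_star _

end fns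

section two

variable {A : Atl 2 M}

/-- the Jacobian matrix in the chart `i` -/
def DM (A : Atl 2 M) (F : M → Fin 2 → ℂ) (i : A.ι) (x : M) : Matrix (Fin 2) (Fin 2) ℂ :=
  DF (fun z => F ((A.e i).symm z)) (A.e i x)

/-- the kernel `ρ_e(F - y)` -/
def rhE (F : M → Fin 2 → ℂ) (y : Fin 2 → ℂ) (e : ℝ) (x : M) : ℝ :=
  rh (sqM F y x / e ^ 2) / e ^ 4

theorem rhE_nonneg (F : M → Fin 2 → ℂ) (y : Fin 2 → ℂ) (e : ℝ) (x : M) : 0 ≤ rhE F y e x :=
  div_nonneg (rh_nonneg (div_nonneg (sqM_nonneg F y x) (sq_nonneg e))) (by positivity)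

theorem tr_M {F : M → Fin 2 → ℂ} (hF : HolM A F) (y : Fin 2 → ℂ) {e : ℝ} (he : e ≠ 0) {i : A.ι}
    {x : M} (hx : x ∈ (A.e i).source) :
    ((hsf A (sqM F 0) i x).adjugate * hsf A (fun x => Gs e (sqM F y x)) i x).trace =
      ((‖(DM A F i x).det‖ ^ 2 * rhE F y e x : ℝ) : ℂ) := by
  have hz := (A.e i).map_source hx
  have h1 := trace_eq (F := fun z => F ((A.e i).symm z)) (A.e i).open_target (hF i) hz y he
  have h3 : ∀ z, sqM F y ((A.e i).symm z) =
      Crest.Agent.R273.FS_333.sq (fun w k => F ((A.e i).symm w) k - y k) z := fun z => rfl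
  unfold hsf
  rw [sqM_read]
  simp only [h3]
  rw [h1]
  unfold rhE DM
  rw [← h3, (A.e i).left_inv hx]

/-- `|det ∂F|² / h` -/
def J2 (h : HM (KB A)⁻¹) (F : M → Fin 2 → ℂ) (x : M) : ℝ :=
  ‖(DM A F (ci A x) x).det‖ ^ 2 / h.w (ci A x) x

theorem J2_nonneg (h : HM (KB A)⁻¹) (F : M → Fin 2 → ℂ) (x : M) : 0 ≤ J2 h F x :=
  div_nonneg (sq_nonneg _) (h.pos _ x (mem_ci x)).le

theorem det_hsf {F : M → Fin 2 → ℂ} (hF : HolM A F) {i : A.ι} {x : M}
    (hx : x ∈ (A.e i).source) :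
    (hsf A (sqM F 0) i x).det = ((‖(DM A F i x).det‖ ^ 2 : ℝ) : ℂ) := by
  have hz := (A.e i).map_source hx
  have h1 : hsf A (sqM F 0) i x = (DM A F i x)ᵀ * (DM A F i x).map conj := by
    ext p q
    unfold hsf
    rw [sqM_read, hess_sq (A.e i).open_target (hF i) hz p q, Matrix.mul_apply]
    rfl
  rw [h1, Matrix.det_mul, Matrix.det_transpose, det_map_conj, Complex.mul_conj,
    Complex.normSq_eq_norm_sq]

theorem J2_eq (h : HM (KB A)⁻¹) {F : M → Fin 2 → ℂ} (hF : HolM A F) {i : A.ι} {x : M}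
    (hx : x ∈ (A.e i).source) : J2 h F x = ‖(DM A F i x).det‖ ^ 2 / h.w i x := by
  have hd : Dn A (fun i x => (hsf A (sqM F 0) i x).det) := (hsf_tn (sqM_sm hF 0)).det
  have h1 := fH_div h hd hx
  simp only [fH] at h1
  rw [det_hsf hF hx, det_hsf hF (mem_ci x)] at h1
  unfold J2
  exact_mod_cast h1

theorem w_mul_J2 (h : HM (KB A)⁻¹) {F : M → Fin 2 → ℂ} (hF : HolM A F) {i : A.ι} {x : M}
    (hx : x ∈ (A.e i).source) : h.w i x * J2 h F x = ‖(DM A F i x).det‖ ^ 2 := by
  rw [J2_eq h hF hx, mul_div_cancel₀ _ (h.pos i x hx).ne']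

theorem fH_M (h : HM (KB A)⁻¹) {F : M → Fin 2 → ℂ} (hF : HolM A F) (y : Fin 2 → ℂ) {e : ℝ}
    (he : e ≠ 0) (f : M → ℝ) (x : M) :
    fH h (fun i x => (f x : ℂ) * ((hsf A (sqM F 0) i x).adjugate *
      hsf A (fun x => Gs e (sqM F y x)) i x).trace) x = ((f x * (J2 h F x * rhE F y e x) : ℝ) : ℂ) := by
  simp only [fH]
  rw [tr_M hF y he (mem_ci x)]
  unfold J2
  push_cast
  ring

section meas

variable [T2Space M] [MeasurableSpace M] [BorelSpace M] [Countable A.ι]

theorem rhE_cont {F : M → Fin 2 → ℂ} (hF : HolM A F) (y : Fin 2 → ℂ) (e : ℝ) :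
    Continuous (rhE F y e) :=
  (rh_cont.comp ((sm_continuous (sqM_sm hF y)).div_const _)).div_const _

theorem J2_cont (h : HM (KB A)⁻¹) {F : M → Fin 2 → ℂ} (hF : HolM A F) : Continuous (J2 h F) := by
  have hd : Dn A (fun i x => (hsf A (sqM F 0) i x).det) := (hsf_tn (sqM_sm hF 0)).det
  have hs : ∀ i, A.SmAt i (fun x => (hsf A (sqM F 0) i x).det) := by
    intro i
    have h1 : (fun x => (hsf A (sqM F 0) i x).det) = fun x => hsf A (sqM F 0) i x 0 0 *
        hsf A (sqM F 0) i x 1 1 - hsf A (sqM F 0) i x 0 1 * hsf A (sqM F 0) i x 1 0 := by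
      funext x
      rw [Matrix.det_fin_two]
    rw [h1]
    have hc := (hsf_cf (sqM_sm hF 0)).sm i
    exact ContDiffOn.sub (ContDiffOn.mul (hc 0 0) (hc 1 1)) (ContDiffOn.mul (hc 0 1) (hc 1 0))
  have h2 : J2 h F = fun x => (fH h (fun i x => (hsf A (sqM F 0) i x).det) x).re := by
    funext x
    simp only [fH, J2]
    rw [det_hsf hF (mem_ci x), ← Complex.ofReal_div, Complex.ofReal_re]
  rw [h2]
  exact Complex.continuous_re.comp (sm_continuous (sm_fH h hd hs))

theorem rhE_zero {F : M → Fin 2 → ℂ} {y : Fin 2 → ℂ} {e : ℝ} (he : 0 < e) {x : M}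
    (hx : e ^ 2 < sqM F y x) : rhE F y e x = 0 := by
  unfold rhE
  rw [rh_zero, zero_div]
  have : 1 ≤ sqM F y x / e ^ 2 := (one_le_div (by positivity)).2 hx.le
  linarith

/-- **the inequality of kernels** -/
theorem mono_int (h : HM (KB A)⁻¹) (P : Part A) {F : M → Fin 2 → ℂ} (hF : HolM A F)
    {f : M → ℝ} (hf : A.Sm f) (hp : ∀ i, ∀ x ∈ (A.e i).source, (hsf A f i x).PosSemidef)
    (y : Fin 2 → ℂ) {e r : ℝ} (he : 0 < e) (her : e ≤ r)
    (hK : IsCompact {x | sqM F y x ≤ r ^ 2}) :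
    ∫ x, f x * (J2 h F x * rhE F y e x) ∂(vm h) ≤
      ∫ x, f x * (J2 h F x * rhE F y r x) ∂(vm h) := by
  have hr : 0 < r := he.trans_le her
  set w : M → ℝ := sqM F 0 with hw
  have hws : A.Sm w := sqM_sm hF 0
  set K : Set M := {x | sqM F y x ≤ r ^ 2} with hKd
  set φ : M → ℝ := fun x => Gs r (sqM F y x) - Gs e (sqM F y x) with hφ
  have hse := Gs_sm hF y he.ne'
  have hsr := Gs_sm hF y hr.ne'
  have hφs : A.Sm φ := fun i => (hsr i).sub (hse i)
  have hφ0 : ∀ x ∉ K, φ x = 0 := by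
    intro x hx
    have h1 : r ^ 2 ≤ sqM F y x := (not_le.1 hx).le
    have h2 : e ^ 2 ≤ r ^ 2 := pow_le_pow_left₀ he.le her 2
    simp only [hφ]
    rw [Gs_eq hr h1, Gs_eq he (h2.trans h1), sub_self]
  have hφn : ∀ x, 0 ≤ φ x := fun x => sub_nonneg.2 (Gs_mono he her (sqM_nonneg F y x))
  set Fs := Fn P hK with hFs
  have hFr : Fn P hK ⊆ Fs := Finset.Subset.refl _
  have hg := green_sym P hws hf hφs hK hFr hφ0
  -- the left hand side
  have hfc : ∀ i, A.SmAt i (fun x => (f x : ℂ)) := fun i => smAt_ofReal (hf i)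
  have dmul : ∀ (g : M → ℂ) {d : A.ι → M → ℂ}, Dn A d → Dn A (fun i x => g x * d i x) := by
    intro g d hd i j x hx
    change g x * d i x = dens A i j x * (g x * d j x)
    rw [hd i j x hx]
    ring
  have hd1 : Dn A (fun i x => ((hsf A w i x).adjugate * hsf A f i x).trace) :=
    trA_dn (hsf_tn hws) (hsf_tn hf)
  have hL : 0 ≤ (tot P Fs (fun i x => (φ x : ℂ) *
      ((hsf A w i x).adjugate * hsf A f i x).trace)).re := by
    rw [tot_eq h P (dmul (fun x => (φ x : ℂ)) hd1)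
      (fun i => (smAt_ofReal (hφs i)).mul (smAt_trA (hsf_cf hws) (hsf_cf hf) i)) hK hFr]
    · have hi : Integrable (fH h (fun i x => (φ x : ℂ) *
          ((hsf A w i x).adjugate * hsf A f i x).trace)) (vm h) := by
        refine integrable_cs h (sm_continuous (sm_fH h (dmul (fun x => (φ x : ℂ)) hd1)
          (fun i => (smAt_ofReal (hφs i)).mul (smAt_trA (hsf_cf hws) (hsf_cf hf) i)))) hK ?_
        intro x hx
        simp only [fH, hφ0 x hx, ofReal_zero, zero_mul, zero_div]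
      have h3 := integral_re hi
      change ∫ x, (fH h (fun i x => (φ x : ℂ) *
          ((hsf A w i x).adjugate * hsf A f i x).trace) x).re ∂(vm h) =
        (∫ x, fH h (fun i x => (φ x : ℂ) *
          ((hsf A w i x).adjugate * hsf A f i x).trace) x ∂(vm h)).re at h3
      rw [← h3]
      refine integral_nonneg fun x => ?_
      have hx := mem_ci (A := A) x
      change 0 ≤ ((φ x : ℂ) * ((hsf A w (ci A x) x).adjugate * hsf A f (ci A x) x).trace /
        ((h.w (ci A x) x : ℝ) : ℂ)).re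
      rw [Complex.div_ofReal_re, Complex.re_ofReal_mul]
      exact div_nonneg (mul_nonneg (hφn x) (Complex.le_def.1
        (adj_tr_nn (hsf_sqM_psd hF hx) (hp _ x hx))).1) (h.pos _ x hx).le
    · intro x hx
      simp only [fH, hφ0 x hx, ofReal_zero, zero_mul, zero_div]
  rw [hg] at hL
  -- the right hand side
  have hdE : ∀ s : ℝ, s ≠ 0 → Dn A (fun i x => ((hsf A w i x).adjugate *
      hsf A (fun x => Gs s (sqM F y x)) i x).trace) := fun s hs =>
    trA_dn (hsf_tn hws) (hsf_tn (Gs_sm hF y hs))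
  have hsE : ∀ s : ℝ, s ≠ 0 → ∀ i, A.SmAt i (fun x => (f x : ℂ) * ((hsf A w i x).adjugate *
      hsf A (fun x => Gs s (sqM F y x)) i x).trace) := fun s hs i =>
    (hfc i).mul (smAt_trA (hsf_cf hws) (hsf_cf (Gs_sm hF y hs)) i)
  have hR : tot P Fs (fun i x => (f x : ℂ) * ((hsf A w i x).adjugate * hsf A φ i x).trace) =
      tot P Fs (fun i x => (f x : ℂ) * ((hsf A w i x).adjugate *
        hsf A (fun x => Gs r (sqM F y x)) i x).trace) -
      tot P Fs (fun i x => (f x : ℂ) * ((hsf A w i x).adjugate *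
        hsf A (fun x => Gs e (sqM F y x)) i x).trace) := by
    rw [← tot_sub P Fs (f := fun i x => (f x : ℂ) * ((hsf A w i x).adjugate *
        hsf A (fun x => Gs r (sqM F y x)) i x).trace) (g := fun i x => (f x : ℂ) *
        ((hsf A w i x).adjugate * hsf A (fun x => Gs e (sqM F y x)) i x).trace)
      (hsE r hr.ne') (hsE e he.ne')]
    refine tot_congr P Fs fun i _ x hx => ?_
    have hz := (A.e i).map_source hx
    have h1 : hsf A φ i x = hsf A (fun x => Gs r (sqM F y x)) i x -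
        hsf A (fun x => Gs e (sqM F y x)) i x := by
      unfold hsf
      exact hess_sub (sm_contDiffAt hsr i hz) (sm_contDiffAt hse i hz)
    rw [h1, Matrix.mul_sub, Matrix.trace_sub]
    ring
  have hT : ∀ s : ℝ, 0 < s → s ≤ r → (tot P Fs (fun i x => (f x : ℂ) *
      ((hsf A w i x).adjugate * hsf A (fun x => Gs s (sqM F y x)) i x).trace)).re =
      ∫ x, f x * (J2 h F x * rhE F y s x) ∂(vm h) := by
    intro s hs hsr'
    have h0 : ∀ x ∉ K, rhE F y s x = 0 := fun x hx =>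
      rhE_zero hs (lt_of_le_of_lt (pow_le_pow_left₀ hs.le hsr' 2) (not_le.1 hx))
    rw [tot_eq h P (dmul (fun x => (f x : ℂ)) (hdE s hs.ne')) (hsE s hs.ne') hK hFr]
    · have h2 : ∀ x, fH h (fun i x => (f x : ℂ) * ((hsf A w i x).adjugate *
          hsf A (fun x => Gs s (sqM F y x)) i x).trace) x =
          ((f x * (J2 h F x * rhE F y s x) : ℝ) : ℂ) := fun x => fH_M h hF y hs.ne' f x
      rw [integral_congr_ae (Eventually.of_forall h2)]
      have h5 : ∫ x, ((f x * (J2 h F x * rhE F y s x) : ℝ) : ℂ) ∂(vm h) =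
          ((∫ x, f x * (J2 h F x * rhE F y s x) ∂(vm h) : ℝ) : ℂ) := integral_ofReal (𝕜 := ℂ)
      rw [h5, Complex.ofReal_re]
    · intro x hx
      rw [fH_M h hF y hs.ne' f x, h0 x hx, mul_zero, mul_zero, ofReal_zero]
  rw [hR, Complex.sub_re, hT r hr le_rfl, hT e he her] at hL
  linarith

end meas

end two

end

end Crest.Agent.R257.Up3_938
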