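import Crest.Agent.R257.Cnm7_889
import Crest.Agent.R257.DetF_219
import Crest.Agent.R257.Up3_938
import Crest.Agent.R257.Atl5_941
import Crest.Agent.R257.UpK1_938
import Crest.Agent.R257.CNS_939

-- ▼ part R257/Fto_889
section

/-!
Row 257 (S0395), helper889: `FtoStmt` and `DetStmt`, literally.
-/

set_option autoImplicit false

open Set Filter Topology

noncomputable section

namespace Crest.Agent.R257.Fto_889

open Crest.Agent.R257.Defs_219 Crest.Agent.R257.Det_219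

theorem ftoStmt : FtoStmt := by
  intro f g h hf hg hh hf0 hg0 hh0 hfin
  obtain ⟨r, hr, H⟩ := Crest.Agent.R257.Cnm7_889.fto hf hg hh hf0 hg0 hh0 hfin
  refine ⟨col ![f, g, h], r, hr, fun y => ?_⟩
  refine le_trans (Set.encard_le_encard ?_) (H ![0, y 0, y 1])
  rintro x ⟨hx, h1, h2, h3⟩
  refine ⟨?_, ?_⟩
  · rw [Metric.mem_ball, dist_zero_right, pi_norm_lt_iff hr]
    exact hx
  · simp [h1, h2, h3]

theorem detStmt : DetStmt := detStmt_of ftoStmt

end Crest.Agent.R257.Fto_889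
end
end

-- ▼ part R257/Up4_938
section

/-!
# R257 (S0395), leaf E-UP (helper938), part 4: the local lower bound

* `c0`, `c0_pos`, `lint_ker` : the mass of the kernel
* `lower` : `a c0 ≤ ∫ f |∂F|² ρ_e(F - F x0)` for `e` small, `a < f(x0)`, `det ∂F (x0) ≠ 0`
-/

set_option autoImplicit false
set_option linter.unusedSectionVars false

open Set Filter Topology Complex MeasureTheory Module
open scoped ContDiff Matrix ComplexConjugate ComplexOrder ENNReal

namespace Crest.Agent.R257.Up4_938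

open Crest.Agent.R275 Crest.Agent.R275.Geo Crest.Agent.R275.Core144 Crest.Agent.R275.EDR890
open Crest.Agent.R275.Pai323 Crest.Agent.R275.C1d194
open Crest.Agent.R273.Defs_333 Crest.Agent.R273.HM_333 Crest.Agent.R273.Map_835
open Crest.Agent.R273.Vm_333 Crest.Agent.R273.GreenM_5
open Crest.Agent.R257.Atl_941 (det_mt hasFDerivAt_rc exists_invFun')
open Crest.Agent.R257.Up1_938 Crest.Agent.R257.Up2_938 Crest.Agent.R257.Up3_938

noncomputable section

/-! ### the kernel in `ℝ⁴` -/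

/-- `∑ z_p²` -/
def nsq (z : RI 2 → ℝ) : ℝ := ∑ p, z p ^ 2

theorem nsq_cont : Continuous nsq :=
  continuous_finsetSum _ fun p _ => (continuous_apply p).pow 2

theorem nsq_nonneg (z : RI 2 → ℝ) : 0 ≤ nsq z := Finset.sum_nonneg fun _ _ => sq_nonneg _

theorem nsq_smul (c : ℝ) (z : RI 2 → ℝ) : nsq (c • z) = c ^ 2 * nsq z := by
  unfold nsq
  rw [Finset.mul_sum]
  refine Finset.sum_congr rfl fun p _ => ?_
  rw [Pi.smul_apply, smul_eq_mul, mul_pow]

theorem norm_sq_le (z : RI 2 → ℝ) : ‖z‖ ^ 2 ≤ nsq z := by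
  have h1 : ‖z‖ ≤ √(nsq z) := by
    rw [pi_norm_le_iff_of_nonneg (Real.sqrt_nonneg _)]
    intro p
    rw [Real.norm_eq_abs]
    refine Real.abs_le_sqrt ?_
    exact Finset.single_le_sum (f := fun p => z p ^ 2) (fun _ _ => sq_nonneg _) (Finset.mem_univ p)
  calc ‖z‖ ^ 2 ≤ √(nsq z) ^ 2 := pow_le_pow_left₀ (norm_nonneg _) h1 2
    _ = nsq z := Real.sq_sqrt (nsq_nonneg z)

/-- the kernel -/
def ker (z : RI 2 → ℝ) : ℝ := rh (nsq z)

theorem ker_cont : Continuous ker := rh_cont.comp nsq_cont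

theorem ker_nonneg (z : RI 2 → ℝ) : 0 ≤ ker z := rh_nonneg (nsq_nonneg z)

theorem ker_zero {z : RI 2 → ℝ} (h : 1 ≤ nsq z) : ker z = 0 := rh_zero (by linarith)

theorem ker_cs : HasCompactSupport ker := by
  refine HasCompactSupport.intro (isCompact_closedBall (0 : RI 2 → ℝ) 1) fun z hz => ?_
  refine ker_zero ?_
  have h1 : 1 < ‖z‖ := by
    rw [Metric.mem_closedBall, dist_zero_right, not_le] at hz
    exact hz
  nlinarith [norm_sq_le z]

theorem ker_integrable : Integrable ker := ker_cont.integrable_of_hasCompactSupport ker_cs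

/-- the mass of the kernel -/
def c0 : ℝ := ∫ z, ker z

theorem c0_pos : 0 < c0 := by
  refine ker_cont.integral_pos_of_hasCompactSupport_nonneg_nonzero (x := Pi.single (0, 0) √(1 / 2))
    ker_cs ker_nonneg ?_
  have h1 : nsq (Pi.single (0, 0) √(1 / 2)) = 1 / 2 := by
    unfold nsq
    rw [Finset.sum_eq_single (0, 0)]
    · rw [Pi.single_eq_same, Real.sq_sqrt (by norm_num)]
    · intro p _ hp
      rw [Pi.single_eq_of_ne hp]
      norm_num
    · intro h
      exact absurd (Finset.mem_univ _) h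
  unfold ker
  rw [h1]
  exact rh_pos_half.ne'

/-- the kernel with centre `p` and radius `e` -/
def kerE (p : RI 2 → ℝ) (e : ℝ) (z : RI 2 → ℝ) : ℝ := rh (nsq (z - p) / e ^ 2) / e ^ 4

theorem kerE_eq (p : RI 2 → ℝ) (e : ℝ) (z : RI 2 → ℝ) :
    kerE p e z = (e ^ 4)⁻¹ * ker (e⁻¹ • (z - p)) := by
  unfold kerE ker
  rw [nsq_smul, div_eq_mul_inv (nsq (z - p)), mul_comm (nsq (z - p)), inv_pow, div_eq_inv_mul]

theorem kerE_nonneg (p : RI 2 → ℝ) (e : ℝ) (z : RI 2 → ℝ) : 0 ≤ kerE p e z := by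
  rw [kerE_eq]
  exact mul_nonneg (by positivity) (ker_nonneg _)

theorem kerE_zero {p : RI 2 → ℝ} {e : ℝ} (he : 0 < e) {z : RI 2 → ℝ}
    (h : e ^ 2 ≤ nsq (z - p)) : kerE p e z = 0 := by
  unfold kerE
  rw [rh_zero, zero_div]
  have : 1 ≤ nsq (z - p) / e ^ 2 := (one_le_div (by positivity)).2 h
  linarith


theorem integrable_kerE (p : RI 2 → ℝ) {e : ℝ} (he : 0 < e) : Integrable (kerE p e) := by
  have h : kerE p e = fun z => (e ^ 4)⁻¹ * ker (e⁻¹ • (z - p)) := funext (kerE_eq p e)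
  rw [h]
  refine Integrable.const_mul ?_ _
  exact (ker_integrable.comp_smul (inv_ne_zero he.ne')).comp_sub_right p

theorem integral_kerE (p : RI 2 → ℝ) {e : ℝ} (he : 0 < e) : ∫ z, kerE p e z = c0 := by
  have h : kerE p e = fun z => (e ^ 4)⁻¹ * ker (e⁻¹ • (z - p)) := funext (kerE_eq p e)
  rw [h, integral_const_mul]
  have h1 : ∫ z : RI 2 → ℝ, ker (e⁻¹ • (z - p)) = ∫ z, ker (e⁻¹ • z) :=
    integral_sub_right_eq_self (fun z => ker (e⁻¹ • z)) p
  rw [h1, Measure.integral_comp_inv_smul_of_nonneg volume ker he.le]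
  have h2 : finrank ℝ (RI 2 → ℝ) = 4 := by
    rw [finrank_pi]
    rfl
  rw [h2, smul_eq_mul, ← mul_assoc, inv_mul_cancel₀ (by positivity), one_mul]
  rfl

theorem lint_ker (p : RI 2 → ℝ) {e : ℝ} (he : 0 < e) :
    ∫⁻ z, ENNReal.ofReal (kerE p e z) = ENNReal.ofReal c0 := by
  rw [← ofReal_integral_eq_lintegral_ofReal (integrable_kerE p he)
    (Eventually.of_forall (kerE_nonneg p e)), integral_kerE p he]

/-! ### the lower bound -/

variable {M : Type} [TopologicalSpace M] {A : Atl 2 M}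

/-- `F` in the chart `i` as a map to `Cn 2` -/
def GG (A : Atl 2 M) (F : M → Fin 2 → ℂ) (i : A.ι) (z : Cn 2) : Cn 2 :=
  WithLp.toLp 2 (F ((A.e i).symm z))

theorem GG_apply (F : M → Fin 2 → ℂ) (i : A.ι) (z : Cn 2) (k : Fin 2) :
    GG A F i z k = F ((A.e i).symm z) k := rfl

theorem GG_diff {F : M → Fin 2 → ℂ} (hF : HolM A F) (i : A.ι) :
    DifferentiableOn ℂ (GG A F i) (A.e i).target := by
  rw [differentiableOn_euclidean]
  exact fun k => hF i k

theorem mt_GG {F : M → Fin 2 → ℂ} (hF : HolM A F) {i : A.ι} {z : Cn 2} (hz : z ∈ (A.e i).target) :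
    mt (fderiv ℂ (GG A F i) z) = DF (fun z => F ((A.e i).symm z)) z := by
  have h1 := (GG_diff hF i).differentiableAt ((A.e i).open_target.mem_nhds hz)
  ext b a
  have h2 : HasFDerivAt (fun z => GG A F i z b)
      ((EuclideanSpace.proj b : Cn 2 →L[ℂ] ℂ).comp (fderiv ℂ (GG A F i) z)) z :=
    (EuclideanSpace.proj b : Cn 2 →L[ℂ] ℂ).hasFDerivAt.comp z h1.hasFDerivAt
  have h3 : fderiv ℂ (fun z => F ((A.e i).symm z) b) z =
      (EuclideanSpace.proj b : Cn 2 →L[ℂ] ℂ).comp (fderiv ℂ (GG A F i) z) := h2.fderiv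
  change (fderiv ℂ (GG A F i) z (EuclideanSpace.single a 1)) b =
    fderiv ℂ (fun z => F ((A.e i).symm z) b) z (EuclideanSpace.single a 1)
  rw [h3]
  rfl

theorem sqM_nsq (F : M → Fin 2 → ℂ) (i : A.ι) (x0 : M) (z0 : Cn 2)
    (hz0 : ∀ k, z0 k = F x0 k) (y : RI 2 → ℝ) :
    sqM F (F x0) (sg A i y) = nsq (rc (GG A F i (cc y)) - rc z0) := by
  unfold sqM nsq
  rw [Fintype.sum_prod_type]
  refine Finset.sum_congr rfl fun k _ => ?_
  rw [Fin.sum_univ_two]
  simp only [Pi.sub_apply, rc, if_true, one_ne_zero, if_false]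
  rw [GG_apply, hz0, ← Complex.sub_re, ← Complex.sub_im, ← Complex.normSq_eq_norm_sq,
    Complex.normSq_apply]
  unfold sg
  ring

section meas

variable [T2Space M] [MeasurableSpace M] [BorelSpace M] [Countable A.ι]

theorem lower (h : HM (KB A)⁻¹) {F : M → Fin 2 → ℂ} (hF : HolM A F) {f : M → ℝ}
    (hf : Continuous f) {i : A.ι} {x0 : M} (hx0 : x0 ∈ (A.e i).source)
    (hdet : (DM A F i x0).det ≠ 0) {a : ℝ} (ha0 : 0 ≤ a) (ha : a < f x0) :
    ∃ e0 : ℝ, 0 < e0 ∧ ∀ e, 0 < e → e < e0 →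
      ENNReal.ofReal a * ENNReal.ofReal c0 ≤
        ∫⁻ x, ENNReal.ofReal (f x * (J2 h F x * rhE F (F x0) e x)) ∂(vm h) := by
  set z0 := A.e i x0 with hz0
  have hz0t : z0 ∈ (A.e i).target := (A.e i).map_source hx0
  have hGd := GG_diff hF i
  have hmt := mt_GG hF hz0t
  have hD : (fderiv ℂ (GG A F i) z0).det ≠ 0 := by
    change LinearMap.det (fderiv ℂ (GG A F i) z0 : Cn 2 →ₗ[ℂ] Cn 2) ≠ 0
    rw [← det_mt, hmt]
    exact hdet
  obtain ⟨R, hzR, hRs, hRG, -⟩ := exists_invFun' (A.e i).open_target hGd hz0t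
    ((fderiv ℂ (GG A F i) z0).toContinuousLinearEquivOfDetNeZero hD) (by
      rw [ContinuousLinearMap.coe_toContinuousLinearEquivOfDetNeZero]
      exact (hGd.differentiableAt ((A.e i).open_target.mem_nhds hz0t)).hasFDerivAt)
  set G := GG A F i with hG
  -- the open set
  set O : Set (Cn 2) := R.source ∩ ((A.e i).target ∩ (A.e i).symm ⁻¹' {x | a < f x}) with hO
  have hOo : IsOpen O := by
    refine R.open_source.inter ?_
    exact (A.e i).symm.isOpen_inter_preimage (isOpen_lt continuous_const hf)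
  have hz0O : z0 ∈ O := by
    refine ⟨hzR, hz0t, ?_⟩
    change a < f ((A.e i).symm (A.e i x0))
    rwa [(A.e i).left_inv hx0]
  have hRO : IsOpen (R '' O) := R.isOpen_image_of_subset_source hOo fun z hz => hz.1
  set S : Set (RI 2 → ℝ) := (fun y => cc y) ⁻¹' O with hS
  have hSo : IsOpen S := hOo.preimage continuous_cc
  have hSU : S ⊆ Ui A i := fun y hy => hy.2.1
  set Ψ : (RI 2 → ℝ) → (RI 2 → ℝ) := fun y => rc (G (cc y)) with hΨ
  set p0 : RI 2 → ℝ := rc (G z0) with hp0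
  have himg : Ψ '' S = (fun w => cc w) ⁻¹' (R '' O) := by
    ext w
    constructor
    · rintro ⟨y, hy, rfl⟩
      refine ⟨cc y, hy, ?_⟩
      change R (cc y) = cc (rc (G (cc y)))
      rw [cc_rc, hRG]
    · rintro ⟨z, hz, hzw⟩
      refine ⟨rc z, ?_, ?_⟩
      · change cc (rc z) ∈ O
        rw [cc_rc]; exact hz
      · change rc (G (cc (rc z))) = w
        rw [cc_rc, ← hRG, hzw]
        exact rc_cc w
  have hVo : IsOpen (Ψ '' S) := by rw [himg]; exact hRO.preimage continuous_cc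
  have hp0V : p0 ∈ Ψ '' S := by
    refine ⟨rc z0, ?_, ?_⟩
    · change cc (rc z0) ∈ O
      rw [cc_rc]; exact hz0O
    · change rc (G (cc (rc z0))) = p0
      rw [cc_rc]
  obtain ⟨e0, he0, hball⟩ := Metric.isOpen_iff.1 hVo p0 hp0V
  have hinj : InjOn Ψ S := by
    intro y hy y' hy' hyy
    have h1 : G (cc y) = G (cc y') := by
      have := congrArg (cc : (RI 2 → ℝ) → Cn 2) hyy
      change cc (rc (G (cc y))) = cc (rc (G (cc y'))) at this
      rwa [cc_rc, cc_rc] at this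
    rw [← hRG] at h1
    have h2 := R.injOn hy.1 hy'.1 h1
    have h3 := congrArg (rc : Cn 2 → RI 2 → ℝ) h2
    rwa [rc_cc, rc_cc] at h3
  have hL : ∀ y : RI 2 → ℝ, ∃ L : (RI 2 → ℝ) →L[ℝ] (RI 2 → ℝ), y ∈ S →
      (HasFDerivAt Ψ L y ∧ |L.det| = ‖(DM A F i (sg A i y)).det‖ ^ 2) := by
    intro y
    by_cases hy : y ∈ S
    · obtain ⟨L, hL1, hL2⟩ := hasFDerivAt_rc
        (hGd.differentiableAt ((A.e i).open_target.mem_nhds (hSU hy)))
      refine ⟨L, fun _ => ⟨hL1, ?_⟩⟩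
      rw [hL2, hG, mt_GG hF (hSU hy)]
      unfold DM sg
      rw [(A.e i).right_inv (hSU hy)]
    · exact ⟨0, fun h => absurd h hy⟩
  choose L hL using hL
  refine ⟨e0, he0, fun e he hee => ?_⟩
  have hcont : Continuous fun x => f x * (J2 h F x * rhE F (F x0) e x) :=
    hf.mul ((J2_cont h hF).mul (rhE_cont hF (F x0) e))
  have hz00 : ∀ k, G z0 k = F x0 k := by
    intro k
    rw [hG, GG_apply, hz0, (A.e i).left_inv hx0]
  have hrh : ∀ y, rhE F (F x0) e (sg A i y) = kerE p0 e (Ψ y) := by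
    intro y
    unfold rhE kerE
    rw [sqM_nsq F i x0 (G z0) hz00 y]
  calc ENNReal.ofReal a * ENNReal.ofReal c0
      = ENNReal.ofReal a * ∫⁻ w in Ψ '' S, ENNReal.ofReal (kerE p0 e w) := by
        rw [← lint_ker p0 he]
        congr 1
        symm
        refine setLIntegral_eq_of_support_subset ?_
        intro w hw
        by_contra hwV
        refine hw ?_
        change ENNReal.ofReal (kerE p0 e w) = 0
        rw [kerE_zero he, ENNReal.ofReal_zero]
        by_contra hlt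
        rw [not_le] at hlt
        refine hwV (hball ?_)
        rw [Metric.mem_ball, dist_eq_norm]
        have h1 := norm_sq_le (w - p0)
        have h2 : ‖w - p0‖ ^ 2 < e0 ^ 2 := by nlinarith
        exact lt_of_pow_lt_pow_left₀ 2 he0.le h2
    _ = ENNReal.ofReal a * ∫⁻ y in S, ENNReal.ofReal |(L y).det| *
          ENNReal.ofReal (kerE p0 e (Ψ y)) := by
        rw [lintegral_image_eq_lintegral_abs_det_fderiv_mul volume hSo.measurableSet
          (fun y hy => (hL y hy).1.hasFDerivWithinAt) hinj]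
    _ = ∫⁻ y in S, ENNReal.ofReal a * (ENNReal.ofReal |(L y).det| *
          ENNReal.ofReal (kerE p0 e (Ψ y))) := by
        rw [lintegral_const_mul' _ _ ENNReal.ofReal_ne_top]
    _ ≤ ∫⁻ y in S, Crest.Agent.R273.Vm_333.dn h i y *
          ENNReal.ofReal (f (sg A i y) * (J2 h F (sg A i y) * rhE F (F x0) e (sg A i y))) := by
        refine setLIntegral_mono' hSo.measurableSet fun y hy => ?_
        have hyU := hSU hy
        have hxs := sg_mem hyU
        have hw := h.pos i _ hxs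
        have hfa : a < f (sg A i y) := hy.2.2
        rw [(hL y hy).2, ← w_mul_J2 h hF hxs]
        unfold Crest.Agent.R273.Vm_333.dn
        rw [← ENNReal.ofReal_mul (mul_nonneg hw.le (J2_nonneg h F _)), ← ENNReal.ofReal_mul ha0,
          ← ENNReal.ofReal_mul hw.le]
        refine ENNReal.ofReal_le_ofReal ?_
        rw [hrh]
        have h1 : 0 ≤ h.w i (sg A i y) * J2 h F (sg A i y) * kerE p0 e (Ψ y) :=
          mul_nonneg (mul_nonneg hw.le (J2_nonneg h F _)) (kerE_nonneg _ _ _)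
        nlinarith
    _ ≤ ∫⁻ y in Ui A i, Crest.Agent.R273.Vm_333.dn h i y *
          ENNReal.ofReal (f (sg A i y) * (J2 h F (sg A i y) * rhE F (F x0) e (sg A i y))) :=
        lintegral_mono_set hSU
    _ = ∫⁻ x in (A.e i).source,
          ENNReal.ofReal (f x * (J2 h F x * rhE F (F x0) e x)) ∂(vm h) := by
        rw [setLIntegral_vm h i hcont.measurable.ennreal_ofReal]
    _ ≤ _ := setLIntegral_le_lintegral _ _

end meas

end

end Crest.Agent.R257.Up4_938
end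

-- ▼ part R257/Up5_938
section

/-!
# R257 (S0395), leaf E-UP (helper938), part 5: the upper bound

`up` : `M` surface, `F : M → ℂ²` holomorphic and proper over `{0 < |y|² < δ}`, `u` psh,
`∫ e^u dm ≤ M0`, `|det ∂F|²/h ≤ C1 |F|^{2q}` ⟹ `e^u ≤ K(q) C1 M0 |F|^{2(q-2)}`
where `|F|² < 4δ/9`.  (`dm = vm h`; `q = 2 + 1/k`: `u ≤ (1/k) log |F|² + C`.)
-/

set_option autoImplicit false
set_option linter.unusedSectionVars false

open Set Filter Topology Complex MeasureTheory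
open scoped ContDiff Matrix ComplexConjugate ComplexOrder ENNReal

namespace Crest.Agent.R257.Up5_938

open Crest.Agent.R275 Crest.Agent.R275.Geo Crest.Agent.R275.Core144 Crest.Agent.R275.EDR890
open Crest.Agent.R275.Pai323 Crest.Agent.R275.C1d194
open Crest.Agent.R273.Defs_333 Crest.Agent.R273.HM_333 Crest.Agent.R273.Kah_333
open Crest.Agent.R273.Vm_333 Crest.Agent.R273.GreenM_5
open Crest.Agent.R257.Up1_938 Crest.Agent.R257.Up2_938 Crest.Agent.R257.Up3_938
open Crest.Agent.R257.Up4_938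

noncomputable section

variable {M : Type} [TopologicalSpace M] {A : Atl 2 M}

theorem sqM_norm (F : M → Fin 2 → ℂ) (y : Fin 2 → ℂ) (x : M) :
    sqM F y x = ‖(WithLp.toLp 2 (F x) : Cn 2) - WithLp.toLp 2 y‖ ^ 2 := by
  rw [EuclideanSpace.norm_sq_eq]
  rfl

theorem sqM_norm0 (F : M → Fin 2 → ℂ) (x : M) :
    sqM F 0 x = ‖(WithLp.toLp 2 (F x) : Cn 2)‖ ^ 2 := by
  rw [sqM_norm]
  congr 2
  ext k
  simp

theorem sqM_range (F : M → Fin 2 → ℂ) {x0 x : M} (h : sqM F (F x0) x ≤ sqM F 0 x0 / 4) :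
    sqM F 0 x0 / 4 ≤ sqM F 0 x ∧ sqM F 0 x ≤ 9 / 4 * sqM F 0 x0 := by
  rw [sqM_norm] at h
  rw [sqM_norm0, sqM_norm0] at *
  set a : Cn 2 := WithLp.toLp 2 (F x) with ha
  set b : Cn 2 := WithLp.toLp 2 (F x0) with hb
  have h1 : ‖a - b‖ ≤ ‖b‖ / 2 := by
    refine le_of_sq_le_sq ?_ (by positivity)
    nlinarith
  have h2 : ‖a‖ ≤ ‖a - b‖ + ‖b‖ := by
    have := norm_add_le (a - b) b
    rwa [sub_add_cancel] at this
  have h3 : ‖b‖ ≤ ‖a - b‖ + ‖a‖ := by
    have := norm_add_le (b - a) a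
    rw [sub_add_cancel, norm_sub_rev] at this
    exact this
  have h4 := norm_nonneg a
  have h5 := norm_nonneg b
  constructor
  · nlinarith
  · nlinarith

/-- a bound of `rh` -/
def Brh : ℝ := exists_rh_le.choose

theorem Brh_nonneg : 0 ≤ Brh := exists_rh_le.choose_spec.1

theorem rh_le {t : ℝ} (ht : 0 ≤ t) : rh t ≤ Brh := exists_rh_le.choose_spec.2 t ht

/-- the constant -/
def Kup (q : ℝ) : ℝ := 16 * (Brh + 1) * (9 / 4) ^ q / c0

theorem Kup_pos (q : ℝ) : 0 < Kup q := by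
  have := c0_pos
  have := Brh_nonneg
  unfold Kup
  positivity

section meas

variable [T2Space M] [MeasurableSpace M] [BorelSpace M] [Countable A.ι]

theorem J2_ne {h : HM (KB A)⁻¹} {F : M → Fin 2 → ℂ} {x : M} (hx : J2 h F x ≠ 0) :
    (DM A F (ci A x) x).det ≠ 0 := by
  intro h0
  refine hx ?_
  unfold J2
  rw [h0, norm_zero]
  simp

/-- the bound at a point where `F` is a local coordinate system -/
theorem up_at (h : HM (KB A)⁻¹) (P : Part A) {F : M → Fin 2 → ℂ} (hF : HolM A F)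
    {u : M → ℝ} (hu : A.Sm u) (hpsh : ∀ i, ∀ x ∈ (A.e i).source, (hsf A u i x).PosSemidef)
    {q C1 M0 δ : ℝ} (hq : 0 ≤ q) (hC1 : 0 ≤ C1) (hM : 0 ≤ M0)
    (hM0 : ∫⁻ x in {x | sqM F 0 x < δ}, ENNReal.ofReal (Real.exp (u x)) ∂(vm h) ≤
      ENNReal.ofReal M0)
    (hJ : ∀ x, 0 < sqM F 0 x → sqM F 0 x < δ → J2 h F x ≤ C1 * (sqM F 0 x) ^ q)
    {x0 : M} (hd : J2 h F x0 ≠ 0) (hs0 : 0 < sqM F 0 x0) (hs : 9 / 4 * sqM F 0 x0 < δ)
    (hK : IsCompact {x | sqM F 0 x0 / 4 ≤ sqM F 0 x ∧ sqM F 0 x ≤ 9 / 4 * sqM F 0 x0}) :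
    Real.exp (u x0) ≤ Kup q * C1 * M0 * (sqM F 0 x0) ^ (q - 2) := by
  set s := sqM F 0 x0 with hsd
  set r : ℝ := √s / 2 with hr
  have hr0 : 0 < r := by positivity
  have hr2 : r ^ 2 = s / 4 := by
    rw [hr, div_pow, Real.sq_sqrt hs0.le]
    norm_num
  have hr4 : r ^ 4 = s ^ 2 / 16 := by
    have : r ^ 4 = (r ^ 2) ^ 2 := by ring
    rw [this, hr2]
    ring
  have hKr : IsCompact {x | sqM F (F x0) x ≤ r ^ 2} := by
    refine hK.of_isClosed_subset
      (isClosed_le (sm_continuous (sqM_sm hF (F x0))) continuous_const) fun x hx => ?_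
    have hx' : sqM F (F x0) x ≤ s / 4 := by rw [← hr2]; exact hx
    exact sqM_range F hx'
  set f : M → ℝ := fun x => Real.exp (u x) with hfd
  have hfs : A.Sm f := exp_sm hu
  have hfc : Continuous f := sm_continuous hfs
  have hfp : ∀ x, 0 < f x := fun x => Real.exp_pos _
  have hcont : ∀ e, Continuous fun x => f x * (J2 h F x * rhE F (F x0) e x) := fun e =>
    hfc.mul ((J2_cont h hF).mul (rhE_cont hF (F x0) e))
  have hnn : ∀ e x, 0 ≤ f x * (J2 h F x * rhE F (F x0) e x) := fun e x =>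
    mul_nonneg (hfp x).le (mul_nonneg (J2_nonneg h F x) (rhE_nonneg F (F x0) e x))
  have hint : ∀ e, 0 < e → e ≤ r →
      Integrable (fun x => f x * (J2 h F x * rhE F (F x0) e x)) (vm h) := by
    intro e he her
    refine integrable_cs h (hcont e) hKr fun x hx => ?_
    rw [rhE_zero he (lt_of_le_of_lt (pow_le_pow_left₀ he.le her 2) (not_le.1 hx)), mul_zero,
      mul_zero]
  set Cc : ℝ := C1 * (9 / 4 * s) ^ q * ((Brh + 1) / r ^ 4) with hCc
  have hB := Brh_nonneg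
  have hCc0 : 0 ≤ Cc := by positivity
  -- the upper bound
  have hub : ∫⁻ x, ENNReal.ofReal (f x * (J2 h F x * rhE F (F x0) r x)) ∂(vm h) ≤
      ENNReal.ofReal (Cc * M0) := by
    have h1 : ∀ x, ENNReal.ofReal (f x * (J2 h F x * rhE F (F x0) r x)) ≤
        ({x | sqM F 0 x < δ} : Set M).indicator
          (fun x => ENNReal.ofReal Cc * ENNReal.ofReal (Real.exp (u x))) x := by
      intro x
      by_cases hx : sqM F (F x0) x ≤ r ^ 2
      · have hx' : sqM F (F x0) x ≤ s / 4 := by rw [← hr2]; exact hx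
        obtain ⟨hlo, hhi⟩ := sqM_range F hx'
        have hxδ : sqM F 0 x < δ := lt_of_le_of_lt hhi hs
        rw [indicator_of_mem (show x ∈ {x | sqM F 0 x < δ} from hxδ), ← ENNReal.ofReal_mul hCc0]
        refine ENNReal.ofReal_le_ofReal ?_
        have h2 : J2 h F x ≤ C1 * (9 / 4 * s) ^ q :=
          (hJ x (lt_of_lt_of_le (by positivity) hlo) hxδ).trans (mul_le_mul_of_nonneg_left
            (Real.rpow_le_rpow (sqM_nonneg F 0 x) hhi hq) hC1)
        have h3 : rhE F (F x0) r x ≤ (Brh + 1) / r ^ 4 := by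
          unfold rhE
          refine div_le_div_of_nonneg_right ?_ (by positivity)
          linarith [rh_le (t := sqM F (F x0) x / r ^ 2)
            (div_nonneg (sqM_nonneg F (F x0) x) (sq_nonneg r))]
        have h4 : J2 h F x * rhE F (F x0) r x ≤ Cc :=
          mul_le_mul h2 h3 (rhE_nonneg F (F x0) r x) (by positivity)
        calc f x * (J2 h F x * rhE F (F x0) r x) ≤ f x * Cc :=
              mul_le_mul_of_nonneg_left h4 (hfp x).le
          _ = Cc * Real.exp (u x) := mul_comm _ _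
      · rw [rhE_zero hr0 (not_le.1 hx), mul_zero, mul_zero, ENNReal.ofReal_zero]
        exact zero_le
    have hms : MeasurableSet {x | sqM F 0 x < δ} :=
      (isOpen_lt (sm_continuous (sqM_sm hF 0)) continuous_const).measurableSet
    calc ∫⁻ x, ENNReal.ofReal (f x * (J2 h F x * rhE F (F x0) r x)) ∂(vm h)
        ≤ ∫⁻ x, ({x | sqM F 0 x < δ} : Set M).indicator
          (fun x => ENNReal.ofReal Cc * ENNReal.ofReal (Real.exp (u x))) x ∂(vm h) :=
          lintegral_mono h1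
      _ = ∫⁻ x in {x | sqM F 0 x < δ},
          ENNReal.ofReal Cc * ENNReal.ofReal (Real.exp (u x)) ∂(vm h) := lintegral_indicator hms _
      _ = ENNReal.ofReal Cc * ∫⁻ x in {x | sqM F 0 x < δ},
          ENNReal.ofReal (Real.exp (u x)) ∂(vm h) := lintegral_const_mul' _ _ ENNReal.ofReal_ne_top
      _ ≤ ENNReal.ofReal Cc * ENNReal.ofReal M0 := mul_le_mul_right hM0 _
      _ = ENNReal.ofReal (Cc * M0) := (ENNReal.ofReal_mul hCc0).symm
  -- the main inequality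
  have hmain : ∀ a, 0 ≤ a → a < f x0 → a * c0 ≤ Cc * M0 := by
    intro a ha0 ha
    obtain ⟨e0, he0, hlow⟩ := lower h hF hfc (mem_ci x0) (J2_ne hd) ha0 ha
    set e : ℝ := min (e0 / 2) r with hed
    have he : 0 < e := lt_min (by positivity) hr0
    have h1 := hlow e he (lt_of_le_of_lt (min_le_left _ _) (by linarith))
    have her : e ≤ r := min_le_right _ _
    have h2 := mono_int h P hF hfs (fun i x hx => hsf_exp_psd hu hx (hpsh i x hx)) (F x0) he her
      hKr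
    have h3 : ∀ t, 0 < t → t ≤ r →
        ∫⁻ x, ENNReal.ofReal (f x * (J2 h F x * rhE F (F x0) t x)) ∂(vm h) =
        ENNReal.ofReal (∫ x, f x * (J2 h F x * rhE F (F x0) t x) ∂(vm h)) := fun t ht htr =>
      (ofReal_integral_eq_lintegral_ofReal (hint t ht htr)
        (Eventually.of_forall (hnn t))).symm
    rw [h3 e he her] at h1
    rw [h3 r hr0 le_rfl] at hub
    have h4 := h1.trans ((ENNReal.ofReal_le_ofReal h2).trans hub)
    rw [← ENNReal.ofReal_mul ha0] at h4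
    exact (ENNReal.ofReal_le_ofReal_iff (mul_nonneg hCc0 hM)).1 h4
  have hc := c0_pos
  have hfin : f x0 * c0 ≤ Cc * M0 := by
    by_contra hlt
    rw [not_le] at hlt
    have h1 : Cc * M0 / c0 < f x0 := (div_lt_iff₀ hc).2 hlt
    have h0 : 0 ≤ Cc * M0 / c0 := by positivity
    have h2 := hmain ((Cc * M0 / c0 + f x0) / 2) (by linarith) (by linarith)
    have h3 : Cc * M0 / c0 * c0 = Cc * M0 := div_mul_cancel₀ _ hc.ne'
    have h4 : (Cc * M0 / c0 + f x0) / 2 * c0 = (Cc * M0 + f x0 * c0) / 2 := by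
      rw [← h3]
      field_simp
    rw [h4] at h2
    linarith
  have hpow : s ^ q = s ^ (q - 2) * s ^ 2 := by
    rw [← Real.rpow_natCast s 2, ← Real.rpow_add hs0]
    congr 1
    norm_num
  calc Real.exp (u x0) = f x0 := rfl
    _ ≤ Cc * M0 / c0 := (le_div_iff₀ hc).2 hfin
    _ = Kup q * C1 * M0 * s ^ (q - 2) := by
        rw [hCc, hr4, Real.mul_rpow (by norm_num) hs0.le, hpow]
        unfold Kup
        have : s ≠ 0 := hs0.ne'
        field_simp

/-- **(UP)** the upper bound -/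
theorem up (h : HM (KB A)⁻¹) (P : Part A) {F : M → Fin 2 → ℂ} (hF : HolM A F)
    {u : M → ℝ} (hu : A.Sm u) (hpsh : ∀ i, ∀ x ∈ (A.e i).source, (hsf A u i x).PosSemidef)
    {q C1 M0 δ : ℝ} (hq : 0 ≤ q) (hC1 : 0 ≤ C1) (hM : 0 ≤ M0)
    (hM0 : ∫⁻ x in {x | sqM F 0 x < δ}, ENNReal.ofReal (Real.exp (u x)) ∂(vm h) ≤
      ENNReal.ofReal M0)
    (hJ : ∀ x, 0 < sqM F 0 x → sqM F 0 x < δ → J2 h F x ≤ C1 * (sqM F 0 x) ^ q)
    (hK : ∀ a b, 0 < a → b < δ → IsCompact {x | a ≤ sqM F 0 x ∧ sqM F 0 x ≤ b})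
    (hd : Dense {x | J2 h F x ≠ 0}) {x : M} (hs0 : 0 < sqM F 0 x)
    (hs : 9 / 4 * sqM F 0 x < δ) :
    Real.exp (u x) ≤ Kup q * C1 * M0 * (sqM F 0 x) ^ (q - 2) := by
  set U : Set M := {x | 0 < sqM F 0 x ∧ 9 / 4 * sqM F 0 x < δ} with hU
  have hc := sm_continuous (sqM_sm hF 0)
  have hUo : IsOpen U := (isOpen_lt continuous_const hc).inter
    (isOpen_lt (continuous_const.mul hc) continuous_const)
  have hxc : x ∈ closure (U ∩ {x | J2 h F x ≠ 0}) :=
    hd.open_subset_closure_inter hUo ⟨hs0, hs⟩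
  refine ContinuousWithinAt.closure_le (f := fun x => Real.exp (u x))
    (g := fun x => Kup q * C1 * M0 * (sqM F 0 x) ^ (q - 2)) hxc ?_ ?_ ?_
  · exact (sm_continuous (exp_sm hu)).continuousWithinAt
  · exact (continuousAt_const.mul (hc.continuousAt.rpow_const (Or.inl hs0.ne'))).continuousWithinAt
  · rintro y ⟨⟨hy0, hy1⟩, hy2⟩
    exact up_at h P hF hu hpsh hq hC1 hM hM0 hJ hy2 hy0 hy1 (hK _ _ (by positivity) hy1)

/-- logarithmic form -/
theorem up_log (h : HM (KB A)⁻¹) (P : Part A) {F : M → Fin 2 → ℂ} (hF : HolM A F)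
    {u : M → ℝ} (hu : A.Sm u) (hpsh : ∀ i, ∀ x ∈ (A.e i).source, (hsf A u i x).PosSemidef)
    {q C1 M0 δ : ℝ} (hq : 0 ≤ q) (hC1 : 0 < C1) (hM : 0 < M0)
    (hM0 : ∫⁻ x in {x | sqM F 0 x < δ}, ENNReal.ofReal (Real.exp (u x)) ∂(vm h) ≤
      ENNReal.ofReal M0)
    (hJ : ∀ x, 0 < sqM F 0 x → sqM F 0 x < δ → J2 h F x ≤ C1 * (sqM F 0 x) ^ q)
    (hK : ∀ a b, 0 < a → b < δ → IsCompact {x | a ≤ sqM F 0 x ∧ sqM F 0 x ≤ b})
    (hd : Dense {x | J2 h F x ≠ 0}) {x : M} (hs0 : 0 < sqM F 0 x)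
    (hs : 9 / 4 * sqM F 0 x < δ) :
    u x ≤ (q - 2) * Real.log (sqM F 0 x) + Real.log (Kup q * C1 * M0) := by
  have h1 := up h P hF hu hpsh hq hC1.le hM.le hM0 hJ hK hd hs0 hs
  have hk := Kup_pos q
  have h2 : 0 < Kup q * C1 * M0 := by positivity
  have h3 := Real.log_le_log (Real.exp_pos _) h1
  rw [Real.log_exp, Real.log_mul h2.ne' (Real.rpow_pos_of_pos hs0 _).ne', Real.log_rpow hs0] at h3
  linarith

end meas

end

end Crest.Agent.R257.Up5_938
end

-- ▼ part R257/UpK2_938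
section

/-!
# R257 (S0395), UPStmt (helper938), part 2: preliminaries

* `inf_fibre`    : `{G, H} = 0` on an open set ⟹ some fibre of `(G, H)` is infinite
* `isolated`     : `ColFin G` ⟹ the common zero is isolated
* `IsNu.mono`, `PE.mono`
-/

set_option autoImplicit false
set_option linter.unusedSectionVars false

open Set Filter Topology Complex MeasureTheory
open scoped ContDiff Matrix ComplexConjugate ENNReal

namespace Crest.Agent.R257.UpK_938

open Crest.Agent.R275.Geo Crest.Agent.R275.Core144 Crest.Agent.R275.EDR890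
open Crest.Agent.R275.Pai323 Crest.Agent.R275.C1d194
open Crest.Agent.R273.Defs_333 Crest.Agent.R273.Vm_333
open Crest.Agent.R257.Defs_219 Crest.Agent.R257.KED_952 Crest.Agent.R257.V1Defs_822
open Crest.Agent.R257.PN_835 (nsq)
open Crest.Agent.R257.Aff_835 (eta2a)
open Crest.Agent.R257.Jac_39 (jc ee)

open Crest.Agent.R257.Atl_941 (exists_invFun')

noncomputable section

/-! ### infinite fibres -/

theorem v_eq (v : Cn 2) : v = v 0 • ee 0 + v 1 • ee 1 := by
  ext k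
  fin_cases k <;> simp [ee]

theorem ker_jc {G H : Cn 2 → ℂ} {z : Cn 2} (hG : fderiv ℂ G z ≠ 0) (hJ : jc G H z = 0) {v : Cn 2}
    (hv : fderiv ℂ G z v = 0) : fderiv ℂ H z v = 0 := by
  have h1 : fderiv ℂ G z v = v 0 * fderiv ℂ G z (ee 0) + v 1 * fderiv ℂ G z (ee 1) := by
    conv_lhs => rw [v_eq v, map_add, map_smul, map_smul, smul_eq_mul, smul_eq_mul]
  have h2 : fderiv ℂ H z v = v 0 * fderiv ℂ H z (ee 0) + v 1 * fderiv ℂ H z (ee 1) := by
    conv_lhs => rw [v_eq v, map_add, map_smul, map_smul, smul_eq_mul, smul_eq_mul]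
  unfold jc at hJ
  rw [h1] at hv
  rw [h2]
  set a := fderiv ℂ G z (ee 0) with ha
  set b := fderiv ℂ G z (ee 1) with hb
  set c := fderiv ℂ H z (ee 0) with hc
  set d := fderiv ℂ H z (ee 1) with hd
  by_cases h3 : a = 0
  · have h4 : b ≠ 0 := by
      intro h4
      apply hG
      ext w
      rw [v_eq w, map_add, map_smul, map_smul, ← ha, ← hb, h3, h4]
      simp
    rw [h3] at hv hJ
    have h5 : v 1 = 0 := by
      have : v 1 * b = 0 := by linear_combination hv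
      exact (mul_eq_zero.1 this).resolve_right h4
    have h6 : c = 0 := by
      have : b * c = 0 := by linear_combination -hJ
      exact (mul_eq_zero.1 this).resolve_left h4
    rw [h5, h6]
    ring
  · have h4 : a * (v 0 * c + v 1 * d) = 0 := by linear_combination c * hv + v 1 * hJ
    exact (mul_eq_zero.1 h4).resolve_left h3

/-- at a point where `dG ≠ 0` -/
theorem inf_fibre_aux {G H : Cn 2 → ℂ} {U : Set (Cn 2)} (hU : IsOpen U)
    (hG : DifferentiableOn ℂ G U) (hH : DifferentiableOn ℂ H U) (hJ : ∀ z ∈ U, jc G H z = 0)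
    {p : Cn 2} (hp : p ∈ U) (hd : fderiv ℂ G p ≠ 0) :
    {z ∈ U | G z = G p ∧ H z = H p}.Infinite := by
  -- the direction
  obtain ⟨j, hj⟩ : ∃ j : Fin 2, fderiv ℂ G p (ee j) ≠ 0 := by
    by_contra hcon
    push Not at hcon
    apply hd
    ext w
    rw [v_eq w, map_add, map_smul, map_smul, hcon 0, hcon 1]
    simp
  set l : Fin 2 := 1 - j with hl
  have hlj : l ≠ j := by
    rw [hl]
    fin_cases j <;> decide
  have hjl : ∀ k : Fin 2, k = j ∨ k = l := by
    rw [hl]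
    intro k
    fin_cases j <;> fin_cases k <;> decide
  -- the coordinates
  set Φ : Cn 2 → Cn 2 := fun z => WithLp.toLp 2 (fun k => if k = j then G z else z l) with hΦ
  have hΦj : ∀ z, Φ z j = G z := fun z => by simp [hΦ]
  have hΦl : ∀ z, Φ z l = z l := fun z => by simp [hΦ, hlj]
  have hΦd : DifferentiableOn ℂ Φ U := by
    rw [differentiableOn_euclidean]
    intro k
    rcases hjl k with rfl | rfl
    · simp only [hΦj]
      exact hG
    · simp only [hΦl]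
      exact (EuclideanSpace.proj l : Cn 2 →L[ℂ] ℂ).differentiable.differentiableOn
  have hcomp : ∀ z ∈ U, ∀ v : Cn 2, (fderiv ℂ Φ z v) j = fderiv ℂ G z v ∧
      (fderiv ℂ Φ z v) l = v l := by
    intro z hz v
    have h1 := (hΦd.differentiableAt (hU.mem_nhds hz)).hasFDerivAt
    constructor
    · have h2 := (EuclideanSpace.proj j : Cn 2 →L[ℂ] ℂ).hasFDerivAt.comp z h1
      have h3 : HasFDerivAt G ((EuclideanSpace.proj j : Cn 2 →L[ℂ] ℂ).comp (fderiv ℂ Φ z)) z := by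
        refine h2.congr_of_eventuallyEq (Eventually.of_forall fun w => ?_)
        exact (hΦj w).symm
      rw [h3.fderiv]
      rfl
    · have h2 := (EuclideanSpace.proj l : Cn 2 →L[ℂ] ℂ).hasFDerivAt.comp z h1
      have h3 : HasFDerivAt (fun z : Cn 2 => z l)
          ((EuclideanSpace.proj l : Cn 2 →L[ℂ] ℂ).comp (fderiv ℂ Φ z)) z := by
        refine h2.congr_of_eventuallyEq (Eventually.of_forall fun w => ?_)
        exact (hΦl w).symm
      have h4 := h3.unique (EuclideanSpace.proj l : Cn 2 →L[ℂ] ℂ).hasFDerivAt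
      exact congrArg (fun L : Cn 2 →L[ℂ] ℂ => L v) h4
  have hinj : ∀ v, fderiv ℂ Φ p v = 0 → v = 0 := by
    intro v hv
    obtain ⟨h1, h2⟩ := hcomp p hp v
    rw [hv] at h1 h2
    have h3 : v l = 0 := h2.symm
    have h4 : v j = 0 := by
      have h5 : v = v j • ee j := by
        ext k
        rcases hjl k with rfl | rfl
        · simp [ee]
        · simp [ee, h3, hlj]
      rw [h5, map_smul, smul_eq_mul] at h1
      have h6 : v j * fderiv ℂ G p (ee j) = 0 := h1.symm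
      exact (mul_eq_zero.1 h6).resolve_right hj
    ext k
    rcases hjl k with rfl | rfl
    · exact h4
    · exact h3
  have hD : (fderiv ℂ Φ p).det ≠ 0 := by
    change LinearMap.det (fderiv ℂ Φ p : Cn 2 →ₗ[ℂ] Cn 2) ≠ 0
    intro h0
    have h1 := LinearMap.bot_lt_ker_of_det_eq_zero h0
    obtain ⟨v, hv, hv0⟩ := (Submodule.ne_bot_iff _).1 h1.ne'
    exact hv0 (hinj v hv)
  obtain ⟨R, hpR, hRU, hRΦ, hRd⟩ := exists_invFun' hU hΦd hp
    ((fderiv ℂ Φ p).toContinuousLinearEquivOfDetNeZero hD) (by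
      rw [ContinuousLinearMap.coe_toContinuousLinearEquivOfDetNeZero]
      exact (hΦd.differentiableAt (hU.mem_nhds hp)).hasFDerivAt)
  -- a ball in the target and where `dG ≠ 0`
  have hdc : ContinuousOn (fderiv ℂ G) U :=
    (Crest.Agent.R266.SCV.analyticOnNhd_of_differentiableOn hU hG).fderiv.continuousOn
  have hO : IsOpen (R.target ∩ R.symm ⁻¹' (U ∩ fderiv ℂ G ⁻¹' {0}ᶜ)) :=
    R.symm.isOpen_inter_preimage (hdc.isOpen_inter_preimage hU isOpen_compl_singleton)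
  have hpO : R p ∈ R.target ∩ R.symm ⁻¹' (U ∩ fderiv ℂ G ⁻¹' {0}ᶜ) := by
    refine ⟨R.map_source hpR, ?_⟩
    rw [mem_preimage, R.left_inv hpR]
    exact ⟨hp, hd⟩
  obtain ⟨ε, hε, hball⟩ := Metric.isOpen_iff.1 hO _ hpO
  set c : ℂ → Cn 2 := fun t => R.symm (R p + t • ee l) with hc
  have hin : ∀ t ∈ Metric.ball (0 : ℂ) ε, R p + t • ee l ∈ Metric.ball (R p) ε := by
    intro t ht
    rw [Metric.mem_ball, dist_eq_norm] at ht ⊢
    rw [add_sub_cancel_left, norm_smul]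
    have : ‖(ee l : Cn 2)‖ = 1 := by simp [ee]
    rw [this, mul_one]
    simpa using ht
  have hcd : ∀ t ∈ Metric.ball (0 : ℂ) ε, ∃ c' : Cn 2, HasDerivAt c c' t ∧
      fderiv ℂ Φ (c t) c' = ee l := by
    intro t ht
    have h1 := hball (hin t ht)
    have h2 : HasFDerivAt R.symm (fderiv ℂ R.symm (R p + t • ee l)) (R p + t • ee l) :=
      (hRd.differentiableAt (R.open_target.mem_nhds h1.1)).hasFDerivAt
    have h3 : HasDerivAt (fun t : ℂ => R p + t • ee l) (ee l : Cn 2) t := by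
      have := ((hasDerivAt_id t).smul_const (ee l : Cn 2)).const_add (R p)
      simpa using this
    have h4 := h2.comp_hasDerivAt t h3
    refine ⟨_, h4, ?_⟩
    have hct : c t ∈ U := h1.2.1
    have h5 := ((hΦd.differentiableAt (hU.mem_nhds hct)).hasFDerivAt).comp_hasDerivAt t h4
    have h6 : (fun t : ℂ => Φ (c t)) =ᶠ[𝓝 t] fun t => R p + t • ee l := by
      filter_upwards [Metric.isOpen_ball.mem_nhds ht] with s hs
      exact (congrFun hRΦ (c s)).symm.trans (R.right_inv (hball (hin s hs)).1)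
    have h7 : HasDerivAt (fun t : ℂ => Φ (c t)) (ee l : Cn 2) t := h3.congr_of_eventuallyEq h6
    exact h5.unique h7
  have hGc : ∀ t ∈ Metric.ball (0 : ℂ) ε, G (c t) = G p := by
    intro t ht
    have h1 := R.right_inv (hball (hin t ht)).1
    have h2 : Φ (c t) = Φ p + t • ee l := by
      rw [← congrFun hRΦ p]
      exact (congrFun hRΦ (c t)).symm.trans h1
    have h3 := congrArg (fun w : Cn 2 => w j) h2
    simp only [PiLp.add_apply, PiLp.smul_apply, hΦj] at h3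
    rw [h3]
    simp [ee, hlj.symm]
  have hHc : ∀ t ∈ Metric.ball (0 : ℂ) ε, H (c t) = H p := by
    have h0 : ∀ t ∈ Metric.ball (0 : ℂ) ε, HasDerivAt (fun t => H (c t)) 0 t := by
      intro t ht
      obtain ⟨c', h1, h2⟩ := hcd t ht
      have hct := (hball (hin t ht)).2
      have h3 := ((hH.differentiableAt (hU.mem_nhds hct.1)).hasFDerivAt).comp_hasDerivAt t h1
      have h4 : fderiv ℂ G (c t) c' = 0 := by
        rw [← (hcomp (c t) hct.1 c').1, h2]
        simp [ee, hlj.symm]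
      rw [ker_jc hct.2 (hJ (c t) hct.1) h4] at h3
      exact h3
    intro t ht
    have h1 : H (c t) = H (c 0) := by
      refine Metric.isOpen_ball.is_const_of_deriv_eq_zero
        (convex_ball (0 : ℂ) ε).isPreconnected
        (f := fun t => H (c t)) (fun t ht => (h0 t ht).differentiableAt.differentiableWithinAt)
        (fun t ht => (h0 t ht).deriv) ht (Metric.mem_ball_self hε)
    have h2 : c 0 = p := by
      simp only [hc, zero_smul, add_zero]
      exact R.left_inv hpR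
    rw [h1, h2]
  -- infinitely many points
  have hinf : (c '' Metric.ball (0 : ℂ) ε).Infinite := by
    refine (infinite_of_mem_nhds (0 : ℂ) (Metric.ball_mem_nhds 0 hε)).image ?_
    intro t ht t' ht' htt
    have h1 := R.symm.injOn (hball (hin t ht)).1 (hball (hin t' ht')).1 htt
    have h2 := congrArg (fun w : Cn 2 => w l) (add_left_cancel h1)
    simpa [ee] using h2
  refine hinf.mono ?_
  rintro _ ⟨t, ht, rfl⟩
  exact ⟨(hball (hin t ht)).2.1, hGc t ht, hHc t ht⟩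

theorem jc_swap (G H : Cn 2 → ℂ) (z : Cn 2) : jc H G z = - jc G H z := by
  unfold jc
  ring

theorem inf_fibre {G H : Cn 2 → ℂ} {U : Set (Cn 2)} (hU : IsOpen U) (hne : U.Nonempty)
    (hG : DifferentiableOn ℂ G U) (hH : DifferentiableOn ℂ H U) (hJ : ∀ z ∈ U, jc G H z = 0) :
    ∃ p ∈ U, {z ∈ U | G z = G p ∧ H z = H p}.Infinite := by
  by_cases h1 : ∃ p ∈ U, fderiv ℂ G p ≠ 0
  · obtain ⟨p, hp, hd⟩ := h1
    exact ⟨p, hp, inf_fibre_aux hU hG hH hJ hp hd⟩
  by_cases h2 : ∃ p ∈ U, fderiv ℂ H p ≠ 0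
  · obtain ⟨p, hp, hd⟩ := h2
    refine ⟨p, hp, ?_⟩
    have := inf_fibre_aux hU hH hG (fun z hz => by rw [jc_swap, hJ z hz, neg_zero]) hp hd
    refine this.mono ?_
    rintro z ⟨hz, h3, h4⟩
    exact ⟨hz, h4, h3⟩
  push Not at h1 h2
  obtain ⟨p, hp⟩ := hne
  obtain ⟨ε, hε, hball⟩ := Metric.isOpen_iff.1 hU p hp
  refine ⟨p, hp, ?_⟩
  refine (infinite_of_mem_nhds p (Metric.ball_mem_nhds p hε)).mono fun z hz => ⟨hball hz, ?_, ?_⟩
  · exact Metric.isOpen_ball.is_const_of_fderiv_eq_zero (𝕜 := ℂ)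
      (convex_ball p ε).isPreconnected (hG.mono hball)
      (fun w hw => h1 w (hball hw)) hz (Metric.mem_ball_self hε)
  · exact Metric.isOpen_ball.is_const_of_fderiv_eq_zero (𝕜 := ℂ)
      (convex_ball p ε).isPreconnected (hH.mono hball)
      (fun w hw => h2 w (hball hw)) hz (Metric.mem_ball_self hε)

/-! ### isolated zeros -/

theorem isolated {n m : ℕ} {G : Fin m → (Fin n → ℂ) → ℂ} (hG : ∀ j, AnalyticAt ℂ (G j) 0)
    (h : ColFin G) : ∀ᶠ x in 𝓝 (0 : Fin n → ℂ), (∀ j, G j x = 0) → x = 0 := by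
  have hGG : ∀ j, AnalyticAt ℂ (fun p : (Fin n → ℂ) × ℂ => G j p.1) 0 := fun j =>
    AnalyticAt.fun_comp (g := G j) (f := Prod.fst) (hG j) analyticAt_fst
  have h1 := UI939.cn (fun j (p : (Fin n → ℂ) × ℂ) => G j p.1) hGG (col G)
    (Eventually.of_forall fun t => ⟨(UI939.colFin_iff hG).1 h, (UI939.col_eq hG).symm⟩)
  have h2 : Tendsto (fun x : Fin n → ℂ => ((x, 0) : (Fin n → ℂ) × ℂ)) (𝓝 0) (𝓝 0) :=
    (continuous_id.prodMk continuous_const).tendsto' _ _ rfl
  exact h2.eventually h1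

/-! ### smaller radius -/

theorem PE.mono {f : E3 → ℂ} {s : ℂ} {r r' : ℝ} {θ : Cn 2 → E3} {O : Set (Cn 2)}
    (h : PE f s r' θ O) (h0 : 0 < r') (h1 : r' ≤ r) : PE f s r θ O :=
  ⟨h.par, h.ne, fun z hz => lt_of_lt_of_le (h.lt z hz) (pow_le_pow_left₀ h0.le h1 2)⟩

theorem IsNu.mono {f : E3 → ℂ} {s : ℂ} {r r' : ℝ} {ν : Measure E3} (h : IsNu f s r ν)
    (h0 : 0 < r') (h1 : r' ≤ r) : IsNu f s r' (ν.restrict {x | nsq x < r' ^ 2}) where
  null := by
    have hm : MeasurableSet {x : E3 | nsq x < r' ^ 2} :=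
      (isOpen_lt nsq_cont continuous_const).measurableSet
    rw [Measure.restrict_apply' hm]
    refine measure_mono_null ?_ h.null
    rintro x ⟨hx1, hx2⟩ ⟨h2, h3, h4⟩
    exact hx1 ⟨h2, h3, hx2⟩
  par θ O hθ hinj Φ hΦ := by
    have hm : MeasurableSet {x : E3 | nsq x < r' ^ 2} :=
      (isOpen_lt nsq_cont continuous_const).measurableSet
    have h2 : θ '' O ∩ {x : E3 | nsq x < r' ^ 2} = θ '' O := by
      refine inter_eq_left.2 ?_
      rintro _ ⟨z, hz, rfl⟩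
      exact hθ.lt z hz
    rw [Measure.restrict_restrict' hm, h2]
    exact h.par θ O (PE.mono hθ h0 h1) hinj Φ hΦ

end

end Crest.Agent.R257.UpK_938
end

-- ▼ part R257/UpK3_938

/-!
# R257 (S0395), UPStmt (helper938), part 3: `upStmt_of : Det_219.FtoStmt → UPStmt`
-/

set_option autoImplicit false
set_option linter.unusedSectionVars false

open Set Filter Topology Complex MeasureTheory
open scoped ContDiff Matrix ComplexConjugate ComplexOrder ENNReal

namespace Crest.Agent.R257.UpK_938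

open Crest.Agent.R275.Geo Crest.Agent.R275.Core144 Crest.Agent.R275.EDR890
open Crest.Agent.R275.Pai323 Crest.Agent.R275.C1d194
open Crest.Agent.R273.Defs_333 Crest.Agent.R273.Vm_333 Crest.Agent.R273.Hess_333
open Crest.Agent.R273.HessB_333 Crest.Agent.R273.Kah_333 Crest.Agent.R273.GreenM_5
open Crest.Agent.R257.Defs_219 Crest.Agent.R257.KED_952 Crest.Agent.R257.V1Defs_822
open Crest.Agent.R257.PN_835 (nsq)
open Crest.Agent.R257.Aff_835 (eta2a)
open Crest.Agent.R257.Jac_39 (jc ee)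
open Crest.Agent.R257.Up3_938 (sqM HolM DM J2 sqM_sm J2_eq w_mul_J2 J2_cont sqM_nonneg)

noncomputable section

/-! ### balls -/

theorem nsq_nonneg (x : E3) : 0 ≤ nsq x := Finset.sum_nonneg fun _ _ => by positivity

theorem norm_sq_le_nsq (x : E3) : ‖x‖ ^ 2 ≤ nsq x := by
  have h1 : ‖x‖ ≤ √(nsq x) := by
    rw [pi_norm_le_iff_of_nonneg (Real.sqrt_nonneg _)]
    intro p
    refine Real.le_sqrt_of_sq_le ?_
    exact Finset.single_le_sum (f := fun p => ‖x p‖ ^ 2) (fun _ _ => by positivity)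
      (Finset.mem_univ p)
  calc ‖x‖ ^ 2 ≤ √(nsq x) ^ 2 := pow_le_pow_left₀ (norm_nonneg _) h1 2
    _ = nsq x := Real.sq_sqrt (nsq_nonneg x)

theorem nsq_zero : nsq (0 : E3) = 0 := by
  unfold nsq
  simp

theorem exists_nsq {p : E3 → Prop} (h : ∀ᶠ x in 𝓝 (0 : E3), p x) :
    ∃ ρ : ℝ, 0 < ρ ∧ ∀ x, nsq x < ρ ^ 2 → p x := by
  obtain ⟨ε, hε, hb⟩ := Metric.eventually_nhds_iff_ball.1 h
  refine ⟨ε, hε, fun x hx => hb x ?_⟩
  rw [Metric.mem_ball, dist_zero_right]
  exact lt_of_pow_lt_pow_left₀ 2 hε.le (lt_of_le_of_lt (norm_sq_le_nsq x) hx)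

theorem ev_nsq {ρ : ℝ} (h : 0 < ρ) : ∀ᶠ x in 𝓝 (0 : E3), nsq x < ρ ^ 2 := by
  have h1 : Tendsto (nsq : E3 → ℝ) (𝓝 0) (𝓝 0) := by
    have := (nsq_cont (n := 2)).tendsto 0
    rwa [nsq_zero] at this
  exact h1.eventually (gt_mem_nhds (by positivity))

theorem isCompact_nsq (ρ : ℝ) : IsCompact {x : E3 | nsq x ≤ ρ ^ 2} := by
  refine (isCompact_closedBall (0 : E3) |ρ|).of_isClosed_subset
    (isClosed_le nsq_cont continuous_const) fun x hx => ?_
  rw [Metric.mem_closedBall, dist_zero_right]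
  have h1 : ‖x‖ ^ 2 ≤ |ρ| ^ 2 := by
    rw [sq_abs]
    exact (norm_sq_le_nsq x).trans hx
  exact le_of_sq_le_sq h1 (abs_nonneg ρ)

/-- good data on a small ball -/
structure Dat (f g h : E3 → ℂ) (r₀ ρ : ℝ) : Prop where
  pos : 0 < r₀
  lt : r₀ < ρ
  lvl : LvlOK f 0 ρ
  an_g : ∀ x, nsq x < ρ ^ 2 → AnalyticAt ℂ g x
  an_h : ∀ x, nsq x < ρ ^ 2 → AnalyticAt ℂ h x
  g0 : g 0 = 0
  h0 : h 0 = 0
  iso : ∀ x, nsq x < ρ ^ 2 → f x = 0 → g x = 0 → h x = 0 → x = 0
  fin : ∀ y z : ℂ, {x : E3 | nsq x < ρ ^ 2 ∧ f x = 0 ∧ g x = y ∧ h x = z}.Finite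

namespace Dat

variable {f g h : E3 → ℂ} {r₀ ρ : ℝ} (D : Dat f g h r₀ ρ)
include D

theorem sq_lt : r₀ ^ 2 < ρ ^ 2 := pow_lt_pow_left₀ D.lt D.pos.le two_ne_zero

theorem lv : LvlOK f 0 r₀ := LvlOK.mono D.lvl D.pos D.lt.le

/-- `|g|² + |h|²` -/
theorem contOn : ContinuousOn (fun x => ‖g x‖ ^ 2 + ‖h x‖ ^ 2) {x | nsq x ≤ r₀ ^ 2} := by
  intro x hx
  have hx' : nsq x < ρ ^ 2 := lt_of_le_of_lt hx D.sq_lt
  exact ((((D.an_g x hx').continuousAt.norm).pow 2).add
    (((D.an_h x hx').continuousAt.norm).pow 2)).continuousWithinAt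

theorem contOnf : ContinuousOn f {x | nsq x ≤ r₀ ^ 2} := fun x hx =>
  (D.lvl.an x (lt_of_le_of_lt hx D.sq_lt)).continuousAt.continuousWithinAt

theorem exists_delta : ∃ δ : ℝ, 0 < δ ∧ ∀ x, nsq x = r₀ ^ 2 → f x = 0 →
    δ ≤ ‖g x‖ ^ 2 + ‖h x‖ ^ 2 := by
  set K : Set E3 := {x | nsq x ≤ r₀ ^ 2} ∩ (({x | nsq x = r₀ ^ 2}) ∩ {x | nsq x ≤ r₀ ^ 2} ∩
    f ⁻¹' {0}) with hK
  have hc : IsCompact K := by
    have h1 : IsClosed ({x | nsq x ≤ r₀ ^ 2} ∩ f ⁻¹' {0}) :=
      D.contOnf.preimage_isClosed_of_isClosed (isClosed_le nsq_cont continuous_const)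
        isClosed_singleton
    have h2 : IsClosed {x : E3 | nsq x = r₀ ^ 2} := isClosed_eq nsq_cont continuous_const
    have h3 : K = {x | nsq x ≤ r₀ ^ 2} ∩ ({x | nsq x = r₀ ^ 2} ∩ ({x | nsq x ≤ r₀ ^ 2} ∩
        f ⁻¹' {0})) := by
      rw [hK, inter_assoc {x : E3 | nsq x = r₀ ^ 2}]
    rw [h3]
    exact (isCompact_nsq r₀).inter_right (h2.inter h1)
  have hpos : ∀ x ∈ K, 0 < ‖g x‖ ^ 2 + ‖h x‖ ^ 2 := by
    rintro x ⟨hx1, ⟨hx2, -⟩, hx3⟩
    have hx' : nsq x < ρ ^ 2 := lt_of_le_of_lt hx1 D.sq_lt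
    by_contra hcon
    have h1 : ‖g x‖ ^ 2 = 0 := by nlinarith [sq_nonneg ‖g x‖, sq_nonneg ‖h x‖]
    have h2 : ‖h x‖ ^ 2 = 0 := by nlinarith [sq_nonneg ‖g x‖, sq_nonneg ‖h x‖]
    have h3 := D.iso x hx' hx3 (by simpa using h1) (by simpa using h2)
    rw [h3] at hx2
    have h4 : nsq (0 : E3) = r₀ ^ 2 := hx2
    rw [nsq_zero] at h4
    have := D.pos
    nlinarith
  rcases K.eq_empty_or_nonempty with h1 | h1
  · refine ⟨1, one_pos, fun x hx hfx => ?_⟩
    have : x ∈ K := ⟨hx.le, ⟨hx, hx.le⟩, hfx⟩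
    rw [h1] at this
    exact this.elim
  · obtain ⟨x0, hx0, hmin⟩ := hc.exists_isMinOn h1 (D.contOn.mono fun x hx => hx.1)
    exact ⟨_, hpos x0 hx0, fun x hx hfx => hmin ⟨hx.le, ⟨hx, hx.le⟩, hfx⟩⟩

/-- the map `(g, h)` on the level -/
def FF (x : (LX D.lv).M 0) : Fin 2 → ℂ := ![g x.1, h x.1]

theorem sqM_FF (x : (LX D.lv).M 0) : sqM D.FF 0 x = ‖g x.1‖ ^ 2 + ‖h x.1‖ ^ 2 := by
  unfold sqM
  rw [Fin.sum_univ_two]
  simp [FF]

theorem lt_rho (x : (LX D.lv).M 0) : nsq x.1 < ρ ^ 2 :=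
  ((mem_M D.lv x).2.2).trans D.sq_lt

theorem holg (i : ((LX D.lv).A 0).ι) :
    DifferentiableOn ℂ (fun z => g (thc D.lv i z)) (((LX D.lv).A 0).e i).target := fun z hz =>
  ((D.an_g _ (D.lt_rho ((((LX D.lv).A 0).e i).symm z))).differentiableAt.comp z
    ((pe_chart D.lv i).par.diffAt hz)).differentiableWithinAt

theorem holh (i : ((LX D.lv).A 0).ι) :
    DifferentiableOn ℂ (fun z => h (thc D.lv i z)) (((LX D.lv).A 0).e i).target := fun z hz =>
  ((D.an_h _ (D.lt_rho ((((LX D.lv).A 0).e i).symm z))).differentiableAt.comp z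
    ((pe_chart D.lv i).par.diffAt hz)).differentiableWithinAt

theorem hol : HolM ((LX D.lv).A 0) D.FF := by
  intro i k
  fin_cases k
  · exact D.holg i
  · exact D.holh i

theorem det_DM (i : ((LX D.lv).A 0).ι) (x : (LX D.lv).M 0) :
    (DM ((LX D.lv).A 0) D.FF i x).det =
      jc (fun z => g (thc D.lv i z)) (fun z => h (thc D.lv i z)) (((LX D.lv).A 0).e i x) := by
  unfold DM Up2_938.DF jc
  rw [Matrix.det_fin_two]
  rfl

theorem J2_Dt (x : (LX D.lv).M 0) :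
    J2 ((LX D.lv).eta 0) D.FF x = ‖Dt f g h x.1‖ ^ 2 := by
  set i := ci ((LX D.lv).A 0) x with hi
  have hx : x ∈ (((LX D.lv).A 0).e i).source := mem_ci x
  have hz := (((LX D.lv).A 0).e i).map_source hx
  have hxe : (((LX D.lv).A 0).e i).symm (((LX D.lv).A 0).e i x) = x :=
    (((LX D.lv).A 0).e i).left_inv hx
  obtain ⟨h1, h2, h3⟩ := mem_M D.lv x
  have hth : thc D.lv i (((LX D.lv).A 0).e i x) = x.1 := thc_eq D.lv hx
  have h4 := Crest.Agent.R257.Jac_39.jac (pe_chart D.lv i).par hz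
    (f := f) (g := g) (h := h) (by rw [hth]; exact (D.lv.an _ h3).differentiableAt)
    (by rw [hth]; exact D.lv.sm _ h2 h3 h1)
    (by rw [hth]; exact (D.an_g _ (D.lt_rho x)).differentiableAt)
    (by rw [hth]; exact (D.an_h _ (D.lt_rho x)).differentiableAt)
  have h5 := e2_eta D.lv hz
  rw [hxe] at h5
  rw [J2_eq ((LX D.lv).eta 0) D.hol hx, D.det_DM i x, h4, h5, hth]
  have h6 := ((LX D.lv).eta 0).pos i x hx
  rw [h5] at h6
  field_simp

theorem dense : Dense {x | J2 ((LX D.lv).eta 0) D.FF x ≠ 0} := by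
  rw [dense_iff_inter_open]
  intro W hW hne
  by_contra hcon
  rw [not_nonempty_iff_eq_empty] at hcon
  have hJ : ∀ x ∈ W, J2 ((LX D.lv).eta 0) D.FF x = 0 := by
    intro x hx
    by_contra h1
    have : x ∈ W ∩ {x | J2 ((LX D.lv).eta 0) D.FF x ≠ 0} := ⟨hx, h1⟩
    rw [hcon] at this
    exact this.elim
  obtain ⟨x, hx⟩ := hne
  set A := (LX D.lv).A 0 with hA
  obtain ⟨i, hi⟩ := A.cover x
  set U : Set (Cn 2) := (A.e i).target ∩ (A.e i).symm ⁻¹' W with hU
  have hUo : IsOpen U := (A.e i).symm.isOpen_inter_preimage hW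
  have hUne : U.Nonempty := by
    refine ⟨A.e i x, (A.e i).map_source hi, ?_⟩
    rw [mem_preimage, (A.e i).left_inv hi]
    exact hx
  obtain ⟨p, hp, hinf⟩ := inf_fibre hUo hUne ((D.holg i).mono fun z hz => hz.1)
    ((D.holh i).mono fun z hz => hz.1) (by
      intro z hz
      have h1 := hJ _ hz.2
      have hs := (A.e i).map_target hz.1
      have h2 := w_mul_J2 ((LX D.lv).eta 0) D.hol hs
      rw [h1, mul_zero, D.det_DM i, (A.e i).right_inv hz.1] at h2
      have h3 : ‖jc (fun z => g (thc D.lv i z)) (fun z => h (thc D.lv i z)) z‖ = 0 := by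
        nlinarith [norm_nonneg (jc (fun z => g (thc D.lv i z)) (fun z => h (thc D.lv i z)) z)]
      exact norm_eq_zero.1 h3)
  have h1 : (thc D.lv i '' {z ∈ U | g (thc D.lv i z) = g (thc D.lv i p) ∧
      h (thc D.lv i z) = h (thc D.lv i p)}).Infinite :=
    hinf.image ((inj_thc D.lv i).mono fun z hz => hz.1.1)
  refine h1 ((D.fin (g (thc D.lv i p)) (h (thc D.lv i p))).subset ?_)
  rintro _ ⟨z, ⟨hz, hz1, hz2⟩, rfl⟩
  exact ⟨D.lt_rho ((A.e i).symm z), (mem_M D.lv ((A.e i).symm z)).1, hz1, hz2⟩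

theorem compact {δ : ℝ} (hδ : ∀ x, nsq x = r₀ ^ 2 → f x = 0 → δ ≤ ‖g x‖ ^ 2 + ‖h x‖ ^ 2)
    {a b : ℝ} (ha : 0 < a) (hb : b < δ) :
    IsCompact {x : (LX D.lv).M 0 | a ≤ sqM D.FF 0 x ∧ sqM D.FF 0 x ≤ b} := by
  rw [Subtype.isCompact_iff]
  have h1 : (Subtype.val '' {x : (LX D.lv).M 0 | a ≤ sqM D.FF 0 x ∧ sqM D.FF 0 x ≤ b}) =
      ({x | nsq x ≤ r₀ ^ 2} ∩ f ⁻¹' {0}) ∩
        ({x | nsq x ≤ r₀ ^ 2} ∩ (fun x => ‖g x‖ ^ 2 + ‖h x‖ ^ 2) ⁻¹' Icc a b) := by
    ext x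
    constructor
    · rintro ⟨x, ⟨hx1, hx2⟩, rfl⟩
      rw [D.sqM_FF] at hx1 hx2
      obtain ⟨h1, h2, h3⟩ := mem_M D.lv x
      exact ⟨⟨h3.le, h1⟩, h3.le, hx1, hx2⟩
    · rintro ⟨⟨hx1, hx2⟩, -, hx3, hx4⟩
      have hne : x ≠ 0 := by
        rintro rfl
        simp only [D.g0, D.h0, norm_zero] at hx3
        norm_num at hx3
        linarith
      have hlt : nsq x < r₀ ^ 2 := by
        refine lt_of_le_of_ne hx1 fun h => ?_
        have := hδ x h hx2
        simp only at hx4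
        linarith
      refine ⟨mkM D.lv hx2 hne hlt, ⟨?_, ?_⟩, rfl⟩
      · rw [D.sqM_FF]
        exact hx3
      · rw [D.sqM_FF]
        exact hx4
  rw [h1]
  have hcl : IsClosed {x : E3 | nsq x ≤ r₀ ^ 2} := isClosed_le nsq_cont continuous_const
  exact ((isCompact_nsq r₀).of_isClosed_subset
    (D.contOnf.preimage_isClosed_of_isClosed hcl isClosed_singleton)
    inter_subset_left).inter_right
      (D.contOn.preimage_isClosed_of_isClosed hcl isClosed_Icc)

end Dat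

/-- the data exist on small balls -/
theorem exists_dat {f g h : E3 → ℂ} {r : ℝ} (hf : LvlOK f 0 r) (f0 : AnalyticAt ℂ f 0)
    (hg : AnalyticAt ℂ g 0)
    (hh : AnalyticAt ℂ h 0) (g0 : g 0 = 0) (h0 : h 0 = 0) (hfin : ColFin ![f, g, h])
    (hF : Det_219.Fto f g h) {p : E3 → Prop} (hp : ∀ᶠ x in 𝓝 (0 : E3), p x) :
    ∃ r₀ ρ : ℝ, Dat f g h r₀ ρ ∧ ρ ≤ r ∧ ∀ x, nsq x < ρ ^ 2 → p x := by
  obtain ⟨N, r1, hr1, hN⟩ := hF
  have hiso : ∀ᶠ x in 𝓝 (0 : E3), (∀ j : Fin 3, (![f, g, h] : Fin 3 → E3 → ℂ) j x = 0) → x = 0 :=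
    isolated (fun j => by fin_cases j <;> assumption) hfin
  have hbx : ∀ᶠ x in 𝓝 (0 : E3), ∀ i, ‖x i‖ < r1 := by
    rw [eventually_all]
    intro i
    have : Tendsto (fun x : E3 => ‖x i‖) (𝓝 0) (𝓝 0) := by
      have := ((continuous_apply i).norm : Continuous fun x : E3 => ‖x i‖).tendsto 0
      simpa using this
    exact this.eventually (gt_mem_nhds hr1)
  obtain ⟨ρ1, hρ1, H⟩ := exists_nsq (((hg.eventually_analyticAt.and hh.eventually_analyticAt).and
    (hiso.and hbx)).and hp)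
  set ρ : ℝ := min ρ1 r with hρ
  have hρ0 : 0 < ρ := lt_min hρ1 hf.pos
  have hle1 : ρ ^ 2 ≤ ρ1 ^ 2 := pow_le_pow_left₀ hρ0.le (min_le_left _ _) 2
  have H' : ∀ x, nsq x < ρ ^ 2 → _ := fun x hx => H x (lt_of_lt_of_le hx hle1)
  refine ⟨ρ / 2, ρ, ⟨by positivity, by linarith, LvlOK.mono hf hρ0 (min_le_right _ _),
    fun x hx => (H' x hx).1.1.1, fun x hx => (H' x hx).1.1.2, g0, h0, ?_, ?_⟩, min_le_right _ _,
    fun x hx => (H' x hx).2⟩
  · intro x hx h1 h2 h3
    refine (H' x hx).1.2.1 fun j => ?_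
    fin_cases j
    · exact h1
    · exact h2
    · exact h3
  · intro y z
    have h1 := hN ![y, z]
    have h2 : {x | x ∈ Det_219.Bx r1 ∧ f x = 0 ∧ g x = (![y, z] : Fin 2 → ℂ) 0 ∧
        h x = (![y, z] : Fin 2 → ℂ) 1}.Finite :=
      Set.finite_of_encard_le_coe h1
    refine h2.subset ?_
    rintro x ⟨hx, h3, h4, h5⟩
    exact ⟨(H' x hx).1.2.2, h3, h4, h5⟩

/-- **`UPStmt`**, up to the finiteness of the fibres -/
theorem upStmt_of (HF : Det_219.FtoStmt) : UPStmt := by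
  intro f r u ν χ k g h hI hf hu hν hχ hV hk hg hh g0 h0 hfin hJU
  obtain ⟨C1, r1, hr1, hJ⟩ := hJU
  have hFto := HF f g h hI.an hg hh hI.zero g0 h0 hfin
  have hp : ∀ᶠ x in 𝓝 (0 : E3), χ x = 1 ∧ ‖x‖ < r1 := by
    refine hχ.one.and ?_
    have := (continuous_norm : Continuous fun x : E3 => ‖x‖).tendsto 0
    rw [norm_zero] at this
    exact this.eventually (gt_mem_nhds hr1)
  obtain ⟨r₀, ρ, D, hρr, hρ⟩ := exists_dat hf hI.an hg hh g0 h0 hfin hFto hp
  obtain ⟨δ, hδ, hδb⟩ := D.exists_delta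
  set A := (LX D.lv).A 0 with hA
  have hcI : Countable A.ι := (LX D.lv).countable 0
  set P := (LX D.lv).part 0 with hP
  set η := (LX D.lv).eta 0 with hη
  have hr0r : r₀ ≤ r := D.lt.le.trans hρr
  have hkpos : (0 : ℝ) < k := by
    have : 0 < k := by omega
    exact_mod_cast this
  -- the function
  set U : (LX D.lv).M 0 → ℝ := fun x => u x.1 with hU
  have hUs : A.Sm U := fun i => hu.sm _ _ (PE.mono (pe_chart D.lv i) D.pos hr0r)
  have hUp : ∀ i, ∀ x ∈ (A.e i).source, (hsf A U i x).PosSemidef := by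
    intro i x hx
    have hz := (A.e i).map_source hx
    refine posSemidef_hess ((hUs i).contDiffAt ((A.e i).open_target.mem_nhds hz)) fun v => ?_
    by_cases hv : v = 0
    · rw [hv]
      refine le_of_eq ?_
      unfold lev
      have h0 := (iteratedFDeriv ℝ 2 (fun z => U ((A.e i).symm z)) (A.e i x)).map_coord_zero
        (m := ![0, 0]) 0 rfl
      simp only [smul_zero]
      rw [h0, add_zero]
    · exact (hu.pos _ _ (PE.mono (pe_chart D.lv i) D.pos hr0r) _ hz v hv).le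
  have hUc : Continuous U := sm_continuous hUs
  -- the volume
  have hM : ∫⁻ x, ENNReal.ofReal (Real.exp (U x)) ∂(vm η) ≤ VOL ν u χ := by
    have hme : MeasurableEmbedding (Subtype.val : (LX D.lv).M 0 → E3) :=
      MeasurableEmbedding.subtype_coe (meas_lvl D.lv)
    set Φ : E3 → ℝ≥0∞ := Function.extend Subtype.val
      (fun x : (LX D.lv).M 0 => ENNReal.ofReal (Real.exp (U x))) 0 with hΦ
    have hΦm : Measurable Φ := hme.measurable_extend
      (Real.continuous_exp.comp hUc).measurable.ennreal_ofReal measurable_const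
    have h1 : ∀ x : (LX D.lv).M 0, Φ x.1 = ENNReal.ofReal (Real.exp (U x)) := fun x =>
      hme.injective.extend_apply _ _ x
    have h2 := lint_nu D.lv (IsNu.mono hν D.pos hr0r) hΦm
    calc ∫⁻ x, ENNReal.ofReal (Real.exp (U x)) ∂(vm η) = ∫⁻ x, Φ x.1 ∂((LX D.lv).vol 0) :=
          lintegral_congr fun x => (h1 x).symm
      _ = ∫⁻ x in {x | nsq x < r₀ ^ 2}, Φ x ∂ν := h2
      _ ≤ ∫⁻ x, Φ x ∂ν := setLIntegral_le_lintegral _ _
      _ ≤ VOL ν u χ := by
          refine lintegral_mono fun x => ?_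
          by_cases hx : ∃ a : (LX D.lv).M 0, a.1 = x
          · obtain ⟨a, rfl⟩ := hx
            rw [h1 a]
            refine ENNReal.ofReal_le_ofReal ?_
            rw [(hρ a.1 (D.lt_rho a)).1, one_mul]
          · rw [hΦ, Function.extend_apply' _ _ _ hx]
            exact zero_le
  obtain ⟨M0, hM0⟩ : ∃ M0 : ℝ, 0 < M0 ∧ VOL ν u χ ≤ ENNReal.ofReal M0 := by
    refine ⟨(VOL ν u χ).toReal + 1, by positivity, ?_⟩
    calc VOL ν u χ = ENNReal.ofReal (VOL ν u χ).toReal := (ENNReal.ofReal_toReal hV.ne).symm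
      _ ≤ _ := ENNReal.ofReal_le_ofReal (by linarith)
  -- (JU)
  have hJ' : ∀ x : (LX D.lv).M 0, 0 < sqM D.FF 0 x → sqM D.FF 0 x < δ →
      J2 η D.FF x ≤ (|C1| + 1) * (sqM D.FF 0 x) ^ (2 + 1 / (k : ℝ)) := by
    intro x hx _
    rw [D.J2_Dt, D.sqM_FF]
    rw [D.sqM_FF] at hx
    refine (hJ x.1 (hρ x.1 (D.lt_rho x)).2 (mem_M D.lv x).1).trans ?_
    exact mul_le_mul_of_nonneg_right (by linarith [le_abs_self C1]) (Real.rpow_nonneg hx.le _)
  -- the theorem
  have hmain : ∀ x : (LX D.lv).M 0, 0 < sqM D.FF 0 x → 9 / 4 * sqM D.FF 0 x < δ →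
      U x ≤ (2 + 1 / (k : ℝ) - 2) * Real.log (sqM D.FF 0 x) +
        Real.log (Up5_938.Kup (2 + 1 / (k : ℝ)) * (|C1| + 1) * M0) := fun x hx1 hx2 =>
    Up5_938.up_log η P D.hol hUs hUp (by positivity) (by positivity) hM0.1
      ((setLIntegral_le_lintegral _ _).trans (hM.trans hM0.2)) hJ'
      (fun a b ha hb => D.compact hδb ha hb) D.dense hx1 hx2
  -- near the origin
  have hsmall : ∀ᶠ x in 𝓝 (0 : E3), 9 / 4 * (‖g x‖ ^ 2 + ‖h x‖ ^ 2) < δ ∧ nsq x < r₀ ^ 2 := by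
    refine Filter.Eventually.and ?_ (ev_nsq D.pos)
    have h1 : Tendsto (fun x => 9 / 4 * (‖g x‖ ^ 2 + ‖h x‖ ^ 2)) (𝓝 (0 : E3)) (𝓝 0) := by
      have h2 : ContinuousAt (fun x => 9 / 4 * (‖g x‖ ^ 2 + ‖h x‖ ^ 2)) (0 : E3) :=
        continuousAt_const.mul (((hg.continuousAt.norm).pow 2).add ((hh.continuousAt.norm).pow 2))
      have h3 := h2.tendsto
      simpa [g0, h0] using h3
    exact h1.eventually (gt_mem_nhds hδ)
  obtain ⟨r', hr', hsm⟩ := exists_nsq hsmall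
  refine ⟨Real.log (Up5_938.Kup (2 + 1 / (k : ℝ)) * (|C1| + 1) * M0), r', hr',
    fun x hfx hx0 hxr => ?_⟩
  obtain ⟨h1, h2⟩ := hsm x hxr
  set a : (LX D.lv).M 0 := mkM D.lv hfx hx0 h2 with ha
  have hs : sqM D.FF 0 a = ‖g x‖ ^ 2 + ‖h x‖ ^ 2 := D.sqM_FF a
  have hpos : 0 < sqM D.FF 0 a := by
    rw [hs]
    by_contra hcon
    have h3 : ‖g x‖ ^ 2 = 0 := by nlinarith [sq_nonneg ‖g x‖, sq_nonneg ‖h x‖]
    have h4 : ‖h x‖ ^ 2 = 0 := by nlinarith [sq_nonneg ‖g x‖, sq_nonneg ‖h x‖]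
    exact hx0 (D.iso x (h2.trans D.sq_lt) hfx (by simpa using h3) (by simpa using h4))
  have h3 := hmain a hpos (by rw [hs]; exact h1)
  rw [hs] at h3
  have h4 : (2 + 1 / (k : ℝ) - 2) = 1 / (k : ℝ) := by ring
  rw [h4] at h3
  exact h3

end

end Crest.Agent.R257.UpK_938
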