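import Crest.Agent.R257.C2F3_625

-- ▼ part R257/C2F4_335
section

/-!
# R257 (S0395), part (GB) (helper335): the second Chern form under coordinate changes and twists

* `Jac T y a c`  : `∂T_a/∂z_c`
* `dS_hol`, `dS_bar` : chain rules for `∂_c`, `∂_{d̄}` with a holomorphic map
* `rm_comp`    : the lowered curvature of `K ∘ T`
* `c2_comp`    : `c2 (K ∘ T) z = |det T'(z)|² c2 K (T z)`
-/

set_option autoImplicit false
set_option linter.unusedSectionVars false
set_option linter.unusedSimpArgs false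

open Finset Matrix Complex Filter Topology
open scoped ContDiff ComplexConjugate ComplexOrder

namespace Crest.Agent.R257.C2F4_335

open Crest.Agent.R275.Geo Crest.Agent.R275.EDR890
open Crest.Agent.R273.Fock_243 Crest.Agent.R273.Calc_243
open Crest.Agent.R273.Bkn_243 Crest.Agent.R273.Pos_243 Crest.Agent.R273.BochA_101
open Crest.Agent.R273.BochB_101
open Crest.Agent.R273.BochC_101 Crest.Agent.R273.BochD_101
open Crest.Agent.R273.Hess_333 Crest.Agent.R273.HessB_333
open Crest.Agent.R257.C2F1_625 Crest.Agent.R257.C2F2_625 Crest.Agent.R257.C2F3_625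

noncomputable section

variable {n : ℕ}

/-- the Jacobian matrix `∂T_a/∂z_c` -/
def Jac (T : Cn n → Cn n) (y : Cn n) : Matrix (Fin n) (Fin n) ℂ :=
  Matrix.of fun a c => (fderiv ℂ T y (EuclideanSpace.single c 1)) a

theorem dS_hol {f : Cn n → ℂ} {T : Cn n → Cn n} {z : Cn n}
    (hf : DifferentiableAt ℝ f (T z)) (hT : DifferentiableAt ℂ T z) (c : Fin n) :
    dS (-I) c (fun y => f (T y)) z = ∑ a, Jac T z a c * dS (-I) a f (T z) := by
  have h := wd_comp (f := f) hf hT (false, c)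
  simp only [smul_eq_mul, cj_false] at h
  exact h

theorem dS_bar {f : Cn n → ℂ} {T : Cn n → Cn n} {z : Cn n}
    (hf : DifferentiableAt ℝ f (T z)) (hT : DifferentiableAt ℂ T z) (d : Fin n) :
    dS I d (fun y => f (T y)) z = ∑ b, conj (Jac T z b d) * dS I b f (T z) := by
  have h := wd_comp (f := f) hf hT (true, d)
  simp only [smul_eq_mul, cj_true] at h
  exact h

theorem T_sm {T : Cn n → Cn n} {z : Cn n} (hT : ∀ᶠ y in 𝓝 z, DifferentiableAt ℂ T y) :
    ContDiffAt ℝ ∞ T z := by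
  obtain ⟨U, hU, hUo, hUz⟩ := eventually_nhds_iff.1 hT
  have h1 : DifferentiableOn ℂ T U := fun w hw => (hU w hw).differentiableWithinAt
  exact (((Crest.Agent.R266.SCV.contDiffOn_omega_of_differentiableOn hUo h1).restrict_scalars
    ℝ).of_le le_top).contDiffAt (hUo.mem_nhds hUz)

theorem J_hol {T : Cn n → Cn n} {z : Cn n} (hT : ∀ᶠ y in 𝓝 z, DifferentiableAt ℂ T y)
    (a c : Fin n) : ∀ᶠ y in 𝓝 z, DifferentiableAt ℂ (fun w => Jac T w a c) y := by
  obtain ⟨U, hU, hUo, hUz⟩ := eventually_nhds_iff.1 hT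
  have h2 : DifferentiableOn ℂ T U := fun w hw => (hU w hw).differentiableWithinAt
  have h3 : AnalyticOnNhd ℂ (fderiv ℂ T) U :=
    (Crest.Agent.R266.SCV.analyticOnNhd_of_differentiableOn hUo h2).fderiv
  have h5 : DifferentiableOn ℂ (fun w => (fderiv ℂ T w (EuclideanSpace.single c 1))) U :=
    h3.differentiableOn.clm_apply (differentiableOn_const _)
  have h4 : DifferentiableOn ℂ (fun w => Jac T w a c) U :=
    ((EuclideanSpace.proj a : Cn n →L[ℂ] ℂ).differentiable).comp_differentiableOn h5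
  filter_upwards [hUo.mem_nhds hUz] with y hy
  exact h4.differentiableAt (hUo.mem_nhds hy)

/-- a holomorphic function is killed by `∂̄` -/
theorem dS_I_hol {g : Cn n → ℂ} {z : Cn n} (hg : DifferentiableAt ℂ g z) (a : Fin n) :
    dS I a g z = 0 := by
  have h7 : fderiv ℝ g z = (fderiv ℂ g z).restrictScalars ℝ := hg.fderiv_restrictScalars ℝ
  have hI : (EuclideanSpace.single a I : Cn n) = I • EuclideanSpace.single a (1 : ℂ) := by
    ext c
    simp [PiLp.single_apply]
  rw [dS, h7]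
  simp only [ContinuousLinearMap.coe_restrictScalars', hI, map_smul, smul_eq_mul]
  linear_combination ((1 : ℂ) / 2 * (fderiv ℂ g z) (EuclideanSpace.single a 1)) * I_sq

theorem dS_conj_hol {g : Cn n → ℂ} {z : Cn n} (hg : DifferentiableAt ℂ g z) (a : Fin n) :
    dS (-I) a (fun y => conj (g y)) z = 0 := by
  rw [dS_conj (hg.restrictScalars ℝ)]
  simp [dS_I_hol hg]

/-- second mixed derivative of a composition -/
theorem dS2_comp {f : Cn n → ℂ} {T : Cn n → Cn n} {z : Cn n} (hf : Sm (T z) f)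
    (hT : ∀ᶠ y in 𝓝 z, DifferentiableAt ℂ T y) (c d : Fin n) :
    dS (-I) c (dS I d (fun y => f (T y))) z
      = ∑ a, ∑ b, Jac T z a c * conj (Jac T z b d) * dS (-I) a (dS I b f) (T z) := by
  have hTz := hT.self_of_nhds
  have hev : ∀ᶠ y in 𝓝 z, DifferentiableAt ℝ f (T y) :=
    hTz.continuousAt.eventually (ev_diff hf)
  have h1 : dS I d (fun y => f (T y)) =ᶠ[𝓝 z] fun y => ∑ b, conj (Jac T y b d) * dS I b f (T y) := by
    filter_upwards [hT, hev] with y h1 h2
    exact dS_bar h2 h1 d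
  rw [dS_congr h1]
  have hJd : ∀ b, DifferentiableAt ℝ (fun y => conj (Jac T y b d)) z := fun b =>
    (conjCLE : ℂ →L[ℝ] ℂ).differentiableAt.comp z
      (((J_hol hT b d).self_of_nhds).restrictScalars ℝ)
  have hf2 : ∀ b, DifferentiableAt ℝ (dS I b f) (T z) := fun b => (hf.dS I b).diff
  have hfT : ∀ b, DifferentiableAt ℝ (fun y => dS I b f (T y)) z := fun b =>
    (hf2 b).comp z (hTz.restrictScalars ℝ)
  rw [dS_sum univ (f := fun b y => conj (Jac T y b d) * dS I b f (T y))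
    fun b _ => (hJd b).mul (hfT b)]
  rw [Finset.sum_comm]
  refine Finset.sum_congr rfl fun b _ => ?_
  rw [dS_mul (hJd b) (hfT b), dS_conj_hol (J_hol hT b d).self_of_nhds, zero_mul, zero_add,
    dS_hol (f := dS I b f) (hf2 b) hTz, Finset.mul_sum]
  refine Finset.sum_congr rfl fun a _ => ?_
  ring

section

variable {κ : Type} [Fintype κ] [DecidableEq κ]

theorem dM_hol {K : Cn n → Matrix κ κ ℂ} {T : Cn n → Cn n} {z : Cn n} (hK : SmM (T z) K)
    (hT : DifferentiableAt ℂ T z) (c : Fin n) :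
    dM (-I) c (fun y => K (T y)) z = ∑ a, Jac T z a c • dM (-I) a K (T z) := by
  ext i j
  rw [Matrix.sum_apply]
  exact dS_hol (hK i j).diff hT c

theorem dM_bar {K : Cn n → Matrix κ κ ℂ} {T : Cn n → Cn n} {z : Cn n} (hK : SmM (T z) K)
    (hT : DifferentiableAt ℂ T z) (d : Fin n) :
    dM I d (fun y => K (T y)) z = ∑ b, conj (Jac T z b d) • dM I b K (T z) := by
  ext i j
  rw [Matrix.sum_apply]
  exact dS_bar (hK i j).diff hT d

theorem dM2_comp {K : Cn n → Matrix κ κ ℂ} {T : Cn n → Cn n} {z : Cn n} (hK : SmM (T z) K)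
    (hT : ∀ᶠ y in 𝓝 z, DifferentiableAt ℂ T y) (c d : Fin n) :
    dM (-I) c (dM I d (fun y => K (T y))) z
      = ∑ a, ∑ b, (Jac T z a c * conj (Jac T z b d)) • dM (-I) a (dM I b K) (T z) := by
  ext i j
  simp only [Matrix.sum_apply, Matrix.smul_apply, smul_eq_mul]
  exact dS2_comp (hK i j) hT c d

/-- curvature of a pull-back -/
theorem rm_comp {K : Cn n → Matrix κ κ ℂ} {T : Cn n → Cn n} {z : Cn n} (hK : SmM (T z) K)
    (hT : ∀ᶠ y in 𝓝 z, DifferentiableAt ℂ T y) (c d : Fin n) :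
    rm (fun y => K (T y)) z c d
      = ∑ a, ∑ b, (Jac T z a c * conj (Jac T z b d)) • rm K (T z) a b := by
  unfold rm
  rw [dM2_comp hK hT, dM_hol hK hT.self_of_nhds, dM_bar hK hT.self_of_nhds]
  have h1 : (∑ b, conj (Jac T z b d) • dM I b K (T z)) * (K (T z))⁻¹ *
      (∑ a, Jac T z a c • dM (-I) a K (T z))
      = ∑ a, ∑ b, (Jac T z a c * conj (Jac T z b d)) •
        (dM I b K (T z) * (K (T z))⁻¹ * dM (-I) a K (T z)) := by
    rw [Finset.mul_sum]
    refine Finset.sum_congr rfl fun a _ => ?_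
    rw [Finset.sum_mul, Finset.sum_mul]
    refine Finset.sum_congr rfl fun b _ => ?_
    rw [Matrix.smul_mul, Matrix.smul_mul, Matrix.mul_smul, smul_smul, mul_comm]
  rw [h1]
  simp only [smul_add, smul_neg, Finset.sum_add_distrib, Finset.sum_neg_distrib]

end

/-- the quadratic expression of `c2` -/
def qd (R : Fin 2 → Fin 2 → Matrix (Fin 2) (Fin 2) ℂ) : ℂ :=
  pd (R 0 0) (R 1 1) - pd (R 0 1) (R 1 0)

theorem c2_eq_qd (H : Cn 2 → Matrix (Fin 2) (Fin 2) ℂ) (z : Cn 2) :
    c2 H z = qd (rm H z) / (H z).det := rfl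

theorem qd_comp (R : Fin 2 → Fin 2 → Matrix (Fin 2) (Fin 2) ℂ) (P Q : Matrix (Fin 2) (Fin 2) ℂ) :
    qd (fun c d => ∑ a, ∑ b, (P a c * Q b d) • R a b) = P.det * Q.det * qd R := by
  simp only [qd, pd, Fin.sum_univ_two, Matrix.add_apply, Matrix.smul_apply, smul_eq_mul,
    Matrix.det_fin_two]
  ring

theorem c2_comp {H : Cn 2 → Matrix (Fin 2) (Fin 2) ℂ} {T : Cn 2 → Cn 2} {z : Cn 2}
    (hH : SmM (T z) H) (hT : ∀ᶠ y in 𝓝 z, DifferentiableAt ℂ T y) :
    c2 (fun y => H (T y)) z = (Jac T z).det * conj (Jac T z).det * c2 H (T z) := by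
  have h1 : rm (fun y => H (T y)) z
      = fun c d => ∑ a, ∑ b, (Jac T z a c * ((Jac T z).map conj) b d) • rm H (T z) a b := by
    funext c d
    exact rm_comp hH hT c d
  have h2 : ((Jac T z).map conj).det = conj (Jac T z).det := by
    have := (RingHom.map_det (starRingEnd ℂ) (Jac T z)).symm
    simpa [RingHom.mapMatrix_apply] using this
  rw [c2_eq_qd, h1, qd_comp, c2_eq_qd, h2]
  ring

end

end Crest.Agent.R257.C2F4_335
end

-- ▼ part R257/C2F5_335

/-!
# R257 (S0395), part (GB) (helper335): (1,1) forms, `ddm`, `bb`, `c2` under coordinate changes and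
twists

* `pbk T b`    : the pull-back `Jᵀ * b (T z) * conj J` of a `(1,1)` form
* `hess_comp'` : `hess (u ∘ T) = pbk T (hess u)`
* `pd_pbk`     : `pd (pbk b) (pbk b') = |det J|² pd b b'`
* `ddm_comp`   : `ddm (pbk T b) z = |det J|² ddm b (T z)`
* `bb_comp`, `bb_frame` : `bb` is a `(1,1)` form
* `rm_twist`, `c2_twist` : curvature and `c2` of `e^{-φ} H`
* `rm_diag`, `c2_diag` : sums of line bundles
-/

set_option autoImplicit false
set_option linter.unusedSectionVars false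
set_option linter.unusedSimpArgs false

open Finset Matrix Complex Filter Topology
open scoped ContDiff ComplexConjugate ComplexOrder

namespace Crest.Agent.R257.C2F5_335

open Crest.Agent.R275.Geo Crest.Agent.R275.EDR890
open Crest.Agent.R273.Fock_243 Crest.Agent.R273.Calc_243
open Crest.Agent.R273.Bkn_243 Crest.Agent.R273.Pos_243 Crest.Agent.R273.BochA_101
open Crest.Agent.R273.BochB_101
open Crest.Agent.R273.BochC_101 Crest.Agent.R273.BochD_101
open Crest.Agent.R273.Hess_333 Crest.Agent.R273.HessB_333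
open Crest.Agent.R257.C2F1_625 Crest.Agent.R257.C2F2_625 Crest.Agent.R257.C2F3_625
open Crest.Agent.R257.C2F4_335

noncomputable section

variable {n : ℕ}

/-- pull-back of a `(1,1)` form -/
def pbk (T : Cn n → Cn n) (b : Cn n → Matrix (Fin n) (Fin n) ℂ) (y : Cn n) :
    Matrix (Fin n) (Fin n) ℂ := (Jac T y)ᵀ * b (T y) * (Jac T y).map conj

theorem pbk_apply (T : Cn n → Cn n) (b : Cn n → Matrix (Fin n) (Fin n) ℂ) (y : Cn n)
    (c d : Fin n) : pbk T b y c d = ∑ i, ∑ j, Jac T y i c * (conj (Jac T y j d) * b (T y) i j) := by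
  simp only [pbk, Matrix.mul_apply, Matrix.transpose_apply, Matrix.map_apply, Finset.sum_mul]
  rw [Finset.sum_comm]
  refine Finset.sum_congr rfl fun i _ => Finset.sum_congr rfl fun j _ => ?_
  ring

theorem hess_comp' {u : Cn n → ℝ} {T : Cn n → Cn n} {z : Cn n} (hu : ContDiffAt ℝ ∞ u (T z))
    (hT : ∀ᶠ w in 𝓝 z, DifferentiableAt ℂ T w) :
    hess (fun w => u (T w)) z = pbk T (hess u) z := by
  ext a b
  rw [hess_comp hu hT, pbk_apply]
  refine Finset.sum_congr rfl fun i _ => Finset.sum_congr rfl fun j _ => ?_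
  simp only [Jac, Matrix.of_apply]
  ring

theorem det_mc (m : Matrix (Fin n) (Fin n) ℂ) : (m.map conj).det = conj m.det := by
  rw [← RingHom.mapMatrix_apply, ← RingHom.map_det]

theorem pd_pbk (T : Cn 2 → Cn 2) (b b' : Cn 2 → Matrix (Fin 2) (Fin 2) ℂ) (z : Cn 2) :
    pd (pbk T b z) (pbk T b' z) = (Jac T z).det * conj (Jac T z).det * pd (b (T z)) (b' (T z)) := by
  unfold pbk
  rw [pd_mul, Matrix.det_transpose, det_mc]







section

variable {κ : Type} [Fintype κ] [DecidableEq κ]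

theorem hV_comp (H : Cn n → Matrix κ κ ℂ) (V : Cn n → κ → ℂ) (T : Cn n → Cn n) (y : Cn n) :
    hV (fun w => H (T w)) (fun w => V (T w)) y = hV H V (T y) := rfl

theorem bb_comp {H : Cn n → Matrix κ κ ℂ} {V : Cn n → κ → ℂ} {T : Cn n → Cn n} {z : Cn n}
    (hH : SmM (T z) H) (hT : ∀ᶠ y in 𝓝 z, DifferentiableAt ℂ T y)
    (hV' : ContDiffAt ℝ ∞ (fun w => Real.log (hV H V w)) (T z)) :
    bb (fun y => H (T y)) (fun y => V (T y)) z = pbk T (bb H V) z := by
  ext c d
  rw [pbk_apply]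
  unfold bb
  simp only [Matrix.of_apply]
  have h1 : hess (fun w => Real.log (hV (fun w => H (T w)) (fun w => V (T w)) w)) z c d
      = pbk T (hess fun w => Real.log (hV H V w)) z c d := by
    rw [← hess_comp' hV' hT]
    rfl
  rw [h1, rm_comp hH hT, pbk_apply, hV_comp]
  have h2 : star (V (T z)) ⬝ᵥ ((∑ a, ∑ b, (Jac T z a c * conj (Jac T z b d)) • rm H (T z) a b) *ᵥ
      V (T z)) = ∑ a, ∑ b, (Jac T z a c * conj (Jac T z b d)) *
        (star (V (T z)) ⬝ᵥ (rm H (T z) a b *ᵥ V (T z))) := by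
    rw [Matrix.sum_mulVec, dotProduct_sum]
    refine Finset.sum_congr rfl fun a _ => ?_
    rw [Matrix.sum_mulVec, dotProduct_sum]
    refine Finset.sum_congr rfl fun b _ => ?_
    rw [Matrix.smul_mulVec, dotProduct_smul, smul_eq_mul]
  rw [h2, Finset.sum_div, ← Finset.sum_add_distrib]
  refine Finset.sum_congr rfl fun a _ => ?_
  rw [Finset.sum_div, ← Finset.sum_add_distrib]
  refine Finset.sum_congr rfl fun b _ => ?_
  ring


theorem star_gram (F H : Matrix κ κ ℂ) (V : κ → ℂ) :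
    star V ⬝ᵥ ((Fᴴ * H * F) *ᵥ V) = star (F *ᵥ V) ⬝ᵥ (H *ᵥ (F *ᵥ V)) := by
  rw [Matrix.star_mulVec, ← Matrix.mulVec_mulVec, ← Matrix.mulVec_mulVec, Matrix.dotProduct_mulVec,
    Matrix.dotProduct_mulVec, Matrix.dotProduct_mulVec, Matrix.vecMul_vecMul]

theorem bb_frame {H F : Cn n → Matrix κ κ ℂ} {V : Cn n → κ → ℂ} {z : Cn n}
    (hH : ∀ᶠ y in 𝓝 z, SmM y H) (hH0 : (H z).det ≠ 0) (hF : HolM z F) (hF0 : (F z).det ≠ 0) :
    bb (fun y => (F y)ᴴ * H y * F y) V z = bb H (fun y => F y *ᵥ V y) z := by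
  have h1 : ∀ y, hV (fun y => (F y)ᴴ * H y * F y) V y = hV H (fun y => F y *ᵥ V y) y := by
    intro y
    unfold hV
    rw [star_gram]
  ext c d
  unfold bb
  simp only [Matrix.of_apply, h1]
  rw [rm_frame hH hH0 hF hF0, star_gram]

/-! ### twists -/

theorem rm_smul {H : Cn n → Matrix κ κ ℂ} {f : Cn n → ℂ} {z : Cn n} (hH : SmM z H)
    (hH0 : (H z).det ≠ 0) (hf : Sm z f) (hf0 : f z ≠ 0) (c d : Fin n) :
    rm (fun y => f y • H y) z c d = f z • (rm H z c d - lg f z c d • H z) := by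
  have i3 : H z * (H z)⁻¹ = 1 := Matrix.mul_nonsing_inv _ (isUnit_iff_ne_zero.2 hH0)
  have i4 : (H z)⁻¹ * H z = 1 := Matrix.nonsing_inv_mul _ (isUnit_iff_ne_zero.2 hH0)
  have e1 : ∀ (s : ℂ) (a : Fin n), dM s a (fun y => f y • H y) z =
      dS s a f z • H z + f z • dM s a H z := by
    intro s a
    ext i j
    exact dS_mul hf.diff (hH i j).diff
  have e2 : dM (-I) c (dM I d (fun y => f y • H y)) z = dS (-I) c (dS I d f) z • H z
      + dS I d f z • dM (-I) c H z + dS (-I) c f z • dM I d H z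
      + f z • dM (-I) c (dM I d H) z := by
    ext i j
    exact dS2_mul hf (hH i j) _ _ _ _
  have hinv : (f z • H z)⁻¹ = (f z)⁻¹ • (H z)⁻¹ := by
    refine Matrix.inv_eq_right_inv ?_
    rw [Matrix.smul_mul, Matrix.mul_smul, i3, smul_smul, mul_inv_cancel₀ hf0, one_smul]
  unfold rm
  rw [e2, e1, e1, hinv]
  have e3 : (dS I d f z • H z + f z • dM I d H z) * (f z)⁻¹ • (H z)⁻¹ *
      (dS (-I) c f z • H z + f z • dM (-I) c H z)
      = ((f z)⁻¹ * dS I d f z * dS (-I) c f z) • H z + dS I d f z • dM (-I) c H z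
        + dS (-I) c f z • dM I d H z + f z • (dM I d H z * (H z)⁻¹ * dM (-I) c H z) := by
    have g1 : H z * (H z)⁻¹ * H z = H z := by rw [i3, Matrix.one_mul]
    have g2 : H z * (H z)⁻¹ * dM (-I) c H z = dM (-I) c H z := by rw [i3, Matrix.one_mul]
    have g3 : dM I d H z * (H z)⁻¹ * H z = dM I d H z := by
      rw [Matrix.mul_assoc, i4, Matrix.mul_one]
    simp only [Matrix.add_mul, Matrix.mul_add, Matrix.smul_mul, Matrix.mul_smul, smul_smul,
      smul_add, g1, g2, g3]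
    match_scalars <;> field_simp
  rw [e3]
  unfold lg
  match_scalars <;> field_simp <;> ring

/-- curvature of a twist -/
theorem rm_twist {H : Cn n → Matrix κ κ ℂ} {φ : Cn n → ℝ} {z : Cn n} (hH : SmM z H)
    (hH0 : (H z).det ≠ 0) (hφ : ContDiffAt ℝ ∞ φ z) (c d : Fin n) :
    rm (fun y => ((Real.exp (-φ y) : ℝ) : ℂ) • H y) z c d
      = ((Real.exp (-φ z) : ℝ) : ℂ) • (rm H z c d + hess φ z c d • H z) := by
  have hf : ContDiffAt ℝ ∞ (fun y => Real.exp (-φ y)) z := hφ.neg.exp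
  have hfs : Sm z (fun y => ((Real.exp (-φ y) : ℝ) : ℂ)) := contDiffAt_cu hf
  have h1 := rm_smul hH hH0 hfs (by
    exact Complex.ofReal_ne_zero.2 (Real.exp_pos _).ne') c d
  have h2 : lg (fun y => ((Real.exp (-φ y) : ℝ) : ℂ)) z c d = - hess φ z c d := by
    rw [lg_eq_hess hfs (Eventually.of_forall fun y => Complex.ofReal_im _)
      (by rw [Complex.ofReal_re]; exact Real.exp_pos _)]
    have h3 : (fun y => Real.log (((Real.exp (-φ y) : ℝ) : ℂ)).re) = fun y => - φ y := by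
      funext y
      rw [Complex.ofReal_re, Real.log_exp]
    rw [h3, hess_neg hφ, Matrix.neg_apply]
  rw [h1, h2, neg_smul, sub_neg_eq_add]

end

theorem pd_det {R H : Matrix (Fin 2) (Fin 2) ℂ} (h : H.det ≠ 0) :
    pd R H = (H⁻¹ * R).trace * H.det := by
  have h1 : H⁻¹ = (H.det)⁻¹ • !![H 1 1, -H 0 1; -H 1 0, H 0 0] := by
    rw [Matrix.inv_def, Ring.inverse_eq_inv', Matrix.adjugate_fin_two]
  rw [h1, Matrix.smul_mul, Matrix.trace_smul, Matrix.trace_fin_two]
  simp only [Matrix.mul_apply, Fin.sum_univ_two, smul_eq_mul, pd]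
  simp
  field_simp
  ring

/-- the second Chern form of `f • H` -/
theorem c2_smul {H : Cn 2 → Matrix (Fin 2) (Fin 2) ℂ} {f : Cn 2 → ℂ} {z : Cn 2} (hH : SmM z H)
    (hH0 : (H z).det ≠ 0) (hf : Sm z f) (hf0 : f z ≠ 0) :
    c2 (fun y => f y • H y) z = c2 H z - pd (Matrix.of (lg f z)) (Matrix.of (ric H z))
      + pd (Matrix.of (lg f z)) (Matrix.of (lg f z)) := by
  unfold c2
  rw [rm_smul hH hH0 hf hf0, rm_smul hH hH0 hf hf0, rm_smul hH hH0 hf hf0, rm_smul hH hH0 hf hf0,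
    Matrix.det_smul, Fintype.card_fin]
  simp only [pd_smul, smul_pd, pd_sub, sub_pd, pd_self (H z), pd_comm (H z)]
  simp only [pd_det hH0]
  simp only [pd, Matrix.of_apply, ric]
  field_simp
  ring

theorem c2_twist {H : Cn 2 → Matrix (Fin 2) (Fin 2) ℂ} {φ : Cn 2 → ℝ} {z : Cn 2} (hH : SmM z H)
    (hH0 : (H z).det ≠ 0) (hφ : ContDiffAt ℝ ∞ φ z) :
    c2 (fun y => ((Real.exp (-φ y) : ℝ) : ℂ) • H y) z = c2 H z
      + pd (hess φ z) (Matrix.of (ric H z)) + pd (hess φ z) (hess φ z) := by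
  have hf : ContDiffAt ℝ ∞ (fun y => Real.exp (-φ y)) z := hφ.neg.exp
  have hfs : Sm z (fun y => ((Real.exp (-φ y) : ℝ) : ℂ)) := contDiffAt_cu hf
  have h2 : Matrix.of (lg (fun y => ((Real.exp (-φ y) : ℝ) : ℂ)) z) = - hess φ z := by
    ext c d
    rw [Matrix.of_apply, lg_eq_hess hfs (Eventually.of_forall fun y => Complex.ofReal_im _)
      (by rw [Complex.ofReal_re]; exact Real.exp_pos _)]
    have h3 : (fun y => Real.log (((Real.exp (-φ y) : ℝ) : ℂ)).re) = fun y => - φ y := by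
      funext y
      rw [Complex.ofReal_re, Real.log_exp]
    rw [h3, hess_neg hφ]
  rw [c2_smul hH hH0 hfs (Complex.ofReal_ne_zero.2 (Real.exp_pos _).ne'), h2]
  simp only [pd_neg, neg_pd]
  ring

/-! ### direct sums of line bundles -/






end

end Crest.Agent.R257.C2F5_335
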