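import Crest.Agent.R257.GradB_537
import Crest.Agent.R273.Fam_835
import Crest.Agent.R257.Aff_835
import Crest.Agent.R273.C2f_793

-- ▼ part R257/GradC_537
section

/-!
# R257 (S0395), leaf E-GRAD (helper537), part c: the gradient estimate with a cut-off function

`η ≥ 0` a cut-off (for instance `η = r² - |x|²`), `w = A - u`:
* `grad_one_W` : the computation at a maximum point of `|∂_ξ u|² / (W² u_{ξ ξ̄})`, `W > 0` arbitrary
* `grad_one_cut`, `grad_cut_at_max` : at a maximum point of `η² |∂_ξ u|² / (w² u_{ξ ξ̄})`: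
  `2 η² |∂_v u|² / (w² u_{v v̄}) ≤ κ η² + 4 C₁ + 2 n C₂ η`
  if `|∂η|² ≤ C₁ ω`, `- ∂∂̄ η ≤ C₂ ω`, `∂∂̄ log det ≤ κ ω`
-/

set_option autoImplicit false
set_option linter.unusedSectionVars false

open Set Filter Topology Complex
open scoped ContDiff Matrix ComplexConjugate ComplexOrder

namespace Crest.Agent.R257.GradC_537

open Crest.Agent.R275.Geo Crest.Agent.R275.Core144 Crest.Agent.R275.GC293
open Crest.Agent.R275.OmT75
open Crest.Agent.R273 Crest.Agent.R273.Levi_145 Crest.Agent.R273.C2a_793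
open Crest.Agent.R273.C2b_793 Crest.Agent.R273.C2c_793 Crest.Agent.R273.C2d_793
open Crest.Agent.R273.C2e_793 Crest.Agent.R257.GradA_537 Crest.Agent.R257.GradB_537

noncomputable section

variable {n : ℕ} {u : Cn n → ℝ} {x : Cn n}

/-- the computation at the maximum point, general weight, coordinates with `u_{a b̄}(x) = δ_ab` -/
theorem grad_one_W {v : Cn n} {W : Cn n → ℝ} (hu : ContDiffAt ℝ ∞ u x) (h1 : Um u x = 1)
    (hu0 : ∀ v, v ≠ 0 → 0 < lev u x v) (hv : v ≠ 0) (hW2 : ContDiffAt ℝ 2 W x) (hWx : 0 < W x)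
    (hg : gr u x v ≠ 0)
    (hmax : ∀ᶠ z in 𝓝 x, ∀ ξ, ‖gr u z ξ‖ ^ 2 * (W x ^ 2 * lev u x v) ≤
      ‖gr u x v‖ ^ 2 * (W z ^ 2 * lev u z ξ)) :
    2 * (lev u x v / ‖gr u x v‖ ^ 2) - 4 * (gr W x v / W x / gr u x v).re
      - 2 * ∑ c, lev (fun z => Real.log (W z)) x (ee c) ≤ lev (ld u) x v / lev u x v := by
  -- the field
  set T : Matrix (Fin n) (Fin n) ℂ := Matrix.of fun b c => - tau u x v c b with hT
  set B : Cn n →L[ℂ] Cn n := Matrix.toEuclideanCLM (n := Fin n) (𝕜 := ℂ) T with hBdef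
  have hBe : ∀ ξ : Cn n, ∀ a, (B ξ) a = ∑ c, T a c * ξ c := fun ξ a => rfl
  have hBc : ∀ c a, (B (ee c)) a = - tau u x v c a := by
    intro c a
    rw [hBe]
    simp [ee, hT]
  set V : Cn n → Cn n := aff x v B with hVdef
  have hVx : V x = v := aff_self x v B
  have hV : ∀ᶠ z in 𝓝 x, DifferentiableAt ℂ V z := Eventually.of_forall (diff_aff x v B)
  have hVB : ∀ c b, (fderiv ℂ V x (ee c)) b = - tau u x (V x) c b := by
    intro c b
    rw [hVx, hVdef, fderiv_aff, hBc]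
  have hV0 : V x ≠ 0 := by rw [hVx]; exact hv
  -- the functions
  have hp2 := c2_PV hu hV
  have hpx : PV u V x = gr u x v := by rw [PV, hVx]
  set N : Cn n → ℝ := fun z => ‖PV u V z‖ ^ 2 with hN
  set Q : Cn n → ℝ := QV u V with hQ
  have hN2 : ContDiffAt ℝ 2 N x := c2_normSq' hp2
  have hQ2 : ContDiffAt ℝ 2 Q x := c2_QV hu hV
  have hNx : 0 < N x := by
    have : PV u V x ≠ 0 := by rw [hpx]; exact hg
    have := norm_pos_iff.2 this
    simp only [hN]
    positivity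
  have hQx : Q x = lev u x v := by rw [hQ, QV, hVx]
  have hQ0 : 0 < Q x := by rw [hQx]; exact hu0 v hv
  -- local maximum
  have hmaxF : IsLocalMax (fun z => Real.log (N z) - 2 * Real.log (W z) - Real.log (Q z)) x := by
    filter_upwards [hmax, hN2.continuousAt.eventually (lt_mem_nhds hNx),
      hW2.continuousAt.eventually (lt_mem_nhds hWx),
      hQ2.continuousAt.eventually (lt_mem_nhds hQ0)] with z h2 hNz hWz hQz
    have h3 := h2 (V z)
    have e1 : N z * (W x ^ 2 * Q x) ≤ N x * (W z ^ 2 * Q z) := by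
      rw [hQx]
      simp only [hN, hQ, PV, QV] at h3 ⊢
      rw [hVx]
      exact h3
    have e2 := Real.log_le_log (by positivity) e1
    have l1 : Real.log (W x ^ 2) = 2 * Real.log (W x) := by rw [Real.log_pow]; push_cast; ring
    have l2 : Real.log (W z ^ 2) = 2 * Real.log (W z) := by rw [Real.log_pow]; push_cast; ring
    rw [Real.log_mul hNz.ne' (by positivity), Real.log_mul (by positivity) hQ0.ne',
      Real.log_mul hNx.ne' (by positivity), Real.log_mul (by positivity) hQz.ne', l1, l2] at e2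
    linarith
  have hlN : ContDiffAt ℝ 2 (fun z => Real.log (N z)) x := hN2.log hNx.ne'
  have hlW : ContDiffAt ℝ 2 (fun z => Real.log (W z)) x := hW2.log hWx.ne'
  have hlQ : ContDiffAt ℝ 2 (fun z => Real.log (Q z)) x := hQ2.log hQ0.ne'
  have hl2W : ContDiffAt ℝ 2 (fun z => 2 * Real.log (W z)) x := contDiffAt_const.mul hlW
  have hF2 : ContDiffAt ℝ 2 (fun z => Real.log (N z) - 2 * Real.log (W z) - Real.log (Q z)) x :=
    (hlN.sub hl2W).sub hlQ
  have hlev : ∀ c, lev (fun z => Real.log (N z)) x (ee c) -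
      2 * lev (fun z => Real.log (W z)) x (ee c) - lev (fun z => Real.log (Q z)) x (ee c) ≤ 0 := by
    intro c
    have h2 := lev_nonpos_of_localMax hF2 hmaxF (ee c)
    rw [lev_sub (u := fun z => Real.log (N z) - 2 * Real.log (W z))
      (v := fun z => Real.log (Q z)) (hlN.sub hl2W) hlQ,
      lev_sub (u := fun z => Real.log (N z)) (v := fun z => 2 * Real.log (W z)) hlN hl2W,
      lev_const_mul 2 hlW] at h2
    exact h2
  have hdj : ∀ c, dj c (cx N) x / N x - 2 * (dj c (cx W) x / W x) - dj c (cx Q) x / Q x = 0 := by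
    intro c
    have h2 := dj_cx_zero (c2_diff hF2) hmaxF.fderiv_eq_zero c
    rw [dj_cx_sub (f := fun z => Real.log (N z) - 2 * Real.log (W z))
      (g := fun z => Real.log (Q z)) (c2_diff (hlN.sub hl2W)) (c2_diff hlQ),
      dj_cx_sub (f := fun z => Real.log (N z)) (g := fun z => 2 * Real.log (W z))
      (c2_diff hlN) (c2_diff hl2W), dj_cx_smul (c2_diff hlW), dj_log (c2_diff hN2) hNx,
      dj_log (c2_diff hW2) hWx, dj_log (c2_diff hQ2) hQ0] at h2
    push_cast at h2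
    exact h2
  -- first and second derivatives
  set p : ℂ := gr u x v with hp
  set g : Fin n → ℂ := fun c => dj c (cx W) x with hgdef
  set q : Fin n → ℂ := fun c => dj c (PV u V) x with hqdef
  have hum : ∀ a b, hs (cx u) x a b = (1 : Matrix (Fin n) (Fin n) ℂ) a b := fun a b => by
    rw [← h1]; rfl
  have hdb : ∀ c, dbj c (PV u V) x = v c := by
    intro c
    rw [dbj_PV (sm2 hu) hV.self_of_nhds, hVx]
    simp [hum, Matrix.one_apply]
  have hhs : ∀ c, hs (PV u V) x c c = 0 := hs_PV_one hu h1 hV hVB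
  have hdjN : ∀ c, dj c (cx N) x = q c * conj p + p * conj (v c) := by
    intro c
    rw [hN, dj_normSq' hp2, hdb, hpx]
  have hlevN : ∀ c, lev N x (ee c) = ‖q c‖ ^ 2 + ‖v c‖ ^ 2 := by
    intro c
    have e1 := lev_ee hN2 c
    rw [hN, hs_normSq' hp2, hhs, hdb] at e1
    have e2 : ((lev (fun z => ‖PV u V z‖ ^ 2) x (ee c) : ℝ) : ℂ) =
        ((‖q c‖ ^ 2 + ‖v c‖ ^ 2 : ℝ) : ℂ) := by
      rw [e1]
      push_cast
      rw [← Complex.mul_conj', ← Complex.mul_conj']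
      simp [hqdef]
    exact_mod_cast e2
  have hdjQ : ∀ c, dj c (cx Q) x = 0 := by
    intro c
    rw [hQ, dj_QV_one hu h1 hV]
    simp [hVB]
  have hlevQ : ∀ c, lev Q x (ee c) = (RR u x v c c).re - ∑ b, ‖tau u x v c b‖ ^ 2 := by
    intro c
    have e1 := lev_ee hQ2 c
    rw [hQ, hs_QV_one hu h1 hV] at e1
    have e2 := congrArg Complex.re e1
    simp only [Complex.ofReal_re, Complex.add_re, Complex.sub_re, Complex.re_sum, hVx] at e2
    rw [← hQ] at e2
    rw [e2]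
    have e3 : ∀ b, tau u x v c b + (fderiv ℂ V x (ee c)) b = 0 := by
      intro b
      have := hVB c b
      rw [hVx] at this
      rw [this]; ring
    simp [e3]
  have hQn : Q x = ∑ b, ‖v b‖ ^ 2 := by rw [hQx, lev_one hu h1]
  have hsumQ : ∑ c, lev (fun z => Real.log (Q z)) x (ee c) = lev (ld u) x v / lev u x v := by
    have e1 : ∀ c, lev (fun z => Real.log (Q z)) x (ee c) =
        ((RR u x v c c).re - ∑ b, ‖tau u x v c b‖ ^ 2) / Q x := by
      intro c
      rw [lev_log hQ2 hQ0, hlevQ, gr_ee, hdjQ]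
      simp
    simp only [e1]
    rw [← Finset.sum_div, ← hQx]
    congr 1
    have e2 := congrArg Complex.re (lev_ld_one hu h1 v)
    simp only [Complex.ofReal_re, Complex.sub_re, Complex.re_sum] at e2
    rw [e2]
  -- the first order condition
  have hp0 : p ≠ 0 := hg
  have hcp0 : conj p ≠ 0 := (map_ne_zero _).2 hp0
  have hWc : ((W x : ℝ) : ℂ) ≠ 0 := by exact_mod_cast hWx.ne'
  have hNc : ((N x : ℝ) : ℂ) = p * conj p := by
    rw [Complex.mul_conj']
    simp only [hN, hpx]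
    push_cast
    rfl
  have hq : ∀ c, q c / p = - (conj (v c) / conj p) + 2 * (g c / W x) := by
    intro c
    have e1 := hdj c
    rw [hdjN, hdjQ, hNc] at e1
    have e2 : (q c * conj p + p * conj (v c)) / (p * conj p) = q c / p + conj (v c) / conj p := by
      field_simp
    rw [e2] at e1
    linear_combination e1
  have hNp : N x = ‖p‖ ^ 2 := by simp only [hN, hpx]
  have hqn : ∀ c, ‖q c‖ ^ 2 / N x = ‖v c‖ ^ 2 / N x + 4 * (‖g c‖ ^ 2 / W x ^ 2)
      - 4 / W x * (g c * v c / p).re := by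
    intro c
    have e0 : ‖q c‖ ^ 2 / N x = ‖q c / p‖ ^ 2 := by rw [hNp, norm_div, div_pow]
    have e1 : ((‖q c / p‖ ^ 2 : ℝ) : ℂ) = ((‖v c‖ ^ 2 / N x + 4 * (‖g c‖ ^ 2 / W x ^ 2)
      - 4 / W x * (g c * v c / p).re : ℝ) : ℂ) := by
      have e2 : ((‖q c / p‖ ^ 2 : ℝ) : ℂ) = (q c / p) * conj (q c / p) := by
        rw [Complex.mul_conj']; push_cast; rfl
      have e3 : (((g c * v c / p).re : ℝ) : ℂ) = (g c * v c / p + conj (g c * v c / p)) / 2 :=
        Complex.re_eq_add_conj _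
      rw [e2, hq]
      push_cast
      rw [e3, hNc, ← Complex.mul_conj', ← Complex.mul_conj']
      simp only [map_add, map_neg, map_mul, map_div₀, Complex.conj_conj, Complex.conj_ofReal,
        map_ofNat]
      field_simp
      ring
    rw [e0]
    exact_mod_cast e1
  have hlN' : ∀ c, lev (fun z => Real.log (N z)) x (ee c) =
      2 * (‖v c‖ ^ 2 / N x) - 4 / W x * (g c * v c / p).re := by
    intro c
    have e1 : dj c (cx N) x / N x = 2 * (g c / W x) := by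
      have := hdj c
      rw [hdjQ] at this
      linear_combination this
    have e2 : ‖dj c (cx N) x‖ ^ 2 / N x ^ 2 = 4 * (‖g c‖ ^ 2 / W x ^ 2) := by
      have e3 : ‖dj c (cx N) x / N x‖ ^ 2 = ‖dj c (cx N) x‖ ^ 2 / N x ^ 2 := by
        rw [norm_div, div_pow, Complex.norm_real, Real.norm_eq_abs, sq_abs]
      rw [← e3, e1, norm_mul, norm_div, Complex.norm_real, Real.norm_eq_abs, mul_pow,
        div_pow, sq_abs]
      norm_num
    rw [lev_log hN2 hNx, hlevN, gr_ee, e2, add_div, hqn]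
    ring
  -- summation
  have hsum : ∑ c, (2 * (‖v c‖ ^ 2 / N x) - 4 / W x * (g c * v c / p).re
      - 2 * lev (fun z => Real.log (W z)) x (ee c)) ≤ lev (ld u) x v / lev u x v := by
    rw [← hsumQ]
    refine Finset.sum_le_sum fun c _ => ?_
    have := hlev c
    rw [hlN'] at this
    linarith
  refine le_of_eq_of_le ?_ hsum
  have hre : ∑ c, (g c * v c / p).re = (gr W x v / p).re := by
    rw [← Complex.re_sum, ← Finset.sum_div]
    rfl
  simp only [Finset.sum_sub_distrib, ← Finset.mul_sum, ← Finset.sum_div, hre]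
  rw [← hQx, hQn, ← hNp]
  have e5 : (gr W x v / (W x : ℂ) / p).re = (gr W x v / p).re / W x := by
    rw [div_right_comm, Complex.div_ofReal_re]
  rw [e5]
  ring

/-- the computation at the maximum point with a cut-off, coordinates with `u_{a b̄}(x) = δ_ab` -/
theorem grad_one_cut {v : Cn n} {η : Cn n → ℝ} {A C₁ C₂ : ℝ} (hu : ContDiffAt ℝ ∞ u x)
    (h1 : Um u x = 1) (hu0 : ∀ v, v ≠ 0 → 0 < lev u x v) (hv : v ≠ 0) (hA : u x < A)
    (hη : ContDiffAt ℝ 2 η x) (hη0 : 0 < η x) (hC₁ : 0 ≤ C₁)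
    (hη1 : ∀ ξ, ‖gr η x ξ‖ ^ 2 ≤ C₁ * lev u x ξ) (hη2 : ∀ ξ, -(C₂ * lev u x ξ) ≤ lev η x ξ)
    (hg : gr u x v ≠ 0)
    (hmax : ∀ᶠ z in 𝓝 x, ∀ ξ, ‖gr u z ξ‖ ^ 2 * η z ^ 2 * ((A - u x) ^ 2 * lev u x v) ≤
      ‖gr u x v‖ ^ 2 * η x ^ 2 * ((A - u z) ^ 2 * lev u z ξ)) :
    2 * ‖gr u x v‖ ^ 2 / ((A - u x) ^ 2 * lev u x v) ≤
      lev (ld u) x v / lev u x v + 4 * C₁ / η x ^ 2 + 2 * n * C₂ / η x := by
  have hwx : 0 < A - u x := by linarith
  set w : Cn n → ℝ := fun z => A - u z with hw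
  have hw2 : ContDiffAt ℝ 2 w x := contDiffAt_const.sub (sm2 hu)
  have hwx' : 0 < w x := hwx
  set W : Cn n → ℝ := fun z => w z / η z with hW
  have hW2 : ContDiffAt ℝ 2 W x := hw2.div hη hη0.ne'
  have hWx : 0 < W x := by simp only [hW]; positivity
  have hev1 : ∀ᶠ z in 𝓝 x, 0 < w z := hw2.continuousAt.eventually (lt_mem_nhds hwx')
  have hev2 : ∀ᶠ z in 𝓝 x, 0 < η z := hη.continuousAt.eventually (lt_mem_nhds hη0)
  have hmaxW : ∀ᶠ z in 𝓝 x, ∀ ξ, ‖gr u z ξ‖ ^ 2 * (W x ^ 2 * lev u x v) ≤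
      ‖gr u x v‖ ^ 2 * (W z ^ 2 * lev u z ξ) := by
    filter_upwards [hmax, hev2] with z hz hz2 ξ
    have h := hz ξ
    have e1 : ‖gr u z ξ‖ ^ 2 * (W x ^ 2 * lev u x v) =
        (‖gr u z ξ‖ ^ 2 * η z ^ 2 * ((A - u x) ^ 2 * lev u x v)) / (η x ^ 2 * η z ^ 2) := by
      simp only [hW, hw]
      field_simp
    have e2 : ‖gr u x v‖ ^ 2 * (W z ^ 2 * lev u z ξ) =
        (‖gr u x v‖ ^ 2 * η x ^ 2 * ((A - u z) ^ 2 * lev u z ξ)) / (η x ^ 2 * η z ^ 2) := by
      simp only [hW, hw]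
      field_simp
    rw [e1, e2]
    gcongr
  have key := grad_one_W hu h1 hu0 hv hW2 hWx hg hmaxW
  -- notation
  set p : ℂ := gr u x v with hp
  set Q : ℝ := lev u x v with hQ
  have hQ0 : 0 < Q := hu0 v hv
  have hp0 : 0 < ‖p‖ := norm_pos_iff.2 hg
  have hQn : Q = ∑ b, ‖v b‖ ^ 2 := by rw [hQ, lev_one hu h1]
  -- logarithms
  have hlw2 : ContDiffAt ℝ 2 (fun z => Real.log (w z)) x := hw2.log hwx'.ne'
  have hlη2 : ContDiffAt ℝ 2 (fun z => Real.log (η z)) x := hη.log hη0.ne'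
  have hlog : (fun z => Real.log (W z)) =ᶠ[𝓝 x] fun z => Real.log (w z) - Real.log (η z) := by
    filter_upwards [hev1, hev2] with z h3 h4
    exact Real.log_div h3.ne' h4.ne'
  have hdw : ∀ c, dj c (cx w) x = - dj c (cx u) x := by
    intro c
    have e : w = fun z => (fun _ => A) z - u z := rfl
    rw [e, dj_cx_sub (f := fun _ => A) (differentiableAt_const _) (c2_diff (sm2 hu))]
    have : dj c (cx fun _ : Cn n => A) x = 0 := dj_const _ _ _
    rw [this, zero_sub]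
  have hlevw : ∀ c, lev w x (ee c) = -1 := by
    intro c
    have e : w = fun z => (fun _ => A) z - u z := rfl
    rw [e, lev_sub (u := fun _ => A) contDiffAt_const (sm2 hu), lev_const, lev_one hu h1]
    simp [ee, apply_ite, ite_pow]
  have hlevlw : ∀ c, lev (fun z => Real.log (w z)) x (ee c) =
      - (1 / w x) - ‖dj c (cx u) x‖ ^ 2 / w x ^ 2 := by
    intro c
    rw [lev_log hw2 hwx', hlevw, gr_ee, hdw, norm_neg]
    ring
  have hlevlη : ∀ c, lev (fun z => Real.log (η z)) x (ee c) =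
      lev η x (ee c) / η x - ‖dj c (cx η) x‖ ^ 2 / η x ^ 2 := by
    intro c
    rw [lev_log hη hη0, gr_ee]
  have hlevW : ∀ c, lev (fun z => Real.log (W z)) x (ee c) =
      - (1 / w x) - ‖dj c (cx u) x‖ ^ 2 / w x ^ 2 -
        (lev η x (ee c) / η x - ‖dj c (cx η) x‖ ^ 2 / η x ^ 2) := by
    intro c
    rw [lev_congr hlog, lev_sub (u := fun z => Real.log (w z)) (v := fun z => Real.log (η z))
      hlw2 hlη2, hlevlw, hlevlη]
  -- first derivative of `W`
  have hdW : ∀ c, dj c (cx W) x / W x = - (dj c (cx u) x / w x) - dj c (cx η) x / η x := by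
    intro c
    have e1 := dj_log (c2_diff hW2) hWx c
    have e2 : dj c (cx fun z => Real.log (W z)) x =
        dj c (cx fun z => Real.log (w z) - Real.log (η z)) x :=
      (dj_ev (cx_congr hlog) c).self_of_nhds
    rw [← e1, e2, dj_cx_sub (f := fun z => Real.log (w z)) (g := fun z => Real.log (η z))
      (c2_diff hlw2) (c2_diff hlη2), dj_log (c2_diff hw2) hwx', dj_log (c2_diff hη) hη0, hdw]
    ring
  have hgW : gr W x v / W x / p = - (1 / (w x : ℂ)) - gr η x v / η x / p := by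
    have hpc : p ≠ 0 := hg
    have e1 : gr W x v / W x = - (p / w x) - gr η x v / η x := by
      have e3 : gr W x v / (W x : ℂ) = ∑ c, dj c (cx W) x / W x * v c := by
        rw [gr, Finset.sum_div]
        exact Finset.sum_congr rfl fun c _ => by ring
      have e4 : p / (w x : ℂ) = ∑ c, dj c (cx u) x / w x * v c := by
        rw [hp, gr, Finset.sum_div]
        exact Finset.sum_congr rfl fun c _ => by ring
      have e5 : gr η x v / (η x : ℂ) = ∑ c, dj c (cx η) x / η x * v c := by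
        rw [gr, Finset.sum_div]
        exact Finset.sum_congr rfl fun c _ => by ring
      rw [e3, e4, e5, ← Finset.sum_neg_distrib, ← Finset.sum_sub_distrib]
      exact Finset.sum_congr rfl fun c _ => by rw [hdW]; ring
    rw [e1]
    field_simp
  -- bounds of the cut-off
  have hSη : ∑ c, ‖dj c (cx η) x‖ ^ 2 ≤ C₁ := by
    set S : ℝ := ∑ c, ‖dj c (cx η) x‖ ^ 2 with hS
    set ξ : Cn n := WithLp.toLp 2 fun c => conj (dj c (cx η) x) with hξ
    have e1 : gr η x ξ = (S : ℂ) := by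
      rw [gr, hS]
      push_cast
      exact Finset.sum_congr rfl fun c _ => by
        rw [hξ]
        show dj c (cx η) x * conj (dj c (cx η) x) = _
        rw [Complex.mul_conj']
    have e2 : lev u x ξ = S := by
      rw [lev_one hu h1, hS]
      exact Finset.sum_congr rfl fun c _ => by
        rw [hξ]
        show ‖conj (dj c (cx η) x)‖ ^ 2 = _
        rw [Complex.norm_conj]
    have e3 := hη1 ξ
    rw [e1, e2, Complex.norm_real, Real.norm_eq_abs, sq_abs] at e3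
    have hS0 : 0 ≤ S := Finset.sum_nonneg fun c _ => sq_nonneg _
    rcases hS0.eq_or_lt with h | h
    · rw [← h]; exact hC₁
    · nlinarith
  have hΔη : -(n * C₂) ≤ ∑ c, lev η x (ee c) := by
    have e1 : ∀ c : Fin n, -C₂ ≤ lev η x (ee c) := by
      intro c
      have e2 := hη2 (ee c)
      rw [lev_one hu h1] at e2
      simpa [ee, apply_ite, ite_pow] using e2
    calc -(n * C₂) = ∑ c : Fin n, -C₂ := by
          rw [Finset.sum_const, Finset.card_univ, Fintype.card_fin, nsmul_eq_mul]; ring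
      _ ≤ _ := Finset.sum_le_sum fun c _ => e1 c
  have hηv : ‖gr η x v‖ ^ 2 ≤ C₁ * Q := hη1 v
  -- summation
  have hsumW : ∑ c, lev (fun z => Real.log (W z)) x (ee c) =
      - (n / w x) - (∑ c, ‖dj c (cx u) x‖ ^ 2) / w x ^ 2 -
        ((∑ c, lev η x (ee c)) / η x - (∑ c, ‖dj c (cx η) x‖ ^ 2) / η x ^ 2) := by
    simp only [hlevW, Finset.sum_sub_distrib, Finset.sum_neg_distrib, ← Finset.sum_div]
    simp only [Finset.sum_const, Finset.card_univ, Fintype.card_fin, nsmul_eq_mul]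
    ring
  have hre1 : (gr η x v / (η x : ℂ) / p).re ≥ -(‖gr η x v‖ / η x / ‖p‖) := by
    have e1 := Complex.abs_re_le_norm (gr η x v / (η x : ℂ) / p)
    rw [norm_div, norm_div, Complex.norm_real, Real.norm_eq_abs, abs_of_pos hη0] at e1
    exact (abs_le.1 e1).1
  have hre2 : (gr W x v / W x / p).re = -(1 / w x) - (gr η x v / (η x : ℂ) / p).re := by
    rw [hgW, Complex.sub_re, Complex.neg_re]
    congr 2
    rw [← Complex.ofReal_one, ← Complex.ofReal_div, Complex.ofReal_re]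
  have hamgm : 4 * (‖gr η x v‖ / η x / ‖p‖) ≤ 2 * (Q / ‖p‖ ^ 2) + 2 * (C₁ / η x ^ 2) := by
    have e1 : (‖gr η x v‖ / η x) ^ 2 ≤ C₁ / η x ^ 2 * Q := by
      rw [div_pow, div_mul_eq_mul_div]
      gcongr
    have e2 : ∀ a q s c : ℝ, 0 ≤ a → 0 < q → 0 < s → a ^ 2 ≤ c * q →
        4 * (a / s) ≤ 2 * (q / s ^ 2) + 2 * c := by
      intro a q s c ha hq hs h
      have h3 : a ^ 2 / q ≤ c := by rwa [div_le_iff₀ hq]
      have h4 : 0 ≤ 2 * (q / s ^ 2) + 2 * (a ^ 2 / q) - 4 * (a / s) := by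
        have : 2 * (q / s ^ 2) + 2 * (a ^ 2 / q) - 4 * (a / s) =
            2 * (q - a * s) ^ 2 / (q * s ^ 2) := by
          field_simp
          ring
        rw [this]
        positivity
      linarith
    exact e2 _ Q _ _ (by positivity) hQ0 hp0 e1
  have hcs : ‖p‖ ^ 2 ≤ (∑ c, ‖dj c (cx u) x‖ ^ 2) * Q := by
    rw [hQn]
    have h3 : ‖p‖ ≤ ∑ c, ‖dj c (cx u) x‖ * ‖v c‖ := by
      rw [hp, gr]
      refine (norm_sum_le _ _).trans (le_of_eq ?_)
      exact Finset.sum_congr rfl fun c _ => norm_mul _ _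
    calc ‖p‖ ^ 2 ≤ (∑ c, ‖dj c (cx u) x‖ * ‖v c‖) ^ 2 := by gcongr
      _ ≤ _ := Finset.sum_mul_sq_le_sq_mul_sq _ _ _
  have h5 : 2 * ‖p‖ ^ 2 / ((A - u x) ^ 2 * Q) ≤
      2 * ((∑ c, ‖dj c (cx u) x‖ ^ 2) / w x ^ 2) := by
    rw [mul_div_assoc]
    refine mul_le_mul_of_nonneg_left ?_ (by norm_num)
    show ‖p‖ ^ 2 / (w x ^ 2 * Q) ≤ _
    rw [div_le_div_iff₀ (by positivity) (by positivity)]
    calc ‖p‖ ^ 2 * w x ^ 2 ≤ ((∑ c, ‖dj c (cx u) x‖ ^ 2) * Q) * w x ^ 2 := by gcongr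
      _ = (∑ c, ‖dj c (cx u) x‖ ^ 2) * (w x ^ 2 * Q) := by ring
  have h6 : (∑ c, ‖dj c (cx η) x‖ ^ 2) / η x ^ 2 ≤ C₁ / η x ^ 2 := by gcongr
  have h7 : -(n * C₂ / η x) ≤ (∑ c, lev η x (ee c)) / η x := by
    rw [← neg_div]
    gcongr
  have h8 : 0 ≤ n / w x := by positivity
  have h9 : 0 < 1 / w x := by positivity
  rw [hsumW, hre2] at key
  have e8 : 4 * C₁ / η x ^ 2 = 4 * (C₁ / η x ^ 2) := mul_div_assoc _ _ _
  have e9 : 2 * n * C₂ / η x = 2 * (n * C₂ / η x) := by ring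
  rw [e8, e9]
  linarith

/-- **the gradient estimate at a maximum point, with a cut-off** -/
theorem grad_cut_at_max {v : Cn n} {η : Cn n → ℝ} {A κ C₁ C₂ : ℝ} (hu : ContDiffAt ℝ ∞ u x)
    (hu0 : ∀ v, v ≠ 0 → 0 < lev u x v) (hv : v ≠ 0) (hA : u x < A) (hκ0 : 0 ≤ κ)
    (hκ : lev (ld u) x v ≤ κ * lev u x v)
    (hη : ContDiffAt ℝ 2 η x) (hη0 : 0 < η x) (hC₁ : 0 ≤ C₁) (hC₂ : 0 ≤ C₂)
    (hη1 : ∀ ξ, ‖gr η x ξ‖ ^ 2 ≤ C₁ * lev u x ξ) (hη2 : ∀ ξ, -(C₂ * lev u x ξ) ≤ lev η x ξ)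
    (hmax : ∀ᶠ z in 𝓝 x, ∀ ξ, ‖gr u z ξ‖ ^ 2 * η z ^ 2 * ((A - u x) ^ 2 * lev u x v) ≤
      ‖gr u x v‖ ^ 2 * η x ^ 2 * ((A - u z) ^ 2 * lev u z ξ)) :
    2 * (‖gr u x v‖ ^ 2 * η x ^ 2) ≤
      (κ * η x ^ 2 + 4 * C₁ + 2 * n * C₂ * η x) * ((A - u x) ^ 2 * lev u x v) := by
  have hlv : 0 < lev u x v := hu0 v hv
  have hAx : 0 < A - u x := by linarith
  by_cases hg : gr u x v = 0
  · rw [hg]
    simp only [norm_zero, ne_eq, OfNat.ofNat_ne_zero, not_false_eq_true, zero_pow, mul_zero,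
      zero_mul]
    positivity
  obtain ⟨E, hE, hE1⟩ := exists_norm (Um_posDef (sm2 hu) hu0)
  have hu2 : ContDiffAt ℝ 2 u (TT x E 0) := by rw [TT_zero]; exact sm2 hu
  have h1 : Um (fun y => u (TT x E y)) 0 = 1 := by rw [Um_lin hu2, TT_zero, hE1]
  have hus := sm_comp_TT hu E
  have hTc : Tendsto (TT x E) (𝓝 0) (𝓝 x) := by
    have := (sm_TT x E).continuous.tendsto 0
    rwa [TT_zero] at this
  set ζ : Cn n := ml E⁻¹ v with hζ
  have hEζ : ml E ζ = v := ml_inv hE v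
  have hζ0 : ζ ≠ 0 := by
    intro h
    rw [h, map_zero] at hEζ
    exact hv hEζ.symm
  have hinj : ∀ ξ : Cn n, ξ ≠ 0 → ml E ξ ≠ 0 := by
    intro ξ hξ h0
    apply hξ
    have h3 : ml E⁻¹ (ml E ξ) = ξ := by
      rw [ml_mul, Matrix.nonsing_inv_mul _ (isUnit_iff_ne_zero.2 hE), ml_one]
    rw [← h3, h0, map_zero]
  have hpos' : ∀ ξ : Cn n, ξ ≠ 0 → 0 < lev (fun y => u (TT x E y)) 0 ξ := by
    intro ξ hξ
    rw [lev_lin (sm2 hu)]
    exact hu0 _ (hinj ξ hξ)
  have ha0 : u (TT x E 0) = u x := by rw [TT_zero]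
  have hη00 : η (TT x E 0) = η x := by rw [TT_zero]
  have hg0 : gr (fun y => u (TT x E y)) 0 ζ = gr u x v := by
    rw [gr_lin (by rw [TT_zero]; exact c2_diff (sm2 hu)), TT_zero, hEζ]
  have hl0 : lev (fun y => u (TT x E y)) 0 ζ = lev u x v := by
    rw [lev_lin (sm2 hu), hEζ]
  have hηT : ContDiffAt ℝ 2 η (TT x E 0) := by rw [TT_zero]; exact hη
  have hηs : ContDiffAt ℝ 2 (fun y => η (TT x E y)) 0 :=
    hηT.comp (0 : Cn n) (sm2 (sm_TT x E).contDiffAt)
  have key := grad_one_cut (u := fun y => u (TT x E y)) (x := 0) (v := ζ)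
    (η := fun y => η (TT x E y)) (A := A) (C₁ := C₁) (C₂ := C₂) hus h1 hpos' hζ0
    (by simp only [ha0]; exact hA) hηs (by simp only [hη00]; exact hη0) hC₁
    (fun ξ => by
      rw [gr_lin (u := η) (by rw [TT_zero]; exact c2_diff hη), TT_zero, lev_lin (sm2 hu)]
      exact hη1 _)
    (fun ξ => by
      rw [lev_lin' (u := η) hηT, TT_zero, lev_lin (sm2 hu)]
      exact hη2 _)
    (by rw [hg0]; exact hg) (by
      filter_upwards [hTc.eventually hmax, hTc.eventually (ev_sm2 hu)] with y hy hy2 ξ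
      have h4 := hy (ml E ξ)
      rw [hl0, hg0, gr_lin (c2_diff hy2), lev_lin' hy2]
      simp only [ha0, hη00]
      exact h4)
  rw [hg0, hl0] at key
  simp only [ha0, hη00] at key
  have hup := Um_posDef (sm2 hu) hu0
  have hdp : 0 < (Um u x).det.re := (Complex.pos_iff.1 hup.det_pos).1
  have hdc : ContinuousAt (fun z => (Um u z).det.re) x :=
    (Complex.reCLM.contDiff.contDiffAt.comp x (cd_det (sm_Um hu))).continuousAt
  have hld : lev (ld fun y => u (TT x E y)) 0 ζ = lev (ld u) x v := by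
    have e1 : (ld fun y => u (TT x E y)) =ᶠ[𝓝 0]
        fun y => (fun z => Real.log (‖E.det‖ ^ 2) + ld u z) (TT x E y) := by
      filter_upwards [hTc.eventually (ev_sm2 hu),
        hTc.eventually (hdc.eventually (lt_mem_nhds hdp))] with y hy hy2
      unfold ld
      rw [det_lin hy, Complex.re_ofReal_mul]
      have h5 : ‖E.det‖ ^ 2 ≠ 0 := by
        have := norm_ne_zero_iff.2 hE
        positivity
      exact Real.log_mul h5 hy2.ne'
    have e2 : ContDiffAt ℝ 2 (ld u) x := sm2 (sm_ld hu hdp.ne')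
    rw [lev_congr e1, lev_lin (contDiffAt_const.add e2),
      lev_add (u := fun _ => Real.log (‖E.det‖ ^ 2)) contDiffAt_const e2, lev_const, zero_add,
      hEζ]
  rw [hld] at key
  have k2 : lev (ld u) x v / lev u x v ≤ κ := (div_le_iff₀ hlv).2 hκ
  have k3 : 2 * ‖gr u x v‖ ^ 2 / ((A - u x) ^ 2 * lev u x v) ≤
      κ + 4 * C₁ / η x ^ 2 + 2 * n * C₂ / η x := by linarith
  rw [div_le_iff₀ (by positivity)] at k3
  have k4 := mul_le_mul_of_nonneg_right k3 (sq_nonneg (η x))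
  calc 2 * (‖gr u x v‖ ^ 2 * η x ^ 2) = 2 * ‖gr u x v‖ ^ 2 * η x ^ 2 := by ring
    _ ≤ _ := k4
    _ = _ := by field_simp

end

end Crest.Agent.R257.GradC_537
end

-- ▼ part R257/GradD_537
section

/-!
# R257 (S0395), leaf E-GRAD (helper537), part d: the global gradient estimate on a manifold

* `gn u z` = `|∂u|²_ω` (`ω = dd^c u`), `gr_sq_le`, `gr_gv`, `gn_cont`
* `SPsh C Ω u` : smooth, strictly plurisubharmonic on the open set `Ω` in the charts of `C : Fam n M`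
* `grad_est`   : the gradient estimate with a cut-off `η`, `{η > 0} ∩ Ω` in a compact `K ⊆ Ω`
-/

set_option autoImplicit false
set_option linter.unusedSectionVars false

open Set Filter Topology Complex
open scoped ContDiff Matrix ComplexConjugate ComplexOrder

namespace Crest.Agent.R257.GradD_537

open Crest.Agent.R275.Geo Crest.Agent.R275.Core144 Crest.Agent.R275.GC293
open Crest.Agent.R275.OmT75
open Crest.Agent.R273 Crest.Agent.R273.Levi_145 Crest.Agent.R273.C2a_793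
open Crest.Agent.R273.C2b_793 Crest.Agent.R273.C2c_793 Crest.Agent.R273.C2d_793
open Crest.Agent.R273.C2e_793 Crest.Agent.R257.GradA_537 Crest.Agent.R257.GradB_537
open Crest.Agent.R257.GradC_537 Crest.Agent.R273.Fam_835

noncomputable section

variable {n : ℕ} {u : Cn n → ℝ} {x z : Cn n}

/-! ### the norm of the gradient -/

/-- the polarised Levi form -/
def bl (u : Cn n → ℝ) (z ξ ζ : Cn n) : ℂ := ∑ a, ∑ b, hs (cx u) z a b * ξ a * conj (ζ b)

/-- the vector dual to `∂u` -/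
def gv (u : Cn n → ℝ) (z : Cn n) : Cn n :=
  WithLp.toLp 2 fun a => conj (((Um u z)⁻¹ *ᵥ fun b => dj b (cx u) z) a)

/-- `|∂u|²_ω` -/
def gn (u : Cn n → ℝ) (z : Cn n) : ℝ := (gr u z (gv u z)).re

theorem bl_gv (h : (Um u z).det ≠ 0) (ξ : Cn n) : bl u z ξ (gv u z) = gr u z ξ := by
  have h1 : ∀ a, ∑ b, hs (cx u) z a b * conj (gv u z b) = dj a (cx u) z := by
    intro a
    have h2 : (Um u z) *ᵥ ((Um u z)⁻¹ *ᵥ fun b => dj b (cx u) z) = fun b => dj b (cx u) z := by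
      rw [Matrix.mulVec_mulVec, Matrix.mul_nonsing_inv _ (isUnit_iff_ne_zero.2 h),
        Matrix.one_mulVec]
    have h3 := congrFun h2 a
    rw [← h3]
    simp only [Matrix.mulVec, dotProduct, gv, Complex.conj_conj, Um_apply]
  unfold bl gr
  refine Finset.sum_congr rfl fun a _ => ?_
  rw [← h1 a, Finset.sum_mul]
  exact Finset.sum_congr rfl fun b _ => by ring

theorem bl_self (h : ContDiffAt ℝ 2 u z) (ξ : Cn n) : bl u z ξ ξ = (lev u z ξ : ℂ) :=
  (lev_eq h ξ).symm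

theorem bl_symm (h : ContDiffAt ℝ 2 u z) (ξ ζ : Cn n) : bl u z ζ ξ = conj (bl u z ξ ζ) := by
  unfold bl
  rw [map_sum, Finset.sum_comm]
  refine Finset.sum_congr rfl fun a _ => ?_
  rw [map_sum]
  refine Finset.sum_congr rfl fun b _ => ?_
  rw [map_mul, map_mul, Complex.conj_conj, hs_herm h]
  ring

theorem bl_sub_smul (s p : ℂ) (ξ ζ : Cn n) :
    bl u z (s • ξ - p • ζ) (s • ξ - p • ζ) = s * conj s * bl u z ξ ξ - s * conj p * bl u z ξ ζ
      - p * conj s * bl u z ζ ξ + p * conj p * bl u z ζ ζ := by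
  unfold bl
  simp only [Finset.mul_sum, ← Finset.sum_sub_distrib, ← Finset.sum_add_distrib]
  refine Finset.sum_congr rfl fun a _ => Finset.sum_congr rfl fun b _ => ?_
  simp only [PiLp.sub_apply, PiLp.smul_apply, smul_eq_mul, map_sub, map_mul]
  ring

section Pos

variable (hu : ContDiffAt ℝ 2 u z) (hp : ∀ v : Cn n, v ≠ 0 → 0 < lev u z v)

include hu hp

theorem det_ne : (Um u z).det ≠ 0 := (Um_posDef hu hp).det_pos.ne'

theorem gr_gv : gr u z (gv u z) = (lev u z (gv u z) : ℂ) := by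
  rw [← bl_gv (det_ne hu hp), bl_self hu]

theorem gn_eq : gn u z = lev u z (gv u z) := by
  rw [gn, gr_gv hu hp, Complex.ofReal_re]

theorem gn_nonneg : 0 ≤ gn u z := by
  rw [gn_eq hu hp]
  exact lev_nn_zero hp _

/-- Cauchy-Schwarz -/
theorem gr_sq_le (ξ : Cn n) : ‖gr u z ξ‖ ^ 2 ≤ gn u z * lev u z ξ := by
  have hs0 := gn_nonneg hu hp
  rcases hs0.eq_or_lt with h | h
  · have h1 : gv u z = 0 := by
      by_contra h0
      have := hp _ h0
      rw [← gn_eq hu hp] at this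
      linarith
    have h2 : gr u z ξ = 0 := by
      rw [← bl_gv (det_ne hu hp), h1]
      simp [bl]
    rw [h2, ← h]
    simp
  · set s := gn u z with hs
    set p := gr u z ξ with hpp
    have e1 : bl u z ξ (gv u z) = p := bl_gv (det_ne hu hp) ξ
    have e2 : bl u z (gv u z) ξ = conj p := by rw [bl_symm hu ξ, e1]
    have e3 : bl u z (gv u z) (gv u z) = (s : ℂ) := by rw [bl_self hu, hs, gn_eq hu hp]
    have e4 := bl_sub_smul (u := u) (z := z) (s : ℂ) p ξ (gv u z)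
    rw [e1, e2, e3, bl_self hu, bl_self hu, Complex.conj_ofReal] at e4
    have e5 : (lev u z ((s : ℂ) • ξ - p • gv u z) : ℂ) =
        ((s * (s * lev u z ξ - ‖p‖ ^ 2) : ℝ) : ℂ) := by
      rw [e4]
      push_cast
      rw [← Complex.mul_conj']
      ring
    have e6 : lev u z ((s : ℂ) • ξ - p • gv u z) = s * (s * lev u z ξ - ‖p‖ ^ 2) := by
      exact_mod_cast e5
    have e7 := lev_nn_zero hp ((s : ℂ) • ξ - p • gv u z)
    rw [e6] at e7
    have e8 := nonneg_of_mul_nonneg_right e7 h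
    linarith

theorem gn_le_of {c : ℝ} (hc : ∀ ξ, ‖gr u z ξ‖ ^ 2 ≤ c * lev u z ξ) (hc0 : 0 ≤ c) :
    gn u z ≤ c := by
  have h0 := gn_nonneg hu hp
  rcases h0.eq_or_lt with h | h
  · rw [← h]; exact hc0
  · have h1 := hc (gv u z)
    rw [gr_gv hu hp, Complex.norm_real, Real.norm_eq_abs, sq_abs, ← gn_eq hu hp, sq] at h1
    exact le_of_mul_le_mul_right h1 h

theorem gr_gv_sq : ‖gr u z (gv u z)‖ ^ 2 = gn u z * lev u z (gv u z) := by
  rw [gr_gv hu hp, Complex.norm_real, Real.norm_eq_abs, sq_abs, ← gn_eq hu hp, sq]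

end Pos

theorem gn_cont (hu : ContDiffAt ℝ ∞ u x) (hp : ∀ v : Cn n, v ≠ 0 → 0 < lev u x v) :
    ContinuousAt (gn u) x := by
  have hU : ContinuousAt (Um u) x := by
    refine continuousAt_pi.2 fun a => continuousAt_pi.2 fun b => ?_
    exact (sm_Um hu a b).continuousAt
  have hdet : ContinuousAt (fun z => (Um u z).det) x :=
    (continuous_id.matrix_det).continuousAt.comp hU
  have hadj : ContinuousAt (fun z => (Um u z).adjugate) x :=
    (continuous_id.matrix_adjugate).continuousAt.comp hU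
  have hd0 : (Um u x).det ≠ 0 := det_ne (sm2 hu) hp
  have hinv : ContinuousAt (fun z => (Um u z)⁻¹) x := by
    have e : (fun z => (Um u z)⁻¹) = fun z => ((Um u z).det)⁻¹ • (Um u z).adjugate := by
      funext z
      rw [Matrix.inv_def, Ring.inverse_eq_inv']
    rw [e]
    exact (hdet.inv₀ hd0).smul hadj
  have hdj : ∀ a, ContinuousAt (fun z => dj a (cx u) z) x := fun a =>
    (sm_dj (sm_cx hu) a).continuousAt
  have hinvab : ∀ a b, ContinuousAt (fun z => (Um u z)⁻¹ a b) x := fun a b =>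
    continuousAt_pi.1 (continuousAt_pi.1 hinv a) b
  have hgv : ∀ a, ContinuousAt (fun z => (gv u z) a) x := by
    intro a
    refine Complex.continuous_conj.continuousAt.comp ?_
    simp only [Matrix.mulVec, dotProduct]
    exact tendsto_finsetSum _ fun b _ => (hinvab a b).mul (hdj b)
  refine Complex.continuous_re.continuousAt.comp ?_
  unfold gr
  exact tendsto_finsetSum _ fun a _ => (hdj a).mul (hgv a)

/-! ### functions on a manifold -/

variable {M : Type} [TopologicalSpace M] {C : Fam n M} {Ω K : Set M}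

/-- a function in a chart -/
def inF (C : Fam n M) (i : C.ι) (u : M → ℝ) (z : Cn n) : ℝ := u ((C.e i).symm z)

/-- transition map -/
def TF (C : Fam n M) (i j : C.ι) (z : Cn n) : Cn n := C.e j ((C.e i).symm z)

theorem inF_apply {i : C.ι} {p : M} (hp : p ∈ (C.e i).source) (u : M → ℝ) :
    inF C i u (C.e i p) = u p := by rw [inF, (C.e i).left_inv hp]

theorem TF_anal {i j : C.ι} {p : M} (hi : p ∈ (C.e i).source) (hj : p ∈ (C.e j).source) :
    AnalyticAt ℂ (TF C i j) (C.e i p) := by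
  have ho : IsOpen ((C.e i).target ∩ (C.e i).symm ⁻¹' (C.e j).source) :=
    (C.e i).isOpen_inter_preimage_symm (C.e j).open_source
  have hm : C.e i p ∈ (C.e i).target ∩ (C.e i).symm ⁻¹' (C.e j).source :=
    ⟨(C.e i).map_source hi, by rw [mem_preimage, (C.e i).left_inv hi]; exact hj⟩
  exact (Crest.Agent.R266.SCV.contDiffOn_omega_of_differentiableOn ho
    (C.holo i j)).contDiffAt (ho.mem_nhds hm) |>.analyticAt

theorem TF_apply {i j : C.ι} {p : M} (hi : p ∈ (C.e i).source) :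
    TF C i j (C.e i p) = C.e j p := by rw [TF, (C.e i).left_inv hi]

theorem inF_ev {i j : C.ι} {p : M} (hi : p ∈ (C.e i).source) (hj : p ∈ (C.e j).source)
    (u : M → ℝ) : inF C i u =ᶠ[𝓝 (C.e i p)] fun w => inF C j u (TF C i j w) := by
  have ho : IsOpen ((C.e i).target ∩ (C.e i).symm ⁻¹' (C.e j).source) :=
    (C.e i).isOpen_inter_preimage_symm (C.e j).open_source
  have hm : C.e i p ∈ (C.e i).target ∩ (C.e i).symm ⁻¹' (C.e j).source :=
    ⟨(C.e i).map_source hi, by rw [mem_preimage, (C.e i).left_inv hi]; exact hj⟩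
  filter_upwards [ho.mem_nhds hm] with w hw
  rw [inF, inF, TF, (C.e j).left_inv hw.2]

theorem gr_congr {f g : Cn n → ℝ} (h : f =ᶠ[𝓝 x] g) (v : Cn n) : gr f x v = gr g x v := by
  unfold gr
  refine Finset.sum_congr rfl fun a _ => ?_
  rw [dj_congr (cx_congr h)]

theorem gr_change {i j : C.ι} {p : M} (hi : p ∈ (C.e i).source) (hj : p ∈ (C.e j).source)
    {u : M → ℝ} (hu : DifferentiableAt ℝ (inF C j u) (C.e j p)) (v : Cn n) :
    gr (inF C i u) (C.e i p) v = gr (inF C j u) (C.e j p) (fderiv ℂ (TF C i j) (C.e i p) v) := by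
  rw [gr_congr (inF_ev hi hj u), gr_comp (TF_anal hi hj).differentiableAt
    (by rw [TF_apply hi]; exact hu), TF_apply hi]

theorem lev_change {i j : C.ι} {p : M} (hi : p ∈ (C.e i).source) (hj : p ∈ (C.e j).source)
    {u : M → ℝ} (hu : ContDiffAt ℝ 2 (inF C j u) (C.e j p)) (v : Cn n) :
    lev (inF C i u) (C.e i p) v = lev (inF C j u) (C.e j p) (fderiv ℂ (TF C i j) (C.e i p) v) := by
  rw [lev_congr (inF_ev hi hj u), lev_comp (TF_anal hi hj)
    (by rw [TF_apply hi]; exact hu), TF_apply hi]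

/-- smooth and strictly plurisubharmonic on `Ω` in the charts of `C` -/
structure SPsh (C : Fam n M) (Ω : Set M) (u : M → ℝ) : Prop where
  sm : ∀ i, ∀ p ∈ (C.e i).source, p ∈ Ω → ContDiffAt ℝ ∞ (inF C i u) (C.e i p)
  pos : ∀ i, ∀ p ∈ (C.e i).source, p ∈ Ω → ∀ v, v ≠ 0 → 0 < lev (inF C i u) (C.e i p) v

section Glob

variable {u : M → ℝ} (hu : SPsh C Ω u)

include hu

theorem gn_change_le {i j : C.ι} {p : M} (hi : p ∈ (C.e i).source) (hj : p ∈ (C.e j).source)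
    (hΩ : p ∈ Ω) : gn (inF C i u) (C.e i p) ≤ gn (inF C j u) (C.e j p) := by
  refine gn_le_of (sm2 (hu.sm i p hi hΩ)) (hu.pos i p hi hΩ) (fun ξ => ?_)
    (gn_nonneg (sm2 (hu.sm j p hj hΩ)) (hu.pos j p hj hΩ))
  rw [gr_change hi hj (c2_diff (sm2 (hu.sm j p hj hΩ))), lev_change hi hj (sm2 (hu.sm j p hj hΩ))]
  exact gr_sq_le (sm2 (hu.sm j p hj hΩ)) (hu.pos j p hj hΩ) _

theorem gn_change {i j : C.ι} {p : M} (hi : p ∈ (C.e i).source) (hj : p ∈ (C.e j).source)
    (hΩ : p ∈ Ω) : gn (inF C i u) (C.e i p) = gn (inF C j u) (C.e j p) :=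
  le_antisymm (gn_change_le hu hi hj hΩ) (gn_change_le hu hj hi hΩ)

omit hu in
/-- `|∂u|²_ω` on `M` -/
def gM (C : Fam n M) (u : M → ℝ) (p : M) : ℝ :=
  gn (inF C (C.cover p).choose u) (C.e (C.cover p).choose p)

theorem gM_eq {i : C.ι} {p : M} (hi : p ∈ (C.e i).source) (hΩ : p ∈ Ω) :
    gM C u p = gn (inF C i u) (C.e i p) :=
  gn_change hu (C.cover p).choose_spec hi hΩ

theorem gM_cont (hΩo : IsOpen Ω) {p : M} (hΩ : p ∈ Ω) : ContinuousAt (gM C u) p := by
  obtain ⟨i, hi⟩ := C.cover p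
  have h1 : gM C u =ᶠ[𝓝 p] fun q => gn (inF C i u) (C.e i q) := by
    filter_upwards [hΩo.mem_nhds hΩ, (C.e i).open_source.mem_nhds hi] with q hq hq'
    exact gM_eq hu hq' hq
  have h2 : ContinuousAt (fun q => gn (inF C i u) (C.e i q)) p :=
    ContinuousAt.comp (g := gn (inF C i u)) (gn_cont (hu.sm i p hi hΩ) (hu.pos i p hi hΩ))
      ((C.e i).continuousAt hi)
  exact h2.congr h1.symm

omit hu in
theorem inF_cont {f : M → ℝ} {i : C.ι} {p : M} (hi : p ∈ (C.e i).source)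
    (h : ContinuousAt (inF C i f) (C.e i p)) : ContinuousAt f p := by
  have h1 : ContinuousAt (fun q => inF C i f (C.e i q)) p :=
    ContinuousAt.comp (g := inF C i f) h ((C.e i).continuousAt hi)
  refine h1.congr ?_
  filter_upwards [(C.e i).open_source.mem_nhds hi] with q hq
  exact inF_apply hq f

/-- **the gradient estimate with a cut-off** -/
theorem grad_est (hΩo : IsOpen Ω) (hK : IsCompact K) (hKΩ : K ⊆ Ω) {η : M → ℝ}
    {A κ C₁ C₂ H : ℝ} (hκ0 : 0 ≤ κ) (hC₁ : 0 ≤ C₁) (hC₂ : 0 ≤ C₂)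
    (hκ : ∀ i, ∀ p ∈ (C.e i).source, p ∈ K → ∀ v,
      lev (ld (inF C i u)) (C.e i p) v ≤ κ * lev (inF C i u) (C.e i p) v)
    (hη : ∀ i, ∀ p ∈ (C.e i).source, p ∈ Ω → ContDiffAt ℝ 2 (inF C i η) (C.e i p))
    (hη1 : ∀ i, ∀ p ∈ (C.e i).source, p ∈ K → ∀ v,
      ‖gr (inF C i η) (C.e i p) v‖ ^ 2 ≤ C₁ * lev (inF C i u) (C.e i p) v)
    (hη2 : ∀ i, ∀ p ∈ (C.e i).source, p ∈ K → ∀ v,
      -(C₂ * lev (inF C i u) (C.e i p) v) ≤ lev (inF C i η) (C.e i p) v)
    (hηK : ∀ p ∈ Ω, 0 < η p → p ∈ K) (hH : ∀ p ∈ K, η p ≤ H) (hA : ∀ p ∈ K, u p < A) :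
    ∀ i, ∀ p ∈ (C.e i).source, p ∈ Ω → 0 < η p → ∀ v,
      2 * (‖gr (inF C i u) (C.e i p) v‖ ^ 2 * η p ^ 2) ≤
        (κ * H ^ 2 + 4 * C₁ + 2 * n * C₂ * H) * ((A - u p) ^ 2 * lev (inF C i u) (C.e i p) v) := by
  intro i₁ p₁ hi₁ hΩ₁ hη₁ v₁
  -- the function to maximise
  set F : M → ℝ := fun p => max (η p) 0 ^ 2 * gM C u p / (A - u p) ^ 2 with hF
  have hηc : ∀ p ∈ Ω, ContinuousAt η p := by
    intro p hp
    obtain ⟨i, hi⟩ := C.cover p
    exact inF_cont hi (hη i p hi hp).continuousAt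
  have huc : ∀ p ∈ Ω, ContinuousAt u p := by
    intro p hp
    obtain ⟨i, hi⟩ := C.cover p
    exact inF_cont hi (hu.sm i p hi hp).continuousAt
  have hFc : ContinuousOn F K := by
    intro p hp
    refine ContinuousAt.continuousWithinAt ?_
    have h1 := hA p hp
    exact ((((hηc p (hKΩ hp)).max continuousAt_const).pow 2).mul
      (gM_cont hu hΩo (hKΩ hp))).div ((continuousAt_const.sub (huc p (hKΩ hp))).pow 2)
      (by have : 0 < A - u p := by linarith
          positivity)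
  have hp₁K : p₁ ∈ K := hηK p₁ hΩ₁ hη₁
  obtain ⟨p₀, hp₀, hmax⟩ := hK.exists_isMaxOn ⟨p₁, hp₁K⟩ hFc
  have hp₀Ω := hKΩ hp₀
  have hH0 : 0 ≤ H := hη₁.le.trans (hH p₁ hp₁K)
  have hC0 : 0 ≤ κ * H ^ 2 + 4 * C₁ + 2 * n * C₂ * H := by positivity
  have hgM0 : ∀ p ∈ Ω, 0 ≤ gM C u p := by
    intro p hp
    obtain ⟨i, hi⟩ := C.cover p
    rw [gM_eq hu hi hp]
    exact gn_nonneg (sm2 (hu.sm i p hi hp)) (hu.pos i p hi hp)
  -- bound of `F p₀`
  have key : 2 * F p₀ ≤ κ * H ^ 2 + 4 * C₁ + 2 * n * C₂ * H := by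
    rcases le_or_gt (F p₀) 0 with h0 | h0
    · linarith
    have hη₀ : 0 < η p₀ := by
      by_contra hneg
      have : max (η p₀) 0 = 0 := max_eq_right (not_lt.1 hneg)
      rw [hF] at h0
      simp only [this] at h0
      simp at h0
    have hgM : 0 < gM C u p₀ := by
      rcases (hgM0 p₀ hp₀Ω).eq_or_lt with h | h
      · rw [hF] at h0
        simp only [← h] at h0
        simp at h0
      · exact h
    obtain ⟨i, hi⟩ := C.cover p₀
    set x := C.e i p₀ with hx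
    set f := inF C i u with hf
    set e := inF C i η with he
    have hfs : ContDiffAt ℝ ∞ f x := hu.sm i p₀ hi hp₀Ω
    have hfp := hu.pos i p₀ hi hp₀Ω
    have hgn : gn f x = gM C u p₀ := (gM_eq hu hi hp₀Ω).symm
    set v := gv f x with hv
    have hlv : lev f x v = gn f x := (gn_eq (sm2 hfs) hfp).symm
    have hlv0 : 0 < lev f x v := by rw [hlv, hgn]; exact hgM
    have hv0 : v ≠ 0 := by
      intro h
      rw [h, lev_zero] at hlv0
      exact lt_irrefl _ hlv0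
    have hgr : ‖gr f x v‖ ^ 2 = gn f x * lev f x v := gr_gv_sq (sm2 hfs) hfp
    have hfx : f x = u p₀ := inF_apply hi u
    have hex : e x = η p₀ := inF_apply hi η
    have hAx : f x < A := by rw [hfx]; exact hA p₀ hp₀
    have hsymm : ContinuousAt (C.e i).symm x := (C.e i).continuousAt_symm ((C.e i).map_source hi)
    have hsx : (C.e i).symm x = p₀ := (C.e i).left_inv hi
    have hΩx : ∀ᶠ z in 𝓝 x, (C.e i).symm z ∈ Ω :=
      hsymm.preimage_mem_nhds (by rw [hsx]; exact hΩo.mem_nhds hp₀Ω)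
    have hηx : ∀ᶠ z in 𝓝 x, 0 < e z :=
      (hη i p₀ hi hp₀Ω).continuousAt.eventually (lt_mem_nhds (by rw [← he, hex]; exact hη₀))
    have hm : ∀ᶠ z in 𝓝 x, ∀ ξ, ‖gr f z ξ‖ ^ 2 * e z ^ 2 * ((A - f x) ^ 2 * lev f x v) ≤
        ‖gr f x v‖ ^ 2 * e x ^ 2 * ((A - f z) ^ 2 * lev f z ξ) := by
      filter_upwards [hΩx, hηx, (C.e i).open_target.mem_nhds ((C.e i).map_source hi)] with
        z hz1 hz2 hz3 ξ
      set q := (C.e i).symm z with hq
      have hqi : q ∈ (C.e i).source := (C.e i).map_target hz3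
      have hqz : C.e i q = z := (C.e i).right_inv hz3
      have hηq : η q = e z := rfl
      have hqK : q ∈ K := hηK q hz1 (by rw [hηq]; exact hz2)
      have hqs := hu.sm i q hqi hz1
      have hqp := hu.pos i q hqi hz1
      have hgq := gM_eq hu hqi hz1
      rw [hqz] at hqs hqp hgq
      have h1 : F q ≤ F p₀ := hmax hqK
      have h2 : max (η q) 0 = e z := max_eq_left (by rw [hηq]; exact hz2.le)
      have h3 : max (η p₀) 0 = e x := by rw [hex]; exact max_eq_left hη₀.le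
      have h4 : u q = f z := rfl
      simp only [hF] at h1
      rw [h2, h3, h4, hgq, ← hgn, ← hfx] at h1
      have hAz : f z < A := hA q hqK
      have hAz' : 0 < A - f z := by linarith
      have hAx' : 0 < A - f x := by linarith
      rw [div_le_div_iff₀ (by positivity) (by positivity)] at h1
      have h5 := gr_sq_le (sm2 hqs) hqp ξ
      have h6 : 0 ≤ lev f z ξ := lev_nn_zero hqp ξ
      calc ‖gr f z ξ‖ ^ 2 * e z ^ 2 * ((A - f x) ^ 2 * lev f x v)
          ≤ (gn f z * lev f z ξ) * e z ^ 2 * ((A - f x) ^ 2 * lev f x v) := by gcongr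
        _ = (e z ^ 2 * gn f z * (A - f x) ^ 2) * (lev f z ξ * lev f x v) := by ring
        _ ≤ (e x ^ 2 * gn f x * (A - f z) ^ 2) * (lev f z ξ * lev f x v) := by
            refine mul_le_mul_of_nonneg_right h1 (by positivity)
        _ = _ := by rw [hgr]; ring
    have hres := grad_cut_at_max (v := v) (η := e) hfs hfp hv0 hAx hκ0 (hκ i p₀ hi hp₀ v)
      (hη i p₀ hi hp₀Ω) (by rw [hex]; exact hη₀) hC₁ hC₂ (hη1 i p₀ hi hp₀)
      (hη2 i p₀ hi hp₀) hm
    have hAx' : 0 < A - f x := by linarith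
    have hH₀ := hH p₀ hp₀
    have h7 : 2 * F p₀ * ((A - f x) ^ 2 * lev f x v) = 2 * (‖gr f x v‖ ^ 2 * e x ^ 2) := by
      have h3 : max (η p₀) 0 = e x := by rw [hex]; exact max_eq_left hη₀.le
      simp only [hF]
      rw [h3, hgr, ← hgn, ← hfx]
      field_simp
    rw [← h7] at hres
    have h8 := le_of_mul_le_mul_right hres (by positivity)
    refine h8.trans ?_
    rw [hex]
    gcongr
  -- conclusion
  have h1 : F p₁ ≤ F p₀ := hmax hp₁K
  have h2 : 2 * F p₁ ≤ κ * H ^ 2 + 4 * C₁ + 2 * n * C₂ * H := by linarith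
  have hs₁ := hu.sm i₁ p₁ hi₁ hΩ₁
  have hq₁ := hu.pos i₁ p₁ hi₁ hΩ₁
  have h3 := gr_sq_le (sm2 hs₁) hq₁ v₁
  rw [← gM_eq hu hi₁ hΩ₁] at h3
  have hA₁ : 0 < A - u p₁ := by linarith [hA p₁ hp₁K]
  have h4 : F p₁ * (A - u p₁) ^ 2 = η p₁ ^ 2 * gM C u p₁ := by
    simp only [hF]
    rw [max_eq_left hη₁.le]
    field_simp
  have h5 : 0 ≤ lev (inF C i₁ u) (C.e i₁ p₁) v₁ := lev_nn_zero hq₁ v₁
  calc 2 * (‖gr (inF C i₁ u) (C.e i₁ p₁) v₁‖ ^ 2 * η p₁ ^ 2)
      ≤ 2 * ((gM C u p₁ * lev (inF C i₁ u) (C.e i₁ p₁) v₁) * η p₁ ^ 2) := by gcongr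
    _ = 2 * F p₁ * ((A - u p₁) ^ 2 * lev (inF C i₁ u) (C.e i₁ p₁) v₁) := by
        rw [show 2 * F p₁ * ((A - u p₁) ^ 2 * lev (inF C i₁ u) (C.e i₁ p₁) v₁) =
          2 * (F p₁ * (A - u p₁) ^ 2) * lev (inF C i₁ u) (C.e i₁ p₁) v₁ by ring, h4]
        ring
    _ ≤ _ := by
        refine mul_le_mul_of_nonneg_right h2 (by positivity)

end Glob

end

end Crest.Agent.R257.GradD_537
end

-- ▼ part R257/GradE_537

/-!
# R257 (S0395), leaf E-GRAD (helper537), part e: levels of a holomorphic function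

* `lvFam`      : the regular level `{x ∈ Ω, g x = s}` of `g : ℂ^(n+1) → ℂ` as `Fam n`
* `par_thi`, `factor` : charts are parametrisations (`Aff_835.Par`) and conversely
* `grad_par`   : the gradient estimate on levels
* `lev_log_eta2a`, `lev_ld_of_ke` : the Kaehler-Einstein equation gives `∂∂̄ log det = ω`
* `grad_ke`    : the gradient estimate for Kaehler-Einstein potentials
-/

set_option autoImplicit false
set_option linter.unusedSectionVars false

open Set Filter Topology Complex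
open scoped ContDiff Matrix ComplexConjugate ComplexOrder

namespace Crest.Agent.R257.GradE_537

open Crest.Agent.R275.Geo Crest.Agent.R275.Core144 Crest.Agent.R275.GC293
open Crest.Agent.R275.OmT75
open Crest.Agent.R273 Crest.Agent.R273.Levi_145 Crest.Agent.R273.C2a_793
open Crest.Agent.R273.C2c_793 Crest.Agent.R273.C2d_793
open Crest.Agent.R257.GradB_537 Crest.Agent.R257.GradD_537
open Crest.Agent.R273.Fam_835 Crest.Agent.R273.Sub_835 Crest.Agent.R273.Reg_835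
open Crest.Agent.R257.PN_835 Crest.Agent.R257.Gram_835 Crest.Agent.R257.Aff_835

noncomputable section

variable {n : ℕ}

/-- the chart of affine space -/
def acL (n : ℕ) : AC n ≃L[ℂ] Cn (n + 1) :=
  (PiLp.continuousLinearEquiv 2 ℂ (fun _ : Fin (n + 1) => ℂ)).symm

/-- the chart of affine space -/
def acCh (n : ℕ) : OpenPartialHomeomorph (AC n) (Cn (n + 1)) :=
  (acL n).toHomeomorph.toOpenPartialHomeomorph

/-- affine space as a `Fam` -/
def acFam (n : ℕ) : Fam (n + 1) (AC n) where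
  ι := Unit
  e _ := acCh n
  cover x := ⟨(), mem_univ x⟩
  holo _ _ := by
    refine differentiable_id.differentiableOn.congr fun z _ => ?_
    exact (acCh n).right_inv (mem_univ z)

variable {g : AC n → ℂ} {s : ℂ} {Ω : Set (AC n)}

/-- the level -/
def Lv (g : AC n → ℂ) (s : ℂ) (Ω : Set (AC n)) : Set (AC n) := {x | x ∈ Ω ∧ g x = s}

theorem isSub_Lv (hΩ : IsOpen Ω) (hg : DifferentiableOn ℂ g Ω)
    (hreg : ∀ x ∈ Ω, g x = s → fderiv ℂ g x ≠ 0) : IsSub (acFam n) (Lv g s Ω) n := by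
  refine isSub_of_submersion (k := 1) (by omega) fun x hx => ?_
  have hxd : DifferentiableAt ℂ g x := hg.differentiableAt (hΩ.mem_nhds hx.1)
  set P : (Fin 1 → ℂ) →L[ℂ] Cn 1 :=
    ((PiLp.continuousLinearEquiv 2 ℂ (fun _ : Fin 1 => ℂ)).symm : (Fin 1 → ℂ) →L[ℂ] Cn 1) with hP
  refine ⟨(), Ω, fun y => P fun _ => g y, mem_univ x, hΩ, hx.1, ?_, ?_, fun y hy => ?_⟩
  · intro z hz
    have hz2 : (acL n).symm z ∈ Ω := hz.2
    have h1 : DifferentiableAt ℂ (fun z => g ((acL n).symm z)) z :=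
      (hg.differentiableAt (hΩ.mem_nhds hz2)).comp z (acL n).symm.differentiableAt
    exact (P.differentiableAt.comp z
      (differentiableAt_pi.2 fun _ => h1)).differentiableWithinAt
  · have e0 : (acL n).symm (acCh n x) = x := (acL n).symm_apply_apply x
    have h1 : HasFDerivAt (fun z => g ((acL n).symm z))
        ((fderiv ℂ g x).comp ((acL n).symm : Cn (n + 1) →L[ℂ] AC n)) (acCh n x) := by
      have h2 : HasFDerivAt g (fderiv ℂ g x) ((acL n).symm (acCh n x)) := by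
        rw [e0]; exact hxd.hasFDerivAt
      exact h2.comp (acCh n x) (acL n).symm.hasFDerivAt
    have h3 : HasFDerivAt (fun z => P fun _ : Fin 1 => g ((acL n).symm z))
        (P.comp (ContinuousLinearMap.pi fun _ =>
          (fderiv ℂ g x).comp ((acL n).symm : Cn (n + 1) →L[ℂ] AC n))) (acCh n x) :=
      P.hasFDerivAt.comp (acCh n x) (hasFDerivAt_pi.2 fun _ => h1)
    show Function.Surjective (fderiv ℂ (fun z => P fun _ : Fin 1 => g ((acL n).symm z))
      (acCh n x))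
    rw [h3.fderiv]
    intro w
    obtain ⟨W, hW⟩ : ∃ W, fderiv ℂ g x W ≠ 0 := by
      by_contra hcon
      exact hreg x hx.1 hx.2 (ContinuousLinearMap.ext fun W => not_not.1 fun h => hcon ⟨W, h⟩)
    refine ⟨(w 0 * (fderiv ℂ g x W)⁻¹) • acL n W, ?_⟩
    ext i
    have hi : i = 0 := Subsingleton.elim _ _
    subst hi
    show fderiv ℂ g x ((acL n).symm ((w 0 * (fderiv ℂ g x W)⁻¹) • acL n W)) = w 0
    rw [map_smul, (acL n).symm_apply_apply, map_smul, smul_eq_mul, mul_assoc, inv_mul_cancel₀ hW,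
      mul_one]
  · constructor
    · rintro ⟨-, h⟩
      simp only [h, hx.2]
    · intro h
      refine ⟨hy, ?_⟩
      have h1 := congrArg (fun v : Cn 1 => v 0) h
      have h2 : g y = g x := h1
      rw [h2, hx.2]

section Level

variable (hΩ : IsOpen Ω) (hg : DifferentiableOn ℂ g Ω)
  (hreg : ∀ x ∈ Ω, g x = s → fderiv ℂ g x ≠ 0)

/-- the level as a manifold -/
def lvFam : Fam n (Lv g s Ω) := subFam (isSub_Lv hΩ hg hreg)

/-- chart inverses as maps to affine space -/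
def thi (i : (lvFam hΩ hg hreg).ι) (z : Cn n) : AC n := (((lvFam hΩ hg hreg).e i).symm z).1

theorem thi_mem (i : (lvFam hΩ hg hreg).ι) (z : Cn n) : thi hΩ hg hreg i z ∈ Ω :=
  (((lvFam hΩ hg hreg).e i).symm z).2.1

theorem par_thi (i : (lvFam hΩ hg hreg).ι) :
    Par g s (thi hΩ hg hreg i) ((lvFam hΩ hg hreg).e i).target := by
  have hh := subFam_hol (isSub_Lv hΩ hg hreg)
  have hd : ∀ z ∈ ((lvFam hΩ hg hreg).e i).target,
      DifferentiableAt ℂ (fun z => acL n (thi hΩ hg hreg i z)) z := by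
    intro z hz
    exact hh.diffAt (i := i) (j := ()) hz (mem_univ _)
  have hd' : ∀ z ∈ ((lvFam hΩ hg hreg).e i).target,
      DifferentiableAt ℂ (thi hΩ hg hreg i) z := by
    intro z hz
    have h1 := (acL n).symm.differentiableAt.comp z (hd z hz)
    refine h1.congr_of_eventuallyEq (Eventually.of_forall fun w => ?_)
    exact ((acL n).symm_apply_apply _).symm
  refine ⟨((lvFam hΩ hg hreg).e i).open_target,
    fun z hz => (hd' z hz).differentiableWithinAt,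
    fun z _ => (((lvFam hΩ hg hreg).e i).symm z).2.2, fun z hz v hv => ?_⟩
  have hinj := subFam_imm (isSub_Lv hΩ hg hreg) i () z hz (mem_univ _)
  apply hinj
  have h1 : HasFDerivAt (fun z => acL n (thi hΩ hg hreg i z))
      ((acL n : AC n →L[ℂ] Cn (n + 1)).comp (fderiv ℂ (thi hΩ hg hreg i) z)) z :=
    (acL n).hasFDerivAt.comp z (hd' z hz).hasFDerivAt
  show fderiv ℂ (fun z => acL n (thi hΩ hg hreg i z)) z v =
    fderiv ℂ (fun z => acL n (thi hΩ hg hreg i z)) z 0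
  rw [h1.fderiv, map_zero]
  show acL n (fderiv ℂ (thi hΩ hg hreg i) z v) = 0
  rw [hv, map_zero]

/-- a parametrisation factors through a chart -/
theorem factor {θ : Cn n → AC n} {U : Set (Cn n)} (hθ : Par g s θ U) (hθΩ : ∀ z ∈ U, θ z ∈ Ω)
    {z₀ : Cn n} (hz₀ : z₀ ∈ U) : ∃ (i : (lvFam hΩ hg hreg).ι) (T : Cn n → Cn n),
      AnalyticAt ℂ T z₀ ∧ T z₀ ∈ ((lvFam hΩ hg hreg).e i).target ∧
      thi hΩ hg hreg i (T z₀) = θ z₀ ∧ θ =ᶠ[𝓝 z₀] fun w => thi hΩ hg hreg i (T w) := by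
  set h := isSub_Lv hΩ hg hreg with hh
  set p₀ : Lv g s Ω := ⟨θ z₀, hθΩ z₀ hz₀, hθ.lvl z₀ hz₀⟩ with hp₀
  set c := h.ch p₀ with hc
  have hps : p₀.1 ∈ c.ψ.source := h.mem_ch p₀
  have hcont : ContinuousAt θ z₀ := (hθ.diffAt hz₀).continuousAt
  have hev : ∀ᶠ z in 𝓝 z₀, θ z ∈ c.ψ.source :=
    hcont.preimage_mem_nhds (c.ψ.open_source.mem_nhds hps)
  have hdiff : ∀ z ∈ U, θ z ∈ c.ψ.source → DifferentiableAt ℂ (fun w => c.pi (c.ψ (θ w))) z := by
    intro z hz hzs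
    have h1 : DifferentiableAt ℂ (fun y => c.ψ ((acL n).symm y)) (acL n (θ z)) :=
      (c.hol ()).differentiableAt ((c.isOpen1 ()).mem_nhds ⟨mem_univ _, by
        show (acL n).symm (acL n (θ z)) ∈ c.ψ.source
        rw [(acL n).symm_apply_apply]; exact hzs⟩)
    have h2 : DifferentiableAt ℂ (fun w => acL n (θ w)) z :=
      (acL n).differentiableAt.comp z (hθ.diffAt hz)
    have h3 : DifferentiableAt ℂ (fun w => c.ψ ((acL n).symm (acL n (θ w)))) z :=
      DifferentiableAt.comp z (g := fun y => c.ψ ((acL n).symm y)) h1 h2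
    simp only [(acL n).symm_apply_apply] at h3
    exact c.pi.differentiableAt.comp z h3
  refine ⟨p₀, fun w => c.pi (c.ψ (θ w)), ?_, ?_, ?_, ?_⟩
  · have ho : IsOpen (U ∩ θ ⁻¹' c.ψ.source) :=
      hθ.hol.continuousOn.isOpen_inter_preimage hθ.isOpen c.ψ.open_source
    have hd : DifferentiableOn ℂ (fun w => c.pi (c.ψ (θ w))) (U ∩ θ ⁻¹' c.ψ.source) :=
      fun z hz => (hdiff z hz.1 hz.2).differentiableWithinAt
    exact (Crest.Agent.R266.SCV.contDiffOn_omega_of_differentiableOn ho hd).contDiffAt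
      (ho.mem_nhds ⟨hz₀, hps⟩) |>.analyticAt
  · exact (c.chart p₀).map_source hps
  · have h1 : ((lvFam hΩ hg hreg).e p₀).symm (c.pi (c.ψ (θ z₀))) = p₀ :=
      (c.chart p₀).left_inv hps
    show (((lvFam hΩ hg hreg).e p₀).symm (c.pi (c.ψ (θ z₀)))).1 = θ z₀
    rw [h1]
  · filter_upwards [hev, hθ.isOpen.mem_nhds hz₀] with z hz hzU
    have h1 : ((lvFam hΩ hg hreg).e p₀).symm (c.pi (c.ψ (θ z))) =
        ⟨θ z, hθΩ z hzU, hθ.lvl z hzU⟩ :=
      (c.chart p₀).left_inv (x := ⟨θ z, hθΩ z hzU, hθ.lvl z hzU⟩) hz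
    show θ z = (((lvFam hΩ hg hreg).e p₀).symm (c.pi (c.ψ (θ z)))).1
    rw [h1]

end Level

/-! ### the function `|θ|²` -/

/-- `|θ|²` -/
abbrev sqt (θ : Cn n → AC n) : Cn n → ℝ := FS_333.sq θ

theorem sq_eq_sumSq (θ : Cn n → AC n) : sqt θ = sumSq (fun k z => θ z k) := rfl

theorem anal_k {θ : Cn n → AC n} {U : Set (Cn n)} (hθ : Par g s θ U) {z : Cn n} (hz : z ∈ U)
    (k : Fin (n + 1)) : AnalyticAt ℂ (fun z => θ z k) z :=
  (Crest.Agent.R266.SCV.contDiffOn_omega_of_differentiableOn hθ.isOpen (hθ.holk k)).contDiffAt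
    (hθ.isOpen.mem_nhds hz) |>.analyticAt

theorem gr_sq_le' {θ : Cn n → AC n} {U : Set (Cn n)} (hθ : Par g s θ U) {z : Cn n} (hz : z ∈ U)
    (v : Cn n) : ‖gr (sqt θ) z v‖ ^ 2 ≤ sqt θ z * lev (sqt θ) z v := by
  rw [sq_eq_sumSq, gr_sumSq (fun k => anal_k hθ hz k), lev_sumSq (fun k => anal_k hθ hz k)]
  have h1 : ‖∑ j, conj (θ z j) * fderiv ℂ (fun z => θ z j) z v‖ ≤
      ∑ j, ‖θ z j‖ * ‖fderiv ℂ (fun z => θ z j) z v‖ := by
    refine (norm_sum_le _ _).trans (le_of_eq ?_)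
    exact Finset.sum_congr rfl fun j _ => by rw [norm_mul, Complex.norm_conj]
  calc _ ≤ (∑ j, ‖θ z j‖ * ‖fderiv ℂ (fun z => θ z j) z v‖) ^ 2 := by gcongr
    _ ≤ _ := Finset.sum_mul_sq_le_sq_mul_sq _ _ _

/-- **the gradient estimate on levels**: cut-off `R² - |x|²`, `K = {|x| ≤ R}` compact -/
theorem grad_par (hΩ : IsOpen Ω) (hg : DifferentiableOn ℂ g Ω)
    (hreg : ∀ x ∈ Ω, g x = s → fderiv ℂ g x ≠ 0) {R A κ C : ℝ} {u : AC n → ℝ}
    (hK : IsCompact {x | x ∈ Ω ∧ g x = s ∧ nsq x ≤ R ^ 2}) (hκ0 : 0 ≤ κ) (hC0 : 0 ≤ C)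
    (hsm : ∀ θ U, Par g s θ U → (∀ z ∈ U, θ z ∈ Ω) → ContDiffOn ℝ ∞ (fun z => u (θ z)) U)
    (hpos : ∀ θ U, Par g s θ U → (∀ z ∈ U, θ z ∈ Ω) → ∀ z ∈ U, ∀ v : Cn n, v ≠ 0 →
      0 < lev (fun z => u (θ z)) z v)
    (hκ : ∀ θ U, Par g s θ U → (∀ z ∈ U, θ z ∈ Ω) → ∀ z ∈ U, ∀ v : Cn n,
      lev (ld fun z => u (θ z)) z v ≤ κ * lev (fun z => u (θ z)) z v)
    (hC : ∀ θ U, Par g s θ U → (∀ z ∈ U, θ z ∈ Ω) → ∀ z ∈ U, ∀ v : Cn n,
      lev (sqt θ) z v ≤ C * lev (fun z => u (θ z)) z v)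
    (hA : ∀ x ∈ Ω, g x = s → nsq x ≤ R ^ 2 → u x < A) :
    ∀ θ U, Par g s θ U → (∀ z ∈ U, θ z ∈ Ω) → ∀ z ∈ U, nsq (θ z) < R ^ 2 → ∀ v : Cn n,
      2 * (‖gr (fun z => u (θ z)) z v‖ ^ 2 * (R ^ 2 - nsq (θ z)) ^ 2) ≤
        (κ * R ^ 4 + (4 + 2 * n) * C * R ^ 2) *
          ((A - u (θ z)) ^ 2 * lev (fun z => u (θ z)) z v) := by
  intro θ U hθ hθΩ z₀ hz₀ hlt v₀
  set F := lvFam hΩ hg hreg with hF
  set uM : Lv g s Ω → ℝ := fun p => u p.1 with huM
  set η : Lv g s Ω → ℝ := fun p => R ^ 2 - nsq p.1 with hη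
  have htp : ∀ i, Par g s (thi hΩ hg hreg i) (F.e i).target := par_thi hΩ hg hreg
  have htm : ∀ i, ∀ z ∈ (F.e i).target, thi hΩ hg hreg i z ∈ Ω := fun i z _ =>
    thi_mem hΩ hg hreg i z
  have hin : ∀ i, inF F i uM = fun z => u (thi hΩ hg hreg i z) := fun i => rfl
  have hinη : ∀ i, inF F i η = fun z => R ^ 2 - sqt (thi hΩ hg hreg i) z := fun i => rfl
  have hsp : SPsh F univ uM := by
    refine ⟨fun i p hp _ => ?_, fun i p hp _ v hv => ?_⟩
    · rw [hin]
      exact (hsm _ _ (htp i) (htm i)).contDiffAt ((F.e i).open_target.mem_nhds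
        ((F.e i).map_source hp))
    · rw [hin]
      exact hpos _ _ (htp i) (htm i) _ ((F.e i).map_source hp) v hv
  set K : Set (Lv g s Ω) := {p | nsq p.1 ≤ R ^ 2} with hKdef
  have hKc : IsCompact K := by
    rw [Topology.IsInducing.subtypeVal.isCompact_iff]
    have e : (Subtype.val '' K : Set (AC n)) = {x | x ∈ Ω ∧ g x = s ∧ nsq x ≤ R ^ 2} := by
      ext x
      constructor
      · rintro ⟨p, hp, rfl⟩
        exact ⟨p.2.1, p.2.2, hp⟩
      · rintro ⟨h1, h2, h3⟩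
        exact ⟨⟨x, h1, h2⟩, h3, rfl⟩
    rw [e]
    exact hK
  have hsqs : ∀ i, ∀ z ∈ (F.e i).target, ContDiffAt ℝ 2 (sqt (thi hΩ hg hreg i)) z := fun i z hz =>
    c2_sumSq (fun k => anal_k (htp i) hz k) 2
  have hgrη : ∀ i, ∀ z ∈ (F.e i).target, ∀ v, gr (inF F i η) z v = - gr (sqt (thi hΩ hg hreg i)) z v
      := by
    intro i z hz v
    have hd := c2_diff (hsqs i z hz)
    have h1 : DifferentiableAt ℝ (fun w => R ^ 2 - sqt (thi hΩ hg hreg i) w) z :=
      (differentiableAt_const _).sub hd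
    rw [hinη, gr_eq h1, gr_eq hd, fderiv_const_sub]
    simp only [_root_.neg_apply]
    push_cast
    ring
  have hlevη : ∀ i, ∀ z ∈ (F.e i).target, ∀ v,
      lev (inF F i η) z v = - lev (sqt (thi hΩ hg hreg i)) z v := by
    intro i z hz v
    rw [hinη, Levi_145.lev_sub (u := fun _ => R ^ 2) contDiffAt_const (hsqs i z hz), lev_const]
    ring
  have key := grad_est hsp isOpen_univ hKc (subset_univ _) (η := η) (A := A) (κ := κ)
    (C₁ := R ^ 2 * C) (C₂ := C) (H := R ^ 2) hκ0 (by positivity) hC0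
    (fun i p hp _ v => hκ _ _ (htp i) (htm i) _ ((F.e i).map_source hp) v)
    (fun i p hp _ => by
      rw [hinη]
      exact contDiffAt_const.sub (hsqs i _ ((F.e i).map_source hp)))
    (fun i p hp hpK v => ?_) (fun i p hp _ v => ?_)
    (fun p _ hp => by
      have : 0 < R ^ 2 - nsq p.1 := hp
      show nsq p.1 ≤ R ^ 2
      linarith)
    (fun p _ => by
      have := nsq_nonneg p.1
      show R ^ 2 - nsq p.1 ≤ R ^ 2
      linarith)
    (fun p hp => hA p.1 p.2.1 p.2.2 hp)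
  · obtain ⟨i, T, hT, hTt, hT0, hev⟩ := factor hΩ hg hreg hθ hθΩ hz₀
    set p : Lv g s Ω := (F.e i).symm (T z₀) with hp
    have hps : p ∈ (F.e i).source := (F.e i).map_target hTt
    have hpT : F.e i p = T z₀ := (F.e i).right_inv hTt
    have hp1 : p.1 = θ z₀ := hT0
    have hηp : η p = R ^ 2 - nsq (θ z₀) := by
      simp only [hη]
      rw [hp1]
    have hup : uM p = u (θ z₀) := by
      simp only [huM]
      rw [hp1]
    have h1 := key i p hps (mem_univ _) (by rw [hηp]; linarith) (fderiv ℂ T z₀ v₀)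
    rw [hηp, hup, hpT] at h1
    have hsmi : ContDiffAt ℝ ∞ (inF F i uM) (T z₀) := by
      rw [← hpT]
      exact hsp.sm i p hps (mem_univ _)
    have hev2 : (fun z => u (θ z)) =ᶠ[𝓝 z₀] fun w => inF F i uM (T w) := by
      filter_upwards [hev] with w hw
      rw [hw, hin]
    have h2 : gr (fun z => u (θ z)) z₀ v₀ = gr (inF F i uM) (T z₀) (fderiv ℂ T z₀ v₀) := by
      rw [gr_congr hev2, gr_comp hT.differentiableAt (c2_diff (sm2 hsmi))]
    have h3 : lev (fun z => u (θ z)) z₀ v₀ = lev (inF F i uM) (T z₀) (fderiv ℂ T z₀ v₀) := by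
      rw [lev_congr hev2, lev_comp hT (sm2 hsmi)]
    rw [h2, h3]
    refine h1.trans (le_of_eq ?_)
    ring
  · rw [hgrη i _ ((F.e i).map_source hp), norm_neg]
    have h1 := gr_sq_le' (htp i) ((F.e i).map_source hp) v
    have h2 := hC _ _ (htp i) (htm i) _ ((F.e i).map_source hp) v
    have h3 : 0 ≤ lev (sqt (thi hΩ hg hreg i)) (F.e i p) v := by
      rw [sq_eq_sumSq, lev_sumSq (fun k => anal_k (htp i) ((F.e i).map_source hp) k)]
      exact Finset.sum_nonneg fun _ _ => sq_nonneg _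
    have h4 : sqt (thi hΩ hg hreg i) (F.e i p) ≤ R ^ 2 := by
      have e1 : thi hΩ hg hreg i (F.e i p) = p.1 := by
        show ((F.e i).symm (F.e i p)).1 = p.1
        rw [(F.e i).left_inv hp]
      have e2 : sqt (thi hΩ hg hreg i) (F.e i p) = nsq p.1 := by
        show nsq (thi hΩ hg hreg i (F.e i p)) = _
        rw [e1]
      rw [e2]
      exact hpK
    rw [hin, mul_assoc]
    exact h1.trans (mul_le_mul h4 h2 h3 (by positivity))
  · rw [hlevη i _ ((F.e i).map_source hp)]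
    have h2 := hC _ _ (htp i) (htm i) _ ((F.e i).map_source hp) v
    rw [hin]
    linarith

/-! ### Kaehler-Einstein potentials -/

theorem anal_g (hΩ : IsOpen Ω) (hg : DifferentiableOn ℂ g Ω) {x : AC n} (hx : x ∈ Ω) :
    AnalyticAt ℂ g x :=
  (Crest.Agent.R266.SCV.contDiffOn_omega_of_differentiableOn hΩ hg).contDiffAt
    (hΩ.mem_nhds hx) |>.analyticAt

theorem anal_th {θ : Cn n → AC n} {U : Set (Cn n)} (hθ : Par g s θ U) {z : Cn n} (hz : z ∈ U) :
    AnalyticAt ℂ θ z :=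
  (Crest.Agent.R266.SCV.contDiffOn_omega_of_differentiableOn hθ.isOpen hθ.hol).contDiffAt
    (hθ.isOpen.mem_nhds hz) |>.analyticAt

/-- `log |η|²` is pluriharmonic -/
theorem lev_log_eta2a (hΩ : IsOpen Ω) (hg : DifferentiableOn ℂ g Ω)
    {θ : Cn n → AC n} {U : Set (Cn n)} (hθ : Par g s θ U) (hθΩ : ∀ z ∈ U, θ z ∈ Ω)
    {z : Cn n} (hz : z ∈ U) (h0 : fderiv ℂ g (θ z) ≠ 0) (hpos : 0 < eta2a g θ z) :
    ContDiffAt ℝ 2 (fun w => Real.log (eta2a g θ w)) z ∧
      ∀ v : Cn n, lev (fun w => Real.log (eta2a g θ w)) z v = 0 := by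
  obtain ⟨W, hW⟩ : ∃ W, fderiv ℂ g (θ z) W ≠ 0 := by
    by_contra hcon
    exact h0 (ContinuousLinearMap.ext fun W => not_not.1 fun h => hcon ⟨W, h⟩)
  have e : Fin (n + 1) ≃ Fin n ⊕ Unit := Fintype.equivOfCardEq (by simp)
  set D : Cn n → ℂ := fun w => ((addRow (DF θ w) W).submatrix e id).det with hD
  set h : Cn n → ℂ := fun w => fderiv ℂ g (θ w) W with hh
  have hDa : AnalyticAt ℂ D z := by
    have h1 : ∀ a k, AnalyticAt ℂ (fun w => (addRow (DF θ w) W).submatrix e id a k) z := by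
      intro a k
      rcases ha : e a with b | b
      · have h2 : AnalyticAt ℂ
            (fun w => fderiv ℂ (fun z => θ z k) w (EuclideanSpace.single b 1)) z :=
          ((ContinuousLinearMap.apply ℂ ℂ (EuclideanSpace.single b (1 : ℂ) : Cn n)).analyticAt
              _).comp (anal_k hθ hz k).fderiv
        refine h2.congr (Eventually.of_forall fun w => ?_)
        show _ = addRow (DF θ w) W (e a) (id k)
        rw [ha]
        rfl
      · refine (analyticAt_const (v := W k)).congr (Eventually.of_forall fun w => ?_)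
        show _ = addRow (DF θ w) W (e a) (id k)
        rw [ha]
        rfl
    have h3 : D = fun w => ∑ σ : Equiv.Perm (Fin (n + 1)), (Equiv.Perm.sign σ : ℂ) *
        ∏ i, (addRow (DF θ w) W).submatrix e id (σ i) i := by
      funext w
      exact Matrix.det_apply' _
    rw [h3]
    refine Finset.analyticAt_fun_sum _ fun σ _ => analyticAt_const.mul ?_
    exact Finset.analyticAt_fun_prod _ fun i _ => h1 _ _
  have hha : AnalyticAt ℂ h z := by
    have h1 : AnalyticAt ℂ (fderiv ℂ g) (θ z) := (anal_g hΩ hg (hθΩ z hz)).fderiv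
    exact ((ContinuousLinearMap.apply ℂ ℂ W).analyticAt _).comp (h1.comp (anal_th hθ hz))
  have hev : ∀ᶠ w in 𝓝 z, h w ≠ 0 := hha.continuousAt.eventually_ne hW
  have key : ∀ w ∈ U, h w ≠ 0 → eta2a g θ w = ‖D w / h w‖ ^ 2 := by
    intro w hw hw0
    have h1 : fderiv ℂ g (θ w) ≠ 0 := by
      intro h2
      apply hw0
      show fderiv ℂ g (θ w) W = 0
      rw [h2]
      rfl
    have h2 := hθ.eta2a_spec hw (anal_g hΩ hg (hθΩ w hw)).differentiableAt h1 W
    rw [gdet_submatrix _ e, Complex.mul_conj'] at h2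
    have h3 : ‖D w‖ ^ 2 = eta2a g θ w * ‖h w‖ ^ 2 := by exact_mod_cast h2
    have h4 : ‖h w‖ ≠ 0 := norm_ne_zero_iff.2 hw0
    rw [norm_div, div_pow, h3]
    field_simp
  have hDh : AnalyticAt ℂ (fun w => D w / h w) z := hDa.div hha hW
  have hev2 : (fun w => Real.log (eta2a g θ w)) =ᶠ[𝓝 z]
      fun w => Real.log (‖D w / h w‖ ^ 2) := by
    filter_upwards [hev, hθ.isOpen.mem_nhds hz] with w hw hwU
    rw [key w hwU hw]
  have hne : D z / h z ≠ 0 := by
    intro h1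
    rw [key z hz hW, h1] at hpos
    simp at hpos
  refine ⟨(c2_log_normSq hDh hne 2).congr_of_eventuallyEq hev2, fun v => ?_⟩
  rw [lev_congr hev2]
  exact lev_log_normSq hDh hne v

/-- the Kaehler-Einstein equation gives `∂∂̄ log det = ω` -/
theorem lev_ld_of_ke (hΩ : IsOpen Ω) (hg : DifferentiableOn ℂ g Ω)
    {θ : Cn n → AC n} {U : Set (Cn n)} (hθ : Par g s θ U) (hθΩ : ∀ z ∈ U, θ z ∈ Ω)
    {u : AC n → ℝ} (hsm : ContDiffOn ℝ ∞ (fun z => u (θ z)) U)
    (hpos : ∀ z ∈ U, ∀ v : Cn n, v ≠ 0 → 0 < lev (fun z => u (θ z)) z v)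
    (hke : ∀ z ∈ U, (YauDefs_635.cH (fun z => u (θ z)) z).det =
      ((Real.exp (u (θ z)) * eta2a g θ z : ℝ) : ℂ))
    {z : Cn n} (hz : z ∈ U) (h0 : fderiv ℂ g (θ z) ≠ 0) (v : Cn n) :
    lev (ld fun z => u (θ z)) z v = lev (fun z => u (θ z)) z v := by
  have hs : ∀ w ∈ U, ContDiffAt ℝ ∞ (fun z => u (θ z)) w := fun w hw =>
    hsm.contDiffAt (hθ.isOpen.mem_nhds hw)
  have hdet : ∀ w ∈ U, (Um (fun z => u (θ z)) w).det.re = Real.exp (u (θ w)) * eta2a g θ w := by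
    intro w hw
    rw [C2f_793.Um_eq_cH (sm2 (hs w hw)), hke w hw, Complex.ofReal_re]
  have hdp : ∀ w ∈ U, 0 < eta2a g θ w := by
    intro w hw
    have h1 := (Complex.pos_iff.1 (Um_posDef (sm2 (hs w hw)) (hpos w hw)).det_pos).1
    rw [hdet w hw] at h1
    exact (pos_iff_pos_of_mul_pos h1).1 (Real.exp_pos _)
  obtain ⟨h1, h2⟩ := lev_log_eta2a hΩ hg hθ hθΩ hz h0 (hdp z hz)
  have hev : (ld fun z => u (θ z)) =ᶠ[𝓝 z] fun w => u (θ w) + Real.log (eta2a g θ w) := by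
    filter_upwards [hθ.isOpen.mem_nhds hz] with w hw
    show Real.log _ = _
    rw [hdet w hw, Real.log_mul (Real.exp_pos _).ne' (hdp w hw).ne', Real.log_exp]
  rw [lev_congr hev, lev_add (u := fun w => u (θ w)) (sm2 (hs z hz)) h1, h2, add_zero]

/-- **the gradient estimate for Kaehler-Einstein potentials on levels** -/
theorem grad_ke (hΩ : IsOpen Ω) (hg : DifferentiableOn ℂ g Ω)
    (hreg : ∀ x ∈ Ω, g x = s → fderiv ℂ g x ≠ 0) {R A C : ℝ} {u : AC n → ℝ}
    (hK : IsCompact {x | x ∈ Ω ∧ g x = s ∧ nsq x ≤ R ^ 2}) (hR : 0 < R) (hC0 : 0 ≤ C)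
    (hsm : ∀ θ U, Par g s θ U → (∀ z ∈ U, θ z ∈ Ω) → ContDiffOn ℝ ∞ (fun z => u (θ z)) U)
    (hpos : ∀ θ U, Par g s θ U → (∀ z ∈ U, θ z ∈ Ω) → ∀ z ∈ U, ∀ v : Cn n, v ≠ 0 →
      0 < lev (fun z => u (θ z)) z v)
    (hke : ∀ θ U, Par g s θ U → (∀ z ∈ U, θ z ∈ Ω) → ∀ z ∈ U,
      (YauDefs_635.cH (fun z => u (θ z)) z).det = ((Real.exp (u (θ z)) * eta2a g θ z : ℝ) : ℂ))
    (hC : ∀ θ U, Par g s θ U → (∀ z ∈ U, θ z ∈ Ω) → ∀ z ∈ U, ∀ v : Cn n,
      lev (sqt θ) z v ≤ C * lev (fun z => u (θ z)) z v)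
    (hA : ∀ x ∈ Ω, g x = s → nsq x ≤ R ^ 2 → u x < A) :
    ∀ θ U, Par g s θ U → (∀ z ∈ U, θ z ∈ Ω) → ∀ z ∈ U, nsq (θ z) ≤ R ^ 2 / 2 → ∀ v : Cn n,
      ‖gr (fun z => u (θ z)) z v‖ ^ 2 ≤
        (2 + (8 + 4 * n) * C / R ^ 2) * ((A - u (θ z)) ^ 2 * lev (fun z => u (θ z)) z v) := by
  intro θ U hθ hθΩ z hz hle v
  have h1 := grad_par hΩ hg hreg hK zero_le_one hC0 hsm hpos
    (fun θ U h1 h2 z h3 v => by
      rw [one_mul, lev_ld_of_ke hΩ hg h1 h2 (hsm θ U h1 h2) (hpos θ U h1 h2) (hke θ U h1 h2) h3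
        (hreg _ (h2 z h3) (h1.lvl z h3))]) hC hA θ U hθ hθΩ z hz
    (by have : 0 < R ^ 2 := by positivity
        linarith) v
  set a := ‖gr (fun z => u (θ z)) z v‖ ^ 2 with ha
  set b := (A - u (θ z)) ^ 2 * lev (fun z => u (θ z)) z v with hb
  have ha0 : 0 ≤ a := sq_nonneg _
  have h2 : (R ^ 2 / 2) ^ 2 ≤ (R ^ 2 - nsq (θ z)) ^ 2 := by
    have : 0 ≤ R ^ 2 / 2 := by positivity
    gcongr
    linarith
  have h3 : a * (R ^ 4 / 4) ≤ a * (R ^ 2 - nsq (θ z)) ^ 2 := by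
    refine mul_le_mul_of_nonneg_left ?_ ha0
    calc R ^ 4 / 4 = (R ^ 2 / 2) ^ 2 := by ring
      _ ≤ _ := h2
  have h4 : a * (R ^ 4 / 2) ≤ (1 * R ^ 4 + (4 + 2 * n) * C * R ^ 2) * b := by linarith
  have h5 : 0 < R ^ 4 / 2 := by positivity
  have h6 : (2 + (8 + 4 * n) * C / R ^ 2) * b =
      (1 * R ^ 4 + (4 + 2 * n) * C * R ^ 2) * b / (R ^ 4 / 2) := by
    field_simp
    ring
  rw [h6, le_div_iff₀ h5]
  exact h4

end

end Crest.Agent.R257.GradE_537
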