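import Crest.Agent.R257.PairK1_39
import Crest.Agent.R257.KEU_952
import Crest.Agent.R257.Esc_537
import Crest.Agent.R257.UpK4_938
import Crest.Agent.R257.KedM3_941
import Crest.Agent.R257.Vol_397
import Crest.Agent.R257.Tay_812
import Crest.Agent.R257.Cnm5_889
import Crest.Agent.R257.Uni2_554
import Crest.Agent.R257.CNS_939
import Crest.Agent.R257.Cnm7_889
import Crest.Agent.R257.ColAdd_812
import Crest.Agent.R257.NS0c_554
import Crest.Agent.R257.XFDefs_157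
import Crest.Agent.R257.CLogDefs_68
import Crest.Agent.R257.Cmp_157
import Crest.Agent.R257.UpK3_938_Mg
import Crest.Agent.R257.NS0_554
import Crest.Agent.R257.MsJ4_617

-- ▼ part R257/PairK2_39
section

/-!
# Row 257 (S0395), PAIR-K (helper39), part 2: the explicit subsolution

`v = (1/k) log (|g|² + |h|²) - 4 ∑ log (-φ_l)`, `φ_l = log ∑ |q_m|²` (sum over a system).
* `det_ge`  : `½ ∑ a_l a_m |∂F_l ∧ ∂F_m|² ≤ det ∂∂̄w` if `∑ a_l |∂F_l|² ≤ ∂∂̄w`
* `lev_ll`  : `φ⁻² e^{-φ} ∑ |∂F_j|² ≤ ∂∂̄ (- log (-φ))`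
* `sub_det` : `(∂∂̄v)² ≥ c e^v |η|²`
* `lowV`    : `v ≤ u + C`
-/

set_option autoImplicit false
set_option linter.unusedSectionVars false

open Set Filter Topology Complex
open scoped ContDiff ComplexConjugate Matrix ComplexOrder

namespace Crest.Agent.R257.PairK_39

open Crest.Agent.R275.Geo Crest.Agent.R275.Core144 Crest.Agent.R275.GC293
open Crest.Agent.R273
open Crest.Agent.R273.YauDefs_635 (cH lev333_eq_lev145 inC)
open Crest.Agent.R273.YauMax_635 (continuous_of_sm cH_eq_hess)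
open Crest.Agent.R273.HessB_333
open Crest.Agent.R257.PN_835 (nsq)
open Crest.Agent.R257.Aff_835 (eta2a)
open Crest.Agent.R257.Defs_219 Crest.Agent.R257.KED_952 Crest.Agent.R257.KEG_952
open Crest.Agent.R257.V1Defs_822 (SmL LvlOK lgh)
open Crest.Agent.R257.CLD_39 (two_le')
open Crest.Agent.R257.Jac_39 (jc ee jac)

noncomputable section

/-! ### 2 × 2 matrices -/

theorem det_add_ge {P Q : Matrix (Fin 2) (Fin 2) ℂ} (hP : P.PosSemidef) (hQ : Q.PosSemidef) :
    Q.det.re ≤ (P + Q).det.re := by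
  have key : ∀ {R : Matrix (Fin 2) (Fin 2) ℂ}, R.PosSemidef →
      0 ≤ (R 0 0).re ∧ 0 ≤ (R 1 1).re ∧ (R 0 0).im = 0 ∧ (R 1 1).im = 0 ∧
      R 1 0 = conj (R 0 1) ∧ ‖R 0 1‖ ^ 2 ≤ (R 0 0).re * (R 1 1).re := by
    intro R hR
    have h0 := hR.diag_nonneg (i := 0)
    have h1 := hR.diag_nonneg (i := 1)
    have e0 := (Complex.le_def.1 h0)
    have e1 := (Complex.le_def.1 h1)
    have hc : R 1 0 = conj (R 0 1) := (hR.isHermitian.apply 1 0).symm
    refine ⟨e0.1, e1.1, e0.2.symm, e1.2.symm, hc, ?_⟩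
    have hd := (Complex.le_def.1 hR.det_nonneg).1
    rw [Matrix.det_fin_two, hc, Complex.mul_conj', Complex.sub_re] at hd
    have h2 : (R 0 0 * R 1 1).re = (R 0 0).re * (R 1 1).re := by
      rw [Complex.mul_re, ← e0.2]
      simp
    rw [h2] at hd
    have h3 : (((‖R 0 1‖ : ℂ)) ^ 2).re = ‖R 0 1‖ ^ 2 := by
      rw [← Complex.ofReal_pow, Complex.ofReal_re]
    rw [h3] at hd
    simp only [Complex.zero_re] at hd
    linarith
  obtain ⟨a0, b0, ai, bi, hp, hpl⟩ := key hP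
  obtain ⟨c0, d0, ci, di, hq, hql⟩ := key hQ
  have hdP := (Complex.le_def.1 hP.det_nonneg).1
  set a := (P 0 0).re
  set b := (P 1 1).re
  set c := (Q 0 0).re
  set d := (Q 1 1).re
  set p := ‖P 0 1‖ with hpd
  set q := ‖Q 0 1‖ with hqd
  have hp0 : 0 ≤ p := norm_nonneg _
  have hq0 : 0 ≤ q := norm_nonneg _
  have h1 : 2 * (p * q) ≤ a * d + b * c := by
    refine abs_le_of_sq_le_sq' ?_ (by positivity) |>.2
    have h2 : (p * q) ^ 2 ≤ (a * b) * (c * d) := by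
      rw [mul_pow]
      exact mul_le_mul hpl hql (by positivity) (by positivity)
    nlinarith [sq_nonneg (a * d - b * c)]
  have h3 : (P 0 1 * Q 1 0 + P 1 0 * Q 0 1).re ≤ 2 * (p * q) := by
    refine (Complex.re_le_norm _).trans ((norm_add_le _ _).trans ?_)
    rw [norm_mul, norm_mul, hq, hp, Complex.norm_conj, Complex.norm_conj, ← hpd, ← hqd]
    linarith
  have h4 : (P 0 0 * Q 1 1 + P 1 1 * Q 0 0).re = a * d + b * c := by
    rw [Complex.add_re, Complex.mul_re, Complex.mul_re, ai, bi]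
    simp [a, b, c, d]
  have h5 : (P + Q).det = P.det + Q.det + ((P 0 0 * Q 1 1 + P 1 1 * Q 0 0) -
      (P 0 1 * Q 1 0 + P 1 0 * Q 0 1)) := by
    rw [Matrix.det_fin_two, Matrix.det_fin_two, Matrix.det_fin_two]
    simp only [Matrix.add_apply]
    ring
  rw [h5, Complex.add_re, Complex.add_re, Complex.sub_re, h4]
  simp only [Complex.zero_re] at hdP
  linarith

/-- lower bound of `det ∂∂̄w` by a sum of squares -/
theorem det_ge {L : ℕ} {w : Cn 2 → ℝ} {z : Cn 2} (hw : ContDiffAt ℝ ∞ w z)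
    {F : Fin L → Cn 2 → ℂ} (hF : ∀ l, AnalyticAt ℂ (F l) z) {a : Fin L → ℝ} (ha : ∀ l, 0 ≤ a l)
    (h : ∀ v, ∑ l, a l * ‖fderiv ℂ (F l) z v‖ ^ 2 ≤ Levi_145.lev w z v) :
    (∑ l, ∑ m, a l * a m * ‖jc (F l) (F m) z‖ ^ 2) / 2 ≤ (cH w z).det.re := by
  set G : Cn 2 → Fin L → ℂ := fun y l => (Real.sqrt (a l) : ℂ) * F l y with hG
  have hGa : ∀ l, AnalyticAt ℂ (fun y => G y l) z := fun l => analyticAt_const.mul (hF l)
  have hev : ∀ᶠ y in 𝓝 z, ∀ l, DifferentiableAt ℂ (fun y => G y l) y := by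
    rw [eventually_all]
    exact fun l => Levi_145.ev_of_anal (hGa l)
  obtain ⟨U, hU, hUo, hzU⟩ := eventually_nhds_iff.1 hev
  have hGU : ∀ l, DifferentiableOn ℂ (fun y => G y l) U := fun l y hy =>
    (hU y hy l).differentiableWithinAt
  have hsq : ContDiffAt ℝ ∞ (FS_333.sq G) z :=
    Levi_145.c2_sumSq (F := fun l y => G y l) hGa ∞
  have hfd : ∀ l v, fderiv ℂ (fun y => G y l) z v = (Real.sqrt (a l) : ℂ) * fderiv ℂ (F l) z v := by
    intro l v
    have h1 : HasFDerivAt (fun y => (Real.sqrt (a l) : ℂ) * F l y)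
        ((Real.sqrt (a l) : ℂ) • fderiv ℂ (F l) z) z :=
      (hF l).differentiableAt.hasFDerivAt.const_mul _
    show fderiv ℂ (fun y => (Real.sqrt (a l) : ℂ) * F l y) z v = _
    rw [h1.fderiv]
    rfl
  have hns : ∀ l, ‖(Real.sqrt (a l) : ℂ)‖ ^ 2 = a l := fun l => by
    rw [Complex.norm_real, Real.norm_eq_abs, sq_abs, Real.sq_sqrt (ha l)]
  have hlsq : ∀ v, Levi_145.lev (FS_333.sq G) z v = ∑ l, a l * ‖fderiv ℂ (F l) z v‖ ^ 2 := by
    intro v
    have h1 := Levi_145.lev_sumSq (F := fun l y => G y l) hGa v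
    have e : Levi_145.lev (FS_333.sq G) z v =
      Levi_145.lev (Levi_145.sumSq fun l y => G y l) z v := rfl
    rw [e, h1]
    refine Finset.sum_congr rfl fun l _ => ?_
    rw [hfd l v, norm_mul, mul_pow, hns]
  have hd : ContDiffAt ℝ ∞ (fun y => w y - FS_333.sq G y) z := hw.sub hsq
  have h1 : (cH (fun y => w y - FS_333.sq G y) z).PosSemidef := by
    rw [cH_eq_hess hd]
    refine posSemidef_hess hd fun v => ?_
    rw [lev333_eq_lev145, Levi_145.lev_sub (two_le' hw) (two_le' hsq), hlsq]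
    linarith [h v]
  have h2 : (cH (FS_333.sq G) z).PosSemidef := by
    rw [cH_eq_hess hsq]
    refine posSemidef_hess hsq fun v => ?_
    rw [lev333_eq_lev145, hlsq]
    have : 0 ≤ ∑ l, a l * ‖fderiv ℂ (F l) z v‖ ^ 2 :=
      Finset.sum_nonneg fun l _ => mul_nonneg (ha l) (by positivity)
    linarith
  have h3 : cH w z = cH (fun y => w y - FS_333.sq G y) z + cH (FS_333.sq G) z := by
    rw [cH_eq_hess hd, cH_eq_hess hsq, cH_eq_hess hw, ← hess_add hd hsq]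
    congr 1
    funext y
    ring
  have h4 := det_add_ge h1 h2
  rw [← h3] at h4
  refine le_trans (le_of_eq ?_) h4
  -- the determinant of the sum of squares
  set x : Fin L → ℂ := fun l => fderiv ℂ (fun y => G y l) z (ee 0) with hx
  set y : Fin L → ℂ := fun l => fderiv ℂ (fun y => G y l) z (ee 1) with hy
  have he : ∀ i j, cH (FS_333.sq G) z i j = ∑ k, fderiv ℂ (fun z => G z k) z (ee i) *
      conj (fderiv ℂ (fun z => G z k) z (ee j)) := fun i j => by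
    rw [cH_eq_hess hsq, FS_333.hess_sq hUo hGU hzU]
  have h5 := Levi_145.lagrange x y
  have h6 : (cH (FS_333.sq G) z).det.re =
      (∑ j, ‖x j‖ ^ 2) * (∑ j, ‖y j‖ ^ 2) - ‖∑ j, conj (x j) * y j‖ ^ 2 := by
    have e1 : (cH (FS_333.sq G) z).det = (((∑ j, ‖x j‖ ^ 2) * (∑ j, ‖y j‖ ^ 2) -
        ‖∑ j, conj (x j) * y j‖ ^ 2 : ℝ) : ℂ) := by
      rw [Matrix.det_fin_two, he, he, he, he]
      push_cast
      have e2 : ∀ t : Fin L → ℂ, ∑ k, t k * conj (t k) = ∑ k, ((‖t k‖ : ℂ)) ^ 2 := fun t =>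
        Finset.sum_congr rfl fun k _ => Complex.mul_conj' _
      have e3 : ((‖∑ j, conj (x j) * y j‖ : ℂ)) ^ 2 =
          (∑ k, x k * conj (y k)) * (∑ k, y k * conj (x k)) := by
        rw [← Complex.mul_conj', map_sum, mul_comm]
        congr 1
        · exact Finset.sum_congr rfl fun k _ => by rw [map_mul, Complex.conj_conj]
        · exact Finset.sum_congr rfl fun k _ => by ring
      rw [e3, ← e2 x, ← e2 y]
    rw [e1, Complex.ofReal_re]
  rw [h6]
  have h7 : ∑ i, ∑ j, ‖x i * y j - x j * y i‖ ^ 2 =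
      ∑ l, ∑ m, a l * a m * ‖jc (F l) (F m) z‖ ^ 2 := by
    refine Finset.sum_congr rfl fun l _ => Finset.sum_congr rfl fun m _ => ?_
    simp only [hx, hy, hfd]
    have e1 : (Real.sqrt (a l) : ℂ) * fderiv ℂ (F l) z (ee 0) *
          ((Real.sqrt (a m) : ℂ) * fderiv ℂ (F m) z (ee 1)) -
        (Real.sqrt (a m) : ℂ) * fderiv ℂ (F m) z (ee 0) *
          ((Real.sqrt (a l) : ℂ) * fderiv ℂ (F l) z (ee 1)) =
        (Real.sqrt (a l) : ℂ) * (Real.sqrt (a m) : ℂ) * jc (F l) (F m) z := by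
      unfold jc
      ring
    rw [e1, norm_mul, norm_mul, mul_pow, mul_pow, hns, hns]
  rw [← h7, ← h5]
  ring

/-! ### the Levi form of `-log (-φ)` -/

theorem lev_ll {ι : Type*} [Fintype ι] {F : ι → Cn 2 → ℂ} {z : Cn 2}
    (hF : ∀ j, AnalyticAt ℂ (F j) z) (h0 : ∃ j, F j z ≠ 0)
    (h1 : Real.log (Levi_145.sumSq F z) ≤ -1) (v : Cn 2) :
    ((Real.log (Levi_145.sumSq F z))⁻¹) ^ 2 * ((Levi_145.sumSq F z)⁻¹ *
      ∑ j, ‖fderiv ℂ (F j) z v‖ ^ 2) ≤
      Levi_145.lev (fun y => - Real.log (- Real.log (Levi_145.sumSq F y))) z v := by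
  have hp := Levi_145.sumSq_pos h0
  have hs : ContDiffAt ℝ 2 (Levi_145.sumSq F) z := Levi_145.c2_sumSq hF 2
  have hφ : ContDiffAt ℝ 2 (fun y => Real.log (Levi_145.sumSq F y)) z := hs.log hp.ne'
  have hφn : ContDiffAt ℝ 2 (fun y => - Real.log (Levi_145.sumSq F y)) z := hφ.neg
  set t := Real.log (Levi_145.sumSq F z) with ht
  have ht0 : 0 < - t := by linarith
  have hφl : ContDiffAt ℝ 2 (fun y => Real.log (- Real.log (Levi_145.sumSq F y))) z :=
    hφn.log ht0.ne'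
  have e1 : Levi_145.lev (fun y => - Real.log (- Real.log (Levi_145.sumSq F y))) z v =
      Levi_145.lev (fun y => Real.log (Levi_145.sumSq F y)) z v / (-t) +
        ‖Levi_145.gr (fun y => - Real.log (Levi_145.sumSq F y)) z v‖ ^ 2 / t ^ 2 := by
    rw [Levi_145.lev_neg hφl, Levi_145.lev_log hφn ht0, Levi_145.lev_neg hφ]
    rw [neg_sq]
    ring
  have e2 : Levi_145.gr (fun y => - Real.log (Levi_145.sumSq F y)) z v =
      ((-(Levi_145.sumSq F z)⁻¹ : ℝ) : ℂ) * Levi_145.gr (Levi_145.sumSq F) z v :=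
    GradB_537.gr_comp_real (χ := fun t => - Real.log t) (hs.differentiableAt (by simp))
      ((Real.hasDerivAt_log hp.ne').neg) v
  have e3 := Levi_145.lev_log hs hp v
  have hl0 := Levi_145.lev_log_sumSq_nonneg hF h0 v
  have e4 : ‖Levi_145.gr (fun y => - Real.log (Levi_145.sumSq F y)) z v‖ ^ 2 =
      ‖Levi_145.gr (Levi_145.sumSq F) z v‖ ^ 2 / (Levi_145.sumSq F z) ^ 2 := by
    rw [e2, norm_mul, Complex.norm_real, Real.norm_eq_abs, mul_pow, sq_abs]
    field_simp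
  rw [Levi_145.lev_sumSq hF] at e3
  set X := Levi_145.lev (fun y => Real.log (Levi_145.sumSq F y)) z v with hX
  set S := Levi_145.sumSq F z with hS
  set Y := ‖Levi_145.gr (Levi_145.sumSq F) z v‖ ^ 2 / S ^ 2 with hY
  have hY0 : 0 ≤ Y := by positivity
  have e5 : S⁻¹ * ∑ j, ‖fderiv ℂ (F j) z v‖ ^ 2 = X + Y := by
    rw [e3]
    ring
  rw [e1, e4, e5]
  have h2 : X / t ^ 2 ≤ X / (-t) := by
    apply div_le_div_of_nonneg_left hl0 ht0
    nlinarith
  calc (t⁻¹) ^ 2 * (X + Y) = X / t ^ 2 + Y / t ^ 2 := by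
        rw [inv_pow]
        ring
    _ ≤ X / (-t) + Y / t ^ 2 := by linarith

end

end Crest.Agent.R257.PairK_39
end

-- ▼ part R257/CLogD_39
section

/-!
# Row 257 (S0395), C-LOG (helper39): the systems of functions of post 3449

`q 0, …, q (L-1)` : finitely many germs, grouped into systems by `s : Fin L → ℕ`;
`φ_l = log ∑ |q_m|²`, the sum over the system of `l`.
* `phq q s l`   : `φ_l`
* `J2 f q s`    : `|J|² = ∑_{l<m} e^{-φ_l - φ_m} |{q_l, q_m}|²`
* `a2 f g q s`  : `|a|² = ∑_l e^{-φ_l} |{g, q_l}|²`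
* `CLog f g h k q s` : (i) `|a|² ≥ c e^ψ |J|²`, (ii) `|J|² ≥ c e^{ψ/k}`, `ψ = log (|g|² + |h|²)`
* `XLStmt`      : every isolated germ with `0 < mstar f` has an exact pair with `CLog`
-/

set_option autoImplicit false

open Topology Filter MeasureTheory Set
open scoped ENNReal ContDiff Matrix

noncomputable section

namespace Crest.Agent.R257.CLogD_39

open Crest.Agent.R257.Defs_219
open Crest.Agent.R257.V1Defs_822 (lgh)
open Crest.Agent.R257.KEU_952 (XPr)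

/-- the system of `l` -/
def fib {L : ℕ} (s : Fin L → ℕ) (l : Fin L) : Finset (Fin L) :=
  Finset.univ.filter fun m => s m = s l

/-- `∑ |q_m|²` over the system of `l` -/
def sqq {L : ℕ} (q : Fin L → E3 → ℂ) (s : Fin L → ℕ) (l : Fin L) (x : E3) : ℝ :=
  ∑ m ∈ fib s l, ‖q m x‖ ^ 2

/-- `φ_l` -/
def phq {L : ℕ} (q : Fin L → E3 → ℂ) (s : Fin L → ℕ) (l : Fin L) (x : E3) : ℝ :=
  Real.log (sqq q s l x)

/-- `|J|²` -/
def J2 {L : ℕ} (f : E3 → ℂ) (q : Fin L → E3 → ℂ) (s : Fin L → ℕ) (x : E3) : ℝ :=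
  (∑ l, ∑ m, ‖Dt f (q l) (q m) x‖ ^ 2 / (sqq q s l x * sqq q s m x)) / 2

/-- `|a|²` -/
def a2 {L : ℕ} (f g : E3 → ℂ) (q : Fin L → E3 → ℂ) (s : Fin L → ℕ) (x : E3) : ℝ :=
  ∑ l, ‖Dt f g (q l) x‖ ^ 2 / sqq q s l x

/-- the two inequalities of C-LOG -/
structure CLog (f g h : E3 → ℂ) (k : ℕ) {L : ℕ} (q : Fin L → E3 → ℂ) (s : Fin L → ℕ) : Prop where
  an : ∀ l, AnalyticAt ℂ (q l) 0
  z : ∀ l, q l 0 = 0
  lo : ∃ (N : ℕ) (c r : ℝ), 0 < c ∧ 0 < r ∧ ∀ x, ‖x‖ < r → f x = 0 → ∀ l,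
    c * ‖x‖ ^ N ≤ sqq q s l x
  i : ∃ c r : ℝ, 0 < c ∧ 0 < r ∧ ∀ x, ‖x‖ < r → f x = 0 → x ≠ 0 →
    c * (‖g x‖ ^ 2 + ‖h x‖ ^ 2) * J2 f q s x ≤ a2 f g q s x
  ii : ∃ c r : ℝ, 0 < c ∧ 0 < r ∧ ∀ x, ‖x‖ < r → f x = 0 → x ≠ 0 →
    c * (‖g x‖ ^ 2 + ‖h x‖ ^ 2) ^ (1 / (k : ℝ)) ≤ J2 f q s x

/-- exact pair with C-LOG -/
def XLStmt : Prop := ∀ f : E3 → ℂ, Iso f → 0 < mstar f →
  ∃ (k : ℕ) (g h : E3 → ℂ) (L : ℕ) (q : Fin L → E3 → ℂ) (s : Fin L → ℕ), XPr f k g h ∧
    (∃ C r : ℝ, 0 < r ∧ ∀ x, ‖x‖ < r → f x = 0 →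
      ‖Dt f g h x‖ ^ 2 ≤ C * (‖g x‖ ^ 2 + ‖h x‖ ^ 2) ^ (2 + 1 / (k : ℝ))) ∧
    CLog f g h k q s

end Crest.Agent.R257.CLogD_39
end
end

-- ▼ part R257/PairK3_39
section

/-!
# Row 257 (S0395), PAIR-K (helper39), part 3: the subsolution of post 3449

`v = (1/k) log (|g|² + |h|²) - 4 ∑ log (-φ_l)`.
* `lev_v`  : `∑ 4 φ_l⁻² e^{-φ_l} |∂q_l|² ≤ ∂∂̄v`
* `det_v`  : `16 c e^v |η|² ≤ (∂∂̄v)²`
* `lowV`   : `v ≤ u + C`
-/

set_option autoImplicit false
set_option linter.unusedSectionVars false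

open Set Filter Topology Complex
open scoped ContDiff ComplexConjugate Matrix ComplexOrder

namespace Crest.Agent.R257.PairK_39

open Crest.Agent.R275.Geo Crest.Agent.R275.Core144 Crest.Agent.R275.GC293
open Crest.Agent.R273
open Crest.Agent.R273.YauDefs_635 (cH lev333_eq_lev145 inC)
open Crest.Agent.R273.YauMax_635 (continuous_of_sm cH_eq_hess)
open Crest.Agent.R257.PN_835 (nsq)
open Crest.Agent.R257.Aff_835 (eta2a)
open Crest.Agent.R257.Defs_219 Crest.Agent.R257.KED_952 Crest.Agent.R257.KEG_952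
open Crest.Agent.R257.V1Defs_822 (SmL LvlOK lgh)
open Crest.Agent.R257.CLD_39 (two_le')
open Crest.Agent.R257.Jac_39 (jc ee jac)
open Crest.Agent.R257.CLogD_39

noncomputable section

/-- the subsolution -/
def vq {L : ℕ} (k : ℝ) (g h : E3 → ℂ) (q : Fin L → E3 → ℂ) (s : Fin L → ℕ) (x : E3) : ℝ :=
  1 / k * lgh g h x + ∑ l, 4 * (- Real.log (- phq q s l x))

variable {f : E3 → ℂ} {r : ℝ} {L : ℕ} {q : Fin L → E3 → ℂ} {s : Fin L → ℕ} {g h : E3 → ℂ}

/-- hypotheses on the punctured level in the ball of radius `r` -/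
structure QOK (f : E3 → ℂ) (r : ℝ) (g h : E3 → ℂ) {L : ℕ} (q : Fin L → E3 → ℂ)
    (s : Fin L → ℕ) : Prop where
  ang : ∀ x, nsq x < r ^ 2 → AnalyticAt ℂ g x
  anh : ∀ x, nsq x < r ^ 2 → AnalyticAt ℂ h x
  anq : ∀ l x, nsq x < r ^ 2 → AnalyticAt ℂ (q l) x
  gh : ∀ x, f x = 0 → x ≠ 0 → nsq x < r ^ 2 → 0 < ‖g x‖ ^ 2 + ‖h x‖ ^ 2
  pos : ∀ x, f x = 0 → x ≠ 0 → nsq x < r ^ 2 → ∀ l, 0 < sqq q s l x
  le : ∀ x, f x = 0 → x ≠ 0 → nsq x < r ^ 2 → ∀ l, phq q s l x ≤ -1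

/-- the functions of the system of `l`, extended by zero -/
def Fq (q : Fin L → E3 → ℂ) (s : Fin L → ℕ) (θ : Cn 2 → E3) (l m : Fin L) (z : Cn 2) : ℂ :=
  if s m = s l then q m (θ z) else 0

theorem sqq_eq (θ : Cn 2 → E3) (l : Fin L) (z : Cn 2) :
    sqq q s l (θ z) = Levi_145.sumSq (Fq q s θ l) z := by
  unfold sqq Levi_145.sumSq Fq fib
  rw [Finset.sum_filter]
  refine Finset.sum_congr rfl fun m _ => ?_
  split_ifs <;> simp

/-- `log (|g|² + |h|²)` along a parametrisation -/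
theorem lgh_eq (θ : Cn 2 → E3) (z : Cn 2) :
    lgh g h (θ z) = Real.log (Levi_145.sumSq ![fun z => g (θ z), fun z => h (θ z)] z) := by
  unfold lgh Levi_145.sumSq
  rw [Fin.sum_univ_two]
  rfl

theorem anal_par {s : ℂ} {θ : Cn 2 → E3} {O : Set (Cn 2)} (hθ : Aff_835.Par (n := 2) f s θ O)
    {z : Cn 2} (hz : z ∈ O) : AnalyticAt ℂ θ z :=
  (Crest.Agent.R266.SCV.contDiffOn_omega_of_differentiableOn hθ.isOpen hθ.hol).contDiffAt
    (hθ.isOpen.mem_nhds hz) |>.analyticAt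

theorem eta_nn {s : ℂ} {θ : Cn 2 → E3} {O : Set (Cn 2)} (hθ : Aff_835.Par (n := 2) f s θ O)
    {z : Cn 2} (hz : z ∈ O) (hf : DifferentiableAt ℂ f (θ z)) (h0 : fderiv ℂ f (θ z) ≠ 0) :
    0 ≤ eta2a (n := 2) f θ z := by
  obtain ⟨w, hw⟩ : ∃ w, fderiv ℂ f (θ z) w ≠ 0 := by
    by_contra hcon
    push Not at hcon
    exact h0 (by ext w; rw [hcon w]; rfl)
  have h1 := Jac_39.det_TT hθ hz hf h0 w
  have h2 : 0 < ‖fderiv ℂ f (θ z) w‖ ^ 2 := by positivity
  exact nonneg_of_mul_nonneg_left (h1 ▸ sq_nonneg _) h2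

section pt

variable {θ : Cn 2 → E3} {O : Set (Cn 2)} (hP : PE f 0 r θ O) (hQ : QOK f r g h q s)
include hP hQ

theorem anF (l m : Fin L) {z : Cn 2} (hz : z ∈ O) : AnalyticAt ℂ (Fq q s θ l m) z := by
  unfold Fq
  by_cases hm : s m = s l
  · simp only [hm, if_true]
    exact (hQ.anq m _ (hP.lt z hz)).comp (anal_par hP.par hz)
  · simp only [hm, if_false]
    exact analyticAt_const

theorem anGH {z : Cn 2} (hz : z ∈ O) : ∀ j, AnalyticAt ℂ
    ((![fun z => g (θ z), fun z => h (θ z)] : Fin 2 → Cn 2 → ℂ) j) z := by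
  have hθ := anal_par hP.par hz
  have h0 : AnalyticAt ℂ (fun z => g (θ z)) z := (hQ.ang _ (hP.lt z hz)).comp hθ
  have h1 : AnalyticAt ℂ (fun z => h (θ z)) z := (hQ.anh _ (hP.lt z hz)).comp hθ
  intro j
  fin_cases j
  · exact h0
  · exact h1

theorem neF (l : Fin L) {z : Cn 2} (hz : z ∈ O) : ∃ m, Fq q s θ l m z ≠ 0 := by
  by_contra hcon
  push Not at hcon
  have h1 := hQ.pos _ (hP.par.lvl z hz) (hP.ne z hz) (hP.lt z hz) l
  rw [sqq_eq] at h1
  have h2 : Levi_145.sumSq (Fq q s θ l) z = 0 := by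
    unfold Levi_145.sumSq
    exact Finset.sum_eq_zero fun m _ => by rw [hcon m]; simp
  linarith

theorem neGH {z : Cn 2} (hz : z ∈ O) : ∃ j,
    (![fun z => g (θ z), fun z => h (θ z)] : Fin 2 → Cn 2 → ℂ) j z ≠ 0 := by
  by_contra hcon
  push Not at hcon
  have h1 := hQ.gh _ (hP.par.lvl z hz) (hP.ne z hz) (hP.lt z hz)
  have h2 : g (θ z) = 0 := hcon 0
  have h3 : h (θ z) = 0 := hcon 1
  rw [h2, h3] at h1
  simp at h1

theorem sm_lgh {z : Cn 2} (hz : z ∈ O) : ContDiffAt ℝ ∞ (fun z => lgh g h (θ z)) z := by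
  have e : (fun z => lgh g h (θ z)) = fun z =>
      Real.log (Levi_145.sumSq ![fun z => g (θ z), fun z => h (θ z)] z) := by
    funext z
    exact lgh_eq θ z
  rw [e]
  exact (Levi_145.c2_sumSq (anGH hP hQ hz) ∞).log (Levi_145.sumSq_pos (neGH hP hQ hz)).ne'

theorem sm_ph (l : Fin L) {z : Cn 2} (hz : z ∈ O) :
    ContDiffAt ℝ ∞ (fun z => phq q s l (θ z)) z := by
  have e : (fun z => phq q s l (θ z)) = fun z => Real.log (Levi_145.sumSq (Fq q s θ l) z) := by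
    funext z
    unfold phq
    rw [sqq_eq]
  rw [e]
  exact (Levi_145.c2_sumSq (fun m => anF hP hQ l m hz) ∞).log
    (Levi_145.sumSq_pos (neF hP hQ l hz)).ne'

theorem sm_ll (l : Fin L) {z : Cn 2} (hz : z ∈ O) :
    ContDiffAt ℝ ∞ (fun z => - Real.log (- phq q s l (θ z))) z := by
  have h1 := hQ.le _ (hP.par.lvl z hz) (hP.ne z hz) (hP.lt z hz) l
  have h2 : - phq q s l (θ z) ≠ 0 := by
    intro h2
    linarith
  exact ((sm_ph hP hQ l hz).neg.log h2).neg

theorem sm_vq (k : ℝ) {z : Cn 2} (hz : z ∈ O) :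
    ContDiffAt ℝ ∞ (fun z => vq k g h q s (θ z)) z := by
  have h1 : ContDiffAt ℝ ∞ (fun z => 1 / k * lgh g h (θ z)) z :=
    contDiffAt_const.mul (sm_lgh hP hQ hz)
  have h2 : ContDiffAt ℝ ∞ (fun z => ∑ l, 4 * (- Real.log (- phq q s l (θ z)))) z :=
    ContDiffAt.sum fun l _ => contDiffAt_const.mul (sm_ll hP hQ l hz)
  exact h1.add h2

theorem lev_v {k : ℝ} (hk : 0 < k) {z : Cn 2} (hz : z ∈ O) (v : Cn 2) :
    ∑ l, (4 * ((phq q s l (θ z))⁻¹ ^ 2 * (sqq q s l (θ z))⁻¹)) *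
      ‖fderiv ℂ (fun z => q l (θ z)) z v‖ ^ 2 ≤
      Levi_145.lev (fun z => vq k g h q s (θ z)) z v := by
  have h1 : ContDiffAt ℝ 2 (fun z => 1 / k * lgh g h (θ z)) z :=
    two_le' (contDiffAt_const.mul (sm_lgh hP hQ hz))
  have h2 : ∀ l ∈ Finset.univ, ContDiffAt ℝ 2
      ((fun l z => 4 * (- Real.log (- phq q s l (θ z)))) l) z := fun l _ =>
    two_le' (contDiffAt_const.mul (sm_ll hP hQ l hz))
  have h3 : ContDiffAt ℝ 2 (fun z => ∑ l, 4 * (- Real.log (- phq q s l (θ z)))) z :=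
    ContDiffAt.sum h2
  have e0 : (fun z => vq k g h q s (θ z)) = fun z => 1 / k * lgh g h (θ z) +
      ∑ l, 4 * (- Real.log (- phq q s l (θ z))) := rfl
  have e2 : Levi_145.lev (fun z => ∑ l, 4 * (- Real.log (- phq q s l (θ z)))) z v =
      ∑ l, Levi_145.lev (fun z => 4 * (- Real.log (- phq q s l (θ z)))) z v :=
    Levi_145.lev_sum Finset.univ h2 v
  rw [e0, Levi_145.lev_add h1 h3, e2, Levi_145.lev_const_mul _ (two_le' (sm_lgh hP hQ hz))]
  have h4 : 0 ≤ Levi_145.lev (fun z => lgh g h (θ z)) z v := by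
    have e : (fun z => lgh g h (θ z)) = fun z =>
        Real.log (Levi_145.sumSq ![fun z => g (θ z), fun z => h (θ z)] z) := by
      funext z
      exact lgh_eq θ z
    rw [e]
    exact Levi_145.lev_log_sumSq_nonneg (anGH hP hQ hz) (neGH hP hQ hz) v
  have h5 : 0 ≤ 1 / k * Levi_145.lev (fun z => lgh g h (θ z)) z v := by positivity
  have h6 : ∀ l, (4 * ((phq q s l (θ z))⁻¹ ^ 2 * (sqq q s l (θ z))⁻¹)) *
      ‖fderiv ℂ (fun z => q l (θ z)) z v‖ ^ 2 ≤
      Levi_145.lev (fun z => 4 * (- Real.log (- phq q s l (θ z)))) z v := by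
    intro l
    rw [Levi_145.lev_const_mul _ (two_le' (sm_ll hP hQ l hz))]
    have e : (fun z => - Real.log (- phq q s l (θ z))) = fun z =>
        - Real.log (- Real.log (Levi_145.sumSq (Fq q s θ l) z)) := by
      funext z
      unfold phq
      rw [sqq_eq]
    have hle : Real.log (Levi_145.sumSq (Fq q s θ l) z) ≤ -1 := by
      rw [← sqq_eq]
      exact hQ.le _ (hP.par.lvl z hz) (hP.ne z hz) (hP.lt z hz) l
    have h7 := lev_ll (fun m => anF hP hQ l m hz) (neF hP hQ l hz) hle v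
    rw [e]
    have h8 : ‖fderiv ℂ (fun z => q l (θ z)) z v‖ ^ 2 ≤
        ∑ m, ‖fderiv ℂ (Fq q s θ l m) z v‖ ^ 2 := by
      have e1 : Fq q s θ l l = fun z => q l (θ z) := by
        funext z
        unfold Fq
        rw [if_pos rfl]
      have h9 := Finset.single_le_sum (f := fun m => ‖fderiv ℂ (Fq q s θ l m) z v‖ ^ 2)
        (fun _ _ => sq_nonneg _) (Finset.mem_univ l)
      simp only [e1] at h9
      exact h9
    have h10 : 0 < sqq q s l (θ z) := hQ.pos _ (hP.par.lvl z hz) (hP.ne z hz) (hP.lt z hz) l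
    have e3 : phq q s l (θ z) = Real.log (Levi_145.sumSq (Fq q s θ l) z) := by
      unfold phq
      rw [sqq_eq]
    have e4 : sqq q s l (θ z) = Levi_145.sumSq (Fq q s θ l) z := sqq_eq θ l z
    rw [← e3, ← e4] at h7
    calc (4 * ((phq q s l (θ z))⁻¹ ^ 2 * (sqq q s l (θ z))⁻¹)) *
          ‖fderiv ℂ (fun z => q l (θ z)) z v‖ ^ 2
        = 4 * ((phq q s l (θ z))⁻¹ ^ 2 * ((sqq q s l (θ z))⁻¹ *
          ‖fderiv ℂ (fun z => q l (θ z)) z v‖ ^ 2)) := by ring
      _ ≤ 4 * ((phq q s l (θ z))⁻¹ ^ 2 * ((sqq q s l (θ z))⁻¹ *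
          ∑ m, ‖fderiv ℂ (Fq q s θ l m) z v‖ ^ 2)) := by gcongr
      _ ≤ _ := by linarith
  have h7 := Finset.sum_le_sum fun l (_ : l ∈ Finset.univ) => h6 l
  linarith

theorem det_v (hf : LvlOK f 0 r) {k : ℝ} (hk : 0 < k) {z : Cn 2} (hz : z ∈ O) {c : ℝ}
    (hc : c * (‖g (θ z)‖ ^ 2 + ‖h (θ z)‖ ^ 2) ^ (1 / k) ≤ J2 f q s (θ z)) :
    16 * c * Real.exp (vq k g h q s (θ z)) * eta2a (n := 2) f θ z ≤
      (cH (fun z => vq k g h q s (θ z)) z).det.re := by
  have hθ := anal_par hP.par hz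
  have hlv := hP.par.lvl z hz
  have hne := hP.ne z hz
  have hlt := hP.lt z hz
  have hpos := hQ.pos _ hlv hne hlt
  have hle := hQ.le _ hlv hne hlt
  have hgh := hQ.gh _ hlv hne hlt
  have hF : ∀ l, AnalyticAt ℂ (fun z => q l (θ z)) z := fun l => (hQ.anq l _ hlt).comp hθ
  set x := θ z with hx
  set a : Fin L → ℝ := fun l => 4 * ((phq q s l x)⁻¹ ^ 2 * (sqq q s l x)⁻¹) with ha
  have ha0 : ∀ l, 0 ≤ a l := fun l => by
    have := hpos l
    simp only [ha]
    positivity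
  have h1 := det_ge (sm_vq hP hQ k hz) hF ha0 (lev_v hP hQ hk hz)
  refine le_trans ?_ h1
  -- the Jacobians
  have hj : ∀ l m, ‖jc (fun z => q l (θ z)) (fun z => q m (θ z)) z‖ ^ 2 =
      ‖Dt f (q l) (q m) x‖ ^ 2 * eta2a (n := 2) f θ z := fun l m =>
    jac hP.par hz (hf.an _ hlt).differentiableAt (hf.sm _ hne hlt hlv)
      (hQ.anq l _ hlt).differentiableAt (hQ.anq m _ hlt).differentiableAt
  have heta : 0 ≤ eta2a (n := 2) f θ z := eta_nn hP.par hz (hf.an _ hlt).differentiableAt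
    (hf.sm _ hne hlt hlv)
  set E : ℝ := ∑ j, 4 * Real.log (- phq q s j x) with hE
  have hlog : ∀ j, 0 ≤ 4 * Real.log (- phq q s j x) := fun j =>
    mul_nonneg (by norm_num) (Real.log_nonneg (by linarith [hle j]))
  have hEj : ∀ j, 4 * Real.log (- phq q s j x) ≤ E := fun j =>
    Finset.single_le_sum (fun j _ => hlog j) (Finset.mem_univ j)
  have haa : ∀ l m, 16 * Real.exp (-E) * (sqq q s l x * sqq q s m x)⁻¹ ≤ a l * a m := by
    intro l m
    have hl := hpos l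
    have hm := hpos m
    have tl : 0 < - phq q s l x := by linarith [hle l]
    have tm : 0 < - phq q s m x := by linarith [hle m]
    have e1 : (phq q s l x)⁻¹ ^ 2 = Real.exp (-(2 * Real.log (- phq q s l x))) := by
      rw [Real.exp_neg, two_mul, Real.exp_add, Real.exp_log tl, inv_pow]
      congr 1
      ring
    have e2 : (phq q s m x)⁻¹ ^ 2 = Real.exp (-(2 * Real.log (- phq q s m x))) := by
      rw [Real.exp_neg, two_mul, Real.exp_add, Real.exp_log tm, inv_pow]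
      congr 1
      ring
    have e3 : Real.exp (-E) ≤ (phq q s l x)⁻¹ ^ 2 * (phq q s m x)⁻¹ ^ 2 := by
      rw [e1, e2, ← Real.exp_add]
      apply Real.exp_le_exp.2
      linarith [hEj l, hEj m]
    have e4 : a l * a m = 16 * ((phq q s l x)⁻¹ ^ 2 * (phq q s m x)⁻¹ ^ 2) *
        (sqq q s l x * sqq q s m x)⁻¹ := by
      simp only [ha]
      rw [mul_inv]
      ring
    rw [e4]
    have : 0 ≤ (sqq q s l x * sqq q s m x)⁻¹ := by positivity
    gcongr
  have hexp : Real.exp (vq k g h q s x) = (‖g x‖ ^ 2 + ‖h x‖ ^ 2) ^ (1 / k) * Real.exp (-E) := by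
    have e1 : vq k g h q s x = Real.log (‖g x‖ ^ 2 + ‖h x‖ ^ 2) * (1 / k) + -E := by
      unfold vq lgh
      rw [hE, ← Finset.sum_neg_distrib]
      have e2 : ∀ l, 4 * (- Real.log (- phq q s l x)) = -(4 * Real.log (- phq q s l x)) :=
        fun l => by ring
      simp only [e2]
      ring
    rw [e1, Real.exp_add, Real.rpow_def_of_pos hgh]
  have hsum : 16 * Real.exp (-E) * J2 f q s x * eta2a (n := 2) f θ z ≤
      (∑ l, ∑ m, a l * a m * ‖jc (fun z => q l (θ z)) (fun z => q m (θ z)) z‖ ^ 2) / 2 := by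
    unfold J2
    have e1 : 16 * Real.exp (-E) * ((∑ l, ∑ m, ‖Dt f (q l) (q m) x‖ ^ 2 /
        (sqq q s l x * sqq q s m x)) / 2) * eta2a (n := 2) f θ z =
        (∑ l, ∑ m, 16 * Real.exp (-E) * (sqq q s l x * sqq q s m x)⁻¹ *
          (‖Dt f (q l) (q m) x‖ ^ 2 * eta2a (n := 2) f θ z)) / 2 := by
      rw [mul_div_assoc', div_mul_eq_mul_div, Finset.mul_sum, Finset.sum_mul]
      congr 1
      refine Finset.sum_congr rfl fun l _ => ?_
      rw [Finset.mul_sum, Finset.sum_mul]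
      refine Finset.sum_congr rfl fun m _ => ?_
      rw [div_eq_mul_inv]
      ring
    rw [e1]
    refine div_le_div_of_nonneg_right ?_ two_pos.le
    refine Finset.sum_le_sum fun l _ => Finset.sum_le_sum fun m _ => ?_
    rw [hj l m]
    exact mul_le_mul_of_nonneg_right (haa l m) (mul_nonneg (sq_nonneg _) heta)
  refine le_trans ?_ hsum
  rw [hexp]
  have h2 : 0 ≤ 16 * Real.exp (-E) * eta2a (n := 2) f θ z := by positivity
  calc 16 * c * ((‖g x‖ ^ 2 + ‖h x‖ ^ 2) ^ (1 / k) * Real.exp (-E)) * eta2a (n := 2) f θ z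
      = (16 * Real.exp (-E) * eta2a (n := 2) f θ z) * (c * (‖g x‖ ^ 2 + ‖h x‖ ^ 2) ^ (1 / k)) := by
        ring
    _ ≤ (16 * Real.exp (-E) * eta2a (n := 2) f θ z) * J2 f q s x :=
        mul_le_mul_of_nonneg_left hc h2
    _ = _ := by ring

end pt

/-- **lower bound**: `v ≤ u + C` -/
theorem lowV {u : E3 → ℝ} {A : ℝ} (hf : LvlOK f 0 r) (hK : KEon f 0 r u) (hE : Esc f r u A)
    {ρ : ℝ} (h0 : 0 < ρ) (hρ : ρ < r) (hQ : QOK f r g h q s) {k : ℝ} (hk : 0 < k) {c : ℝ}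
    (hc : 0 < c) (hii : ∀ x, f x = 0 → x ≠ 0 → nsq x < r ^ 2 →
      c * (‖g x‖ ^ 2 + ‖h x‖ ^ 2) ^ (1 / k) ≤ J2 f q s x) :
    ∃ C : ℝ, ∀ x, f x = 0 → x ≠ 0 → nsq x ≤ ρ ^ 2 → vq k g h q s x ≤ u x + C := by
  refine lowK hf hK hE h0 hρ (w := vq k g h q s) (c := 16 * c)
    (fun θ O hP z hz => (sm_vq hP hQ k hz).contDiffWithinAt) (fun θ O hP z hz v => ?_)
    (by positivity)
    (fun θ O hP z hz => det_v hP hQ hf hk hz (hii _ (hP.par.lvl z hz) (hP.ne z hz) (hP.lt z hz)))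
  rw [lev333_eq_lev145]
  have h1 := lev_v hP hQ hk hz v
  have h2 : 0 ≤ ∑ l, (4 * ((phq q s l (θ z))⁻¹ ^ 2 * (sqq q s l (θ z))⁻¹)) *
      ‖fderiv ℂ (fun z => q l (θ z)) z v‖ ^ 2 := by
    refine Finset.sum_nonneg fun l _ => ?_
    have := hQ.pos _ (hP.par.lvl z hz) (hP.ne z hz) (hP.lt z hz) l
    positivity
  linarith

end

end Crest.Agent.R257.PairK_39
end

-- ▼ part R257/PairK4_39
section

/-!
# Row 257 (S0395), PAIR-K (helper39), part 4: two-sided estimate of the weight from C-LOG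

* `exists_QOK` : the hypotheses of `lowV` hold near `0`
* `TwoS`       : `|u - ψ/k| ≤ B (1 + log (A - u))`
* `twoS`       : `TwoS` from C-LOG (ii) and the upper bound of helper938
* `upb_of_twoS`: `UpB` for the weight `k u`
* `up1_of_xl`  : `XLStmt → Up1Stmt`
-/

set_option autoImplicit false
set_option linter.unusedSectionVars false

open Set Filter Topology Complex MeasureTheory
open scoped ContDiff ComplexConjugate Matrix ComplexOrder

namespace Crest.Agent.R257.PairK_39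

open Crest.Agent.R275.Geo
open Crest.Agent.R273
open Crest.Agent.R273.YauDefs_635 (cH lev333_eq_lev145 inC)
open Crest.Agent.R257.PN_835 (nsq)
open Crest.Agent.R257.Aff_835 (eta2a)
open Crest.Agent.R257.Defs_219 Crest.Agent.R257.KED_952 Crest.Agent.R257.KEG_952
open Crest.Agent.R257.KEU_952
open Crest.Agent.R257.V1Defs_822 (SmL LvlOK lgh XUStmt)
open Crest.Agent.R257.CLogD_39
open Crest.Agent.R257.Esc_537 (zero_of_col)

noncomputable section

variable {f : E3 → ℂ} {r : ℝ} {L : ℕ} {q : Fin L → E3 → ℂ} {s : Fin L → ℕ} {g h : E3 → ℂ}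
  {u : E3 → ℝ} {A : ℝ}

theorem norm_sq_le (x : E3) : ‖x‖ ^ 2 ≤ nsq x := SkelV_952.norm_sq_le_nsq x

theorem norm_lt_of {x : E3} {δ : ℝ} (hδ : 0 < δ) (h : nsq x < δ ^ 2) : ‖x‖ < δ := by
  have h1 := norm_sq_le x
  exact lt_of_pow_lt_pow_left₀ 2 hδ.le (h1.trans_lt h)

/-- from `𝓝 0` to balls -/
theorem ball_of_ev {P : E3 → Prop} (h : ∀ᶠ x in 𝓝 (0 : E3), P x) :
    ∃ δ : ℝ, 0 < δ ∧ ∀ x, nsq x < δ ^ 2 → P x := by
  obtain ⟨δ, hδ, hb⟩ := Metric.eventually_nhds_iff_ball.1 h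
  exact ⟨δ, hδ, fun x hx => hb x (by rw [mem_ball_zero_iff]; exact norm_lt_of hδ hx)⟩

theorem gh_pos (hf : AnalyticAt ℂ f 0) (hg : AnalyticAt ℂ g 0)
    (hh : AnalyticAt ℂ h 0) (hfin : ColFin ![f, g, h]) :
    ∀ᶠ x in 𝓝 (0 : E3), f x = 0 → x ≠ 0 → 0 < ‖g x‖ ^ 2 + ‖h x‖ ^ 2 := by
  have hG : ∀ j : Fin 3, AnalyticAt ℂ ((![f, g, h] : Fin 3 → E3 → ℂ) j) 0 := by
    intro j
    fin_cases j
    · exact hf
    · exact hg
    · exact hh
  have hiso := (NS0554.colFin_iff_isolated hG).1 hfin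
  filter_upwards [hiso] with x h1 h3 h4
  by_contra hn
  have hge : 0 ≤ ‖g x‖ ^ 2 := by positivity
  have hhe : 0 ≤ ‖h x‖ ^ 2 := by positivity
  have hg1 : ‖g x‖ ^ 2 = 0 := by linarith
  have hh1 : ‖h x‖ ^ 2 = 0 := by linarith
  apply h4
  apply h1
  intro j
  fin_cases j
  · exact h3
  · simpa using hg1
  · simpa using hh1

/-- the systems are small near `0` -/
theorem sqq_small (hq : ∀ l, AnalyticAt ℂ (q l) 0) (h0 : ∀ l, q l 0 = 0) {ε : ℝ} (hε : 0 < ε) :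
    ∀ᶠ x in 𝓝 (0 : E3), ∀ l, sqq q s l x < ε := by
  rw [eventually_all]
  intro l
  have hc : ContinuousAt (sqq q s l) 0 := by
    unfold sqq
    exact tendsto_finsetSum _ fun m _ => ((hq m).continuousAt.norm.pow 2)
  have h1 : sqq q s l 0 = 0 := by
    unfold sqq
    exact Finset.sum_eq_zero fun m _ => by rw [h0 m]; simp
  exact hc.eventually (Iio_mem_nhds (by rw [h1]; exact hε))

theorem exists_QOK {k : ℕ} (hf : AnalyticAt ℂ f 0) (hg : AnalyticAt ℂ g 0)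
    (hh : AnalyticAt ℂ h 0) (hfin : ColFin ![f, g, h]) (hC : CLog f g h k q s) :
    ∃ r₀ c : ℝ, ∃ N : ℕ, 0 < r₀ ∧ 0 < c ∧ ∀ r, 0 < r → r ≤ r₀ → QOK f r g h q s ∧
      (∀ x, f x = 0 → x ≠ 0 → nsq x < r ^ 2 →
        c * (‖g x‖ ^ 2 + ‖h x‖ ^ 2) ^ (1 / (k : ℝ)) ≤ J2 f q s x) ∧
      ∀ x, f x = 0 → x ≠ 0 → nsq x < r ^ 2 → ∀ l, c * ‖x‖ ^ N ≤ sqq q s l x := by
  obtain ⟨N, c₁, r₁, hc₁, hr₁, hlo⟩ := hC.lo
  obtain ⟨c₂, r₂, hc₂, hr₂, hii⟩ := hC.ii
  have hanq : ∀ᶠ x in 𝓝 (0 : E3), ∀ l, AnalyticAt ℂ (q l) x := by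
    rw [eventually_all]
    exact fun l => (hC.an l).eventually_analyticAt
  obtain ⟨δ, hδ, hb⟩ := ball_of_ev (hg.eventually_analyticAt.and (hh.eventually_analyticAt.and
    (hanq.and ((gh_pos hf hg hh hfin).and (sqq_small (s := s) hC.an hC.z
      (Real.exp_pos (-1)))))))
  refine ⟨min δ (min r₁ r₂), min c₁ c₂, N, lt_min hδ (lt_min hr₁ hr₂), lt_min hc₁ hc₂,
    fun r hr hrr => ?_⟩
  have e1 : ∀ x : E3, nsq x < r ^ 2 → nsq x < δ ^ 2 := fun x hx =>
    hx.trans_le (pow_le_pow_left₀ hr.le (hrr.trans (min_le_left _ _)) 2)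
  have e2 : ∀ x : E3, nsq x < r ^ 2 → ‖x‖ < r₁ := fun x hx =>
    norm_lt_of hr₁ (hx.trans_le (pow_le_pow_left₀ hr.le
      (hrr.trans ((min_le_right _ _).trans (min_le_left _ _))) 2))
  have e3 : ∀ x : E3, nsq x < r ^ 2 → ‖x‖ < r₂ := fun x hx =>
    norm_lt_of hr₂ (hx.trans_le (pow_le_pow_left₀ hr.le
      (hrr.trans ((min_le_right _ _).trans (min_le_right _ _))) 2))
  have hpos : ∀ x, f x = 0 → x ≠ 0 → nsq x < r ^ 2 → ∀ l, 0 < sqq q s l x := fun x h1 h2 h3 l =>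
    lt_of_lt_of_le (by
      have := norm_pos_iff.2 h2
      positivity) (hlo x (e2 x h3) h1 l)
  refine ⟨⟨fun x hx => (hb x (e1 x hx)).1, fun x hx => (hb x (e1 x hx)).2.1,
    fun l x hx => (hb x (e1 x hx)).2.2.1 l, fun x h1 h2 h3 => (hb x (e1 x h3)).2.2.2.1 h1 h2,
    hpos, fun x h1 h2 h3 l => ?_⟩, fun x h1 h2 h3 => ?_, fun x h1 h2 h3 l => ?_⟩
  · have h4 := (hb x (e1 x h3)).2.2.2.2 l
    unfold phq
    have := Real.log_le_log (hpos x h1 h2 h3 l) h4.le
    rwa [Real.log_exp] at this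
  · refine le_trans ?_ (hii x (e3 x h3) h1 h2)
    have : 0 ≤ (‖g x‖ ^ 2 + ‖h x‖ ^ 2) ^ (1 / (k : ℝ)) := by positivity
    exact mul_le_mul_of_nonneg_right (min_le_right _ _) this
  · refine le_trans ?_ (hlo x (e2 x h3) h1 l)
    exact mul_le_mul_of_nonneg_right (min_le_left _ _) (by positivity)

/-- two-sided estimate of the weight -/
def TwoS (f : E3 → ℂ) (r : ℝ) (u : E3 → ℝ) (A : ℝ) (k : ℝ) (g h : E3 → ℂ) (B : ℝ) : Prop :=
  ∀ x, f x = 0 → x ≠ 0 → nsq x < r ^ 2 →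
    |u x - 1 / k * lgh g h x| ≤ B * (1 + Real.log (A - u x))

/-- `log (|g|² + |h|²) ≤ 2 log ‖x‖ + K` -/
theorem lgh_le (hf : AnalyticAt ℂ f 0) (hg : AnalyticAt ℂ g 0) (hh : AnalyticAt ℂ h 0)
    (hg0 : g 0 = 0) (hh0 : h 0 = 0) (hfin : ColFin ![f, g, h]) :
    ∃ K : ℝ, ∀ᶠ x in 𝓝 (0 : E3), f x = 0 → x ≠ 0 → lgh g h x ≤ 2 * Real.log ‖x‖ + K := by
  have hO : ∀ {g : E3 → ℂ}, AnalyticAt ℂ g 0 → g 0 = 0 → ∃ K : ℝ, 0 < K ∧
      ∀ᶠ x in 𝓝 (0 : E3), ‖g x‖ ≤ K * ‖x‖ := by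
    intro g hg hg0
    have h1 := hg.differentiableAt.isBigO_sub
    obtain ⟨K, hK, h2⟩ := h1.exists_pos
    refine ⟨K, hK, ?_⟩
    filter_upwards [h2.bound] with x hx
    rwa [hg0, sub_zero, sub_zero] at hx
  obtain ⟨K₁, hK₁, h1⟩ := hO hg hg0
  obtain ⟨K₂, hK₂, h2⟩ := hO hh hh0
  refine ⟨Real.log (K₁ ^ 2 + K₂ ^ 2), ?_⟩
  filter_upwards [h1, h2, gh_pos hf hg hh hfin] with x h1 h2 h3 h4 h5
  have hx := norm_pos_iff.2 h5
  unfold lgh
  have h6 : ‖g x‖ ^ 2 + ‖h x‖ ^ 2 ≤ ‖x‖ ^ 2 * (K₁ ^ 2 + K₂ ^ 2) := by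
    have a1 : ‖g x‖ ^ 2 ≤ (K₁ * ‖x‖) ^ 2 := pow_le_pow_left₀ (norm_nonneg _) h1 2
    have a2 : ‖h x‖ ^ 2 ≤ (K₂ * ‖x‖) ^ 2 := pow_le_pow_left₀ (norm_nonneg _) h2 2
    nlinarith
  refine (Real.log_le_log (h3 h4 h5) h6).trans (le_of_eq ?_)
  rw [Real.log_mul (by positivity) (by positivity), Real.log_pow]
  push_cast
  ring

/-- **the two-sided estimate** -/
theorem twoS {k : ℕ} (hk : 2 ≤ k) (hf0 : AnalyticAt ℂ f 0) (hf : LvlOK f 0 r) (hK : KEon f 0 r u)
    (hE : Esc f r u A) (hg : AnalyticAt ℂ g 0) (hh : AnalyticAt ℂ h 0)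
    (hg0 : g 0 = 0) (hh0 : h 0 = 0) (hfin : ColFin ![f, g, h]) (hC : CLog f g h k q s)
    (hup : ∃ C r' : ℝ, 0 < r' ∧ ∀ x, f x = 0 → x ≠ 0 → nsq x < r' ^ 2 →
      u x ≤ 1 / (k : ℝ) * lgh g h x + C) :
    ∃ r' B : ℝ, 0 < r' ∧ r' < r ∧ 0 < B ∧ TwoS f r' u A k g h B := by
  have hr := hf.pos
  have hk0 : (0 : ℝ) < k := by exact_mod_cast (by omega : 0 < k)
  obtain ⟨r₀, c, N, hr₀, hc, hQ⟩ := exists_QOK hf0 hg hh hfin hC
  obtain ⟨C₂, r₂, hr₂, hup⟩ := hup
  obtain ⟨K, hK'⟩ := lgh_le hf0 hg hh hg0 hh0 hfin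
  obtain ⟨r₃, hr₃, hlgh⟩ := ball_of_ev hK'
  -- the lower bound
  set r₁ : ℝ := min r₀ (r / 2) with hr₁
  have hr₁0 : 0 < r₁ := lt_min hr₀ (by positivity)
  have hr₁r : r₁ < r := lt_of_le_of_lt (min_le_right _ _) (by linarith)
  obtain ⟨hQ1, hQ2, hQ3⟩ := hQ r₁ hr₁0 (min_le_left _ _)
  obtain ⟨C₁, hC₁⟩ := lowV (UpK_938.LvlOK.mono hf hr₁0 hr₁r.le) (KEon.mono' hK hr₁0.le hr₁r.le)
    (Esc.mono' hE hr₁0.le hr₁r.le) (ρ := r₁ / 2) (by positivity) (by linarith) hQ1 hk0 hc hQ2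
  set r' : ℝ := min (r₁ / 2) (min r₂ r₃) with hr'
  have hr'0 : 0 < r' := lt_min (by positivity) (lt_min hr₂ hr₃)
  have hr'1 : r' ≤ r₁ / 2 := min_le_left _ _
  -- constants
  set B₁ : ℝ := 1 + |Real.log c| + N * (|K| + k * (|C₂| + |A| + 1)) with hB₁
  have hB₁1 : 1 ≤ B₁ := by
    have : 0 ≤ |Real.log c| + N * (|K| + k * (|C₂| + |A| + 1)) := by positivity
    linarith
  set B : ℝ := |C₁| + |C₂| + 4 * L * (Real.log B₁ + 1) + 1 with hB
  have hlB : 0 ≤ Real.log B₁ := Real.log_nonneg hB₁1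
  have hB0 : 0 < B := by
    have : 0 ≤ |C₁| + |C₂| + 4 * L * (Real.log B₁ + 1) := by positivity
    linarith
  refine ⟨r', B, hr'0, by linarith, hB0, fun x h1 h2 h3 => ?_⟩
  have hx1 : nsq x ≤ (r₁ / 2) ^ 2 := (h3.trans_le (pow_le_pow_left₀ hr'0.le hr'1 2)).le
  have hx1' : nsq x < r₁ ^ 2 := by
    refine lt_of_le_of_lt hx1 ?_
    nlinarith
  have hx2 : nsq x < r₂ ^ 2 := h3.trans_le (pow_le_pow_left₀ hr'0.le
    ((min_le_right _ _).trans (min_le_left _ _)) 2)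
  have hx3 : nsq x < r₃ ^ 2 := h3.trans_le (pow_le_pow_left₀ hr'0.le
    ((min_le_right _ _).trans (min_le_right _ _)) 2)
  have hxr : nsq x < r ^ 2 := hx1'.trans_le (pow_le_pow_left₀ hr₁0.le hr₁r.le 2)
  have hone := hE.one x h1 h2 hxr
  have hlog : 0 ≤ Real.log (A - u x) := Real.log_nonneg hone
  have hu1 := hup x h1 h2 hx2
  have hl1 := hlgh x hx3 h1 h2
  have hv := hC₁ x h1 h2 hx1
  -- each logarithm
  have hph : ∀ l, - Real.log (- phq q s l x) ≥ -(Real.log B₁ + Real.log (A - u x)) := by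
    intro l
    have h4 := hQ3 x h1 h2 hx1' l
    have h5 := hQ1.le x h1 h2 hx1' l
    have hxn := norm_pos_iff.2 h2
    have h6 : Real.log c + N * Real.log ‖x‖ ≤ phq q s l x := by
      have := Real.log_le_log (by positivity) h4
      rw [Real.log_mul hc.ne' (by positivity), Real.log_pow] at this
      exact this
    -- `- log ‖x‖` in terms of `u`
    have h7 : - Real.log ‖x‖ ≤ (|K| + k * (|C₂| + |A| + 1)) * (A - u x) := by
      have a1 : (k : ℝ) * u x ≤ lgh g h x + k * C₂ := by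
        have := mul_le_mul_of_nonneg_left hu1 hk0.le
        have e : (k : ℝ) * (1 / (k : ℝ) * lgh g h x + C₂) = lgh g h x + k * C₂ := by
          field_simp
        linarith
      have a2 : -(2 * Real.log ‖x‖) ≤ K + k * C₂ - k * u x := by linarith
      have a3 : K ≤ |K| := le_abs_self K
      have a4 : (k : ℝ) * C₂ ≤ k * |C₂| := mul_le_mul_of_nonneg_left (le_abs_self _) hk0.le
      have a5 : -(A) ≤ |A| := neg_le_abs A
      have a6 : 0 ≤ |K| + k * (|C₂| + |A| + 1) := by positivity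
      have a7 : K + k * C₂ - k * u x ≤ (|K| + k * (|C₂| + |A| + 1)) * (A - u x) := by
        have b1 : K + k * C₂ - k * u x = K + k * C₂ - k * A + k * (A - u x) := by ring
        have b2 : K + k * C₂ - k * A ≤ |K| + k * |C₂| + k * |A| := by
          have := mul_le_mul_of_nonneg_left a5 hk0.le
          linarith
        have b3 : |K| + k * |C₂| + k * |A| ≤ (|K| + k * |C₂| + k * |A|) * (A - u x) :=
          le_mul_of_one_le_right (by positivity) hone
        calc K + k * C₂ - k * u x ≤ (|K| + k * |C₂| + k * |A|) * (A - u x) + k * (A - u x) := by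
              linarith
          _ = _ := by ring
      have a8 : 0 ≤ (|K| + k * (|C₂| + |A| + 1)) * (A - u x) := mul_nonneg a6 (by linarith)
      linarith
    have h8 : - phq q s l x ≤ B₁ * (A - u x) := by
      have a1 : -(Real.log c) ≤ |Real.log c| := neg_le_abs _
      have a2 : (N : ℝ) * (- Real.log ‖x‖) ≤ N * ((|K| + k * (|C₂| + |A| + 1)) * (A - u x)) :=
        mul_le_mul_of_nonneg_left h7 (Nat.cast_nonneg N)
      have a3 : |Real.log c| ≤ |Real.log c| * (A - u x) :=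
        le_mul_of_one_le_right (abs_nonneg _) hone
      calc - phq q s l x ≤ -(Real.log c) + N * (- Real.log ‖x‖) := by linarith
        _ ≤ |Real.log c| * (A - u x) + N * ((|K| + k * (|C₂| + |A| + 1)) * (A - u x)) := by
            linarith
        _ ≤ B₁ * (A - u x) := by
            have e : B₁ * (A - u x) = (A - u x) + (|Real.log c| * (A - u x) +
                N * ((|K| + k * (|C₂| + |A| + 1)) * (A - u x))) := by
              rw [hB₁]
              ring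
            rw [e]
            linarith
    have h9 := Real.log_le_log (by linarith : 0 < - phq q s l x) h8
    rw [Real.log_mul (by linarith) (by linarith)] at h9
    linarith
  have hsum : ∑ l, 4 * (- Real.log (- phq q s l x)) ≥
      -(4 * L * (Real.log B₁ + Real.log (A - u x))) := by
    have h4 : ∑ _l : Fin L, -(4 * (Real.log B₁ + Real.log (A - u x))) ≤
        ∑ l, 4 * (- Real.log (- phq q s l x)) :=
      Finset.sum_le_sum fun l _ => by linarith [hph l]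
    rw [Finset.sum_const, Finset.card_univ, Fintype.card_fin, nsmul_eq_mul] at h4
    linarith
  have hvq : vq k g h q s x = 1 / (k : ℝ) * lgh g h x +
      ∑ l, 4 * (- Real.log (- phq q s l x)) := rfl
  have hLn : (0 : ℝ) ≤ L := Nat.cast_nonneg L
  have hlow : 1 / (k : ℝ) * lgh g h x - u x ≤ B * (1 + Real.log (A - u x)) := by
    have h4 : 1 / (k : ℝ) * lgh g h x - u x ≤
        C₁ + 4 * L * (Real.log B₁ + Real.log (A - u x)) := by linarith
    have h5 : C₁ ≤ |C₁| := le_abs_self _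
    have h6 : 0 ≤ |C₂| := abs_nonneg _
    have h7 : 0 ≤ |C₁| := abs_nonneg _
    set y := Real.log (A - u x) with hy
    set b := Real.log B₁ with hb
    have h8 : 0 ≤ 4 * (L : ℝ) * b * y := by positivity
    have h9 : 0 ≤ |C₁| * y := by positivity
    have h10 : 0 ≤ |C₂| * y := by positivity
    have h11 : B * (1 + y) = |C₁| + |C₁| * y + |C₂| + |C₂| * y + 4 * L * (b + y) +
        4 * (L : ℝ) * b * y + 4 * L + 1 + y := by
      rw [hB]
      ring
    rw [h11]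
    linarith
  have hupp : u x - 1 / (k : ℝ) * lgh g h x ≤ B * (1 + Real.log (A - u x)) := by
    have h4 : u x - 1 / (k : ℝ) * lgh g h x ≤ |C₂| := by linarith [le_abs_self C₂]
    have h5 : |C₂| ≤ B := by
      rw [hB]
      have : 0 ≤ |C₁| + 4 * L * (Real.log B₁ + 1) := by positivity
      linarith
    have h6 : B ≤ B * (1 + Real.log (A - u x)) := le_mul_of_one_le_right hB0.le (by linarith)
    linarith
  rw [abs_le]
  constructor
  · linarith
  · exact hupp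

end

end Crest.Agent.R257.PairK_39
end

-- ▼ part R257/PairK5_39
section

/-!
# Row 257 (S0395), PAIR-K (helper39), part 5: gradient bounds from the two-sided estimate

* `UpB.weight` : change of the weight
* `upb_of_two` : `UpB` with the weight `k u` from `TwoS`
* `XUof`       : `XLStmt → XUStmt`
* `up1_of_xl`  : `XLStmt → Up1Stmt`
-/

set_option autoImplicit false
set_option linter.unusedSectionVars false

open Set Filter Topology Complex MeasureTheory
open scoped ContDiff ComplexConjugate Matrix ComplexOrder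

namespace Crest.Agent.R257.PairK_39

open Crest.Agent.R275.Geo
open Crest.Agent.R273
open Crest.Agent.R273.YauDefs_635 (cH lev333_eq_lev145 inC)
open Crest.Agent.R257.PN_835 (nsq)
open Crest.Agent.R257.Aff_835 (eta2a)
open Crest.Agent.R257.Defs_219 Crest.Agent.R257.KED_952 Crest.Agent.R257.KEG_952
open Crest.Agent.R257.KEU_952
open Crest.Agent.R257.V1Defs_822 (SmL LvlOK lgh XUStmt)
open Crest.Agent.R257.CLogD_39
open Crest.Agent.R257.Esc_537 (zero_of_col)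

noncomputable section

variable {f : E3 → ℂ} {r : ℝ} {L : ℕ} {q : Fin L → E3 → ℂ} {s : Fin L → ℕ} {g h : E3 → ℂ}
  {u : E3 → ℝ} {A : ℝ}

/-- change of the weight -/
theorem UpB.weight (hK : KEon f 0 r u) {φ φ' : E3 → ℝ} {N : ℕ} {h : E3 → ℂ} (hA0 : 0 ≤ A)
    (hU : UpB f r u A N φ h) {c : ℝ}
    (hφ : ∀ x, f x = 0 → x ≠ 0 → nsq x < r ^ 2 → φ x ≤ φ' x + c)
    (h1 : ∀ x, f x = 0 → x ≠ 0 → nsq x < r ^ 2 → 1 ≤ A - u x) :
    ∃ A' : ℝ, A ≤ A' ∧ UpB f r u A' N φ' h := by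
  refine ⟨max A (A * Real.exp c), le_max_left _ _, fun θ O hP z hz v => ?_⟩
  refine (hU θ O hP z hz v).trans ?_
  have h2 := hφ _ (hP.par.lvl z hz) (hP.ne z hz) (hP.lt z hz)
  have h3 := h1 _ (hP.par.lvl z hz) (hP.ne z hz) (hP.lt z hz)
  have h4 := lev_nn hK hP hz v
  set A' := max A (A * Real.exp c) with hA'
  have h5 : (A - u (θ z)) ^ N ≤ (A' - u (θ z)) ^ N :=
    pow_le_pow_left₀ (by linarith) (by linarith [le_max_left A (A * Real.exp c)]) _
  have h6 : 0 ≤ (A - u (θ z)) ^ N := pow_nonneg (by linarith) _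
  have h7 : Real.exp (φ (θ z)) ≤ Real.exp (φ' (θ z)) * Real.exp c := by
    rw [← Real.exp_add]
    exact Real.exp_le_exp.2 h2
  have h10 : 0 ≤ (A' - u (θ z)) ^ N := h6.trans h5
  calc A * (A - u (θ z)) ^ N * Real.exp (φ (θ z)) * Defs_333.lev (fun z => u (θ z)) z v
      ≤ A * (A' - u (θ z)) ^ N * (Real.exp (φ' (θ z)) * Real.exp c) *
        Defs_333.lev (fun z => u (θ z)) z v := by gcongr
    _ = (A * Real.exp c) * (A' - u (θ z)) ^ N * Real.exp (φ' (θ z)) *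
        Defs_333.lev (fun z => u (θ z)) z v := by ring
    _ ≤ A' * (A' - u (θ z)) ^ N * Real.exp (φ' (θ z)) *
        Defs_333.lev (fun z => u (θ z)) z v := by
      have h8 : 0 ≤ (A' - u (θ z)) ^ N := h6.trans h5
      have h9 : A * Real.exp c ≤ A' := le_max_right _ _
      gcongr

/-- `|g|² ≤ C e^{k u} (A - u)^m` -/
theorem sq_le_of_two {k : ℕ} (hk : 2 ≤ k) {B : ℝ} (hT : TwoS f r u A k g h B)
    (h1 : ∀ x, f x = 0 → x ≠ 0 → nsq x < r ^ 2 → 1 ≤ A - u x) :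
    ∃ (C : ℝ) (m : ℕ), 0 < C ∧ ∀ x, f x = 0 → x ≠ 0 → nsq x < r ^ 2 →
      ‖g x‖ ^ 2 + ‖h x‖ ^ 2 ≤ C * (Real.exp (k * u x) * (A - u x) ^ m) := by
  have hk0 : (0 : ℝ) < k := by exact_mod_cast (by omega : 0 < k)
  refine ⟨Real.exp (k * B), ⌈k * B⌉₊, Real.exp_pos _, fun x h2 h3 h4 => ?_⟩
  have h5 := h1 x h2 h3 h4
  have hlog : 0 ≤ Real.log (A - u x) := Real.log_nonneg h5
  have hpos : 0 < A - u x := by linarith
  rcases (by positivity : 0 ≤ ‖g x‖ ^ 2 + ‖h x‖ ^ 2).eq_or_lt with h0 | h0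
  · rw [← h0]
    positivity
  have h6 := (abs_le.1 (hT x h2 h3 h4)).1
  have h7 : lgh g h x ≤ k * B + (k * u x + k * B * Real.log (A - u x)) := by
    have h8 : 1 / (k : ℝ) * lgh g h x ≤ u x + B * (1 + Real.log (A - u x)) := by linarith
    have h9 := mul_le_mul_of_nonneg_left h8 hk0.le
    have e : (k : ℝ) * (1 / (k : ℝ) * lgh g h x) = lgh g h x := by field_simp
    rw [e] at h9
    linarith
  have h8 : k * B * Real.log (A - u x) ≤ (⌈k * B⌉₊ : ℝ) * Real.log (A - u x) :=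
    mul_le_mul_of_nonneg_right (Nat.le_ceil _) hlog
  have h9 : Real.exp ((⌈k * B⌉₊ : ℝ) * Real.log (A - u x)) = (A - u x) ^ ⌈k * B⌉₊ := by
    rw [← Real.log_pow, Real.exp_log (pow_pos hpos _)]
  calc ‖g x‖ ^ 2 + ‖h x‖ ^ 2 = Real.exp (lgh g h x) := by
        unfold lgh
        rw [Real.exp_log h0]
    _ ≤ Real.exp (k * B + (k * u x + (⌈k * B⌉₊ : ℝ) * Real.log (A - u x))) :=
        Real.exp_le_exp.2 (by linarith)
    _ = _ := by rw [Real.exp_add, Real.exp_add, h9]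

/-- **upper gradient bound** -/
theorem upb_of_two {k : ℕ} (hk : 2 ≤ k) {B : ℝ} (hf : LvlOK f 0 r)
    (hK : KEon f 0 r u) (hE : Esc f r u A) (hT : TwoS f r u A k g h B)
    (hg : ∀ x, nsq x < r ^ 2 → AnalyticAt ℂ g x) {ρ : ℝ} (h0 : 0 < ρ) (hρ : ρ < r) :
    ∃ (A' : ℝ) (N : ℕ), A ≤ A' ∧ UpB f ρ u A' N (fun x => k * u x) g := by
  obtain ⟨C, m, hC, h1⟩ := sq_le_of_two hk hT hE.one
  obtain ⟨A', hA', h2⟩ := gmK_UpB (C := C) (a := k) (m := m) hf hK hE h0 hρ
    (fun x _ hx => (hg x hx).differentiableAt) (fun x m1 m2 m3 => by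
      have h3 := h1 x m1 m2 (lt_of_le_of_lt m3 (pow_lt_pow_left₀ hρ h0.le two_ne_zero))
      have : 0 ≤ ‖h x‖ ^ 2 := by positivity
      linarith)
  exact ⟨A', m + 2, hA', h2⟩

/-- `XLStmt` implies `XUStmt` -/
theorem XUof (xl : XLStmt) : XUStmt := by
  intro f hiso hm
  obtain ⟨k, g, h, L, q, s, hX, hju, -⟩ := xl f hiso hm
  exact ⟨k, g, h, hX.two, hX.g_an, hX.h_an, hX.fin, hX.num, hju⟩

/-- values at `0` of an exact pair -/
theorem xpr_zero {k : ℕ} (hiso : Iso f) (hm : 0 < mstar f) (hX : XPr f k g h) :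
    g 0 = 0 ∧ h 0 = 0 := by
  have hcol0 : col ![f, g, h] ≠ 0 := by
    intro h0
    have hcol := hX.num
    rw [h0] at hcol
    have hk0 : (0 : ℝ) < (k : ℝ) ^ 2 := by
      have : (0 : ℝ) < k := by exact_mod_cast (by have := hX.two; omega : 0 < k)
      positivity
    have h2 : 0 < (k : ℝ) ^ 2 * mstar f := mul_pos hk0 hm
    rw [← hcol] at h2
    simp at h2
  have hG : ∀ j : Fin 3, AnalyticAt ℂ ((![f, g, h] : Fin 3 → E3 → ℂ) j) 0 := by
    intro j
    fin_cases j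
    · exact hiso.an
    · exact hX.g_an
    · exact hX.h_an
  exact ⟨zero_of_col hG hcol0 1, zero_of_col hG hcol0 2⟩

/-- **everything about the weight of an exact pair with C-LOG**: radius, `Esc`, two-sided estimate -/
theorem two_of_xl {Φ : E3 × PP → ℂ} {τ₀ : PP} {l : Filter PP} {r C : ℝ} {w : PP → E3 → ℝ}
    {u : E3 → ℝ} (hD : SmD Φ τ₀ l r C w u) {f : E3 → ℂ} (hf : f = (fun x => Φ (x, τ₀)))
    (hm : 0 < mstar f) {k : ℕ} {g h : E3 → ℂ} (hX : XPr f k g h)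
    (hju : ∃ C r : ℝ, 0 < r ∧ ∀ x, ‖x‖ < r → f x = 0 →
      ‖Dt f g h x‖ ^ 2 ≤ C * (‖g x‖ ^ 2 + ‖h x‖ ^ 2) ^ (2 + 1 / (k : ℝ)))
    (hC : CLog f g h k q s) (esc : EscStmt) :
    ∃ r' A B : ℝ, 0 < r' ∧ r' < r ∧ 0 < B ∧ LvlOK f 0 r' ∧ KEon f 0 r' u ∧ Esc f r' u A ∧
      TwoS f r' u A k g h B ∧ (∀ x, nsq x < r' ^ 2 → AnalyticAt ℂ g x ∧ AnalyticAt ℂ h x ∧
        ∀ l, AnalyticAt ℂ (q l) x) ∧ QOK f r' g h q s := by
  have hiso : Iso f := by rw [hf]; exact hD.iso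
  have hr := hD.r_pos
  obtain ⟨hg0, hh0⟩ := xpr_zero hiso hm hX
  have han : ∀ x, nsq x < r ^ 2 → AnalyticAt ℂ f x := by
    intro x hx
    rw [hf]
    exact (hD.an x hx.le).comp₂ analyticAt_id analyticAt_const
  have hsm : ∀ x, x ≠ 0 → nsq x < r ^ 2 → f x = 0 → fderiv ℂ f x ≠ 0 := by
    intro x h1 h2 h3
    rw [hf] at h3 ⊢
    exact hD.sm0 x h1 h2.le h3
  have hL : LvlOK f 0 r := ⟨hr, han, hsm⟩
  have hK : KEon f 0 r u := by rw [hf]; exact hD.ke0.1
  obtain ⟨r₁, A, hr₁, hr₁r, hE⟩ := esc Φ τ₀ l r C w u hD f hf hm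
  obtain ⟨ν, hν⟩ := KedM_941.nuStmt f 0 r hr han hsm
  obtain ⟨χ, hχ⟩ := SkelV_952.exists_cut hr
  have hvol := Vol_397.volStmt Φ τ₀ l r C w u hD f hf χ hχ ν hν
  have hup := UpK_938.upStmt f r u ν χ k g h hiso hL hK hν hχ hvol hX.two hX.g_an hX.h_an hg0
    hh0 hX.fin hju
  have hL₁ := UpK_938.LvlOK.mono hL hr₁ hr₁r.le
  have hK₁ := KEon.mono' hK hr₁.le hr₁r.le
  obtain ⟨r₂, B, hr₂, hr₂₁, hB, hT⟩ := twoS hX.two hiso.an hL₁ hK₁ hE hX.g_an hX.h_an hg0 hh0
    hX.fin hC hup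
  obtain ⟨r₀, c, N, hr₀, hc, hQ⟩ := exists_QOK hiso.an hX.g_an hX.h_an hX.fin hC
  set r' : ℝ := min r₂ r₀ with hr'
  have hr'0 : 0 < r' := lt_min hr₂ hr₀
  have hr'2 : r' ≤ r₂ := min_le_left _ _
  have hr'1 : r' ≤ r₁ := hr'2.trans hr₂₁.le
  have hQ' := (hQ r' hr'0 (min_le_right _ _)).1
  refine ⟨r', A, B, hr'0, by linarith, hB, UpK_938.LvlOK.mono hL₁ hr'0 hr'1,
    KEon.mono' hK₁ hr'0.le hr'1, Esc.mono' hE hr'0.le hr'1, fun x h1 h2 h3 => hT x h1 h2
      (h3.trans_le (pow_le_pow_left₀ hr'0.le hr'2 2)), fun x hx => ⟨hQ'.ang x hx, hQ'.anh x hx,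
        fun l => hQ'.anq l x hx⟩, hQ'⟩

theorem escOf (xl : XLStmt) : EscStmt :=
  Esc_537.esc_of KedM_941.nuStmt (XUof xl) UpK_938.upStmt Vol_397.volStmt

/-- **`Up1Stmt` from C-LOG** -/
theorem up1_of_xl (xl : XLStmt) : Up1Stmt := by
  intro Φ τ₀ l r C w u hD f hf hm
  have hiso : Iso f := by rw [hf]; exact hD.iso
  obtain ⟨k, g, h, L, q, s, hX, hju, hC⟩ := xl f hiso hm
  obtain ⟨r', A, B, hr', hr'r, hB, hL, hK, hE, hT, han, -⟩ :=
    two_of_xl hD hf hm hX hju hC (escOf xl)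
  refine ⟨k, g, h, hX, fun κ hκ hκk => ?_⟩
  obtain ⟨A', N, hA', hU⟩ := upb_of_two hX.two hL hK hE hT (fun x hx => (han x hx).1)
    (ρ := r' / 2) (by positivity) (by linarith)
  have hr2 : (r' / 2) ≤ r' := by linarith
  have hK2 := KEon.mono' hK (by positivity : 0 ≤ r' / 2) hr2
  have hE2 := Esc.mono' hE (by positivity : 0 ≤ r' / 2) hr2
  have h1 : ∀ x, f x = 0 → x ≠ 0 → nsq x < (r' / 2) ^ 2 → 1 ≤ A' - u x := fun x m1 m2 m3 => by
    have := hE2.one x m1 m2 m3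
    linarith
  have hA'0 : 0 < A' := hE.pos.trans_le hA'
  obtain ⟨A₂, hA₂, hU₂⟩ := UpB.weight (φ' := fun x => κ * u x) (c := (k - κ) * A') hK2 hA'0.le hU
    (fun x m1 m2 m3 => by
      have h2 := h1 x m1 m2 m3
      have h3 : (k - κ) * u x ≤ (k - κ) * A' :=
        mul_le_mul_of_nonneg_left (by linarith) (by linarith)
      linarith) h1
  refine ⟨r' / 2, A₂, N, by positivity, by linarith, by linarith, fun x m1 m2 m3 => ?_, hU₂⟩
  have := h1 x m1 m2 m3
  linarith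

end

end Crest.Agent.R257.PairK_39
end

-- ▼ part R257/Cne1_812
section

/-!
Row 257 (S0395), leaf CNE (helper812), part 1: if the zero set of `G` in the ball is the origin,
the local ring `O_n/(G)` has dimension at least `N = dim S` (algebra data of helper889).
-/

set_option autoImplicit false
set_option linter.unusedSectionVars false

open Set Filter Topology
open Crest.Agent.R275.Loc2879
open Crest.Agent.R257.Fin554 Crest.Agent.R257.Uni554
open Crest.Agent.R257.Cnm3_889 Crest.Agent.R257.Cnm4_889 Crest.Agent.R257.Tay_812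

noncomputable section

namespace Crest.Agent.R257.Cne_812

variable {n : ℕ}

lemma an_wd (w : List (Fin n)) (p : Fin n → ℂ) : AnalyticAt ℂ (fun x : Fin n → ℂ => wd w x) p := by
  induction w with
  | nil => simpa using analyticAt_const
  | cons k w ih =>
    have : (fun x : Fin n → ℂ => wd (k :: w) x) = fun x => x k * wd w x := by
      funext x; rw [wd_cons]
    rw [this]
    exact (analyticAt_coord' k p).mul ih

lemma wd_Xo (w : List (Fin n)) : wd w Xo = gm (fun x : Fin n → ℂ => wd w x) (an_wd w 0) := by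
  induction w with
  | nil => rfl
  | cons k w ih =>
    rw [wd_cons, ih, Xo, gm_mul, gm_eq_gm]
    exact Eventually.of_forall fun x => by simp

variable {N : ℕ} {ι : Type} [Fintype ι] {S : Type} [CommRing S] [Algebra ℂ S]

theorem finrank_ge (d : Dat n N ι S) (hZ : d.Z ⊆ {0})
    (hG : ∀ j, AnalyticAt ℂ (d.G j) 0) (hR : ∀ j k, AnalyticAt ℂ (d.R j k) 0)
    (ha : ∀ j k j', AnalyticAt ℂ (d.a j k j') 0)
    (hfin : Module.Finite ℂ (On n ⧸ Ideal.span (range fun j => gm (d.G j) (hG j)))) :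
    N ≤ Module.finrank ℂ (On n ⧸ Ideal.span (range fun j => gm (d.G j) (hG j))) := by
  have hS : Module.Finite ℂ S := Module.Finite.of_basis d.b
  have hnil : ∀ k, IsNilpotent (d.m k) := by
    intro k
    refine isNilpotent_of_chars fun χ => ?_
    have h1 := hZ (d.chi_mem χ)
    exact congrFun (mem_singleton_iff.1 h1) k
  obtain ⟨K, hK⟩ := exists_pow_eq_bot hnil
  have hr : 0 < d.r := d.hε0.trans_le d.hεr
  have hball : ∀ᶠ x in 𝓝 (0 : Fin n → ℂ), ‖x‖ < d.r := by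
    have : Tendsto (fun x : Fin n → ℂ => ‖x‖) (𝓝 0) (𝓝 0) := by
      simpa using (continuous_norm (E := Fin n → ℂ)).tendsto 0
    exact this.eventually (gt_mem_nhds hr)
  have e1 : ∀ j, gm (d.G j) (hG j) = algebraMap ℂ (On n) (d.g j) +
      ∑ k, Xo k * gm (d.R j k) (hR j k) := by
    intro j
    obtain ⟨h', h2⟩ := gm_sum (p := (0 : Fin n → ℂ)) Finset.univ (fun k x => x k * d.R j k x)
      (fun k => (analyticAt_coord' k 0).mul (hR j k))
    have h3 : (∑ k, Xo k * gm (d.R j k) (hR j k) : On n) = gm _ h' := by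
      rw [← h2]
      exact Finset.sum_congr rfl fun k _ => by rw [Xo, gm_mul]; rfl
    rw [h3, Crest.Agent.R275.Loc2879.algebraMap_apply, gm_add, gm_eq_gm]
    filter_upwards [hball] with x hx
    exact d.D3 x hx j
  have e2 : ∀ j k, gm (d.R j k) (hR j k) = ∑ l, algebraMap ℂ (On n) (d.ρ j k l) * wd (d.w l) Xo +
      ∑ j', gm (d.a j k j') (ha j k j') * gm (d.G j') (hG j') := by
    intro j k
    obtain ⟨h', h2⟩ := gm_sum (p := (0 : Fin n → ℂ)) Finset.univ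
      (fun l x => d.ρ j k l * wd (d.w l) x) (fun l => analyticAt_const.mul (an_wd _ 0))
    obtain ⟨h'', h3⟩ := gm_sum (p := (0 : Fin n → ℂ)) Finset.univ
      (fun j' x => d.a j k j' x * d.G j' x) (fun j' => (ha j k j').mul (hG j'))
    have h4 : (∑ l, algebraMap ℂ (On n) (d.ρ j k l) * wd (d.w l) Xo : On n) = gm _ h' := by
      rw [← h2]
      exact Finset.sum_congr rfl fun k _ => by
        rw [wd_Xo, Crest.Agent.R275.Loc2879.algebraMap_apply, gm_mul]; rfl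
    have h5 : (∑ j', gm (d.a j k j') (ha j k j') * gm (d.G j') (hG j') : On n) = gm _ h'' := by
      rw [← h3]
      exact Finset.sum_congr rfl fun k _ => by rw [gm_mul]; rfl
    rw [h4, h5, gm_add, gm_eq_gm]
    filter_upwards [hball] with x hx
    exact d.D4 x hx j k
  set ev := evm d.m K hK with hev
  have e3 : ∀ j, ev (gm (d.G j) (hG j)) =
      ∑ k, d.m k * ∑ j', ev (gm (d.a j k j') (ha j k j')) * ev (gm (d.G j') (hG j')) := by
    intro j
    have h1 := congrArg ev (e1 j)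
    rw [map_add, map_sum, AlgHom.commutes] at h1
    have h2 : ∀ k, ev (Xo k * gm (d.R j k) (hR j k)) = d.m k * ∑ l, d.ρ j k l • d.b l +
        d.m k * ∑ j', ev (gm (d.a j k j') (ha j k j')) * ev (gm (d.G j') (hG j')) := by
      intro k
      rw [map_mul, hev, evm_Xo, ← hev, e2 j k, map_add, map_sum, map_sum, mul_add]
      congr 2
      · refine Finset.sum_congr rfl fun l _ => ?_
        rw [map_mul, AlgHom.commutes, hev, evm_wd, ← d.hb, Algebra.smul_def]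
      · exact Finset.sum_congr rfl fun l _ => by rw [map_mul]
    simp only [h2] at h1
    rw [Finset.sum_add_distrib] at h1
    have h3 := d.S1 j
    rw [Algebra.smul_def, mul_one] at h3
    rw [h1, ← add_assoc, h3, zero_add]
  have e4 : ∀ r : ℕ, ∀ j, ev (gm (d.G j) (hG j)) ∈ Ideal.span (range d.m) ^ r := by
    intro r
    induction r with
    | zero => intro j; simp
    | succ r ih =>
      intro j
      rw [e3 j, pow_succ']
      refine Ideal.sum_mem _ fun k _ => ?_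
      exact Ideal.mul_mem_mul (Ideal.subset_span (mem_range_self k))
        (Ideal.sum_mem _ fun j' _ => Ideal.mul_mem_left _ _ (ih j'))
  have e5 : ∀ j, ev (gm (d.G j) (hG j)) = 0 := by
    intro j
    have := e4 K j
    rwa [hK, Ideal.mem_bot] at this
  have e6 : ∀ b ∈ Ideal.span (range fun j => gm (d.G j) (hG j)), ev b = 0 := by
    intro b hb
    have h1 : Ideal.span (range fun j => gm (d.G j) (hG j)) ≤ RingHom.ker (ev : On n →+* S) := by
      rw [Ideal.span_le]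
      rintro _ ⟨j, rfl⟩
      exact e5 j
    exact h1 hb
  let L : (On n ⧸ Ideal.span (range fun j => gm (d.G j) (hG j))) →ₐ[ℂ] S :=
    Ideal.Quotient.liftₐ _ ev e6
  have hL : Function.Surjective L := by
    intro s
    have h1 : s ∈ LinearMap.range L.toLinearMap := by
      rw [← d.b.sum_repr s]
      refine Submodule.sum_mem _ fun l _ => Submodule.smul_mem _ _ ?_
      refine ⟨Ideal.Quotient.mk _ (wd (d.w l) Xo), ?_⟩
      rw [AlgHom.toLinearMap_apply]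
      show ev (wd (d.w l) Xo) = _
      rw [hev, evm_wd, d.hb]
    exact h1
  have h7 := LinearMap.finrank_le_finrank_of_surjective (f := L.toLinearMap) hL
  rwa [Module.finrank_eq_card_basis d.b, Fintype.card_fin] at h7

end Crest.Agent.R257.Cne_812
end
end

-- ▼ part R257/Par1_142
section

/-!
Row 257 (S0395), task JU-DOM (helper142), part 1: families of germs of functions on `ℂⁿ` with
SEVERAL parameters `t ∈ ℂᵏ`: data at `t = 0`, upper semicontinuity of `col`, uniform inclusion when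
`col` is constant, zeros only at `x = 0`.  (One parameter: helper554, helper939; same proof.)
-/

set_option autoImplicit false
set_option linter.unusedSectionVars false

open Set Filter Topology Metric Complex
open Crest.Agent.R275.Loc2879
open Crest.Agent.R257.Defs_219
open Crest.Agent.R257.Fin554 (FinOver mM QF FinProp sndR finProp_sndR)
open Crest.Agent.R257.UI939 (BB Idl mem_Idl gz gz_eq xB xB_not_unit JJ mon JJ_le_of_finrank
  hadamard span_of_rel finite_of_span exists_sum_gm' gm_mon an_coord gz_mon)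

noncomputable section

namespace Crest.Agent.R257.Par142

variable {n k : ℕ}

/-- `ℂⁿ × ℂᵏ` -/
abbrev PP (n k : ℕ) : Type := (Fin n → ℂ) × (Fin k → ℂ)

/-- germs on `ℂⁿ × ℂᵏ` -/
abbrev AA (n k : ℕ) : Type := OO (((0 : Fin n → ℂ), (0 : Fin k → ℂ)))

/-- functions of `x` -/
def ll (n k : ℕ) : BB n →+* AA n k := pull Prod.fst analyticAt_fst rfl

/-- restriction to `t = 0` -/
def rr (n k : ℕ) : AA n k →+* BB n :=
  pull (fun x : Fin n → ℂ => ((x, 0) : PP n k)) (analyticAt_id.prod analyticAt_const) rfl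

/-- the coordinates of the parameter space -/
def Tc (l : Fin k) : OO (0 : Fin k → ℂ) := gm (fun y => y l) (an_coord l 0)

lemma rr_ll (a : BB n) : rr n k (ll n k a) = a := by
  obtain ⟨f, hf, rfl⟩ := exists_gm a
  rfl

lemma rr_surj : Function.Surjective (rr n k) := fun x => ⟨ll n k x, rr_ll x⟩

lemma rr_sndR (a : OO (0 : Fin k → ℂ)) :
    rr n k (sndR n 0 a) = algebraMap ℂ _ (evp 0 a) := by
  obtain ⟨f, hf, rfl⟩ := exists_gm a
  rfl

lemma Tc_mem (l : Fin k) : Tc l ∈ IsLocalRing.maximalIdeal (OO (0 : Fin k → ℂ)) := by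
  rw [IsLocalRing.mem_maximalIdeal, mem_nonunits_iff, Tc, isUnit_gm]
  simp

/-- Hadamard in the parameters -/
theorem had_par (b : AA n k) : ∃ q : Fin k → AA n k,
    b = ll n k (rr n k b) + ∑ l, sndR n 0 (Tc l) * q l := by
  -- swap the factors
  let sw : AA n k →+* OO (((0 : Fin k → ℂ), (0 : Fin n → ℂ))) :=
    pull (fun p : (Fin k → ℂ) × (Fin n → ℂ) => ((p.2, p.1) : PP n k))
      (analyticAt_snd.prod analyticAt_fst) rfl
  let ws : OO (((0 : Fin k → ℂ), (0 : Fin n → ℂ))) →+* AA n k :=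
    pull (fun p : PP n k => ((p.2, p.1) : (Fin k → ℂ) × (Fin n → ℂ)))
      (analyticAt_snd.prod analyticAt_fst) rfl
  have hws : ∀ a, ws (sw a) = a := by
    intro a
    obtain ⟨f, hf, rfl⟩ := exists_gm a
    rfl
  obtain ⟨c, q, h⟩ := Uni554.hadG (0 : Fin n → ℂ) k (sw b)
  have h1 := congrArg ws h
  rw [hws, map_add, map_sum] at h1
  simp only [map_mul] at h1
  have h2 : ws (sndR k 0 c) = ll n k c := by
    obtain ⟨f, hf, rfl⟩ := exists_gm c
    rfl
  have h3 : ∀ l : Fin k, ws (Uni554.Xc k (0 : Fin n → ℂ) l) = sndR n 0 (Tc l) := fun l => rfl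
  have h4 : rr n k b = c := by
    rw [h1, map_add, h2, rr_ll, map_sum]
    have : ∀ l : Fin k, rr n k (ws (Uni554.Xc k (0 : Fin n → ℂ) l) * ws (q l)) = 0 := by
      intro l
      rw [map_mul, h3, rr_sndR, Tc, evp_gm]
      simp
    simp [this]
  refine ⟨fun l => ws (q l), ?_⟩
  rw [h4, ← h2]
  simp only [← h3]
  exact h1

/-- Nakayama's lemma for `B/I` over `A` -/
theorem nak {A B : Type*} [CommRing A] [IsLocalRing A] [CommRing B] (φ : A →+* B) (I : Ideal B)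
    (hF : FinOver φ (B ⧸ I)) {μ : ℕ} (e : Fin μ → B)
    (h : ∀ b : B, ∃ (c : Fin μ → A) (i : B) (a : Fin k → A) (q : Fin k → B), i ∈ I ∧
      (∀ l, a l ∈ IsLocalRing.maximalIdeal A) ∧
        b = ∑ j, φ (c j) * e j + (i + ∑ l, φ (a l) * q l)) :
    ∀ b : B, ∃ c : Fin μ → A, b - ∑ j, φ (c j) * e j ∈ I := by
  let _ : Module A (B ⧸ I) := Module.compHom (B ⧸ I) φ
  let N : Submodule A (B ⧸ I) := Submodule.span _ (range fun j => Ideal.Quotient.mk I (e j))
  have hfg : (⊤ : Submodule A (B ⧸ I)).FG := by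
    classical
    obtain ⟨m, e, he⟩ := hF
    refine ⟨Finset.univ.image e, ?_⟩
    rw [eq_top_iff]
    intro x _
    obtain ⟨c, hc⟩ := he x
    rw [hc]
    refine Submodule.sum_mem _ (fun i _ => ?_)
    exact Submodule.smul_mem _ (c i) (Submodule.subset_span (by simp))
  have hN : (⊤ : Submodule A (B ⧸ I)) ≤ N := by
    refine Submodule.le_of_le_smul_of_le_jacobson_bot (I := IsLocalRing.maximalIdeal A)
      hfg (IsLocalRing.maximalIdeal_le_jacobson _) ?_
    intro x _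
    obtain ⟨b, rfl⟩ := Ideal.Quotient.mk_surjective x
    obtain ⟨c, i, a, q, hi, ha, hb⟩ := h b
    have h3 : Ideal.Quotient.mk I b = (∑ j, (c j) • Ideal.Quotient.mk I (e j)) +
        ∑ l, a l • Ideal.Quotient.mk I (q l) := by
      rw [hb, map_add, map_add, Ideal.Quotient.eq_zero_iff_mem.2 hi, zero_add, map_sum, map_sum]
      rfl
    rw [h3]
    refine Submodule.add_mem_sup ?_ (Submodule.sum_mem _ fun l _ =>
      Submodule.smul_mem_smul (ha l) trivial)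
    exact Submodule.sum_mem _ (fun j _ => Submodule.smul_mem _ _
      (Submodule.subset_span ⟨j, rfl⟩))
  intro b
  have h1 : Ideal.Quotient.mk I b ∈ N := hN trivial
  obtain ⟨c, hc⟩ := (Submodule.mem_span_range_iff_exists_fun _).1 h1
  refine ⟨c, ?_⟩
  rw [← Ideal.Quotient.eq, ← hc, map_sum]
  rfl

lemma rr_max {b : AA n k} {μ : ℕ} (hb : b ∈ (IsLocalRing.maximalIdeal (AA n k)) ^ μ) :
    rr n k b ∈ (IsLocalRing.maximalIdeal (BB n)) ^ μ := by
  have h3 : (IsLocalRing.maximalIdeal (AA n k)).map (rr n k) ≤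
      IsLocalRing.maximalIdeal (BB n) := by
    rw [Ideal.map_le_iff_le_comap]
    intro a ha
    rw [Ideal.mem_comap]
    rw [IsLocalRing.mem_maximalIdeal, mem_nonunits_iff] at ha ⊢
    intro h4
    apply ha
    obtain ⟨f, hf, rfl⟩ := exists_gm a
    rw [rr, pull_gm, isUnit_gm] at h4
    rw [isUnit_gm]
    exact h4
  have h4 : ((IsLocalRing.maximalIdeal (AA n k)) ^ μ).map (rr n k) ≤
      (IsLocalRing.maximalIdeal (BB n)) ^ μ := by
    rw [Ideal.map_pow]
    exact Ideal.pow_right_mono h3 μ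
  exact h4 (Ideal.mem_map_of_mem _ hb)

variable {κ : Type*} [Fintype κ]

lemma an_slice {f : PP n k → ℂ} {t : Fin k → ℂ} (hf : AnalyticAt ℂ f (0, t)) :
    AnalyticAt ℂ (fun x => f (x, t)) (0 : Fin n → ℂ) :=
  AnalyticAt.comp (g := f) (f := fun x : Fin n → ℂ => (x, t)) hf
      (analyticAt_id.prod analyticAt_const)

lemma tendsto_0t : Tendsto (fun t : Fin k → ℂ => ((0, t) : PP n k)) (𝓝 0) (𝓝 0) := by
  have : Continuous (fun t : Fin k → ℂ => ((0, t) : PP n k)) := by fun_prop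
  exact this.tendsto' _ _ rfl

/-- the quotient of the slice at `t` -/
abbrev QQ (G : κ → PP n k → ℂ) (t : Fin k → ℂ) : Type :=
  BB n ⧸ Idl (0 : Fin n → ℂ) (fun j x => G j (x, t))

/-- preparation: generators of `B/(G)` over the germs in `t` -/
theorem generators (G : κ → PP n k → ℂ) (hG : ∀ i, AnalyticAt ℂ (G i) 0) (μ : ℕ)
    (hfin : Module.Finite ℂ (QQ G 0)) (hrk : Module.finrank ℂ (QQ G 0) = μ) :
    ∃ e : Fin μ → BB n, ∀ b : AA n k, ∃ c : Fin μ → OO (0 : Fin k → ℂ),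
      b - ∑ j, sndR n 0 (c j) * ll n k (e j) ∈
        Ideal.span (range fun i => (gm (G i) (hG i) : AA n k)) := by
  set I : Ideal (AA n k) := Ideal.span (range fun i => (gm (G i) (hG i) : AA n k)) with hI
  set J : Ideal (BB n) := Idl (0 : Fin n → ℂ) (fun i x => G i (x, 0)) with hJ
  have hmap : I.map (rr n k) = J := by
    rw [hI, Ideal.map_span, hJ, Idl]
    congr 1
    rw [← range_comp]
    refine congrArg range (funext fun i => ?_)
    rw [gz_eq (an_slice (hG i))]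
    rfl
  have hker : ∀ b : AA n k, rr n k b = 0 → ∃ q : Fin k → AA n k,
      b = ∑ l, sndR n 0 (Tc l) * q l := by
    intro b hb
    obtain ⟨q, hq⟩ := had_par b
    exact ⟨q, by rw [hb, map_zero, zero_add] at hq; exact hq⟩
  have hrJ : ∀ b : AA n k, rr n k b ∈ J → ∃ i ∈ I, ∃ q : Fin k → AA n k,
      b = i + ∑ l, sndR n 0 (Tc l) * q l := by
    intro b hb
    rw [← hmap] at hb
    obtain ⟨i, hi, hib⟩ := (Ideal.mem_map_iff_of_surjective _ rr_surj).1 hb
    obtain ⟨q, hq⟩ := hker (b - i) (by rw [map_sub, hib, sub_self])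
    exact ⟨i, hi, q, by rw [← hq]; ring⟩
  -- finiteness
  have hF : FinOver (sndR n (0 : Fin k → ℂ)) (AA n k ⧸ I) := by
    refine finProp_sndR (0 : Fin k → ℂ) n (AA n k ⧸ I) ?_ ?_
    · refine ⟨1, fun _ => 1, fun x => ?_⟩
      obtain ⟨b, rfl⟩ := Ideal.Quotient.mk_surjective x
      refine ⟨fun _ => b, ?_⟩
      simp only [Finset.univ_unique, Finset.sum_singleton, RingHom.id_apply]
      rw [Algebra.smul_def, mul_one]; rfl
    · refine ⟨μ, fun b hb x => ?_⟩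
      have h1 : rr n k b ∈ J := Uni554.pow_le J hfin hrk (rr_max hb)
      obtain ⟨i, hi, q, rfl⟩ := hrJ b h1
      obtain ⟨y, rfl⟩ := Ideal.Quotient.mk_surjective x
      have h2 : (i + ∑ l, sndR n 0 (Tc l) * q l) • Ideal.Quotient.mk I y =
          ∑ l, sndR n (0 : Fin k → ℂ) (Tc l) • Ideal.Quotient.mk I (q l * y) := by
        have h3 : ∑ l, sndR n (0 : Fin k → ℂ) (Tc l) • Ideal.Quotient.mk I (q l * y) =
            Ideal.Quotient.mk I (∑ l, sndR n (0 : Fin k → ℂ) (Tc l) * (q l * y)) := by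
          rw [map_sum]; rfl
        rw [h3]
        change Ideal.Quotient.mk I ((i + ∑ l, sndR n 0 (Tc l) * q l) * y) = _
        rw [Ideal.Quotient.eq]
        have : (i + ∑ l, sndR n (0 : Fin k → ℂ) (Tc l) * q l) * y -
            ∑ l, sndR n (0 : Fin k → ℂ) (Tc l) * (q l * y) = i * y := by
          rw [add_mul, Finset.sum_mul]
          simp only [mul_assoc]
          ring
        rw [this]
        exact Ideal.mul_mem_right _ _ hi
      rw [h2]
      exact AddSubmonoid.sum_mem _ fun l _ =>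
        AddSubmonoid.subset_closure ⟨Tc l, Tc_mem l, _, rfl⟩
  -- the basis
  have hfree : Module.Free ℂ (BB n ⧸ J) := Module.Free.of_divisionRing ℂ _
  let bas : Module.Basis (Fin μ) ℂ (BB n ⧸ J) := Module.finBasisOfFinrankEq _ _ hrk
  choose g hg using fun j => Ideal.Quotient.mk_surjective (I := J) (bas j)
  refine ⟨fun j => g j, nak (k := k) _ _ hF _ (fun b => ?_)⟩
  have h1 := bas.sum_repr (Ideal.Quotient.mk J (rr n k b))
  set γ := bas.repr (Ideal.Quotient.mk J (rr n k b)) with hγ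
  have h2 : rr n k (b - ∑ j, sndR n 0 (algebraMap ℂ _ (γ j)) * ll n k (g j)) ∈ J := by
    rw [map_sub, ← Ideal.Quotient.eq_zero_iff_mem, map_sub, ← h1, map_sum, map_sum, sub_eq_zero]
    refine Finset.sum_congr rfl (fun j _ => ?_)
    rw [map_mul, rr_ll, rr_sndR, evp_algebraMap, map_mul, hg, Algebra.smul_def]
    rfl
  obtain ⟨i, hi, q, hq⟩ := hrJ _ h2
  refine ⟨fun j => algebraMap ℂ _ (γ j), i, Tc, q, hi, Tc_mem, ?_⟩
  rw [← hq]; ring

/-- DATA: lifts of a basis at `t = 0` generate over the germs in the parameters -/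
theorem exists_data (G : κ → PP n k → ℂ) (hG : ∀ j, AnalyticAt ℂ (G j) 0) (μ : ℕ)
    (hf0 : Module.Finite ℂ (QQ G 0)) (hd0 : Module.finrank ℂ (QQ G 0) = μ) :
    ∃ Ef : Fin μ → (Fin n → ℂ) → ℂ, (∀ i, AnalyticAt ℂ (Ef i) 0) ∧
      ∀ f : PP n k → ℂ, AnalyticAt ℂ f 0 →
      ∃ (c : Fin μ → (Fin k → ℂ) → ℂ) (b : κ → PP n k → ℂ),
      (∀ i, AnalyticAt ℂ (c i) 0) ∧ (∀ j, AnalyticAt ℂ (b j) 0) ∧
      ∀ᶠ p in 𝓝 (0 : PP n k),
        f p = ∑ i, c i p.2 * Ef i p.1 + ∑ j, b j p * G j p := by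
  obtain ⟨e, he⟩ := generators G hG μ hf0 hd0
  choose Ef hEf hEe using fun i => exists_gm (e i)
  refine ⟨Ef, hEf, fun f hf => ?_⟩
  obtain ⟨c, hc⟩ := he (gm f hf)
  rw [Ideal.mem_span_range_iff_exists_fun] at hc
  obtain ⟨b, hb⟩ := hc
  choose cf hcf hce using fun i => exists_gm (c i)
  choose bf hbf hbe using fun j => exists_gm (b j)
  obtain rfl : (fun i => gm (cf i) (hcf i)) = c := funext hce
  obtain rfl : (fun j => gm (bf j) (hbf j)) = b := funext hbe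
  obtain rfl : (fun i => gm (Ef i) (hEf i)) = e := funext hEe
  refine ⟨cf, bf, hcf, hbf, ?_⟩
  obtain ⟨h1, e1⟩ := exists_sum_gm' Finset.univ bf G hbf hG
  obtain ⟨h2, e2⟩ := exists_sum_gm' Finset.univ (fun i (p : PP n k) => cf i p.2)
    (fun i (p : PP n k) => Ef i p.1) (p := 0)
    (fun i => AnalyticAt.comp (g := cf i) (f := Prod.snd) (hcf i) analyticAt_snd)
    (fun i => AnalyticAt.comp (g := Ef i) (f := Prod.fst) (hEf i) analyticAt_fst)
  have e4 : (gm f hf : AA n k) =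
      ∑ i, sndR n 0 (gm (cf i) (hcf i)) * ll n k (gm (Ef i) (hEf i)) +
      ∑ j, gm (bf j) (hbf j) * gm (G j) (hG j) := by
    rw [hb]; ring
  have e6 : ∑ i, sndR n 0 (gm (cf i) (hcf i)) * ll n k (gm (Ef i) (hEf i)) =
      (gm (fun x => ∑ i, cf i x.2 * Ef i x.1) h2 : AA n k) := e2
  rw [e6] at e4
  have e7 : (gm f hf : AA n k) = gm (fun x => ∑ i, cf i x.2 * Ef i x.1) h2 +
      gm (fun x => ∑ j, bf j x * G j x) h1 := by
    rw [e4]; congr 1
  rw [gm_add, gm_eq_gm] at e7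
  exact e7

/-- slices of a relation -/
theorem slice_rel (G : κ → PP n k → ℂ) (hG : ∀ j, AnalyticAt ℂ (G j) 0) {μ : ℕ}
    {Ef : Fin μ → (Fin n → ℂ) → ℂ} (hEf : ∀ i, AnalyticAt ℂ (Ef i) 0)
    {f : PP n k → ℂ} (hf : AnalyticAt ℂ f 0)
    {c : Fin μ → (Fin k → ℂ) → ℂ} {b : κ → PP n k → ℂ}
    (hb : ∀ j, AnalyticAt ℂ (b j) 0)
    (hid : ∀ᶠ p in 𝓝 (0 : PP n k),
        f p = ∑ i, c i p.2 * Ef i p.1 + ∑ j, b j p * G j p) :
    ∀ᶠ t in 𝓝 (0 : Fin k → ℂ), (gz (fun x => f (x, t)) : BB n) -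
      ∑ i, algebraMap ℂ (BB n) (c i t) * gm (Ef i) (hEf i) ∈
        Idl (0 : Fin n → ℂ) (fun j x => G j (x, t)) := by
  have h1 : ∀ᶠ t in 𝓝 (0 : Fin k → ℂ), AnalyticAt ℂ f (0, t) :=
    tendsto_0t.eventually hf.eventually_analyticAt
  have h2 : ∀ᶠ t in 𝓝 (0 : Fin k → ℂ), ∀ j, AnalyticAt ℂ (b j) (0, t) :=
    tendsto_0t.eventually (Filter.eventually_all.2 fun j => (hb j).eventually_analyticAt)
  have h3 : ∀ᶠ t in 𝓝 (0 : Fin k → ℂ), ∀ j, AnalyticAt ℂ (G j) (0, t) :=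
    tendsto_0t.eventually (Filter.eventually_all.2 fun j => (hG j).eventually_analyticAt)
  have h4 := tendsto_0t.eventually (eventually_eventually_nhds.2 hid)
  filter_upwards [h1, h2, h3, h4] with t k1 k2 k3 k4
  have k5 : Tendsto (fun x : Fin n → ℂ => ((x, t) : PP n k)) (𝓝 0) (𝓝 (0, t)) := by
    have : Continuous (fun x : Fin n → ℂ => ((x, t) : PP n k)) := by fun_prop
    exact this.tendsto' _ _ rfl
  have k6 := k5.eventually k4
  rw [gz_eq (an_slice k1), mem_Idl (fun j => an_slice (k3 j))]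
  refine ⟨fun j => gm (fun x => b j (x, t)) (an_slice (k2 j)), ?_⟩
  obtain ⟨h5, e5⟩ := exists_sum_gm' (p := (0 : Fin n → ℂ)) Finset.univ
    (fun j x => b j (x, t)) (fun j x => G j (x, t)) (fun j => an_slice (k2 j))
    (fun j => an_slice (k3 j))
  obtain ⟨h6, e6⟩ := exists_sum_gm' (p := (0 : Fin n → ℂ)) Finset.univ
    (fun i _ => c i t) Ef (fun i => analyticAt_const) hEf
  have e9 : ∑ i, algebraMap ℂ (BB n) (c i t) * gm (Ef i) (hEf i) =
    gm (fun x => ∑ i, c i t * Ef i x) h6 := e6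
  rw [e5, e9, gm_sub, gm_eq_gm]
  filter_upwards [k6] with x hx
  simp only [Pi.sub_apply]
  rw [hx]
  ring

lemma an_x (i : Fin n) (p : PP n k) : AnalyticAt ℂ (fun p : PP n k => p.1 i) p :=
  (((ContinuousLinearMap.proj (R := ℂ) (φ := fun _ : Fin n => ℂ) i).comp
    (ContinuousLinearMap.fst ℂ (Fin n → ℂ) (Fin k → ℂ))).analyticAt p)

lemma an_mon (β : Fin n → ℕ) (p : PP n k) :
    AnalyticAt ℂ (fun p : PP n k => ∏ i, p.1 i ^ β i) p :=
  Finset.analyticAt_fun_prod _ fun i _ => (an_x i p).pow _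

/-- SEMICONTINUITY with generators -/
theorem usc_aux (G : κ → PP n k → ℂ) (hG : ∀ j, AnalyticAt ℂ (G j) 0) {μ : ℕ}
    {Ef : Fin μ → (Fin n → ℂ) → ℂ} (hEf : ∀ i, AnalyticAt ℂ (Ef i) 0)
    (hrel : ∀ f : PP n k → ℂ, AnalyticAt ℂ f 0 →
      ∃ (c : Fin μ → (Fin k → ℂ) → ℂ) (b : κ → PP n k → ℂ),
      (∀ i, AnalyticAt ℂ (c i) 0) ∧ (∀ j, AnalyticAt ℂ (b j) 0) ∧
      ∀ᶠ p in 𝓝 (0 : PP n k),
        f p = ∑ i, c i p.2 * Ef i p.1 + ∑ j, b j p * G j p) :
    ∀ᶠ t in 𝓝 (0 : Fin k → ℂ), ⊤ ≤ Submodule.span ℂ (Set.range fun i =>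
      (Ideal.Quotient.mkₐ ℂ (Idl (0 : Fin n → ℂ) (fun j x => G j (x, t)))).toLinearMap
        (gm (Ef i) (hEf i))) := by
  classical
  have hfinset : {β : Fin n → ℕ | ∑ i, β i ≤ n * μ}.Finite := by
    refine (Set.Finite.subset (Set.finite_Iic (fun _ : Fin n => n * μ)) ?_)
    intro β hβ
    rw [Set.mem_Iic]
    intro i
    exact (Finset.single_le_sum (fun j _ => Nat.zero_le (β j)) (Finset.mem_univ i)).trans hβ
  have hall : ∀ᶠ t in 𝓝 (0 : Fin k → ℂ), ∀ β ∈ {β : Fin n → ℕ | ∑ i, β i ≤ n * μ},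
      ∃ c : Fin μ → ℂ, mon xB β - ∑ i, algebraMap ℂ (BB n) (c i) * gm (Ef i) (hEf i) ∈
        Idl (0 : Fin n → ℂ) (fun j x => G j (x, t)) := by
    rw [Filter.eventually_all_finite hfinset]
    intro β _
    obtain ⟨c, b, _, hb, hid⟩ := hrel _ (an_mon β 0)
    filter_upwards [slice_rel G hG hEf (an_mon β 0) hb hid] with t ht
    exact ⟨fun i => c i t, by rw [gz_mon] at ht; exact ht⟩
  filter_upwards [hall] with t ht
  exact span_of_rel (xB (n := n)) xB_not_unit hadamard _ _ ht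

/-- **UPPER SEMICONTINUITY of the multiplicity** -/
theorem usc (G : κ → PP n k → ℂ) (hG : ∀ j, AnalyticAt ℂ (G j) 0) (μ : ℕ)
    (hf0 : Module.Finite ℂ (QQ G 0)) (hd0 : Module.finrank ℂ (QQ G 0) = μ) :
    ∀ᶠ t in 𝓝 (0 : Fin k → ℂ), Module.Finite ℂ (QQ G t) ∧ Module.finrank ℂ (QQ G t) ≤ μ := by
  obtain ⟨Ef, hEf, hrel⟩ := exists_data G hG μ hf0 hd0
  filter_upwards [usc_aux G hG hEf hrel] with t ht
  exact finite_of_span ht



/-! ### in the language of `Defs_219` -/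

variable {m : ℕ}

lemma ev_an {G : Fin m → PP n k → ℂ} (hG : ∀ j, AnalyticAt ℂ (G j) 0) :
    ∀ᶠ t in 𝓝 (0 : Fin k → ℂ), ∀ j, AnalyticAt ℂ (fun x => G j (x, t)) 0 := by
  have h1 : ∀ᶠ t in 𝓝 (0 : Fin k → ℂ), ∀ j, AnalyticAt ℂ (G j) (0, t) :=
    tendsto_0t.eventually (Filter.eventually_all.2 fun j => (hG j).eventually_analyticAt)
  filter_upwards [h1] with t ht j
  exact an_slice (ht j)

/-- **upper semicontinuity of `col` in several parameters** -/
theorem usc_col (G : Fin m → PP n k → ℂ) (hG : ∀ j, AnalyticAt ℂ (G j) 0)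
    (hfin : ColFin (fun j x => G j (x, 0))) :
    ∀ᶠ t in 𝓝 (0 : Fin k → ℂ), ColFin (fun j x => G j (x, t)) ∧
      col (fun j x => G j (x, t)) ≤ col (fun j x => G j (x, 0)) := by
  have h0 : ∀ j, AnalyticAt ℂ (fun x => G j (x, 0)) (0 : Fin n → ℂ) := (ev_an hG).self_of_nhds
  have h1 := (UI939.colFin_iff h0).1 hfin
  have h2 := usc G hG _ h1 (UI939.col_eq h0).symm
  filter_upwards [h2, ev_an hG] with t ht hta
  exact ⟨(UI939.colFin_iff hta).2 ht.1, by rw [UI939.col_eq hta]; exact ht.2⟩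


end Crest.Agent.R257.Par142
end
end

-- ▼ part R257/Cne2_812
section

/-!
Row 257 (S0395), leaf CNE (helper812), part 2: zeros only on the axis ⟹ the colength is constant
(`n` equations in `n` variables, any number of parameters).
-/

set_option autoImplicit false
set_option linter.unusedSectionVars false

open Set Filter Topology
open scoped IsMulCommutative
open Crest.Agent.R275.Loc2879
open Crest.Agent.R257.Uni554 (On)
open Crest.Agent.R257.Cnm3_889 Crest.Agent.R257.Cnm5_889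
open Crest.Agent.R257.Defs_219 Crest.Agent.R257.UI939 Crest.Agent.R257.Tay_812

noncomputable section

namespace Crest.Agent.R257.Cne_812

/-- the pointwise statement in `col` language -/
theorem col_ge {n N : ℕ} {m : ℕ} (T : MDat n N (Fin m)) (hZ : T.Z ⊆ {0})
    (hG : ∀ j, AnalyticAt ℂ (T.G j) 0) (hR : ∀ j k, AnalyticAt ℂ (T.R j k) 0)
    (ha : ∀ j k j', AnalyticAt ℂ (T.a j k j') 0) (hfin : ColFin T.G) : N ≤ col T.G := by
  have h1 := (colFin_iff hG).1 hfin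
  have h2 := col_eq hG
  rw [CM_812.Idl_eq_span hG] at h1 h2
  rw [h2]
  exact finrank_ge T.toDat hZ hG hR ha h1

/-- zeros only on the axis ⟹ constant colength, from the existence of the algebra data -/
theorem cne_of {n : ℕ} (G : Fin n → (Fin n → ℂ) × ℂ → ℂ) (hG : ∀ j, AnalyticAt ℂ (G j) (0, 0))
    (hfin : ColFin (fun j => sl (G j) 0))
    (hz : ∀ᶠ q in 𝓝 ((0 : Fin n → ℂ), (0 : ℂ)), (∀ j, G j q = 0) → q.1 = 0)
    (h : ∃ r₀ : ℝ, 0 < r₀ ∧ ∀ ε : ℝ, 0 < ε → ∀ᶠ t in 𝓝 (0 : ℂ),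
      ∃ T : MDat n (col (fun j => sl (G j) 0)) (Fin n), T.G = (fun j => sl (G j) t) ∧ T.ε ≤ ε ∧
        (∀ j k, AnalyticAt ℂ (T.R j k) 0) ∧ (∀ j k j', AnalyticAt ℂ (T.a j k j') 0)) :
    ∀ᶠ t in 𝓝 (0 : ℂ), ColFin (fun j => sl (G j) t) ∧
      col (fun j => sl (G j) t) = col (fun j => sl (G j) 0) := by
  have hG0 : ∀ j, AnalyticAt ℂ (G j) 0 := hG
  obtain ⟨r₀, hr₀, h1⟩ := h
  obtain ⟨ρ, hρ, hball⟩ := Metric.eventually_nhds_iff_ball.1 hz
  have h2 : ∀ᶠ t in 𝓝 (0 : ℂ), ‖t‖ < ρ := by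
    filter_upwards [Metric.ball_mem_nhds (0 : ℂ) hρ] with t ht
    simpa using ht
  filter_upwards [h1 ρ hρ, usc_col G hG0 hfin, ev_an hG0, h2] with t ht hu han htρ
  obtain ⟨T, hTG, hTε, hTR, hTa⟩ := ht
  refine ⟨hu.1, le_antisymm hu.2 ?_⟩
  have hZ : T.Z ⊆ {0} := by
    intro x hx
    have h3 := T.norm_lt_of_mem hx
    have h4 : (x, t) ∈ Metric.ball ((0 : Fin n → ℂ), (0 : ℂ)) ρ := by
      rw [Metric.mem_ball, dist_eq_norm]
      have : (x, t) - ((0 : Fin n → ℂ), (0 : ℂ)) = (x, t) := by simp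
      rw [this, Prod.norm_def]
      exact max_lt (h3.trans_le hTε) htρ
    refine hball (x, t) h4 fun j => ?_
    have h5 := hx.2 j
    rw [hTG] at h5
    exact h5
  have := col_ge T hZ (by rw [hTG]; exact han) hTR hTa (by rw [hTG]; exact hu.1)
  rwa [hTG] at this

end Crest.Agent.R257.Cne_812
end
end

-- ▼ part R257/Cne3_812
section

/-!
Row 257 (S0395), leaf CNE (helper812), part 3: the literal `CNEStmt`.
-/

set_option autoImplicit false
set_option linter.unusedSectionVars false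

open Set Filter Topology
open Crest.Agent.R275.Loc2879

noncomputable section

namespace Crest.Agent.R257.Cne_812

open Crest.Agent.R257.Cnm3_889 Crest.Agent.R257.Defs_219
open Crest.Agent.R257.Cnm4_889 Crest.Agent.R257.Cnm5_889 Crest.Agent.R257.Cnm6_889
open Crest.Agent.R257.Cnm7_889
open Crest.Agent.R257.UI939 (Idl gz gz_eq BB colFin_iff col_eq usc_col)

/-- **zeros only on the axis ⟹ the colength is constant** (`n` equations in `n` variables) -/
theorem cne {n : ℕ} (G : Fin n → (Fin n → ℂ) × ℂ → ℂ) (hG : ∀ j, AnalyticAt ℂ (G j) (0, 0))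
    (hfin : ColFin (fun j => sl (G j) 0))
    (hz : ∀ᶠ q in 𝓝 ((0 : Fin n → ℂ), (0 : ℂ)), (∀ j, G j q = 0) → q.1 = 0) :
    ∀ᶠ t in 𝓝 (0 : ℂ), ColFin (fun j => sl (G j) t) ∧
      col (fun j => sl (G j) t) = col (fun j => sl (G j) 0) := by
  have h1 : ∀ j, AnalyticAt ℂ (sl (G j) 0) (0 : Fin n → ℂ) := fun j =>
    AnalyticAt.comp (g := G j) (f := fun x => (x, 0)) (hG j) (analyticAt_id.prod analyticAt_const)
  by_cases hu : ∀ j, G j (0, 0) = 0
  · refine cne_of G hG hfin hz ?_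
    let H : Fin n → (Fin n → ℂ) × (Fin 1 → ℂ) → ℂ := fun j q => G j (q.1, q.2 0)
    have hH : ∀ j, AnalyticAt ℂ (H j) (0, 0) := fun j =>
      AnalyticAt.comp (g := G j) (f := fun q : (Fin n → ℂ) × (Fin 1 → ℂ) => (q.1, q.2 0)) (hG j)
        (analyticAt_fst.prod (((ContinuousLinearMap.proj (R := ℂ) (φ := fun _ : Fin 1 => ℂ) 0).comp
          (ContinuousLinearMap.snd ℂ (Fin n → ℂ) (Fin 1 → ℂ))).analyticAt _))
    have hf1 := (colFin_iff h1).1 hfin
    have hc1 := col_eq h1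
    have hJ := J0_eq H hH
    have e0 : (fun (j : Fin n) (x : Fin n → ℂ) => H j (x, 0)) = fun j => sl (G j) 0 := rfl
    rw [e0] at hJ
    rw [← hJ] at hf1 hc1
    have hK : Kos (fun j => rk n 1 (gm (H j) (hH j))) := by
      refine kos_of_KS ?_
      refine Crest.Agent.R257.CM_812.koszul_BB _ (fun j => ?_) hf1
      rw [IsLocalRing.mem_maximalIdeal, mem_nonunits_iff, rk, pull_gm, isUnit_gm, not_not]
      exact hu j
    obtain ⟨D⟩ := exists_gdat _ hf1 hc1.symm hK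
    obtain ⟨r₀, hr₀, h2⟩ := mdat_of_gdat H hH D
    refine ⟨r₀, hr₀, fun ε hε => ?_⟩
    have hχ : Tendsto (fun t : ℂ => fun _ : Fin 1 => t) (𝓝 0) (𝓝 0) := by
      have : Continuous (fun t : ℂ => fun _ : Fin 1 => t) := by fun_prop
      exact this.tendsto 0
    filter_upwards [hχ.eventually (h2 ε hε)] with t ht
    obtain ⟨T, hr, hε', hTG, hT⟩ := ht
    have h3 := hT 0 (by rw [norm_zero]; exact hr₀)
    exact ⟨T, hTG, hε', h3.2.1, h3.2.2⟩
  · push Not at hu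
    obtain ⟨j, hj⟩ := hu
    have hcol : col (fun j => sl (G j) 0) = 0 := by
      rw [col_eq h1]
      have h2 : Idl (0 : Fin n → ℂ) (fun j => sl (G j) 0) = ⊤ := by
        rw [Ideal.eq_top_iff_one]
        have h3 : IsUnit (gz (sl (G j) 0) : BB n) := by
          rw [gz_eq (h1 j), isUnit_gm]; exact hj
        have h4 : (gz (sl (G j) 0) : BB n) ∈ Idl (0 : Fin n → ℂ)
            (fun j => sl (G j) 0) := Ideal.subset_span ⟨j, rfl⟩
        exact (Ideal.eq_top_iff_one _).1 (Ideal.eq_top_of_isUnit_mem _ h4 h3)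
      rw [h2]
      exact Module.finrank_zero_of_subsingleton
    filter_upwards [usc_col G hG hfin] with t ht
    refine ⟨ht.1, ?_⟩
    have := ht.2
    omega

theorem cneStmt : XF_157.CNEStmt := fun G hG hfin hz => cne G hG hfin hz

end Crest.Agent.R257.Cne_812
end
end

-- ▼ part R257/PairK6_39
section

/-!
# Row 257 (S0395), PAIR-K (helper39), part 6: helper68's `CLogStmt`

* `xpr_of_exact` : an exact pair has the numbers `XPr`
* `xl_of_clog`   : `CLog_68.CLogStmt → CLogD_39.XLStmt`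
* `up1_of_clog`  : `CLog_68.CLogStmt → KEU_952.Up1Stmt`
-/

set_option autoImplicit false
set_option linter.unusedSectionVars false

open Set Filter Topology Complex MeasureTheory
open scoped ContDiff ComplexConjugate Matrix ComplexOrder

namespace Crest.Agent.R257.PairK_39

open Crest.Agent.R257.Defs_219 Crest.Agent.R257.KED_952 Crest.Agent.R257.KEG_952
open Crest.Agent.R257.KEU_952
open Crest.Agent.R257.V1Defs_822 (SmL LvlOK lgh XUStmt)
open Crest.Agent.R257.CLogD_39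

noncomputable section

/-- an exact pair has the numbers `XPr` -/
theorem xpr_of_exact {f g h : E3 → ℂ} {k : ℕ} (hI : Iso f) (hm : 0 < mstar f)
    (E : XF_157.Exact f k g h) : XPr f k g h where
  two := E.k2
  g_an := E.ang
  h_an := E.anh
  fin := E.colFin NS0554.isoFinStmt hI.an
  num := E.col_eq (Cmp_157.cmp_of Cne_812.cneStmt NS0554.isoFinStmt) NS0554.isoFinStmt hI hm
  fin' := E.colFin' NS0554.isoFinStmt hI.an
  num' := E.col_eq' (Cmp_157.cmp_of Cne_812.cneStmt NS0554.isoFinStmt) Cmp_157.mulStmt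
    NS0554.isoFinStmt Fto_889.detStmt hI hm

theorem sqq_eq_68 {L : ℕ} (q : Fin L → E3 → ℂ) (s : Fin L → ℕ) (l : Fin L) (x : E3) :
    sqq q s l x = CLog_68.sq q s l x := rfl

theorem J2_eq_68 {L : ℕ} (f : E3 → ℂ) (q : Fin L → E3 → ℂ) (s : Fin L → ℕ) {x : E3}
    (h : ∀ l, 0 < sqq q s l x) : J2 f q s x = CLog_68.J2 f q s x := by
  unfold J2 CLog_68.J2 CLog_68.phq
  congr 1
  refine Finset.sum_congr rfl fun l _ => Finset.sum_congr rfl fun m _ => ?_
  rw [← sqq_eq_68, ← sqq_eq_68, Real.exp_neg, Real.exp_add, Real.exp_log (h l),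
    Real.exp_log (h m), div_eq_mul_inv, mul_comm]

theorem a2_eq_68 {L : ℕ} (f g : E3 → ℂ) (q : Fin L → E3 → ℂ) (s : Fin L → ℕ) {x : E3}
    (h : ∀ l, 0 < sqq q s l x) : a2 f g q s x = CLog_68.a2 f g q s x := by
  unfold a2 CLog_68.a2 CLog_68.phq
  refine Finset.sum_congr rfl fun l _ => ?_
  rw [← sqq_eq_68, Real.exp_neg, Real.exp_log (h l), div_eq_mul_inv, mul_comm]

/-- helper68's lists -/
theorem clog_of {f g h : E3 → ℂ} {k L : ℕ} {q : Fin L → E3 → ℂ} {s : Fin L → ℕ}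
    (hS : CLog_68.Sys f q s) (h1 : CLog_68.CI f g h q s) (h2 : CLog_68.CII f g h k q s) :
    CLog f g h k q s := by
  obtain ⟨N, c, r, hc, hr, hlo⟩ := hS.lo
  have hpos : ∀ x, ‖x‖ < r → f x = 0 → x ≠ 0 → ∀ l, 0 < sqq q s l x := fun x hx h0 hne l =>
    lt_of_lt_of_le (by
      have := norm_pos_iff.2 hne
      positivity) (hlo x hx h0 l)
  refine ⟨hS.an, hS.z, ⟨N, c, r, hc, hr, hlo⟩, ?_, ?_⟩
  · obtain ⟨c₁, r₁, hc₁, hr₁, h3⟩ := h1
    refine ⟨c₁, min r r₁, hc₁, lt_min hr hr₁, fun x hx h0 hne => ?_⟩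
    have hp := hpos x (hx.trans_le (min_le_left _ _)) h0 hne
    rw [J2_eq_68 f q s hp, a2_eq_68 f g q s hp]
    exact h3 x (hx.trans_le (min_le_right _ _)) h0 hne
  · obtain ⟨c₁, r₁, hc₁, hr₁, h3⟩ := h2
    refine ⟨c₁, min r r₁, hc₁, lt_min hr hr₁, fun x hx h0 hne => ?_⟩
    have hp := hpos x (hx.trans_le (min_le_left _ _)) h0 hne
    rw [J2_eq_68 f q s hp]
    exact h3 x (hx.trans_le (min_le_right _ _)) h0 hne

/-- **`XLStmt` from helper68's `CLogStmt`** -/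
theorem xl_of_clog (cl : CLog_68.CLogStmt) : XLStmt := by
  intro f hI hm
  obtain ⟨L, q, s, hS, h2, k, g, h, hE, hju, h1⟩ := cl f hI hm
  exact ⟨k, g, h, L, q, s, xpr_of_exact hI hm hE, hju,
    clog_of hS h1 (h2 k g h hE.k2 hE.ang hE.anh hE.e1)⟩

/-- **`Up1Stmt` from helper68's `CLogStmt`** -/
theorem up1_of_clog (cl : CLog_68.CLogStmt) : Up1Stmt := up1_of_xl (xl_of_clog cl)

theorem xu_of_clog (cl : CLog_68.CLogStmt) : XUStmt := XUof (xl_of_clog cl)

end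

end Crest.Agent.R257.PairK_39
end

-- ▼ part R257/MsJ5_617
section

/-!
R257 / MsJ5_617 (helper617), leaf GB-MASSJ, part 5: systems of germs (structure `QOK` of helper39).

* `tr_bd`    : `det G X(v,v) ≤ pd(G,X) G(v,v)` for 2×2 psd matrices
* `sq_bd`    : `|dF(v)|² ≤ tr_ω(∂F ⊗ ∂̄F) ω(v,v)`,  `tr_ω(∂F ⊗ ∂̄F) = tr2 f u F = e^{-u} mxd f u ‖F‖²`
* `TT`       : `T = ∑_l e^{-φ_l} tr_ω(∂q_l ⊗ ∂̄q_l)`
* `phq_psh`, `phq_bd` : the weights are psh, `|φ_l| ≤ B (A - u)`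
* `TT_mass`  : `∫_{A - u ≤ R} χ T e^u ≤ C R²`
* `TT_jensen`: `∫_{j ≤ log (A-u) ≤ 2j} χ V² e^u ≤ ε j²` if `|V| ≤ C' (1 + log (A-u) + log (e + T))`
* `log_of_up`: `u ≤ ψ/k + C` near `0` ⟹ `- log ‖x‖ ≤ B (A - u)`
-/

set_option autoImplicit false
set_option linter.unusedSectionVars false

open Topology Filter MeasureTheory Set
open scoped ENNReal ContDiff Matrix ComplexOrder ComplexConjugate

noncomputable section

namespace Crest.Agent.R257.MsJ_617

open Crest.Agent.R275.Geo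
open Crest.Agent.R273.Defs_333 (lev)
open Crest.Agent.R273.HessB_333
open Crest.Agent.R273.Hess_333
open Crest.Agent.R273.YauDefs_635 (cH lev333_eq_lev145)
open Crest.Agent.R273.YauMax_635 (cH_eq_hess)
open Crest.Agent.R273 (Levi_145.sumSq Levi_145.lev)
open Crest.Agent.R257.Defs_219 Crest.Agent.R257.KED_952 Crest.Agent.R257.KEG_952
open Crest.Agent.R257.V1Defs_822
open Crest.Agent.R257.V1Pe_822 Crest.Agent.R257.V1W_822 Crest.Agent.R257.UpK_938
open Crest.Agent.R257.Bridge_822 Crest.Agent.R257.CmpL_822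
open Crest.Agent.R257.PN_835 (nsq)
open Crest.Agent.R257.Aff_835 (eta2a)
open Crest.Agent.R257.C2F1_625 (pd)
open Crest.Agent.R257.CLogD_39 (fib sqq phq)
open Crest.Agent.R257.PairK_39 (QOK Fq sqq_eq anF neF sm_ph anal_par)

/-! ### 2 × 2 matrices -/




variable {f : E3 → ℂ} {r A : ℝ} {u χ : E3 → ℝ}

/-- `tr_ω(∂F ⊗ ∂̄F)` -/
def tr2 (f : E3 → ℂ) (u : E3 → ℝ) (F : E3 → ℂ) (x : E3) : ℝ :=
  Real.exp (-u x) * mxd f u (fun y => ‖F y‖ ^ 2) x






/-! ### systems -/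

variable {L : ℕ} {q : Fin L → E3 → ℂ} {s : Fin L → ℕ} {g h : E3 → ℂ}



theorem phq_smL (hQ : QOK f r g h q s) (l : Fin L) : SmL f 0 r (phq q s l) := fun _ _ hP _ hz =>
  (sm_ph hP hQ l hz).contDiffWithinAt

theorem phq_psh (hQ : QOK f r g h q s) (l : Fin L) (θ : Cn 2 → E3) (O : Set (Cn 2))
    (hP : PE f 0 r θ O) (z : Cn 2) (hz : z ∈ O) (v : Cn 2) :
    0 ≤ lev (fun z => phq q s l (θ z)) z v := by
  have e : (fun z => phq q s l (θ z)) = fun z =>
      Real.log (R273.Levi_145.sumSq (Fq q s θ l) z) := by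
    funext z
    unfold phq
    rw [sqq_eq]
  rw [e, lev333_eq_lev145]
  have := R273.Levi_145.lev_log_sumSq_nonneg (fun m => anF hP hQ l m hz) (neF hP hQ l hz) v
  linarith


/-- `T = ∑_l e^{-φ_l} tr_ω(∂q_l ⊗ ∂̄q_l)` -/
def TT (f : E3 → ℂ) (u : E3 → ℝ) (q : Fin L → E3 → ℂ) (s : Fin L → ℕ) (x : E3) : ℝ :=
  ∑ l, (sqq q s l x)⁻¹ * tr2 f u (q l) x









end Crest.Agent.R257.MsJ_617
end
end

-- ▼ part R257/Trl1_39

/-!
# Row 257 (S0395), trial metric (helper39), part 1: the data of C-LOG on one level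

* `Dta`     : exact pair, systems, inequalities (i), (ii), UP and the resulting bounds on the
  punctured level in a ball
* `data_of` : existence, from helper68's `CLogStmt` and helper938's `upStmt`
-/

set_option autoImplicit false
set_option linter.unusedSectionVars false

open Set Filter Topology Complex MeasureTheory
open scoped ContDiff ComplexConjugate Matrix ComplexOrder

namespace Crest.Agent.R257.Trl_39

open Crest.Agent.R275.Geo
open Crest.Agent.R257.PN_835 (nsq)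
open Crest.Agent.R257.Defs_219 Crest.Agent.R257.KED_952 Crest.Agent.R257.KEG_952
open Crest.Agent.R257.KEU_952
open Crest.Agent.R257.V1Defs_822 (SmL LvlOK lgh XUStmt)
open Crest.Agent.R257.CLogD_39
open Crest.Agent.R257.PairK_39

noncomputable section

/-- the data of C-LOG on the punctured level in the ball of radius `r` -/
structure Dta (f : E3 → ℂ) (r A : ℝ) (u : E3 → ℝ) (k : ℕ) (g h : E3 → ℂ) {L : ℕ}
    (q : Fin L → E3 → ℂ) (s : Fin L → ℕ) (c B : ℝ) : Prop where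
  c_pos : 0 < c
  B_nn : 0 ≤ B
  pr : XPr f k g h
  qok : QOK f r g h q s
  J_pos : ∀ x, f x = 0 → x ≠ 0 → nsq x < r ^ 2 → 0 < J2 f q s x
  a_pos : ∀ x, f x = 0 → x ≠ 0 → nsq x < r ^ 2 → 0 < a2 f g q s x
  i : ∀ x, f x = 0 → x ≠ 0 → nsq x < r ^ 2 →
    c * Real.exp (lgh g h x) * J2 f q s x ≤ a2 f g q s x
  ii : ∀ x, f x = 0 → x ≠ 0 → nsq x < r ^ 2 →
    c * Real.exp (lgh g h x / k) ≤ J2 f q s x
  a_ge : ∀ x, f x = 0 → x ≠ 0 → nsq x < r ^ 2 →
    c ^ 2 * Real.exp ((1 + 1 / k) * lgh g h x) ≤ a2 f g q s x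
  up : ∀ x, f x = 0 → x ≠ 0 → nsq x < r ^ 2 → u x ≤ lgh g h x / k + B
  lg_le : ∀ x, f x = 0 → x ≠ 0 → nsq x < r ^ 2 → |lgh g h x| ≤ B * (A - u x)
  ph_le : ∀ x, f x = 0 → x ≠ 0 → nsq x < r ^ 2 → ∀ l, |phq q s l x| ≤ B * (A - u x)
  lgh_bd : ∀ x, f x = 0 → x ≠ 0 → nsq x < r ^ 2 → lgh g h x ≤ B

theorem lgh_exp {g h : E3 → ℂ} {x : E3} (hx : 0 < ‖g x‖ ^ 2 + ‖h x‖ ^ 2) :
    Real.exp (lgh g h x) = ‖g x‖ ^ 2 + ‖h x‖ ^ 2 := by
  unfold lgh
  rw [Real.exp_log hx]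

theorem Dta.mono {f : E3 → ℂ} {r A : ℝ} {u : E3 → ℝ} {k : ℕ} {g h : E3 → ℂ} {L : ℕ}
    {q : Fin L → E3 → ℂ} {s : Fin L → ℕ} {c B : ℝ} (hD : Dta f r A u k g h q s c B) {r' : ℝ}
    (h0 : 0 ≤ r') (h1 : r' ≤ r) : Dta f r' A u k g h q s c B := by
  have e : ∀ x : E3, nsq x < r' ^ 2 → nsq x < r ^ 2 := fun x hx =>
    hx.trans_le (pow_le_pow_left₀ h0 h1 2)
  exact
    { c_pos := hD.c_pos
      B_nn := hD.B_nn
      pr := hD.pr
      qok := ⟨fun x hx => hD.qok.ang x (e x hx), fun x hx => hD.qok.anh x (e x hx),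
        fun l x hx => hD.qok.anq l x (e x hx), fun x a1 a2 a3 => hD.qok.gh x a1 a2 (e x a3),
        fun x a1 a2 a3 => hD.qok.pos x a1 a2 (e x a3),
        fun x a1 a2 a3 => hD.qok.le x a1 a2 (e x a3)⟩
      J_pos := fun x a1 a2 a3 => hD.J_pos x a1 a2 (e x a3)
      a_pos := fun x a1 a2 a3 => hD.a_pos x a1 a2 (e x a3)
      i := fun x a1 a2 a3 => hD.i x a1 a2 (e x a3)
      ii := fun x a1 a2 a3 => hD.ii x a1 a2 (e x a3)
      a_ge := fun x a1 a2 a3 => hD.a_ge x a1 a2 (e x a3)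
      up := fun x a1 a2 a3 => hD.up x a1 a2 (e x a3)
      lg_le := fun x a1 a2 a3 => hD.lg_le x a1 a2 (e x a3)
      ph_le := fun x a1 a2 a3 => hD.ph_le x a1 a2 (e x a3)
      lgh_bd := fun x a1 a2 a3 => hD.lgh_bd x a1 a2 (e x a3) }

/-- existence of the data, from `XLStmt` -/
theorem data_of_xl (xl : XLStmt) {f : E3 → ℂ} {r A : ℝ} {u : E3 → ℝ} {ν : Measure E3}
    (hiso : Iso f) (hL : LvlOK f 0 r) (hK : KEon f 0 r u) (hν : IsNu f 0 r ν)
    (hm : 0 < mstar f) (hE : Esc f r u A) (hV : ∀ χ, Cut r χ → VOL ν u χ < ⊤) :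
    ∃ (r' : ℝ) (k : ℕ) (g h : E3 → ℂ) (L : ℕ) (q : Fin L → E3 → ℂ) (s : Fin L → ℕ) (c B : ℝ),
      0 < r' ∧ r' < r ∧ Dta f r' A u k g h q s c B := by
  obtain ⟨k, g, h, L, q, s, hX, hju, hC⟩ := xl f hiso hm
  obtain ⟨hg0, hh0⟩ := xpr_zero hiso hm hX
  have hr := hL.pos
  obtain ⟨χ, hχ⟩ := SkelV_952.exists_cut hr
  obtain ⟨C₂, r₂, hr₂, hup⟩ := UpK_938.upStmt f r u ν χ k g h hiso hL hK hν hχ (hV χ hχ) hX.two
    hX.g_an hX.h_an hg0 hh0 hX.fin hju
  obtain ⟨r₀, c₀, N, hr₀, hc₀, hQ⟩ := exists_QOK hiso.an hX.g_an hX.h_an hX.fin hC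
  obtain ⟨K, hK'⟩ := lgh_le hiso.an hX.g_an hX.h_an hg0 hh0 hX.fin
  obtain ⟨r₃, hr₃, hlgh⟩ := ball_of_ev hK'
  obtain ⟨c₄, r₄, hc₄, hr₄, hi⟩ := hC.i
  have hk2 := hX.two
  have hk0 : (0 : ℝ) < k := by exact_mod_cast (by omega : 0 < k)
  -- radius
  set r' : ℝ := min (min r₀ (r / 2)) (min (min r₂ r₃) (min r₄ 1)) with hr'
  have hr'0 : 0 < r' := lt_min (lt_min hr₀ (by positivity))
    (lt_min (lt_min hr₂ hr₃) (lt_min hr₄ one_pos))
  have q0 : r' ≤ r₀ := (min_le_left _ _).trans (min_le_left _ _)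
  have q1 : r' ≤ r / 2 := (min_le_left _ _).trans (min_le_right _ _)
  have q2 : r' ≤ r₂ := (min_le_right _ _).trans ((min_le_left _ _).trans (min_le_left _ _))
  have q3 : r' ≤ r₃ := (min_le_right _ _).trans ((min_le_left _ _).trans (min_le_right _ _))
  have q4 : r' ≤ r₄ := (min_le_right _ _).trans ((min_le_right _ _).trans (min_le_left _ _))
  have q5 : r' ≤ 1 := (min_le_right _ _).trans ((min_le_right _ _).trans (min_le_right _ _))
  have e : ∀ {a : ℝ}, r' ≤ a → ∀ x : E3, nsq x < r' ^ 2 → nsq x < a ^ 2 := fun ha x hx =>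
    hx.trans_le (pow_le_pow_left₀ hr'0.le ha 2)
  obtain ⟨hQ1, hQ2, hQ3⟩ := hQ r' hr'0 q0
  -- constants
  set c : ℝ := min c₀ c₄ with hc
  have hc0 : 0 < c := lt_min hc₀ hc₄
  set K₀ : ℝ := |K| + k * (|C₂| + |A| + 1) with hK₀
  have hK₀0 : 0 ≤ K₀ := by positivity
  set B : ℝ := |C₂| + |K| + K₀ + (|Real.log c₀| + N * K₀) with hB
  have hB0 : 0 ≤ B := by positivity
  have hii : ∀ x, f x = 0 → x ≠ 0 → nsq x < r' ^ 2 →
      c * Real.exp (lgh g h x / k) ≤ J2 f q s x := by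
    intro x h1 h2 h3
    have h4 := hQ2 x h1 h2 h3
    have h5 := hQ1.gh x h1 h2 h3
    have h6 : (‖g x‖ ^ 2 + ‖h x‖ ^ 2) ^ (1 / (k : ℝ)) = Real.exp (lgh g h x / k) := by
      unfold lgh
      rw [Real.rpow_def_of_pos h5]
      congr 1
      ring
    rw [h6] at h4
    refine le_trans ?_ h4
    exact mul_le_mul_of_nonneg_right (min_le_left _ _) (Real.exp_pos _).le
  have hJ : ∀ x, f x = 0 → x ≠ 0 → nsq x < r' ^ 2 → 0 < J2 f q s x := fun x h1 h2 h3 =>
    lt_of_lt_of_le (by positivity) (hii x h1 h2 h3)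
  have hi' : ∀ x, f x = 0 → x ≠ 0 → nsq x < r' ^ 2 →
      c * Real.exp (lgh g h x) * J2 f q s x ≤ a2 f g q s x := by
    intro x h1 h2 h3
    have h4 := hi x (norm_lt_of hr₄ (e q4 x h3)) h1 h2
    have h5 := hJ x h1 h2 h3
    rw [lgh_exp (hQ1.gh x h1 h2 h3)]
    refine le_trans ?_ h4
    have h6 := hQ1.gh x h1 h2 h3
    have h7 : c ≤ c₄ := min_le_right _ _
    gcongr
  have hone := fun x (h1 : f x = 0) (h2 : x ≠ 0) (h3 : nsq x < r' ^ 2) =>
    hE.one x h1 h2 (e (q1.trans (by linarith)) x h3)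
  -- `- log ‖x‖`
  have hlx : ∀ x, f x = 0 → x ≠ 0 → nsq x < r' ^ 2 → - Real.log ‖x‖ ≤ K₀ * (A - u x) := by
    intro x h1 h2 h3
    have hu1 := hup x h1 h2 (e q2 x h3)
    have hl1 := hlgh x (e q3 x h3) h1 h2
    have hone := hone x h1 h2 h3
    have a1 : (k : ℝ) * u x ≤ lgh g h x + k * C₂ := by
      have := mul_le_mul_of_nonneg_left hu1 hk0.le
      have e : (k : ℝ) * (1 / (k : ℝ) * lgh g h x + C₂) = lgh g h x + k * C₂ := by
        field_simp
      linarith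
    have a2 : -(2 * Real.log ‖x‖) ≤ K + k * C₂ - k * u x := by linarith
    have a3 : K ≤ |K| := le_abs_self K
    have a4 : (k : ℝ) * C₂ ≤ k * |C₂| := mul_le_mul_of_nonneg_left (le_abs_self _) hk0.le
    have a5 : -(A) ≤ |A| := neg_le_abs A
    have a7 : K + k * C₂ - k * u x ≤ K₀ * (A - u x) := by
      have b1 : K + k * C₂ - k * u x = K + k * C₂ - k * A + k * (A - u x) := by ring
      have b2 : K + k * C₂ - k * A ≤ |K| + k * |C₂| + k * |A| := by
        have := mul_le_mul_of_nonneg_left a5 hk0.le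
        linarith
      have b3 : |K| + k * |C₂| + k * |A| ≤ (|K| + k * |C₂| + k * |A|) * (A - u x) :=
        le_mul_of_one_le_right (by positivity) hone
      calc K + k * C₂ - k * u x ≤ (|K| + k * |C₂| + k * |A|) * (A - u x) + k * (A - u x) := by
            linarith
        _ = _ := by rw [hK₀]; ring
    have a8 : 0 ≤ K₀ * (A - u x) := mul_nonneg hK₀0 (by linarith)
    linarith
  have hlx0 : ∀ x : E3, x ≠ 0 → nsq x < r' ^ 2 → Real.log ‖x‖ ≤ 0 := by
    intro x h2 h3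
    have h4 : ‖x‖ < 1 := norm_lt_of one_pos (e q5 x h3)
    exact Real.log_nonpos (norm_nonneg _) h4.le
  have hLG : ∀ x, f x = 0 → x ≠ 0 → nsq x < r' ^ 2 → |lgh g h x| ≤ (|K| + K₀) * (A - u x) := by
    intro x h1 h2 h3
    have hu1 := hup x h1 h2 (e q2 x h3)
    have hl1 := hlgh x (e q3 x h3) h1 h2
    have hone := hone x h1 h2 h3
    have h4 := hlx0 x h2 h3
    have a3 : K ≤ |K| := le_abs_self K
    have b0 : |K| ≤ |K| * (A - u x) := le_mul_of_one_le_right (abs_nonneg _) hone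
    have b1 : 0 ≤ K₀ * (A - u x) := mul_nonneg hK₀0 (by linarith)
    have b2 : 0 ≤ |K| * (A - u x) := mul_nonneg (abs_nonneg _) (by linarith)
    rw [abs_le]
    constructor
    · have a1 : (k : ℝ) * u x ≤ lgh g h x + k * C₂ := by
        have := mul_le_mul_of_nonneg_left hu1 hk0.le
        have e : (k : ℝ) * (1 / (k : ℝ) * lgh g h x + C₂) = lgh g h x + k * C₂ := by
          field_simp
        linarith
      have a4 : (k : ℝ) * C₂ ≤ k * |C₂| := mul_le_mul_of_nonneg_left (le_abs_self _) hk0.le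
      have a5 : -(k * A) ≤ k * |A| := by
        have := mul_le_mul_of_nonneg_left (neg_le_abs A) hk0.le
        linarith
      have b3 : k * |C₂| + k * |A| ≤ (k * |C₂| + k * |A|) * (A - u x) :=
        le_mul_of_one_le_right (by positivity) hone
      have e : (|K| + K₀) * (A - u x) = |K| * (A - u x) + |K| * (A - u x) +
          ((k * |C₂| + k * |A|) * (A - u x) + k * (A - u x)) := by
        rw [hK₀]
        ring
      have e2 : (k : ℝ) * (A - u x) = k * A - k * u x := by ring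
      linarith
    · have e : (|K| + K₀) * (A - u x) = |K| * (A - u x) + K₀ * (A - u x) := by ring
      linarith
  have hBle : ∀ {a : ℝ}, a ≤ B → ∀ {y : ℝ}, 0 ≤ y → a * y ≤ B * y := fun ha _ hy =>
    mul_le_mul_of_nonneg_right ha hy
  refine ⟨r', k, g, h, L, q, s, c, B, hr'0, by linarith, ?_⟩
  exact
    { c_pos := hc0
      B_nn := hB0
      pr := hX
      qok := hQ1
      J_pos := hJ
      a_pos := fun x h1 h2 h3 => lt_of_lt_of_le (mul_pos (by positivity) (hJ x h1 h2 h3))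
        (hi' x h1 h2 h3)
      i := hi'
      ii := hii
      a_ge := fun x h1 h2 h3 => by
        refine le_trans (le_of_eq ?_) ((mul_le_mul_of_nonneg_left (hii x h1 h2 h3)
          (by positivity : 0 ≤ c * Real.exp (lgh g h x))).trans (hi' x h1 h2 h3))
        have e : (1 + 1 / (k : ℝ)) * lgh g h x = lgh g h x + lgh g h x / k := by ring
        rw [e, Real.exp_add]
        ring
      up := fun x h1 h2 h3 => by
        have h4 := hup x h1 h2 (e q2 x h3)
        have h5 : C₂ ≤ B := by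
          have h6 := le_abs_self C₂
          have h7 : |C₂| ≤ B := by
            rw [hB]
            have : 0 ≤ |K| + K₀ + (|Real.log c₀| + N * K₀) := by positivity
            linarith
          linarith
        have e : 1 / (k : ℝ) * lgh g h x = lgh g h x / k := by ring
        linarith
      lg_le := fun x h1 h2 h3 => (hLG x h1 h2 h3).trans (hBle (by
        rw [hB]
        have : 0 ≤ |C₂| + (|Real.log c₀| + N * K₀) := by positivity
        linarith) (by linarith [hone x h1 h2 h3]))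
      ph_le := fun x h1 h2 h3 l => by
        have h4 := hQ3 x h1 h2 h3 l
        have h5 := hQ1.le x h1 h2 h3 l
        have hxn := norm_pos_iff.2 h2
        have hone := hone x h1 h2 h3
        have h6 : Real.log c₀ + N * Real.log ‖x‖ ≤ phq q s l x := by
          have := Real.log_le_log (by positivity) h4
          rw [Real.log_mul hc₀.ne' (by positivity), Real.log_pow] at this
          exact this
        have h7 := hlx x h1 h2 h3
        rw [abs_of_nonpos (by linarith)]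
        have a1 : -(Real.log c₀) ≤ |Real.log c₀| := neg_le_abs _
        have a2 : (N : ℝ) * (- Real.log ‖x‖) ≤ N * (K₀ * (A - u x)) :=
          mul_le_mul_of_nonneg_left h7 (Nat.cast_nonneg N)
        have a3 : |Real.log c₀| ≤ |Real.log c₀| * (A - u x) :=
          le_mul_of_one_le_right (abs_nonneg _) hone
        have a4 : 0 ≤ (|C₂| + |K| + K₀) * (A - u x) := mul_nonneg (by positivity) (by linarith)
        calc - phq q s l x ≤ -(Real.log c₀) + N * (- Real.log ‖x‖) := by linarith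
          _ ≤ |Real.log c₀| * (A - u x) + N * (K₀ * (A - u x)) := by linarith
          _ ≤ B * (A - u x) := by
            have e : B * (A - u x) = (|C₂| + |K| + K₀) * (A - u x) +
                (|Real.log c₀| * (A - u x) + N * (K₀ * (A - u x))) := by
              rw [hB]
              ring
            rw [e]
            linarith
      lgh_bd := fun x h1 h2 h3 => by
        have hl1 := hlgh x (e q3 x h3) h1 h2
        have h4 := hlx0 x h2 h3
        have h5 : K ≤ B := by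
          have h6 := le_abs_self K
          have h7 : |K| ≤ B := by
            rw [hB]
            have : 0 ≤ |C₂| + K₀ + (|Real.log c₀| + N * K₀) := by positivity
            linarith
          linarith
        linarith }


end

end Crest.Agent.R257.Trl_39
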