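import Crest.Agent.R257.C2F1_625
import Crest.Agent.R257.MsJ4_617
import Crest.Agent.R257.KUP_952
import Crest.Agent.R257.Trl1_39_Mg
import Crest.Agent.R257.OutD_309

-- ▼ part R257/VLa_218
section

/-!
R257 / VLa_218 (helper218): comparison of two Hermitian metrics on `ℂ²` (pointwise).

* `inv_anti` : inversion is antitone
* `adj_psd`  : the adjugate of a positive semidefinite `2 × 2` matrix
* `le_tr`    : `K ≤ tr (G⁻¹ K) G`
* `cmp2`     : `H⁻¹ ≤ c K`, `K ≤ T G` ⟹ `G⁻¹ ≤ c T H`, `H ≤ c T det G det H G⁻¹`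
-/

set_option autoImplicit false

open scoped Matrix ComplexOrder ComplexConjugate

noncomputable section

namespace Crest.Agent.R257.VL_218

open Matrix
open Crest.Agent.R257.C2F1_625 (pd)

/-- inversion is antitone on positive definite matrices -/
theorem inv_anti {e : Type*} [Fintype e] [DecidableEq e] {X Y : Matrix e e ℂ} (hX : X.PosDef)
    (hXY : (Y - X).PosSemidef) : (X⁻¹ - Y⁻¹).PosSemidef := by
  have hY : Y.PosDef := by
    have := hX.add_posSemidef hXY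
    simpa using this
  have hXi : X⁻¹.PosDef := hX.inv
  have : Invertible X⁻¹ := hXi.isUnit.invertible
  have : Invertible Y := hY.isUnit.invertible
  have hdet : IsUnit X.det := (Matrix.isUnit_iff_isUnit_det _).1 hX.isUnit
  have h1 : (fromBlocks X⁻¹ (1 : Matrix e e ℂ) (1 : Matrix e e ℂ)ᴴ Y).PosSemidef := by
    rw [PosDef.fromBlocks₁₁ 1 Y hXi]
    simpa [Matrix.nonsing_inv_nonsing_inv _ hdet] using hXY
  rw [PosDef.fromBlocks₂₂ X⁻¹ 1 hY] at h1
  simpa using h1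

abbrev M2 : Type := Matrix (Fin 2) (Fin 2) ℂ

/-- the adjugate of a positive semidefinite `2 × 2` matrix -/
theorem adj_psd {P : M2} (hP : P.PosSemidef) : P.adjugate.PosSemidef := by
  have h1 := hP.transpose.conjTranspose_mul_mul_same (!![0, 1; -1, 0] : M2)
  have h2 : (!![0, 1; -1, 0] : M2)ᴴ * Pᵀ * (!![0, 1; -1, 0] : M2) = P.adjugate := by
    rw [Matrix.adjugate_fin_two]
    ext i j
    fin_cases i <;> fin_cases j <;>
      simp [Matrix.mul_apply, Fin.sum_univ_two, Matrix.conjTranspose_apply]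
  rwa [h2] at h1

theorem det_real {G : M2} (hG : G.PosDef) : ((G.det.re : ℝ) : ℂ) = G.det ∧ 0 < G.det.re := by
  have h := hG.det_pos
  have h1 := Complex.lt_def.1 h
  refine ⟨?_, h1.1⟩
  apply Complex.ext
  · simp
  · simpa using h1.2

theorem key2 (G K : M2) : (pd G K) • G - G.det • K = G * K.adjugate * G := by
  rw [Matrix.adjugate_fin_two, Matrix.det_fin_two]
  ext i j
  fin_cases i <;> fin_cases j <;>
    simp [Matrix.mul_apply, Fin.sum_univ_two, pd] <;> ring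

/-- `K ≤ tr (G⁻¹ K) G` -/
theorem le_tr {G K : M2} (hG : G.PosDef) (hK : K.PosSemidef) {T : ℝ}
    (hT : pd G K = ((T * G.det.re : ℝ) : ℂ)) : ((T : ℂ) • G - K).PosSemidef := by
  obtain ⟨e1, e2⟩ := det_real hG
  have h1 := (adj_psd hK).conjTranspose_mul_mul_same G
  rw [hG.isHermitian.eq, ← key2, hT] at h1
  have h2 : (T : ℂ) • G - K = (((G.det.re)⁻¹ : ℝ) : ℂ) •
      ((((T * G.det.re : ℝ) : ℂ)) • G - G.det • K) := by
    have h3 : (G.det.re : ℂ) ≠ 0 := by exact_mod_cast e2.ne'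
    rw [← e1]
    simp only [Complex.ofReal_re, smul_sub, smul_smul, Complex.ofReal_mul, Complex.ofReal_inv]
    congr 1
    · congr 1
      field_simp
    · rw [inv_mul_cancel₀ h3, one_smul]
  rw [h2]
  exact h1.smul (by exact_mod_cast (inv_pos.2 e2).le)

theorem smul_psd {P : M2} (hP : P.PosSemidef) {t : ℝ} (ht : 0 ≤ t) : ((t : ℂ) • P).PosSemidef :=
  hP.smul (by exact_mod_cast ht)

theorem adj_eq {X : M2} (hu : IsUnit X.det) : X.adjugate = X.det • X⁻¹ := by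
  rw [Matrix.inv_def, smul_smul, Ring.mul_inverse_cancel _ hu, one_smul]

theorem adj_inv {H : M2} (hH : H.PosDef) : (H⁻¹).adjugate = (((H.det.re)⁻¹ : ℝ) : ℂ) • H := by
  obtain ⟨e1, e2⟩ := det_real hH
  have hu : IsUnit H.det := (Matrix.isUnit_iff_isUnit_det _).1 hH.isUnit
  have h3 : (H⁻¹)⁻¹ = H := Matrix.nonsing_inv_nonsing_inv _ hu
  have h4 : (H⁻¹).adjugate = (H⁻¹).det • (H⁻¹)⁻¹ :=
    adj_eq ((Matrix.isUnit_iff_isUnit_det _).1 hH.inv.isUnit)
  rw [h4, h3, Matrix.det_nonsing_inv, Ring.inverse_eq_inv', ← e1]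
  simp

theorem adj_pos {G : M2} (hG : G.PosDef) : G.adjugate = ((G.det.re : ℝ) : ℂ) • G⁻¹ := by
  obtain ⟨e1, e2⟩ := det_real hG
  have hu : IsUnit G.det := (Matrix.isUnit_iff_isUnit_det _).1 hG.isUnit
  rw [e1, Matrix.inv_def, smul_smul, Ring.mul_inverse_cancel _ hu, one_smul]

/-- **comparison** -/
theorem cmp2 {G H K : M2} (hG : G.PosDef) (hH : H.PosDef) (hK : K.PosSemidef) {c T : ℝ}
    (hc : 0 ≤ c) (h1 : ((c : ℂ) • K - H⁻¹).PosSemidef)
    (hT : pd G K = ((T * G.det.re : ℝ) : ℂ)) :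
    (((c * T : ℝ) : ℂ) • H - G⁻¹).PosSemidef ∧
      (((c * T * (G.det.re * H.det.re) : ℝ) : ℂ) • G⁻¹ - H).PosSemidef := by
  obtain ⟨e1, e2⟩ := det_real hG
  obtain ⟨e3, e4⟩ := det_real hH
  have h2 := le_tr hG hK hT
  -- `H⁻¹ ≤ c T G`
  have h3 : (((c * T : ℝ) : ℂ) • G - H⁻¹).PosSemidef := by
    have := (smul_psd h2 hc).add h1
    have e : ((c : ℂ) • ((T : ℂ) • G - K) + ((c : ℂ) • K - H⁻¹)) =
        ((c * T : ℝ) : ℂ) • G - H⁻¹ := by
      rw [smul_sub, smul_smul, Complex.ofReal_mul]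
      abel
    rwa [e] at this
  -- `c T > 0`
  have hcT : 0 < c * T := by
    by_contra hcon
    push Not at hcon
    have h4 : (-(H⁻¹)).PosSemidef := by
      have h5 := (smul_psd hG.posSemidef (by linarith : 0 ≤ -(c * T))).add h3
      have e : (((-(c * T) : ℝ) : ℂ) • G + (((c * T : ℝ) : ℂ) • G - H⁻¹)) = -(H⁻¹) := by
        rw [Complex.ofReal_neg, neg_smul]
        abel
      rwa [e] at h5
    have h6 := hH.inv.diag_pos (i := 0)
    have h7 := h4.diag_nonneg (i := 0)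
    rw [Matrix.neg_apply] at h7
    have h8 := (Complex.lt_def.1 h6).1
    have h9 := (Complex.le_def.1 h7).1
    simp only [Complex.zero_re, Complex.neg_re] at h8 h9
    linarith
  constructor
  · have hGt : (((c * T : ℝ) : ℂ) • G).PosDef := hG.smul (by exact_mod_cast hcT)
    have h4 := inv_anti hH.inv h3
    have hu : IsUnit H.det := (Matrix.isUnit_iff_isUnit_det _).1 hH.isUnit
    rw [Matrix.nonsing_inv_nonsing_inv _ hu] at h4
    have h5 : (((c * T : ℝ) : ℂ) • G)⁻¹ = (((c * T)⁻¹ : ℝ) : ℂ) • G⁻¹ := by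
      refine Matrix.inv_eq_left_inv ?_
      rw [Matrix.smul_mul, Matrix.mul_smul, smul_smul, ← Complex.ofReal_mul,
        inv_mul_cancel₀ hcT.ne', Complex.ofReal_one, one_smul,
        Matrix.nonsing_inv_mul _ ((Matrix.isUnit_iff_isUnit_det _).1 hG.isUnit)]
    rw [h5] at h4
    have h6 := smul_psd h4 hcT.le
    have e : (((c * T : ℝ) : ℂ) • (H - (((c * T)⁻¹ : ℝ) : ℂ) • G⁻¹)) =
        ((c * T : ℝ) : ℂ) • H - G⁻¹ := by
      rw [smul_sub, smul_smul, ← Complex.ofReal_mul, mul_inv_cancel₀ hcT.ne', Complex.ofReal_one,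
        one_smul]
    rwa [e] at h6
  · have h4 := adj_psd h3
    have h5 : (((c * T : ℝ) : ℂ) • G - H⁻¹).adjugate =
        ((c * T : ℝ) : ℂ) • G.adjugate - (H⁻¹).adjugate := by
      rw [Matrix.adjugate_fin_two, Matrix.adjugate_fin_two, Matrix.adjugate_fin_two]
      ext i j
      fin_cases i <;> fin_cases j <;> simp <;> ring
    rw [h5, adj_pos hG, adj_inv hH] at h4
    have h6 := smul_psd h4 e4.le
    have e : (((H.det.re : ℝ) : ℂ) • (((c * T : ℝ) : ℂ) • (((G.det.re : ℝ) : ℂ) • G⁻¹) -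
        (((H.det.re)⁻¹ : ℝ) : ℂ) • H)) =
        ((c * T * (G.det.re * H.det.re) : ℝ) : ℂ) • G⁻¹ - H := by
      rw [smul_sub, smul_smul, smul_smul, smul_smul, ← Complex.ofReal_mul, ← Complex.ofReal_mul,
        ← Complex.ofReal_mul, mul_inv_cancel₀ e4.ne', Complex.ofReal_one, one_smul]
      congr 3
      ring
    rwa [e] at h6

end Crest.Agent.R257.VL_218
end
end

-- ▼ part R257/VLb_218
section

/-!
R257 / VLb_218 (helper218): comparison of the Kaehler-Einstein metric and of a trial metric.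

* `TT f u φ` : `∑_j tr_ω (e^{-φ_j} ∂∂̄e^{φ_j})`
* `cpr_at`   : `H⁻¹ ≤ C ∑_j e^{-φ_j} ∂∂̄e^{φ_j}`, `det H |η|² = e^{-ψ}`, `u ≤ ψ + C₁` ⟹
  `e^{-V} H₁ ≤ H ≤ e^V H₁`, `V = log (e + C' T)`
* `cum`      : cumulative Jensen inequality
* `vpart`    : the function `V` of `TrialStmt`
-/

set_option autoImplicit false
set_option linter.unusedSectionVars false

open Topology Filter MeasureTheory Set
open scoped ENNReal ContDiff Matrix ComplexOrder

noncomputable section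

namespace Crest.Agent.R257.VL_218

open Crest.Agent.R275.Geo
open Crest.Agent.R273
open Crest.Agent.R273.Defs_333 (lev)
open Crest.Agent.R273.YauDefs_635 (cH lev333_eq_lev145)
open Crest.Agent.R257.Defs_219 Crest.Agent.R257.KED_952 Crest.Agent.R257.KEG_952
open Crest.Agent.R257.V1Defs_822
open Crest.Agent.R257.V1Pe_822 Crest.Agent.R257.UpK_938
open Crest.Agent.R257.Bridge_822 (pd_real)
open Crest.Agent.R257.PN_835 (nsq)
open Crest.Agent.R257.Aff_835 (eta2a)
open Crest.Agent.R257.C2F1_625 (pd)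
open Crest.Agent.R257.LossA_625 (Lv psd_cH)
open Crest.Agent.R257.LossD_309 (HO dV)
open Crest.Agent.R257.KUP_952
open Crest.Agent.R257.MsJ_617
open Crest.Agent.R257.KedM_941 (aem_of_ctL)

variable {f : E3 → ℂ} {r A : ℝ} {u : E3 → ℝ}

/-- `∑_j tr_ω (e^{-φ_j} ∂∂̄e^{φ_j})` -/
def TT (f : E3 → ℂ) (u : E3 → ℝ) {m : ℕ} (φ : Fin m → E3 → ℝ) (x : E3) : ℝ :=
  ∑ j, Real.exp (-φ j x) * mxd f u (fun y => Real.exp (φ j y)) x * Real.exp (-u x)

theorem posDef_cH (hK : KEon f 0 r u) {θ : Cn 2 → E3} {O : Set (Cn 2)} (hP : PE f 0 r θ O)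
    {z : Cn 2} (hz : z ∈ O) : (cH (fun y => u (θ y)) z).PosDef := by
  rw [YauMax_635.cH_eq_hess (smAt (a := u) hK.sm hP hz)]
  exact HessB_333.posDef_hess (smAt (a := u) hK.sm hP hz) (hK.pos θ O hP z hz)

/-- `e^φ` is psh -/
theorem exp_psh {φ : E3 → ℝ} (hφ : SmL f 0 r φ)
    (hp : ∀ θ O, PE f 0 r θ O → ∀ z ∈ O, ∀ v, 0 ≤ lev (fun z => φ (θ z)) z v)
    {θ : Cn 2 → E3} {O : Set (Cn 2)} (hP : PE f 0 r θ O) {z : Cn 2} (hz : z ∈ O) (v : Cn 2) :
    0 ≤ lev (fun y => Real.exp (φ (θ y))) z v := by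
  have h1 : ContDiffAt ℝ ∞ (fun y => φ (θ y)) z := smAt hφ hP hz
  have h2 := hp θ O hP z hz v
  rw [lev333_eq_lev145] at h2 ⊢
  rw [Levi_145.lev_comp_real (χ := Real.exp) (χ' := Real.exp)
    (h1.of_le (WithTop.coe_le_coe.2 (le_top : (2 : ℕ∞) ≤ ⊤)))
    (Eventually.of_forall fun t => Real.hasDerivAt_exp t) (Real.hasDerivAt_exp _) v]
  have h3 := Real.exp_pos (φ (θ z))
  have h4 : 0 ≤ Levi_145.lev (fun y => φ (θ y)) z v := by linarith
  positivity

theorem smL_exp {φ : E3 → ℝ} (hφ : SmL f 0 r φ) : SmL f 0 r (fun y => Real.exp (φ y)) :=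
  smL_comp Real.contDiff_exp hφ

/-- the form `∑_j e^{-φ_j} ∂∂̄e^{φ_j}` -/
def KK {m : ℕ} (φ : Fin m → E3 → ℝ) (θ : Cn 2 → E3) (z : Cn 2) : M2 :=
  ∑ j, ((Real.exp (-φ j (θ z)) : ℝ) : ℂ) • cH (fun y => Real.exp (φ j (θ y))) z

section

variable {m : ℕ} {φ : Fin m → E3 → ℝ} (hφ : ∀ j, SmL f 0 r (φ j))
  (hp : ∀ j, ∀ θ O, PE f 0 r θ O → ∀ z ∈ O, ∀ v, 0 ≤ lev (fun z => φ j (θ z)) z v)

include hφ hp in
theorem KK_psd {θ : Cn 2 → E3} {O : Set (Cn 2)} (hP : PE f 0 r θ O) {z : Cn 2} (hz : z ∈ O) :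
    (KK φ θ z).PosSemidef := by
  unfold KK
  refine Matrix.posSemidef_sum _ fun j _ => ?_
  exact smul_psd (psd_cH (smAt (smL_exp (hφ j)) hP hz) (exp_psh (hφ j) (hp j) hP hz))
    (Real.exp_pos _).le

theorem pd_sum' {m : ℕ} (G : M2) (F : Fin m → M2) : pd G (∑ j, F j) = ∑ j, pd G (F j) := by
  induction m with
  | zero => simp [pd]
  | succ n ih => rw [Fin.sum_univ_succ, Fin.sum_univ_succ, C2F1_625.pd_add, ih]

include hφ hp in
theorem pd_KK (hf : LvlOK f 0 r) (hK : KEon f 0 r u) {θ : Cn 2 → E3} {O : Set (Cn 2)}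
    (hP : PE f 0 r θ O) {z : Cn 2} (hz : z ∈ O) :
    pd (cH (fun y => u (θ y)) z) (KK φ θ z) =
      ((TT f u φ (θ z) * (cH (fun y => u (θ y)) z).det.re : ℝ) : ℂ) := by
  have hG := posDef_cH hK hP hz
  have hd : (cH (fun y => u (θ y)) z).det.re = Real.exp (u (θ z)) * eta2a (n := 2) f θ z := by
    rw [hK.ma θ O hP z hz, Complex.ofReal_re]
  unfold KK TT
  rw [pd_sum', Finset.sum_mul, Complex.ofReal_sum]
  refine Finset.sum_congr rfl fun j _ => ?_
  have h1 := (Crest.Agent.R257.Ked2_397.denStmt f 0 r hf.pos hf.an hf.sm _ _ hP).1 u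
    (fun y => Real.exp (φ j y)) (hK.sm θ O hP) (smL_exp (hφ j) θ O hP) z hz
  have h2 : (cH (fun y => Real.exp (φ j (θ y))) z).IsHermitian :=
    (psd_cH (smAt (smL_exp (hφ j)) hP hz) (exp_psh (hφ j) (hp j) hP hz)).isHermitian
  rw [C2F1_625.pd_smul, pd_real hG.isHermitian h2, ← Complex.ofReal_mul]
  congr 1
  have h1' : (pd (cH (fun y => u (θ y)) z) (cH (fun y => Real.exp (φ j (θ y))) z)).re =
      mxd f u (fun y => Real.exp (φ j y)) (θ z) * eta2a (n := 2) f θ z := h1.symm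
  rw [h1', hd]
  have e5 : Real.exp (-u (θ z)) * Real.exp (u (θ z)) = 1 := by
    rw [← Real.exp_add]
    simp
  linear_combination (-(Real.exp (-φ j (θ z)) * mxd f u (fun y => Real.exp (φ j y)) (θ z) *
    eta2a (n := 2) f θ z)) * e5

include hφ hp in
theorem TT_nonneg (hf : LvlOK f 0 r) (hK : KEon f 0 r u) {x : E3} (hx : x ≠ 0)
    (hr : nsq x < r ^ 2) (hfx : f x = 0) : 0 ≤ TT f u φ x := by
  unfold TT
  refine Finset.sum_nonneg fun j _ => ?_
  have := mxd_nonneg hf hK (smL_exp (hφ j)) (fun θ O hP z hz v => exp_psh (hφ j) (hp j) hP hz v)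
    hx hr hfx
  positivity

theorem psd_mono {X Y : M2} (hX : X.PosSemidef) {a b : ℝ} (hab : a ≤ b)
    (h : ((a : ℂ) • X - Y).PosSemidef) : ((b : ℂ) • X - Y).PosSemidef := by
  have h1 := (smul_psd hX (sub_nonneg.2 hab)).add h
  have e : ((b - a : ℝ) : ℂ) • X + ((a : ℂ) • X - Y) = (b : ℂ) • X - Y := by
    rw [Complex.ofReal_sub, sub_smul]
    abel
  rwa [e] at h1

theorem HK_eq (u : E3 → ℝ) (θ : Cn 2 → E3) (z : Cn 2) :
    HK u θ z = (cH (fun y => u (θ y)) z)⁻¹ := by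
  simp [HO]

include hφ hp in
/-- **the comparison** -/
theorem cpr_at (hf : LvlOK f 0 r) (hK : KEon f 0 r u) {H : Form} {ψ : E3 → ℝ} {C C₁ : ℝ}
    (hC : 0 ≤ C) {θ : Cn 2 → E3} {O : Set (Cn 2)} (hP : PE f 0 r θ O) {z : Cn 2} (hz : z ∈ O)
    (hH : (H θ z).PosDef) (hdet : (H θ z).det.re * eta2a (n := 2) f θ z = Real.exp (-ψ (θ z)))
    (hup : u (θ z) ≤ ψ (θ z) + C₁) (hdual : ((C : ℂ) • KK φ θ z - (H θ z)⁻¹).PosSemidef)
    {V : E3 → ℝ} (hV : C * Real.exp |C₁| * |TT f u φ (θ z)| ≤ Real.exp (V (θ z))) :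
    Cpr u H V θ z := by
  have hG := posDef_cH hK hP hz
  have hd : (cH (fun y => u (θ y)) z).det.re = Real.exp (u (θ z)) * eta2a (n := 2) f θ z := by
    rw [hK.ma θ O hP z hz, Complex.ofReal_re]
  obtain ⟨h1, h2⟩ := cmp2 hG hH (KK_psd hφ hp hP hz) hC hdual (pd_KK hφ hp hf hK hP hz)
  have hT0 : 0 ≤ TT f u φ (θ z) :=
    TT_nonneg hφ hp hf hK (hP.ne z hz) (hP.lt z hz) (hP.par.lvl z hz)
  rw [abs_of_nonneg hT0] at hV
  have hCT : 0 ≤ C * TT f u φ (θ z) := mul_nonneg hC hT0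
  have e1 : 1 ≤ Real.exp |C₁| := Real.one_le_exp (abs_nonneg _)
  unfold Cpr
  rw [HK_eq]
  constructor
  · refine psd_mono hG.inv.posSemidef ?_ h2
    have e2 : (cH (fun y => u (θ y)) z).det.re * (H θ z).det.re =
        Real.exp (u (θ z) - ψ (θ z)) := by
      rw [hd, sub_eq_add_neg, Real.exp_add, ← hdet]
      ring
    rw [e2]
    have e3 : Real.exp (u (θ z) - ψ (θ z)) ≤ Real.exp |C₁| := by
      refine Real.exp_le_exp.2 ?_
      have := le_abs_self C₁
      linarith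
    calc C * TT f u φ (θ z) * Real.exp (u (θ z) - ψ (θ z)) ≤
        C * TT f u φ (θ z) * Real.exp |C₁| := mul_le_mul_of_nonneg_left e3 hCT
      _ = C * Real.exp |C₁| * TT f u φ (θ z) := by ring
      _ ≤ _ := hV
  · refine psd_mono hH.posSemidef ?_ h1
    calc C * TT f u φ (θ z) = C * TT f u φ (θ z) * 1 := by ring
      _ ≤ C * TT f u φ (θ z) * Real.exp |C₁| := mul_le_mul_of_nonneg_left e1 hCT
      _ = C * Real.exp |C₁| * TT f u φ (θ z) := by ring
      _ ≤ _ := hV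

end

/-- **cumulative Jensen inequality** -/
theorem cum {ν : Measure E3} (hu : AEMeasurable u ν) {χ : E3 → ℝ} (hχ0 : ∀ x, 0 ≤ χ x)
    (hχu : AEMeasurable (fun x => χ x) ν) (hV : VOL ν u χ < ⊤) {T : E3 → ℝ}
    (hT : AEMeasurable T ν) (hT0 : ∀ x, 0 ≤ T x) (hone : ∀ᵐ x ∂ν, 1 ≤ A - u x) {C : ℝ} {N : ℕ}
    (hC : 0 ≤ C)
    (hM : ∀ R : ℝ, 1 ≤ R → ∫⁻ x in {x | A - u x ≤ R},
      ENNReal.ofReal (χ x * (T x * Real.exp (u x))) ∂ν ≤ ENNReal.ofReal (C * R ^ N)) :
    ∃ C' : ℝ, ∀ R : ℝ, 1 ≤ R → ∫⁻ x in {x | Real.log (A - u x) ≤ R},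
      ENNReal.ofReal (χ x * Real.log (Real.exp 1 + T x) ^ 2 * Real.exp (u x)) ∂ν ≤
        ENNReal.ofReal (C' * R ^ 2) := by
  set v : ℝ := (VOL ν u χ).toReal with hv
  have hv' : VOL ν u χ = ENNReal.ofReal v := (ENNReal.ofReal_toReal hV.ne).symm
  have hv0 : 0 ≤ v := ENNReal.toReal_nonneg
  refine ⟨2 * (N + 2) ^ 2 * v + 8 * C, fun R hR => ?_⟩
  have hR0 : 0 < R := by linarith
  set m : ℝ := Real.exp (N * R) with hm
  have hm0 : 0 < m := Real.exp_pos _
  have hχe : AEMeasurable (fun x => ENNReal.ofReal (χ x * Real.exp (u x))) ν :=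
    (hχu.mul (Real.measurable_exp.comp_aemeasurable hu)).ennreal_ofReal
  have hTe : AEMeasurable (fun x => ENNReal.ofReal (χ x * (T x * Real.exp (u x)))) ν :=
    (hχu.mul (hT.mul (Real.measurable_exp.comp_aemeasurable hu))).ennreal_ofReal
  have hS : ({x | Real.log (A - u x) ≤ R} : Set E3) ≤ᵐ[ν] {x | A - u x ≤ Real.exp R} := by
    filter_upwards [hone] with x hx h
    have h1 : 0 < A - u x := by linarith
    exact (Real.log_le_iff_le_exp h1).1 h
  have h1R : 1 ≤ Real.exp R := Real.one_le_exp hR0.le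
  calc ∫⁻ x in {x | Real.log (A - u x) ≤ R},
        ENNReal.ofReal (χ x * Real.log (Real.exp 1 + T x) ^ 2 * Real.exp (u x)) ∂ν
      ≤ ∫⁻ x in {x | A - u x ≤ Real.exp R},
        ENNReal.ofReal (χ x * Real.log (Real.exp 1 + T x) ^ 2 * Real.exp (u x)) ∂ν :=
        lintegral_mono_set' hS
    _ ≤ ∫⁻ x in {x | A - u x ≤ Real.exp R},
        (ENNReal.ofReal (2 * Real.log (Real.exp 1 + m) ^ 2) *
          ENNReal.ofReal (χ x * Real.exp (u x)) +
          ENNReal.ofReal (8 / m) * ENNReal.ofReal (χ x * (T x * Real.exp (u x)))) ∂ν := by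
        refine lintegral_mono fun x => ?_
        show _ ≤ ENNReal.ofReal (2 * Real.log (Real.exp 1 + m) ^ 2) *
          ENNReal.ofReal (χ x * Real.exp (u x)) +
          ENNReal.ofReal (8 / m) * ENNReal.ofReal (χ x * (T x * Real.exp (u x)))
        have hx := hT0 x
        rw [← ENNReal.ofReal_mul (by positivity), ← ENNReal.ofReal_mul (by positivity),
          ← ENNReal.ofReal_add
            (mul_nonneg (by positivity) (mul_nonneg (hχ0 x) (Real.exp_pos _).le))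
            (mul_nonneg (by positivity)
              (mul_nonneg (hχ0 x) (mul_nonneg hx (Real.exp_pos _).le)))]
        refine ENNReal.ofReal_le_ofReal ?_
        have h2 := log_sq_le hx hm0
        have h3 : 0 ≤ χ x * Real.exp (u x) := mul_nonneg (hχ0 x) (Real.exp_pos _).le
        calc χ x * Real.log (Real.exp 1 + T x) ^ 2 * Real.exp (u x)
            = Real.log (Real.exp 1 + T x) ^ 2 * (χ x * Real.exp (u x)) := by ring
          _ ≤ (2 * Real.log (Real.exp 1 + m) ^ 2 + 8 * (T x / m)) * (χ x * Real.exp (u x)) :=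
              mul_le_mul_of_nonneg_right h2 h3
          _ = _ := by ring
    _ = ENNReal.ofReal (2 * Real.log (Real.exp 1 + m) ^ 2) *
          ∫⁻ x in {x | A - u x ≤ Real.exp R}, ENNReal.ofReal (χ x * Real.exp (u x)) ∂ν +
          ENNReal.ofReal (8 / m) * ∫⁻ x in {x | A - u x ≤ Real.exp R},
            ENNReal.ofReal (χ x * (T x * Real.exp (u x))) ∂ν := by
        rw [lintegral_add_left' (hχe.const_mul _).restrict, lintegral_const_mul'' _ hχe.restrict,
          lintegral_const_mul'' _ hTe.restrict]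
    _ ≤ ENNReal.ofReal (2 * Real.log (Real.exp 1 + m) ^ 2) * ENNReal.ofReal v +
          ENNReal.ofReal (8 / m) * ENNReal.ofReal (C * Real.exp R ^ N) := by
        gcongr
        · rw [← hv']
          exact setLIntegral_le_lintegral _ _
        · exact hM _ h1R
    _ = ENNReal.ofReal (2 * Real.log (Real.exp 1 + m) ^ 2 * v + 8 / m * (C * Real.exp R ^ N)) := by
        rw [← ENNReal.ofReal_mul (by positivity), ← ENNReal.ofReal_mul (by positivity),
          ← ENNReal.ofReal_add (by positivity) (by positivity)]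
    _ ≤ ENNReal.ofReal ((2 * (N + 2) ^ 2 * v + 8 * C) * R ^ 2) := by
        refine ENNReal.ofReal_le_ofReal ?_
        have e2 : Real.exp R ^ N = m := by
          rw [hm, ← Real.exp_nat_mul]
        have e3 : 8 / m * (C * Real.exp R ^ N) = 8 * C := by
          rw [e2]
          field_simp
        have hNR : 0 ≤ (N : ℝ) * R := by positivity
        have h5 : Real.log (Real.exp 1 + m) ≤ N * R + 2 := log_exp_add hNR
        have h6 : 0 ≤ Real.log (Real.exp 1 + m) := by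
          have := one_le_log hm0.le
          linarith
        have h7 : Real.log (Real.exp 1 + m) ^ 2 ≤ ((N + 2) * R) ^ 2 := by
          refine pow_le_pow_left₀ h6 (h5.trans ?_) 2
          nlinarith
        have h8 : 1 ≤ R ^ 2 := one_le_pow₀ hR
        rw [e3]
        have h9 : 2 * Real.log (Real.exp 1 + m) ^ 2 * v ≤ 2 * ((N + 2) * R) ^ 2 * v := by
          gcongr
        have h10 : 8 * C ≤ 8 * C * R ^ 2 := le_mul_of_one_le_right (by positivity) h8
        calc _ ≤ 2 * ((N + 2) * R) ^ 2 * v + 8 * C * R ^ 2 := add_le_add h9 h10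
          _ = _ := by ring

/-- **the function `V` of `TrialStmt`** -/
theorem vpart (hf : LvlOK f 0 r) (hK : KEon f 0 r u) (hE : Esc f r u A) {ν : Measure E3}
    (hν : IsNu f 0 r ν) (hV : ∀ χ, Cut r χ → VOL ν u χ < ⊤) {m : ℕ} {φ : Fin m → E3 → ℝ}
    (hφ : ∀ j, SmL f 0 r (φ j))
    (hp : ∀ j, ∀ θ O, PE f 0 r θ O → ∀ z ∈ O, ∀ v, 0 ≤ lev (fun z => φ j (θ z)) z v)
    {B : ℝ} {N : ℕ} (hB : 0 ≤ B)
    (hb : ∀ j, ∀ x, f x = 0 → x ≠ 0 → nsq x < r ^ 2 → |φ j x| ≤ B * (A - u x) ^ N)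
    {H : Form} {ψ : E3 → ℝ} {C C₁ : ℝ} (hC : 0 ≤ C)
    (hH : ∀ θ O, PE f 0 r θ O → ∀ z ∈ O, (H θ z).PosDef)
    (hdet : ∀ θ O, PE f 0 r θ O → ∀ z ∈ O,
      (H θ z).det.re * eta2a (n := 2) f θ z = Real.exp (-ψ (θ z)))
    (hup : ∀ x, f x = 0 → x ≠ 0 → nsq x < r ^ 2 → u x ≤ ψ x + C₁)
    (hdual : ∀ θ O, PE f 0 r θ O → ∀ z ∈ O, ((C : ℂ) • KK φ θ z - (H θ z)⁻¹).PosSemidef) :
    ∃ V : E3 → ℝ, (∀ x, 0 ≤ V x) ∧ AEMeasurable V ν ∧
      (∀ θ O, PE f 0 r θ O → ∀ z ∈ O, Cpr u H V θ z) ∧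
      ∀ χ, Cut r χ → ∃ C : ℝ, ∀ R : ℝ, 1 ≤ R →
        ∫⁻ x in {x | Real.log (A - u x) ≤ R},
          ENNReal.ofReal (χ x * V x ^ 2 * Real.exp (u x)) ∂ν ≤ ENNReal.ofReal (C * R ^ 2) := by
  set c : ℝ := C * Real.exp |C₁| with hc
  have hc0 : 0 ≤ c := mul_nonneg hC (Real.exp_pos _).le
  set T : E3 → ℝ := fun x => c * |TT f u φ x| with hT
  have hT0 : ∀ x, 0 ≤ T x := fun x => mul_nonneg hc0 (abs_nonneg _)
  have hum : AEMeasurable u ν := aem_of_ctL (gd hf) hν fun θ O hθ => (hK.sm θ O hθ).continuousOn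
  have hmx : ∀ j, AEMeasurable (mxd f u fun y => Real.exp (φ j y)) ν := fun j =>
    aem_of_ctL (gd hf) hν (V1Top_822.ctl_mxd Crest.Agent.R257.Ked2_397.denStmt hf hK hK.sm
      (smL_exp (hφ j)))
  have hφm : ∀ j, AEMeasurable (φ j) ν := fun j =>
    aem_of_ctL (gd hf) hν fun θ O hθ => (hφ j θ O hθ).continuousOn
  have hTTm : AEMeasurable (TT f u φ) ν := by
    unfold TT
    refine Finset.aemeasurable_fun_sum _ fun j _ => ?_
    exact ((Real.measurable_exp.comp_aemeasurable (hφm j).neg).mul (hmx j)).mul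
      (Real.measurable_exp.comp_aemeasurable hum.neg)
  have hTm : AEMeasurable T ν := (continuous_abs.measurable.comp_aemeasurable hTTm).const_mul c
  have hone : ∀ᵐ x ∂ν, 1 ≤ A - u x := isNu_ae hν fun x h1 h2 h3 => hE.one x h3 h1 h2
  refine ⟨fun x => Real.log (Real.exp 1 + T x), fun x => ?_, ?_, ?_, ?_⟩
  · have := one_le_log (hT0 x)
    linarith
  · exact Real.measurable_log.comp_aemeasurable (aemeasurable_const.add hTm)
  · intro θ O hP z hz
    refine cpr_at hφ hp hf hK hC hP hz (hH θ O hP z hz) (hdet θ O hP z hz)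
      (hup _ (hP.par.lvl z hz) (hP.ne z hz) (hP.lt z hz)) (hdual θ O hP z hz) ?_
    have h1 := hT0 (θ z)
    rw [Real.exp_log (by positivity)]
    have := Real.exp_pos 1
    show T (θ z) ≤ _
    linarith
  · intro χ hχ
    have hχm : AEMeasurable (fun x => χ x) ν := hχ.sm.continuous.measurable.aemeasurable
    have key : ∀ j, ∃ C : ℝ, 0 ≤ C ∧ ∀ R : ℝ, 1 ≤ R →
        ∫⁻ x in {x | A - u x ≤ R}, ENNReal.ofReal
          (χ x * (Real.exp (-φ j x) * mxd f u (fun y => Real.exp (φ j y)) x)) ∂ν ≤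
          ENNReal.ofReal (C * R ^ (2 * N)) := fun j =>
      mass_two hf hK hE hχ hν (hφ j) (hp j) hB (hb j)
    choose D hD0 hD using key
    refine cum hum hχ.nn hχm (hV χ hχ) hTm hT0 hone (C := c * ∑ j, D j) (N := 2 * N)
      (mul_nonneg hc0 (Finset.sum_nonneg fun j _ => hD0 j)) fun R hR => ?_
    have hF : ∀ j, AEMeasurable (fun x => ENNReal.ofReal
        (χ x * (Real.exp (-φ j x) * mxd f u (fun y => Real.exp (φ j y)) x))) ν := fun j =>
      (hχm.mul ((Real.measurable_exp.comp_aemeasurable (hφm j).neg).mul (hmx j))).ennreal_ofReal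
    calc ∫⁻ x in {x | A - u x ≤ R}, ENNReal.ofReal (χ x * (T x * Real.exp (u x))) ∂ν
        ≤ ∫⁻ x in {x | A - u x ≤ R}, ENNReal.ofReal c * ∑ j, ENNReal.ofReal
          (χ x * (Real.exp (-φ j x) * mxd f u (fun y => Real.exp (φ j y)) x)) ∂ν := by
          refine lintegral_mono_ae (ae_restrict_of_ae ?_)
          refine isNu_ae hν fun x hx0 hxr hx => ?_
          have h1 := TT_nonneg hφ hp hf hK hx0 hxr hx
          have h2 : ∀ j ∈ Finset.univ, 0 ≤
              χ x * (Real.exp (-φ j x) * mxd f u (fun y => Real.exp (φ j y)) x) := fun j _ => by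
            have h3 := mxd_nonneg hf hK (smL_exp (hφ j))
              (fun θ O hP z hz v => exp_psh (hφ j) (hp j) hP hz v) hx0 hxr hx
            have h4 := hχ.nn x
            positivity
          rw [← ENNReal.ofReal_sum_of_nonneg h2, ← ENNReal.ofReal_mul hc0]
          refine ENNReal.ofReal_le_ofReal (le_of_eq ?_)
          simp only [hT]
          rw [abs_of_nonneg h1]
          unfold TT
          have e5 : Real.exp (-u x) * Real.exp (u x) = 1 := by
            rw [← Real.exp_add]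
            simp
          rw [show χ x * (c * (∑ j, Real.exp (-φ j x) * mxd f u (fun y => Real.exp (φ j y)) x *
            Real.exp (-u x)) * Real.exp (u x)) = c * (χ x * ((∑ j, Real.exp (-φ j x) *
              mxd f u (fun y => Real.exp (φ j y)) x * Real.exp (-u x)) * Real.exp (u x))) by ring,
            Finset.sum_mul, Finset.mul_sum]
          congr 1
          refine Finset.sum_congr rfl fun j _ => ?_
          rw [mul_assoc (Real.exp (-φ j x) * mxd f u (fun y => Real.exp (φ j y)) x), e5, mul_one]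
      _ = ENNReal.ofReal c * ∑ j, ∫⁻ x in {x | A - u x ≤ R}, ENNReal.ofReal
          (χ x * (Real.exp (-φ j x) * mxd f u (fun y => Real.exp (φ j y)) x)) ∂ν := by
          rw [lintegral_const_mul'' _ (Finset.aemeasurable_fun_sum _ fun j _ => (hF j).restrict),
            lintegral_finsetSum' _ fun j _ => (hF j).restrict]
      _ ≤ ENNReal.ofReal c * ∑ j, ENNReal.ofReal (D j * R ^ (2 * N)) := by
          gcongr with j _
          exact hD j R hR
      _ = ENNReal.ofReal (c * (∑ j, D j) * R ^ (2 * N)) := by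
          rw [← ENNReal.ofReal_sum_of_nonneg (fun j _ => mul_nonneg (hD0 j) (by positivity)),
            ← ENNReal.ofReal_mul hc0, ← Finset.sum_mul]
          congr 1
          ring

end Crest.Agent.R257.VL_218
end
end

-- ▼ part R257/TrA_218
section

/-!
R257 / TrA_218 (helper218): assembly of `TrialStmt` (KUP_952), part 1.

* `trl_mk` : the structure `Trl` from the data of C-LOG (`Dta`, helper39), a metric `H` with the dual
  bound, and the function `φ` dominating the second fundamental form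
-/

set_option autoImplicit false
set_option linter.unusedSectionVars false

open Topology Filter MeasureTheory Set
open scoped ENNReal ContDiff Matrix ComplexOrder

noncomputable section

namespace Crest.Agent.R257.TrA_218

open Crest.Agent.R275.Geo
open Crest.Agent.R273
open Crest.Agent.R273.Defs_333 (lev)
open Crest.Agent.R273.YauDefs_635 (cH)
open Crest.Agent.R257.Defs_219 Crest.Agent.R257.KED_952 Crest.Agent.R257.KEG_952
open Crest.Agent.R257.KEU_952
open Crest.Agent.R257.V1Defs_822 (SmL LvlOK lgh)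
open Crest.Agent.R257.V1Pe_822
open Crest.Agent.R257.PN_835 (nsq)
open Crest.Agent.R257.Aff_835 (eta2a)
open Crest.Agent.R257.C2F2_625 (hV bb)
open Crest.Agent.R257.LossA_625 (Lv)
open Crest.Agent.R257.LossD_309 (HO dV)
open Crest.Agent.R257.KUP_952
open Crest.Agent.R257.CLogD_39
open Crest.Agent.R257.Trl_39 (Dta)
open Crest.Agent.R257.VL_218

variable {f : E3 → ℂ} {r A : ℝ} {u : E3 → ℝ} {ν : Measure E3} {k L : ℕ} {g h : E3 → ℂ}
  {q : Fin L → E3 → ℂ} {s : Fin L → ℕ} {c B : ℝ}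

/-- the weights: the pair and the systems -/
def wts (g h : E3 → ℂ) {L : ℕ} (q : Fin L → E3 → ℂ) (s : Fin L → ℕ) : Fin (L + 1) → E3 → ℝ :=
  Fin.cons (lgh g h) (phq q s)

theorem KK_wts (θ : Cn 2 → E3) (z : Cn 2) : KK (wts g h q s) θ z =
    ((Real.exp (-lgh g h (θ z)) : ℝ) : ℂ) • cH (fun y => Real.exp (lgh g h (θ y))) z +
    ∑ l, ((Real.exp (-phq q s l (θ z)) : ℝ) : ℂ) • cH (fun y => Real.exp (phq q s l (θ y))) z := by
  unfold KK wts
  rw [Fin.sum_univ_succ]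
  simp only [Fin.cons_zero, Fin.cons_succ]

theorem ne_of_pos {x : E3} (h0 : 0 < ‖g x‖ ^ 2 + ‖h x‖ ^ 2) : g x ≠ 0 ∨ h x ≠ 0 := by
  by_contra hcon
  push Not at hcon
  rw [hcon.1, hcon.2] at h0
  simp at h0

theorem wts_sm (hD : Dta f r A u k g h q s c B) (j : Fin (L + 1)) : SmL f 0 r (wts g h q s j) := by
  intro θ O hθ
  refine Fin.cases ?_ (fun l => ?_) j
  · intro z hz
    exact (V1W_822.lgh_at hθ hz (hD.qok.ang _ (hθ.lt z hz)) (hD.qok.anh _ (hθ.lt z hz))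
      (ne_of_pos (hD.qok.gh _ (hθ.par.lvl z hz) (hθ.ne z hz) (hθ.lt z hz)))).1.contDiffWithinAt
  · exact MsJ_617.phq_smL hD.qok l θ O hθ

theorem wts_psh (hD : Dta f r A u k g h q s c B) (j : Fin (L + 1)) (θ : Cn 2 → E3)
    (O : Set (Cn 2)) (hθ : PE f 0 r θ O) (z : Cn 2) (hz : z ∈ O) (v : Cn 2) :
    0 ≤ lev (fun z => wts g h q s j (θ z)) z v := by
  refine Fin.cases ?_ (fun l => ?_) j
  · exact (V1W_822.lgh_at hθ hz (hD.qok.ang _ (hθ.lt z hz)) (hD.qok.anh _ (hθ.lt z hz))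
      (ne_of_pos (hD.qok.gh _ (hθ.par.lvl z hz) (hθ.ne z hz) (hθ.lt z hz)))).2.1 v
  · exact MsJ_617.phq_psh hD.qok l θ O hθ z hz v

theorem wts_bd (hD : Dta f r A u k g h q s c B) (j : Fin (L + 1)) (x : E3) (h1 : f x = 0)
    (h2 : x ≠ 0) (h3 : nsq x < r ^ 2) : |wts g h q s j x| ≤ B * (A - u x) ^ 1 := by
  rw [pow_one]
  refine Fin.cases ?_ (fun l => ?_) j
  · exact hD.lg_le x h1 h2 h3
  · exact hD.ph_le x h1 h2 h3 l

/-- **the trial metric** from its pieces -/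
theorem trl_mk (hf : LvlOK f 0 r) (hK : KEon f 0 r u) (hE : Esc f r u A) (hν : IsNu f 0 r ν)
    (hvol : ∀ χ, Cut r χ → VOL ν u χ < ⊤) (hD : Dta f r A u k g h q s c B) {H : Form}
    (mt : Mt f r H)
    (dg : ∀ θ O, PE f 0 r θ O → ∀ z ∈ O, hV (H θ) (dV g θ) z = Real.exp (lgh g h (θ z)))
    (det : ∀ θ O, PE f 0 r θ O → ∀ z ∈ O,
      (H θ z).det.re * eta2a (n := 2) f θ z = Real.exp (-(lgh g h (θ z) / k)))
    {C : ℝ} (hC : 0 ≤ C)
    (dual : ∀ θ O, PE f 0 r θ O → ∀ z ∈ O, ((C : ℂ) •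
      (((Real.exp (-lgh g h (θ z)) : ℝ) : ℂ) • cH (fun y => Real.exp (lgh g h (θ y))) z +
      ∑ l, ((Real.exp (-phq q s l (θ z)) : ℝ) : ℂ) • cH (fun y => Real.exp (phq q s l (θ y))) z) -
        (H θ z)⁻¹).PosSemidef)
    {φ : E3 → ℝ} (φ_sm : SmL f 0 r φ)
    (φ_psh : ∀ θ O, PE f 0 r θ O → ∀ z ∈ O, ∀ v, 0 ≤ lev (fun y => φ (θ y)) z v)
    (φ_int : ∀ χ, Cut r χ → Integrable (fun x => χ x * mxd f u φ x) ν) {B' : ℝ}
    (hbb : ∀ θ O, PE f 0 r θ O → ∀ z ∈ O,
      ((B' : ℂ) • cH (fun y => φ (θ y)) z - bb (H θ) (dV g θ) z).PosSemidef) :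
    ∃ V, Trl f r A u ν k g h B' H φ V := by
  obtain ⟨V, h1, h2, h3, h4⟩ := vpart hf hK hE hν hvol (φ := wts g h q s) (wts_sm hD)
    (wts_psh hD) hD.B_nn (N := 1) (wts_bd hD) (H := H) (ψ := fun x => lgh g h x / k) (C₁ := B) hC
    mt.pos det hD.up (fun θ O hP z hz => by
      rw [KK_wts]
      exact dual θ O hP z hz)
  exact ⟨V,
    { pr := hD.pr
      g_an := hD.qok.ang
      h_an := hD.qok.anh
      nz := fun x hx => ne_of_pos (hD.qok.gh x hx.1 hx.2.1 hx.2.2)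
      mt := mt
      dg := dg
      det := det
      φ_sm := φ_sm
      φ_psh := φ_psh
      φ_int := φ_int
      bb := hbb
      V_nn := h1
      V_me := h2
      cpr := h3
      V_int := h4 }⟩

end Crest.Agent.R257.TrA_218
end
end

-- ▼ part R257/TrB_218

/-!
R257 / TrB_218 (helper218): assembly of `TrialStmt` (KUP_952), part 2.

* `cH_sqs`  : `∂∂̄ ∑ |q_m|² = ∑ ∂q_m ∂q_mᴴ`
* `dual_of` : the dual bound of the trial metric in the form consumed by `trl_mk`
-/

set_option autoImplicit false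
set_option linter.unusedSectionVars false

open Topology Filter MeasureTheory Set
open scoped ENNReal ContDiff Matrix ComplexOrder

noncomputable section

namespace Crest.Agent.R257.TrA_218

open Crest.Agent.R275.Geo
open Crest.Agent.R273
open Crest.Agent.R273.Defs_333 (lev)
open Crest.Agent.R273.YauDefs_635 (cH)
open Crest.Agent.R257.Defs_219 Crest.Agent.R257.KED_952 Crest.Agent.R257.KEG_952
open Crest.Agent.R257.KEU_952
open Crest.Agent.R257.V1Defs_822 (SmL LvlOK lgh)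
open Crest.Agent.R257.V1Pe_822
open Crest.Agent.R257.PN_835 (nsq)
open Crest.Agent.R257.Aff_835 (eta2a)
open Crest.Agent.R257.LossD_309 (HO dV)
open Crest.Agent.R257.KUP_952
open Crest.Agent.R257.CLogD_39
open Crest.Agent.R257.Trl_39 (Dta)
open Crest.Agent.R257.VL_218

variable {f : E3 → ℂ} {r A : ℝ} {u : E3 → ℝ} {ν : Measure E3} {k L : ℕ} {g h : E3 → ℂ}
  {q : Fin L → E3 → ℂ} {s : Fin L → ℕ} {c B : ℝ}

/-- `v vᴴ` -/
def rk (v : Fin 2 → ℂ) : M2 := Matrix.vecMulVec v (star v)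

theorem rk_psd (v : Fin 2 → ℂ) : (rk v).PosSemidef := Matrix.posSemidef_vecMulVec_self_star v

/-- `∂∂̄ ∑ |q_m|²` -/
theorem cH_sqs {n : ℕ} {F : Fin n → E3 → ℂ} (hF : ∀ m, ∀ x, nsq x < r ^ 2 → AnalyticAt ℂ (F m) x)
    {θ : Cn 2 → E3} {O : Set (Cn 2)} (hP : PE f 0 r θ O) {z : Cn 2} (hz : z ∈ O) :
    cH (fun y => ∑ m, ‖F m (θ y)‖ ^ 2) z = ∑ m, rk (dV (F m) θ z) := by
  have hd : ∀ m, DifferentiableOn ℂ (fun y => F m (θ y)) O := fun m w hw => by
    have h1 : DifferentiableAt ℂ θ w := hP.par.hol.differentiableAt (hP.par.isOpen.mem_nhds hw)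
    exact (((hF m _ (hP.lt w hw)).differentiableAt).comp w h1).differentiableWithinAt
  have han : ∀ m, AnalyticAt ℂ (fun y => F m (θ y)) z := fun m =>
    Crest.Agent.R266.SCV.analyticOnNhd_of_differentiableOn hP.par.isOpen (hd m) z hz
  have hsm : ContDiffAt ℝ ∞ (fun y => ∑ m, ‖F m (θ y)‖ ^ 2) z :=
    Levi_145.c2_sumSq (F := fun m y => F m (θ y)) han ∞
  rw [YauMax_635.cH_eq_hess hsm]
  ext a b
  have h2 := FS_333.hess_sq (F := fun y m => F m (θ y)) hP.par.isOpen hd hz a b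
  rw [Matrix.sum_apply]
  exact h2

theorem cH_exp_lgh (hD : Dta f r A u k g h q s c B) {θ : Cn 2 → E3} {O : Set (Cn 2)}
    (hP : PE f 0 r θ O) {z : Cn 2} (hz : z ∈ O) :
    cH (fun y => Real.exp (lgh g h (θ y))) z = rk (dV g θ z) + rk (dV h θ z) := by
  have e1 : (fun y => Real.exp (lgh g h (θ y))) =ᶠ[𝓝 z]
      fun y => ∑ m, ‖(![g, h] : Fin 2 → E3 → ℂ) m (θ y)‖ ^ 2 := by
    filter_upwards [hP.par.isOpen.mem_nhds hz] with y hy
    rw [Trl_39.lgh_exp (hD.qok.gh _ (hP.par.lvl y hy) (hP.ne y hy) (hP.lt y hy)), Fin.sum_univ_two]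
    rfl
  rw [KEl_835.cH_congr e1, cH_sqs (F := ![g, h]) (fun m x hx => by
    fin_cases m
    · exact hD.qok.ang x hx
    · exact hD.qok.anh x hx) hP hz, Fin.sum_univ_two]
  rfl

theorem cH_exp_phq (hD : Dta f r A u k g h q s c B) {θ : Cn 2 → E3} {O : Set (Cn 2)}
    (hP : PE f 0 r θ O) {z : Cn 2} (hz : z ∈ O) (l : Fin L) :
    (cH (fun y => Real.exp (phq q s l (θ y))) z - rk (dV (q l) θ z)).PosSemidef := by
  have e1 : (fun y => Real.exp (phq q s l (θ y))) =ᶠ[𝓝 z]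
      fun y => ∑ m, ‖(if s m = s l then q m else fun _ => 0) (θ y)‖ ^ 2 := by
    filter_upwards [hP.par.isOpen.mem_nhds hz] with y hy
    have h1 := hD.qok.pos _ (hP.par.lvl y hy) (hP.ne y hy) (hP.lt y hy) l
    unfold phq
    rw [Real.exp_log h1]
    unfold sqq fib
    rw [Finset.sum_filter]
    refine Finset.sum_congr rfl fun m _ => ?_
    split_ifs <;> simp
  have e2 := cH_sqs (f := f) (F := fun m => if s m = s l then q m else fun _ => 0)
    (fun m x hx => by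
      by_cases hm : s m = s l
      · simp only [hm, if_true]
        exact hD.qok.anq m x hx
      · simp only [hm, if_false]
        exact analyticAt_const) hP hz
  rw [KEl_835.cH_congr e1, e2, ← Finset.add_sum_erase Finset.univ _ (Finset.mem_univ l)]
  simp only [if_true, add_sub_cancel_left]
  exact Matrix.posSemidef_sum _ fun m _ => rk_psd _

/-- **the dual bound** in the form consumed by `trl_mk` -/
theorem dual_of (hD : Dta f r A u k g h q s c B) {θ : Cn 2 → E3} {O : Set (Cn 2)}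
    (hP : PE f 0 r θ O) {z : Cn 2} (hz : z ∈ O) {X : M2}
    (hX : (((Real.exp (-lgh g h (θ z)) : ℝ) : ℂ) • rk (dV g θ z) +
      ((Real.exp ((1 + 1 / k) * lgh g h (θ z)) / a2 f g q s (θ z) : ℝ) : ℂ) •
        ∑ l, ((Real.exp (-phq q s l (θ z)) : ℝ) : ℂ) • rk (dV (q l) θ z) - X).PosSemidef) :
    (((max 1 (c ^ 2)⁻¹ : ℝ) : ℂ) •
      (((Real.exp (-lgh g h (θ z)) : ℝ) : ℂ) • cH (fun y => Real.exp (lgh g h (θ y))) z +
      ∑ l, ((Real.exp (-phq q s l (θ z)) : ℝ) : ℂ) • cH (fun y => Real.exp (phq q s l (θ y))) z) -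
        X).PosSemidef := by
  set C : ℝ := max 1 (c ^ 2)⁻¹ with hC
  have hC1 : 1 ≤ C := le_max_left _ _
  have hC0 : 0 ≤ C := zero_le_one.trans hC1
  set E : ℝ := Real.exp ((1 + 1 / k) * lgh g h (θ z)) / a2 f g q s (θ z) with hE
  have hap := hD.a_pos _ (hP.par.lvl z hz) (hP.ne z hz) (hP.lt z hz)
  have hE0 : 0 ≤ E := by positivity
  have hEC : E ≤ C := by
    refine le_trans ?_ (le_max_right _ _)
    have h1 := hD.a_ge _ (hP.par.lvl z hz) (hP.ne z hz) (hP.lt z hz)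
    have hc2 : 0 < c ^ 2 := pow_pos hD.c_pos 2
    rw [hE, div_le_iff₀ hap, ← div_eq_inv_mul, le_div_iff₀ hc2]
    linarith
  -- the two differences
  set S₁ : M2 := ((Real.exp (-lgh g h (θ z)) : ℝ) : ℂ) • cH (fun y => Real.exp (lgh g h (θ y))) z
    with hS₁
  set S₂ : M2 := ∑ l, ((Real.exp (-phq q s l (θ z)) : ℝ) : ℂ) •
    cH (fun y => Real.exp (phq q s l (θ y))) z with hS₂
  set R₁ : M2 := ((Real.exp (-lgh g h (θ z)) : ℝ) : ℂ) • rk (dV g θ z) with hR₁
  set R₂ : M2 := ∑ l, ((Real.exp (-phq q s l (θ z)) : ℝ) : ℂ) • rk (dV (q l) θ z) with hR₂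
  have d1 : (S₁ - R₁).PosSemidef := by
    have e : S₁ - R₁ = ((Real.exp (-lgh g h (θ z)) : ℝ) : ℂ) • rk (dV h θ z) := by
      rw [hS₁, hR₁, cH_exp_lgh hD hP hz, smul_add, add_sub_cancel_left]
    rw [e]
    exact smul_psd (rk_psd _) (Real.exp_pos _).le
  have d2 : (S₂ - R₂).PosSemidef := by
    have e : S₂ - R₂ = ∑ l, ((Real.exp (-phq q s l (θ z)) : ℝ) : ℂ) •
        (cH (fun y => Real.exp (phq q s l (θ y))) z - rk (dV (q l) θ z)) := by
      rw [hS₂, hR₂, ← Finset.sum_sub_distrib]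
      refine Finset.sum_congr rfl fun l _ => ?_
      rw [smul_sub]
    rw [e]
    exact Matrix.posSemidef_sum _ fun l _ =>
      smul_psd (cH_exp_phq hD hP hz l) (Real.exp_pos _).le
  have p1 : R₁.PosSemidef := smul_psd (rk_psd _) (Real.exp_pos _).le
  have p2 : R₂.PosSemidef := Matrix.posSemidef_sum _ fun l _ =>
    smul_psd (rk_psd _) (Real.exp_pos _).le
  have h3 := (((smul_psd d1 hC0).add (smul_psd d2 hC0)).add
    ((smul_psd p1 (sub_nonneg.2 hC1)).add (smul_psd p2 (sub_nonneg.2 hEC)))).add hX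
  have e : (C : ℂ) • (S₁ - R₁) + (C : ℂ) • (S₂ - R₂) +
      (((C - 1 : ℝ) : ℂ) • R₁ + ((C - E : ℝ) : ℂ) • R₂) + (R₁ + (E : ℂ) • R₂ - X) =
      (C : ℂ) • (S₁ + S₂) - X := by
    push_cast
    simp only [smul_sub, smul_add, sub_smul, one_smul]
    abel
  rwa [e] at h3

end Crest.Agent.R257.TrA_218
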