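import Crest.Agent.R257.Trl1_39_Mg
import Crest.Agent.R257.TrB_218
import Crest.Agent.R257.SkelG2_952
import Crest.Agent.R257.OutD_309
import Crest.Agent.R257.Jac_39
import Crest.Agent.R257.MtM_822
import Crest.Agent.R257.C2F2_625

-- ▼ part R257/Trl2_39
section

/-!
# Row 257 (S0395), trial metric (helper39), part 2: the psh function `Φ`

* `SSq r a`   : `a` is a finite sum of squares of analytic functions in the ball
* `Phi f g q s = log |a|² + ∑_l φ_l` (`= log ∑_l |{g, q_l}|² ∏_{m ≠ l} |q|²_m` on the level)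
* `Phi_smL`, `Phi_psh`, `Phi_le`, `Phi_int`
-/

set_option autoImplicit false
set_option linter.unusedSectionVars false

open Set Filter Topology Complex MeasureTheory
open scoped ContDiff ComplexConjugate Matrix ComplexOrder

namespace Crest.Agent.R257.Trl_39

open Crest.Agent.R275.Geo
open Crest.Agent.R273
open Crest.Agent.R273.YauDefs_635 (cH lev333_eq_lev145 inC)
open Crest.Agent.R257.PN_835 (nsq)
open Crest.Agent.R257.Defs_219 Crest.Agent.R257.KED_952 Crest.Agent.R257.KEG_952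
open Crest.Agent.R257.KEU_952
open Crest.Agent.R257.V1Defs_822 (SmL LvlOK lgh XUStmt)
open Crest.Agent.R257.CLogD_39
open Crest.Agent.R257.PairK_39

noncomputable section

/-- finite sums of squares of analytic functions in the ball of radius `r` -/
def SSq (r : ℝ) (a : E3 → ℝ) : Prop := ∃ (ι : Type) (_ : Fintype ι) (F : ι → E3 → ℂ),
  (∀ j x, nsq x < r ^ 2 → AnalyticAt ℂ (F j) x) ∧ ∀ x, nsq x < r ^ 2 → a x = ∑ j, ‖F j x‖ ^ 2

section alg

variable {r : ℝ} {a b : E3 → ℝ}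

theorem SSq.add (ha : SSq r a) (hb : SSq r b) : SSq r fun x => a x + b x := by
  obtain ⟨ι, _, F, hF, ea⟩ := ha
  obtain ⟨κ, _, G, hG, eb⟩ := hb
  refine ⟨ι ⊕ κ, inferInstance, Sum.elim F G, ?_, fun x hx => ?_⟩
  · rintro (j | j) x hx
    · exact hF j x hx
    · exact hG j x hx
  · show a x + b x = _
    rw [ea x hx, eb x hx, Fintype.sum_sum_type]
    rfl

theorem SSq.mul (ha : SSq r a) (hb : SSq r b) : SSq r fun x => a x * b x := by
  obtain ⟨ι, _, F, hF, ea⟩ := ha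
  obtain ⟨κ, _, G, hG, eb⟩ := hb
  refine ⟨ι × κ, inferInstance, fun p x => F p.1 x * G p.2 x,
    fun p x hx => (hF p.1 x hx).mul (hG p.2 x hx), fun x hx => ?_⟩
  show a x * b x = _
  rw [ea x hx, eb x hx, Finset.sum_mul_sum, Fintype.sum_prod_type]
  refine Finset.sum_congr rfl fun i _ => Finset.sum_congr rfl fun j _ => ?_
  rw [norm_mul, mul_pow]

theorem SSq.nsq {F : E3 → ℂ} (hF : ∀ x, PN_835.nsq x < r ^ 2 → AnalyticAt ℂ F x) :
    SSq r fun x => ‖F x‖ ^ 2 :=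
  ⟨Unit, inferInstance, fun _ => F, fun _ => hF, fun x _ => by simp⟩

theorem SSq.zero : SSq r fun _ => 0 :=
  ⟨Empty, inferInstance, fun j => j.elim, fun j => j.elim, fun x _ => by simp⟩

theorem SSq.one : SSq r fun _ => 1 :=
  ⟨Unit, inferInstance, fun _ _ => 1, fun _ _ _ => analyticAt_const, fun x _ => by simp⟩

theorem SSq.sum {ι : Type*} (S : Finset ι) {a : ι → E3 → ℝ} (h : ∀ i ∈ S, SSq r (a i)) :
    SSq r fun x => ∑ i ∈ S, a i x := by
  classical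
  induction S using Finset.induction_on with
  | empty => simpa using SSq.zero
  | insert i S hi ih =>
    simp only [Finset.sum_insert hi]
    exact (h i (Finset.mem_insert_self i S)).add (ih fun j hj => h j (Finset.mem_insert_of_mem hj))

theorem SSq.prod {ι : Type*} (S : Finset ι) {a : ι → E3 → ℝ} (h : ∀ i ∈ S, SSq r (a i)) :
    SSq r fun x => ∏ i ∈ S, a i x := by
  classical
  induction S using Finset.induction_on with
  | empty => simpa using SSq.one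
  | insert i S hi ih =>
    simp only [Finset.prod_insert hi]
    exact (h i (Finset.mem_insert_self i S)).mul (ih fun j hj => h j (Finset.mem_insert_of_mem hj))

variable {f : E3 → ℂ}

/-- the Levi form of the logarithm of a sum of squares -/
theorem SSq.log_sm_psh (ha : SSq r a) {θ : Cn 2 → E3} {O : Set (Cn 2)} (hP : PE f 0 r θ O)
    {z : Cn 2} (hz : z ∈ O) (h0 : 0 < a (θ z)) :
    ContDiffAt ℝ ∞ (fun z => Real.log (a (θ z))) z ∧
      ∀ v, 0 ≤ Defs_333.lev (fun y => Real.log (a (θ y))) z v := by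
  obtain ⟨ι, _, F, hF, e⟩ := ha
  have hev : (fun y => Real.log (a (θ y))) =ᶠ[𝓝 z]
      fun y => Real.log (Levi_145.sumSq (fun j y => F j (θ y)) y) := by
    filter_upwards [hP.par.isOpen.mem_nhds hz] with y hy
    rw [e _ (hP.lt y hy)]
    rfl
  have hFa : ∀ j, AnalyticAt ℂ (fun y => F j (θ y)) z := fun j =>
    (hF j _ (hP.lt z hz)).comp (anal_par hP.par hz)
  have hne : ∃ j, F j (θ z) ≠ 0 := by
    by_contra hcon
    push Not at hcon
    rw [e _ (hP.lt z hz)] at h0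
    have : ∑ j, ‖F j (θ z)‖ ^ 2 = 0 := Finset.sum_eq_zero fun j _ => by rw [hcon j]; simp
    linarith
  constructor
  · refine ContDiffAt.congr_of_eventuallyEq ?_ hev
    exact (Levi_145.c2_sumSq hFa ∞).log
      (Levi_145.sumSq_pos (F := fun j y => F j (θ y)) hne).ne'
  · intro v
    rw [lev333_eq_lev145, Levi_145.lev_congr hev]
    have := Levi_145.lev_log_sumSq_nonneg (F := fun j y => F j (θ y)) hFa hne v
    linarith

theorem SSq.continuousOn (ha : SSq r a) : ContinuousOn a {x | PN_835.nsq x < r ^ 2} := by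
  obtain ⟨ι, _, F, hF, e⟩ := ha
  refine ContinuousOn.congr ?_ fun x hx => e x hx
  exact continuousOn_finsetSum _ fun j _ x hx =>
    ((hF j x hx).continuousAt.norm.pow 2).continuousWithinAt

end alg

/-- the function `Φ = log |a|² + ∑_l φ_l` -/
def Phi (f g : E3 → ℂ) {L : ℕ} (q : Fin L → E3 → ℂ) (s : Fin L → ℕ) (x : E3) : ℝ :=
  Real.log (a2 f g q s x) + ∑ l, phq q s l x

/-- `|a|² ∏ |q|²_l` -/
def aP (f g : E3 → ℂ) {L : ℕ} (q : Fin L → E3 → ℂ) (s : Fin L → ℕ) (x : E3) : ℝ :=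
  ∑ l, ‖Dt f g (q l) x‖ ^ 2 * ∏ m ∈ Finset.univ.erase l, sqq q s m x

variable {f : E3 → ℂ} {r A : ℝ} {u : E3 → ℝ} {k : ℕ} {g h : E3 → ℂ} {L : ℕ}
  {q : Fin L → E3 → ℂ} {s : Fin L → ℕ} {c B : ℝ}

theorem aP_eq {x : E3} (h : ∀ l, 0 < sqq q s l x) :
    aP f g q s x = a2 f g q s x * ∏ l, sqq q s l x := by
  unfold aP a2
  rw [Finset.sum_mul]
  refine Finset.sum_congr rfl fun l _ => ?_
  rw [← Finset.mul_prod_erase Finset.univ (fun m => sqq q s m x) (Finset.mem_univ l)]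
  have := (h l).ne'
  field_simp

theorem Phi_eq {x : E3} (h : ∀ l, 0 < sqq q s l x) (ha : 0 < a2 f g q s x) :
    0 < aP f g q s x ∧ Phi f g q s x = Real.log (aP f g q s x) := by
  have hp : 0 < ∏ l, sqq q s l x := Finset.prod_pos fun l _ => h l
  rw [aP_eq h]
  refine ⟨mul_pos ha hp, ?_⟩
  unfold Phi phq
  rw [Real.log_mul ha.ne' hp.ne', Real.log_prod (fun l _ => (h l).ne')]

theorem an_gr {F : E3 → ℂ} {x : E3} (hF : AnalyticAt ℂ F x) (i : Fin 3) :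
    AnalyticAt ℂ (fun y => gr F y i) x := by
  have h1 : AnalyticAt ℂ (fderiv ℂ F) x := hF.fderiv
  exact ((ContinuousLinearMap.apply ℂ ℂ (Pi.single i (1 : ℂ) : E3)).analyticAt _).comp h1

theorem an_Dt {F G : E3 → ℂ} {x : E3} (hf : AnalyticAt ℂ f x) (hF : AnalyticAt ℂ F x)
    (hG : AnalyticAt ℂ G x) : AnalyticAt ℂ (Dt f F G) x := by
  have e : Dt f F G = fun y => gr f y 0 * gr F y 1 * gr G y 2 - gr f y 0 * gr F y 2 * gr G y 1
      - gr f y 1 * gr F y 0 * gr G y 2 + gr f y 1 * gr F y 2 * gr G y 0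
      + gr f y 2 * gr F y 0 * gr G y 1 - gr f y 2 * gr F y 1 * gr G y 0 := by
    funext y
    unfold Dt
    rw [Matrix.det_fin_three]
    rfl
  rw [e]
  have af := an_gr hf
  have aF := an_gr hF
  have aG := an_gr hG
  exact (((((((af 0).mul (aF 1)).mul (aG 2)).sub (((af 0).mul (aF 2)).mul (aG 1))).sub
    (((af 1).mul (aF 0)).mul (aG 2))).add (((af 1).mul (aF 2)).mul (aG 0))).add
    (((af 2).mul (aF 0)).mul (aG 1))).sub (((af 2).mul (aF 1)).mul (aG 0))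

theorem ssq_aP (hf : ∀ x, nsq x < r ^ 2 → AnalyticAt ℂ f x)
    (hg : ∀ x, nsq x < r ^ 2 → AnalyticAt ℂ g x)
    (hq : ∀ l x, nsq x < r ^ 2 → AnalyticAt ℂ (q l) x) : SSq r (aP f g q s) := by
  unfold aP
  refine SSq.sum _ fun l _ => (SSq.nsq fun x hx => an_Dt (hf x hx) (hg x hx) (hq l x hx)).mul
    (SSq.prod _ fun m _ => ?_)
  unfold sqq
  exact SSq.sum _ fun n _ => SSq.nsq (hq n)

theorem Dta.ssq (hD : Dta f r A u k g h q s c B) (hL : LvlOK f 0 r) : SSq r (aP f g q s) :=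
  ssq_aP hL.an hD.qok.ang hD.qok.anq

theorem Dta.phi_eq (hD : Dta f r A u k g h q s c B) {x : E3} (h1 : f x = 0) (h2 : x ≠ 0)
    (h3 : nsq x < r ^ 2) :
    0 < aP f g q s x ∧ Phi f g q s x = Real.log (aP f g q s x) :=
  Phi_eq (hD.qok.pos x h1 h2 h3) (hD.a_pos x h1 h2 h3)

theorem Dta.phi_ev (hD : Dta f r A u k g h q s c B) {θ : Cn 2 → E3} {O : Set (Cn 2)}
    (hP : PE f 0 r θ O) {z : Cn 2} (hz : z ∈ O) :
    (fun y => Phi f g q s (θ y)) =ᶠ[𝓝 z] fun y => Real.log (aP f g q s (θ y)) := by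
  filter_upwards [hP.par.isOpen.mem_nhds hz] with y hy
  exact (hD.phi_eq (hP.par.lvl y hy) (hP.ne y hy) (hP.lt y hy)).2

theorem Dta.phi_smL (hD : Dta f r A u k g h q s c B) (hL : LvlOK f 0 r) :
    SmL f 0 r (Phi f g q s) := by
  intro θ O hP z hz
  have h1 := (hD.ssq hL).log_sm_psh hP hz
    (hD.phi_eq (hP.par.lvl z hz) (hP.ne z hz) (hP.lt z hz)).1
  exact (h1.1.congr_of_eventuallyEq (hD.phi_ev hP hz)).contDiffWithinAt

theorem Dta.phi_psh (hD : Dta f r A u k g h q s c B) (hL : LvlOK f 0 r) (θ : Cn 2 → E3)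
    (O : Set (Cn 2)) (hP : PE f 0 r θ O) (z : Cn 2) (hz : z ∈ O) (v : Cn 2) :
    0 ≤ Defs_333.lev (fun y => Phi f g q s (θ y)) z v := by
  have h1 := (hD.ssq hL).log_sm_psh hP hz
    (hD.phi_eq (hP.par.lvl z hz) (hP.ne z hz) (hP.lt z hz)).1
  have h2 := h1.2 v
  rw [lev333_eq_lev145] at h2 ⊢
  rwa [Levi_145.lev_congr (hD.phi_ev hP hz)]

theorem isCompact_nsq_le (ρ : ℝ) : IsCompact {x : E3 | nsq x ≤ ρ ^ 2} := by
  refine Metric.isCompact_of_isClosed_isBounded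
    (isClosed_le PN_835.continuous_nsq continuous_const) ?_
  refine (Metric.isBounded_ball (x := (0 : E3)) (r := |ρ| + 1)).subset fun x hx => ?_
  rw [mem_ball_zero_iff]
  refine norm_lt_of (by positivity) (lt_of_le_of_lt hx ?_)
  rw [← sq_abs ρ]
  nlinarith [abs_nonneg ρ]

theorem Dta.phi_le (hD : Dta f r A u k g h q s c B) (hL : LvlOK f 0 r) {ρ : ℝ} (h0 : 0 ≤ ρ)
    (hρ : ρ < r) : ∃ C : ℝ, ∀ x, f x = 0 → x ≠ 0 → nsq x < ρ ^ 2 → Phi f g q s x ≤ C := by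
  have hsub : {x : E3 | nsq x ≤ ρ ^ 2} ⊆ {x | nsq x < r ^ 2} := fun x hx =>
    lt_of_le_of_lt hx (pow_lt_pow_left₀ hρ h0 two_ne_zero)
  obtain ⟨C, hC⟩ := (isCompact_nsq_le ρ).bddAbove_image ((hD.ssq hL).continuousOn.mono hsub)
  refine ⟨Real.log C, fun x h1 h2 h3 => ?_⟩
  have h4 := hD.phi_eq h1 h2 (hsub h3.le)
  rw [h4.2]
  exact Real.log_le_log h4.1 (hC ⟨x, h3.le, rfl⟩)

/-- **`∫ χ ∂∂̄u ∧ ∂∂̄Φ < ∞`** -/
theorem Dta.phi_int (hD : Dta f r A u k g h q s c B) (hL : LvlOK f 0 r) (hK : KEon f 0 r u)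
    (hE : Esc f r u A) {ν : Measure E3} (hν : IsNu f 0 r ν) {ρ : ℝ} (h0 : 0 < ρ) (hρ : ρ < r) :
    ∀ χ, Cut ρ χ → Integrable (fun x => χ x * mxd f u (Phi f g q s) x)
      (ν.restrict {x | nsq x < ρ ^ 2}) := by
  intro χ hχ
  obtain ⟨C, hC⟩ := hD.phi_le hL h0.le hρ
  have hL' := UpK_938.LvlOK.mono hL h0 hρ.le
  have hD' := hD.mono h0.le hρ.le
  exact MsJ_617.mass_fin hL' (KEon.mono' hK h0.le hρ.le) (Esc.mono' hE h0.le hρ.le) hχ
    (UpK_938.IsNu.mono hν h0 hρ.le) (hD'.phi_smL hL') (hD'.phi_psh hL') hC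

end

end Crest.Agent.R257.Trl_39
end

-- ▼ part R257/TrC_218
section

/-!
R257 / TrC_218 (helper218): assembly of `TrialStmt` (KUP_952), part 3.

* `MetStmt`  : the trial metric [540, 560, 844]
* `trial_of` : `XLStmt`, `MetStmt` ⟹ `TrialStmt`
-/

set_option autoImplicit false
set_option linter.unusedSectionVars false

open Topology Filter MeasureTheory Set
open scoped ENNReal ContDiff Matrix ComplexOrder

noncomputable section

namespace Crest.Agent.R257.TrA_218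

open Crest.Agent.R275.Geo
open Crest.Agent.R273
open Crest.Agent.R273.Defs_333 (lev)
open Crest.Agent.R273.YauDefs_635 (cH)
open Crest.Agent.R257.Defs_219 Crest.Agent.R257.KED_952 Crest.Agent.R257.KEG_952
open Crest.Agent.R257.KEU_952
open Crest.Agent.R257.V1Defs_822 (SmL LvlOK lgh)
open Crest.Agent.R257.V1Pe_822
open Crest.Agent.R257.PN_835 (nsq)
open Crest.Agent.R257.Aff_835 (eta2a)
open Crest.Agent.R257.C2F2_625 (hV bb)
open Crest.Agent.R257.LossD_309 (HO dV)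
open Crest.Agent.R257.KUP_952
open Crest.Agent.R257.CLogD_39
open Crest.Agent.R257.Trl_39 (Dta data_of_xl Phi)
open Crest.Agent.R257.VL_218

/-- the trial metric of post 3449 [540, 560, 844] -/
def MetStmt : Prop := ∀ (f : E3 → ℂ) (r A : ℝ) (u : E3 → ℝ) (k : ℕ) (g h : E3 → ℂ) (L : ℕ)
  (q : Fin L → E3 → ℂ) (s : Fin L → ℕ) (c B : ℝ), LvlOK f 0 r → Dta f r A u k g h q s c B →
  ∃ (H : Form) (B' : ℝ), Mt f r H ∧
    (∀ θ O, PE f 0 r θ O → ∀ z ∈ O, hV (H θ) (dV g θ) z = Real.exp (lgh g h (θ z))) ∧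
    (∀ θ O, PE f 0 r θ O → ∀ z ∈ O,
      (H θ z).det.re * eta2a (n := 2) f θ z = Real.exp (-(lgh g h (θ z) / k))) ∧
    (∀ θ O, PE f 0 r θ O → ∀ z ∈ O, (((Real.exp (-lgh g h (θ z)) : ℝ) : ℂ) • rk (dV g θ z) +
      ((Real.exp ((1 + 1 / k) * lgh g h (θ z)) / a2 f g q s (θ z) : ℝ) : ℂ) •
        ∑ l, ((Real.exp (-phq q s l (θ z)) : ℝ) : ℂ) • rk (dV (q l) θ z) -
          (H θ z)⁻¹).PosSemidef) ∧
    (∀ θ O, PE f 0 r θ O → ∀ z ∈ O,
      ((B' : ℂ) • cH (fun y => Phi f g q s (θ y)) z - bb (H θ) (dV g θ) z).PosSemidef)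

/-- the coefficient of the bound of the second fundamental form -/
theorem coef_le {f : E3 → ℂ} {r A : ℝ} {u : E3 → ℝ} {k : ℕ} {g h : E3 → ℂ} {L : ℕ}
    {q : Fin L → E3 → ℂ} {s : Fin L → ℕ} {c B : ℝ} (hD : Dta f r A u k g h q s c B) {x : E3}
    (h1 : f x = 0) (h2 : x ≠ 0) (h3 : nsq x < r ^ 2) :
    Real.exp ((2 + 1 / k) * lgh g h x) * J2 f q s x / a2 f g q s x ^ 2 ≤ (c ^ 3)⁻¹ := by
  have hc := hD.c_pos
  have ha := hD.a_pos x h1 h2 h3
  have hJ := hD.J_pos x h1 h2 h3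
  have h4 := hD.i x h1 h2 h3
  have h5 := hD.a_ge x h1 h2 h3
  set E := Real.exp (lgh g h x) with hE
  set F := Real.exp ((1 + 1 / (k : ℝ)) * lgh g h x) with hF
  have hE0 : 0 < E := Real.exp_pos _
  have hF0 : 0 < F := Real.exp_pos _
  have e1 : Real.exp ((2 + 1 / (k : ℝ)) * lgh g h x) = E * F := by
    rw [hE, hF, ← Real.exp_add]
    congr 1
    ring
  rw [e1, div_le_iff₀ (by positivity), ← div_eq_inv_mul, le_div_iff₀ (by positivity)]
  calc E * F * J2 f q s x * c ^ 3 = (c * E * J2 f q s x) * (c ^ 2 * F) := by ring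
    _ ≤ a2 f g q s x * a2 f g q s x := mul_le_mul h4 h5 (by positivity) ha.le
    _ = _ := by ring

/-- **`TrialStmt`** -/
theorem trial_of (xl : XLStmt) (met : MetStmt) : TrialStmt := by
  intro f r C A u ν hiso hf hK _ hν hm hE hvol
  obtain ⟨r', k, g, h, L, q, s, c, B, h0, h1, hD⟩ := data_of_xl xl hiso hf hK hν hm hE hvol
  set ρ : ℝ := r' / 2 with hρ
  have p0 : 0 < ρ := half_pos h0
  have p1 : ρ < r' := half_lt_self h0
  have p2 : ρ ≤ r := (p1.trans h1).le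
  have hDρ : Dta f ρ A u k g h q s c B := hD.mono p0.le p1.le
  have hf' : LvlOK f 0 r' := lvl_mono hf h0 h1.le
  have hfρ : LvlOK f 0 ρ := lvl_mono hf p0 p2
  have hKρ : KEon f 0 ρ u := keon_mono hK p0.le p2
  have hEρ : Esc f ρ u A := SkelG_952.esc_mono p0.le p2 hE
  have hνρ : IsNu f 0 ρ (ν.restrict {x | nsq x < ρ ^ 2}) := SkelG_952.isnu_rs p0.le p2 hν
  have hvolρ : ∀ χ, Cut ρ χ → VOL (ν.restrict {x | nsq x < ρ ^ 2}) u χ < ⊤ := fun χ hχ =>
    lt_of_le_of_lt (lintegral_mono' Measure.restrict_le_self le_rfl)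
      (hvol χ (SkelG_952.cut_mono p2 hχ))
  obtain ⟨H, B', mt, dg, det, dual, hbb⟩ := met f ρ A u k g h L q s c B hfρ hDρ
  have hres : (ν.restrict {x | nsq x < r' ^ 2}).restrict {x | nsq x < ρ ^ 2} =
      ν.restrict {x | nsq x < ρ ^ 2} := by
    rw [Measure.restrict_restrict (SkelG_952.isOpen_bl ρ).measurableSet]
    congr 1
    ext x
    exact ⟨fun hx => hx.1, fun hx => ⟨hx, lt_trans (show nsq x < ρ ^ 2 from hx)
      (pow_lt_pow_left₀ p1 p0.le two_ne_zero)⟩⟩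
  have hphi : ∀ χ, Cut ρ χ → Integrable (fun x => χ x * mxd f u (Phi f g q s) x)
      (ν.restrict {x | nsq x < ρ ^ 2}) := by
    intro χ hχ
    have := hD.phi_int hf' (keon_mono hK h0.le h1.le) (SkelG_952.esc_mono h0.le h1.le hE)
      (SkelG_952.isnu_rs h0.le h1.le hν) p0 p1 χ hχ
    rwa [SkelG_952.rs, hres] at this
  have hC : 0 ≤ max 1 (c ^ 2)⁻¹ := zero_le_one.trans (le_max_left _ _)
  obtain ⟨V, hV⟩ := trl_mk hfρ hKρ hEρ hνρ hvolρ hDρ mt dg det hC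
    (fun θ O hP z hz => dual_of hDρ hP hz (dual θ O hP z hz)) (hDρ.phi_smL hfρ)
    (hDρ.phi_psh hfρ) hphi hbb
  exact ⟨ρ, k, g, h, B', H, Phi f g q s, V, p0, p2, hV⟩

/-- `TrialStmt` from helper68's `CLogStmt` -/
theorem trial_of_clog (cl : CLog_68.CLogStmt) (met : MetStmt) : TrialStmt :=
  trial_of (PairK_39.xl_of_clog cl) met

end Crest.Agent.R257.TrA_218
end
end

-- ▼ part R257/H0A_540
section

/-!
# R257 (S0395), trial metric (helper540), part A: Hermitian metrics on `Ω¹` of a level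

* `Fr T w`      : transition matrix `((Jac T w)ᵀ)⁻¹` of `Ω¹`
* `MO f s r H`  : `H θ z`, smooth positive definite, with the transition law of `Ω¹`
* `mo_HO`       : `MO f s r (HO u φ)`
* `MO.bun`      : `Bun f s r H (dV g)`
* `scl f P`     : a chart independent scalar as a function on the level
* `U0`, `N0`    : `(H θ z).det.re * |η|² = exp (-U0 (θ z))`, `N0 (θ z) = hV (H θ) (dV g θ) z`
* `MO.hess_det` : `∂∂̄ log det H = - ∂∂̄ U0`
* `MO.Gm_eq`    : the form `Γ` in terms of `U0`, `N0`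
* `MO.glue`     : `ζ H + (1 - ζ) H'`
-/

set_option autoImplicit false
set_option linter.unusedSectionVars false

open Set Filter Topology Complex MeasureTheory
open scoped ContDiff Matrix ComplexConjugate ComplexOrder ENNReal

namespace Crest.Agent.R257.H0_540

open Crest.Agent.R275.Geo Crest.Agent.R275.EDR890
open Crest.Agent.R273.Fock_243 Crest.Agent.R273.Calc_243
open Crest.Agent.R273.Bkn_243 Crest.Agent.R273.Pos_243 Crest.Agent.R273.BochA_101
open Crest.Agent.R273.BochB_101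
open Crest.Agent.R273.BochC_101 Crest.Agent.R273.BochD_101
open Crest.Agent.R273.Hess_333 Crest.Agent.R273.HessB_333
open Crest.Agent.R273.Defs_333 (lev)
open Crest.Agent.R273.YauDefs_635 (cH)
open Crest.Agent.R273.YauMax_635 (cH_eq_hess)
open Crest.Agent.R257.C2F1_625 Crest.Agent.R257.C2F2_625 Crest.Agent.R257.C2F3_625
open Crest.Agent.R257.C2F4_335 Crest.Agent.R257.C2F5_335 Crest.Agent.R257.C2F6_335
open Crest.Agent.R257.Defs_219
open Crest.Agent.R257.PN_835 (nsq)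
open Crest.Agent.R257.Aff_835 (eta2a)
open Crest.Agent.R257.KED_952 Crest.Agent.R257.Ked1_397 Crest.Agent.R257.Ked2_397
open Crest.Agent.R257.V1Defs_822 (SmL LvlOK)
open Crest.Agent.R257.OutA_309 Crest.Agent.R257.OutB_309 Crest.Agent.R257.LossD_309
open Crest.Agent.R257.OutC_309 Crest.Agent.R257.OutD_309

noncomputable section

/-- a family of matrix functions, one for each parametrisation -/
abbrev Met := (Cn 2 → E3) → Cn 2 → Matrix (Fin 2) (Fin 2) ℂ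

/-- transition matrix of `Ω¹` -/
def Fr (T : Cn 2 → Cn 2) (w : Cn 2) : Matrix (Fin 2) (Fin 2) ℂ := ((Jac T w)ᵀ)⁻¹

/-- Hermitian metric on `Ω¹` of the level -/
structure MO (f : E3 → ℂ) (s : ℂ) (r : ℝ) (H : Met) : Prop where
  sm : ∀ θ O, PE f s r θ O → ∀ z ∈ O, SmM z (H θ)
  pos : ∀ θ O, PE f s r θ O → ∀ z ∈ O, (H θ z).PosDef
  tr : ∀ θ O, PE f s r θ O → ∀ (θ' : Cn 2 → E3) (z' : Cn 2) (T : Cn 2 → Cn 2),
      (∀ᶠ w in 𝓝 z', DifferentiableAt ℂ T w) → T z' ∈ O →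
      (∀ᶠ w in 𝓝 z', T w ∈ O ∧ θ' w = θ (T w)) → (Jac T z').det ≠ 0 →
      ∀ᶠ w in 𝓝 z', H θ' w = (Fr T w)ᴴ * H θ (T w) * Fr T w

variable {f : E3 → ℂ} {s : ℂ} {r : ℝ} {H H' : Met}

/-! ### the transition matrix -/

section
variable {T : Cn 2 → Cn 2} {z' : Cn 2}

theorem Jac_hol (hT : ∀ᶠ w in 𝓝 z', DifferentiableAt ℂ T w) (i j : Fin 2) :
    ∀ᶠ y in 𝓝 z', DifferentiableAt ℂ (fun w => Jac T w i j) y := J_hol hT i j

theorem det_ev (hT : ∀ᶠ w in 𝓝 z', DifferentiableAt ℂ T w) (hdet : (Jac T z').det ≠ 0) :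
    ∀ᶠ y in 𝓝 z', (Jac T y).det ≠ 0 := by
  have h1 : ContinuousAt (fun y => (Jac T y).det) z' := by
    have : (fun y => (Jac T y).det) = fun y => Jac T y 0 0 * Jac T y 1 1 -
        Jac T y 0 1 * Jac T y 1 0 := funext fun y => Matrix.det_fin_two _
    rw [this]
    exact ((Jac_hol hT 0 0).self_of_nhds.continuousAt.mul
      (Jac_hol hT 1 1).self_of_nhds.continuousAt).sub
      ((Jac_hol hT 0 1).self_of_nhds.continuousAt.mul (Jac_hol hT 1 0).self_of_nhds.continuousAt)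
  exact h1.eventually_ne hdet

theorem Fr_det (T : Cn 2 → Cn 2) (w : Cn 2) : (Fr T w).det = ((Jac T w).det)⁻¹ := by
  unfold Fr
  rw [Matrix.det_nonsing_inv, Ring.inverse_eq_inv', Matrix.det_transpose]

theorem Fr_hol (hT : ∀ᶠ w in 𝓝 z', DifferentiableAt ℂ T w) (hdet : (Jac T z').det ≠ 0) :
    HolM z' (Fr T) := by
  have hJij := Jac_hol hT
  have hdc := det_ev hT hdet
  intro i j
  have e : ∀ y, Fr T y i j = ((Jac T y).det)⁻¹ * (Jac T y)ᵀ.adjugate i j := by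
    intro y
    unfold Fr
    rw [Matrix.inv_def, Ring.inverse_eq_inv', Matrix.det_transpose]
    rfl
  have ha : ∀ᶠ y in 𝓝 z', DifferentiableAt ℂ (fun w => (Jac T w)ᵀ.adjugate i j) y := by
    have e2 : ∀ w, (Jac T w)ᵀ.adjugate i j =
        !![Jac T w 1 1, -Jac T w 1 0; -Jac T w 0 1, Jac T w 0 0] i j := by
      intro w
      rw [Matrix.adjugate_fin_two]
      rfl
    simp only [e2]
    filter_upwards [hJij 0 0, hJij 0 1, hJij 1 0, hJij 1 1] with y a b c d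
    fin_cases i <;> fin_cases j
    · exact d
    · exact c.neg
    · exact b.neg
    · exact a
  have hdd : ∀ᶠ y in 𝓝 z', DifferentiableAt ℂ (fun w => (Jac T w).det) y := by
    have : (fun y => (Jac T y).det) = fun y => Jac T y 0 0 * Jac T y 1 1 -
        Jac T y 0 1 * Jac T y 1 0 := funext fun y => Matrix.det_fin_two _
    rw [this]
    filter_upwards [hJij 0 0, hJij 0 1, hJij 1 0, hJij 1 1] with y a b c d
    exact (a.fun_mul d).fun_sub (b.fun_mul c)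
  simp only [e]
  filter_upwards [ha, hdd, hdc] with y h1 h2 h3
  exact (h2.fun_inv h3).fun_mul h1

end



namespace MO

theorem mono (M : MO f s r H) {r' : ℝ} (h : r' ^ 2 ≤ r ^ 2) : MO f s r' H where
  sm θ O hP z hz := M.sm θ O ⟨hP.par, hP.ne, fun z hz => (hP.lt z hz).trans_le h⟩ z hz
  pos θ O hP z hz := M.pos θ O ⟨hP.par, hP.ne, fun z hz => (hP.lt z hz).trans_le h⟩ z hz
  tr θ O hP := M.tr θ O ⟨hP.par, hP.ne, fun z hz => (hP.lt z hz).trans_le h⟩

/-- **the bundle `Ω¹` with the section `dg`** -/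
theorem bun (M : MO f s r H) {g : E3 → ℂ} (hg : ∀ x, nsq x < r ^ 2 → AnalyticAt ℂ g x) :
    Bun f s r H (dV g) where
  bv θ O hP z hz := by
    have hO := hP.par.isOpen
    refine ⟨?_, ?_, fun i => ?_⟩
    · filter_upwards [hO.mem_nhds hz] with y hy using M.sm θ O hP y hy
    · filter_upwards [hO.mem_nhds hz] with y hy using M.pos θ O hP y hy
    · filter_upwards [hO.mem_nhds hz] with y hy
      exact (dV_hol hg hP i).differentiableAt (hO.mem_nhds hy)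
  tr θ O hP θ' z' T hT hTO hTe hdet := by
    have hTe' := eventually_eventually_nhds.2 hTe
    have hT' := eventually_eventually_nhds.2 hT
    refine ⟨Fr T, hT, Fr_hol hT hdet, ?_, M.tr θ O hP θ' z' T hT hTO hTe hdet, ?_⟩
    · rw [Fr_det]
      exact inv_ne_zero hdet
    · filter_upwards [hTe', hT', det_ev hT hdet] with w h1 h2 h3
      unfold Fr
      rw [dV_trans hg hP h2.self_of_nhds h1, Matrix.mulVec_mulVec, Matrix.nonsing_inv_mul _
        (by rw [Matrix.det_transpose]; exact isUnit_iff_ne_zero.2 h3), Matrix.one_mulVec]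

end MO




/-! ### chart independent scalars -/





namespace MO

theorem det_pos (M : MO f s r H) {θ : Cn 2 → E3} {O : Set (Cn 2)} (h : PE f s r θ O) {z : Cn 2}
    (hz : z ∈ O) : 0 < (H θ z).det.re := det_re_pos'' (M.pos θ O h z hz)











end MO

/-! ### gluing -/






end

end Crest.Agent.R257.H0_540
namespace Crest.Agent.R257.H0_540.PE
end Crest.Agent.R257.H0_540.PE
end

-- ▼ part R257/H0B_540
section

/-!
# R257 (S0395), trial metric (helper540), part B: the metric `Htr`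

Pointwise: `G : Fin 2 → ℂ`, `Q : ι → Fin 2 → ℂ`, weights `μ l > 0`, `α, β > 0`,
* `wd v w`  : `v ∧ w`;  `nA G Q μ` : `∑ μ_l |G ∧ Q_l|²`
* `xc`, `yc`: the covectors with `xc G = 1`, `yc G = 0`, `yc v = G ∧ v`, `xc κ = 0`
* `hm`      : `α conj(xc) xc + β conj(yc) yc`
* `hm_det`, `hm_posDef`, `hm_inv`, `hm_dual`, `hm_trans`

On a level: `Htr f g q φ ψ k`.
* `mo_Htr`, `Htr_dg`, `Htr_det`, `Htr_inv`, `Htr_dual`, `nA_eq`
-/

set_option autoImplicit false
set_option linter.unusedSectionVars false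
set_option linter.unusedSimpArgs false

open Set Filter Topology Complex MeasureTheory
open scoped ContDiff Matrix ComplexConjugate ComplexOrder ENNReal

namespace Crest.Agent.R257.H0_540

open Crest.Agent.R275.Geo Crest.Agent.R275.EDR890
open Crest.Agent.R273.Fock_243 Crest.Agent.R273.Calc_243
open Crest.Agent.R273.Bkn_243 Crest.Agent.R273.Pos_243 Crest.Agent.R273.BochA_101
open Crest.Agent.R273.BochB_101
open Crest.Agent.R273.BochC_101 Crest.Agent.R273.BochD_101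
open Crest.Agent.R273.Hess_333 Crest.Agent.R273.HessB_333
open Crest.Agent.R273.Defs_333 (lev)
open Crest.Agent.R273.YauDefs_635 (cH)
open Crest.Agent.R273.YauMax_635 (cH_eq_hess)
open Crest.Agent.R257.C2F1_625 Crest.Agent.R257.C2F2_625 Crest.Agent.R257.C2F3_625
open Crest.Agent.R257.C2F4_335 Crest.Agent.R257.C2F5_335 Crest.Agent.R257.C2F6_335
open Crest.Agent.R257.Defs_219
open Crest.Agent.R257.PN_835 (nsq)
open Crest.Agent.R257.Aff_835 (eta2a)
open Crest.Agent.R257.KED_952 Crest.Agent.R257.Ked1_397 Crest.Agent.R257.Ked2_397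
open Crest.Agent.R257.V1Defs_822 (SmL LvlOK)
open Crest.Agent.R257.OutA_309 Crest.Agent.R257.OutB_309 Crest.Agent.R257.LossD_309
open Crest.Agent.R257.OutC_309 Crest.Agent.R257.OutD_309

noncomputable section

variable {ι : Type} [Fintype ι]

/-! ### pointwise algebra -/

/-- `v ∧ w` -/
def wd (v w : Fin 2 → ℂ) : ℂ := v 0 * w 1 - v 1 * w 0

/-- `∑ μ_l |G ∧ Q_l|²` -/
def nA (G : Fin 2 → ℂ) (Q : ι → Fin 2 → ℂ) (μ : ι → ℝ) : ℝ := ∑ l, μ l * ‖wd G (Q l)‖ ^ 2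

/-- `P_l = μ_l conj (G ∧ Q_l)` -/
def Pl (G : Fin 2 → ℂ) (Q : ι → Fin 2 → ℂ) (μ : ι → ℝ) (l : ι) : ℂ :=
  (μ l : ℂ) * conj (wd G (Q l))

/-- `κ' = κ / |a|²` -/
def kc (G : Fin 2 → ℂ) (Q : ι → Fin 2 → ℂ) (μ : ι → ℝ) (i : Fin 2) : ℂ :=
  (∑ l, Pl G Q μ l * Q l i) / (nA G Q μ : ℂ)

/-- the covector with `xc G = 1`, `xc κ = 0` -/
def xc (G : Fin 2 → ℂ) (Q : ι → Fin 2 → ℂ) (μ : ι → ℝ) : Fin 2 → ℂ :=
  ![kc G Q μ 1, - kc G Q μ 0]

/-- the covector `v ↦ G ∧ v` -/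
def yc (G : Fin 2 → ℂ) : Fin 2 → ℂ := ![- G 1, G 0]

/-- the metric -/
def hm (G : Fin 2 → ℂ) (Q : ι → Fin 2 → ℂ) (μ : ι → ℝ) (α β : ℝ) : Matrix (Fin 2) (Fin 2) ℂ :=
  Matrix.of fun i j => (α : ℂ) * (conj (xc G Q μ i) * xc G Q μ j) +
    (β : ℂ) * (conj (yc G i) * yc G j)

/-- the rank one matrix `v vᴴ` -/
def r1 (v : Fin 2 → ℂ) : Matrix (Fin 2) (Fin 2) ℂ := Matrix.of fun i j => v i * conj (v j)

section alg
variable {G : Fin 2 → ℂ} {Q : ι → Fin 2 → ℂ} {μ : ι → ℝ} {α β : ℝ}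

theorem nA_eq_sum (G : Fin 2 → ℂ) (Q : ι → Fin 2 → ℂ) (μ : ι → ℝ) :
    (nA G Q μ : ℂ) = ∑ l, Pl G Q μ l * wd G (Q l) := by
  unfold nA
  push_cast
  refine Finset.sum_congr rfl fun l _ => ?_
  unfold Pl
  rw [mul_assoc, ← Complex.normSq_eq_conj_mul_self, Complex.normSq_eq_norm_sq]
  push_cast
  ring

/-- `G ∧ κ' = 1` -/
theorem wd_kc (h : nA G Q μ ≠ 0) : wd G (kc G Q μ) = 1 := by
  have h0 : (nA G Q μ : ℂ) ≠ 0 := Complex.ofReal_ne_zero.2 h
  have e : wd G (kc G Q μ) = (∑ l, Pl G Q μ l * wd G (Q l)) / (nA G Q μ : ℂ) := by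
    unfold wd kc
    rw [mul_div_assoc', mul_div_assoc', ← sub_div, Finset.mul_sum, Finset.mul_sum,
      ← Finset.sum_sub_distrib]
    congr 1
    refine Finset.sum_congr rfl fun l _ => ?_
    ring
  rw [e, ← nA_eq_sum, div_self h0]

theorem kc_rel (h : nA G Q μ ≠ 0) : G 0 * kc G Q μ 1 - G 1 * kc G Q μ 0 = 1 := wd_kc h

/-- the matrix of the two covectors -/
def Pm (G : Fin 2 → ℂ) (Q : ι → Fin 2 → ℂ) (μ : ι → ℝ) : Matrix (Fin 2) (Fin 2) ℂ :=
  !![kc G Q μ 1, - kc G Q μ 0; - G 1, G 0]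

theorem Pm_det (h : nA G Q μ ≠ 0) : (Pm G Q μ).det = 1 := by
  rw [Pm, Matrix.det_fin_two_of]
  linear_combination kc_rel h

theorem hm_eq : hm G Q μ α β = (Pm G Q μ)ᴴ * Matrix.diagonal ![(α : ℂ), (β : ℂ)] * Pm G Q μ := by
  ext i j
  fin_cases i <;> fin_cases j <;>
    simp [hm, Pm, xc, yc, Matrix.mul_apply, Fin.sum_univ_two, Matrix.conjTranspose_apply,
      Matrix.diagonal_apply] <;> ring

theorem hm_det (h : nA G Q μ ≠ 0) : (hm G Q μ α β).det = ((α * β : ℝ) : ℂ) := by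
  rw [hm_eq, Matrix.det_mul, Matrix.det_mul, Matrix.det_conjTranspose, Pm_det h,
    Matrix.det_diagonal]
  simp [Fin.prod_univ_two]

theorem hm_posDef (h : nA G Q μ ≠ 0) (hα : 0 < α) (hβ : 0 < β) : (hm G Q μ α β).PosDef := by
  rw [hm_eq]
  refine posDef_frame (Matrix.PosDef.diagonal fun i => ?_) (by rw [Pm_det h]; exact one_ne_zero)
  fin_cases i
  · exact Complex.zero_lt_real.2 hα
  · exact Complex.zero_lt_real.2 hβ

/-- `|G|² = α` -/
theorem hm_G (h : nA G Q μ ≠ 0) : (star G ⬝ᵥ (hm G Q μ α β *ᵥ G)).re = α := by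
  have e1 : xc G Q μ 0 * G 0 + xc G Q μ 1 * G 1 = 1 := by
    show kc G Q μ 1 * G 0 + - kc G Q μ 0 * G 1 = 1
    linear_combination kc_rel h
  have e1' : conj (xc G Q μ 0) * conj (G 0) + conj (xc G Q μ 1) * conj (G 1) = 1 := by
    have := congrArg conj e1
    simpa only [map_add, map_mul, map_one] using this
  have e2 : yc G 0 * G 0 + yc G 1 * G 1 = 0 := by
    show - G 1 * G 0 + G 0 * G 1 = 0
    ring
  have e : star G ⬝ᵥ (hm G Q μ α β *ᵥ G) = (α : ℂ) := by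
    simp only [dotProduct, Matrix.mulVec, Fin.sum_univ_two, hm, Matrix.of_apply, Pi.star_apply,
      Complex.star_def]
    have a : conj (G 0) * (((α : ℂ) * (conj (xc G Q μ 0) * xc G Q μ 0) +
          (β : ℂ) * (conj (yc G 0) * yc G 0)) * G 0 +
        ((α : ℂ) * (conj (xc G Q μ 0) * xc G Q μ 1) +
          (β : ℂ) * (conj (yc G 0) * yc G 1)) * G 1) +
      conj (G 1) * (((α : ℂ) * (conj (xc G Q μ 1) * xc G Q μ 0) +
          (β : ℂ) * (conj (yc G 1) * yc G 0)) * G 0 +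
        ((α : ℂ) * (conj (xc G Q μ 1) * xc G Q μ 1) +
          (β : ℂ) * (conj (yc G 1) * yc G 1)) * G 1)
      = (α : ℂ) * (conj (xc G Q μ 0) * conj (G 0) + conj (xc G Q μ 1) * conj (G 1)) *
          (xc G Q μ 0 * G 0 + xc G Q μ 1 * G 1) +
        (β : ℂ) * (conj (yc G 0) * conj (G 0) + conj (yc G 1) * conj (G 1)) *
          (yc G 0 * G 0 + yc G 1 * G 1) := by ring
    rw [a, e1, e1', e2]
    ring
  rw [e, Complex.ofReal_re]

/-- the inverse -/
theorem hm_inv (h : nA G Q μ ≠ 0) (hα : α ≠ 0) (hβ : β ≠ 0) :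
    (hm G Q μ α β)⁻¹ = ((α⁻¹ : ℝ) : ℂ) • r1 G + ((β⁻¹ : ℝ) : ℂ) • r1 (kc G Q μ) := by
  refine Matrix.inv_eq_right_inv ?_
  have k1 := kc_rel h
  have k2 : conj (G 0) * conj (kc G Q μ 1) - conj (G 1) * conj (kc G Q μ 0) = 1 := by
    have := congrArg conj k1
    simpa only [map_sub, map_mul, map_one] using this
  have a0 : (α : ℂ) ≠ 0 := Complex.ofReal_ne_zero.2 hα
  have b0 : (β : ℂ) ≠ 0 := Complex.ofReal_ne_zero.2 hβ
  have ea : (α : ℂ) * (α : ℂ)⁻¹ = 1 := mul_inv_cancel₀ a0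
  have eb : (β : ℂ) * (β : ℂ)⁻¹ = 1 := mul_inv_cancel₀ b0
  have x1 : xc G Q μ 0 * G 0 + xc G Q μ 1 * G 1 = 1 := by
    show kc G Q μ 1 * G 0 + - kc G Q μ 0 * G 1 = 1
    linear_combination k1
  have x2 : xc G Q μ 0 * kc G Q μ 0 + xc G Q μ 1 * kc G Q μ 1 = 0 := by
    show kc G Q μ 1 * kc G Q μ 0 + - kc G Q μ 0 * kc G Q μ 1 = 0
    ring
  have y1 : yc G 0 * G 0 + yc G 1 * G 1 = 0 := by
    show - G 1 * G 0 + G 0 * G 1 = 0
    ring
  have y2 : yc G 0 * kc G Q μ 0 + yc G 1 * kc G Q μ 1 = 1 := by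
    show - G 1 * kc G Q μ 0 + G 0 * kc G Q μ 1 = 1
    linear_combination k1
  have key : ∀ i j, (hm G Q μ α β * (((α⁻¹ : ℝ) : ℂ) • r1 G +
      ((β⁻¹ : ℝ) : ℂ) • r1 (kc G Q μ))) i j =
      conj (xc G Q μ i) * conj (G j) + conj (yc G i) * conj (kc G Q μ j) := by
    intro i j
    have e : (hm G Q μ α β * (((α⁻¹ : ℝ) : ℂ) • r1 G + ((β⁻¹ : ℝ) : ℂ) • r1 (kc G Q μ))) i j =
        ((α : ℂ) * (α : ℂ)⁻¹) * conj (xc G Q μ i) * (xc G Q μ 0 * G 0 + xc G Q μ 1 * G 1) *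
          conj (G j) +
        ((β : ℂ) * (α : ℂ)⁻¹) * conj (yc G i) * (yc G 0 * G 0 + yc G 1 * G 1) * conj (G j) +
        ((α : ℂ) * (β : ℂ)⁻¹) * conj (xc G Q μ i) *
          (xc G Q μ 0 * kc G Q μ 0 + xc G Q μ 1 * kc G Q μ 1) * conj (kc G Q μ j) +
        ((β : ℂ) * (β : ℂ)⁻¹) * conj (yc G i) *
          (yc G 0 * kc G Q μ 0 + yc G 1 * kc G Q μ 1) * conj (kc G Q μ j) := by
      simp only [Matrix.mul_apply, Fin.sum_univ_two, hm, r1, Matrix.of_apply, Matrix.add_apply,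
        Matrix.smul_apply, smul_eq_mul, Complex.ofReal_inv]
      ring
    rw [e, x1, x2, y1, y2, ea, eb]
    ring
  ext i j
  rw [key]
  fin_cases i <;> fin_cases j <;> simp [xc, yc]
  · linear_combination k2
  · ring
  · ring
  · linear_combination k2

theorem r1_psd (v : Fin 2 → ℂ) : (r1 v).PosSemidef := by
  have e : r1 v = Matrix.vecMulVec v (star v) := by
    ext i j
    rfl
  rw [e]
  exact Matrix.posSemidef_vecMulVec_self_star v

/-- the quadratic form of `r1` -/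
theorem r1_form (v x : Fin 2 → ℂ) :
    star x ⬝ᵥ (r1 v *ᵥ x) = ((‖∑ i, conj (x i) * v i‖ ^ 2 : ℝ) : ℂ) := by
  rw [← Complex.normSq_eq_norm_sq, ← Complex.mul_conj]
  simp only [dotProduct, Matrix.mulVec, Fin.sum_univ_two, r1, Matrix.of_apply, Pi.star_apply,
    Complex.star_def, map_add, map_mul, Complex.conj_conj]
  ring

theorem psd_of_form {M : Matrix (Fin 2) (Fin 2) ℂ} (q : (Fin 2 → ℂ) → ℝ) (hM : M.IsHermitian)
    (h : ∀ x, star x ⬝ᵥ (M *ᵥ x) = ((q x : ℝ) : ℂ)) (h0 : ∀ x, 0 ≤ q x) : M.PosSemidef := by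
  refine Matrix.PosSemidef.of_dotProduct_mulVec_nonneg hM fun x => ?_
  rw [h]
  exact Complex.zero_le_real.2 (h0 x)

theorem r1_herm (v : Fin 2 → ℂ) : (r1 v).IsHermitian := (r1_psd v).isHermitian

theorem smul_herm {M : Matrix (Fin 2) (Fin 2) ℂ} (hM : M.IsHermitian) (t : ℝ) :
    ((t : ℂ) • M).IsHermitian := by
  unfold Matrix.IsHermitian
  rw [Matrix.conjTranspose_smul, hM.eq, Complex.star_def, Complex.conj_ofReal]

/-- Cauchy–Schwarz: `κ' κ'ᴴ ≤ nA⁻¹ ∑ μ_l Q_l Q_lᴴ` -/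
theorem r1_kc_le (h : 0 < nA G Q μ) (hμ : ∀ l, 0 ≤ μ l) :
    ((((nA G Q μ)⁻¹ : ℝ) : ℂ) • ∑ l, ((μ l : ℝ) : ℂ) • r1 (Q l) - r1 (kc G Q μ)).PosSemidef := by
  refine psd_of_form (fun x => (nA G Q μ)⁻¹ * ∑ l, μ l * ‖∑ i, conj (x i) * Q l i‖ ^ 2 -
    ‖∑ i, conj (x i) * kc G Q μ i‖ ^ 2) ?_ (fun x => ?_) (fun x => ?_)
  · refine Matrix.IsHermitian.sub (smul_herm ?_ _) (r1_herm _)
    unfold Matrix.IsHermitian
    rw [Matrix.conjTranspose_sum]
    exact Finset.sum_congr rfl fun l _ => smul_herm (r1_herm _) _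
  · rw [Matrix.sub_mulVec, dotProduct_sub, Matrix.smul_mulVec, dotProduct_smul,
      Matrix.sum_mulVec, dotProduct_sum, r1_form]
    have e : ∀ l, star x ⬝ᵥ ((((μ l : ℝ) : ℂ) • r1 (Q l)) *ᵥ x) =
        ((μ l * ‖∑ i, conj (x i) * Q l i‖ ^ 2 : ℝ) : ℂ) := fun l => by
      rw [Matrix.smul_mulVec, dotProduct_smul, r1_form, smul_eq_mul]
      push_cast
      ring
    simp only [e, smul_eq_mul]
    push_cast
    ring
  · have e : ∑ i, conj (x i) * kc G Q μ i =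
        (∑ l, Pl G Q μ l * ∑ i, conj (x i) * Q l i) / (nA G Q μ : ℂ) := by
      simp only [kc, mul_div_assoc', ← Finset.sum_div, Finset.mul_sum]
      rw [Finset.sum_comm]
      congr 1
      refine Finset.sum_congr rfl fun l _ => Finset.sum_congr rfl fun i _ => ?_
      ring
    rw [e, norm_div, div_pow, Complex.norm_real, Real.norm_of_nonneg h.le, sub_nonneg,
      div_le_iff₀ (by positivity)]
    have h1 : ‖∑ l, Pl G Q μ l * ∑ i, conj (x i) * Q l i‖ ≤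
        ∑ l, ‖Pl G Q μ l‖ * ‖∑ i, conj (x i) * Q l i‖ :=
      (norm_sum_le _ _).trans (Finset.sum_le_sum fun l _ => (norm_mul _ _).le)
    have h2 : (∑ l, ‖Pl G Q μ l‖ * ‖∑ i, conj (x i) * Q l i‖) ^ 2 ≤
        (∑ l, μ l * ‖wd G (Q l)‖ ^ 2) * ∑ l, μ l * ‖∑ i, conj (x i) * Q l i‖ ^ 2 := by
      refine Finset.sum_sq_le_sum_mul_sum_of_sq_le_mul _
        (fun l _ => mul_nonneg (hμ l) (by positivity))
        (fun l _ => mul_nonneg (hμ l) (by positivity)) fun l _ => le_of_eq ?_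
      unfold Pl
      rw [norm_mul, Complex.norm_real, Real.norm_of_nonneg (hμ l), RCLike.norm_conj]
      ring
    have h3 : (∑ l, μ l * ‖wd G (Q l)‖ ^ 2) = nA G Q μ := rfl
    rw [h3] at h2
    have h4 := pow_le_pow_left₀ (norm_nonneg _) h1 2
    calc ‖∑ l, Pl G Q μ l * ∑ i, conj (x i) * Q l i‖ ^ 2 ≤ _ := h4.trans h2
      _ = _ := by field_simp

/-- **bound of the dual metric** -/
theorem hm_dual (h : 0 < nA G Q μ) (hμ : ∀ l, 0 ≤ μ l) (hα : 0 < α) (hβ : 0 < β) :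
    (((α⁻¹ : ℝ) : ℂ) • r1 G + (((β * nA G Q μ)⁻¹ : ℝ) : ℂ) • ∑ l, ((μ l : ℝ) : ℂ) • r1 (Q l)
      - (hm G Q μ α β)⁻¹).PosSemidef := by
  rw [hm_inv h.ne' hα.ne' hβ.ne']
  have e : ((α⁻¹ : ℝ) : ℂ) • r1 G + (((β * nA G Q μ)⁻¹ : ℝ) : ℂ) • ∑ l, ((μ l : ℝ) : ℂ) • r1 (Q l)
      - (((α⁻¹ : ℝ) : ℂ) • r1 G + ((β⁻¹ : ℝ) : ℂ) • r1 (kc G Q μ)) =
      ((β⁻¹ : ℝ) : ℂ) • ((((nA G Q μ)⁻¹ : ℝ) : ℂ) • ∑ l, ((μ l : ℝ) : ℂ) • r1 (Q l)
        - r1 (kc G Q μ)) := by
    rw [smul_sub, smul_smul, add_sub_add_left_eq_sub]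
    congr 2
    rw [mul_inv]
    push_cast
    rfl
  rw [e]
  exact (r1_kc_le h hμ).smul (Complex.zero_le_real.2 (by positivity))

/-! ### change of coordinates -/

variable {M : Matrix (Fin 2) (Fin 2) ℂ}

theorem wd_mul (M : Matrix (Fin 2) (Fin 2) ℂ) (v w : Fin 2 → ℂ) :
    wd (M *ᵥ v) (M *ᵥ w) = M.det * wd v w := by
  unfold wd
  rw [Matrix.det_fin_two]
  simp only [Matrix.mulVec, dotProduct, Fin.sum_univ_two]
  ring

theorem nA_mul (M : Matrix (Fin 2) (Fin 2) ℂ) :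
    nA (M *ᵥ G) (fun l => M *ᵥ Q l) μ = ‖M.det‖ ^ 2 * nA G Q μ := by
  unfold nA
  rw [Finset.mul_sum]
  refine Finset.sum_congr rfl fun l _ => ?_
  rw [wd_mul, norm_mul]
  ring

theorem kc_mul (hM : M.det ≠ 0) (i : Fin 2) :
    kc (M *ᵥ G) (fun l => M *ᵥ Q l) μ i = (M *ᵥ kc G Q μ) i / M.det := by
  have e : (∑ l, Pl (M *ᵥ G) (fun l => M *ᵥ Q l) μ l * (M *ᵥ Q l) i) =
      conj M.det * ∑ j, M i j * ∑ l, Pl G Q μ l * Q l j := by
    simp only [Finset.mul_sum]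
    rw [Finset.sum_comm]
    refine Finset.sum_congr rfl fun l _ => ?_
    unfold Pl
    rw [wd_mul]
    simp only [Matrix.mulVec, dotProduct, Fin.sum_univ_two, map_mul]
    ring
  unfold kc
  rw [nA_mul, e]
  have h1 : ((‖M.det‖ ^ 2 * nA G Q μ : ℝ) : ℂ) = conj M.det * M.det * (nA G Q μ : ℂ) := by
    rw [← Complex.normSq_eq_conj_mul_self, Complex.normSq_eq_norm_sq]
    push_cast
    ring
  rw [h1]
  have h2 : conj M.det ≠ 0 := (map_ne_zero _).2 hM
  simp only [Matrix.mulVec, dotProduct, Fin.sum_univ_two]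
  by_cases h3 : (nA G Q μ : ℂ) = 0
  · simp [h3]
  · field_simp

/-- the metric in other coordinates -/
theorem hm_trans (hM : M.det ≠ 0) :
    hm (M *ᵥ G) (fun l => M *ᵥ Q l) μ α (β / ‖M.det‖ ^ 2) =
      (M⁻¹)ᴴ * hm G Q μ α β * M⁻¹ := by
  have hi : M⁻¹ * M = 1 := Matrix.nonsing_inv_mul _ (isUnit_iff_ne_zero.2 hM)
  have hi' : M * M⁻¹ = 1 := Matrix.mul_nonsing_inv _ (isUnit_iff_ne_zero.2 hM)
  have key : Mᴴ * hm (M *ᵥ G) (fun l => M *ᵥ Q l) μ α (β / ‖M.det‖ ^ 2) * M = hm G Q μ α β := by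
    have hx : ∀ j, (∑ i, xc (M *ᵥ G) (fun l => M *ᵥ Q l) μ i * M i j) = xc G Q μ j := by
      intro j
      rw [Fin.sum_univ_two]
      show kc (M *ᵥ G) (fun l => M *ᵥ Q l) μ 1 * M 0 j +
        - kc (M *ᵥ G) (fun l => M *ᵥ Q l) μ 0 * M 1 j = _
      rw [kc_mul hM, kc_mul hM]
      have h1 : xc G Q μ j = (M 0 0 * M 1 1 - M 0 1 * M 1 0) * xc G Q μ j / M.det := by
        rw [← Matrix.det_fin_two]
        field_simp
      rw [h1]
      simp only [Matrix.mulVec, dotProduct, Fin.sum_univ_two]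
      fin_cases j
      · show _ = (M 0 0 * M 1 1 - M 0 1 * M 1 0) * kc G Q μ 1 / M.det
        simp only [Fin.zero_eta]
        ring
      · show _ = (M 0 0 * M 1 1 - M 0 1 * M 1 0) * (- kc G Q μ 0) / M.det
        simp only [Fin.mk_one]
        ring
    have hy : ∀ j, (∑ i, yc (M *ᵥ G) i * M i j) = M.det * yc G j := by
      intro j
      rw [Fin.sum_univ_two, Matrix.det_fin_two]
      show - (M *ᵥ G) 1 * M 0 j + (M *ᵥ G) 0 * M 1 j = _
      simp only [Matrix.mulVec, dotProduct, Fin.sum_univ_two]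
      fin_cases j
      · show _ = (M 0 0 * M 1 1 - M 0 1 * M 1 0) * (- G 1)
        simp only [Fin.zero_eta]
        ring
      · show _ = (M 0 0 * M 1 1 - M 0 1 * M 1 0) * G 0
        simp only [Fin.mk_one]
        ring
    ext a b
    have e : (Mᴴ * hm (M *ᵥ G) (fun l => M *ᵥ Q l) μ α (β / ‖M.det‖ ^ 2) * M) a b =
        (α : ℂ) * (conj (∑ i, xc (M *ᵥ G) (fun l => M *ᵥ Q l) μ i * M i a) *
          ∑ i, xc (M *ᵥ G) (fun l => M *ᵥ Q l) μ i * M i b) +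
        ((β / ‖M.det‖ ^ 2 : ℝ) : ℂ) * (conj (∑ i, yc (M *ᵥ G) i * M i a) *
          ∑ i, yc (M *ᵥ G) i * M i b) := by
      simp only [Matrix.mul_apply, Fin.sum_univ_two, hm, Matrix.of_apply,
        Matrix.conjTranspose_apply, Complex.star_def, map_add, map_mul]
      ring
    rw [e, hx, hx, hy, hy]
    show _ = (α : ℂ) * (conj (xc G Q μ a) * xc G Q μ b) + (β : ℂ) * (conj (yc G a) * yc G b)
    congr 1
    have h1 : ((β / ‖M.det‖ ^ 2 : ℝ) : ℂ) * (conj M.det * M.det) = (β : ℂ) := by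
      rw [← Complex.normSq_eq_conj_mul_self, Complex.normSq_eq_norm_sq, ← Complex.ofReal_mul]
      congr 1
      have : ‖M.det‖ ≠ 0 := norm_ne_zero_iff.2 hM
      field_simp
    rw [map_mul]
    calc _ = ((β / ‖M.det‖ ^ 2 : ℝ) : ℂ) * (conj M.det * M.det) * (conj (yc G a) * yc G b) := by
          ring
      _ = _ := by rw [h1]
  rw [← key]
  have hs : (M⁻¹)ᴴ * Mᴴ = 1 := by
    rw [← Matrix.conjTranspose_mul, hi', Matrix.conjTranspose_one]
  calc hm (M *ᵥ G) (fun l => M *ᵥ Q l) μ α (β / ‖M.det‖ ^ 2)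
      = ((M⁻¹)ᴴ * Mᴴ) * hm (M *ᵥ G) (fun l => M *ᵥ Q l) μ α (β / ‖M.det‖ ^ 2) * (M * M⁻¹) := by
        rw [hs, hi', Matrix.one_mul, Matrix.mul_one]
    _ = _ := by simp only [Matrix.mul_assoc]

end alg

/-! ### the metric on a level -/

variable {f : E3 → ℂ} {s : ℂ} {r : ℝ}

/-- a map `θ' = θ ∘ T` is a parametrisation -/
theorem pe_of_T {θ : Cn 2 → E3} {O : Set (Cn 2)} (hP : PE f s r θ O) {θ' : Cn 2 → E3}
    {z' : Cn 2} {T : Cn 2 → Cn 2} (hT : ∀ᶠ w in 𝓝 z', DifferentiableAt ℂ T w)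
    (hTe : ∀ᶠ w in 𝓝 z', T w ∈ O ∧ θ' w = θ (T w)) (hdet : (Jac T z').det ≠ 0) :
    ∃ O', PE f s r θ' O' ∧ z' ∈ O' := by
  obtain ⟨O', hO', hOo, hz'⟩ := eventually_nhds_iff.1
    (hT.and ((eventually_eventually_nhds.2 hTe).and (det_ev hT hdet)))
  have hd : ∀ w ∈ O', HasFDerivAt θ' ((fderiv ℂ θ (T w)).comp (fderiv ℂ T w)) w := by
    intro w hw
    obtain ⟨h1, h2, h3⟩ := hO' w hw
    have h4 : HasFDerivAt (fun y => θ (T y)) ((fderiv ℂ θ (T w)).comp (fderiv ℂ T w)) w :=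
      HasFDerivAt.comp w (g := θ) (hP.par.diffAt h2.self_of_nhds.1).hasFDerivAt h1.hasFDerivAt
    exact h4.congr_of_eventuallyEq (h2.mono fun y hy => hy.2)
  refine ⟨O', ⟨⟨hOo, fun w hw => (hd w hw).differentiableAt.differentiableWithinAt,
    fun w hw => ?_, fun w hw v hv => ?_⟩, fun w hw => ?_, fun w hw => ?_⟩, hz'⟩
  · have h2 := (hO' w hw).2.1.self_of_nhds
    rw [h2.2]
    exact hP.par.lvl _ h2.1
  · obtain ⟨h1, h2, h3⟩ := hO' w hw
    rw [(hd w hw).fderiv, ContinuousLinearMap.comp_apply] at hv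
    have h4 := hP.par.imm _ h2.self_of_nhds.1 _ hv
    have h5 : Jac T w *ᵥ (fun a => v a) = 0 := by
      funext a
      have h6 : v = ∑ b, v b • (EuclideanSpace.single b (1 : ℂ) : Cn 2) := by
        ext b
        simp [Fin.sum_univ_two, PiLp.single_apply]
        fin_cases b <;> simp
      rw [h6, map_sum] at h4
      have h7 := congrArg (fun u : Cn 2 => u a) h4
      simp only [Matrix.mulVec, dotProduct, Jac, Matrix.of_apply, Fin.sum_univ_two, map_smul,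
        PiLp.add_apply, PiLp.smul_apply, smul_eq_mul, PiLp.zero_apply, Pi.zero_apply] at h7 ⊢
      rw [← h7]
      ring
    have h8 := Matrix.eq_zero_of_mulVec_eq_zero h3 h5
    ext a
    exact congrFun h8 a
  · have h2 := (hO' w hw).2.1.self_of_nhds
    rw [h2.2]
    exact hP.ne _ h2.1
  · have h2 := (hO' w hw).2.1.self_of_nhds
    rw [h2.2]
    exact hP.lt _ h2.1

/-- **the trial metric** -/
def Htr (f g : E3 → ℂ) (q : ι → E3 → ℂ) (φ : ι → E3 → ℝ) (ψ : E3 → ℝ) (k : ℝ) : Met :=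
  fun θ z => hm (dV g θ z) (fun l => dV (q l) θ z) (fun l => Real.exp (-φ l (θ z)))
    (Real.exp (ψ (θ z))) (Real.exp (-((1 + 1 / k) * ψ (θ z))) / eta2a (n := 2) f θ z)

/-- `nA` on a level -/
def nL (g : E3 → ℂ) (q : ι → E3 → ℂ) (φ : ι → E3 → ℝ) (θ : Cn 2 → E3) (z : Cn 2) : ℝ :=
  nA (dV g θ z) (fun l => dV (q l) θ z) (fun l => Real.exp (-φ l (θ z)))

/-- `|a|²` -/
def aL (f g : E3 → ℂ) (q : ι → E3 → ℂ) (φ : ι → E3 → ℝ) (x : E3) : ℝ :=
  ∑ l, Real.exp (-φ l x) * ‖Dt f g (q l) x‖ ^ 2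

/-- the data -/
structure TrD (f : E3 → ℂ) (s : ℂ) (r : ℝ) (g : E3 → ℂ) (q : ι → E3 → ℂ) (φ : ι → E3 → ℝ)
    (ψ : E3 → ℝ) : Prop where
  g_an : ∀ x, nsq x < r ^ 2 → AnalyticAt ℂ g x
  q_an : ∀ l x, nsq x < r ^ 2 → AnalyticAt ℂ (q l) x
  φ_sm : ∀ l, SmL f s r (φ l)
  ψ_sm : SmL f s r ψ
  a_pos : ∀ x, f x = s → x ≠ 0 → nsq x < r ^ 2 → 0 < aL f g q φ x

theorem wd_sq (L : LvlOK f s r) {g h : E3 → ℂ} (hg : ∀ x, nsq x < r ^ 2 → AnalyticAt ℂ g x)
    (hh : ∀ x, nsq x < r ^ 2 → AnalyticAt ℂ h x) {θ : Cn 2 → E3} {O : Set (Cn 2)}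
    (hP : PE f s r θ O) {z : Cn 2} (hz : z ∈ O) :
    ‖wd (dV g θ z) (dV h θ z)‖ ^ 2 = eta2a (n := 2) f θ z * ‖Dt f g h (θ z)‖ ^ 2 := by
  have h1 := Jac_39.jac hP.par hz (L.an _ (hP.lt z hz)).differentiableAt
    (L.sm _ (hP.ne z hz) (hP.lt z hz) (hP.par.lvl z hz)) (hg _ (hP.lt z hz)).differentiableAt
    (hh _ (hP.lt z hz)).differentiableAt
  have e : Jac_39.jc (fun z => g (θ z)) (fun z => h (θ z)) z = wd (dV g θ z) (dV h θ z) := rfl
  rw [← e, h1, mul_comm]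

section lvl
variable {g : E3 → ℂ} {q : ι → E3 → ℂ} {φ : ι → E3 → ℝ} {ψ : E3 → ℝ} {k : ℝ}
  {θ : Cn 2 → E3} {O : Set (Cn 2)} {z : Cn 2}

/-- `nA = |η|² |a|²` -/
theorem nL_eq (L : LvlOK f s r) (hg : ∀ x, nsq x < r ^ 2 → AnalyticAt ℂ g x)
    (hq : ∀ l x, nsq x < r ^ 2 → AnalyticAt ℂ (q l) x) (hP : PE f s r θ O) (hz : z ∈ O) :
    nL g q φ θ z = eta2a (n := 2) f θ z * aL f g q φ (θ z) := by
  unfold nL nA aL
  rw [Finset.mul_sum]
  refine Finset.sum_congr rfl fun l _ => ?_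
  rw [wd_sq L hg (hq l) hP hz]
  ring

namespace TrD

theorem nL_pos (D : TrD f s r g q φ ψ) (L : LvlOK f s r) (hP : PE f s r θ O) (hz : z ∈ O) :
    0 < nL g q φ θ z := by
  rw [nL_eq L D.g_an D.q_an hP hz]
  exact mul_pos (eta2a_nn hP L.sm hz)
    (D.a_pos _ (hP.par.lvl z hz) (hP.ne z hz) (hP.lt z hz))

theorem posDef (D : TrD f s r g q φ ψ) (L : LvlOK f s r) (hP : PE f s r θ O) (hz : z ∈ O)
    (k : ℝ) : (Htr f g q φ ψ k θ z).PosDef :=
  hm_posDef (D.nL_pos L hP hz).ne' (Real.exp_pos _)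
    (div_pos (Real.exp_pos _) (eta2a_nn hP L.sm hz))

/-- `|dg|² = e^ψ` -/
theorem dg (D : TrD f s r g q φ ψ) (L : LvlOK f s r) (hP : PE f s r θ O) (hz : z ∈ O) (k : ℝ) :
    hV (Htr f g q φ ψ k θ) (dV g θ) z = Real.exp (ψ (θ z)) :=
  hm_G (D.nL_pos L hP hz).ne'

theorem det' (D : TrD f s r g q φ ψ) (L : LvlOK f s r) (hP : PE f s r θ O) (hz : z ∈ O)
    (k : ℝ) : (Htr f g q φ ψ k θ z).det = ((Real.exp (ψ (θ z)) *
      (Real.exp (-((1 + 1 / k) * ψ (θ z))) / eta2a (n := 2) f θ z) : ℝ) : ℂ) :=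
  hm_det (D.nL_pos L hP hz).ne'

/-- `|η|² = e^{-ψ/k}` -/
theorem det (D : TrD f s r g q φ ψ) (L : LvlOK f s r) (hP : PE f s r θ O) (hz : z ∈ O)
    (k : ℝ) : (Htr f g q φ ψ k θ z).det.re * eta2a (n := 2) f θ z =
      Real.exp (-(ψ (θ z) / k)) := by
  have h1 := (eta2a_nn hP L.sm hz).ne'
  rw [D.det' L hP hz k, Complex.ofReal_re, mul_assoc, div_mul_cancel₀ _ h1, ← Real.exp_add]
  congr 1
  ring

/-- the inverse -/
theorem inv (D : TrD f s r g q φ ψ) (L : LvlOK f s r) (hP : PE f s r θ O) (hz : z ∈ O)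
    (k : ℝ) : (Htr f g q φ ψ k θ z)⁻¹ =
      ((Real.exp (-ψ (θ z)) : ℝ) : ℂ) • r1 (dV g θ z) +
      ((Real.exp ((1 + 1 / k) * ψ (θ z)) * eta2a (n := 2) f θ z : ℝ) : ℂ) •
        r1 (kc (dV g θ z) (fun l => dV (q l) θ z) fun l => Real.exp (-φ l (θ z))) := by
  have h1 := eta2a_nn hP L.sm hz
  have h2 : (Real.exp (-((1 + 1 / k) * ψ (θ z))) / eta2a (n := 2) f θ z)⁻¹ =
      Real.exp ((1 + 1 / k) * ψ (θ z)) * eta2a (n := 2) f θ z := by
    rw [inv_div, Real.exp_neg, div_inv_eq_mul, mul_comm]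
  have h3 := hm_inv (α := Real.exp (ψ (θ z)))
    (β := Real.exp (-((1 + 1 / k) * ψ (θ z))) / eta2a (n := 2) f θ z)
    (D.nL_pos L hP hz).ne' (Real.exp_pos _).ne' (div_pos (Real.exp_pos _) h1).ne'
  unfold Htr
  rw [h3, h2, ← Real.exp_neg]

/-- **the bound of the dual metric**:
`H* ≤ e^{-ψ} |dg|² + e^{(1+1/k)ψ} |a|⁻² ∑ e^{-φ_l} |dq_l|²` -/
theorem dual (D : TrD f s r g q φ ψ) (L : LvlOK f s r) (hP : PE f s r θ O) (hz : z ∈ O)
    (k : ℝ) : (((Real.exp (-ψ (θ z)) : ℝ) : ℂ) • r1 (dV g θ z) +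
      ((Real.exp ((1 + 1 / k) * ψ (θ z)) / aL f g q φ (θ z) : ℝ) : ℂ) •
        ∑ l, ((Real.exp (-φ l (θ z)) : ℝ) : ℂ) • r1 (dV (q l) θ z)
      - (Htr f g q φ ψ k θ z)⁻¹).PosSemidef := by
  have h1 := eta2a_nn hP L.sm hz
  have h0 := D.nL_pos L hP hz
  have ha := D.a_pos _ (hP.par.lvl z hz) (hP.ne z hz) (hP.lt z hz)
  have h3 := hm_dual (α := Real.exp (ψ (θ z)))
    (β := Real.exp (-((1 + 1 / k) * ψ (θ z))) / eta2a (n := 2) f θ z)
    h0 (fun l => (Real.exp_pos _).le) (Real.exp_pos _) (div_pos (Real.exp_pos _) h1)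
  have h4 : (Real.exp (-((1 + 1 / k) * ψ (θ z))) / eta2a (n := 2) f θ z *
      nA (dV g θ z) (fun l => dV (q l) θ z) fun l => Real.exp (-φ l (θ z)))⁻¹ =
      Real.exp ((1 + 1 / k) * ψ (θ z)) / aL f g q φ (θ z) := by
    have h5 : (nA (dV g θ z) (fun l => dV (q l) θ z) fun l => Real.exp (-φ l (θ z))) =
        eta2a (n := 2) f θ z * aL f g q φ (θ z) := nL_eq L D.g_an D.q_an hP hz
    rw [h5, Real.exp_neg ((1 + 1 / k) * ψ (θ z))]
    field_simp
  rw [h4, ← Real.exp_neg] at h3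
  exact h3

end TrD

/-! ### smoothness -/

theorem sm_dV (hg : ∀ x, nsq x < r ^ 2 → AnalyticAt ℂ g x) (hP : PE f s r θ O) (hz : z ∈ O)
    (i : Fin 2) : Sm z (fun y => dV g θ y i) := by
  refine sm_of_hol ?_
  filter_upwards [hP.par.isOpen.mem_nhds hz] with y hy
  exact (dV_hol hg hP i).differentiableAt (hP.par.isOpen.mem_nhds hy)

theorem sm_conj {F : Cn 2 → ℂ} (h : Sm z F) : Sm z (fun y => conj (F y)) :=
  conjCLE.contDiff.contDiffAt.comp z h

theorem sm_wd {v w : Cn 2 → Fin 2 → ℂ} (hv : ∀ i, Sm z (fun y => v y i))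
    (hw : ∀ i, Sm z (fun y => w y i)) : Sm z (fun y => wd (v y) (w y)) :=
  ((hv 0).mul (hw 1)).sub ((hv 1).mul (hw 0))

/-- smoothness of the algebraic expressions -/
theorem sm_nA {G : Cn 2 → Fin 2 → ℂ} {Q : Cn 2 → ι → Fin 2 → ℂ} {μ : Cn 2 → ι → ℝ}
    (hG : ∀ i, Sm z (fun y => G y i)) (hQ : ∀ l i, Sm z (fun y => Q y l i))
    (hμ : ∀ l, ContDiffAt ℝ ∞ (fun y => μ y l) z) :
    ContDiffAt ℝ ∞ (fun y => nA (G y) (Q y) (μ y)) z := by
  unfold nA
  refine ContDiffAt.sum fun l _ => (hμ l).mul ?_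
  exact (sm_wd hG (hQ l)).norm_sq ℝ

theorem sm_kc {G : Cn 2 → Fin 2 → ℂ} {Q : Cn 2 → ι → Fin 2 → ℂ} {μ : Cn 2 → ι → ℝ}
    (hG : ∀ i, Sm z (fun y => G y i)) (hQ : ∀ l i, Sm z (fun y => Q y l i))
    (hμ : ∀ l, ContDiffAt ℝ ∞ (fun y => μ y l) z) (h0 : nA (G z) (Q z) (μ z) ≠ 0) (i : Fin 2) :
    Sm z (fun y => kc (G y) (Q y) (μ y) i) := by
  unfold kc
  simp only [div_eq_mul_inv]
  refine ContDiffAt.mul (ContDiffAt.sum fun l _ => ContDiffAt.mul ?_ (hQ l i))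
    (ContDiffAt.inv (contDiffAt_cu (sm_nA hG hQ hμ)) (Complex.ofReal_ne_zero.2 h0))
  unfold Pl
  exact (contDiffAt_cu (hμ l) : Sm z (cu _)).mul (sm_conj (sm_wd hG (hQ l)))

theorem smM_hm {G : Cn 2 → Fin 2 → ℂ} {Q : Cn 2 → ι → Fin 2 → ℂ} {μ : Cn 2 → ι → ℝ}
    {α β : Cn 2 → ℝ}
    (hG : ∀ i, Sm z (fun y => G y i)) (hQ : ∀ l i, Sm z (fun y => Q y l i))
    (hμ : ∀ l, ContDiffAt ℝ ∞ (fun y => μ y l) z) (h0 : nA (G z) (Q z) (μ z) ≠ 0)
    (hα : ContDiffAt ℝ ∞ α z) (hβ : ContDiffAt ℝ ∞ β z) :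
    SmM z (fun y => hm (G y) (Q y) (μ y) (α y) (β y)) := by
  have k := sm_kc hG hQ hμ h0
  have hx : ∀ i, Sm z (fun y => xc (G y) (Q y) (μ y) i) := by
    intro i
    fin_cases i
    · exact k 1
    · exact (k 0).neg
  have hy : ∀ i, Sm z (fun y => yc (G y) i) := by
    intro i
    fin_cases i
    · exact (hG 1).neg
    · exact hG 0
  intro i j
  exact ((contDiffAt_cu hα : Sm z (cu _)).mul ((sm_conj (hx i)).mul (hx j))).add
    ((contDiffAt_cu hβ : Sm z (cu _)).mul ((sm_conj (hy i)).mul (hy j)))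

theorem sm_eta (L : LvlOK f s r) (hP : PE f s r θ O) (hz : z ∈ O) :
    ContDiffAt ℝ ∞ (fun y => eta2a (n := 2) f θ y) z := by
  obtain ⟨p, hp, -, he⟩ := eta2a_norm (n := 2) hP.par hz (L.an _ (hP.lt z hz))
    (L.sm _ (hP.ne z hz) (hP.lt z hz) (hP.par.lvl z hz))
  have h1 : Sm z p := sm_of_hol (hp.eventually_analyticAt.mono fun w hw => hw.differentiableAt)
  exact (h1.norm_sq ℝ).congr_of_eventuallyEq he

theorem smL_at {a : E3 → ℝ} (h : SmL f s r a) (hP : PE f s r θ O) (hz : z ∈ O) :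
    ContDiffAt ℝ ∞ (fun y => a (θ y)) z := (h θ O hP).contDiffAt (hP.par.isOpen.mem_nhds hz)

/-- **the trial metric is a metric on `Ω¹`** -/
theorem mo_Htr (D : TrD f s r g q φ ψ) (L : LvlOK f s r) (k : ℝ) :
    MO f s r (Htr f g q φ ψ k) where
  sm θ O hP z hz := by
    have h1 : ContDiffAt ℝ ∞ (fun y => ψ (θ y)) z := smL_at D.ψ_sm hP hz
    refine smM_hm (sm_dV D.g_an hP hz) (fun l => sm_dV (D.q_an l) hP hz)
      (fun l => (smL_at (D.φ_sm l) hP hz).neg.exp) (D.nL_pos L hP hz).ne' h1.exp ?_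
    exact ((contDiffAt_const.mul h1).neg.exp).div (sm_eta L hP hz) (eta2a_nn hP L.sm hz).ne'
  pos θ O hP z hz := D.posDef L hP hz k
  tr θ O hP θ' z' T hT hTO hTe hdet := by
    obtain ⟨O', hP', hz'⟩ := pe_of_T hP hT hTe hdet
    filter_upwards [hP'.par.isOpen.mem_nhds hz', eventually_eventually_nhds.2 hTe,
      eventually_eventually_nhds.2 hT, det_ev hT hdet] with w h0 h1 h2 h3
    have e0 := h1.self_of_nhds
    have e1 := eta2a_trans hP'.par hP.par h0 h2 h1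
    have hM : ((Jac T w)ᵀ).det ≠ 0 := by rw [Matrix.det_transpose]; exact h3
    have e2 := dV_trans D.g_an hP h2.self_of_nhds h1
    have e3 : (fun l => dV (q l) θ' w) = fun l => (Jac T w)ᵀ *ᵥ dV (q l) θ (T w) :=
      funext fun l => dV_trans (D.q_an l) hP h2.self_of_nhds h1
    unfold Htr Fr
    rw [e2, e3, e0.2, e1, ← hm_trans hM, Matrix.det_transpose]
    congr 1
    rw [div_div, mul_comm (eta2a (n := 2) f θ (T w))]

end lvl

end

end Crest.Agent.R257.H0_540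
end

-- ▼ part R257/TrD_218
section

/-!
R257 / TrD_218 (helper218): assembly of `TrialStmt` (KUP_952), part 4: the trial metric `Htr` of
helper540.

* `mt_of_mo` : `MO f 0 r H ⟹ Mt f r H`
* `B0Stmt`   : the bound of the second fundamental form of `dg` for `Htr` [560, 844, 540]
* `met_of`   : `B0Stmt ⟹ MetStmt`
-/

set_option autoImplicit false
set_option linter.unusedSectionVars false

open Topology Filter MeasureTheory Set
open scoped ENNReal ContDiff Matrix ComplexOrder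

noncomputable section

namespace Crest.Agent.R257.TrA_218

open Crest.Agent.R275.Geo
open Crest.Agent.R273
open Crest.Agent.R273.Defs_333 (lev)
open Crest.Agent.R273.YauDefs_635 (cH)
open Crest.Agent.R257.Defs_219 Crest.Agent.R257.KED_952 Crest.Agent.R257.KEG_952
open Crest.Agent.R257.KEU_952
open Crest.Agent.R257.V1Defs_822 (SmL LvlOK lgh)
open Crest.Agent.R257.V1Pe_822
open Crest.Agent.R257.PN_835 (nsq)
open Crest.Agent.R257.Aff_835 (eta2a)
open Crest.Agent.R257.C2F2_625 (hV bb)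
open Crest.Agent.R257.KUP_952
open Crest.Agent.R257.CLogD_39
open Crest.Agent.R257.Trl_39 (Dta data_of_xl Phi)
open Crest.Agent.R257.H0_540 (MO TrD Htr r1 aL)
open Crest.Agent.R257.MtM_822 (lin_an)
open Crest.Agent.R257.Ked1_397 (exists_trans)
open Crest.Agent.R257.OutC_309 Crest.Agent.R257.OutD_309
open Crest.Agent.R257.OutB_309 (Chg.hV_eq)

/-- a metric with explicit transition is a metric -/
theorem mt_of_mo {f : E3 → ℂ} {r : ℝ} {H : Form} (L : LvlOK f 0 r) (hH : MO f 0 r H) :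
    Mt f r H := by
  refine ⟨fun θ O hP a b z hz => (hH.sm θ O hP z hz a b).contDiffWithinAt, hH.pos, ?_⟩
  intro θ O θ' O' z z' hP hP' hz hz' hzz a
  obtain ⟨T, hT, hTz, hTe⟩ := exists_trans hP.par hP'.par hz hz' hzz
    (L.an _ (hP'.lt z' hz')).hasStrictFDerivAt
    (L.sm _ (hP'.ne z' hz') (hP'.lt z' hz') (hP'.par.lvl z' hz'))
  have hdet := Crest.Agent.R257.Ked1_397.det_trans hP.par hP'.par hz hT hTe
  have hTO : T z ∈ O' := by rw [hTz]; exact hz'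
  obtain ⟨F, c⟩ := (hH.bun (g := lin a) fun x _ => lin_an a x).tr θ' O' hP' θ z T hT hTO hTe hdet
  have h5 : hV (H θ) (LossD_309.dV (lin a) θ) z =
      hV (H θ') (LossD_309.dV (lin a) θ') (T z) := c.hV_eq.self_of_nhds
  rw [hTz] at h5
  exact h5

section

variable {f : E3 → ℂ} {r A : ℝ} {u : E3 → ℝ} {k L : ℕ} {g h : E3 → ℂ}
  {q : Fin L → E3 → ℂ} {s : Fin L → ℕ} {c B : ℝ}

theorem aL_eq (hD : Dta f r A u k g h q s c B) {x : E3} (h1 : f x = 0) (h2 : x ≠ 0)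
    (h3 : nsq x < r ^ 2) : aL f g q (phq q s) x = a2 f g q s x := by
  unfold aL a2
  refine Finset.sum_congr rfl fun l _ => ?_
  have h4 := hD.qok.pos x h1 h2 h3 l
  unfold phq
  rw [Real.exp_neg, Real.exp_log h4, inv_mul_eq_div]

theorem trD_of (hD : Dta f r A u k g h q s c B) : TrD f 0 r g q (phq q s) (lgh g h) where
  g_an := hD.qok.ang
  q_an := hD.qok.anq
  φ_sm l := wts_sm hD l.succ
  ψ_sm := wts_sm hD 0
  a_pos x h1 h2 h3 := by
    rw [aL_eq hD h1 h2 h3]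
    exact hD.a_pos x h1 h2 h3

theorem r1_eq (v : Fin 2 → ℂ) : r1 v = rk v := by
  ext i j
  simp [r1, rk, Matrix.vecMulVec_apply]

end

/-- the bound of the second fundamental form of `dg` for the metric `Htr` -/
def B0Stmt : Prop := ∀ (f : E3 → ℂ) (r A : ℝ) (u : E3 → ℝ) (k : ℕ) (g h : E3 → ℂ) (L : ℕ)
  (q : Fin L → E3 → ℂ) (s : Fin L → ℕ) (c B : ℝ), LvlOK f 0 r → Dta f r A u k g h q s c B →
  ∀ θ O, PE f 0 r θ O → ∀ z ∈ O, ∀ c' : ℝ,
    Real.exp ((2 + 1 / k) * lgh g h (θ z)) * J2 f q s (θ z) / a2 f g q s (θ z) ^ 2 ≤ c' →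
    ((c' : ℂ) • cH (fun y => Phi f g q s (θ y)) z -
      bb (Htr f g q (phq q s) (lgh g h) k θ) (LossD_309.dV g θ) z).PosSemidef

/-- **`MetStmt`** from the bound of the second fundamental form -/
theorem met_of (b0 : B0Stmt) : MetStmt := by
  intro f r A u k g h L q s c B hf hD
  have hT := trD_of hD
  refine ⟨Htr f g q (phq q s) (lgh g h) k, (c ^ 3)⁻¹, mt_of_mo hf (H0_540.mo_Htr hT hf k), ?_, ?_,
    ?_, ?_⟩
  · intro θ O hP z hz
    exact hT.dg hf hP hz k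
  · intro θ O hP z hz
    exact hT.det hf hP hz k
  · intro θ O hP z hz
    have h1 := hT.dual hf hP hz k
    rw [aL_eq hD (hP.par.lvl z hz) (hP.ne z hz) (hP.lt z hz)] at h1
    simp only [r1_eq] at h1
    exact h1
  · intro θ O hP z hz
    exact b0 f r A u k g h L q s c B hf hD θ O hP z hz _
      (coef_le hD (hP.par.lvl z hz) (hP.ne z hz) (hP.lt z hz))

/-- `TrialStmt` from C-LOG and the bound of the second fundamental form -/
theorem trialStmt_of (cl : CLog_68.CLogStmt) (b0 : B0Stmt) : TrialStmt :=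
  trial_of_clog cl (met_of b0)

end Crest.Agent.R257.TrA_218
end
end

-- ▼ part R257/B0_844
section

/-!
# R257 (S0395), GB-TRIAL (task 909), part 1: the second fundamental form of the trial metric,
one chart (helper844)

* `key`     : Cauchy-Schwarz and Lagrange's identity
* `wf φ A`  : `e^{-φ} conj A`;  `dbar_wf`, `ddb_wf` : derivatives
-/

set_option autoImplicit false
set_option linter.unusedSectionVars false

open Finset Matrix Complex Filter Topology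
open scoped ContDiff ComplexConjugate ComplexOrder

namespace Crest.Agent.R257.B0_844

open Crest.Agent.R275.Geo Crest.Agent.R275.EDR890
open Crest.Agent.R273.Fock_243 Crest.Agent.R273.Calc_243
open Crest.Agent.R273.Bkn_243 Crest.Agent.R273.Pos_243 Crest.Agent.R273.BochA_101
open Crest.Agent.R273.BochB_101
open Crest.Agent.R273.BochC_101 Crest.Agent.R273.BochD_101
open Crest.Agent.R273.Hess_333 Crest.Agent.R273.HessB_333
open Crest.Agent.R273.Defs_333 (lev)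
open Crest.Agent.R257.C2F1_625 Crest.Agent.R257.C2F2_625

noncomputable section

/-! ### finite sums -/

section alg
variable {ι : Type*} [Fintype ι]

/-- Lagrange's identity with weights -/
theorem lag (e : ι → ℝ) (w v : ι → ℂ) :
    ∑ l, ∑ m, (e l * e m) * ‖w l * v m - w m * v l‖ ^ 2 =
      2 * ((∑ l, e l * ‖w l‖ ^ 2) * (∑ m, e m * ‖v m‖ ^ 2) -
        ‖∑ l, (e l : ℂ) * (conj (w l) * v l)‖ ^ 2) := by
  apply Complex.ofReal_injective
  push_cast
  simp only [← Complex.mul_conj']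
  rw [Finset.sum_mul_sum, map_sum, Finset.sum_mul_sum]
  have h1 : ∀ l m, (e l : ℂ) * (e m) * ((w l * v m - w m * v l) * conj (w l * v m - w m * v l)) =
      ((e l : ℂ) * (w l * conj (w l)) * ((e m : ℂ) * (v m * conj (v m))) +
        (e m : ℂ) * (w m * conj (w m)) * ((e l : ℂ) * (v l * conj (v l)))) -
      ((e l : ℂ) * (conj (w l) * v l) * conj ((e m : ℂ) * (conj (w m) * v m)) +
        (e m : ℂ) * (conj (w m) * v m) * conj ((e l : ℂ) * (conj (w l) * v l))) := by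
    intro l m
    simp only [map_sub, map_mul, Complex.conj_ofReal, Complex.conj_conj]
    ring
  simp only [h1, Finset.sum_sub_distrib, Finset.sum_add_distrib]
  rw [Finset.sum_comm (f := fun l m => (e m : ℂ) * (w m * conj (w m)) *
    ((e l : ℂ) * (v l * conj (v l)))), Finset.sum_comm (f := fun l m =>
    (e m : ℂ) * (conj (w m) * v m) * conj ((e l : ℂ) * (conj (w l) * v l)))]
  ring

/-- Cauchy-Schwarz for double sums -/
theorem cs {e : ι → ℝ} (he : ∀ l, 0 < e l) (J T : ι → ι → ℂ) :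
    ‖∑ l, ∑ m, J l m * T l m‖ ^ 2 ≤
      (∑ l, ∑ m, ‖J l m‖ ^ 2 / (e l * e m)) * ∑ l, ∑ m, (e l * e m) * ‖T l m‖ ^ 2 := by
  have h1 : ‖∑ l, ∑ m, J l m * T l m‖ ≤ ∑ q : ι × ι, ‖J q.1 q.2‖ * ‖T q.1 q.2‖ := by
    rw [Fintype.sum_prod_type]
    refine (norm_sum_le _ _).trans (Finset.sum_le_sum fun l _ => ?_)
    refine (norm_sum_le _ _).trans (Finset.sum_le_sum fun m _ => ?_)
    rw [norm_mul]
  have h2 : (∑ q : ι × ι, ‖J q.1 q.2‖ * ‖T q.1 q.2‖) ^ 2 ≤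
      (∑ q : ι × ι, ‖J q.1 q.2‖ ^ 2 / (e q.1 * e q.2)) *
        ∑ q : ι × ι, (e q.1 * e q.2) * ‖T q.1 q.2‖ ^ 2 := by
    refine Finset.sum_sq_le_sum_mul_sum_of_sq_le_mul _ (fun q _ => ?_) (fun q _ => ?_)
      fun q _ => le_of_eq ?_
    · have := mul_pos (he q.1) (he q.2)
      positivity
    · have := mul_pos (he q.1) (he q.2)
      positivity
    · have h3 := (mul_pos (he q.1) (he q.2)).ne'
      have h4 := he q.1
      have h5 := he q.2
      field_simp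
  have e1 : ∑ q : ι × ι, ‖J q.1 q.2‖ ^ 2 / (e q.1 * e q.2) =
      ∑ l, ∑ m, ‖J l m‖ ^ 2 / (e l * e m) := Fintype.sum_prod_type _
  have e2 : ∑ q : ι × ι, (e q.1 * e q.2) * ‖T q.1 q.2‖ ^ 2 =
      ∑ l, ∑ m, (e l * e m) * ‖T l m‖ ^ 2 := Fintype.sum_prod_type _
  rw [← e1, ← e2]
  exact (pow_le_pow_left₀ (norm_nonneg _) h1 2).trans h2

/-- **the algebraic inequality** -/
theorem key {e : ι → ℝ} (he : ∀ l, 0 < e l) (w v : ι → ℂ) (J : ι → ι → ℂ)
    (hJ : ∀ l m, J m l = - J l m) :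
    ‖∑ l, ∑ m, v l * w m * J l m‖ ^ 2 ≤
      ((∑ l, ∑ m, ‖J l m‖ ^ 2 / (e l * e m)) / 2) *
        ((∑ l, e l * ‖w l‖ ^ 2) * (∑ m, e m * ‖v m‖ ^ 2) -
          ‖∑ l, (e l : ℂ) * (conj (w l) * v l)‖ ^ 2) := by
  have h1 : ∑ l, ∑ m, v l * w m * J l m = -(1 / 2 : ℂ) *
      ∑ l, ∑ m, J l m * (w l * v m - w m * v l) := by
    have h2 : ∑ l, ∑ m, J l m * (w l * v m) = - ∑ l, ∑ m, v l * w m * J l m := by
      rw [Finset.sum_comm, ← Finset.sum_neg_distrib]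
      refine Finset.sum_congr rfl fun l _ => ?_
      rw [← Finset.sum_neg_distrib]
      refine Finset.sum_congr rfl fun m _ => ?_
      rw [hJ l m]
      ring
    have h3 : ∑ l, ∑ m, J l m * (w l * v m - w m * v l) =
        ∑ l, ∑ m, J l m * (w l * v m) - ∑ l, ∑ m, v l * w m * J l m := by
      rw [← Finset.sum_sub_distrib]
      refine Finset.sum_congr rfl fun l _ => ?_
      rw [← Finset.sum_sub_distrib]
      refine Finset.sum_congr rfl fun m _ => ?_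
      ring
    rw [h3, h2]
    ring
  have h2 := cs he J (fun l m => w l * v m - w m * v l)
  rw [lag] at h2
  rw [h1, norm_mul, mul_pow]
  have h3 : ‖-(1 / 2 : ℂ)‖ ^ 2 = 1 / 4 := by norm_num
  rw [h3]
  nlinarith [h2]

end alg

/-! ### derivatives -/

section cal
variable {z : Cn 2}

theorem dI_hol {A : Cn 2 → ℂ} (hA : DifferentiableAt ℂ A z) (d : Fin 2) : dS I d A z = 0 :=
  wd_hol hA d

theorem dmI_conj {A : Cn 2 → ℂ} (hA : DifferentiableAt ℂ A z) (d : Fin 2) :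
    dS (-I) d (fun y => conj (A y)) z = 0 := by
  rw [dS_conj (hA.restrictScalars ℝ), conjnI, dI_hol hA, map_zero]

theorem dI_real {φ : Cn 2 → ℝ} (hφ : ContDiffAt ℝ ∞ φ z) (d : Fin 2) :
    conj (dS I d (cu φ) z) = dS (-I) d (cu φ) z := by
  have h : (fun y => conj (cu φ y)) = cu φ := by
    funext y
    exact Complex.conj_ofReal _
  have h2 := dS_conj (s := -I) (a := d) ((contDiffAt_cu hφ).differentiableAt (by simp))
  rw [h, conjnI] at h2
  exact h2.symm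

/-- `e^{-φ} conj A` -/
def wf (φ : Cn 2 → ℝ) (A : Cn 2 → ℂ) (y : Cn 2) : ℂ := Complex.exp (- cu φ y) * conj (A y)

theorem sm_e {φ : Cn 2 → ℝ} (hφ : ContDiffAt ℝ ∞ φ z) : Sm z fun y => Complex.exp (- cu φ y) :=
  (contDiffAt_cu hφ).neg.cexp

theorem sm_wf {φ : Cn 2 → ℝ} {A : Cn 2 → ℂ} (hφ : ContDiffAt ℝ ∞ φ z) (hA : Sm z A) :
    Sm z (wf φ A) := (sm_e hφ).mul hA.conj

theorem dbar_wf {φ : Cn 2 → ℝ} {A : Cn 2 → ℂ} (hφ : ContDiffAt ℝ ∞ φ z) (hA : Sm z A) (s : ℂ)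
    (d : Fin 2) : dS s d (wf φ A) z = Complex.exp (- cu φ z) *
      (dS s d (fun y => conj (A y)) z - conj (A z) * dS s d (cu φ) z) := by
  have h1 : DifferentiableAt ℝ (cu φ) z := (contDiffAt_cu hφ).differentiableAt (by simp)
  unfold wf
  rw [dS_mul (sm_e hφ).diff hA.conj.diff, dS_exp (f := fun y => - cu φ y) h1.neg, dS_neg]
  ring

/-- `∂_c ∂̄_d (e^{-φ} |A|²)` -/
theorem ddb_wf {φ : Cn 2 → ℝ} {A : Cn 2 → ℂ} (hφs : ∀ᶠ y in 𝓝 z, ContDiffAt ℝ ∞ φ y)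
    (hA : ∀ᶠ y in 𝓝 z, DifferentiableAt ℂ A y) (c d : Fin 2) :
    dS (-I) c (dS I d fun y => wf φ A y * A y) z =
      Complex.exp (cu φ z) * (conj (dS I c (wf φ A) z) * dS I d (wf φ A) z) -
        Complex.exp (- cu φ z) * (A z * conj (A z)) * hess φ z c d := by
  have hAs : ∀ᶠ y in 𝓝 z, Sm y A := hA.eventually_nhds.mono fun y hy => sm_of_hol hy
  have hφ := hφs.self_of_nhds
  have hAz := hAs.self_of_nhds
  set F : Cn 2 → ℂ := fun y => dS I d (fun y => conj (A y)) y - conj (A y) * dS I d (cu φ) y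
    with hF
  have e1 : (dS I d fun y => wf φ A y * A y) =ᶠ[𝓝 z] fun y =>
      (Complex.exp (- cu φ y) * A y) * F y := by
    filter_upwards [hA, hAs, hφs] with y h1 h2 h3
    rw [dS_mul (sm_wf h3 h2).diff h2.diff, dI_hol h1, dbar_wf h3 h2]
    ring
  have s1 : Sm z fun y => Complex.exp (- cu φ y) * A y := (sm_e hφ).mul hAz
  have s2 : Sm z (dS I d (fun y => conj (A y))) := hAz.conj.dS _ _
  have s3 : Sm z (dS I d (cu φ)) := Sm.dS (contDiffAt_cu hφ) _ _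
  have s4 : Sm z fun y => conj (A y) * dS I d (cu φ) y := hAz.conj.mul s3
  have hφd : DifferentiableAt ℝ (cu φ) z := (contDiffAt_cu hφ).differentiableAt (by simp)
  have e2 : dS (-I) c F z = - (conj (A z) * hess φ z c d) := by
    have h1 : dS (-I) c (dS I d (fun y => conj (A y))) z = 0 := by
      rw [dS_comm hAz.conj]
      have : dS (-I) c (fun y => conj (A y)) =ᶠ[𝓝 z] fun _ => (0 : ℂ) := by
        filter_upwards [hA] with y hy
        exact dmI_conj hy c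
      rw [dS_congr this, dS_const]
    have h2 : F = fun y => dS I d (fun y => conj (A y)) y + -(conj (A y) * dS I d (cu φ) y) := by
      funext y
      rw [hF]
      ring
    rw [h2, dS_add (g := fun y => -(conj (A y) * dS I d (cu φ) y)) s2.diff s4.diff.neg, h1, dS_neg, dS_mul hAz.conj.diff s3.diff,
      dmI_conj hA.self_of_nhds, hess_eq]
    ring
  have e3 : conj (dS I c (wf φ A) z) = Complex.exp (- cu φ z) *
      (dS (-I) c A z - A z * dS (-I) c (cu φ) z) := by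
    rw [dbar_wf hφ hAz, map_mul, map_sub, map_mul, dI_real hφ, ← Complex.exp_conj, map_neg,
      Complex.conj_conj, dS_conj hAz.diff, Complex.conj_conj, conjI]
    have : conj (cu φ z) = cu φ z := Complex.conj_ofReal _
    rw [this]
  have e4 : dS (-I) c (fun y => Complex.exp (- cu φ y) * A y) z =
      Complex.exp (- cu φ z) * (dS (-I) c A z - A z * dS (-I) c (cu φ) z) := by
    rw [dS_mul (sm_e hφ).diff hAz.diff, dS_exp (f := fun y => - cu φ y) hφd.neg, dS_neg]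
    ring
  have e5 : Complex.exp (cu φ z) * Complex.exp (- cu φ z) = 1 := by
    rw [← Complex.exp_add, add_neg_cancel, Complex.exp_zero]
  have s5 : Sm z F := s2.sub s4
  rw [dS_congr e1, dS_mul s1.diff s5.diff, e2, e4, e3, dbar_wf hφ hAz]
  linear_combination (- (Complex.exp (- cu φ z) *
      (dS (-I) c A z - A z * dS (-I) c (cu φ) z) * F z)) * e5

/-! ### the functions of the trial metric -/

variable {ι : Type} [Fintype ι]

/-- `G ∧ Q` -/
def wdg (G Q : Fin 2 → Cn 2 → ℂ) (y : Cn 2) : ℂ := G 0 y * Q 1 y - G 1 y * Q 0 y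

/-- `e_j ∧ Q` -/
def pq (Q : Fin 2 → Cn 2 → ℂ) (j : Fin 2) (y : Cn 2) : ℂ := if j = 0 then Q 1 y else - Q 0 y

/-- `∑ e^{-φ_l} |G ∧ Q_l|²` -/
def nA (φ : ι → Cn 2 → ℝ) (G : Fin 2 → Cn 2 → ℂ) (Q : ι → Fin 2 → Cn 2 → ℂ) (y : Cn 2) : ℝ :=
  ∑ l, Real.exp (- φ l y) * ‖wdg G (Q l) y‖ ^ 2

/-- `nA` as a complex function -/
def nC (φ : ι → Cn 2 → ℝ) (G : Fin 2 → Cn 2 → ℂ) (Q : ι → Fin 2 → Cn 2 → ℂ) (y : Cn 2) : ℂ :=
  ∑ l, wf (φ l) (wdg G (Q l)) y * wdg G (Q l) y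

/-- `x(e_j)` -/
def xj (φ : ι → Cn 2 → ℝ) (G : Fin 2 → Cn 2 → ℂ) (Q : ι → Fin 2 → Cn 2 → ℂ) (j : Fin 2)
    (y : Cn 2) : ℂ := (∑ l, wf (φ l) (wdg G (Q l)) y * pq (Q l) j y) / nC φ G Q y

/-- `y(e_j) = G ∧ e_j` -/
def yj (G : Fin 2 → Cn 2 → ℂ) (j : Fin 2) (y : Cn 2) : ℂ := if j = 0 then - G 1 y else G 0 y

/-- the coefficient of `∂̄x = b y` -/
def bj (φ : ι → Cn 2 → ℝ) (G : Fin 2 → Cn 2 → ℂ) (Q : ι → Fin 2 → Cn 2 → ℂ) (d : Fin 2)
    (y : Cn 2) : ℂ :=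
  - (∑ l, ∑ m, dS I d (wf (φ l) (wdg G (Q l))) y * wf (φ m) (wdg G (Q m)) y * wdg (Q l) (Q m) y) /
    nC φ G Q y ^ 2

theorem nC_eq (φ : ι → Cn 2 → ℝ) (G : Fin 2 → Cn 2 → ℂ) (Q : ι → Fin 2 → Cn 2 → ℂ) (y : Cn 2) :
    nC φ G Q y = (nA φ G Q y : ℂ) := by
  unfold nC nA wf cu
  push_cast
  refine Finset.sum_congr rfl fun l _ => ?_
  rw [mul_assoc, ← Complex.mul_conj', mul_comm (conj _)]

/-- holomorphic near `z` -/
abbrev HF (z : Cn 2) (G : Fin 2 → Cn 2 → ℂ) : Prop := ∀ i, ∀ᶠ y in 𝓝 z, DifferentiableAt ℂ (G i) y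

theorem HF.ev {G : Fin 2 → Cn 2 → ℂ} (h : HF z G) : ∀ᶠ y in 𝓝 z, HF y G := by
  rw [eventually_all]
  exact fun i => (h i).eventually_nhds

theorem HF.wdg {G Q : Fin 2 → Cn 2 → ℂ} (h : HF z G) (h' : HF z Q) :
    ∀ᶠ y in 𝓝 z, DifferentiableAt ℂ (B0_844.wdg G Q) y := by
  filter_upwards [h 0, h 1, h' 0, h' 1] with y a b c d
  exact (a.fun_mul d).fun_sub (b.fun_mul c)

theorem HF.pq {Q : Fin 2 → Cn 2 → ℂ} (h : HF z Q) (j : Fin 2) :
    ∀ᶠ y in 𝓝 z, DifferentiableAt ℂ (B0_844.pq Q j) y := by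
  filter_upwards [h 0, h 1] with y a b
  unfold B0_844.pq
  split_ifs
  · exact b
  · exact a.neg

theorem HF.yj {G : Fin 2 → Cn 2 → ℂ} (h : HF z G) (j : Fin 2) :
    ∀ᶠ y in 𝓝 z, DifferentiableAt ℂ (B0_844.yj G j) y := by
  filter_upwards [h 0, h 1] with y a b
  unfold B0_844.yj
  split_ifs
  · exact b.neg
  · exact a

variable {φ : ι → Cn 2 → ℝ} {G : Fin 2 → Cn 2 → ℂ} {Q : ι → Fin 2 → Cn 2 → ℂ}

/-- the hypotheses at a point -/
structure Dat (φ : ι → Cn 2 → ℝ) (G : Fin 2 → Cn 2 → ℂ) (Q : ι → Fin 2 → Cn 2 → ℂ)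
    (z : Cn 2) : Prop where
  sm : ∀ l, ∀ᶠ y in 𝓝 z, ContDiffAt ℝ ∞ (φ l) y
  g : HF z G
  q : ∀ l, HF z (Q l)
  n0 : 0 < nA φ G Q z

namespace Dat

theorem wsm (h : Dat φ G Q z) (l : ι) : ∀ᶠ y in 𝓝 z, Sm y (wf (φ l) (wdg G (Q l))) := by
  filter_upwards [h.sm l, (h.g.wdg (h.q l)).eventually_nhds] with y h1 h2
  exact sm_wf h1 (sm_of_hol h2)

theorem nC_sm (h : Dat φ G Q z) : ∀ᶠ y in 𝓝 z, Sm y (nC φ G Q) := by
  have h1 : ∀ᶠ y in 𝓝 z, ∀ l, Sm y (wf (φ l) (wdg G (Q l))) := by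
    rw [eventually_all]
    exact h.wsm
  have h2 : ∀ᶠ y in 𝓝 z, ∀ l, ∀ᶠ w in 𝓝 y, DifferentiableAt ℂ (wdg G (Q l)) w := by
    rw [eventually_all]
    exact fun l => (h.g.wdg (h.q l)).eventually_nhds
  filter_upwards [h1, h2] with y a b
  exact Sm.sum _ fun l _ => (a l).mul (sm_of_hol (b l))

theorem nC_ne (h : Dat φ G Q z) : nC φ G Q z ≠ 0 := by
  rw [nC_eq]
  exact_mod_cast h.n0.ne'

theorem pos_ev (h : Dat φ G Q z) : ∀ᶠ y in 𝓝 z, 0 < nA φ G Q y := by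
  have h1 : ContinuousAt (fun y => (nC φ G Q y).re) z :=
    Complex.continuous_re.continuousAt.comp h.nC_sm.self_of_nhds.continuousAt
  have h2 : ∀ y, (nC φ G Q y).re = nA φ G Q y := fun y => by rw [nC_eq, Complex.ofReal_re]
  simp only [h2] at h1
  exact h1.eventually (lt_mem_nhds h.n0)

theorem ev (h : Dat φ G Q z) : ∀ᶠ y in 𝓝 z, Dat φ G Q y := by
  have h1 : ∀ᶠ y in 𝓝 z, ∀ l, ∀ᶠ w in 𝓝 y, ContDiffAt ℝ ∞ (φ l) w := by
    rw [eventually_all]
    exact fun l => (h.sm l).eventually_nhds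
  have h2 : ∀ᶠ y in 𝓝 z, ∀ l, HF y (Q l) := by
    rw [eventually_all]
    exact fun l => (h.q l).ev
  filter_upwards [h1, h2, h.g.ev, h.pos_ev] with y a b c d
  exact ⟨a, c, b, d⟩

theorem xj_sm (h : Dat φ G Q z) (j : Fin 2) : Sm z (xj φ G Q j) := by
  have h1 : Sm z fun y => ∑ l, wf (φ l) (wdg G (Q l)) y * pq (Q l) j y :=
    Sm.sum _ fun l _ => (h.wsm l).self_of_nhds.mul (sm_of_hol ((h.q l).pq j))
  have h2 : xj φ G Q j = fun y => (∑ l, wf (φ l) (wdg G (Q l)) y * pq (Q l) j y) *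
      (nC φ G Q y)⁻¹ := by
    funext y
    exact div_eq_mul_inv _ _
  rw [h2]
  exact h1.mul (h.nC_sm.self_of_nhds.inv h.nC_ne)

/-- `x(G) = 1` -/
theorem xj_G (h : Dat φ G Q z) : xj φ G Q 0 z * G 0 z + xj φ G Q 1 z * G 1 z = 1 := by
  unfold xj
  rw [div_mul_eq_mul_div, div_mul_eq_mul_div, ← add_div, div_eq_one_iff_eq h.nC_ne,
    Finset.sum_mul, Finset.sum_mul, ← Finset.sum_add_distrib]
  unfold nC
  refine Finset.sum_congr rfl fun l _ => ?_
  simp only [pq, wdg, if_true, if_false, one_ne_zero]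
  ring

theorem dnC (h : Dat φ G Q z) (d : Fin 2) : dS I d (nC φ G Q) z =
    ∑ l, dS I d (wf (φ l) (wdg G (Q l))) z * wdg G (Q l) z := by
  have h1 : ∀ l, DifferentiableAt ℂ (wdg G (Q l)) z := fun l => (h.g.wdg (h.q l)).self_of_nhds
  unfold nC
  rw [dS_sum (f := fun l y => wf (φ l) (wdg G (Q l)) y * wdg G (Q l) y) _ fun l _ =>
    ((h.wsm l).self_of_nhds.diff.mul ((h1 l).restrictScalars ℝ))]
  refine Finset.sum_congr rfl fun l _ => ?_
  rw [dS_mul (h.wsm l).self_of_nhds.diff ((h1 l).restrictScalars ℝ), dI_hol (h1 l), mul_zero,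
    add_zero]

/-- **`∂̄x = b y`** -/
theorem dxj (h : Dat φ G Q z) (j d : Fin 2) :
    dS I d (xj φ G Q j) z = bj φ G Q d z * yj G j z := by
  have hp : ∀ l, DifferentiableAt ℂ (pq (Q l) j) z := fun l => ((h.q l).pq j).self_of_nhds
  have e1 : (fun y => xj φ G Q j y * nC φ G Q y) =ᶠ[𝓝 z] fun y =>
      ∑ l, wf (φ l) (wdg G (Q l)) y * pq (Q l) j y := by
    filter_upwards [h.ev] with y hy
    exact div_mul_cancel₀ _ hy.nC_ne
  have e2 := dS_congr (s := I) (a := d) e1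
  rw [dS_mul (h.xj_sm j).diff h.nC_sm.self_of_nhds.diff,
    dS_sum (f := fun l y => wf (φ l) (wdg G (Q l)) y * pq (Q l) j y) _ fun l _ =>
      ((h.wsm l).self_of_nhds.diff.mul ((hp l).restrictScalars ℝ)), h.dnC] at e2
  have e3 : ∀ l, dS I d (fun y => wf (φ l) (wdg G (Q l)) y * pq (Q l) j y) z =
      dS I d (wf (φ l) (wdg G (Q l))) z * pq (Q l) j z := fun l => by
    rw [dS_mul (h.wsm l).self_of_nhds.diff ((hp l).restrictScalars ℝ), dI_hol (hp l), mul_zero,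
      add_zero]
  simp only [e3] at e2
  have hn := h.nC_ne
  have e4 : xj φ G Q j z * nC φ G Q z = ∑ l, wf (φ l) (wdg G (Q l)) z * pq (Q l) j z :=
    e1.self_of_nhds
  have e5 : dS I d (xj φ G Q j) z * nC φ G Q z ^ 2 =
      nC φ G Q z * (∑ l, dS I d (wf (φ l) (wdg G (Q l))) z * pq (Q l) j z) -
        (∑ l, wf (φ l) (wdg G (Q l)) z * pq (Q l) j z) *
          ∑ l, dS I d (wf (φ l) (wdg G (Q l))) z * wdg G (Q l) z := by
    rw [← e4, ← e2]
    ring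
  have e6 : dS I d (xj φ G Q j) z * nC φ G Q z ^ 2 =
      - (∑ l, ∑ m, dS I d (wf (φ l) (wdg G (Q l))) z * wf (φ m) (wdg G (Q m)) z *
        wdg (Q l) (Q m) z) * yj G j z := by
    rw [e5]
    conv_lhs => rw [mul_comm (nC φ G Q z), mul_comm (∑ l, wf (φ l) (wdg G (Q l)) z * pq (Q l) j z)]
    unfold nC
    rw [Finset.sum_mul_sum, Finset.sum_mul_sum, ← Finset.sum_sub_distrib, neg_mul, Finset.sum_mul,
      ← Finset.sum_neg_distrib]
    refine Finset.sum_congr rfl fun l _ => ?_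
    rw [← Finset.sum_sub_distrib, Finset.sum_mul, ← Finset.sum_neg_distrib]
    refine Finset.sum_congr rfl fun m _ => ?_
    fin_cases j
    · simp only [pq, yj, wdg, Fin.zero_eta, if_true]
      ring
    · simp only [pq, yj, wdg, Fin.mk_one, one_ne_zero, if_false]
      ring
  unfold bj
  rw [div_mul_eq_mul_div, eq_div_iff (pow_ne_zero 2 hn), e6]

end Dat

end cal

end

end Crest.Agent.R257.B0_844
end

-- ▼ part R257/B1_844
section

/-!
# R257 (S0395), GB-TRIAL (task 909), part 2: the inequality in one chart (helper844)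

* `bb_tri` : `bb H G = (α/β) conj(b_c) b_d` for `H = α conj(x) x + β conj(y) y`
* `core`   : `c ∂∂̄ (log nA + ∑ φ_l) - bb H G ≥ 0` for `c ≥ (α/β) 𝒥 / nA²`
-/

set_option autoImplicit false
set_option linter.unusedSectionVars false

open Finset Matrix Complex Filter Topology
open scoped ContDiff ComplexConjugate ComplexOrder

namespace Crest.Agent.R257.B0_844

open Crest.Agent.R275.Geo Crest.Agent.R275.EDR890
open Crest.Agent.R273.Fock_243 Crest.Agent.R273.Calc_243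
open Crest.Agent.R273.Bkn_243 Crest.Agent.R273.Pos_243 Crest.Agent.R273.BochA_101
open Crest.Agent.R273.BochB_101
open Crest.Agent.R273.BochC_101 Crest.Agent.R273.BochD_101
open Crest.Agent.R273.Hess_333 Crest.Agent.R273.HessB_333
open Crest.Agent.R273.Defs_333 (lev)
open Crest.Agent.R257.C2F1_625 Crest.Agent.R257.C2F2_625

noncomputable section

variable {ι : Type} [Fintype ι] {z : Cn 2}
variable {φ : ι → Cn 2 → ℝ} {G : Fin 2 → Cn 2 → ℂ} {Q : ι → Fin 2 → Cn 2 → ℂ}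

/-! ### the second fundamental form -/

theorem fr_alg {α β : ℂ} {x y : Fin 2 → ℂ} {H : Matrix (Fin 2) (Fin 2) ℂ}
    (hH : ∀ i j, H i j = α * (conj (x i) * x j) + β * (conj (y i) * y j))
    (F : Matrix (Fin 2) (Fin 2) ℂ) (a b : Fin 2) : (Fᴴ * H * F) a b =
      α * (conj (x 0 * F 0 a + x 1 * F 1 a) * (x 0 * F 0 b + x 1 * F 1 b)) +
        β * (conj (y 0 * F 0 a + y 1 * F 1 a) * (y 0 * F 0 b + y 1 * F 1 b)) := by
  simp only [Matrix.mul_apply, Fin.sum_univ_two, Matrix.conjTranspose_apply, hH, Complex.star_def,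
    map_add, map_mul]
  ring

theorem Dat.exists_k (h : Dat φ G Q z) : ∃ k, G k z ≠ 0 := by
  by_contra hc
  push Not at hc
  have := h.n0
  unfold nA wdg at this
  simp [hc 0, hc 1] at this

/-- **the second fundamental form of the trial metric** -/
theorem Dat.bb_tri (h : Dat φ G Q z) {α β : Cn 2 → ℝ} {H : Cn 2 → Matrix (Fin 2) (Fin 2) ℂ}
    {V : Cn 2 → Fin 2 → ℂ}
    (hα : ∀ᶠ y in 𝓝 z, ContDiffAt ℝ ∞ α y ∧ 0 < α y)
    (hβ : ∀ᶠ y in 𝓝 z, ContDiffAt ℝ ∞ β y ∧ 0 < β y)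
    (hVe : V = fun y i => G i y)
    (hsm : ∀ᶠ y in 𝓝 z, SmM y H) (hdet : (H z).det ≠ 0)
    (hH : ∀ᶠ y in 𝓝 z, ∀ i j, H y i j = (α y : ℂ) * (conj (xj φ G Q i y) * xj φ G Q j y) +
      (β y : ℂ) * (conj (yj G i y) * yj G j y))
    (hh : ∀ᶠ y in 𝓝 z, hV H V y = α y) (c d : Fin 2) :
    bb H V z c d = ((α z / β z : ℝ) : ℂ) * (conj (bj φ G Q c z) * bj φ G Q d z) := by
  obtain ⟨k, hk⟩ := h.exists_k
  set k' : Fin 2 := if k = 0 then 1 else 0 with hk'
  have hy0 : ∀ y, yj G k' y = 0 → G k y = 0 := by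
    intro y hy
    fin_cases k
    · simpa [hk', yj] using hy
    · simpa [hk', yj] using hy
  have hyz : yj G k' z ≠ 0 := fun h0 => hk (hy0 z h0)
  have hye : ∀ᶠ y in 𝓝 z, yj G k' y ≠ 0 :=
    (h.g.yj k').self_of_nhds.continuousAt.eventually_ne hyz
  have hV' : ∀ i, ∀ᶠ y in 𝓝 z, DifferentiableAt ℂ (fun w => V w i) y := by
    intro i
    rw [hVe]
    exact h.g i
  have hkV : V z k ≠ 0 := by rw [hVe]; exact hk
  have hall : ∀ᶠ y in 𝓝 z, Sm y (cu α) ∧ Sm y (cu fun y => β y * ‖yj G k' y‖ ^ 2) ∧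
      Sm y (xj φ G Q k') ∧ Sm y (fun y => conj (xj φ G Q k' y)) ∧ 0 < cu α y ∧
      0 < cu (fun y => β y * ‖yj G k' y‖ ^ 2) y ∧ cu α y = (hV H V y : ℂ) := by
    filter_upwards [hα, hβ, h.ev, hye, hh, (h.g.yj k').eventually_nhds] with y a1 a2 a3 a4 a5 a6
    have b1 := a3.xj_sm k'
    refine ⟨contDiffAt_cu a1.1, contDiffAt_cu (a2.1.mul ((sm_of_hol a6).norm_sq ℝ)), b1, b1.conj,
      ?_, ?_, ?_⟩
    · exact Complex.zero_lt_real.2 a1.2
    · have := norm_pos_iff.2 a4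
      refine Complex.zero_lt_real.2 ?_
      have b2 := a2.2
      positivity
    · rw [a5]
      rfl
  have hE : (fun y => (fr V k y)ᴴ * H y * fr V k y) =ᶠ[𝓝 z]
      ldu (cu α) (cu fun y => β y * ‖yj G k' y‖ ^ 2) (xj φ G Q k')
        (fun y => conj (xj φ G Q k' y)) := by
    filter_upwards [hH, h.ev] with y a1 a2
    have x1 := a2.xj_G
    have y1 : yj G 0 y * G 0 y + yj G 1 y * G 1 y = 0 := by
      simp only [yj, if_true, one_ne_zero, if_false]
      ring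
    have hfr : ∀ (u : Fin 2 → ℂ), u 0 * fr V k y 0 0 + u 1 * fr V k y 1 0 =
        u 0 * G 0 y + u 1 * G 1 y := by
      intro u
      rw [hVe]
      rfl
    have hfr1 : ∀ (u : Fin 2 → ℂ), u 0 * fr V k y 0 1 + u 1 * fr V k y 1 1 = u k' := by
      intro u
      fin_cases k
      · simp [fr, hk']
      · simp [fr, hk']
    have hny : (yj G k' y) * conj (yj G k' y) = ((‖yj G k' y‖ ^ 2 : ℝ) : ℂ) := by
      rw [Complex.mul_conj']
      push_cast
      rfl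
    ext a b
    rw [fr_alg (x := fun i => xj φ G Q i y) (y := fun i => yj G i y) a1]
    have f0 : xj φ G Q 0 y * fr V k y 0 0 + xj φ G Q 1 y * fr V k y 1 0 = 1 :=
      (hfr fun i => xj φ G Q i y).trans x1
    have f1 : xj φ G Q 0 y * fr V k y 0 1 + xj φ G Q 1 y * fr V k y 1 1 = xj φ G Q k' y :=
      hfr1 fun i => xj φ G Q i y
    have g0 : yj G 0 y * fr V k y 0 0 + yj G 1 y * fr V k y 1 0 = 0 :=
      (hfr fun i => yj G i y).trans y1
    have g1 : yj G 0 y * fr V k y 0 1 + yj G 1 y * fr V k y 1 1 = yj G k' y :=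
      hfr1 fun i => yj G i y
    fin_cases a <;> fin_cases b
    · simp only [Fin.zero_eta, f0, g0, ldu, cu, map_one, map_zero]
      simp
    · simp only [Fin.zero_eta, Fin.mk_one, f0, g0, f1, g1, ldu, cu, map_one, map_zero]
      simp
    · simp only [Fin.zero_eta, Fin.mk_one, f0, g0, f1, g1, ldu, cu, map_one, map_zero]
      simp
    · simp only [Fin.mk_one, f1, g1, ldu, cu]
      simp only [Matrix.of_apply, Matrix.cons_val', Matrix.cons_val_one, Matrix.cons_val_fin_one]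
      rw [Complex.ofReal_mul, ← hny]
      ring
  have e := bt_eq_bb (k := k) hsm hdet hV' hkV hall hE c d
  rw [← e]
  unfold bt
  have hconj : dS (-I) c (fun y => conj (xj φ G Q k' y)) z = conj (dS I c (xj φ G Q k') z) := by
    rw [dS_conj (h.xj_sm k').diff, conjnI]
  rw [hconj, h.dxj, h.dxj]
  have hβ0 : (β z : ℂ) ≠ 0 := Complex.ofReal_ne_zero.2 hβ.self_of_nhds.2.ne'
  have hny : ((‖yj G k' z‖ ^ 2 : ℝ) : ℂ) = (yj G k' z) * conj (yj G k' z) := by
    rw [Complex.mul_conj']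
    push_cast
    rfl
  have hc0 : conj (yj G k' z) ≠ 0 := (map_ne_zero _).2 hyz
  simp only [cu]
  rw [Complex.ofReal_mul, hny, map_mul, Complex.ofReal_div]
  field_simp

/-! ### the Hessian of `log nA` -/

theorem Dat.hess_nA (h : Dat φ G Q z) (c d : Fin 2) :
    hess (fun y => Real.log (nA φ G Q y)) z c d =
      (∑ l, (Complex.exp (cu (φ l) z) * (conj (dS I c (wf (φ l) (wdg G (Q l))) z) *
          dS I d (wf (φ l) (wdg G (Q l))) z) -
        Complex.exp (- cu (φ l) z) * (wdg G (Q l) z * conj (wdg G (Q l) z)) *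
          hess (φ l) z c d)) / nC φ G Q z -
      conj (dS I c (nC φ G Q) z) * dS I d (nC φ G Q) z / nC φ G Q z ^ 2 := by
  have him : ∀ y, (nC φ G Q y).im = 0 := fun y => by rw [nC_eq, Complex.ofReal_im]
  have hre : ∀ y, (nC φ G Q y).re = nA φ G Q y := fun y => by rw [nC_eq, Complex.ofReal_re]
  have h1 := lg_eq_hess h.nC_sm.self_of_nhds (Eventually.of_forall him)
    (by rw [hre]; exact h.n0) c d
  simp only [hre] at h1
  rw [← h1, lg]
  have h2 : dS (-I) c (nC φ G Q) z = conj (dS I c (nC φ G Q) z) := by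
    have e : (fun y => conj (nC φ G Q y)) = nC φ G Q := by
      funext y
      rw [nC_eq, Complex.conj_ofReal]
    have e2 := dS_conj (s := -I) (a := c) h.nC_sm.self_of_nhds.diff
    rw [e, conjnI] at e2
    exact e2
  have hsl : ∀ l, ∀ᶠ y in 𝓝 z, Sm y fun y => wf (φ l) (wdg G (Q l)) y * wdg G (Q l) y := by
    intro l
    filter_upwards [h.wsm l, (h.g.wdg (h.q l)).eventually_nhds] with y a b
    exact a.mul (sm_of_hol b)
  have h3 : dS I d (nC φ G Q) =ᶠ[𝓝 z] fun y =>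
      ∑ l, dS I d (fun y => wf (φ l) (wdg G (Q l)) y * wdg G (Q l) y) y := by
    have : ∀ᶠ y in 𝓝 z, ∀ l, Sm y fun y => wf (φ l) (wdg G (Q l)) y * wdg G (Q l) y := by
      rw [eventually_all]
      exact hsl
    filter_upwards [this] with y hy
    exact dS_sum (f := fun l y => wf (φ l) (wdg G (Q l)) y * wdg G (Q l) y) _
      fun l _ => (hy l).diff
  have h4 : dS (-I) c (dS I d (nC φ G Q)) z = ∑ l,
      (Complex.exp (cu (φ l) z) * (conj (dS I c (wf (φ l) (wdg G (Q l))) z) *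
          dS I d (wf (φ l) (wdg G (Q l))) z) -
        Complex.exp (- cu (φ l) z) * (wdg G (Q l) z * conj (wdg G (Q l) z)) *
          hess (φ l) z c d) := by
    rw [dS_congr h3, dS_sum (f := fun l y => dS I d (fun y => wf (φ l) (wdg G (Q l)) y *
      wdg G (Q l) y) y) _ fun l _ => ((hsl l).self_of_nhds.dS I d).diff]
    refine Finset.sum_congr rfl fun l _ => ?_
    exact ddb_wf (h.sm l) (h.g.wdg (h.q l)) c d
  rw [h4, h2]

/-! ### quadratic forms -/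

theorem qf_eq (M : Matrix (Fin 2) (Fin 2) ℂ) (x : Fin 2 → ℂ) :
    star x ⬝ᵥ (M *ᵥ x) = ∑ c, ∑ d, conj (x c) * M c d * x d := by
  simp only [dotProduct, Matrix.mulVec, Pi.star_apply, Complex.star_def, Finset.mul_sum,
    mul_assoc]

theorem qf_rank (a x : Fin 2 → ℂ) : ∑ c, ∑ d, conj (x c) * (conj (a c) * a d) * x d =
    ((‖∑ d, a d * x d‖ ^ 2 : ℝ) : ℂ) := by
  push_cast
  rw [← Complex.conj_mul']
  simp only [Fin.sum_univ_two, map_add, map_mul]
  ring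

theorem hess_sum {J : Type} (t : Finset J) {u : J → Cn 2 → ℝ} {z : Cn 2}
    (hu : ∀ j ∈ t, ContDiffAt ℝ ∞ (u j) z) :
    hess (fun y => ∑ j ∈ t, u j y) z = ∑ j ∈ t, hess (u j) z := by
  classical
  induction t using Finset.induction_on with
  | empty =>
    simp only [Finset.sum_empty]
    ext a b
    rw [hess_eq]
    have : (cu fun _ : Cn 2 => (0:ℝ)) = fun _ => (0:ℂ) := by
      funext y
      simp [cu]
    rw [this]
    have h2 : (dS I b fun _ : Cn 2 => (0:ℂ)) = fun _ => 0 := by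
      funext y
      exact dS_const
    rw [h2, dS_const]
    rfl
  | insert i t hi ih =>
    have h1 : (fun y => ∑ j ∈ insert i t, u j y) = fun y => u i y + ∑ j ∈ t, u j y := by
      funext y; rw [Finset.sum_insert hi]
    rw [h1, hess_add (hu i (Finset.mem_insert_self i t))
      (ContDiffAt.sum fun j hj => hu j (Finset.mem_insert_of_mem hj)), Finset.sum_insert hi,
      ih fun j hj => hu j (Finset.mem_insert_of_mem hj)]

theorem qf_sum (T : ι → Fin 2 → Fin 2 → ℂ) (x : Fin 2 → ℂ) :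
    ∑ l, ∑ c, ∑ d, conj (x c) * T l c d * x d =
      ∑ c, ∑ d, conj (x c) * (∑ l, T l c d) * x d := by
  rw [Finset.sum_comm]
  refine Finset.sum_congr rfl fun c _ => ?_
  rw [Finset.sum_comm]
  refine Finset.sum_congr rfl fun d _ => ?_
  rw [Finset.mul_sum, Finset.sum_mul]

/-- `𝒥` -/
def JJ (φ : ι → Cn 2 → ℝ) (Q : ι → Fin 2 → Cn 2 → ℂ) (z : Cn 2) : ℝ :=
  (∑ l, ∑ m, ‖wdg (Q l) (Q m) z‖ ^ 2 / (Real.exp (φ l z) * Real.exp (φ m z))) / 2

theorem JJ_nn (φ : ι → Cn 2 → ℝ) (Q : ι → Fin 2 → Cn 2 → ℂ) (z : Cn 2) : 0 ≤ JJ φ Q z := by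
  unfold JJ
  positivity

/-- the value of the form of `∂∂̄ log nA` -/
theorem Dat.qf_nA (h : Dat φ G Q z) (x : Fin 2 → ℂ) (P : ι → ℝ)
    (hP : ∀ l, star x ⬝ᵥ (hess (φ l) z *ᵥ x) = (P l : ℂ)) :
    star x ⬝ᵥ (hess (fun y => Real.log (nA φ G Q y)) z *ᵥ x) =
      (((∑ l, (Real.exp (φ l z) * ‖∑ d, dS I d (wf (φ l) (wdg G (Q l))) z * x d‖ ^ 2 -
        Real.exp (- φ l z) * ‖wdg G (Q l) z‖ ^ 2 * P l)) / nA φ G Q z -
        ‖∑ l, (∑ d, dS I d (wf (φ l) (wdg G (Q l))) z * x d) * wdg G (Q l) z‖ ^ 2 /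
          nA φ G Q z ^ 2 : ℝ) : ℂ) := by
  rw [qf_eq]
  set T : ι → Fin 2 → Fin 2 → ℂ := fun l c d =>
    Complex.exp (cu (φ l) z) * (conj (dS I c (wf (φ l) (wdg G (Q l))) z) *
          dS I d (wf (φ l) (wdg G (Q l))) z) -
        Complex.exp (- cu (φ l) z) * (wdg G (Q l) z * conj (wdg G (Q l) z)) *
          hess (φ l) z c d with hT
  have e0 : ∀ c d, hess (fun y => Real.log (nA φ G Q y)) z c d = (∑ l, T l c d) / nC φ G Q z -
      conj (dS I c (nC φ G Q) z) * dS I d (nC φ G Q) z / nC φ G Q z ^ 2 := h.hess_nA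
  have e1 : ∀ l, ((Real.exp (φ l z) * ‖∑ d, dS I d (wf (φ l) (wdg G (Q l))) z * x d‖ ^ 2 -
        Real.exp (- φ l z) * ‖wdg G (Q l) z‖ ^ 2 * P l : ℝ) : ℂ) =
        ∑ c, ∑ d, conj (x c) * T l c d * x d := by
    intro l
    rw [Complex.ofReal_sub, Complex.ofReal_mul, ← qf_rank, Complex.ofReal_mul, Complex.ofReal_mul,
      ← hP l, qf_eq, Complex.ofReal_exp, Complex.ofReal_exp, Complex.ofReal_neg]
    have : ((‖wdg G (Q l) z‖ ^ 2 : ℝ) : ℂ) = wdg G (Q l) z * conj (wdg G (Q l) z) := by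
      rw [Complex.mul_conj']
      push_cast
      rfl
    rw [this]
    simp only [Fin.sum_univ_two, cu, hT]
    ring
  have e2 : ((‖∑ l, (∑ d, dS I d (wf (φ l) (wdg G (Q l))) z * x d) * wdg G (Q l) z‖ ^ 2 : ℝ) : ℂ)
      = ∑ c, ∑ d, conj (x c) * (conj (dS I c (nC φ G Q) z) * dS I d (nC φ G Q) z) * x d := by
    rw [qf_rank]
    have : ∑ l, (∑ d, dS I d (wf (φ l) (wdg G (Q l))) z * x d) * wdg G (Q l) z =
        ∑ d, dS I d (nC φ G Q) z * x d := by
      simp only [h.dnC, Finset.sum_mul]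
      rw [Finset.sum_comm]
      refine Finset.sum_congr rfl fun d _ => Finset.sum_congr rfl fun l _ => ?_
      ring
    rw [this]
  rw [Complex.ofReal_sub, Complex.ofReal_div, Complex.ofReal_div, e2, Complex.ofReal_sum,
    Complex.ofReal_pow, ← nC_eq]
  simp only [e1, e0]
  rw [qf_sum]
  simp only [Fin.sum_univ_two]
  ring

/-- **the inequality in one chart** -/
theorem Dat.core (h : Dat φ G Q z) {α β : Cn 2 → ℝ} {H : Cn 2 → Matrix (Fin 2) (Fin 2) ℂ}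
    {V : Cn 2 → Fin 2 → ℂ}
    (hpsh : ∀ l v, 0 ≤ lev (φ l) z v)
    (hα : ∀ᶠ y in 𝓝 z, ContDiffAt ℝ ∞ α y ∧ 0 < α y)
    (hβ : ∀ᶠ y in 𝓝 z, ContDiffAt ℝ ∞ β y ∧ 0 < β y)
    (hVe : V = fun y i => G i y)
    (hsm : ∀ᶠ y in 𝓝 z, SmM y H) (hdet : (H z).det ≠ 0)
    (hH : ∀ᶠ y in 𝓝 z, ∀ i j, H y i j = (α y : ℂ) * (conj (xj φ G Q i y) * xj φ G Q j y) +
      (β y : ℂ) * (conj (yj G i y) * yj G j y))
    (hh : ∀ᶠ y in 𝓝 z, hV H V y = α y) {c : ℝ}
    (hc : α z / β z * (JJ φ Q z / nA φ G Q z ^ 2) ≤ c) :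
    ((c : ℂ) • hess (fun y => Real.log (nA φ G Q y) + ∑ l, φ l y) z - bb H V z).PosSemidef := by
  have hφ : ∀ l, ContDiffAt ℝ ∞ (φ l) z := fun l => (h.sm l).self_of_nhds
  have hn := h.n0
  have sN : ContDiffAt ℝ ∞ (fun y => nA φ G Q y) z := by
    have h1 : ContDiffAt ℝ ∞ (fun y => (nC φ G Q y).re) z :=
      Complex.reCLM.contDiff.contDiffAt.comp z h.nC_sm.self_of_nhds
    simpa only [nC_eq, Complex.ofReal_re] using h1
  have sL : ContDiffAt ℝ ∞ (fun y => Real.log (nA φ G Q y)) z := sN.log hn.ne'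
  have sS : ContDiffAt ℝ ∞ (fun y => ∑ l, φ l y) z := ContDiffAt.sum fun l _ => hφ l
  have hbb := h.bb_tri hα hβ hVe hsm hdet hH hh
  have hab : 0 < α z / β z := div_pos hα.self_of_nhds.2 hβ.self_of_nhds.2
  have hherm : ((c : ℂ) • hess (fun y => Real.log (nA φ G Q y) + ∑ l, φ l y) z -
      bb H V z).IsHermitian := by
    refine Matrix.IsHermitian.sub ?_ ?_
    · unfold Matrix.IsHermitian
      rw [Matrix.conjTranspose_smul, (hess_herm (sL.add sS)).eq, Complex.star_def,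
        Complex.conj_ofReal]
    · ext i j
      rw [Matrix.conjTranspose_apply, hbb, hbb, Complex.star_def, map_mul, map_mul,
        Complex.conj_conj, Complex.conj_ofReal]
      ring
  refine Matrix.PosSemidef.of_dotProduct_mulVec_nonneg hherm fun x => ?_
  -- the numbers
  have hPe : ∀ l, ∃ P : ℝ, 0 ≤ P ∧ star x ⬝ᵥ (hess (φ l) z *ᵥ x) = (P : ℂ) := by
    intro l
    have h1 := (posSemidef_hess (hφ l) (hpsh l)).dotProduct_mulVec_nonneg x
    refine ⟨(star x ⬝ᵥ (hess (φ l) z *ᵥ x)).re, (Complex.le_def.1 h1).1, ?_⟩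
    exact Complex.ext (by simp) (by simpa using (Complex.le_def.1 h1).2.symm)
  choose P hP0 hP using hPe
  set n := nA φ G Q z with hnd
  set e : ι → ℝ := fun l => Real.exp (φ l z) with he
  set A : ι → ℂ := fun l => wdg G (Q l) z with hA
  set w : ι → ℂ := fun l => wf (φ l) (wdg G (Q l)) z with hw
  set v : ι → ℂ := fun l => ∑ d, dS I d (wf (φ l) (wdg G (Q l))) z * x d with hv
  have he0 : ∀ l, 0 < e l := fun l => Real.exp_pos _
  have hwe : ∀ l, e l * ‖w l‖ ^ 2 = Real.exp (- φ l z) * ‖A l‖ ^ 2 := by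
    intro l
    simp only [he, hw, hA, wf, cu]
    rw [norm_mul, RCLike.norm_conj, ← Complex.ofReal_neg, ← Complex.ofReal_exp, Complex.norm_real,
      Real.norm_of_nonneg (Real.exp_pos _).le, mul_pow, ← mul_assoc, sq (Real.exp _), ← mul_assoc,
      ← Real.exp_add, add_neg_cancel, Real.exp_zero, one_mul]
  have hwc : ∀ l, (e l : ℂ) * conj (w l) = A l := by
    intro l
    simp only [he, hw, hA, wf, cu]
    rw [map_mul, Complex.conj_conj, ← Complex.exp_conj, map_neg, Complex.conj_ofReal,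
      Complex.ofReal_exp, ← mul_assoc, ← Complex.exp_add, add_neg_cancel, Complex.exp_zero,
      one_mul]
  have hsn : ∑ l, e l * ‖w l‖ ^ 2 = n := by
    simp only [hwe]
    rfl
  have hsl : ∀ l, e l * ‖w l‖ ^ 2 ≤ n := by
    intro l
    rw [← hsn]
    exact Finset.single_le_sum (f := fun l => e l * ‖w l‖ ^ 2)
      (fun i _ => mul_nonneg (he0 i).le (by positivity)) (Finset.mem_univ l)
  -- the form of the Hessian
  have hX := h.qf_nA x P hP
  set K : ℝ := ∑ l, e l * ‖v l‖ ^ 2 with hK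
  set R : ℝ := ‖∑ l, v l * A l‖ ^ 2 with hR
  have hX' : star x ⬝ᵥ (hess (fun y => Real.log (nA φ G Q y)) z *ᵥ x) =
      (((K - ∑ l, e l * ‖w l‖ ^ 2 * P l) / n - R / n ^ 2 : ℝ) : ℂ) := by
    have h1 : ∑ l, (Real.exp (φ l z) * ‖v l‖ ^ 2 - Real.exp (- φ l z) * ‖A l‖ ^ 2 * P l) =
        K - ∑ l, e l * ‖w l‖ ^ 2 * P l := by
      rw [hK, ← Finset.sum_sub_distrib]
      refine Finset.sum_congr rfl fun l _ => ?_
      rw [hwe]
    rw [← h1]
    exact hX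
  have hΦ : star x ⬝ᵥ (hess (fun y => Real.log (nA φ G Q y) + ∑ l, φ l y) z *ᵥ x) =
      (((K - ∑ l, e l * ‖w l‖ ^ 2 * P l) / n - R / n ^ 2 + ∑ l, P l : ℝ) : ℂ) := by
    rw [hess_add sL sS, hess_sum _ (fun l _ => hφ l), Matrix.add_mulVec, dotProduct_add, hX',
      Matrix.sum_mulVec, dotProduct_sum]
    simp only [hP]
    push_cast
    rfl
  -- the form of `bb`
  set B : ℂ := ∑ d, bj φ G Q d z * x d with hB
  have hBf : star x ⬝ᵥ (bb H V z *ᵥ x) = ((α z / β z * ‖B‖ ^ 2 : ℝ) : ℂ) := by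
    rw [qf_eq, Complex.ofReal_mul, hB, ← qf_rank]
    simp only [hbb, Fin.sum_univ_two]
    ring
  have hBn : B * (n : ℂ) ^ 2 = - ∑ l, ∑ m, v l * w m * wdg (Q l) (Q m) z := by
    have hn0 : nC φ G Q z ≠ 0 := h.nC_ne
    have h1 : ∀ d, bj φ G Q d z * (n : ℂ) ^ 2 = - ∑ l, ∑ m,
        dS I d (wf (φ l) (wdg G (Q l))) z * w m * wdg (Q l) (Q m) z := by
      intro d
      rw [hnd, ← nC_eq]
      unfold bj
      rw [div_mul_cancel₀ _ (pow_ne_zero 2 hn0)]
    rw [hB, Finset.sum_mul]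
    have h2 : ∀ d, bj φ G Q d z * x d * (n : ℂ) ^ 2 = - ∑ l, ∑ m,
        dS I d (wf (φ l) (wdg G (Q l))) z * x d * w m * wdg (Q l) (Q m) z := by
      intro d
      rw [mul_right_comm, h1, neg_mul, Finset.sum_mul]
      congr 1
      refine Finset.sum_congr rfl fun l _ => ?_
      rw [Finset.sum_mul]
      refine Finset.sum_congr rfl fun m _ => ?_
      ring
    simp only [h2, Finset.sum_neg_distrib]
    rw [Finset.sum_comm]
    congr 1
    refine Finset.sum_congr rfl fun l _ => ?_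
    rw [Finset.sum_comm]
    refine Finset.sum_congr rfl fun m _ => ?_
    simp only [hv, Finset.sum_mul]
  have hkey := key he0 w v (fun l m => wdg (Q l) (Q m) z) (fun l m => by simp only [wdg]; ring)
  have hR' : ‖∑ l, (e l : ℂ) * (conj (w l) * v l)‖ ^ 2 = R := by
    rw [hR]
    congr 2
    refine Finset.sum_congr rfl fun l _ => ?_
    rw [← mul_assoc, hwc, mul_comm]
  rw [hR', hsn, ← norm_neg, ← hBn, norm_mul, norm_pow, Complex.norm_real,
    Real.norm_of_nonneg hn.le, mul_pow] at hkey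
  -- conclusion
  have hJ : (∑ l, ∑ m, ‖wdg (Q l) (Q m) z‖ ^ 2 / (e l * e m)) / 2 = JJ φ Q z := rfl
  rw [hJ] at hkey
  have hJn := JJ_nn φ Q z
  set J := JJ φ Q z with hJd
  set Y : ℝ := (K - ∑ l, e l * ‖w l‖ ^ 2 * P l) / n - R / n ^ 2 + ∑ l, P l with hY
  have hYn : n * K - R ≤ n ^ 2 * Y := by
    have h1 : n ^ 2 * Y = n * K - R + n * (n * ∑ l, P l - ∑ l, e l * ‖w l‖ ^ 2 * P l) := by
      rw [hY]
      field_simp
      ring
    have h2 : 0 ≤ n * ∑ l, P l - ∑ l, e l * ‖w l‖ ^ 2 * P l := by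
      rw [Finset.mul_sum, ← Finset.sum_sub_distrib]
      refine Finset.sum_nonneg fun l _ => ?_
      rw [← sub_mul]
      exact mul_nonneg (sub_nonneg.2 (hsl l)) (hP0 l)
    rw [h1]
    have := mul_nonneg hn.le h2
    linarith
  have hlag : 0 ≤ n * K - R := by
    have h1 := lag e w v
    rw [hR', hsn] at h1
    have h2 : 0 ≤ ∑ l, ∑ m, (e l * e m) * ‖w l * v m - w m * v l‖ ^ 2 :=
      Finset.sum_nonneg fun l _ => Finset.sum_nonneg fun m _ =>
        mul_nonneg (mul_nonneg (he0 l).le (he0 m).le) (by positivity)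
    rw [h1] at h2
    have h3 : (∑ l, e l * ‖v l‖ ^ 2) = K := rfl
    rw [h3] at h2
    linarith
  have hY0 : 0 ≤ Y := by
    have h1 : 0 ≤ n ^ 2 * Y := hlag.trans hYn
    exact nonneg_of_mul_nonneg_right h1 (by positivity)
  have hBY : ‖B‖ ^ 2 ≤ J / n ^ 2 * Y := by
    have h1 : ‖B‖ ^ 2 * (n ^ 2) ^ 2 ≤ J * (n ^ 2 * Y) := by
      refine le_trans ?_ (hkey.trans (mul_le_mul_of_nonneg_left hYn hJn))
      rfl
    have h2 : 0 < (n ^ 2) ^ 2 := by positivity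
    rw [← mul_le_mul_iff_left₀ h2]
    refine h1.trans (le_of_eq ?_)
    field_simp
  have hfin : α z / β z * ‖B‖ ^ 2 ≤ c * Y := by
    calc α z / β z * ‖B‖ ^ 2 ≤ α z / β z * (J / n ^ 2 * Y) :=
          mul_le_mul_of_nonneg_left hBY hab.le
      _ = α z / β z * (J / n ^ 2) * Y := by ring
      _ ≤ c * Y := mul_le_mul_of_nonneg_right hc hY0
  rw [Matrix.sub_mulVec, dotProduct_sub, Matrix.smul_mulVec, dotProduct_smul, hΦ, hBf,
    smul_eq_mul, ← Complex.ofReal_mul, ← Complex.ofReal_sub]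
  exact Complex.zero_le_real.2 (sub_nonneg.2 hfin)

end

end Crest.Agent.R257.B0_844
end

-- ▼ part R257/B2_844

/-!
# R257 (S0395), GB-TRIAL (task 909), part 3 (helper844)

* `b0Stmt` : `TrA_218.B0Stmt`, the bound of the second fundamental form of `dg` for the trial
  metric `Htr`
-/

set_option autoImplicit false
set_option linter.unusedSectionVars false

open Topology Filter MeasureTheory Set Complex
open scoped ENNReal ContDiff Matrix ComplexOrder ComplexConjugate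

namespace Crest.Agent.R257.B0_844

open Crest.Agent.R275.Geo Crest.Agent.R275.EDR890
open Crest.Agent.R273.Calc_243
open Crest.Agent.R273.BochD_101
open Crest.Agent.R273.Hess_333 Crest.Agent.R273.HessB_333
open Crest.Agent.R273.Defs_333 (lev)
open Crest.Agent.R273.YauDefs_635 (cH)
open Crest.Agent.R273.YauMax_635 (cH_eq_hess)
open Crest.Agent.R257.C2F1_625 Crest.Agent.R257.C2F2_625
open Crest.Agent.R257.Defs_219 Crest.Agent.R257.KED_952 Crest.Agent.R257.KEG_952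
open Crest.Agent.R257.V1Defs_822 (SmL LvlOK lgh)
open Crest.Agent.R257.PN_835 (nsq)
open Crest.Agent.R257.Aff_835 (eta2a)
open Crest.Agent.R257.CLogD_39
open Crest.Agent.R257.Trl_39 (Dta Phi)
open Crest.Agent.R257.Ked2_397 (eta2a_norm)
open Crest.Agent.R257.OutA_309 Crest.Agent.R257.OutD_309
open Crest.Agent.R257.TrA_218 (B0Stmt trD_of aL_eq)
open Crest.Agent.R257.H0_540 (Htr hm xc yc kc Pl smL_at sm_eta mo_Htr)

noncomputable section

section
variable {ι : Type} [Fintype ι] {z : Cn 2}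
variable {φ : ι → Cn 2 → ℝ} {G : Fin 2 → Cn 2 → ℂ} {Q : ι → Fin 2 → Cn 2 → ℂ}

theorem wf_eq (φ : Cn 2 → ℝ) (A : Cn 2 → ℂ) (y : Cn 2) :
    wf φ A y = ((Real.exp (- φ y) : ℝ) : ℂ) * conj (A y) := by
  unfold wf cu
  push_cast
  rfl

theorem xj_eq_xc (φ : ι → Cn 2 → ℝ) (G : Fin 2 → Cn 2 → ℂ) (Q : ι → Fin 2 → Cn 2 → ℂ)
    (i : Fin 2) (y : Cn 2) : xj φ G Q i y =
      xc (fun i => G i y) (fun l i => Q l i y) (fun l => Real.exp (- φ l y)) i := by
  fin_cases i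
  · show xj φ G Q 0 y = kc (fun i => G i y) (fun l i => Q l i y) (fun l => Real.exp (- φ l y)) 1
    unfold xj kc
    rw [nC_eq]
    congr 1
    refine Finset.sum_congr rfl fun l _ => ?_
    rw [wf_eq]
    rfl
  · show xj φ G Q 1 y = - kc (fun i => G i y) (fun l i => Q l i y)
      (fun l => Real.exp (- φ l y)) 0
    unfold xj kc
    rw [nC_eq, ← neg_div, ← Finset.sum_neg_distrib]
    congr 1
    refine Finset.sum_congr rfl fun l _ => ?_
    rw [wf_eq, ← mul_neg]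
    rfl

theorem yj_eq_yc (G : Fin 2 → Cn 2 → ℂ) (i : Fin 2) (y : Cn 2) :
    yj G i y = yc (fun i => G i y) i := by
  fin_cases i
  · rfl
  · rfl

end

section
variable {f : E3 → ℂ} {r A : ℝ} {u : E3 → ℝ} {k L : ℕ} {g h : E3 → ℂ}
  {q : Fin L → E3 → ℂ} {s : Fin L → ℕ} {c B : ℝ} {θ : Cn 2 → E3} {O : Set (Cn 2)} {z : Cn 2}

/-- the chart data -/
theorem dat_of (hf : LvlOK f 0 r) (hD : Dta f r A u k g h q s c B) (hP : PE f 0 r θ O)
    (hz : z ∈ O) : Dat (fun l y => phq q s l (θ y)) (fun i y => LossD_309.dV g θ y i)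
      (fun l i y => LossD_309.dV (q l) θ y i) z := by
  have hT := trD_of hD
  refine ⟨fun l => ?_, fun i => ?_, fun l i => ?_, ?_⟩
  · filter_upwards [hP.par.isOpen.mem_nhds hz] with y hy
    exact smL_at (hT.φ_sm l) hP hy
  · filter_upwards [hP.par.isOpen.mem_nhds hz] with y hy
    exact (dV_hol hT.g_an hP i).differentiableAt (hP.par.isOpen.mem_nhds hy)
  · filter_upwards [hP.par.isOpen.mem_nhds hz] with y hy
    exact (dV_hol (hT.q_an l) hP i).differentiableAt (hP.par.isOpen.mem_nhds hy)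
  · exact hT.nL_pos hf hP hz

theorem nA_lvl (hf : LvlOK f 0 r) (hD : Dta f r A u k g h q s c B) (hP : PE f 0 r θ O)
    (hz : z ∈ O) : nA (fun l y => phq q s l (θ y)) (fun i y => LossD_309.dV g θ y i)
      (fun l i y => LossD_309.dV (q l) θ y i) z = eta2a (n := 2) f θ z * a2 f g q s (θ z) := by
  have hT := trD_of hD
  have h1 := H0_540.nL_eq (φ := phq q s) hf hT.g_an hT.q_an hP hz
  rw [aL_eq hD (hP.par.lvl z hz) (hP.ne z hz) (hP.lt z hz)] at h1
  exact h1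

theorem JJ_lvl (hf : LvlOK f 0 r) (hD : Dta f r A u k g h q s c B) (hP : PE f 0 r θ O)
    (hz : z ∈ O) : JJ (fun l y => phq q s l (θ y)) (fun l i y => LossD_309.dV (q l) θ y i) z =
      eta2a (n := 2) f θ z * J2 f q s (θ z) := by
  have hT := trD_of hD
  have hs : ∀ l, Real.exp (phq q s l (θ z)) = sqq q s l (θ z) := fun l => by
    unfold phq
    rw [Real.exp_log (hD.qok.pos (θ z) (hP.par.lvl z hz) (hP.ne z hz) (hP.lt z hz) l)]
  unfold JJ J2
  rw [← mul_div_assoc, Finset.mul_sum]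
  congr 1
  refine Finset.sum_congr rfl fun l _ => ?_
  rw [Finset.mul_sum]
  refine Finset.sum_congr rfl fun m _ => ?_
  have h1 : ‖wdg (fun i y => LossD_309.dV (q l) θ y i) (fun i y => LossD_309.dV (q m) θ y i) z‖ ^ 2
      = eta2a (n := 2) f θ z * ‖Dt f (q l) (q m) (θ z)‖ ^ 2 :=
    H0_540.wd_sq hf (hT.q_an l) (hT.q_an m) hP hz
  rw [h1, hs, hs, mul_div_assoc]

/-- `Φ` and `log nA + ∑ φ_l` have the same Hessian -/
theorem hess_Phi (hf : LvlOK f 0 r) (hD : Dta f r A u k g h q s c B) (hP : PE f 0 r θ O)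
    (hz : z ∈ O) : cH (fun y => Phi f g q s (θ y)) z =
      hess (fun y => Real.log (nA (fun l y => phq q s l (θ y)) (fun i y => LossD_309.dV g θ y i)
      (fun l i y => LossD_309.dV (q l) θ y i) y) + ∑ l, phq q s l (θ y)) z := by
  have hsm : ContDiffAt ℝ ∞ (fun y => Phi f g q s (θ y)) z := smL_at (hD.phi_smL hf) hP hz
  obtain ⟨p, hp, hp0, he⟩ := eta2a_norm (n := 2) hP.par hz (hf.an _ (hP.lt z hz))
    (hf.sm _ (hP.ne z hz) (hP.lt z hz) (hP.par.lvl z hz))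
  have hpd : ∀ᶠ y in 𝓝 z, DifferentiableAt ℂ p y :=
    hp.eventually_analyticAt.mono fun w hw => hw.differentiableAt
  have hpl : ContDiffAt ℝ ∞ (fun y => Real.log (‖p y‖ ^ 2)) z := by
    have h1 : Sm z p := sm_of_hol hpd
    exact (h1.norm_sq ℝ).log (pow_ne_zero 2 (norm_ne_zero_iff.2 hp0))
  have e : (fun y => Real.log (nA (fun l y => phq q s l (θ y))
      (fun i y => LossD_309.dV g θ y i) (fun l i y => LossD_309.dV (q l) θ y i) y) +
      ∑ l, phq q s l (θ y)) =ᶠ[𝓝 z] fun y => Real.log (‖p y‖ ^ 2) + Phi f g q s (θ y) := by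
    have he' : ∀ᶠ y in 𝓝 z, eta2a (n := 2) f θ y = ‖p y‖ ^ 2 := he
    filter_upwards [he', hP.par.isOpen.mem_nhds hz] with y h1 hy
    have h2 : 0 < eta2a (n := 2) f θ y := eta2a_nn hP hf.sm hy
    have h3 := hD.a_pos (θ y) (hP.par.lvl y hy) (hP.ne y hy) (hP.lt y hy)
    rw [nA_lvl hf hD hP hy, Real.log_mul h2.ne' h3.ne', h1]
    unfold Phi
    ring
  rw [hess_congr e, hess_add hpl hsm, hess_log_norm hpd hp0, zero_add, cH_eq_hess hsm]

/-- **the bound of the second fundamental form** -/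
theorem b0Stmt : B0Stmt := by
  intro f r A u k g h L q s c B hf hD θ O hP z hz c' hc'
  have hT := trD_of hD
  have hd := dat_of hf hD hP hz
  have hM := mo_Htr hT hf (k : ℝ)
  have hO := hP.par.isOpen.mem_nhds hz
  rw [hess_Phi hf hD hP hz]
  refine hd.core (α := fun y => Real.exp (lgh g h (θ y)))
    (β := fun y => Real.exp (-((1 + 1 / (k : ℝ)) * lgh g h (θ y))) / eta2a (n := 2) f θ y)
    ?_ ?_ ?_ rfl ?_ ?_ ?_ ?_ ?_
  · intro l v
    exact Crest.Agent.R257.MsJ_617.phq_psh hD.qok l θ O hP z hz v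
  · filter_upwards [hO] with y hy
    exact ⟨(smL_at hT.ψ_sm hP hy).exp, Real.exp_pos _⟩
  · filter_upwards [hO] with y hy
    exact ⟨((contDiffAt_const.mul (smL_at hT.ψ_sm hP hy)).neg.exp).div (sm_eta hf hP hy)
      (eta2a_nn hP hf.sm hy).ne', div_pos (Real.exp_pos _) (eta2a_nn hP hf.sm hy)⟩
  · filter_upwards [hO] with y hy
    exact hM.sm θ O hP y hy
  · exact (hM.pos θ O hP z hz).det_pos.ne'
  · refine Eventually.of_forall fun y i j => ?_
    rw [xj_eq_xc, xj_eq_xc, yj_eq_yc, yj_eq_yc]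
    rfl
  · filter_upwards [hO] with y hy
    exact hT.dg hf hP hy k
  · refine le_trans (le_of_eq ?_) hc'
    have h1 := eta2a_nn hP hf.sm hz
    have h2 := hD.a_pos (θ z) (hP.par.lvl z hz) (hP.ne z hz) (hP.lt z hz)
    rw [JJ_lvl hf hD hP hz, nA_lvl hf hD hP hz]
    have h3 : Real.exp ((2 + 1 / (k : ℝ)) * lgh g h (θ z)) = Real.exp (lgh g h (θ z)) *
        Real.exp ((1 + 1 / (k : ℝ)) * lgh g h (θ z)) := by
      rw [← Real.exp_add]
      congr 1
      ring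
    rw [h3]
    show Real.exp (lgh g h (θ z)) / (Real.exp (-((1 + 1 / (k : ℝ)) * lgh g h (θ z))) /
      eta2a (n := 2) f θ z) * _ = _
    rw [Real.exp_neg]
    field_simp

end

end

end Crest.Agent.R257.B0_844
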