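import Crest.Agent.R257.GBLcut_844

/-!
# R257 (S0395), part (GB), leaf GBLCUT, second part (helper844, for GB-LIM of helper625)

* `chs ρ j = kap (ρ / j) ^ 2` (the square root of `chi ρ j`), its Levi form and gradient
* `hess`, `hsf` of `chi ρ j`, `chs ρ j` vanish outside of `{j ≤ ρ ≤ 2 j}`
-/

set_option autoImplicit false
set_option linter.unusedSectionVars false

open Set Filter Topology Complex
open scoped ContDiff Matrix ComplexConjugate ComplexOrder

namespace Crest.Agent.R257.GBLcut_844

open Crest.Agent.R275.Geo Crest.Agent.R275.Core144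
open Crest.Agent.R273 Crest.Agent.R273.Levi_145
open Crest.Agent.R257.GradB_537

noncomputable section


section chsB

variable {α : Type*} {ρ : α → ℝ} {j : ℝ} {z : α}



















end chsB

variable {n : ℕ} {u ρ : Cn n → ℝ} {x : Cn n} {j C : ℝ}


/-- first derivative of `t ↦ kap (t / j) ^ 2` -/
def e1 (j t : ℝ) : ℝ := 2 * kap (t / j) * deriv kap (t / j) / j

/-- second derivative of `t ↦ kap (t / j) ^ 2` -/
def e2 (j t : ℝ) : ℝ :=
  (2 * deriv kap (t / j) ^ 2 + 2 * kap (t / j) * deriv (deriv kap) (t / j)) / j ^ 2







section psd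






end psd

/-! ### on a complex manifold -/

section atl

variable {M : Type} [TopologicalSpace M] {A : Atl n M} {w r : M → ℝ}





end atl

end

end Crest.Agent.R257.GBLcut_844
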