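import Crest.Agent.R257.GBL2_625
import Crest.Agent.R257.GBLcut2_844
import Crest.Agent.R257.GBLabs_844
import Crest.Agent.R257.Up3_938

/-!
# R257 (S0395), part (GB), leaf GB-LIM (helper625): pointwise estimates, integrals of densities

* `E_pt`, `F_pt`, `s_pt` : the mixed discriminants in the loss lemma
* `bb_psd`               : the second fundamental form is nonnegative
* `fR Kg f`              : the function of a density w.r.t. `det g`
* `int_fR`               : `∫ fR Kg f = re (intD P f)` (compact support)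
* `den_c2`, `den_mul`    : densities with compact support
-/

set_option autoImplicit false
set_option linter.unusedSectionVars false

open Set Filter Topology Complex MeasureTheory
open scoped ContDiff Matrix ComplexConjugate ComplexOrder

namespace Crest.Agent.R257.GBL4_625

open Crest.Agent.R275 Crest.Agent.R275.Geo Crest.Agent.R275.TorS666
open Crest.Agent.R275.Tor812 hiding pd
open Crest.Agent.R275.C1d194 Crest.Agent.R275.Pai323 Crest.Agent.R275.OmT75
open Crest.Agent.R275.SerG398 (lint dens)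
open Crest.Agent.R275.EDR890
open Crest.Agent.R273.StokesV_332
open Crest.Agent.R273.Fock_243
open Crest.Agent.R273.Calc_243 hiding dj
open Crest.Agent.R273.Bkn_243 Crest.Agent.R273.Pos_243 Crest.Agent.R273.BochA_101
open Crest.Agent.R273.BochB_101 Crest.Agent.R273.BochC_101 Crest.Agent.R273.BochD_101
open Crest.Agent.R275.Core144 Crest.Agent.R273.Defs_333 Crest.Agent.R273.HM_333
open Crest.Agent.R273.Hess_333 Crest.Agent.R273.HessB_333 Crest.Agent.R273.Kah_333
open Crest.Agent.R273.Vol_333 Crest.Agent.R273.Vm_333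
open Crest.Agent.R273.GreenM_5
open Crest.Agent.R273.Mass_5 (w_dens fH wC_ne fH_div sm_fH)
open Crest.Agent.R273.StV_37 (tot)
open Crest.Agent.R257.C2F1_625 Crest.Agent.R257.C2F2_625
open Crest.Agent.R257.C2F5_335 Crest.Agent.R257.GBL1_625 Crest.Agent.R257.GBL2_625
open Crest.Agent.R257.C2F6_335 hiding ddD
open Crest.Agent.R257.GBLcut_844 Crest.Agent.R257.Up3_938

noncomputable section

/-! ### linear algebra -/

section LA

variable {G X Y W : Matrix (Fin 2) (Fin 2) ℂ}





theorem psd_rank {c : Fin 2 → ℂ} {Y : Matrix (Fin 2) (Fin 2) ℂ}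
    (h : ∀ a b, Y a b = conj (c a) * c b) : Y.PosSemidef := by
  have e : Y = Matrix.vecMulVec (star c) (star (star c)) := by
    ext a b
    rw [h a b, Matrix.vecMulVec_apply]
    simp
  rw [e]
  exact Matrix.posSemidef_vecMulVec_self_star _

end LA

variable {M : Type} [TopologicalSpace M] {A : Atl 2 M} {E : HB A (Fin 2)} {s : HSec E} {U : Set M}


theorem hsf_congr {φ ψ : M → ℝ} {i : A.ι} {x : M} (hx : x ∈ (A.e i).source) (h : φ =ᶠ[𝓝 x] ψ) :
    hsf A φ i x = hsf A ψ i x := by
  rw [← hc_ofReal, ← hc_ofReal]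
  exact hc_congr hx (h.mono fun y hy => by simp only [hy])

theorem hsf_const (c : ℝ) (i : A.ι) (x : M) : hsf A (fun _ => c) i x = 0 := by
  rw [← hc_ofReal]
  exact hc_const (c : ℂ) i x

/-! ### densities -/

/-- the function of a density -/
def fR (Kg : Kah A) (f : A.ι → M → ℂ) (x : M) : ℝ := (fH (volK Kg) f x).re







section meas

variable [T2Space M] [MeasurableSpace M] [BorelSpace M] [Countable A.ι]



end meas

/-- `φ pd S T` -/
theorem den_mul [T2Space M] {φ : M → ℝ} (hφ : A.Sm φ) {K : Set M} (hKc : IsClosed K) (hKU : K ⊆ U)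
    (h0 : ∀ x, x ∉ K → φ x = 0) {S T : A.ι → M → Matrix (Fin 2) (Fin 2) ℂ}
    (hS : SmS A U S) (hS' : TnO A U S) (hT : SmS A U T) (hT' : TnO A U T) :
    Den A (fun i x => (φ x : ℂ) * pd (S i x) (T i x)) where
  sm i := by
    refine smAt_mul_off hKc hKU (smAt_ofReal (hφ i)) (fun x _ hx => by rw [h0 x hx]; simp) ?_
    intro x hx hxU
    have t := fun a b => hS i a b x hx hxU
    have g := fun a b => hT i a b x hx hxU
    exact ((((t 0 0).mul (g 1 1)).add ((t 1 1).mul (g 0 0))).sub ((t 0 1).mul (g 1 0))).sub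
      ((t 1 0).mul (g 0 1))
  tr i j x hx := by
    by_cases hxU : x ∈ U
    · rw [hS' i j x hx hxU, hT' i j x hx hxU, pd_tn, dens_Jm]
      ring
    · rw [h0 x fun h => hxU (hKU h)]
      simp


theorem off_hsf {φ : M → ℝ} {K : Set M} (hK : IsClosed K) (h0 : ∀ x, x ∉ K → φ x = 0)
    (T : A.ι → M → Matrix (Fin 2) (Fin 2) ℂ) : OffK A (fun i x => pd (hsf A φ i x) (T i x)) K := by
  intro i x hx hxK
  show pd (hsf A φ i x) (T i x) = 0
  have : φ =ᶠ[𝓝 x] fun _ => (0 : ℝ) := by
    filter_upwards [hK.isOpen_compl.mem_nhds hxK] with y hy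
    exact h0 y hy
  rw [hsf_congr hx this, hsf_const]
  simp [pd]

theorem den_hsf {φ : M → ℝ} (hφ : A.Sm φ) {K : Set M} [T2Space M] (hK : IsClosed K) (hKU : K ⊆ U)
    (h0 : ∀ x, x ∉ K → φ x = 0) {T : A.ι → M → Matrix (Fin 2) (Fin 2) ℂ} (hT : SmS A U T)
    (hT' : TnO A U T) : Den A (fun i x => pd (hsf A φ i x) (T i x)) := by
  have h := den_pd hK hφ hKU h0 hT hT'
  simpa only [hc_ofReal] using h




end

end Crest.Agent.R257.GBL4_625
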