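import Crest.Agent.R257.C2F1_625
import Crest.Agent.R257.GBL2_625
import Crest.Agent.R257.GBLcut_844
import Crest.Agent.R257.GBL4_625
import Crest.Agent.R257.KUP_952

-- ▼ part R257/BCU1_532
section

/-!
# R257 (S0395), part (GB), leaf GB-UPP (helper532): one parameter families of smooth functions

* `SmJ r z f`, `SmMJ r z m` : `f : ℝ → Cn n → ℂ` (a matrix `m`) is smooth in both variables at `(r, z)`
* `SmJ.slice`, `SmJ.dS`     : slices, Wirtinger derivatives
* `SmJ.hasDerivAt_dS`       : `∂_r ∂_a = ∂_a ∂_r`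
* `HM f f' r`               : entrywise derivative of a matrix valued function
-/

set_option autoImplicit false
set_option linter.unusedSectionVars false

open Finset Matrix Complex Filter Topology
open scoped ContDiff ComplexConjugate ComplexOrder

namespace Crest.Agent.R257.BCU1_532

open Crest.Agent.R275.Geo Crest.Agent.R275.EDR890
open Crest.Agent.R273.Fock_243 Crest.Agent.R273.Calc_243
open Crest.Agent.R273.Bkn_243 Crest.Agent.R273.Pos_243 Crest.Agent.R273.BochA_101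
open Crest.Agent.R273.BochB_101
open Crest.Agent.R273.BochC_101 Crest.Agent.R273.BochD_101
open Crest.Agent.R273.Hess_333 Crest.Agent.R273.HessB_333
open Crest.Agent.R257.C2F1_625

noncomputable section

variable {n : ℕ}

/-- smooth in both variables -/
def SmJ (r : ℝ) (z : Cn n) (f : ℝ → Cn n → ℂ) : Prop :=
  ContDiffAt ℝ ∞ (fun q : ℝ × Cn n => f q.1 q.2) (r, z)

/-- smooth in both variables, matrices -/
def SmMJ {ι κ : Type} (r : ℝ) (z : Cn n) (m : ℝ → Cn n → Matrix ι κ ℂ) : Prop :=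
  ∀ S T, SmJ r z (fun r z => m r z S T)

namespace SmJ

variable {r : ℝ} {z : Cn n} {f g : ℝ → Cn n → ℂ}

theorem slice (h : SmJ r z f) : Sm z (f r) := by
  have h1 : ContDiffAt ℝ ∞ (fun y : Cn n => ((r, y) : ℝ × Cn n)) z :=
    contDiffAt_const.prodMk contDiffAt_id
  exact ContDiffAt.comp z (g := fun q : ℝ × Cn n => f q.1 q.2) (f := fun y => (r, y)) h h1

theorem ofSm {f : Cn n → ℂ} (h : Sm z f) : SmJ r z (fun _ => f) :=
  ContDiffAt.comp (r, z) (g := f) (f := Prod.snd) h contDiffAt_snd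

theorem const (c : ℂ) : SmJ r z (fun _ _ => c) := contDiffAt_const

theorem add (hf : SmJ r z f) (hg : SmJ r z g) : SmJ r z (fun r z => f r z + g r z) :=
  ContDiffAt.add hf hg

theorem sub (hf : SmJ r z f) (hg : SmJ r z g) : SmJ r z (fun r z => f r z - g r z) :=
  ContDiffAt.sub hf hg

theorem neg (hf : SmJ r z f) : SmJ r z (fun r z => - f r z) := ContDiffAt.neg hf

theorem mul (hf : SmJ r z f) (hg : SmJ r z g) : SmJ r z (fun r z => f r z * g r z) :=
  ContDiffAt.mul hf hg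

theorem inv (hf : SmJ r z f) (h0 : f r z ≠ 0) : SmJ r z (fun r z => (f r z)⁻¹) :=
  ContDiffAt.inv hf h0

theorem sum {σ : Type*} {s : Finset σ} {f : σ → ℝ → Cn n → ℂ} (hf : ∀ t ∈ s, SmJ r z (f t)) :
    SmJ r z (fun r z => ∑ t ∈ s, f t r z) := ContDiffAt.sum hf

theorem cont (h : SmJ r z f) : ContinuousAt (fun q : ℝ × Cn n => f q.1 q.2) (r, z) :=
  ContDiffAt.continuousAt h

theorem ev_diff (h : SmJ r z f) :
    ∀ᶠ q in 𝓝 (r, z), DifferentiableAt ℝ (fun q : ℝ × Cn n => f q.1 q.2) q := by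
  have := (ContDiffAt.of_le (m := 1) h (by exact_mod_cast le_top)).eventually (by simp)
  filter_upwards [this] with y hy
  exact hy.differentiableAt (by simp)

/-- derivatives of slices -/
theorem fderiv_slice {q : ℝ × Cn n} (h : DifferentiableAt ℝ (fun q : ℝ × Cn n => f q.1 q.2) q)
    (v : Cn n) : fderiv ℝ (f q.1) q.2 v = fderiv ℝ (fun q : ℝ × Cn n => f q.1 q.2) q (0, v) := by
  have h1 : HasFDerivAt (fun y : Cn n => ((q.1, y) : ℝ × Cn n))
      ((0 : Cn n →L[ℝ] ℝ).prod (ContinuousLinearMap.id ℝ (Cn n))) q.2 :=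
    (hasFDerivAt_const _ _).prodMk (hasFDerivAt_id _)
  have h2 : HasFDerivAt (fun q : ℝ × Cn n => f q.1 q.2)
      (fderiv ℝ (fun q : ℝ × Cn n => f q.1 q.2) q) (q.1, q.2) := h.hasFDerivAt
  have h3 := HasFDerivAt.comp q.2 h2 h1
  have h4 : fderiv ℝ (f q.1) q.2 = _ := h3.fderiv
  rw [h4]
  simp

theorem deriv_slice {q : ℝ × Cn n} (h : DifferentiableAt ℝ (fun q : ℝ × Cn n => f q.1 q.2) q) :
    HasDerivAt (fun r => f r q.2) (fderiv ℝ (fun q : ℝ × Cn n => f q.1 q.2) q (1, 0)) q.1 := by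
  have h1 : HasDerivAt (fun r : ℝ => ((r, q.2) : ℝ × Cn n)) (1, 0) q.1 :=
    (hasDerivAt_id _).prodMk (hasDerivAt_const _ _)
  have h2 : HasFDerivAt (fun q : ℝ × Cn n => f q.1 q.2)
      (fderiv ℝ (fun q : ℝ × Cn n => f q.1 q.2) q) (q.1, q.2) := h.hasFDerivAt
  exact HasFDerivAt.comp_hasDerivAt q.1 h2 h1

theorem dS_ev (h : SmJ r z f) (s : ℂ) (a : Fin n) :
    (fun q : ℝ × Cn n => dS s a (f q.1) q.2) =ᶠ[𝓝 (r, z)] fun q => (1 / 2 : ℂ) *
      (fderiv ℝ (fun q : ℝ × Cn n => f q.1 q.2) q (0, EuclideanSpace.single a 1)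
        + s * fderiv ℝ (fun q : ℝ × Cn n => f q.1 q.2) q (0, EuclideanSpace.single a I)) := by
  filter_upwards [h.ev_diff] with q hq
  rw [dS, fderiv_slice hq, fderiv_slice hq]

theorem dw (h : SmJ r z f) (s : ℂ) (a : Fin n) : SmJ r z (fun r => dS s a (f r)) := by
  have h1 : ContDiffAt ℝ ∞ (fderiv ℝ (fun q : ℝ × Cn n => f q.1 q.2)) (r, z) :=
    ContDiffAt.fderiv_right h (by simp)
  have h2 : ∀ v : ℝ × Cn n, ContDiffAt ℝ ∞ (fun q => fderiv ℝ (fun q : ℝ × Cn n => f q.1 q.2) q v)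
      (r, z) := fun v => h1.clm_apply contDiffAt_const
  refine ContDiffAt.congr_of_eventuallyEq ?_ (h.dS_ev s a)
  exact contDiffAt_const.mul ((h2 _).add (contDiffAt_const.mul (h2 _)))

/-- `∂_r ∂_a = ∂_a ∂_r` -/
theorem hasDerivAt_dS (h : SmJ r z f) {g : Cn n → ℂ}
    (hg : ∀ᶠ y in 𝓝 z, HasDerivAt (fun r => f r y) (g y) r) (s : ℂ) (a : Fin n) :
    HasDerivAt (fun r => dS s a (f r) z) (dS s a g z) r := by
  set F : ℝ × Cn n → ℂ := fun q => f q.1 q.2 with hF
  have h1 : ContDiffAt ℝ ∞ (fderiv ℝ F) (r, z) := ContDiffAt.fderiv_right h (by simp)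
  have hd : DifferentiableAt ℝ (fderiv ℝ F) (r, z) := h1.differentiableAt (by simp)
  have hsymm : ∀ v w : ℝ × Cn n, fderiv ℝ (fderiv ℝ F) (r, z) w v
      = fderiv ℝ (fderiv ℝ F) (r, z) v w :=
    fun v w => (ContDiffAt.isSymmSndFDerivAt h (by
      simp only [minSmoothness_of_isRCLikeNormedField]
      exact WithTop.coe_le_coe.2 (le_top : (2 : ℕ∞) ≤ ⊤))).eq w v
  have h2 : ∀ v : ℝ × Cn n, HasFDerivAt (fun q => fderiv ℝ F q v)
      ((ContinuousLinearMap.apply ℝ ℂ v).comp (fderiv ℝ (fderiv ℝ F) (r, z))) (r, z) := fun v =>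
    ((ContinuousLinearMap.apply ℝ ℂ v).hasFDerivAt).comp (r, z) hd.hasFDerivAt
  -- the curve `r ↦ (r, z)`
  have hc : HasDerivAt (fun r : ℝ => ((r, z) : ℝ × Cn n)) (1, 0) r :=
    (hasDerivAt_id _).prodMk (hasDerivAt_const _ _)
  have h3 : ∀ v : ℝ × Cn n, HasDerivAt (fun r => fderiv ℝ F (r, z) v)
      (fderiv ℝ (fderiv ℝ F) (r, z) (1, 0) v) r := fun v => by
    have := HasFDerivAt.comp_hasDerivAt r (h2 v) hc
    exact this
  have h4 : (fun r => dS s a (f r) z) =ᶠ[𝓝 r] fun r => (1 / 2 : ℂ) *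
      (fderiv ℝ F (r, z) (0, EuclideanSpace.single a 1)
        + s * fderiv ℝ F (r, z) (0, EuclideanSpace.single a I)) := by
    have hc' : Tendsto (fun r : ℝ => ((r, z) : ℝ × Cn n)) (𝓝 r) (𝓝 (r, z)) :=
      hc.continuousAt.tendsto
    exact hc'.eventually (h.dS_ev s a)
  have h5 : HasDerivAt (fun r => dS s a (f r) z) ((1 / 2 : ℂ) *
      (fderiv ℝ (fderiv ℝ F) (r, z) (1, 0) (0, EuclideanSpace.single a 1)
        + s * fderiv ℝ (fderiv ℝ F) (r, z) (1, 0) (0, EuclideanSpace.single a I))) r :=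
    (((h3 _).add ((h3 _).const_mul s)).const_mul (1 / 2 : ℂ)).congr_of_eventuallyEq h4
  -- the derivative `g`
  have hcz : Tendsto (fun y : Cn n => ((r, y) : ℝ × Cn n)) (𝓝 z) (𝓝 (r, z)) :=
    ((contDiffAt_const.prodMk contDiffAt_id : ContDiffAt ℝ ∞
      (fun y : Cn n => ((r, y) : ℝ × Cn n)) z).continuousAt).tendsto
  have h6 : g =ᶠ[𝓝 z] fun y => fderiv ℝ F (r, y) (1, 0) := by
    filter_upwards [hg, hcz.eventually h.ev_diff] with y h7 h8
    exact h7.unique (deriv_slice h8)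
  have h7 : ∀ v : Cn n, fderiv ℝ g z v = fderiv ℝ (fderiv ℝ F) (r, z) (0, v) (1, 0) := by
    intro v
    rw [h6.fderiv_eq]
    have h8 : HasFDerivAt (fun y : Cn n => ((r, y) : ℝ × Cn n))
      ((0 : Cn n →L[ℝ] ℝ).prod (ContinuousLinearMap.id ℝ (Cn n))) z :=
      (hasFDerivAt_const _ _).prodMk (hasFDerivAt_id _)
    have h9 := HasFDerivAt.comp z (h2 (1, 0)) h8
    have h10 : fderiv ℝ (fun y => fderiv ℝ F (r, y) (1, 0)) z = _ := h9.fderiv
    rw [h10]
    simp
  have h8 : dS s a g z = (1 / 2 : ℂ) *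
      (fderiv ℝ (fderiv ℝ F) (r, z) (1, 0) (0, EuclideanSpace.single a 1)
        + s * fderiv ℝ (fderiv ℝ F) (r, z) (1, 0) (0, EuclideanSpace.single a I)) := by
    rw [dS, h7, h7, hsymm _ (1, 0), hsymm _ (1, 0)]
  rw [h8]
  exact h5

end SmJ

namespace SmMJ

variable {ι κ σ : Type} {r : ℝ} {z : Cn n}

theorem slice {m : ℝ → Cn n → Matrix ι κ ℂ} (h : SmMJ r z m) : SmM z (m r) := fun S T =>
  (h S T).slice

theorem ofSm {m : Cn n → Matrix ι κ ℂ} (h : SmM z m) : SmMJ r z (fun _ => m) := fun S T =>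
  SmJ.ofSm (h S T)

theorem add {m m' : ℝ → Cn n → Matrix ι κ ℂ} (h : SmMJ r z m) (h' : SmMJ r z m') :
    SmMJ r z (fun r z => m r z + m' r z) := fun S T => (h S T).add (h' S T)

theorem sub {m m' : ℝ → Cn n → Matrix ι κ ℂ} (h : SmMJ r z m) (h' : SmMJ r z m') :
    SmMJ r z (fun r z => m r z - m' r z) := fun S T => (h S T).sub (h' S T)

theorem neg {m : ℝ → Cn n → Matrix ι κ ℂ} (h : SmMJ r z m) :
    SmMJ r z (fun r z => - m r z) := fun S T => (h S T).neg

theorem mul [Fintype κ] {m : ℝ → Cn n → Matrix ι κ ℂ} {m' : ℝ → Cn n → Matrix κ σ ℂ}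
    (h : SmMJ r z m) (h' : SmMJ r z m') : SmMJ r z (fun r z => m r z * m' r z) := fun S T =>
  SmJ.sum (f := fun j r z => m r z S j * m' r z j T) fun j _ => (h S j).mul (h' j T)

theorem trace [Fintype ι] {m : ℝ → Cn n → Matrix ι ι ℂ} (h : SmMJ r z m) :
    SmJ r z (fun r z => (m r z).trace) :=
  SmJ.sum (f := fun j r z => m r z j j) fun j _ => h j j

theorem dw {m : ℝ → Cn n → Matrix ι κ ℂ} (h : SmMJ r z m) (s : ℂ) (a : Fin n) :
    SmMJ r z (fun r => dM s a (m r)) := fun S T => (h S T).dw s a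

theorem smul {c : ℝ → Cn n → ℂ} {m : ℝ → Cn n → Matrix ι κ ℂ} (hc : SmJ r z c)
    (h : SmMJ r z m) : SmMJ r z (fun r z => c r z • m r z) := fun S T => hc.mul (h S T)

theorem det [Fintype ι] [DecidableEq ι] {m : ℝ → Cn n → Matrix ι ι ℂ} (h : SmMJ r z m) :
    SmJ r z (fun r z => (m r z).det) := by
  show ContDiffAt ℝ ∞ (fun q : ℝ × Cn n => (m q.1 q.2).det) (r, z)
  simp only [Matrix.det_apply']
  exact ContDiffAt.sum fun σ _ => contDiffAt_const.mul (contDiffAt_prod fun i _ => h _ _)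

end SmMJ

/-! ### entrywise derivatives -/

/-- entrywise derivative -/
def HM {ι κ : Type} (f : ℝ → Matrix ι κ ℂ) (f' : Matrix ι κ ℂ) (r : ℝ) : Prop :=
  ∀ S T, HasDerivAt (fun r => f r S T) (f' S T) r

namespace HM

variable {ι κ σ : Type} {r : ℝ}

theorem const (m : Matrix ι κ ℂ) : HM (fun _ => m) 0 r := fun _ _ => hasDerivAt_const _ _

theorem add {f g : ℝ → Matrix ι κ ℂ} {f' g' : Matrix ι κ ℂ} (hf : HM f f' r) (hg : HM g g' r) :
    HM (fun r => f r + g r) (f' + g') r := fun S T => (hf S T).add (hg S T)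

theorem sub {f g : ℝ → Matrix ι κ ℂ} {f' g' : Matrix ι κ ℂ} (hf : HM f f' r) (hg : HM g g' r) :
    HM (fun r => f r - g r) (f' - g') r := fun S T => (hf S T).sub (hg S T)

theorem neg {f : ℝ → Matrix ι κ ℂ} {f' : Matrix ι κ ℂ} (hf : HM f f' r) :
    HM (fun r => - f r) (- f') r := fun S T => (hf S T).neg

theorem mul [Fintype κ] {f : ℝ → Matrix ι κ ℂ} {g : ℝ → Matrix κ σ ℂ} {f' : Matrix ι κ ℂ}
    {g' : Matrix κ σ ℂ} (hf : HM f f' r) (hg : HM g g' r) :
    HM (fun r => f r * g r) (f' * g r + f r * g') r := by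
  intro S T
  have h1 : HasDerivAt (fun r => ∑ j, f r S j * g r j T)
      (∑ j, (f' S j * g r j T + f r S j * g' j T)) r :=
    HasDerivAt.fun_sum fun j _ => (hf S j).mul (hg j T)
  have e : (f' * g r + f r * g') S T = ∑ j, (f' S j * g r j T + f r S j * g' j T) := by
    rw [Matrix.add_apply, Matrix.mul_apply, Matrix.mul_apply, ← Finset.sum_add_distrib]
  rw [e]
  exact h1

theorem trace [Fintype ι] {f : ℝ → Matrix ι ι ℂ} {f' : Matrix ι ι ℂ} (hf : HM f f' r) :
    HasDerivAt (fun r => (f r).trace) f'.trace r :=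
  HasDerivAt.fun_sum fun j _ => hf j j

theorem dw {m : ℝ → Cn n → Matrix ι κ ℂ} {z : Cn n} (h : SmMJ r z m)
    {g : Cn n → Matrix ι κ ℂ} (hg : ∀ᶠ y in 𝓝 z, HM (fun r => m r y) (g y) r) (s : ℂ)
    (a : Fin n) : HM (fun r => dM s a (m r) z) (dM s a g z) r := fun S T =>
  SmJ.hasDerivAt_dS (h S T) (hg.mono fun _ hy => hy S T) s a

end HM

end

end Crest.Agent.R257.BCU1_532
end

-- ▼ part R257/BCU2_532
section

/-!
# R257 (S0395), part (GB), leaf GB-UPP (helper532): exponentials of matrix fields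

* `ex L r = exp (r L)`, semigroup, derivative, smoothness
* `geo_pos` : `G e^{rL}` is positive definite if `G` is and `G L` is Hermitian
-/

set_option autoImplicit false
set_option linter.unusedSectionVars false

open Finset Matrix Complex Filter Topology
open scoped ContDiff ComplexConjugate ComplexOrder

namespace Crest.Agent.R257.BCU2_532

open Crest.Agent.R275.Geo Crest.Agent.R275.EDR890
open Crest.Agent.R273.Fock_243 Crest.Agent.R273.Calc_243
open Crest.Agent.R273.Bkn_243 Crest.Agent.R273.Pos_243 Crest.Agent.R273.BochA_101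
open Crest.Agent.R273.BochB_101
open Crest.Agent.R273.BochC_101 Crest.Agent.R273.BochD_101
open Crest.Agent.R273.Hess_333 Crest.Agent.R273.HessB_333
open Crest.Agent.R257.C2F1_625 Crest.Agent.R257.BCU1_532

noncomputable section

variable {κ : Type} [Fintype κ] [DecidableEq κ]

/-- `exp (r L)` -/
def ex (L : Matrix κ κ ℂ) (r : ℝ) : Matrix κ κ ℂ := NormedSpace.exp (r • L)

theorem ex_zero (L : Matrix κ κ ℂ) : ex L 0 = 1 := by
  unfold ex
  rw [zero_smul, NormedSpace.exp_zero]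

theorem ex_add (L : Matrix κ κ ℂ) (r s : ℝ) : ex L (r + s) = ex L r * ex L s := by
  unfold ex
  rw [add_smul, Matrix.exp_add_of_commute]
  exact ((Commute.refl L).smul_right s).smul_left r

theorem ex_neg_mul (L : Matrix κ κ ℂ) (r : ℝ) : ex L (-r) * ex L r = 1 := by
  rw [← ex_add, neg_add_cancel, ex_zero]


theorem ex_det_ne (L : Matrix κ κ ℂ) (r : ℝ) : (ex L r).det ≠ 0 := by
  intro h
  have h1 := congrArg Matrix.det (ex_neg_mul L r)
  rw [Matrix.det_mul, h, mul_zero, Matrix.det_one] at h1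
  exact zero_ne_one h1

theorem ex_inv (L : Matrix κ κ ℂ) (r : ℝ) : (ex L r)⁻¹ = ex L (-r) :=
  Matrix.inv_eq_left_inv (ex_neg_mul L r)

/-- intertwining -/
theorem ex_conj {L L' F : Matrix κ κ ℂ} (hF : F.det ≠ 0) (h : F * L = L' * F) (r : ℝ) :
    F * ex L r = ex L' r * F := by
  have i1 : F⁻¹ * F = 1 := Matrix.nonsing_inv_mul _ (isUnit_iff_ne_zero.2 hF)
  have i2 : F * F⁻¹ = 1 := Matrix.mul_nonsing_inv _ (isUnit_iff_ne_zero.2 hF)
  have hL : L' = F * L * F⁻¹ := by rw [h, Matrix.mul_assoc, i2, Matrix.mul_one]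
  have hu : IsUnit F := (Matrix.isUnit_iff_isUnit_det F).2 (isUnit_iff_ne_zero.2 hF)
  have h1 : r • L' = F * (r • L) * F⁻¹ := by
    rw [hL, Matrix.mul_smul, Matrix.smul_mul]
  unfold ex
  rw [h1, Matrix.exp_conj F (r • L) hu, Matrix.mul_assoc, i1, Matrix.mul_one]

set_option backward.isDefEq.respectTransparency false in
open scoped Norms.Operator in
theorem ex_deriv (L : Matrix κ κ ℂ) (r : ℝ) : HM (fun r => ex L r) (L * ex L r) r := by
  intro S T
  have h1 : HasDerivAt (fun r : ℝ => NormedSpace.exp (r • L)) (L * NormedSpace.exp (r • L)) r :=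
    hasDerivAt_exp_smul_const' (𝕂 := ℝ) L r
  have h2 : HasFDerivAt (fun m : Matrix κ κ ℂ => m S T)
      (LinearMap.toContinuousLinearMap (Matrix.entryLinearMap ℝ ℂ S T))
      (NormedSpace.exp (r • L)) :=
    (LinearMap.toContinuousLinearMap (Matrix.entryLinearMap ℝ ℂ S T :
      Matrix κ κ ℂ →ₗ[ℝ] ℂ)).hasFDerivAt
  exact h2.comp_hasDerivAt r h1

/-- `L` commutes with its exponential -/
theorem ex_comm (L : Matrix κ κ ℂ) (r : ℝ) : L * ex L r = ex L r * L := by
  have h1 : Commute L (r • L) := (Commute.refl L).smul_right r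
  unfold ex
  exact (h1.exp_right).eq

set_option backward.isDefEq.respectTransparency false in
open scoped Norms.Operator in
/-- smoothness of the exponential of a smooth matrix -/
theorem exp_sm {V : Type*} [NormedAddCommGroup V] [NormedSpace ℝ V] {L : V → Matrix κ κ ℂ} {x : V}
    (h : ∀ S T, ContDiffAt ℝ ∞ (fun y => L y S T) x) (S T : κ) :
    ContDiffAt ℝ ∞ (fun y => NormedSpace.exp (L y) S T) x := by
  have hL : ContDiffAt ℝ ∞ L x := by
    have e : L = fun y => ∑ i, ∑ j, (LinearMap.toContinuousLinearMap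
        (Matrix.singleLinearMap ℝ i j : ℂ →ₗ[ℝ] Matrix κ κ ℂ)) (L y i j) := by
      funext y
      conv_lhs => rw [Matrix.matrix_eq_sum_single (L y)]
      rfl
    rw [e]
    exact ContDiffAt.sum fun i _ => ContDiffAt.sum fun j _ =>
      (ContinuousLinearMap.contDiff _).contDiffAt.comp x (h i j)
  have h1 : ContDiffAt ℝ ∞ (NormedSpace.exp : Matrix κ κ ℂ → Matrix κ κ ℂ) (L x) :=
    (NormedSpace.exp_analytic (𝕂 := ℝ) (L x)).contDiffAt
  have h2 := h1.comp x hL
  exact ((LinearMap.toContinuousLinearMap (Matrix.entryLinearMap ℝ ℂ S T :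
      Matrix κ κ ℂ →ₗ[ℝ] ℂ)).contDiff.contDiffAt.comp x h2 :)

variable {n : ℕ}

theorem ex_smJ {L : Cn n → Matrix κ κ ℂ} {r : ℝ} {z : Cn n} (h : SmM z L) :
    SmMJ r z (fun r z => ex (L z) r) := by
  intro S T
  refine exp_sm (L := fun q : ℝ × Cn n => q.1 • L q.2) (x := (r, z)) (fun S T => ?_) S T
  have h1 : ContDiffAt ℝ ∞ (fun q : ℝ × Cn n => ((q.1 : ℝ) : ℂ)) (r, z) :=
    Complex.ofRealCLM.contDiff.contDiffAt.comp (r, z) contDiffAt_fst
  have h2 : ContDiffAt ℝ ∞ (fun q : ℝ × Cn n => L q.2 S T) (r, z) := SmJ.ofSm (h S T)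
  have h3 := h1.mul h2
  refine h3.congr_of_eventuallyEq (Eventually.of_forall fun q => ?_)
  simp [Matrix.smul_apply]


/-! ### positivity -/

theorem ex_conjTranspose (L : Matrix κ κ ℂ) (r : ℝ) : (ex L r)ᴴ = ex Lᴴ r := by
  unfold ex
  rw [← Matrix.exp_conjTranspose, Matrix.conjTranspose_smul]
  simp

/-- `G e^{rL} = (e^{rL})ᴴ G` -/
theorem geo_sa {G L : Matrix κ κ ℂ} (hG : G.PosDef) (hL : (G * L).IsHermitian) (r : ℝ) :
    G * ex L r = (ex L r)ᴴ * G := by
  have h1 : G * L = Lᴴ * G := by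
    have h2 := hL.eq
    rw [Matrix.conjTranspose_mul, hG.isHermitian.eq] at h2
    exact h2.symm
  rw [ex_conjTranspose, ex_conj hG.det_pos.ne' h1]

theorem geo_pos {G L : Matrix κ κ ℂ} (hG : G.PosDef) (hL : (G * L).IsHermitian) (r : ℝ) :
    (G * ex L r).PosDef := by
  have h1 : G * ex L r = (ex L (r / 2))ᴴ * G * ex L (r / 2) := by
    rw [← geo_sa hG hL, Matrix.mul_assoc, ← ex_add, add_halves]
  rw [h1]
  refine hG.conjTranspose_mul_mul_same ?_
  have hu : IsUnit (ex L (r / 2)) :=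
    (Matrix.isUnit_iff_isUnit_det _).2 (isUnit_iff_ne_zero.2 (ex_det_ne L _))
  exact Matrix.mulVec_injective_of_isUnit hu

end

end Crest.Agent.R257.BCU2_532
end

-- ▼ part R257/BCU3_532
section

/-!
# R257 (S0395), part (GB), leaf GB-UPP (helper532): variation of the curvature

* `var_q2`  : the variation of `tr F²` is `∂∂̄` of `tr (L F)`
* `At`, `Th`, `Vt`, `q2` : connection, curvature, covariant derivative, `tr F²`
-/

set_option autoImplicit false
set_option linter.unusedSectionVars false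

open Finset Matrix Complex Filter Topology
open scoped ContDiff ComplexConjugate ComplexOrder

namespace Crest.Agent.R257.BCU3_532

open Crest.Agent.R275.Geo Crest.Agent.R275.EDR890
open Crest.Agent.R273.Fock_243 Crest.Agent.R273.Calc_243
open Crest.Agent.R273.Bkn_243 Crest.Agent.R273.Pos_243 Crest.Agent.R273.BochA_101
open Crest.Agent.R273.BochB_101
open Crest.Agent.R273.BochC_101 Crest.Agent.R273.BochD_101
open Crest.Agent.R273.Hess_333 Crest.Agent.R273.HessB_333
open Crest.Agent.R257.C2F1_625 Crest.Agent.R257.BCU1_532 Crest.Agent.R257.BCU2_532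

noncomputable section

variable {n : ℕ}

theorem dM_sub {ι κ : Type} {s : ℂ} {a : Fin n} {m m' : Cn n → Matrix ι κ ℂ} {z : Cn n}
    (hm : SmM z m) (hm' : SmM z m') :
    dM s a (fun y => m y - m' y) z = dM s a m z - dM s a m' z := by
  have e : (fun y => m y - m' y) = fun y => m y + (- m' y) := by
    funext y; rw [sub_eq_add_neg]
  have h2 : SmM z (fun y => - m' y) := fun S T => (hm' S T).neg
  rw [e, dM_add hm h2, dM_neg, sub_eq_add_neg]

theorem SmMsub {ι κ : Type} {m m' : Cn n → Matrix ι κ ℂ} {z : Cn n}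
    (hm : SmM z m) (hm' : SmM z m') : SmM z (fun y => m y - m' y) := fun S T =>
  (hm S T).sub (hm' S T)

theorem SmMadd {ι κ : Type} {m m' : Cn n → Matrix ι κ ℂ} {z : Cn n}
    (hm : SmM z m) (hm' : SmM z m') : SmM z (fun y => m y + m' y) := fun S T =>
  (hm S T).add (hm' S T)


theorem dMul {ι κ σ : Type} [Fintype κ] {s : ℂ} {a : Fin n} {m : Cn n → Matrix ι κ ℂ}
    {m' : Cn n → Matrix κ σ ℂ} {z : Cn n} (hm : SmM z m) (hm' : SmM z m') :
    dM s a (fun y => m y * m' y) z = dM s a m z * m' z + m z * dM s a m' z := by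
  ext S T
  have h1 : dM s a (fun y => m y * m' y) z S T = dS s a (fun y => ∑ i, m y S i * m' y i T) z := rfl
  rw [h1, dS_sum (f := fun i y => m y S i * m' y i T) _ fun i _ => (hm S i).diff.mul (hm' i T).diff,
    Matrix.add_apply, Matrix.mul_apply, Matrix.mul_apply, ← Finset.sum_add_distrib]
  exact Finset.sum_congr rfl fun i _ => dS_mul (hm S i).diff (hm' i T).diff

theorem dM2_mul {ι κ σ : Type} [Fintype ι] [Fintype κ] [Fintype σ] {P : Cn n → Matrix ι κ ℂ}
    {Q : Cn n → Matrix κ σ ℂ} {z : Cn n} (hP : ∀ᶠ y in 𝓝 z, SmM y P) (hQ : ∀ᶠ y in 𝓝 z, SmM y Q)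
    (s t : ℂ) (c d : Fin n) :
    dM s c (dM t d (fun y => P y * Q y)) z = dM s c (dM t d P) z * Q z
      + dM t d P z * dM s c Q z + dM s c P z * dM t d Q z
      + P z * dM s c (dM t d Q) z := by
  have h1 : dM t d (fun y => P y * Q y) =ᶠ[𝓝 z] fun y => dM t d P y * Q y + P y * dM t d Q y := by
    filter_upwards [hP, hQ] with y h1 h2
    exact dMul h1 h2
  have hPz := hP.self_of_nhds
  have hQz := hQ.self_of_nhds
  rw [dM_congr h1, dM_add (SmM.mul (hPz.dM t d) hQz) (SmM.mul hPz (hQz.dM t d)),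
    dMul (hPz.dM t d) hQz, dMul hPz (hQz.dM t d)]
  abel

theorem dM_comm' {ι κ : Type} {s t : ℂ} {a b : Fin n} {m : Cn n → Matrix ι κ ℂ} {z : Cn n}
    (hm : SmM z m) : dM s a (dM t b m) z = dM t b (dM s a m) z := by
  ext S T
  exact dS_comm (hm S T)

/-- covariant derivative of an endomorphism -/
def Dv (A : Fin n → Cn n → Matrix (Fin 2) (Fin 2) ℂ) (L : Cn n → Matrix (Fin 2) (Fin 2) ℂ)
    (c : Fin n) (y : Cn n) : Matrix (Fin 2) (Fin 2) ℂ :=
  dM (-I) c L y + (A c y * L y - L y * A c y)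

theorem trace_alg (L Ld0 Ld1 L00 L01 L10 L11 A0 A1 B00 B01 B10 B11 P0 P1 : Matrix (Fin 2) (Fin 2) ℂ) :
    ((L00 + (B00 * L + A0 * Ld0 - (Ld0 * A0 + L * B00))) * B11).trace
      + (B00 * (L11 + (B11 * L + A1 * Ld1 - (Ld1 * A1 + L * B11)))).trace
      - ((L01 + (B01 * L + A0 * Ld1 - (Ld1 * A0 + L * B01))) * B10).trace
      - (B01 * (L10 + (B10 * L + A1 * Ld0 - (Ld0 * A1 + L * B10)))).trace
    = (L00 * B11 + Ld0 * (P1 - (B01 * A1 + A0 * B11 - (B11 * A0 + A1 * B01)))).trace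
      + (L11 * B00 + Ld1 * P0).trace
      - (L01 * B10 + Ld1 * (P0 - (B00 * A1 + A0 * B10 - (B10 * A0 + A1 * B00)))).trace
      - (L10 * B01 + Ld0 * P1).trace := by
  simp only [Matrix.trace_fin_two, Matrix.mul_apply, Fin.sum_univ_two, Matrix.add_apply,
    Matrix.sub_apply]
  ring

theorem dM_Dv {A : Fin 2 → Cn 2 → Matrix (Fin 2) (Fin 2) ℂ}
    {L : Cn 2 → Matrix (Fin 2) (Fin 2) ℂ} {z : Cn 2} (hA : ∀ c, SmM z (A c)) (hL : SmM z L)
    (s : ℂ) (c d : Fin 2) : dM s d (Dv A L c) z = dM (-I) c (dM s d L) z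
      + (dM s d (A c) z * L z + A c z * dM s d L z
        - (dM s d L z * A c z + L z * dM s d (A c) z)) := by
  have e : Dv A L c = fun y => dM (-I) c L y + (A c y * L y - L y * A c y) := rfl
  rw [e, dM_add (hL.dM (-I) c) (SmMsub (SmM.mul (hA c) hL) (SmM.mul hL (hA c))),
    dM_sub (SmM.mul (hA c) hL) (SmM.mul hL (hA c)), dMul (hA c) hL, dMul hL (hA c), dM_comm' hL]

theorem ddm_trace {L : Cn 2 → Matrix (Fin 2) (Fin 2) ℂ}
    {X : Fin 2 → Fin 2 → Cn 2 → Matrix (Fin 2) (Fin 2) ℂ} {z : Cn 2}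
    (hL : ∀ᶠ y in 𝓝 z, SmM y L) (hX : ∀ e f, ∀ᶠ y in 𝓝 z, SmM y (X e f)) (c d e f : Fin 2) :
    dS (-I) c (dS I d (fun y => (L y * X e f y).trace)) z =
      (dM (-I) c (dM I d L) z * X e f z + dM I d L z * dM (-I) c (X e f) z).trace
      + (dM (-I) c L z * dM I d (X e f) z).trace + (L z * dM (-I) c (dM I d (X e f)) z).trace := by
  have hm : ∀ᶠ y in 𝓝 z, SmM y (fun y => L y * X e f y) := by
    filter_upwards [hL, hX e f] with y h1 h2
    exact SmM.mul h1 h2
  have h1 : dS I d (fun y => (L y * X e f y).trace) =ᶠ[𝓝 z]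
      fun y => (dM I d (fun y => L y * X e f y) y).trace := by
    filter_upwards [hm] with y hy
    exact dS_trace hy
  rw [dS_congr h1, dS_trace (hm.self_of_nhds.dM I d), dM2_mul hL (hX e f), Matrix.trace_add,
    Matrix.trace_add]

/-- **the variation of `tr F²`** -/
theorem var_q2 {A : Fin 2 → Cn 2 → Matrix (Fin 2) (Fin 2) ℂ}
    {L : Cn 2 → Matrix (Fin 2) (Fin 2) ℂ} {z : Cn 2} (hA : ∀ c, ∀ᶠ y in 𝓝 z, SmM y (A c))
    (hL : ∀ᶠ y in 𝓝 z, SmM y L)
    (hfl : ∀ᶠ y in 𝓝 z, dM (-I) 0 (A 1) y = dM (-I) 1 (A 0) y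
      - (A 0 y * A 1 y - A 1 y * A 0 y)) :
    (dM I 0 (Dv A L 0) z * dM I 1 (A 1) z).trace + (dM I 0 (A 0) z * dM I 1 (Dv A L 1) z).trace
      - (dM I 1 (Dv A L 0) z * dM I 0 (A 1) z).trace
      - (dM I 1 (A 0) z * dM I 0 (Dv A L 1) z).trace
    = ddm (fun y => Matrix.of fun c d => (L y * dM I d (A c) y).trace) z := by
  have hAz : ∀ c, SmM z (A c) := fun c => (hA c).self_of_nhds
  have hLz := hL.self_of_nhds
  have hX : ∀ e f, ∀ᶠ y in 𝓝 z, SmM y (dM I f (A e)) := fun e f =>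
    (hA e).mono fun y hy => hy.dM I f
  -- Bianchi
  have hb : ∀ e, dM I 0 (dM I 1 (A e)) =ᶠ[𝓝 z] dM I 1 (dM I 0 (A e)) := fun e =>
    (hA e).mono fun y hy => dM_comm' hy
  have hfl2 : ∀ f, dM (-I) 0 (dM I f (A 1)) z = dM (-I) 1 (dM I f (A 0)) z
      - (dM I f (A 0) z * A 1 z + A 0 z * dM I f (A 1) z
        - (dM I f (A 1) z * A 0 z + A 1 z * dM I f (A 0) z)) := by
    intro f
    rw [← dM_comm' (s := I) (t := -I) (a := f) (b := 0) (hAz 1), dM_congr hfl,
      dM_sub ((hAz 0).dM (-I) 1) (SmMsub (SmM.mul (hAz 0) (hAz 1)) (SmM.mul (hAz 1) (hAz 0))),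
      dM_sub (SmM.mul (hAz 0) (hAz 1)) (SmM.mul (hAz 1) (hAz 0)), dMul (hAz 0) (hAz 1),
      dMul (hAz 1) (hAz 0), dM_comm' (s := I) (t := -I) (a := f) (b := 1) (hAz 0)]
  unfold ddm
  simp only [Matrix.of_apply]
  rw [ddm_trace (X := fun e f => dM I f (A e)) hL hX 0 0 1 1,
    ddm_trace (X := fun e f => dM I f (A e)) hL hX 1 1 0 0,
    ddm_trace (X := fun e f => dM I f (A e)) hL hX 0 1 1 0,
    ddm_trace (X := fun e f => dM I f (A e)) hL hX 1 0 0 1]
  simp only [dM_Dv hAz hLz]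
  rw [(hb 1).self_of_nhds, dM_congr (hb 1), (hb 0).self_of_nhds, dM_congr (hb 0), hfl2 0, hfl2 1,
    trace_alg (P0 := dM (-I) 1 (dM I 0 (A 0)) z) (P1 := dM (-I) 1 (dM I 1 (A 0)) z)]
  ring

end

end Crest.Agent.R257.BCU3_532
end

-- ▼ part R257/BCU4_532
section

/-!
# R257 (S0395), part (GB), leaf GB-UPP (helper532): geodesics of metrics, pointwise

* `At G c`, `Th G c d` : connection `G⁻¹ ∂_c G` and curvature `G⁻¹ rm G c d = - ∂_{d̄} At`
* `q2 G`, `q2_eq`      : `tr F²`, `q2 = ½ pd (ric, ric) - c2`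
* `geo H L r`          : `H e^{rL}`
* `q2_deriv`           : `d/dr q2 (geo r) = - ddm (bf (geo r) L)`, `bf G L c d = tr (L Θ_{cd})`
* `bf_deriv`           : `d/dr bf (geo r) L = mm (geo r) L - ½ ∂∂̄ tr L²`
* `mm_psd`             : `mm G L ≥ 0`
-/

set_option autoImplicit false
set_option linter.unusedSectionVars false

open Finset Matrix Complex Filter Topology
open scoped ContDiff ComplexConjugate ComplexOrder

namespace Crest.Agent.R257.BCU4_532

open Crest.Agent.R275.Geo Crest.Agent.R275.EDR890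
open Crest.Agent.R273.Fock_243 Crest.Agent.R273.Calc_243
open Crest.Agent.R273.Bkn_243 Crest.Agent.R273.Pos_243 Crest.Agent.R273.BochA_101
open Crest.Agent.R273.BochB_101
open Crest.Agent.R273.BochC_101 Crest.Agent.R273.BochD_101
open Crest.Agent.R273.Hess_333 Crest.Agent.R273.HessB_333
open Crest.Agent.R257.C2F1_625 Crest.Agent.R257.C2F2_625 Crest.Agent.R257.BCU1_532
open Crest.Agent.R257.BCU2_532 Crest.Agent.R257.BCU3_532

noncomputable section

variable {n : ℕ} {κ : Type} [Fintype κ] [DecidableEq κ]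

/-- connection -/
def At (G : Cn n → Matrix κ κ ℂ) (c : Fin n) (y : Cn n) : Matrix κ κ ℂ :=
  (G y)⁻¹ * dM (-I) c G y

/-- curvature -/
def Th (G : Cn n → Matrix κ κ ℂ) (c d : Fin n) (y : Cn n) : Matrix κ κ ℂ := (G y)⁻¹ * rm G y c d

theorem At_sm {G : Cn n → Matrix κ κ ℂ} {z : Cn n} (hG : SmM z G) (h0 : (G z).det ≠ 0)
    (c : Fin n) : SmM z (At G c) := SmM.mul (SmM.inv hG h0) (hG.dM (-I) c)

theorem Th_eq {G : Cn n → Matrix κ κ ℂ} {z : Cn n} (hG : SmM z G) (h0 : (G z).det ≠ 0)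
    (c d : Fin n) : Th G c d z = - dM I d (At G c) z := by
  have e : At G c = fun y => (G y)⁻¹ * dM (-I) c G y := rfl
  rw [e, dMul (SmM.inv hG h0) (hG.dM (-I) c), dM_inv hG h0, Th, rm,
    dM_comm' (s := I) (t := -I) hG]
  simp only [Matrix.mul_add, Matrix.neg_mul, Matrix.mul_neg, Matrix.mul_assoc, neg_add, neg_neg]
  abel

theorem At_flat {G : Cn n → Matrix κ κ ℂ} {z : Cn n} (hG : SmM z G) (h0 : (G z).det ≠ 0)
    (c e : Fin n) : dM (-I) c (At G e) z = dM (-I) e (At G c) z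
      - (At G c z * At G e z - At G e z * At G c z) := by
  have e1 : ∀ c, At G c = fun y => (G y)⁻¹ * dM (-I) c G y := fun _ => rfl
  rw [e1 e, e1 c, dMul (SmM.inv hG h0) (hG.dM (-I) e), dMul (SmM.inv hG h0) (hG.dM (-I) c),
    dM_inv hG h0, dM_inv hG h0, dM_comm' (s := -I) (t := -I) (a := c) (b := e) hG]
  simp only [Matrix.neg_mul, Matrix.mul_assoc]
  abel

/-- the trace of the curvature is `ric` -/
theorem Th_trace (G : Cn n → Matrix κ κ ℂ) (z : Cn n) (c d : Fin n) :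
    (Th G c d z).trace = ric G z c d := rfl

/-! ### rank two -/

/-- `tr F²` as a density -/
def q2 (G : Cn 2 → Matrix (Fin 2) (Fin 2) ℂ) (y : Cn 2) : ℂ :=
  (Th G 0 0 y * Th G 1 1 y).trace - (Th G 0 1 y * Th G 1 0 y).trace

theorem pd_tr (X Y : Matrix (Fin 2) (Fin 2) ℂ) : pd X Y = X.trace * Y.trace - (X * Y).trace := by
  simp only [pd, Matrix.trace_fin_two, Matrix.mul_apply, Fin.sum_univ_two]
  ring

theorem q2_eq {G : Cn 2 → Matrix (Fin 2) (Fin 2) ℂ} {z : Cn 2} (h0 : (G z).det ≠ 0) :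
    c2 G z = pd (Matrix.of (ric G z)) (Matrix.of (ric G z)) / 2 - q2 G z := by
  have i2 : G z * (G z)⁻¹ = 1 := Matrix.mul_nonsing_inv _ (isUnit_iff_ne_zero.2 h0)
  have h1 : ∀ c d, rm G z c d = G z * Th G c d z * 1 := by
    intro c d
    rw [Th, Matrix.mul_one, ← Matrix.mul_assoc, i2, Matrix.one_mul]
  unfold c2
  rw [h1 0 0, h1 1 1, h1 0 1, h1 1 0, pd_mul, pd_mul, Matrix.det_one, mul_one, ← mul_sub,
    mul_div_cancel_left₀ _ h0, pd_tr, pd_tr, Th_trace, Th_trace, Th_trace, Th_trace, q2]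
  simp only [pd, Matrix.of_apply]
  ring

/-- `tr (L F)` -/
def bf (G L : Cn 2 → Matrix (Fin 2) (Fin 2) ℂ) (y : Cn 2) : Matrix (Fin 2) (Fin 2) ℂ :=
  Matrix.of fun c d => (L y * Th G c d y).trace

/-- `tr (DL ∧ ∂̄L)` -/
def mm (G L : Cn 2 → Matrix (Fin 2) (Fin 2) ℂ) (y : Cn 2) : Matrix (Fin 2) (Fin 2) ℂ :=
  Matrix.of fun c d => (Dv (At G) L c y * dM I d L y).trace

/-- geodesic -/
def geo (H L : Cn n → Matrix κ κ ℂ) (r : ℝ) (y : Cn n) : Matrix κ κ ℂ := H y * ex (L y) r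

theorem geo_det (H L : Cn n → Matrix κ κ ℂ) (r : ℝ) {y : Cn n} (h0 : (H y).det ≠ 0) :
    (geo H L r y).det ≠ 0 := by
  unfold geo
  rw [Matrix.det_mul]
  exact mul_ne_zero h0 (ex_det_ne _ _)

theorem geo_smJ {H L : Cn n → Matrix κ κ ℂ} {z : Cn n} (hH : SmM z H) (hL : SmM z L) (r : ℝ) :
    SmMJ r z (geo H L) := (SmMJ.ofSm hH).mul (ex_smJ hL)

theorem geo_sm {H L : Cn n → Matrix κ κ ℂ} {z : Cn n} (hH : SmM z H) (hL : SmM z L) (r : ℝ) :
    SmM z (geo H L r) := (geo_smJ hH hL r).slice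


theorem geo_invJ {H L : Cn n → Matrix κ κ ℂ} {z : Cn n} (hH : SmM z H) (hL : SmM z L)
    (h0 : (H z).det ≠ 0) (r : ℝ) : SmMJ r z (fun r y => (geo H L r y)⁻¹) := by
  have h1 : SmMJ r z (fun r y => ex (L y) (-r)) := by
    intro S T
    have h2 : ContDiffAt ℝ ∞ (fun q : ℝ × Cn n => ex (L q.2) q.1 S T) (-r, z) :=
      ex_smJ (r := -r) hL S T
    have h3 : ContDiffAt ℝ ∞ (fun q : ℝ × Cn n => ((-q.1, q.2) : ℝ × Cn n)) (r, z) :=
      contDiffAt_fst.neg.prodMk contDiffAt_snd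
    exact ContDiffAt.comp (r, z) (g := fun q : ℝ × Cn n => ex (L q.2) q.1 S T)
      (f := fun q : ℝ × Cn n => ((-q.1, q.2) : ℝ × Cn n)) h2 h3
  have h2 : SmMJ r z (fun r y => ex (L y) (-r) * (H y)⁻¹) := h1.mul (SmMJ.ofSm (SmM.inv hH h0))
  have h3 : (fun r y => (geo H L r y)⁻¹) = fun r y => ex (L y) (-r) * (H y)⁻¹ := by
    funext r y
    unfold geo
    rw [Matrix.mul_inv_rev, ex_inv]
  rw [h3]
  exact h2

theorem geo_deriv (H L : Cn n → Matrix κ κ ℂ) (y : Cn n) (r : ℝ) :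
    HM (fun r => geo H L r y) (geo H L r y * L y) r := by
  have h1 := (HM.const (r := r) (H y)).mul (ex_deriv (L y) r)
  rw [Matrix.zero_mul, zero_add, ex_comm, ← Matrix.mul_assoc] at h1
  exact h1

theorem geo_inv_deriv (H L : Cn n → Matrix κ κ ℂ) (y : Cn n) (r : ℝ) :
    HM (fun r => (geo H L r y)⁻¹) (- (L y * (geo H L r y)⁻¹)) r := by
  have e : (fun r => (geo H L r y)⁻¹) = fun r => ex (L y) (-r) * (H y)⁻¹ := by
    funext r
    unfold geo
    rw [Matrix.mul_inv_rev, ex_inv]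
  have h2 : HM (fun r => ex (L y) (-r)) (- (L y * ex (L y) (-r))) r := by
    intro S T
    have h3 := HasDerivAt.scomp r (ex_deriv (L y) (-r) S T) (hasDerivAt_neg r)
    rw [neg_smul, one_smul] at h3
    exact h3
  have h1 := h2.mul (HM.const (r := r) (H y)⁻¹)
  rw [Matrix.mul_zero, add_zero, Matrix.neg_mul, Matrix.mul_assoc] at h1
  rw [e]
  unfold geo
  rw [Matrix.mul_inv_rev, ex_inv]
  exact h1

section two

variable {H L : Cn 2 → Matrix (Fin 2) (Fin 2) ℂ} {z : Cn 2}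

theorem At_smJ (hH : SmM z H) (hL : SmM z L) (h0 : (H z).det ≠ 0) (r : ℝ) (c : Fin 2) :
    SmMJ r z (fun r => At (geo H L r) c) :=
  (geo_invJ hH hL h0 r).mul ((geo_smJ hH hL r).dw (-I) c)

theorem At_deriv (hH : SmM z H) (hL : ∀ᶠ y in 𝓝 z, SmM y L) (h0 : (H z).det ≠ 0) (r : ℝ)
    (c : Fin 2) : HM (fun r => At (geo H L r) c z) (Dv (At (geo H L r)) L c z) r := by
  have hLz := hL.self_of_nhds
  have h1 : HM (fun r => dM (-I) c (geo H L r) z) (dM (-I) c (fun y => geo H L r y * L y) z) r :=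
    HM.dw (geo_smJ hH hLz r) (Eventually.of_forall fun y => geo_deriv H L y r) (-I) c
  rw [dMul (geo_sm hH hLz r) hLz] at h1
  have h2 := (geo_inv_deriv H L z r).mul h1
  have i1 : (geo H L r z)⁻¹ * geo H L r z = 1 :=
    Matrix.nonsing_inv_mul _ (isUnit_iff_ne_zero.2 (geo_det H L r h0))
  have e : - (L z * (geo H L r z)⁻¹) * dM (-I) c (geo H L r) z + (geo H L r z)⁻¹ *
      (dM (-I) c (geo H L r) z * L z + geo H L r z * dM (-I) c L z)
      = Dv (At (geo H L r)) L c z := by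
    unfold Dv At
    rw [Matrix.mul_add, ← Matrix.mul_assoc (geo H L r z)⁻¹ (geo H L r z), i1, Matrix.one_mul]
    simp only [Matrix.neg_mul, Matrix.mul_assoc]
    abel
  rw [e] at h2
  exact h2

variable (hH : ∀ᶠ y in 𝓝 z, SmM y H) (hL : ∀ᶠ y in 𝓝 z, SmM y L) (h0 : (H z).det ≠ 0)

include hH hL h0

theorem ev_all : ∀ᶠ y in 𝓝 z, SmM y H ∧ (∀ᶠ w in 𝓝 y, SmM w L) ∧ (H y).det ≠ 0 := by
  filter_upwards [hH, hL.eventually_nhds, eventually_det_ne hH.self_of_nhds h0] with y a b c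
  exact ⟨a, b, c⟩

theorem dAt_deriv (r : ℝ) (c d : Fin 2) :
    HM (fun r => dM I d (At (geo H L r) c) z) (dM I d (Dv (At (geo H L r)) L c) z) r := by
  refine HM.dw (At_smJ hH.self_of_nhds hL.self_of_nhds h0 r c) ?_ I d
  filter_upwards [ev_all hH hL h0] with y hy
  exact At_deriv hy.1 hy.2.1 hy.2.2 r c

theorem q2_read (r : ℝ) : q2 (geo H L r) z =
    (dM I 0 (At (geo H L r) 0) z * dM I 1 (At (geo H L r) 1) z).trace
      - (dM I 1 (At (geo H L r) 0) z * dM I 0 (At (geo H L r) 1) z).trace := by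
  have hG := geo_sm hH.self_of_nhds hL.self_of_nhds r
  have hd := geo_det H L r h0
  unfold q2
  rw [Th_eq hG hd, Th_eq hG hd, Th_eq hG hd, Th_eq hG hd, Matrix.neg_mul, Matrix.mul_neg, neg_neg,
    Matrix.neg_mul, Matrix.mul_neg, neg_neg]

theorem bf_ev (r : ℝ) : bf (geo H L r) L =ᶠ[𝓝 z] fun y => - Matrix.of fun c d =>
    (L y * dM I d (At (geo H L r) c) y).trace := by
  filter_upwards [ev_all hH hL h0] with y hy
  have hG := geo_sm hy.1 hy.2.1.self_of_nhds r
  have hd := geo_det H L r hy.2.2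
  ext c d
  simp only [bf, Matrix.of_apply, Matrix.neg_apply]
  rw [Th_eq hG hd, Matrix.mul_neg, Matrix.trace_neg]

omit hH hL h0 in
theorem ddm_neg (b : Cn 2 → Matrix (Fin 2) (Fin 2) ℂ) : ddm (fun y => - b y) z = - ddm b z := by
  have e : ∀ i j c d, dS (-I) c (dS I d (fun y => (- b y) i j)) z
      = - dS (-I) c (dS I d (fun y => b y i j)) z := by
    intro i j c d
    have h1 : dS I d (fun y => (- b y) i j) = fun y => - dS I d (fun y => b y i j) y :=
      funext fun y => dS_neg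
    rw [h1, dS_neg]
  unfold ddm
  rw [e, e, e, e]
  ring

/-- **first variation of `tr F²` along a geodesic** -/
theorem q2_deriv (r : ℝ) :
    HasDerivAt (fun r => q2 (geo H L r) z) (- ddm (bf (geo H L r) L) z) r := by
  have hG : ∀ᶠ y in 𝓝 z, SmM y (geo H L r) ∧ (geo H L r y).det ≠ 0 := by
    filter_upwards [ev_all hH hL h0] with y hy
    exact ⟨geo_sm hy.1 hy.2.1.self_of_nhds r, geo_det H L r hy.2.2⟩
  have hA : ∀ c, ∀ᶠ y in 𝓝 z, SmM y (At (geo H L r) c) := fun c =>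
    hG.mono fun y hy => At_sm hy.1 hy.2 c
  have hfl : ∀ᶠ y in 𝓝 z, dM (-I) 0 (At (geo H L r) 1) y = dM (-I) 1 (At (geo H L r) 0) y
      - (At (geo H L r) 0 y * At (geo H L r) 1 y - At (geo H L r) 1 y * At (geo H L r) 0 y) :=
    hG.mono fun y hy => At_flat hy.1 hy.2 0 1
  have key := var_q2 hA hL hfl
  have e1 : (fun r => q2 (geo H L r) z) = fun r =>
      (dM I 0 (At (geo H L r) 0) z * dM I 1 (At (geo H L r) 1) z).trace
      - (dM I 1 (At (geo H L r) 0) z * dM I 0 (At (geo H L r) 1) z).trace :=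
    funext fun r => q2_read hH hL h0 r
  have h1 := ((dAt_deriv hH hL h0 r 0 0).mul (dAt_deriv hH hL h0 r 1 1)).trace.sub
    ((dAt_deriv hH hL h0 r 0 1).mul (dAt_deriv hH hL h0 r 1 0)).trace
  have e2 : - ddm (bf (geo H L r) L) z =
      (dM I 0 (Dv (At (geo H L r)) L 0) z * dM I 1 (At (geo H L r) 1) z +
          dM I 0 (At (geo H L r) 0) z * dM I 1 (Dv (At (geo H L r)) L 1) z).trace -
      (dM I 1 (Dv (At (geo H L r)) L 0) z * dM I 0 (At (geo H L r) 1) z +
          dM I 1 (At (geo H L r) 0) z * dM I 0 (Dv (At (geo H L r)) L 1) z).trace := by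
    rw [ddm_congr (bf_ev hH hL h0 r), ddm_neg, neg_neg, ← key, Matrix.trace_add,
      Matrix.trace_add]
    ring
  rw [e1, e2]
  exact h1

/-- first variation of `tr (L F)` -/
theorem bf_deriv0 (r : ℝ) (c d : Fin 2) :
    HasDerivAt (fun r => bf (geo H L r) L z c d)
      (- (L z * dM I d (Dv (At (geo H L r)) L c) z).trace) r := by
  have e1 : (fun r => bf (geo H L r) L z c d) = fun r =>
      - (L z * dM I d (At (geo H L r) c) z).trace := by
    funext r
    rw [(bf_ev hH hL h0 r).self_of_nhds]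
    rfl
  rw [e1]
  have h1 := ((HM.const (r := r) (L z)).mul (dAt_deriv hH hL h0 r c d)).trace.neg
  rw [Matrix.zero_mul, zero_add] at h1
  exact h1

theorem bf_deriv (r : ℝ) (c d : Fin 2) :
    HasDerivAt (fun r => bf (geo H L r) L z c d)
      (mm (geo H L r) L z c d
        - dS (-I) c (dS I d (fun y => (L y * L y).trace)) z / 2) r := by
  have hG : ∀ᶠ y in 𝓝 z, SmM y (geo H L r) ∧ (geo H L r y).det ≠ 0 := by
    filter_upwards [ev_all hH hL h0] with y hy
    exact ⟨geo_sm hy.1 hy.2.1.self_of_nhds r, geo_det H L r hy.2.2⟩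
  have hA : ∀ᶠ y in 𝓝 z, SmM y (At (geo H L r) c) := hG.mono fun y hy => At_sm hy.1 hy.2 c
  have hLz := hL.self_of_nhds
  have hAz := hA.self_of_nhds
  have hD : SmM z (Dv (At (geo H L r)) L c) :=
    SmMadd (hLz.dM (-I) c) (SmMsub (SmM.mul hAz hLz) (SmM.mul hLz hAz))
  have h1 : (fun y => (L y * Dv (At (geo H L r)) L c y).trace) =ᶠ[𝓝 z]
      fun y => (1 / 2 : ℂ) * dS (-I) c (fun y => (L y * L y).trace) y := by
    filter_upwards [hL] with y hy
    rw [dS_trace (SmM.mul hy hy), dMul hy hy, Matrix.trace_add, Matrix.trace_mul_comm (dM _ _ _ _)]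
    unfold Dv
    rw [Matrix.mul_add, Matrix.mul_sub, Matrix.trace_add, Matrix.trace_sub,
      ← Matrix.mul_assoc (L y) (L y), Matrix.trace_mul_comm (L y * L y)]
    rw [← Matrix.mul_assoc (L y) (At (geo H L r) c y), Matrix.trace_mul_comm (L y * At _ _ _),
      ← Matrix.mul_assoc (L y) (L y), Matrix.trace_mul_comm (L y * L y)]
    ring
  have hLL : Sm z (fun y => (L y * L y).trace) := Sm.trace (SmM.mul hLz hLz)
  have h2 : dS I d (fun y => (L y * Dv (At (geo H L r)) L c y).trace) z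
      = dS (-I) c (dS I d (fun y => (L y * L y).trace)) z / 2 := by
    rw [dS_congr h1, dS_const_mul _ (hLL.dS (-I) c).diff, dS_comm hLL]
    ring
  have h3 : dS I d (fun y => (L y * Dv (At (geo H L r)) L c y).trace) z
      = (dM I d L z * Dv (At (geo H L r)) L c z).trace
        + (L z * dM I d (Dv (At (geo H L r)) L c) z).trace := by
    rw [dS_trace (SmM.mul hLz hD), dMul hLz hD, Matrix.trace_add]
  have e2 : mm (geo H L r) L z c d - dS (-I) c (dS I d (fun y => (L y * L y).trace)) z / 2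
      = - (L z * dM I d (Dv (At (geo H L r)) L c) z).trace := by
    rw [← h2, h3]
    simp only [mm, Matrix.of_apply]
    rw [Matrix.trace_mul_comm (dM I d L z)]
    ring
  rw [e2]
  exact bf_deriv0 hH hL h0 r c d

end two

end

end Crest.Agent.R257.BCU4_532
end

-- ▼ part R257/BCU5_532
section

/-!
# R257 (S0395), part (GB), leaf GB-UPP (helper532): positivity of `tr (DL ∧ ∂̄L)`

* `Dv_adj`  : `(D_d L)ᴴ G = G ∂_{d̄} L` for `G L` Hermitian
* `mm_psd`  : `mm G L z` is positive semidefinite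
* `tr_real` : `tr L²` is real
-/

set_option autoImplicit false
set_option linter.unusedSectionVars false

open Finset Matrix Complex Filter Topology
open scoped ContDiff ComplexConjugate ComplexOrder

namespace Crest.Agent.R257.BCU5_532

open Crest.Agent.R275.Geo Crest.Agent.R275.EDR890
open Crest.Agent.R273.Fock_243 Crest.Agent.R273.Calc_243
open Crest.Agent.R273.Bkn_243 Crest.Agent.R273.Pos_243 Crest.Agent.R273.BochA_101
open Crest.Agent.R273.BochB_101
open Crest.Agent.R273.BochC_101 Crest.Agent.R273.BochD_101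
open Crest.Agent.R273.Hess_333 Crest.Agent.R273.HessB_333
open Crest.Agent.R257.C2F1_625 Crest.Agent.R257.C2F2_625 Crest.Agent.R257.BCU1_532
open Crest.Agent.R257.BCU2_532 Crest.Agent.R257.BCU3_532 Crest.Agent.R257.BCU4_532

noncomputable section

variable {G L : Cn 2 → Matrix (Fin 2) (Fin 2) ℂ} {z : Cn 2}

theorem Dv_adj (hG : SmM z G) (hL : SmM z L) (hp : ∀ᶠ y in 𝓝 z, (G y).PosDef)
    (hs : ∀ᶠ y in 𝓝 z, (G y * L y).IsHermitian) (d : Fin 2) :
    (Dv (At G) L d z)ᴴ * G z = G z * dM I d L z := by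
  have hpz := hp.self_of_nhds
  have h0 : (G z).det ≠ 0 := hpz.det_pos.ne'
  have i1 : G z * (G z)⁻¹ = 1 := Matrix.mul_nonsing_inv _ (isUnit_iff_ne_zero.2 h0)
  have i2 : (G z)⁻¹ * G z = 1 := Matrix.nonsing_inv_mul _ (isUnit_iff_ne_zero.2 h0)
  -- `∂_{d̄} G = (∂_d G)ᴴ`
  have g1 : dM I d G z = (dM (-I) d G z)ᴴ := by
    have e1 : G =ᶠ[𝓝 z] fun y => (G y)ᴴ := hp.mono fun y hy => hy.isHermitian.eq.symm
    conv_lhs => rw [dM_congr e1]
    rw [dM_conjTranspose hG, conjI]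
  have g2 : ∀ᶠ y in 𝓝 z, G y * L y = (L y)ᴴ * G y := by
    filter_upwards [hp, hs] with y h1 h2
    have h3 := h2.eq
    rw [Matrix.conjTranspose_mul, h1.isHermitian.eq] at h3
    exact h3.symm
  have g3 : dM I d G z * L z + G z * dM I d L z
      = (dM (-I) d L z)ᴴ * G z + (L z)ᴴ * dM I d G z := by
    have h1 := dM_congr (s := I) (a := d) g2
    rw [dMul hG hL, dMul (SmM.conjTranspose hL) hG, dM_conjTranspose hL, conjI] at h1
    exact h1
  have g4 := g2.self_of_nhds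
  have e1 : (At G d z)ᴴ * G z = dM I d G z := by
    unfold At
    rw [Matrix.conjTranspose_mul, Matrix.conjTranspose_nonsing_inv, hpz.isHermitian.eq,
      Matrix.mul_assoc, i2, Matrix.mul_one, g1]
  unfold Dv
  rw [Matrix.conjTranspose_add, Matrix.conjTranspose_sub, Matrix.conjTranspose_mul,
    Matrix.conjTranspose_mul, Matrix.add_mul, Matrix.sub_mul, Matrix.mul_assoc (L z)ᴴ, e1,
    Matrix.mul_assoc (At G d z)ᴴ, ← g4, ← Matrix.mul_assoc, e1, ← add_sub_assoc, ← g3]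
  abel

theorem tr_rank {G V W : Matrix (Fin 2) (Fin 2) ℂ} {B : Matrix (Fin 2) (Fin 2) ℂ}
    (hB : IsUnit B.det) (hG : G = Bᴴ * B) :
    (V * (G⁻¹ * (Wᴴ * G))).trace = ((B * V * B⁻¹) * (B * W * B⁻¹)ᴴ).trace := by
  have i1 : B * B⁻¹ = 1 := Matrix.mul_nonsing_inv _ hB
  have e1 : (B * V * B⁻¹) * (B * W * B⁻¹)ᴴ = B * (V * (B⁻¹ * ((B⁻¹)ᴴ * (Wᴴ * Bᴴ)))) := by
    rw [Matrix.conjTranspose_mul, Matrix.conjTranspose_mul]
    simp only [Matrix.mul_assoc]
  have e2 : V * (G⁻¹ * (Wᴴ * G)) = V * (B⁻¹ * ((B⁻¹)ᴴ * (Wᴴ * Bᴴ))) * B := by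
    rw [hG, Matrix.mul_inv_rev, Matrix.conjTranspose_nonsing_inv]
    simp only [Matrix.mul_assoc]
  rw [e1, e2, Matrix.trace_mul_comm]

/-- `tr (DL ∧ ∂̄L) ≥ 0` -/
theorem mm_psd (hG : SmM z G) (hL : SmM z L) (hp : ∀ᶠ y in 𝓝 z, (G y).PosDef)
    (hs : ∀ᶠ y in 𝓝 z, (G y * L y).IsHermitian) : (mm G L z).PosSemidef := by
  have hpz := hp.self_of_nhds
  have h0 : (G z).det ≠ 0 := hpz.det_pos.ne'
  obtain ⟨B, hB⟩ : ∃ B : Matrix (Fin 2) (Fin 2) ℂ, G z = Bᴴ * B := by
    open scoped MatrixOrder in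
    exact CStarAlgebra.nonneg_iff_eq_star_mul_self.mp hpz.posSemidef.nonneg
  have hBu : IsUnit B.det := by
    have h1 : IsUnit (G z).det := isUnit_iff_ne_zero.2 h0
    rw [hB, Matrix.det_mul] at h1
    exact isUnit_of_mul_isUnit_right h1
  have i2 : (G z)⁻¹ * G z = 1 := Matrix.nonsing_inv_mul _ (isUnit_iff_ne_zero.2 h0)
  set W : Fin 2 → Matrix (Fin 2) (Fin 2) ℂ := fun c => B * Dv (At G) L c z * B⁻¹ with hW
  have e1 : ∀ c d, mm G L z c d = (W c * (W d)ᴴ).trace := by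
    intro c d
    have h1 : dM I d L z = (G z)⁻¹ * ((Dv (At G) L d z)ᴴ * G z) := by
      rw [Dv_adj hG hL hp hs, ← Matrix.mul_assoc, i2, Matrix.one_mul]
    simp only [mm, Matrix.of_apply]
    rw [h1, tr_rank hBu hB]
  have e2 : mm G L z = ∑ i, ∑ j, Matrix.vecMulVec (fun c => W c i j) (star fun c => W c i j) := by
    ext c d
    rw [e1, Matrix.sum_apply, Matrix.trace]
    refine Finset.sum_congr rfl fun i _ => ?_
    rw [Matrix.sum_apply, Matrix.diag_apply, Matrix.mul_apply]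
    refine Finset.sum_congr rfl fun j _ => ?_
    rw [Matrix.vecMulVec_apply, Matrix.conjTranspose_apply]
    rfl
  rw [e2]
  exact Matrix.posSemidef_sum _ fun i _ => Matrix.posSemidef_sum _ fun j _ =>
    Matrix.posSemidef_vecMulVec_self_star _

theorem tr_real {G L : Matrix (Fin 2) (Fin 2) ℂ} (hp : G.PosDef) (hs : (G * L).IsHermitian) :
    (((L * L).trace.re : ℝ) : ℂ) = (L * L).trace := by
  have h0 : G.det ≠ 0 := hp.det_pos.ne'
  have i1 : G * G⁻¹ = 1 := Matrix.mul_nonsing_inv _ (isUnit_iff_ne_zero.2 h0)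
  have g4 : Lᴴ * G = G * L := by
    have h3 := hs.eq
    rwa [Matrix.conjTranspose_mul, hp.isHermitian.eq] at h3
  have h1 : Lᴴ = G * L * G⁻¹ := by rw [← g4, Matrix.mul_assoc, i1, Matrix.mul_one]
  have h2 : conj (L * L).trace = (L * L).trace := by
    have e : conj (L * L).trace = ((L * L)ᴴ).trace := (Matrix.trace_conjTranspose _).symm
    have e3 : Lᴴ * Lᴴ = G * (L * L * G⁻¹) := by
      have i2 : G⁻¹ * G = 1 := Matrix.nonsing_inv_mul _ (isUnit_iff_ne_zero.2 h0)
      rw [h1]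
      calc G * L * G⁻¹ * (G * L * G⁻¹) = G * (L * ((G⁻¹ * G) * (L * G⁻¹))) := by
            simp only [Matrix.mul_assoc]
        _ = _ := by rw [i2, Matrix.one_mul]; simp only [Matrix.mul_assoc]
    rw [e, Matrix.conjTranspose_mul, e3, Matrix.trace_mul_comm, Matrix.mul_assoc,
      Matrix.mul_assoc]
    have i2 : G⁻¹ * G = 1 := Matrix.nonsing_inv_mul _ (isUnit_iff_ne_zero.2 h0)
    rw [i2, Matrix.mul_one]
  exact Complex.conj_eq_iff_re.1 h2

/-- `e^{rL}` keeps `L` self adjoint -/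
theorem geo_herm {H L : Matrix (Fin 2) (Fin 2) ℂ} (hp : H.PosDef) (hs : (H * L).IsHermitian)
    (r : ℝ) : (H * ex L r * L).IsHermitian := by
  have h1 : H * ex L r * L = Lᴴ * (H * ex L r) := by
    have h3 := hs.eq
    rw [Matrix.conjTranspose_mul, hp.isHermitian.eq] at h3
    rw [← Matrix.mul_assoc, h3, Matrix.mul_assoc, ← ex_comm, ← Matrix.mul_assoc]
  have h2 : (H * ex L r).IsHermitian := (geo_pos hp hs r).isHermitian
  show (H * ex L r * L)ᴴ = _
  rw [Matrix.conjTranspose_mul, h2.eq, ← h1]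

end

end Crest.Agent.R257.BCU5_532
end

-- ▼ part R257/BCU6_532
section

/-!
# R257 (S0395), part (GB), leaf GB-UPP (helper532): differentiation of integrals of densities

* `lint_deriv`, `intD_deriv` : `d/dr ∫ f_r = ∫ ∂_r f_r`, compact support
-/

set_option autoImplicit false
set_option linter.unusedSectionVars false

open Set Filter Topology Complex MeasureTheory
open scoped ContDiff Matrix ComplexConjugate ComplexOrder

namespace Crest.Agent.R257.BCU6_532

open Crest.Agent.R275.Geo Crest.Agent.R275.TorS666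
open Crest.Agent.R275.Tor812 hiding pd
open Crest.Agent.R275.C1d194 Crest.Agent.R275.Pai323 Crest.Agent.R275.OmT75
open Crest.Agent.R275.SerG398 (lint dens)
open Crest.Agent.R273.StokesV_332

noncomputable section

variable {n : ℕ} {M : Type} [TopologicalSpace M] {A : Atl n M}

section t2

variable [T2Space M]

theorem lint_deriv (P : Part A) {i : A.ι} {f f' : ℝ → M → ℂ} (hf : ∀ r, A.SmAt i (f r))
    (hf' : ∀ r, A.SmAt i (f' r))
    (hc : ∀ r, ∀ z ∈ (A.e i).target,
      ContinuousAt (fun q : ℝ × Cn n => f' q.1 ((A.e i).symm q.2)) (r, z))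
    (hd : ∀ x ∈ (A.e i).source, ∀ r, HasDerivAt (fun r => f r x) (f' r x) r) (r : ℝ) :
    HasDerivAt (fun r => lint A i (fun x => (P.ψ i x : ℂ) * f r x))
      (lint A i (fun x => (P.ψ i x : ℂ) * f' r x)) r := by
  set Kz : Set (Cn n) := (A.e i) '' (tsupport (P.χ i)) with hKz
  have hKzc : IsCompact Kz :=
    (P.χ_cpt i).image_of_continuousOn ((A.e i).continuousOn.mono (P.χ_sub i))
  have hKzt : Kz ⊆ (A.e i).target := by
    rintro _ ⟨x, hx, rfl⟩
    exact (A.e i).map_source (P.χ_sub i hx)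
  set Kc : Set (RI n → ℝ) := rc '' Kz with hKc
  have hKcc : IsCompact Kc := hKzc.image continuous_rc
  have hmem : ∀ y : RI n → ℝ, y ∉ Kc → cc y ∈ (A.e i).target →
      (P.ψ i ((A.e i).symm (cc y)) : ℂ) = 0 := by
    intro y hy hyt
    rw [psi_zero_off P i, Complex.ofReal_zero]
    intro hx
    exact hy ⟨cc y, ⟨_, hx, (A.e i).right_inv hyt⟩, rc_cc y⟩
  -- the bound
  obtain ⟨C, hC⟩ : ∃ C, ∀ q ∈ Icc (r - 1) (r + 1) ×ˢ Kz,
      ‖(P.ψ i ((A.e i).symm q.2) : ℂ) * f' q.1 ((A.e i).symm q.2)‖ ≤ C := by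
    refine (isCompact_Icc.prod hKzc).exists_bound_of_continuousOn fun q hq => ?_
    have hqt := hKzt hq.2
    refine ContinuousAt.continuousWithinAt (ContinuousAt.mul ?_ (hc q.1 q.2 hqt))
    have h1 : ContinuousAt (fun z => (P.ψ i ((A.e i).symm z) : ℂ)) q.2 :=
      ((smAt_ofReal (P.ψ_sm i i) : A.SmAt i (fun x => (P.ψ i x : ℂ))).continuousOn).continuousAt
        ((A.e i).open_target.mem_nhds hqt)
    exact h1.comp (f := fun q : ℝ × Cn n => q.2) continuousAt_snd
  have key := hasDerivAt_integral_of_dominated_loc_of_deriv_le (𝕜 := ℝ) (μ := volume)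
    (F := fun r => rd A i (fun x => (P.ψ i x : ℂ) * f r x))
    (F' := fun r => rd A i (fun x => (P.ψ i x : ℂ) * f' r x)) (x₀ := r)
    (s := Icc (r - 1) (r + 1)) (bound := Kc.indicator fun _ => C)
    (Icc_mem_nhds (by linarith) (by linarith))
    (Eventually.of_forall fun r => (integrable_psi P (hf r)).aestronglyMeasurable)
    (integrable_psi P (hf r)) (integrable_psi P (hf' r)).aestronglyMeasurable ?_ ?_ ?_
  · exact key.2
  · refine Eventually.of_forall fun y r' hr' => ?_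
    by_cases hy : y ∈ Kc
    · rw [indicator_of_mem hy]
      obtain ⟨z, hz, rfl⟩ := hy
      have hzt := hKzt hz
      have hU : rc z ∈ Ui A i := by
        show cc (rc z) ∈ (A.e i).target
        rwa [cc_rc]
      rw [rd_of_mem hU, cc_rc]
      exact hC (r', z) ⟨hr', hz⟩
    · rw [indicator_of_notMem hy]
      by_cases hyt : y ∈ Ui A i
      · rw [rd_of_mem hyt, hmem y hy hyt, zero_mul, norm_zero]
      · rw [rd_off hyt, norm_zero]
  · exact (integrableOn_const hKcc.measure_ne_top).integrable_indicator hKcc.measurableSet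
  · refine Eventually.of_forall fun y r' _ => ?_
    by_cases hyt : y ∈ Ui A i
    · have e : (fun r => rd A i (fun x => (P.ψ i x : ℂ) * f r x) y) = fun r =>
          (P.ψ i ((A.e i).symm (cc y)) : ℂ) * f r ((A.e i).symm (cc y)) :=
        funext fun r => rd_of_mem hyt
      have e' : rd A i (fun x => (P.ψ i x : ℂ) * f' r' x) y =
          (P.ψ i ((A.e i).symm (cc y)) : ℂ) * f' r' ((A.e i).symm (cc y)) := rd_of_mem hyt
      rw [e']
      show HasDerivAt (fun r => rd A i (fun x => (P.ψ i x : ℂ) * f r x) y) _ r'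
      rw [e]
      exact (hd _ ((A.e i).map_target hyt) r').const_mul _
    · have e : (fun r => rd A i (fun x => (P.ψ i x : ℂ) * f r x) y) = fun _ => 0 :=
        funext fun r => rd_off hyt
      have e' : rd A i (fun x => (P.ψ i x : ℂ) * f' r' x) y = 0 := rd_off hyt
      rw [e']
      show HasDerivAt (fun r => rd A i (fun x => (P.ψ i x : ℂ) * f r x) y) _ r'
      rw [e]
      exact hasDerivAt_const _ _

/-- **derivative of the integral of a family of densities** -/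
theorem intD_deriv (P : Part A) {K : Set M} (hK : IsCompact K) {f f' : ℝ → A.ι → M → ℂ}
    (hf : ∀ r i, A.SmAt i (f r i)) (hf' : ∀ r i, A.SmAt i (f' r i))
    (hc : ∀ i, ∀ r, ∀ z ∈ (A.e i).target,
      ContinuousAt (fun q : ℝ × Cn n => f' q.1 i ((A.e i).symm q.2)) (r, z))
    (hd : ∀ i, ∀ x ∈ (A.e i).source, ∀ r, HasDerivAt (fun r => f r i x) (f' r i x) r)
    (h0 : ∀ r, OffK A (f r) K) (h0' : ∀ r, OffK A (f' r) K) (r : ℝ) :
    HasDerivAt (fun r => intD P (f r)) (intD P (f' r)) r := by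
  have e : (fun r => intD P (f r)) = fun r =>
      ∑ i ∈ Fn P hK, lint A i (fun x => (P.ψ i x : ℂ) * f r i x) :=
    funext fun r => intD_eq_sum P hK (Finset.Subset.refl _) (h0 r)
  rw [e, intD_eq_sum P hK (Finset.Subset.refl _) (h0' r)]
  exact HasDerivAt.fun_sum fun i _ => lint_deriv P (fun r => hf r i) (fun r => hf' r i)
    (hc i) (hd i) r

end t2

end

end Crest.Agent.R257.BCU6_532
end

-- ▼ part R257/BCU7_532
section

/-!
# R257 (S0395), part (GB), leaf GB-UPP (helper532): geodesics of metrics on a bundle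

* `LF E`       : fields of self adjoint endomorphisms
* `gE v r`     : the bundle with the metric `H e^{r v}`
* `q2D E`      : `tr F²` as a density, `q2D_eq : c2D = ½ pd (rho, rho) - q2D`
* `bD v`       : the field `tr (v F)` of type `(1,1)`
-/

set_option autoImplicit false
set_option linter.unusedSectionVars false

open Set Filter Topology Complex MeasureTheory
open scoped ContDiff Matrix ComplexConjugate ComplexOrder

namespace Crest.Agent.R257.BCU7_532

open Crest.Agent.R275.Geo Crest.Agent.R275.TorS666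
open Crest.Agent.R275.Tor812 hiding pd
open Crest.Agent.R275.C1d194 Crest.Agent.R275.Pai323 Crest.Agent.R275.OmT75
open Crest.Agent.R275.SerG398 (lint dens)
open Crest.Agent.R275.EDR890
open Crest.Agent.R273.StokesV_332
open Crest.Agent.R273.Fock_243
open Crest.Agent.R273.Calc_243 hiding dj
open Crest.Agent.R273.Bkn_243 Crest.Agent.R273.Pos_243 Crest.Agent.R273.BochA_101
open Crest.Agent.R273.BochB_101 Crest.Agent.R273.BochC_101 Crest.Agent.R273.BochD_101
open Crest.Agent.R275.Core144 Crest.Agent.R273.Defs_333 Crest.Agent.R273.HM_333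
open Crest.Agent.R273.Hess_333 Crest.Agent.R273.HessB_333 Crest.Agent.R273.Kah_333
open Crest.Agent.R273.GreenM_5
open Crest.Agent.R257.C2F1_625 Crest.Agent.R257.C2F2_625
open Crest.Agent.R257.C2F5_335 Crest.Agent.R257.GBL1_625 Crest.Agent.R257.GBL2_625
open Crest.Agent.R257.C2F6_335 hiding ddD
open Crest.Agent.R257.BCU1_532 Crest.Agent.R257.BCU2_532 Crest.Agent.R257.BCU3_532
open Crest.Agent.R257.BCU4_532 Crest.Agent.R257.BCU5_532 Crest.Agent.R257.BCU6_532

noncomputable section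

variable {M : Type} [TopologicalSpace M] {A : Atl 2 M}

/-- fields of self adjoint endomorphisms -/
structure LF (E : HB A (Fin 2)) where
  L : A.ι → M → Matrix (Fin 2) (Fin 2) ℂ
  sm : ∀ i a b, A.SmAt i (fun x => L i x a b)
  sa : ∀ i, ∀ x ∈ (A.e i).source, (E.H i x * L i x).IsHermitian
  tr : ∀ i j, ∀ x ∈ (A.e i).source ∩ (A.e j).source, E.F i j x * L i x = L j x * E.F i j x

variable {E : HB A (Fin 2)}


/-- the bundle with the metric `H e^{r v}` -/
def gE (v : LF E) (r : ℝ) : HB A (Fin 2) where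
  H i x := E.H i x * ex (v.L i x) r
  F := E.F
  sm i a b := fun z hz => ContDiffAt.contDiffWithinAt
    (geo_sm (evSmM_rdM (E.sm i) hz) (evSmM_rdM (v.sm i) hz) r a b)
  pos i x hx := geo_pos (E.pos i x hx) (v.sa i x hx) r
  hol := E.hol
  det_ne := E.det_ne
  tr i j x hx := by
    rw [E.tr i j x hx, Matrix.mul_assoc, ex_conj (E.det_ne i j x hx) (v.tr i j x hx) r]
    simp only [Matrix.mul_assoc]

/-- the same endomorphism for the new metric -/
def gL (v : LF E) (r : ℝ) : LF (gE v r) where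
  L := v.L
  sm := v.sm
  sa i x hx := geo_herm (E.pos i x hx) (v.sa i x hx) r
  tr := v.tr

theorem gE_zero (v : LF E) (i : A.ι) (x : M) : (gE v 0).H i x = E.H i x := by
  show E.H i x * ex (v.L i x) 0 = _
  rw [ex_zero, Matrix.mul_one]

/-- `tr F²` as a density -/
def q2D (E : HB A (Fin 2)) (i : A.ι) (x : M) : ℂ := q2 (rdM A i (E.H i)) (A.e i x)

/-- `tr (v F)` -/
def bD (v : LF E) (i : A.ι) (x : M) : Matrix (Fin 2) (Fin 2) ℂ :=
  bf (rdM A i (E.H i)) (rdM A i (v.L i)) (A.e i x)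

theorem q2D_eq (E : HB A (Fin 2)) {i : A.ι} {x : M} (hx : x ∈ (A.e i).source) :
    E.c2D i x = pd (E.rho i x) (E.rho i x) / 2 - q2D E i x := by
  have h0 : (rdM A i (E.H i) (A.e i x)).det ≠ 0 := by
    rw [rdM_at hx]; exact E.H_det_ne hx
  exact q2_eq h0

theorem q2D_eq' (E : HB A (Fin 2)) {i : A.ι} {x : M} (hx : x ∈ (A.e i).source) :
    q2D E i x = pd (E.rho i x) (E.rho i x) / 2 - E.c2D i x := by
  rw [q2D_eq E hx]; ring

theorem q2_dn (E : HB A (Fin 2)) : Dn A (q2D E) := by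
  intro i j x hx
  have h1 := pd_dn E.rho_tn E.rho_tn i j x hx
  have h2 := E.c2_dn i j x hx
  show q2D E i x = _
  rw [q2D_eq' E hx.1, q2D_eq' E hx.2, h2]
  simp only at h1
  rw [h1]
  ring

theorem smJ_at {f : M → ℂ} {i : A.ι} (hf : A.SmAt i f) {z : Cn 2} (hz : z ∈ (A.e i).target) :
    Sm z (fun z => f ((A.e i).symm z)) := hf.contDiffAt ((A.e i).open_target.mem_nhds hz)

theorem Th_smM {G : Cn 2 → Matrix (Fin 2) (Fin 2) ℂ} {z : Cn 2} (hG : SmM z G)
    (h0 : (G z).det ≠ 0) (c d : Fin 2) : SmM z (Th G c d) :=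
  SmM.mul (SmM.inv hG h0) (smM_rm hG h0 c d)

theorem q2_sm (E : HB A (Fin 2)) (i : A.ι) : A.SmAt i (q2D E i) := by
  intro z hz
  refine ContDiffAt.contDiffWithinAt ?_
  have hG : SmM z (rdM A i (E.H i)) := evSmM_rdM (E.sm i) hz
  have h0 : (rdM A i (E.H i) z).det ≠ 0 := E.H_det_ne ((A.e i).map_target hz)
  have h1 : Sm z (q2 (rdM A i (E.H i))) :=
    (Sm.trace (SmM.mul (Th_smM hG h0 0 0) (Th_smM hG h0 1 1))).sub
      (Sm.trace (SmM.mul (Th_smM hG h0 0 1) (Th_smM hG h0 1 0)))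
  refine h1.congr_of_eventuallyEq ?_
  filter_upwards [(A.e i).open_target.mem_nhds hz] with y hy
  unfold q2D
  rw [(A.e i).right_inv hy]

theorem q2_den (E : HB A (Fin 2)) : Den A (q2D E) where
  sm i := q2_sm E i
  tr := q2_dn E

/-! ### the field `tr (v F)` -/

theorem bf_sm {G L : Cn 2 → Matrix (Fin 2) (Fin 2) ℂ} {z : Cn 2} (hG : SmM z G)
    (h0 : (G z).det ≠ 0) (hL : SmM z L) : SmM z (bf G L) := fun c d =>
  Sm.trace (SmM.mul hL (Th_smM hG h0 c d))

theorem bD_sm (v : LF E) (U : Set M) : SmS A U (bD v) := by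
  intro i a b x hx _
  have hz := (A.e i).map_source hx
  have hG : SmM (A.e i x) (rdM A i (E.H i)) := evSmM_rdM (E.sm i) hz
  have hL : SmM (A.e i x) (rdM A i (v.L i)) := evSmM_rdM (v.sm i) hz
  have h0 : (rdM A i (E.H i) (A.e i x)).det ≠ 0 := by
    rw [rdM_at hx]; exact E.H_det_ne hx
  refine (bf_sm hG h0 hL a b).congr_of_eventuallyEq ?_
  filter_upwards [(A.e i).open_target.mem_nhds hz] with y hy
  unfold bD
  rw [(A.e i).right_inv hy]

theorem trF {F L L' Θ : Matrix (Fin 2) (Fin 2) ℂ} (hF : F.det ≠ 0) (h : F * L = L' * F) :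
    (L * (F⁻¹ * Θ * F)).trace = (L' * Θ).trace := by
  have i1 : F * F⁻¹ = 1 := Matrix.mul_nonsing_inv _ (isUnit_iff_ne_zero.2 hF)
  rw [Matrix.mul_assoc, ← Matrix.mul_assoc L, ← Matrix.mul_assoc, Matrix.trace_mul_comm]
  have : F * (L * F⁻¹ * Θ) = L' * Θ := by
    rw [← Matrix.mul_assoc, ← Matrix.mul_assoc, h, Matrix.mul_assoc L', i1, Matrix.mul_one]
  rw [this]

theorem bD_tn (v : LF E) (U : Set M) : TnO A U (bD v) := by
  intro i j x hx _
  have hF := E.det_ne i j x hx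
  have hF' : ((E.F i j x)ᴴ).det ≠ 0 := by
    rw [Matrix.det_conjTranspose]; exact (star_ne_zero).2 hF
  have i2 : ((E.F i j x)ᴴ)⁻¹ * (E.F i j x)ᴴ = 1 :=
    Matrix.nonsing_inv_mul _ (isUnit_iff_ne_zero.2 hF')
  ext c d
  have e0 : ((Jm A i j x)ᵀ * bD v j x * (Jm A i j x).map conj) c d
      = ∑ a, ∑ b, (Jm A i j x a c * conj (Jm A i j x b d)) * bD v j x a b := by
    simp only [Matrix.mul_apply, Matrix.transpose_apply, Matrix.map_apply, Finset.sum_mul]
    rw [Finset.sum_comm]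
    refine Finset.sum_congr rfl fun i _ => Finset.sum_congr rfl fun j _ => ?_
    ring
  have e1 : Th (rdM A i (E.H i)) c d (A.e i x) = (E.F i j x)⁻¹ * (∑ a, ∑ b,
      (Jm A i j x a c * conj (Jm A i j x b d)) • Th (rdM A j (E.H j)) a b (A.e j x)) *
      E.F i j x := by
    unfold Th
    rw [E.rm_tr hx, rdM_at hx.1, rdM_at hx.2, E.tr i j x hx, Matrix.mul_inv_rev,
      Matrix.mul_inv_rev]
    calc (E.F i j x)⁻¹ * ((E.H j x)⁻¹ * ((E.F i j x)ᴴ)⁻¹) * ((E.F i j x)ᴴ * (∑ a, ∑ b,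
            (Jm A i j x a c * conj (Jm A i j x b d)) • rm (rdM A j (E.H j)) (A.e j x) a b) *
          E.F i j x) = (E.F i j x)⁻¹ * ((E.H j x)⁻¹ * ((((E.F i j x)ᴴ)⁻¹ * (E.F i j x)ᴴ) *
            (∑ a, ∑ b, (Jm A i j x a c * conj (Jm A i j x b d)) •
              rm (rdM A j (E.H j)) (A.e j x) a b))) * E.F i j x := by
          simp only [Matrix.mul_assoc]
      _ = _ := by
          rw [i2, Matrix.one_mul]
          simp only [Matrix.mul_sum, Matrix.mul_smul]
  rw [e0]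
  unfold bD bf
  simp only [Matrix.of_apply]
  rw [e1, rdM_at hx.1, rdM_at hx.2, trF hF (v.tr i j x hx)]
  simp only [Matrix.mul_sum, Matrix.trace_sum, Matrix.mul_smul, Matrix.trace_smul, smul_eq_mul]

end

end Crest.Agent.R257.BCU7_532
end

-- ▼ part R257/BCU8_532
section

/-!
# R257 (S0395), part (GB), leaf GB-UPP (helper532): **the signed Bott-Chern inequality**

`upper` : for `χ` with compact support and `∂∂̄χ ≥ 0` where `v ≠ 0`,
`∫ χ tr F_1² - ∫ χ tr F_0² ≤ - ∫ ∂∂̄χ ∧ tr (v F_0)`,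
`F_0`, `F_1` the curvatures of `H`, `H e^v`.
-/

set_option autoImplicit false
set_option linter.unusedSectionVars false

open Set Filter Topology Complex MeasureTheory
open scoped ContDiff Matrix ComplexConjugate ComplexOrder

namespace Crest.Agent.R257.BCU8_532

open Crest.Agent.R275.Geo Crest.Agent.R275.TorS666
open Crest.Agent.R275.Tor812 hiding pd
open Crest.Agent.R275.C1d194 Crest.Agent.R275.Pai323 Crest.Agent.R275.OmT75
open Crest.Agent.R275.SerG398 (lint dens)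
open Crest.Agent.R275.EDR890
open Crest.Agent.R273.StokesV_332
open Crest.Agent.R273.Fock_243
open Crest.Agent.R273.Calc_243 hiding dj
open Crest.Agent.R273.Bkn_243 Crest.Agent.R273.Pos_243 Crest.Agent.R273.BochA_101
open Crest.Agent.R273.BochB_101 Crest.Agent.R273.BochC_101 Crest.Agent.R273.BochD_101
open Crest.Agent.R275.Core144 Crest.Agent.R273.Defs_333 Crest.Agent.R273.HM_333
open Crest.Agent.R273.Hess_333 Crest.Agent.R273.HessB_333 Crest.Agent.R273.Kah_333
open Crest.Agent.R273.GreenM_5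
open Crest.Agent.R257.C2F1_625 Crest.Agent.R257.C2F2_625
open Crest.Agent.R257.C2F5_335 Crest.Agent.R257.GBL1_625 Crest.Agent.R257.GBL2_625
open Crest.Agent.R257.C2F6_335 hiding ddD
open Crest.Agent.R257.GBLcut_844
open Crest.Agent.R257.BCU1_532 Crest.Agent.R257.BCU2_532 Crest.Agent.R257.BCU3_532
open Crest.Agent.R257.BCU4_532 Crest.Agent.R257.BCU5_532 Crest.Agent.R257.BCU6_532
open Crest.Agent.R257.BCU7_532

noncomputable section

variable {M : Type} [TopologicalSpace M] {A : Atl 2 M} {E : HB A (Fin 2)}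

/-! ### the function `tr v²` -/

/-- `tr v²` -/
def wL (v : LF E) (x : M) : ℝ := ((v.L (ci A x) x * v.L (ci A x) x).trace).re

theorem wL_eq (v : LF E) {i : A.ι} {x : M} (hx : x ∈ (A.e i).source) :
    ((wL v x : ℝ) : ℂ) = (v.L i x * v.L i x).trace := by
  have hci := mem_ci (A := A) x
  have h1 : ((wL v x : ℝ) : ℂ) = (v.L (ci A x) x * v.L (ci A x) x).trace :=
    tr_real (E.pos _ x hci) (v.sa _ x hci)
  have hF := E.det_ne (ci A x) i x ⟨hci, hx⟩
  have ht := v.tr (ci A x) i x ⟨hci, hx⟩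
  have i1 : (E.F (ci A x) i x)⁻¹ * E.F (ci A x) i x = 1 :=
    Matrix.nonsing_inv_mul _ (isUnit_iff_ne_zero.2 hF)
  have e : v.L (ci A x) x = (E.F (ci A x) i x)⁻¹ * (v.L i x) * E.F (ci A x) i x := by
    rw [Matrix.mul_assoc, ← ht, ← Matrix.mul_assoc, i1, Matrix.one_mul]
  rw [h1]
  conv_lhs => rw [e]
  rw [trF hF (L := (E.F (ci A x) i x)⁻¹ * (v.L i x) * E.F (ci A x) i x) (L' := v.L i x)
    (by rw [← e]; exact ht)]

theorem wL_ev (v : LF E) {i : A.ι} {z : Cn 2} (hz : z ∈ (A.e i).target) :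
    cu (fun y => wL v ((A.e i).symm y)) =ᶠ[𝓝 z]
      fun y => (rdM A i (v.L i) y * rdM A i (v.L i) y).trace := by
  filter_upwards [(A.e i).open_target.mem_nhds hz] with y hy
  exact wL_eq v ((A.e i).map_target hy)

theorem wL_sm (v : LF E) : A.Sm (wL v) := by
  intro i z hz
  have hL : SmM z (rdM A i (v.L i)) := evSmM_rdM (v.sm i) hz
  have h1 : Sm z (fun y => (rdM A i (v.L i) y * rdM A i (v.L i) y).trace) :=
    Sm.trace (SmM.mul hL hL)
  have h2 : ContDiffAt ℝ ∞ (fun y =>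
      ((rdM A i (v.L i) y * rdM A i (v.L i) y).trace).re) z :=
    Complex.reCLM.contDiff.contDiffAt.comp z h1
  refine (h2.congr_of_eventuallyEq ?_).contDiffWithinAt
  filter_upwards [wL_ev v hz] with y hy
  rw [← hy]
  exact (Complex.ofReal_re _).symm

theorem hess_wL (v : LF E) {i : A.ι} {x : M} (hx : x ∈ (A.e i).source) (c d : Fin 2) :
    dS (-I) c (dS I d (fun y => (rdM A i (v.L i) y * rdM A i (v.L i) y).trace)) (A.e i x)
      = hsf A (wL v) i x c d := by
  unfold hsf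
  rw [hess_eq]
  exact (dS_congr (dS_congr' (wL_ev v ((A.e i).map_source hx)))).symm

/-! ### the field `tr (Dv ∧ ∂̄v)` -/

/-- `tr (Dv ∧ ∂̄v)` -/
def mD (v : LF E) (i : A.ι) (x : M) : Matrix (Fin 2) (Fin 2) ℂ :=
  mm (rdM A i (E.H i)) (rdM A i (v.L i)) (A.e i x)

section chart

variable (v : LF E) {i : A.ι} {z : Cn 2} (hz : z ∈ (A.e i).target)

include hz

theorem evH : ∀ᶠ y in 𝓝 z, SmM y (rdM A i (E.H i)) := by
  filter_upwards [(A.e i).open_target.mem_nhds hz] with y hy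
  exact evSmM_rdM (E.sm i) hy

theorem evL : ∀ᶠ y in 𝓝 z, SmM y (rdM A i (v.L i)) := by
  filter_upwards [(A.e i).open_target.mem_nhds hz] with y hy
  exact evSmM_rdM (v.sm i) hy

theorem detH : (rdM A i (E.H i) z).det ≠ 0 := E.H_det_ne ((A.e i).map_target hz)

theorem posH : ∀ᶠ y in 𝓝 z, (rdM A i (E.H i) y).PosDef := by
  filter_upwards [(A.e i).open_target.mem_nhds hz] with y hy
  exact E.pos i _ ((A.e i).map_target hy)

theorem saH : ∀ᶠ y in 𝓝 z, (rdM A i (E.H i) y * rdM A i (v.L i) y).IsHermitian := by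
  filter_upwards [(A.e i).open_target.mem_nhds hz] with y hy
  exact v.sa i _ ((A.e i).map_target hy)

end chart

theorem mm_sm {G L : Cn 2 → Matrix (Fin 2) (Fin 2) ℂ} {z : Cn 2} (hG : SmM z G)
    (h0 : (G z).det ≠ 0) (hL : SmM z L) : SmM z (mm G L) := by
  intro c d
  have hA := At_sm hG h0 c
  have hD : SmM z (Dv (At G) L c) :=
    SmMadd (hL.dM (-I) c) (SmMsub (SmM.mul hA hL) (SmM.mul hL hA))
  exact Sm.trace (SmM.mul hD (hL.dM I d))

theorem mD_sm (v : LF E) (U : Set M) : SmS A U (mD v) := by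
  intro i a b x hx _
  have hz := (A.e i).map_source hx
  refine (mm_sm (evH (E := E) hz).self_of_nhds (detH hz) (evL v hz).self_of_nhds a
    b).congr_of_eventuallyEq ?_
  filter_upwards [(A.e i).open_target.mem_nhds hz] with y hy
  unfold mD
  rw [(A.e i).right_inv hy]

theorem mD_psd (v : LF E) {i : A.ι} {x : M} (hx : x ∈ (A.e i).source) :
    (mD v i x).PosSemidef := by
  have hz := (A.e i).map_source hx
  exact mm_psd (evH hz).self_of_nhds (evL v hz).self_of_nhds (posH hz) (saH v hz)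

/-- the variation of `bD` -/
theorem bD_deriv (v : LF E) {i : A.ι} {x : M} (hx : x ∈ (A.e i).source) (r : ℝ) (c d : Fin 2) :
    HasDerivAt (fun r => bD (gL v r) i x c d)
      (mD (gL v r) i x c d - hsf A (wL v) i x c d / 2) r := by
  have hz := (A.e i).map_source hx
  have h := bf_deriv (evH (E := E) hz) (evL v hz) (detH hz) r c d
  rw [hess_wL v hx c d] at h
  exact h

theorem mD_tn (v : LF E) (r : ℝ) (U : Set M) : TnO A U (mD (gL v r)) := by
  intro i j x hx hxU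
  have h1 : ∀ c d, HasDerivAt (fun r => bD (gL v r) i x c d) (∑ a, ∑ b,
      (Jm A i j x a c * conj (Jm A i j x b d)) *
        (mD (gL v r) j x a b - hsf A (wL v) j x a b / 2)) r := by
    intro c d
    have e : (fun r => bD (gL v r) i x c d) = fun r => ∑ a, ∑ b,
        (Jm A i j x a c * conj (Jm A i j x b d)) * bD (gL v r) j x a b := by
      funext r
      rw [bD_tn (gL v r) U i j x hx hxU]
      simp only [Matrix.mul_apply, Matrix.transpose_apply, Matrix.map_apply, Finset.sum_mul]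
      rw [Finset.sum_comm]
      refine Finset.sum_congr rfl fun i _ => Finset.sum_congr rfl fun j _ => ?_
      ring
    rw [e]
    exact HasDerivAt.fun_sum fun a _ => HasDerivAt.fun_sum fun b _ =>
      (bD_deriv v hx.2 r a b).const_mul _
  have h2 := hsf_tr (wL_sm v) hx
  ext c d
  have h3 := (bD_deriv v hx.1 r c d).unique (h1 c d)
  have h4 : ∀ S : Matrix (Fin 2) (Fin 2) ℂ, ((Jm A i j x)ᵀ * S * (Jm A i j x).map conj) c d
      = ∑ a, ∑ b, (Jm A i j x a c * conj (Jm A i j x b d)) * S a b := by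
    intro S
    simp only [Matrix.mul_apply, Matrix.transpose_apply, Matrix.map_apply, Finset.sum_mul]
    rw [Finset.sum_comm]
    refine Finset.sum_congr rfl fun i _ => Finset.sum_congr rfl fun j _ => ?_
    ring
  have h5 := congrFun (congrFun h2 c) d
  rw [h4] at h5
  rw [h4]
  rw [h5] at h3
  have h6 : ∑ a, ∑ b, (Jm A i j x a c * conj (Jm A i j x b d)) *
        (mD (gL v r) j x a b - hsf A (wL v) j x a b / 2)
      = (∑ a, ∑ b, (Jm A i j x a c * conj (Jm A i j x b d)) * mD (gL v r) j x a b)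
        - (∑ a, ∑ b, (Jm A i j x a c * conj (Jm A i j x b d)) * hsf A (wL v) j x a b) / 2 := by
    simp only [Fin.sum_univ_two]
    ring
  rw [h6] at h3
  linear_combination h3

end

end Crest.Agent.R257.BCU8_532
end

-- ▼ part R257/BCU9_532
section

/-!
# R257 (S0395), part (GB), leaf GB-UPP (helper532): **the signed Bott-Chern inequality**

`upper` : for `χ` with compact support and `∂∂̄χ ≥ 0` where `v ≠ 0`,
`∫ χ tr F_1² - ∫ χ tr F_0² ≤ - ∫ ∂∂̄χ ∧ tr (v F_0)`,
`F_0`, `F_1` the curvatures of `H`, `H e^v`.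
-/

set_option autoImplicit false
set_option linter.unusedSectionVars false

open Set Filter Topology Complex MeasureTheory
open scoped ContDiff Matrix ComplexConjugate ComplexOrder

namespace Crest.Agent.R257.BCU9_532

open Crest.Agent.R275.Geo Crest.Agent.R275.TorS666
open Crest.Agent.R275.Tor812 hiding pd
open Crest.Agent.R275.C1d194 Crest.Agent.R275.Pai323 Crest.Agent.R275.OmT75
open Crest.Agent.R275.SerG398 (lint dens)
open Crest.Agent.R275.EDR890
open Crest.Agent.R273.StokesV_332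
open Crest.Agent.R273.Fock_243
open Crest.Agent.R273.Calc_243 hiding dj
open Crest.Agent.R273.Bkn_243 Crest.Agent.R273.Pos_243 Crest.Agent.R273.BochA_101
open Crest.Agent.R273.BochB_101 Crest.Agent.R273.BochC_101 Crest.Agent.R273.BochD_101
open Crest.Agent.R275.Core144 Crest.Agent.R273.Defs_333 Crest.Agent.R273.HM_333
open Crest.Agent.R273.Hess_333 Crest.Agent.R273.HessB_333 Crest.Agent.R273.Kah_333
open Crest.Agent.R273.GreenM_5
open Crest.Agent.R257.C2F1_625 Crest.Agent.R257.C2F2_625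
open Crest.Agent.R257.C2F5_335 Crest.Agent.R257.GBL1_625 Crest.Agent.R257.GBL2_625
open Crest.Agent.R257.C2F6_335 hiding ddD
open Crest.Agent.R257.GBLcut_844
open Crest.Agent.R257.BCU1_532 Crest.Agent.R257.BCU2_532 Crest.Agent.R257.BCU3_532
open Crest.Agent.R257.BCU4_532 Crest.Agent.R257.BCU5_532 Crest.Agent.R257.BCU6_532
open Crest.Agent.R257.BCU7_532 Crest.Agent.R257.BCU8_532

noncomputable section

/-! ### joint smoothness -/

section joint

variable {H L : Cn 2 → Matrix (Fin 2) (Fin 2) ℂ} {z : Cn 2}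

theorem ddm_smJ {r : ℝ} {b : ℝ → Cn 2 → Matrix (Fin 2) (Fin 2) ℂ} (hb : SmMJ r z b) :
    SmJ r z (fun r => ddm (b r)) :=
  ((((hb 1 1).dw I 0).dw (-I) 0).add (((hb 0 0).dw I 1).dw (-I) 1)).sub
    (((hb 1 0).dw I 1).dw (-I) 0) |>.sub (((hb 0 1).dw I 0).dw (-I) 1)

theorem Th_smJ (hH : SmM z H) (hL : SmM z L) (h0 : (H z).det ≠ 0) (r : ℝ) (c d : Fin 2) :
    SmMJ r z (fun r => Th (geo H L r) c d) := by
  have hg := geo_smJ hH hL r
  have hi := geo_invJ hH hL h0 r
  have h1 : SmMJ r z (fun r y => rm (geo H L r) y c d) :=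
    (((hg.dw I d).dw (-I) c).neg).add (((hg.dw I d).mul hi).mul (hg.dw (-I) c))
  exact hi.mul h1

theorem bf_smJ (hH : SmM z H) (hL : SmM z L) (h0 : (H z).det ≠ 0) (r : ℝ) :
    SmMJ r z (fun r => bf (geo H L r) L) := fun c d =>
  ((SmMJ.ofSm hL).mul (Th_smJ hH hL h0 r c d)).trace

theorem mm_smJ (hH : SmM z H) (hL : SmM z L) (h0 : (H z).det ≠ 0) (r : ℝ) :
    SmMJ r z (fun r => mm (geo H L r) L) := by
  intro c d
  have hA := At_smJ hH hL h0 r c
  have hLJ : SmMJ r z (fun _ => L) := SmMJ.ofSm hL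
  have hD : SmMJ r z (fun r => Dv (At (geo H L r)) L c) :=
    (SmMJ.ofSm (hL.dM (-I) c)).add ((hA.mul hLJ).sub (hLJ.mul hA))
  exact (hD.mul (SmMJ.ofSm (hL.dM I d))).trace

end joint

variable {M : Type} [TopologicalSpace M] {A : Atl 2 M}

theorem fam_ok {i : A.ι} {f : ℝ → M → ℂ} {F : ℝ → Cn 2 → ℂ}
    (hF : ∀ r, ∀ z ∈ (A.e i).target, SmJ r z F)
    (he : ∀ r, ∀ z ∈ (A.e i).target, f r ((A.e i).symm z) = F r z) :
    (∀ r, A.SmAt i (f r)) ∧ ∀ r, ∀ z ∈ (A.e i).target,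
      ContinuousAt (fun q : ℝ × Cn 2 => f q.1 ((A.e i).symm q.2)) (r, z) := by
  constructor
  · intro r z hz
    refine (((hF r z hz).slice).congr_of_eventuallyEq ?_).contDiffWithinAt
    filter_upwards [(A.e i).open_target.mem_nhds hz] with y hy
    exact he r y hy
  · intro r z hz
    refine (hF r z hz).cont.congr ?_
    have h1 : ∀ᶠ q : ℝ × Cn 2 in 𝓝 (r, z), q.2 ∈ (A.e i).target :=
      continuousAt_snd.eventually ((A.e i).open_target.mem_nhds hz)
    filter_upwards [h1] with q hq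
    exact (he q.1 q.2 hq).symm

variable {E : HB A (Fin 2)}

theorem bD_rd (v : LF E) (r : ℝ) {i : A.ι} {z : Cn 2} (hz : z ∈ (A.e i).target) :
    bD (gL v r) i ((A.e i).symm z) = bf (geo (rdM A i (E.H i)) (rdM A i (v.L i)) r)
      (rdM A i (v.L i)) z := by
  unfold bD
  rw [(A.e i).right_inv hz]
  rfl

theorem mD_rd (v : LF E) (r : ℝ) {i : A.ι} {z : Cn 2} (hz : z ∈ (A.e i).target) :
    mD (gL v r) i ((A.e i).symm z) = mm (geo (rdM A i (E.H i)) (rdM A i (v.L i)) r)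
      (rdM A i (v.L i)) z := by
  unfold mD
  rw [(A.e i).right_inv hz]
  rfl

theorem ddD_rd (v : LF E) (r : ℝ) {i : A.ι} {z : Cn 2} (hz : z ∈ (A.e i).target) :
    GBL1_625.ddD A (bD (gL v r)) i ((A.e i).symm z) =
      ddm (bf (geo (rdM A i (E.H i)) (rdM A i (v.L i)) r) (rdM A i (v.L i))) z := by
  unfold GBL1_625.ddD
  rw [(A.e i).right_inv hz]
  refine ddm_congr ?_
  filter_upwards [(A.e i).open_target.mem_nhds hz] with y hy
  exact bD_rd v r hy

/-- `∂∂̄ ∂∂̄ w = 0` -/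
theorem ddD_hsf {w : M → ℝ} (hw : A.Sm w) {i : A.ι} {x : M} (hx : x ∈ (A.e i).source) :
    GBL1_625.ddD A (hsf A w) i x = 0 := by
  have hz := (A.e i).map_source hx
  have h1 : ∀ᶠ y in 𝓝 (A.e i x), ContDiffAt ℝ ∞ (fun y => w ((A.e i).symm y)) y := by
    filter_upwards [(A.e i).open_target.mem_nhds hz] with y hy
    exact sm_contDiffAt hw i hy
  have h2 : GBL1_625.rdS A (hsf A w) i =ᶠ[𝓝 (A.e i x)] fun y =>
      (((fun _ => (1 : ℝ)) y : ℝ) : ℂ) • hess (fun y => w ((A.e i).symm y)) y := by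
    filter_upwards [(A.e i).open_target.mem_nhds hz] with y hy
    rw [Complex.ofReal_one, one_smul]
    exact hsf_read w i hy
  show ddm (GBL1_625.rdS A (hsf A w) i) (A.e i x) = 0
  have h3 : ∀ᶠ y in 𝓝 (A.e i x), Cl (hess (fun y => w ((A.e i).symm y))) y :=
    h1.eventually_nhds.mono fun y hy => hess_cl hy
  rw [ddm_congr h2, ddm_smul_cl (u := fun _ => (1 : ℝ)) contDiffAt_const
    (fun a b => sm_hess h1.self_of_nhds a b) h3]
  have h4 : hess (fun _ : Cn 2 => (1 : ℝ)) (A.e i x) = 0 := by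
    ext a b
    rw [hess_eq]
    have h5 : dS I b (cu fun _ : Cn 2 => (1 : ℝ)) = fun _ => (0 : ℂ) := funext fun _ => dS_const
    rw [h5, dS_const]
    rfl
  rw [h4]
  simp [pd]

theorem hsf_sm {w : M → ℝ} (hw : A.Sm w) (U : Set M) : SmS A U (hsf A w) := by
  intro i a b x hx _
  have hz := (A.e i).map_source hx
  refine (sm_hess (sm_contDiffAt hw i hz) a b).congr_of_eventuallyEq ?_
  filter_upwards [(A.e i).open_target.mem_nhds hz] with y hy
  rw [hsf_read w i hy]

theorem hsf_tnO {w : M → ℝ} (hw : A.Sm w) (U : Set M) : TnO A U (hsf A w) :=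
  fun _ _ _ hx _ => hsf_tr hw hx

section main

variable [T2Space M] (P : Part A) (v : LF E) {χ : M → ℝ} (hχ : A.Sm χ) {K : Set M}
  (hK : IsCompact K) (h0 : ∀ x, x ∉ K → χ x = 0)

/-- `Φ(r) = ∫ χ tr F_r²` -/
def Ph (P : Part A) (v : LF E) (χ : M → ℝ) (r : ℝ) : ℂ :=
  intD P (fun i x => (χ x : ℂ) * q2D (gE v r) i x)

/-- `ψ(r) = ∫ ∂∂̄χ ∧ tr (v F_r)` -/
def Ps (P : Part A) (v : LF E) (χ : M → ℝ) (r : ℝ) : ℂ :=
  intD P (fun i x => pd (hsf A χ i x) (bD (gL v r) i x))

include hχ hK h0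

theorem stokes_b (r : ℝ) : intD P (fun i x => (χ x : ℂ) * GBL1_625.ddD A (bD (gL v r)) i x)
    = Ps P v χ r :=
  tensor_stokes P isOpen_univ hχ hK (subset_univ K) h0 (bD_sm (gL v r) univ) (bD_tn (gL v r) univ)

theorem Ph_deriv (r : ℝ) : HasDerivAt (Ph P v χ) (- Ps P v χ r) r := by
  have off : ∀ f : A.ι → M → ℂ, OffK A (fun i x => (χ x : ℂ) * f i x) K := fun f i x _ hx => by
    show (χ x : ℂ) * _ = 0
    rw [h0 x hx]; simp
  have key := intD_deriv P hK (f := fun r i x => (χ x : ℂ) * q2D (gE v r) i x)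
    (f' := fun r i x => (χ x : ℂ) * (- GBL1_625.ddD A (bD (gL v r)) i x))
    (fun r i => (smAt_ofReal (hχ i)).mul (q2_sm (gE v r) i)) ?_ ?_ ?_ (fun r => off _)
    (fun r => off _) r
  · have e : intD P (fun i x => (χ x : ℂ) * (- GBL1_625.ddD A (bD (gL v r)) i x))
        = - Ps P v χ r := by
      rw [← stokes_b P v hχ hK h0 r, ← intD_neg P hK (off _)]
      exact intD_congr P fun i x _ => by ring
    rw [e] at key
    exact key
  all_goals
    have hfam : ∀ i, (∀ r, A.SmAt i (fun x => (χ x : ℂ) *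
        (- GBL1_625.ddD A (bD (gL v r)) i x))) ∧ ∀ r, ∀ z ∈ (A.e i).target,
        ContinuousAt (fun q : ℝ × Cn 2 => (χ ((A.e i).symm q.2) : ℂ) *
          (- GBL1_625.ddD A (bD (gL v q.1)) i ((A.e i).symm q.2))) (r, z) := by
      intro i
      refine fam_ok (f := fun r x => (χ x : ℂ) * (- GBL1_625.ddD A (bD (gL v r)) i x))
        (F := fun r z => (χ ((A.e i).symm z) : ℂ) *
          (- ddm (bf (geo (rdM A i (E.H i)) (rdM A i (v.L i)) r) (rdM A i (v.L i))) z))
        (fun r z hz => ?_) (fun r z hz => ?_)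
      · have s1 : Sm z (fun z => (χ ((A.e i).symm z) : ℂ)) :=
          smJ_at (smAt_ofReal (hχ i)) hz
        exact (SmJ.ofSm s1).mul (ddm_smJ (bf_smJ (evH (E := E) hz).self_of_nhds
          (evL v hz).self_of_nhds (detH hz) r)).neg
      · rw [ddD_rd v r hz]
  · exact fun r i => (hfam i).1 r
  · exact fun i r z hz => (hfam i).2 r z hz
  · intro i x hx r
    have hz := (A.e i).map_source hx
    have h1 := q2_deriv (evH (E := E) hz) (evL v hz) (detH hz) r
    have h2 := ddD_rd v r hz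
    rw [(A.e i).left_inv hx] at h2
    rw [← h2] at h1
    exact h1.const_mul _

theorem Ps_deriv (r : ℝ) : HasDerivAt (Ps P v χ)
    (intD P (fun i x => pd (hsf A χ i x) (mD (gL v r) i x))) r := by
  have hw := wL_sm v
  set N : ℝ → A.ι → M → Matrix (Fin 2) (Fin 2) ℂ := fun r i x =>
    mD (gL v r) i x - (1 / 2 : ℂ) • hsf A (wL v) i x with hN
  have off : ∀ T : A.ι → M → Matrix (Fin 2) (Fin 2) ℂ,
      OffK A (fun i x => pd (hsf A χ i x) (T i x)) K := fun T =>
    GBL4_625.off_hsf hK.isClosed h0 T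
  have d1 : Den A (fun i x => pd (hsf A χ i x) (hsf A (wL v) i x)) :=
    GBL4_625.den_hsf hχ hK.isClosed (subset_univ K) h0 (hsf_sm hw univ) (hsf_tnO hw univ)
  have d2 : Den A (fun i x => pd (hsf A χ i x) (mD (gL v r) i x)) :=
    GBL4_625.den_hsf hχ hK.isClosed (subset_univ K) h0 (mD_sm (gL v r) univ) (mD_tn v r univ)
  have key := intD_deriv P hK (f := fun r i x => pd (hsf A χ i x) (bD (gL v r) i x))
    (f' := fun r i x => pd (hsf A χ i x) (N r i x))
    (fun r i => (GBL4_625.den_hsf hχ hK.isClosed (subset_univ K) h0 (bD_sm (gL v r) univ)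
      (bD_tn (gL v r) univ)).sm i) ?_ ?_ ?_ (fun r => off _) (fun r => off _) r
  · have z0 : intD P (fun i x => pd (hsf A χ i x) (hsf A (wL v) i x)) = 0 := by
      rw [← tensor_stokes P isOpen_univ hχ hK (subset_univ K) h0 (hsf_sm hw univ)
        (hsf_tnO hw univ), ← intD_zero P]
      exact intD_congr P fun i x hx => by rw [ddD_hsf hw hx, mul_zero]
    have e : intD P (fun i x => pd (hsf A χ i x) (N r i x))
        = intD P (fun i x => pd (hsf A χ i x) (mD (gL v r) i x)) := by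
      have e1 : intD P (fun i x => pd (hsf A χ i x) (N r i x))
          = intD P (fun i x => pd (hsf A χ i x) (mD (gL v r) i x)
            + (-(1 / 2) : ℂ) * pd (hsf A χ i x) (hsf A (wL v) i x)) :=
        intD_congr P fun i x _ => by
          simp only [hN]
          rw [pd_sub, pd_smul]
          ring
      rw [e1, intD_add P (fun i => d2.sm i) (fun i => (d1.smul _).sm i) hK (off _)
        ((off _).mul_left fun _ _ => _), intD_smul P _ hK (off _), z0, mul_zero, add_zero]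
    rw [e] at key
    exact key
  all_goals
    have hfam : ∀ i, (∀ r, A.SmAt i (fun x => pd (hsf A χ i x) (N r i x))) ∧
        ∀ r, ∀ z ∈ (A.e i).target, ContinuousAt (fun q : ℝ × Cn 2 =>
          pd (hsf A χ i ((A.e i).symm q.2)) (N q.1 i ((A.e i).symm q.2))) (r, z) := by
      intro i
      refine fam_ok (f := fun r x => pd (hsf A χ i x) (N r i x))
        (F := fun r z => pd (hess (fun y => χ ((A.e i).symm y)) z)
          (mm (geo (rdM A i (E.H i)) (rdM A i (v.L i)) r) (rdM A i (v.L i)) z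
            - (1 / 2 : ℂ) • hess (fun y => wL v ((A.e i).symm y)) z))
        (fun r z hz => ?_) (fun r z hz => ?_)
      · have s1 : SmMJ r z (fun _ => hess (fun y => χ ((A.e i).symm y))) :=
          SmMJ.ofSm fun a b => sm_hess (sm_contDiffAt hχ i hz) a b
        have s2 : SmMJ r z (fun _ => hess (fun y => wL v ((A.e i).symm y))) :=
          SmMJ.ofSm fun a b => sm_hess (sm_contDiffAt hw i hz) a b
        have s3 : SmMJ r z (fun r z =>
            mm (geo (rdM A i (E.H i)) (rdM A i (v.L i)) r) (rdM A i (v.L i)) z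
            - (1 / 2 : ℂ) • hess (fun y => wL v ((A.e i).symm y)) z) :=
          (mm_smJ (evH (E := E) hz).self_of_nhds (evL v hz).self_of_nhds (detH hz) r).sub
            (SmMJ.smul (SmJ.const (1 / 2 : ℂ)) s2)
        exact ((((s1 0 0).mul (s3 1 1)).add ((s1 1 1).mul (s3 0 0))).sub
          ((s1 0 1).mul (s3 1 0))).sub ((s1 1 0).mul (s3 0 1))
      · simp only [hN]
        rw [mD_rd v r hz, hsf_read χ i hz, hsf_read (wL v) i hz]
  · exact fun r i => (hfam i).1 r
  · exact fun i r z hz => (hfam i).2 r z hz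
  · intro i x hx r
    have h1 : ∀ c d, HasDerivAt (fun r => bD (gL v r) i x c d) (N r i x c d) r := by
      intro c d
      have h2 := bD_deriv v hx r c d
      have h3 : N r i x c d = mD (gL v r) i x c d - hsf A (wL v) i x c d / 2 := by
        simp only [hN, Matrix.sub_apply, Matrix.smul_apply, smul_eq_mul]
        ring
      rw [h3]
      exact h2
    exact ((((h1 1 1).const_mul _).add ((h1 0 0).const_mul _)).sub ((h1 1 0).const_mul _)).sub
      ((h1 0 1).const_mul _)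

/-- **signed Bott-Chern inequality** -/
theorem upper {W : Set M} (hW : IsClosed W)
    (hL : ∀ i, ∀ x ∈ (A.e i).source, x ∉ W → v.L i x = 0)
    (hp : ∀ i, ∀ x ∈ (A.e i).source, x ∈ W → (hsf A χ i x).PosSemidef) :
    (intD P (fun i x => (χ x : ℂ) * q2D (gE v 1) i x)).re
      - (intD P (fun i x => (χ x : ℂ) * q2D E i x)).re
      ≤ - (intD P (fun i x => pd (hsf A χ i x) (bD v i x))).re := by
  have hre : ∀ {f : ℝ → ℂ} {f' : ℂ} {r : ℝ}, HasDerivAt f f' r →
      HasDerivAt (fun r => (f r).re) f'.re r := fun h =>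
    (Complex.reCLM.hasFDerivAt.comp_hasDerivAt _ h :)
  have hPh : ∀ r, HasDerivAt (fun r => (Ph P v χ r).re) (- (Ps P v χ r).re) r := fun r => by
    have := hre (Ph_deriv P v hχ hK h0 r)
    rwa [Complex.neg_re] at this
  -- positivity
  have hnn : ∀ r, 0 ≤ (intD P (fun i x => pd (hsf A χ i x) (mD (gL v r) i x))).re := by
    intro r
    have d2 : Den A (fun i x => pd (hsf A χ i x) (mD (gL v r) i x)) :=
      GBL4_625.den_hsf hχ hK.isClosed (subset_univ K) h0 (mD_sm (gL v r) univ) (mD_tn v r univ)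
    refine (intD_nonneg P d2 (fun i x hx => ?_) hK (GBL4_625.off_hsf hK.isClosed h0 _)).1
    by_cases hxW : x ∈ W
    · have p1 := hp i x hx hxW
      have p2 := mD_psd (gL v r) hx
      exact ⟨pd_nonneg p1 p2, pd_herm_im p1.1 p2.1⟩
    · have hz := (A.e i).map_source hx
      have h1 : rdM A i (v.L i) =ᶠ[𝓝 (A.e i x)] fun _ => 0 := by
        have h2 : ∀ᶠ y in 𝓝 (A.e i x), (A.e i).symm y ∉ W := by
          have hc : ContinuousAt (A.e i).symm (A.e i x) :=
            (A.e i).symm.continuousAt (by simpa using hz)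
          have h3 : Wᶜ ∈ 𝓝 ((A.e i).symm (A.e i x)) := by
            rw [(A.e i).left_inv hx]
            exact hW.isOpen_compl.mem_nhds hxW
          exact hc h3
        filter_upwards [h2, (A.e i).open_target.mem_nhds hz] with y hy hy'
        exact hL i _ ((A.e i).map_target hy') hy
      have h3 : mD (gL v r) i x = 0 := by
        ext c d
        show (Dv (At (rdM A i ((gE v r).H i))) (rdM A i (v.L i)) c (A.e i x) *
          dM I d (rdM A i (v.L i)) (A.e i x)).trace = 0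
        rw [dM_congr h1, dM_const, Matrix.mul_zero, Matrix.trace_zero]
      rw [h3]
      simp [pd]
  have hmono : Monotone (fun r => (Ps P v χ r).re) :=
    monotone_of_deriv_nonneg (fun r => (hre (Ps_deriv P v hχ hK h0 r)).differentiableAt)
      fun r => by
        rw [(hre (Ps_deriv P v hχ hK h0 r)).deriv]
        exact hnn r
  obtain ⟨c, hc, hc'⟩ := exists_hasDerivAt_eq_slope (fun r => (Ph P v χ r).re)
    (fun r => - (Ps P v χ r).re) (zero_lt_one (α := ℝ))
    (fun r _ => (hPh r).continuousAt.continuousWithinAt) fun r _ => hPh r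
  have h1 : (Ps P v χ 0).re ≤ (Ps P v χ c).re := hmono hc.1.le
  have e0 : Ph P v χ 0 = intD P (fun i x => (χ x : ℂ) * q2D E i x) := by
    unfold Ph
    refine intD_congr P fun i x _ => ?_
    have : (gE v 0).H = E.H := funext fun i => funext fun x => gE_zero v i x
    unfold q2D
    rw [this]
  have e1 : Ps P v χ 0 = intD P (fun i x => pd (hsf A χ i x) (bD v i x)) := by
    unfold Ps
    refine intD_congr P fun i x _ => ?_
    have : (gE v 0).H = E.H := funext fun i => funext fun x => gE_zero v i x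
    unfold bD
    rw [this]
    rfl
  rw [sub_zero, div_one] at hc'
  rw [← e0, ← e1]
  have hc2 : (Ph P v χ 1).re - (Ph P v χ 0).re = - (Ps P v χ c).re := hc'.symm
  show (Ph P v χ 1).re - _ ≤ _
  linarith

end main

end

end Crest.Agent.R257.BCU9_532
end

-- ▼ part R257/BCUP_532

/-!
# R257 (S0395), part (GB), leaf GB-UPP (helper532): the two leaves of `UpperStmt` (KUP_952)

* `PtwStmt` : pointwise bound of `∂∂̄a ∧ tr (L F)`, `F` the curvature of the Kaehler-Einstein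
  metric `HK u` on `Ω¹`, `|L| ≤ V`
* `LgStmt`  : logarithm of `G⁻¹ K`, `G`, `K` positive definite
-/

set_option autoImplicit false

open Topology Filter MeasureTheory Set
open scoped ContDiff Matrix ComplexOrder

noncomputable section

namespace Crest.Agent.R257.BCUP_532

open Crest.Agent.R275.Geo
open Crest.Agent.R257.Defs_219
open Crest.Agent.R257.KED_952 Crest.Agent.R257.KEG_952 Crest.Agent.R257.KEU_952
open Crest.Agent.R257.V1Defs_822 (SmL LvlOK)
open Crest.Agent.R273.Fock_243 Crest.Agent.R273.Calc_243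
open Crest.Agent.R273.BochA_101
open Crest.Agent.R273.YauDefs_635 (cH)
open Crest.Agent.R257.Aff_835 (eta2a)
open Crest.Agent.R257.C2F1_625 (pd)
open Crest.Agent.R257.KUP_952 (HK)
open Crest.Agent.R257.BCU4_532 (bf)

/-- pointwise bound -/
def PtwStmt : Prop := ∃ C₀ : ℝ, 0 ≤ C₀ ∧ ∀ (f : E3 → ℂ) (r : ℝ) (u : E3 → ℝ), LvlOK f 0 r →
  KEon f 0 r u → ∀ θ O, PE f 0 r θ O → ∀ z ∈ O, ∀ (L : Cn 2 → Matrix (Fin 2) (Fin 2) ℂ)
  (X : Matrix (Fin 2) (Fin 2) ℂ) (q V : ℝ), 0 ≤ q → 0 ≤ V → X.PosSemidef →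
  ((q : ℂ) • cH (fun y => u (θ y)) z - X).PosSemidef →
  ((V : ℂ) • HK u θ z - HK u θ z * L z).PosSemidef →
  ((V : ℂ) • HK u θ z + HK u θ z * L z).PosSemidef →
  ‖pd X (bf (HK u θ) L z)‖ ≤
    C₀ * (q * V * Real.sqrt (c2d f u (θ z) * Real.exp (u (θ z)))) * eta2a (n := 2) f θ z

/-- logarithm of `G⁻¹ K` -/
structure Lgm (lg : Matrix (Fin 2) (Fin 2) ℂ → Matrix (Fin 2) (Fin 2) ℂ) : Prop where
  sa : ∀ G K : Matrix (Fin 2) (Fin 2) ℂ, G.PosDef → K.PosDef → (G * lg (G⁻¹ * K)).IsHermitian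
  exp : ∀ G K : Matrix (Fin 2) (Fin 2) ℂ, G.PosDef → K.PosDef →
    NormedSpace.exp (lg (G⁻¹ * K)) = G⁻¹ * K
  conj : ∀ F X Y : Matrix (Fin 2) (Fin 2) ℂ, F.det ≠ 0 → F * X = Y * F → F * lg X = lg Y * F
  one : lg 1 = 0
  sm : ∀ (G K : Cn 2 → Matrix (Fin 2) (Fin 2) ℂ) (z : Cn 2), SmM z G → SmM z K →
    (∀ᶠ y in 𝓝 z, (G y).PosDef) → (∀ᶠ y in 𝓝 z, (K y).PosDef) →
    SmM z (fun y => lg ((G y)⁻¹ * K y))
  bd : ∀ (G K : Matrix (Fin 2) (Fin 2) ℂ) (V : ℝ), G.PosDef → K.PosDef →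
    (((Real.exp V : ℝ) : ℂ) • G - K).PosSemidef → (((Real.exp V : ℝ) : ℂ) • K - G).PosSemidef →
    ((V : ℂ) • G - G * lg (G⁻¹ * K)).PosSemidef ∧ ((V : ℂ) • G + G * lg (G⁻¹ * K)).PosSemidef

/-- the matrix logarithm -/
def LgStmt : Prop := ∃ lg, Lgm lg

end Crest.Agent.R257.BCUP_532
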