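import Crest.Agent.R257.BPDefs_258
import Crest.Agent.R257.T3_387
import Crest.Agent.R257.TCov_554

/-!
Row 257 (S0395), part C (helper554): Taylor expansions of the branches of `TB f`; levels, truncations and
special points in terms of the Taylor coefficients `co T i n`.
-/

set_option autoImplicit false
set_option linter.unusedSectionVars false

open Polynomial Set Filter Topology Metric
open Crest.AlgGeometry.Germ Crest.Agent.R257.AJ387 Crest.Agent.R257.T387
open Crest.Agent.R257.BP_258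

noncomputable section

namespace Crest.Agent.R257.BP0_554

variable {f : (Fin 3 → ℂ) → ℂ} (T : TB f)

/-- iterated slopes at `0` -/
def gs (φ : ℂ → ℂ) : ℕ → ℂ → ℂ
  | 0 => φ
  | n + 1 => dslope (gs φ n) 0

lemma gs_eq_iterate (φ : ℂ → ℂ) (n : ℕ) : gs φ n = (Function.swap dslope 0)^[n] φ := by
  induction n with
  | zero => rfl
  | succ n ih =>
    rw [Function.iterate_succ', Function.comp, ← ih]
    rfl

lemma gs_succ (φ : ℂ → ℂ) (n : ℕ) (s : ℂ) : gs φ n s = gs φ n 0 + s * gs φ (n + 1) s := by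
  have h := sub_smul_dslope (gs φ n) 0 s
  rw [sub_zero, smul_eq_mul] at h
  change s * gs φ (n + 1) s = _ at h
  rw [h]; ring

lemma gs_sum (φ : ℂ → ℂ) (k : ℕ) (s : ℂ) :
    φ s = (∑ n ∈ Finset.range k, gs φ n 0 * s ^ n) + s ^ k * gs φ k s := by
  induction k with
  | zero => simp [gs]
  | succ k ih =>
    rw [Finset.sum_range_succ, pow_succ]
    conv_lhs => rw [ih, gs_succ φ k s]
    ring

lemma gs_an {φ : ℂ → ℂ} {ρ : ℝ} (hρ : 0 < ρ) (hφ : AnalyticOnNhd ℂ φ (ball 0 ρ)) (n : ℕ) :
    AnalyticOnNhd ℂ (gs φ n) (ball 0 ρ) := by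
  have h : DifferentiableOn ℂ (gs φ n) (ball 0 ρ) := by
    induction n with
    | zero => exact hφ.differentiableOn
    | succ n ih => exact (Complex.differentiableOn_dslope (ball_mem_nhds _ hρ)).2 ih
  exact h.analyticOnNhd isOpen_ball

lemma gs_zero {φ : ℂ → ℂ} (hφ : AnalyticAt ℂ φ 0) (n : ℕ) :
    gs φ n 0 = iteratedDeriv n φ 0 / (n.factorial : ℂ) := by
  have hp := hφ.hasFPowerSeriesAt
  have h := (HasFPowerSeriesAt.has_fpower_series_iterate_dslope_fslope n hp).coeff_zero 1
  rw [gs_eq_iterate, ← h, ← FormalMultilinearSeries.coeff, FormalMultilinearSeries.coeff_iterate_fslope]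
  simp [FormalMultilinearSeries.coeff_ofScalars]

/-- the remainder of order `k` -/
def rem (i : Fin T.m) (k : ℕ) : ℂ → ℂ := gs (T.φ i) k

variable {T}

lemma φ_an0 (i : Fin T.m) : AnalyticAt ℂ (T.φ i) 0 := T.φ_an i 0 (mem_ball_self T.ρ_pos)

lemma rem_an (i : Fin T.m) (k : ℕ) : AnalyticOnNhd ℂ (rem T i k) (ball 0 T.ρ) :=
  gs_an T.ρ_pos (T.φ_an i) k

lemma rem_zero (i : Fin T.m) (k : ℕ) : rem T i k 0 = co T i k := gs_zero (φ_an0 i) k

lemma tr_coeff (i : Fin T.m) (k n : ℕ) : (tr T i k).coeff n = if n < k then co T i n else 0 := by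
  unfold tr
  rw [finsetSum_coeff]
  simp only [coeff_C_mul, coeff_X_pow, mul_ite, mul_one, mul_zero]
  rw [Finset.sum_ite_eq]
  simp

lemma φ_eq (i : Fin T.m) (k : ℕ) (s : ℂ) : T.φ i s = (tr T i k).eval s + s ^ k * rem T i k s := by
  rw [gs_sum (T.φ i) k s]
  congr 1
  unfold tr
  rw [eval_finsetSum]
  refine Finset.sum_congr rfl fun n _ => ?_
  rw [eval_mul, eval_C, eval_pow, eval_X, gs_zero (φ_an0 i)]
  rfl

lemma lim_eq {a b : ℂ → ℂ} {n : ℕ} (ha : ContinuousAt a 0) (hb : ContinuousAt b 0)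
    (h : ∀ᶠ s in 𝓝[≠] (0 : ℂ), s ^ n * a s = s ^ n * b s) : a 0 = b 0 := by
  have h1 : ∀ᶠ s in 𝓝[≠] (0 : ℂ), a s = b s := by
    filter_upwards [h, self_mem_nhdsWithin] with s hs hs0
    exact mul_left_cancel₀ (pow_ne_zero n hs0) hs
  have h2 : Tendsto a (𝓝[≠] (0 : ℂ)) (𝓝 (a 0)) := ha.tendsto.mono_left nhdsWithin_le_nhds
  have h3 : Tendsto b (𝓝[≠] (0 : ℂ)) (𝓝 (b 0)) := hb.tendsto.mono_left nhdsWithin_le_nhds
  exact tendsto_nhds_unique (h2.congr' h1) h3

lemma tr_congr {i j : Fin T.m} {k : ℕ} (h : ∀ n < k, co T i n = co T j n) : tr T i k = tr T j k := by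
  ext n
  rw [tr_coeff, tr_coeff]
  split_ifs with hn
  · exact h n hn
  · rfl

lemma co_of_tr {i j : Fin T.m} {k : ℕ} (h : tr T i k = tr T j k) {n : ℕ} (hn : n < k) :
    co T i n = co T j n := by
  have h1 := congrArg (fun p => p.coeff n) h
  simp only [tr_coeff, if_pos hn] at h1
  exact h1

lemma co_del_aux {i j : Fin T.m} (hij : i ≠ j) {n : ℕ} (hn : n ≤ T.del i j)
    (h : ∀ l < n, co T i l = co T j l) :
    co T i n - co T j n = if n = T.del i j then T.u i j 0 else 0 := by
  have hu : ContinuousAt (T.u i j) 0 := (T.u_an i j hij 0 (mem_ball_self T.ρ_pos)).continuousAt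
  have h1 := lim_eq (a := fun s => rem T i n s - rem T j n s)
    (b := fun s => s ^ (T.del i j - n) * T.u i j s) (n := n)
    (((rem_an i n 0 (mem_ball_self T.ρ_pos)).continuousAt).sub
      (rem_an j n 0 (mem_ball_self T.ρ_pos)).continuousAt)
    ((continuous_pow _).continuousAt.mul hu) (by
      have h2 : ∀ᶠ s in 𝓝[≠] (0 : ℂ), s ∈ ball (0 : ℂ) T.ρ :=
        nhdsWithin_le_nhds (ball_mem_nhds _ T.ρ_pos)
      filter_upwards [h2] with s hs
      have h3 := T.φ_sub i j hij s hs
      rw [φ_eq i n s, φ_eq j n s, tr_congr h] at h3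
      rw [← mul_assoc, ← pow_add, Nat.add_sub_cancel' hn, ← h3]
      ring)
  simp only [rem_zero] at h1
  rw [h1]
  split_ifs with h4
  · rw [h4, Nat.sub_self, pow_zero, one_mul]
  · rw [zero_pow (by omega), zero_mul]

lemma co_lt_del {i j : Fin T.m} (hij : i ≠ j) : ∀ n < T.del i j, co T i n = co T j n := by
  intro n
  induction n using Nat.strong_induction_on with
  | _ n ih =>
    intro hn
    have h := co_del_aux hij hn.le (fun l hl => ih l hl (hl.trans hn))
    rw [if_neg hn.ne] at h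
    exact sub_eq_zero.1 h

lemma co_del {i j : Fin T.m} (hij : i ≠ j) :
    co T i (T.del i j) - co T j (T.del i j) = T.u i j 0 := by
  have h := co_del_aux hij le_rfl (co_lt_del hij)
  rwa [if_pos rfl] at h

lemma co_del_ne {i j : Fin T.m} (hij : i ≠ j) : co T i (T.del i j) ≠ co T j (T.del i j) := by
  intro h
  have h1 := co_del hij
  rw [h, sub_self] at h1
  exact T.u_ne i j hij 0 (mem_ball_self T.ρ_pos) h1.symm

lemma del_eq {i j : Fin T.m} (hij : i ≠ j) {l : ℕ} (h1 : ∀ n < l, co T i n = co T j n)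
    (h2 : co T i l ≠ co T j l) : T.del i j = l := by
  rcases lt_trichotomy (T.del i j) l with h | h | h
  · exact absurd (h1 _ h) (co_del_ne hij)
  · exact h
  · exact absurd (co_lt_del hij _ h) h2

lemma le_del {i j : Fin T.m} (hij : i ≠ j) {k : ℕ} (h : tr T i k = tr T j k) : k ≤ T.del i j := by
  by_contra hcon
  exact co_del_ne hij (co_of_tr h (not_le.1 hcon))

lemma tr_of_le_del {i j : Fin T.m} (hij : i ≠ j) {k : ℕ} (h : k ≤ T.del i j) :
    tr T i k = tr T j k := tr_congr fun n hn => co_lt_del hij n (hn.trans_le h)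

lemma mem_lev_iff {i : Fin T.m} {k : ℕ} : k ∈ T.lev i ↔ k = 1 ∨ ∃ j, j ≠ i ∧ T.del i j = k := by
  unfold TB.lev
  rw [Finset.mem_insert, Finset.mem_image]
  simp only [Finset.mem_erase, Finset.mem_univ, and_true]

/-- levels below a common truncation agree -/
lemma lev_lt {i j : Fin T.m} {k : ℕ} (h : tr T i k = tr T j k) {l : ℕ} (hl : l < k)
    (hli : l ∈ T.lev i) : l ∈ T.lev j := by
  rw [mem_lev_iff] at hli ⊢
  rcases hli with rfl | ⟨i', hi', rfl⟩
  · exact Or.inl rfl
  right
  by_cases hij : i = j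
  · subst hij; exact ⟨i', hi', rfl⟩
  have h1 : k ≤ T.del i j := le_del hij h
  have hij' : i' ≠ j := by
    rintro rfl
    omega
  refine ⟨i', hij', del_eq hij'.symm (fun n hn => ?_) ?_⟩
  · rw [← co_of_tr h (hn.trans hl)]
    exact co_lt_del hi'.symm n hn
  · rw [← co_of_tr h hl]
    exact co_del_ne hi'.symm

/-- the coefficients of a polynomial branch -/
lemma co_poly {j : Fin T.m} {p : ℂ[X]} (h : ∀ s ∈ ball (0 : ℂ) T.ρ, T.φ j s = p.eval s) (n : ℕ) :
    co T j n = p.coeff n := by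
  have h1 : T.φ j =ᶠ[𝓝 0] fun s => p.eval s :=
    Filter.eventuallyEq_of_mem (ball_mem_nhds _ T.ρ_pos) h
  have h2 : ∀ (n : ℕ) (q : ℂ[X]), iteratedDeriv n (fun s => q.eval s) 0 = n.factorial * q.coeff n := by
    intro n
    induction n with
    | zero => intro q; simp [iteratedDeriv_zero, coeff_zero_eq_eval_zero]
    | succ n ih =>
      intro q
      rw [iteratedDeriv_succ']
      have h3 : deriv (fun s => q.eval s) = fun s => (derivative q).eval s := by
        funext s; exact q.deriv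
      rw [h3, ih, coeff_derivative, Nat.factorial_succ]
      push_cast
      ring
  unfold co
  rw [h1.iteratedDeriv_eq, h2]
  exact mul_div_cancel_left₀ _ (Nat.cast_ne_zero.2 n.factorial_ne_zero)

/-- a branch which is the truncation of `i` at the level `k` has the level `k` -/
lemma lev_center {i j : Fin T.m} {k : ℕ} (hk : k ∈ T.lev i)
    (h : ∀ s ∈ ball (0 : ℂ) T.ρ, T.φ j s = (tr T i k).eval s) : k ∈ T.lev j := by
  have hco : ∀ n, co T j n = if n < k then co T i n else 0 := fun n => by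
    rw [co_poly h, tr_coeff]
  have hlt : ∀ n < k, co T j n = co T i n := fun n hn => by rw [hco, if_pos hn]
  have hk0 : co T j k = 0 := by rw [hco, if_neg (lt_irrefl _)]
  by_cases hij : j = i
  · rw [hij]; exact hk
  rw [mem_lev_iff] at hk ⊢
  rcases hk with rfl | ⟨i', hi', rfl⟩
  · exact Or.inl rfl
  right
  by_cases hc : co T i (T.del i i') = 0
  · have h1 : co T i' (T.del i i') ≠ 0 := by
      rw [← hc]; exact (co_del_ne hi'.symm).symm
    have h2 : i' ≠ j := by
      rintro rfl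
      exact h1 hk0
    refine ⟨i', h2, del_eq h2.symm (fun n hn => ?_) ?_⟩
    · rw [hlt n hn]; exact co_lt_del hi'.symm n hn
    · rw [hk0]; exact h1.symm
  · refine ⟨i, fun h => hij h.symm, del_eq hij hlt ?_⟩
    rw [hk0]; exact fun h => hc h.symm

/-- special points -/
lemma sp_vx (i : Fin T.m) (k : ℕ) (w : ℂ) : w + co T i k ∈ sp T (vx T i k) ↔ w ∈ T.Sp i k := by
  classical
  unfold sp TB.Sp vx
  simp only [Finset.mem_image, Finset.mem_filter, Finset.mem_univ, true_and, Finset.mem_insert]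
  constructor
  · rintro ⟨l, hl, hw⟩
    by_cases hli : l = i
    · subst hli
      left
      simpa using hw.symm
    have h1 : k ≤ T.del i l := le_del (fun h => hli h.symm) hl.symm
    rcases h1.lt_or_eq with h2 | h2
    · left
      rw [← co_lt_del (fun h => hli h.symm) k h2] at hw
      simpa using hw.symm
    · right
      refine ⟨l, ⟨hli, h2.symm⟩, ?_⟩
      have h3 := co_del (T := T) (i := i) (j := l) (fun h => hli h.symm)
      rw [← h2, hw] at h3
      rw [← h3]; ring
  · rintro (rfl | ⟨l, ⟨hl, hk⟩, hw⟩)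
    · exact ⟨i, rfl, by rw [zero_add]⟩
    · refine ⟨l, (tr_of_le_del hl.symm hk.ge).symm, ?_⟩
      have h3 := co_del (T := T) (i := i) (j := l) hl.symm
      rw [hk] at h3
      rw [← hw, ← h3]; ring

end Crest.Agent.R257.BP0_554
end
private theorem rz_08735dbba8 : type_of% @_root_.Crest.Agent.R257.BP0_554.gs.eq_def := @_root_.Crest.Agent.R257.BP0_554.gs.eq_def -- L24
private theorem rz_da4d896901 : type_of% @_root_.Crest.Agent.R257.BP0_554.gs.eq_1 := @_root_.Crest.Agent.R257.BP0_554.gs.eq_1 -- L24
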