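import Crest.Agent.R257.BP0_554

-- ▼ part R257/BPS_554
section

/-!
Row 257 (S0395), part C (helper554), leaf C-SH of `BPDefs_258`: radii, sheets, canonical centres and
parent levels exist; the radii can be made as small as desired.

* `exists_Sh` : `Clo T → ∃ S : Sh T, ∀ c, S.r c ≤ b c`;
* `shr S b`   : the same data with the radii `min (S.r c) (b c)`.
-/

set_option autoImplicit false
set_option linter.unusedSectionVars false

open Polynomial Set Filter Topology Metric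
open Crest.AlgGeometry.Germ Crest.Agent.R257.AJ387 Crest.Agent.R257.T387
open Crest.Agent.R257.BP_258 Crest.Agent.R257.BP0_554

noncomputable section

namespace Crest.Agent.R257.BPS_554

variable {f : (Fin 3 → ℂ) → ℂ} {T : TB f}



lemma mem_Vs {v : Vtx} : v ∈ Vs T ↔ ∃ i, ∃ k ∈ T.lev i, vx T i k = v := by
  classical
  unfold Vs
  simp only [Finset.mem_biUnion, Finset.mem_univ, true_and, Finset.mem_image]



/-- the conditions on the radii of `Sh` -/
def FarC (c : Ch T.m) (r : ℝ) : Prop :=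
  (∀ i k w₀, c = .vert i k w₀ → ∀ w, ‖w - w₀‖ ≤ 2 * r → w ∉ T.Sp i k) ∧
  (∀ i k k', c = .edge i k k' → ∀ b : ℂ, b ≠ 0 → ‖b‖ ≤ 2 * r →
    b ^ (T.M * (k' - k)) ∉ T.Sp i k ∧ (b ^ (T.M * (k' - k)))⁻¹ ∉ T.Sp i k') ∧
  (∀ i, c = .leg i → ∀ b : ℂ, b ≠ 0 → ‖b‖ ≤ 2 * r → b ^ T.M ∉ T.Sp i (T.top i))

lemma FarC.mono {c : Ch T.m} {r r' : ℝ} (h : FarC c r) (hr : r' ≤ r) : FarC c r' :=
  ⟨fun i k w₀ hc w hw => h.1 i k w₀ hc w (hw.trans (by linarith)),
    fun i k k' hc b hb hb' => h.2.1 i k k' hc b hb (hb'.trans (by linarith)),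
    fun i hc b hb hb' => h.2.2 i hc b hb (hb'.trans (by linarith))⟩





end Crest.Agent.R257.BPS_554
end
end

-- ▼ part R257/BPC_554

/-!
Row 257 (S0395), part C (helper554), leaf C-COVP of `BPDefs_258`: finitely many valid CANONICAL charts
cover a punctured neighbourhood of the origin of the `(s, y')`-plane, for every choice of radii.

* `conv S c` : the canonical chart which contains the chart `c`;  `ok_conv`, `map_conv`;
* `coverP`.
-/

set_option autoImplicit false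
set_option linter.unusedSectionVars false

open Polynomial Set Filter Topology Metric
open Crest.AlgGeometry.Germ Crest.Agent.R257.AJ387 Crest.Agent.R257.T387
open Crest.Agent.R257.BP_258 Crest.Agent.R257.BP0_554 Crest.Agent.R257.BPS_554

noncomputable section

namespace Crest.Agent.R257.BPC_554

variable {f : (Fin 3 → ℂ) → ℂ} {T : TB f} (S : Sh T)

/-- the canonical chart containing `c` -/
def conv : Ch T.m → Ch T.m
  | .edge j k k' => .edge (S.ci (vx T j k')) k k'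
  | .leg i => .leg i
  | .vert j k w => .vert (S.ci (vx T j k)) k (w + co T j k)

lemma vx_mem {j : Fin T.m} {k : ℕ} (hk : k ∈ T.lev j) : vx T j k ∈ Vs T :=
  mem_Vs.2 ⟨j, k, hk, rfl⟩

variable {S} in
lemma ci_eval {j : Fin T.m} {k : ℕ} (hk : k ∈ T.lev j) {s : ℂ} (hs : s ∈ ball (0 : ℂ) T.ρ) :
    T.φ (S.ci (vx T j k)) s = (tr T j k).eval s := S.ci_eq _ (vx_mem hk) s hs

variable {S} in
lemma ci_co {j : Fin T.m} {k : ℕ} (hk : k ∈ T.lev j) (n : ℕ) :
    co T (S.ci (vx T j k)) n = if n < k then co T j n else 0 := by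
  rw [co_poly (fun s hs => ci_eval (S := S) hk hs), tr_coeff]

variable {S} in
lemma ci_tr {j : Fin T.m} {k : ℕ} (hk : k ∈ T.lev j) : tr T (S.ci (vx T j k)) k = tr T j k :=
  tr_congr fun n hn => by rw [ci_co hk, if_pos hn]

variable {S} in
lemma ci_lev {j : Fin T.m} {k : ℕ} (hk : k ∈ T.lev j) : k ∈ T.lev (S.ci (vx T j k)) :=
  lev_center hk fun _ hs => ci_eval hk hs

variable {S} in
lemma ci_vx {j : Fin T.m} {k : ℕ} (hk : k ∈ T.lev j) : vx T (S.ci (vx T j k)) k = vx T j k := by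
  unfold vx
  rw [Prod.mk.injEq]
  exact ⟨rfl, ci_tr hk⟩

lemma cons_unique {i : Fin T.m} {k l k' : ℕ} (h : T.Cons i k k') (h' : T.Cons i l k') : k = l := by
  have a1 : k ≤ l := by
    rcases h.1 with h0 | h1
    · omega
    · rcases h'.2.2.2 k h1 with h2 | h2
      · exact h2
      · exact absurd h.2.2.1 (not_lt.2 h2)
  have a2 : l ≤ k := by
    rcases h'.1 with h0 | h1
    · omega
    · rcases h.2.2.2 l h1 with h2 | h2
      · exact h2
      · exact absurd h'.2.2.1 (not_lt.2 h2)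
  exact le_antisymm a1 a2

lemma cons_ci {j : Fin T.m} {k k' : ℕ} (h : T.Cons j k k') : T.Cons (S.ci (vx T j k')) k k' := by
  have hk' := h.2.1
  have htr := ci_tr (S := S) hk'
  refine ⟨?_, ci_lev hk', h.2.2.1, fun l hl => ?_⟩
  · rcases h.1 with h0 | h1
    · exact Or.inl h0
    · exact Or.inr (lev_lt htr.symm h.2.2.1 h1)
  · rcases lt_or_ge l k' with h1 | h1
    · exact h.2.2.2 l (lev_lt htr h1 hl)
    · exact Or.inr h1

theorem ok_conv {c : Ch T.m} (hc : T.Valid c) : Ok S (conv S c) := by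
  rcases c with ⟨j, k, k'⟩ | i | ⟨j, k, w⟩
  · have h : T.Cons j k k' := hc
    refine ⟨cons_ci S h, vx T j k', vx_mem h.2.1, rfl, ?_, rfl⟩
    exact cons_unique (cons_ci S h) (S.kp_cons _ (vx_mem h.2.1))
  · exact ⟨trivial, trivial⟩
  · have hk : k ∈ T.lev j := hc.1
    have hw : w + co T j k ∉ sp T (vx T j k) := fun h => hc.2 ((sp_vx j k w).1 h)
    refine ⟨⟨ci_lev hk, fun h => hw ?_⟩, vx T j k, vx_mem hk, rfl, rfl, hw⟩
    rw [← sp_vx, ci_co hk, if_neg (lt_irrefl _), add_zero, ci_vx hk] at h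
    exact h

/-- a chart is contained in its canonical chart -/
theorem map_conv {c : Ch T.m} (hc : T.Valid c) {a : ℝ} (ha : 0 < a) : ∃ r > 0, ∀ p : ℂ × ℂ,
    ‖p.1‖ ≤ r → ‖p.2‖ ≤ r →
      ∃ p' : ℂ × ℂ, ‖p'.1‖ ≤ a ∧ ‖p'.2‖ ≤ a ∧ T.map (conv S c) p' = T.map c p := by
  have hM := T.M_pos
  rcases c with ⟨j, k, k'⟩ | i | ⟨j, k, w⟩
  · have hcs : T.Cons j k k' := hc
    have hkk := hcs.2.2.1
    set n := T.M * (k' - k) with hn
    have hn0 : 0 < n := Nat.mul_pos hM (by omega)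
    have hcont : ContinuousAt (fun p : ℂ × ℂ => p.1 ^ n * rem T j k' ((p.1 * p.2) ^ T.M)) 0 := by
      refine ContinuousAt.mul (by fun_prop) ?_
      refine ContinuousAt.comp (g := rem T j k') (f := fun p : ℂ × ℂ => (p.1 * p.2) ^ T.M) ?_
        (by fun_prop)
      have : ((0 : ℂ × ℂ).1 * (0 : ℂ × ℂ).2) ^ T.M = 0 := by
        simp [hM.ne']
      rw [this]
      exact (rem_an j k' 0 (mem_ball_self T.ρ_pos)).continuousAt
    have h0 : (fun p : ℂ × ℂ => p.1 ^ n * rem T j k' ((p.1 * p.2) ^ T.M)) 0 = 0 := by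
      simp [hn0.ne']
    have hev1 : ∀ᶠ p : ℂ × ℂ in 𝓝 0, ‖p.1 ^ n * rem T j k' ((p.1 * p.2) ^ T.M)‖ < 1 / 2 := by
      have h1 : Tendsto (fun p : ℂ × ℂ => ‖p.1 ^ n * rem T j k' ((p.1 * p.2) ^ T.M)‖) (𝓝 0)
          (𝓝 0) := by
        have h2 := hcont.norm.tendsto
        change Tendsto _ _ (𝓝 ‖(fun p : ℂ × ℂ => p.1 ^ n * rem T j k' ((p.1 * p.2) ^ T.M)) 0‖) at h2
        rw [h0, norm_zero] at h2
        exact h2
      exact h1.eventually (gt_mem_nhds (by norm_num))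
    have hev2 : ∀ᶠ p : ℂ × ℂ in 𝓝 0, (p.1 * p.2) ^ T.M ∈ ball (0 : ℂ) T.ρ := by
      have hc2 : Tendsto (fun p : ℂ × ℂ => (p.1 * p.2) ^ T.M) (𝓝 0) (𝓝 0) :=
        (by fun_prop : Continuous fun p : ℂ × ℂ => (p.1 * p.2) ^ T.M).tendsto' _ _
          (by simp [hM.ne'])
      exact hc2.eventually (ball_mem_nhds _ T.ρ_pos)
    obtain ⟨δ, hδ, hb⟩ := Metric.eventually_nhds_iff_ball.1 (hev1.and hev2)
    refine ⟨min (δ / 2) (a / 2), lt_min (by positivity) (by positivity), fun p hp1 hp2 => ?_⟩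
    have hpδ : p ∈ ball (0 : ℂ × ℂ) δ := by
      rw [mem_ball, Prod.dist_eq, max_lt_iff]
      have h1 := hp1.trans (min_le_left _ _)
      have h2 := hp2.trans (min_le_left _ _)
      constructor
      · rw [Prod.fst_zero, dist_zero_right]; linarith
      · rw [Prod.snd_zero, dist_zero_right]; linarith
    obtain ⟨hθ, hρ⟩ := hb p hpδ
    set θ : ℂ := 1 + p.1 ^ n * rem T j k' ((p.1 * p.2) ^ T.M) with hθdef
    obtain ⟨e, he⟩ := IsAlgClosed.exists_pow_nat_eq θ hn0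
    have hθ1 : ‖θ‖ ≤ 3 / 2 := by
      calc ‖θ‖ ≤ ‖(1 : ℂ)‖ + ‖p.1 ^ n * rem T j k' ((p.1 * p.2) ^ T.M)‖ := norm_add_le _ _
        _ ≤ 1 + 1 / 2 := by rw [norm_one]; gcongr
        _ = 3 / 2 := by norm_num
    have hθ2 : 1 / 2 ≤ ‖θ‖ := by
      have h1 := norm_sub_norm_le (1 : ℂ) (-(p.1 ^ n * rem T j k' ((p.1 * p.2) ^ T.M)))
      rw [norm_one, norm_neg, sub_neg_eq_add] at h1
      have : ‖(1 : ℂ) + p.1 ^ n * rem T j k' ((p.1 * p.2) ^ T.M)‖ = ‖θ‖ := rfl
      linarith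
    have hen : ‖e‖ ^ n = ‖θ‖ := by rw [← norm_pow, he]
    have he2 : ‖e‖ ≤ 2 := by
      by_contra hcon
      rw [not_le] at hcon
      have h1 : ‖e‖ ≤ ‖e‖ ^ n := le_self_pow₀ (by linarith) hn0.ne'
      linarith
    have he1 : 1 / 2 ≤ ‖e‖ := by
      by_contra hcon
      rw [not_le] at hcon
      have h1 : ‖e‖ ^ n ≤ ‖e‖ := pow_le_of_le_one (norm_nonneg _) (by linarith) hn0.ne'
      linarith
    have he0 : e ≠ 0 := by
      rintro rfl
      rw [norm_zero] at he1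
      norm_num at he1
    refine ⟨(p.1 / e, p.2 * e), ?_, ?_, ?_⟩
    · show ‖p.1 / e‖ ≤ a
      rw [norm_div, div_le_iff₀ (by linarith)]
      have h1 := hp1.trans (min_le_right _ _)
      nlinarith
    · show ‖p.2 * e‖ ≤ a
      rw [norm_mul]
      have h1 := hp2.trans (min_le_right _ _)
      have h2 := norm_nonneg p.2
      nlinarith
    · have h1 : p.1 / e * (p.2 * e) = p.1 * p.2 := by field_simp
      have h2 := φ_eq (T := T) j k' ((p.1 * p.2) ^ T.M)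
      have h3 := ci_eval (S := S) hcs.2.1 hρ
      show (p.1 / e * (p.2 * e), T.φ (S.ci (vx T j k')) ((p.1 / e * (p.2 * e)) ^ T.M) +
        (p.1 / e) ^ (T.M * k) * (p.2 * e) ^ (T.M * k')) =
        (p.1 * p.2, T.φ j ((p.1 * p.2) ^ T.M) + p.1 ^ (T.M * k) * p.2 ^ (T.M * k'))
      rw [h1, h2, h3]
      congr 1
      have h4 : T.M * k' = T.M * k + n := by rw [hn, ← Nat.mul_add]; congr 1; omega
      have h5 : (p.1 / e) ^ (T.M * k) * (p.2 * e) ^ (T.M * k') =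
          p.1 ^ (T.M * k) * p.2 ^ (T.M * k') * θ := by
        rw [← he, div_pow, mul_pow, h4, pow_add e]
        have := pow_ne_zero (T.M * k) he0
        field_simp
      have h6 : ((p.1 * p.2) ^ T.M) ^ k' = p.1 ^ (T.M * k) * p.2 ^ (T.M * k') * p.1 ^ n := by
        rw [← pow_mul, mul_pow]
        conv_lhs => rw [h4, pow_add p.1]
        rw [← h4]; ring
      rw [h5, h6, hθdef]
      ring
  · exact ⟨a, ha, fun p h1 h2 => ⟨p, h1, h2, rfl⟩⟩
  · have hk : k ∈ T.lev j := hc.1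
    have hcont : ContinuousAt (fun s : ℂ => rem T j k (s ^ T.M)) 0 := by
      refine ContinuousAt.comp (g := rem T j k) (f := fun s : ℂ => s ^ T.M) ?_ (by fun_prop)
      rw [zero_pow hM.ne']
      exact (rem_an j k 0 (mem_ball_self T.ρ_pos)).continuousAt
    have h0 : (fun s : ℂ => rem T j k (s ^ T.M)) 0 = co T j k := by
      show rem T j k (0 ^ T.M) = _
      rw [zero_pow hM.ne', rem_zero]
    have hev1 : ∀ᶠ s in 𝓝 (0 : ℂ), ‖rem T j k (s ^ T.M) - co T j k‖ < a / 2 := by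
      have h1 : Tendsto (fun s : ℂ => ‖rem T j k (s ^ T.M) - co T j k‖) (𝓝 0) (𝓝 0) := by
        have h2 := (hcont.tendsto.sub_const (co T j k)).norm
        have h3 : rem T j k ((0 : ℂ) ^ T.M) = co T j k := h0
        rw [h3, sub_self, norm_zero] at h2
        exact h2
      exact h1.eventually (gt_mem_nhds (by positivity))
    have hev2 : ∀ᶠ s in 𝓝 (0 : ℂ), s ^ T.M ∈ ball (0 : ℂ) T.ρ := by
      have hc2 : Tendsto (fun s : ℂ => s ^ T.M) (𝓝 0) (𝓝 0) :=
        (continuous_pow T.M).tendsto' _ _ (zero_pow hM.ne')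
      exact hc2.eventually (ball_mem_nhds _ T.ρ_pos)
    obtain ⟨δ, hδ, hb⟩ := Metric.eventually_nhds_iff_ball.1 (hev1.and hev2)
    refine ⟨min (δ / 2) (a / 2), lt_min (by positivity) (by positivity), fun p hp1 hp2 => ?_⟩
    have hpδ : p.1 ∈ ball (0 : ℂ) δ := by
      rw [mem_ball, dist_zero_right]
      have h1 := hp1.trans (min_le_left _ _)
      linarith
    obtain ⟨hθ, hρ⟩ := hb p.1 hpδ
    have hr1 := hp1.trans (min_le_right _ _)
    have hr2 := hp2.trans (min_le_right _ _)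
    refine ⟨(p.1, p.2 + (rem T j k (p.1 ^ T.M) - co T j k)), ?_, ?_, ?_⟩
    · show ‖p.1‖ ≤ a
      linarith
    · show ‖p.2 + (rem T j k (p.1 ^ T.M) - co T j k)‖ ≤ a
      refine (norm_add_le _ _).trans ?_
      linarith
    · have h2 := φ_eq (T := T) j k (p.1 ^ T.M)
      have h3 := ci_eval (S := S) hk hρ
      show (p.1, T.φ (S.ci (vx T j k)) (p.1 ^ T.M) + p.1 ^ (T.M * k) *
        (w + co T j k + (p.2 + (rem T j k (p.1 ^ T.M) - co T j k)))) =
        (p.1, T.φ j (p.1 ^ T.M) + p.1 ^ (T.M * k) * (w + p.2))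
      rw [h2, h3, pow_mul]
      congr 1
      ring

/-- **C-COVP** -/
theorem coverP : ∀ r : Ch T.m → ℝ, (∀ c, 0 < r c) →
    ∃ F : Finset (Ch T.m), (∀ c ∈ F, Ok S c) ∧ ∃ ε > 0, ∀ s y : ℂ, ‖s‖ < ε → ‖y‖ < ε →
      (s, y) ≠ 0 → ∃ c ∈ F, ∃ p : ℂ × ℂ, ‖p.1‖ ≤ r c ∧ ‖p.2‖ ≤ r c ∧ T.map c p = (s, y) := by
  classical
  intro r hr
  have h : ∀ c : Ch T.m, ∃ r' > 0, T.Valid c → ∀ p : ℂ × ℂ, ‖p.1‖ ≤ r' → ‖p.2‖ ≤ r' →
      ∃ p' : ℂ × ℂ, ‖p'.1‖ ≤ r (conv S c) ∧ ‖p'.2‖ ≤ r (conv S c) ∧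
        T.map (conv S c) p' = T.map c p := by
    intro c
    by_cases hc : T.Valid c
    · obtain ⟨r', h1, h2⟩ := map_conv S hc (hr (conv S c))
      exact ⟨r', h1, fun _ => h2⟩
    · exact ⟨1, one_pos, fun h => absurd h hc⟩
  choose r' hr' hmap using h
  obtain ⟨F, hF, ε, hε, hcov⟩ := TCov554.cover T r' hr'
  refine ⟨F.image (conv S), ?_, ε, hε, fun s y hs hy hne => ?_⟩
  · intro c hc
    obtain ⟨c', hc', rfl⟩ := Finset.mem_image.1 hc
    exact ok_conv S (hF c' hc')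
  · obtain ⟨c, hc, p, h1, h2, h3⟩ := hcov s y hs hy hne
    obtain ⟨p', h4, h5, h6⟩ := hmap c (hF c hc) p h1 h2
    exact ⟨conv S c, Finset.mem_image_of_mem _ hc, p', h4, h5, h6.trans h3⟩

end Crest.Agent.R257.BPC_554
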