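import Mathlib
import Crest.Agent.R257.TDefs_387
import Crest.Agent.R257.Gr1_157
import Crest.Agent.R257.HoB_843

/-!
Row 257 (S0395), part C, **C-EXT definitions** (helper258): the W-level of the T-frame.

`W = {(z, s, y') : T.Q (s, y') z = 0}`.
* vertices `v = (k, ψ)`, `ψ` = Taylor polynomial of degree `< k` of a branch; coordinate
  `w = (y' - ψ(s^M)) / s^(M k)` (`wv`), inverse `yv`; special points `sp v`;
* `Tub T` : tube radii `ρ v w`, with local analytic sheets in the coordinates `(s, w)`;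
* `XV U v` : the curve over `v` (fibres over `(s, w) = (ρ v w / 2, w)`);
* `IsRet U v x q` : `q ∈ XV U v` is the retraction of the point `x ∈ W` of the tube;
* `Sh T` : chosen radii, sheets, and the chart `edge i k v.1` of the parent edge of `v`;
* `Lab U S` : the components `e1, e2` of the axes `{α = 0}`, `{β = 0}` of a sheet of a chart;
* `Mx` : the intersection form; `WTStmt` : existence of the weights.
-/

set_option autoImplicit false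
set_option linter.unusedSectionVars false

open Polynomial Set Filter Topology Metric
open Crest.AlgGeometry.Germ Crest.Agent.R257.AJ387 Crest.Agent.R257.T387
open Crest.Agent.R257.Gr1_157 Crest.Agent.R257.HoB_843

noncomputable section

namespace Crest.Agent.R257.BP_258

variable {f : (Fin 3 → ℂ) → ℂ} (T : TB f)

/-- vertices: level and centre -/
abbrev Vtx := ℕ × ℂ[X]

/-- Taylor coefficients of the branches -/
def co (i : Fin T.m) (n : ℕ) : ℂ := iteratedDeriv n (T.φ i) 0 / (n.factorial : ℂ)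

/-- truncated branches -/
def tr (i : Fin T.m) (k : ℕ) : ℂ[X] := ∑ n ∈ Finset.range k, C (co T i n) * X ^ n

/-- the vertex `(i, k)` -/
def vx (i : Fin T.m) (k : ℕ) : Vtx := (k, tr T i k)

open Classical in
/-- all vertices -/
def Vs : Finset Vtx := Finset.univ.biUnion fun i => (T.lev i).image fun k => vx T i k

open Classical in
/-- finite special points of a vertex -/
def sp (v : Vtx) : Finset ℂ :=
  (Finset.univ.filter fun j => tr T j v.1 = v.2).image fun j => co T j v.1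

/-- `y'` from `(s, w)` -/
def yv (v : Vtx) (q : ℂ × ℂ) : ℂ := v.2.eval (q.1 ^ T.M) + q.1 ^ (T.M * v.1) * q.2

/-- `w` from `(s, y')` -/
def wv (v : Vtx) (q : ℂ × ℂ) : ℂ := (q.2 - v.2.eval (q.1 ^ T.M)) / q.1 ^ (T.M * v.1)

/-- the branches are closed under truncation and under the Galois action -/
structure Clo : Prop where
  tr_mem : ∀ i, ∀ k ∈ T.lev i, ∃ j, ∀ s ∈ ball (0 : ℂ) T.ρ, T.φ j s = (tr T i k).eval s
  gal : ∀ ζ : ℂ, ζ ^ T.N₀ = 1 → ∀ i, ∃ j, ∀ s ∈ ball (0 : ℂ) T.ρ, T.φ j (ζ * s) = T.φ i s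

/-- tubes -/
structure Tub where
  /-- the radius in the variable `s` -/
  ρ : Vtx → ℂ → ℝ
  cont : ∀ v ∈ Vs T, ContinuousOn (ρ v) {w | w ∉ sp T v}
  pos : ∀ v ∈ Vs T, ∀ w, w ∉ sp T v → 0 < ρ v w
  loc : ∀ v ∈ Vs T, ∀ w₀, w₀ ∉ sp T v → ∃ r > 0, ∃ R > 0, ∃ Z : Fin T.d → ℂ × ℂ → ℂ,
    (∀ w ∈ ball w₀ r, w ∉ sp T v ∧ ρ v w < R) ∧
    (∀ j, AnalyticOnNhd ℂ (Z j) (ball 0 R ×ˢ ball w₀ r)) ∧
    (∀ q ∈ ball (0 : ℂ) R ×ˢ ball w₀ r, (q.1, yv T v q) ∈ BD 1 T.R ∧ ‖q.1‖ ^ T.M < T.ρ ∧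
      T.Q (q.1, yv T v q) = ∏ j, (X - C (Z j q))) ∧
    (∀ q ∈ ball (0 : ℂ) R ×ˢ ball w₀ r, q.1 ≠ 0 → Function.Injective fun j => Z j q)

variable {T} (U : Tub T)

/-- the base point of the fibre over `w` -/
def ep (v : Vtx) (w : ℂ) : ℂ := ((U.ρ v w / 2 : ℝ) : ℂ)

/-- the curve over the vertex `v` -/
def XV (v : Vtx) : Type := {q : ℂ × ℂ // v ∈ Vs T ∧ q.1 ∉ sp T v ∧
  (T.Q (ep U v q.1, yv T v (ep U v q.1, q.1))).eval q.2 = 0}

instance (v : Vtx) : TopologicalSpace (XV U v) := instTopologicalSpaceSubtype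

/-- the projection -/
def pV (v : Vtx) (q : XV U v) : ℂ := q.1.1

/-- `x` is a point of `W` in the tube of `v` (and `s ≠ 0`) -/
structure InT (v : Vtx) (x : Fin 3 → ℂ) : Prop where
  mem : v ∈ Vs T
  ne : x 1 ≠ 0
  nsp : wv T v (x 1, x 2) ∉ sp T v
  lt : ‖x 1‖ < U.ρ v (wv T v (x 1, x 2))
  root : (T.Q (x 1, x 2)).eval (x 0) = 0

/-- `q` is the retraction of `x`: move `s` inside the disc, `w` fixed -/
def IsRet (v : Vtx) (x : Fin 3 → ℂ) (q : XV U v) : Prop :=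
  InT U v x ∧ q.1.1 = wv T v (x 1, x 2) ∧
  ∃ R > U.ρ v q.1.1, ∃ Z : ℂ → ℂ, AnalyticOnNhd ℂ Z (ball 0 R) ∧
    (∀ s ∈ ball (0 : ℂ) R, (T.Q (s, yv T v (s, q.1.1))).eval (Z s) = 0) ∧
    Z (x 1) = x 0 ∧ Z (ep U v q.1.1) = q.1.2

/-- existence and uniqueness of the retraction, with its local form (C-TUBE) -/
def RetStmt : Prop := ∀ v ∈ Vs T, (∀ x, InT U v x → ∃! q, IsRet U v x q) ∧
  ∀ w₀, w₀ ∉ sp T v → ∃ r > 0, ∃ R > 0, ∃ Z : Fin T.d → ℂ × ℂ → ℂ, ∃ σ : Fin T.d → ℂ → XV U v,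
    (∀ w ∈ ball w₀ r, w ∉ sp T v ∧ U.ρ v w < R) ∧
    (∀ j, AnalyticOnNhd ℂ (Z j) (ball 0 R ×ˢ ball w₀ r)) ∧
    (∀ q ∈ ball (0 : ℂ) R ×ˢ ball w₀ r, (q.1, yv T v q) ∈ BD 1 T.R ∧ ‖q.1‖ ^ T.M < T.ρ ∧
      T.Q (q.1, yv T v q) = ∏ j, (X - C (Z j q))) ∧
    (∀ q ∈ ball (0 : ℂ) R ×ˢ ball w₀ r, q.1 ≠ 0 → Function.Injective fun j => Z j q) ∧
    (∀ j, ContinuousOn (σ j) (ball w₀ r)) ∧ (∀ j, ∀ w ∈ ball w₀ r, pV U v (σ j w) = w) ∧
    (∀ w ∈ ball w₀ r, Function.Injective fun j => σ j w) ∧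
    (∀ q, pV U v q ∈ ball w₀ r → ∃ j, σ j (pV U v q) = q) ∧
    ∀ j, ∀ w ∈ ball w₀ r, ∀ s, s ≠ 0 → ‖s‖ < U.ρ v w →
      IsRet U v (pt (Z j (s, w)) (s, yv T v (s, w))) (σ j w)

/-- all components of all vertices -/
abbrev II : Type := Σ v : {v // v ∈ Vs T}, ConnectedComponents (XV U v.1)

variable (T) in
/-- chosen radii and sheets -/
structure Sh where
  r : Ch T.m → ℝ
  ζ : Ch T.m → Fin T.d → ℂ × ℂ → ℂ
  pos : ∀ c, 0 < r c
  le : ∀ c, r c ≤ 1 / 2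
  sheets : ∀ c, T.Valid c → T.Sheets c (2 * r c) (ζ c)
  far : ∀ i k w₀, T.Valid (.vert i k w₀) → ∀ w, ‖w - w₀‖ ≤ 2 * r (.vert i k w₀) → w ∉ T.Sp i k
  fare : ∀ i k k', T.Valid (.edge i k k') → ∀ b : ℂ, b ≠ 0 → ‖b‖ ≤ 2 * r (.edge i k k') →
    b ^ (T.M * (k' - k)) ∉ T.Sp i k ∧ (b ^ (T.M * (k' - k)))⁻¹ ∉ T.Sp i k'
  farl : ∀ i, ∀ b : ℂ, b ≠ 0 → ‖b‖ ≤ 2 * r (.leg i) → b ^ T.M ∉ T.Sp i (T.top i)
  /-- the canonical centre of a vertex -/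
  ci : Vtx → Fin T.m
  ci_eq : ∀ v ∈ Vs T, ∀ s ∈ ball (0 : ℂ) T.ρ, T.φ (ci v) s = v.2.eval s
  /-- the level of the parent vertex (`0` = top) -/
  kp : Vtx → ℕ
  kp_cons : ∀ v ∈ Vs T, T.Cons (ci v) (kp v) v.1

variable {U} (S : Sh T)

/-- canonical charts -/
def Can : Ch T.m → Prop
  | .edge i k k' => ∃ v ∈ Vs T, i = S.ci v ∧ k = S.kp v ∧ k' = v.1
  | .leg _ => True
  | .vert i k w₀ => ∃ v ∈ Vs T, i = S.ci v ∧ k = v.1 ∧ w₀ ∉ sp T v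

/-- valid canonical charts -/
def Ok (c : Ch T.m) : Prop := T.Valid c ∧ Can S c

/-- the charts of `W` -/
def wc (c : Ch T.m) (j : Fin T.d) (p : ℂ × ℂ) : Fin 3 → ℂ := pt (S.ζ c j p) (T.map c p)

variable (T) in
/-- the vertex of `{α = 0}` -/
def v1 : Ch T.m → Option Vtx
  | .edge i k _ => if k = 0 then none else some (vx T i k)
  | .leg i => some (vx T i (T.top i))
  | .vert i k _ => some (vx T i k)

variable (T) in
/-- the vertex of `{β = 0}` -/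
def v2 : Ch T.m → Option Vtx
  | .edge i _ k' => some (vx T i k')
  | _ => none

/-- `c` is a vertex chart -/
def IsV : Ch T.m → Prop
  | .vert _ _ _ => True
  | _ => False

/-- `c` is an edge chart -/
def IsE : Ch T.m → Prop
  | .edge _ _ _ => True
  | _ => False

variable (U) in
/-- labels of the axes -/
structure Lab where
  e1 : Ch T.m → Fin T.d → Option (II U)
  e2 : Ch T.m → Fin T.d → Option (II U)
  v_e1 : ∀ c, Ok S c → ∀ j, (e1 c j).map (fun E => E.1.1) = v1 T c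
  v_e2 : ∀ c, Ok S c → ∀ j, (e2 c j).map (fun E => E.1.1) = v2 T c
  near1 : ∀ c, Ok S c → ∀ j E, e1 c j = some E → ∀ τ > 0, ∃ a > 0, ∀ p : ℂ × ℂ,
    0 < ‖p.1‖ → ‖p.1‖ < a → ‖p.2‖ ≤ S.r c → (IsV c ∨ τ ≤ ‖p.2‖) →
    InT U E.1.1 (wc S c j p) ∧ ∀ q, IsRet U E.1.1 (wc S c j p) q → (q : ConnectedComponents _) = E.2
  near2 : ∀ c, Ok S c → ∀ j E, e2 c j = some E → ∀ τ > 0, ∃ a > 0, ∀ p : ℂ × ℂ,
    0 < ‖p.2‖ → ‖p.2‖ < a → ‖p.1‖ ≤ S.r c → τ ≤ ‖p.1‖ →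
    InT U E.1.1 (wc S c j p) ∧ ∀ q, IsRet U E.1.1 (wc S c j p) q → (q : ConnectedComponents _) = E.2

/-- the chart of the parent edge of `v` -/
def ec (v : Vtx) : Ch T.m := .edge (S.ci v) (S.kp v) v.1

/-- conductance of the parent edge of `v` -/
def cd (v : Vtx) : ℝ := 1 / (T.M * (v.1 - S.kp v : ℕ) : ℝ)

variable {S} (L : Lab U S)

open Classical in
/-- the intersection form: each of the `d` sheets of every edge is a half-edge of conductance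
`1 / l` -/
def Mx (E E' : II U) : ℝ := ∑ v ∈ Vs T, ∑ j, cd S v *
  ((if L.e1 (ec S v) j = some E then
      (if L.e2 (ec S v) j = some E' then 1 else 0) - (if E = E' then 1 else 0) else 0) +
   (if L.e2 (ec S v) j = some E then
      (if L.e1 (ec S v) j = some E' then 1 else 0) - (if E = E' then 1 else 0) else 0))

/-- value at an axis, `0` if it is not exceptional -/
def yo (y : II U → ℝ) (e : Option (II U)) : ℝ := e.elim 0 y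

/-- the sheet points of a chart with `0 < |s| < ρ₀` (off the axes) -/
def Og (c : Ch T.m) (ρ₀ : ℝ) : Set (ℂ × ℂ) :=
  {p | ‖p.1‖ < S.r c ∧ ‖p.2‖ < S.r c ∧ T.Gen c p ∧ ‖(T.map c p).1‖ < ρ₀}

variable (S) in
/-- the conductance of a kill at the origin of a chart -/
def kc : Ch T.m → ℝ
  | .edge _ k k' => 1 / (T.M * (k' - k : ℕ) : ℝ)
  | .leg _ => 1 / (T.M : ℝ)
  | .vert _ _ _ => 1

/-- kill data: a set of sheets of canonical charts, closed under equality of points near the origin,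
with excess `t > 0` -/
structure Kill (F : Finset (Ch T.m)) where
  κ : Set (Ch T.m × Fin T.d)
  t : Ch T.m × Fin T.d → ℝ
  t_pos : ∀ a ∈ κ, 0 < t a
  mem : ∀ a ∈ κ, a.1 ∈ F
  /-- small bidiscs around different killed points are disjoint -/
  ex : ∃ r > 0, ∀ a ∈ κ, ∀ c, (c = a.1 ∨ ∃ j, (c, j) ∈ κ) → ∀ j p p', p ∈ BD r r → p' ∈ BD r r →
    T.Gen a.1 p → T.Gen c p' → wc S a.1 a.2 p = wc S c j p' → c = a.1 ∧ (c, j) ∈ κ ∧ t (c, j) = t a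

variable [Fintype (II U)]



/-! ### the remaining properties of the frame -/

variable (T) in
/-- Jacobian of a chart of the `(s, y')`-plane -/
def Jm (c : Ch T.m) (p : ℂ × ℂ) : ℂ :=
  fderiv ℂ (fun q => (T.map c q).1) p (1, 0) * fderiv ℂ (fun q => (T.map c q).2) p (0, 1) -
  fderiv ℂ (fun q => (T.map c q).1) p (0, 1) * fderiv ℂ (fun q => (T.map c q).2) p (1, 0)

variable (S) in
/-- density of `η` in a chart -/
def dn (c : Ch T.m) (j : Fin T.d) (p : ℂ × ℂ) : ℝ :=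
  ‖(T.map c p).1‖ ^ (T.N - 1) * ‖Jm T c p‖ / ‖coordDeriv f 0 (T.th c (S.ζ c j) p)‖

/-- orders of `η` -/
structure Jac (nu : II U → ℤ) (n1 n2 : Ch T.m → Fin T.d → ℤ) : Prop where
  some1 : ∀ c, Ok S c → ∀ j E, L.e1 c j = some E → n1 c j = nu E
  some2 : ∀ c, Ok S c → ∀ j E, L.e2 c j = some E → n2 c j = nu E
  none1 : ∀ c, Ok S c → ∀ j, L.e1 c j = none → n1 c j ≤ -1
  none2 : ∀ c, Ok S c → ∀ j, L.e2 c j = none → n2 c j ≤ -1
  vert : ∀ c, Ok S c → IsV c → ∀ j, n2 c j = -1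
  bd : ∀ c, Ok S c → ∀ j, ∃ K : ℝ, 0 < K ∧ ∀ p : ℂ × ℂ, ‖p.1‖ ≤ S.r c → ‖p.2‖ ≤ S.r c → T.Gen c p →
    coordDeriv f 0 (T.th c (S.ζ c j) p) ≠ 0 ∧
    dn S c j p ≤ K * (‖p.1‖ ^ (-n1 c j - 1) * ‖p.2‖ ^ (-n2 c j - 1)) ∧
    ‖p.1‖ ^ (-n1 c j - 1) * ‖p.2‖ ^ (-n2 c j - 1) ≤ K * dn S c j p

/-- `0` on the non exceptional axes -/
def yn (v : II U → ℕ) (e : Option (II U)) : ℕ := e.elim 0 v

/-- orders of functions -/
def OrdStmt : Prop := ∀ g : (Fin 3 → ℂ) → ℂ, AnalyticAt ℂ g 0 →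
  (∃ᶠ x in 𝓝 (0 : Fin 3 → ℂ), f x = 0 ∧ g x ≠ 0) →
  ∃ v : II U → ℕ, (∀ E, dg (Mx L) (fun i => (v i : ℝ)) E ≤ 0) ∧
    ∀ c, Ok S c → ∀ j, ∀ p₀ : ℂ × ℂ, ‖p₀.1‖ ≤ S.r c → ‖p₀.2‖ ≤ S.r c →
      ((L.e1 c j ≠ none ∧ p₀.1 = 0) ∨ (L.e2 c j ≠ none ∧ p₀.2 = 0)) →
      ∃ G : ℂ × ℂ → ℂ, AnalyticAt ℂ G p₀ ∧
        (∀ᶠ p in 𝓝 p₀, g (T.th c (S.ζ c j) p) =
          p.1 ^ yn v (L.e1 c j) * p.2 ^ yn v (L.e2 c j) * G p) ∧
        (p₀.1 = 0 → ∀ E, L.e1 c j = some E → (∃ᶠ z in 𝓝 p₀.2, G (0, z) ≠ 0) ∧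
          (dg (Mx L) (fun i => (v i : ℝ)) E = 0 → G p₀ ≠ 0)) ∧
        (p₀.2 = 0 → ∀ E, L.e2 c j = some E → (∃ᶠ z in 𝓝 p₀.1, G (z, 0) ≠ 0) ∧
          (dg (Mx L) (fun i => (v i : ℝ)) E = 0 → G p₀ ≠ 0))

/-- the rotation by `ξ` -/
def rot (ξ : ℂ) (x : Fin 3 → ℂ) : Fin 3 → ℂ := ![x 0, ξ * x 1, x 2]

/-- the rotations act on everything -/
def RotStmt (nu : II U → ℤ) : Prop := ∀ ξ : ℂ, ξ ^ T.N = 1 → ∃ π : Equiv.Perm (II U),
  (∀ E E', Mx L (π E) (π E') = Mx L E E') ∧ (∀ E, nu (π E) = nu E) ∧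
  ∀ c, Ok S c → ∀ j, ∃ c' j', Ok S c' ∧ (IsV c' ↔ IsV c) ∧ (IsE c' ↔ IsE c) ∧
    L.e1 c' j' = (L.e1 c j).map π ∧ L.e2 c' j' = (L.e2 c j).map π ∧
    ∃ a b : ℂ, (∃ n : ℕ, 0 < n ∧ n ∣ T.N * (T.M * (Finset.univ.sup T.top).factorial) ∧
      a ^ n = 1 ∧ b ^ n = 1) ∧
      ∀ p : ℂ × ℂ, ‖p.1‖ < 2 * min (S.r c) (S.r c') → ‖p.2‖ < 2 * min (S.r c) (S.r c') →
        rot ξ (wc S c j p) = wc S c' j' (a * p.1, b * p.2)

end Crest.Agent.R257.BP_258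
end
private theorem rz_3f2858407f : type_of% @_root_.Crest.Agent.R257.BP_258.IsE.eq_1 := @_root_.Crest.Agent.R257.BP_258.IsE.eq_1 -- L176
private theorem rz_fe097c22d5 : type_of% @_root_.Crest.Agent.R257.BP_258.IsV.eq_1 := @_root_.Crest.Agent.R257.BP_258.IsV.eq_1 -- L171
private theorem rz_b3cf1e041a : type_of% @_root_.Crest.Agent.R257.BP_258.kc.eq_1 := @_root_.Crest.Agent.R257.BP_258.kc.eq_1 -- L220
private theorem rz_a7f506e6fb : type_of% @_root_.Crest.Agent.R257.BP_258.v1.eq_1 := @_root_.Crest.Agent.R257.BP_258.v1.eq_1 -- L159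
private theorem rz_5f61e46faf : type_of% @_root_.Crest.Agent.R257.BP_258.v2.eq_1 := @_root_.Crest.Agent.R257.BP_258.v2.eq_1 -- L166
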