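import Crest.Agent.R257.Ked2_397

-- ▼ part R257/Ked3_397
section

/-!
# R257 (S0395), task KED-DEN (helper397)

* `CC`, `CI` : continuous convergence (of all derivatives) of families of functions
* `CI.of_cvOn`, `CI.joint`, `CI.dS`, `CC.c2`
-/

set_option autoImplicit false
set_option linter.unusedSectionVars false

open Set Filter Topology Complex
open scoped ContDiff Matrix ComplexConjugate ComplexOrder

namespace Crest.Agent.R257.Ked3_397

open Crest.Agent.R275.Geo Crest.Agent.R275.EDR890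
open Crest.Agent.R273.Fock_243 Crest.Agent.R273.Calc_243
open Crest.Agent.R273.Bkn_243 Crest.Agent.R273.Pos_243 Crest.Agent.R273.BochA_101
open Crest.Agent.R273.BochB_101
open Crest.Agent.R273.BochC_101 Crest.Agent.R273.BochD_101
open Crest.Agent.R273.Hess_333 Crest.Agent.R273.HessB_333
open Crest.Agent.R273.Defs_333 Crest.Agent.R273.YauDefs_635 Crest.Agent.R273.YauMax_635
open Crest.Agent.R257.C2F1_625 (c2)
open Crest.Agent.R257.KED_952 (PP CvOn)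

noncomputable section

variable {X : Type*} [TopologicalSpace X] {l : Filter PP} {O : Set (Cn 2)} {z : Cn 2}

/-- continuous convergence at `z` -/
def CC (l : Filter PP) (F : PP → Cn 2 → X) (F₀ : Cn 2 → X) (z : Cn 2) : Prop :=
  Tendsto (fun p : PP × Cn 2 => F p.1 p.2) (l ×ˢ 𝓝 z) (𝓝 (F₀ z))

theorem CC.comp {Y : Type*} [TopologicalSpace Y] {F : PP → Cn 2 → X} {F₀ : Cn 2 → X} {g : X → Y}
    (h : CC l F F₀ z) (hg : ContinuousAt g (F₀ z)) :
    CC l (fun τ y => g (F τ y)) (fun y => g (F₀ y)) z := hg.tendsto.comp h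

theorem CC.congr {F G : PP → Cn 2 → X} {F₀ G₀ : Cn 2 → X} (h : CC l F F₀ z)
    (he : ∀ᶠ p : PP × Cn 2 in l ×ˢ 𝓝 z, F p.1 p.2 = G p.1 p.2) (h0 : F₀ z = G₀ z) :
    CC l G G₀ z := by
  unfold CC
  rw [← h0]
  exact h.congr' he

theorem CC.congrO {F G : PP → Cn 2 → X} {F₀ G₀ : Cn 2 → X} (h : CC l F F₀ z)
    (hO : IsOpen O) (hz : z ∈ O) (he : ∀ᶠ τ in l, ∀ y ∈ O, F τ y = G τ y)
    (h0 : ∀ y ∈ O, F₀ y = G₀ y) : CC l G G₀ z := by
  refine h.congr ?_ (h0 z hz)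
  have := he.prod_mk (hO.mem_nhds hz : ∀ᶠ y in 𝓝 z, y ∈ O)
  filter_upwards [this] with p hp
  exact hp.1 p.2 hp.2

/-- uniform convergence on compact sets -/
theorem tendstoUniformlyOn_of_cc {Y : Type*} [PseudoMetricSpace Y] {F : PP → Cn 2 → Y}
    {F₀ : Cn 2 → Y} {K : Set (Cn 2)} (hK : IsCompact K) (h : ∀ z ∈ K, CC l F F₀ z)
    (hc : ∀ z ∈ K, ContinuousAt F₀ z) : TendstoUniformlyOn F F₀ l K := by
  rw [← tendstoLocallyUniformlyOn_iff_tendstoUniformlyOn_of_compact hK,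
    Metric.tendstoLocallyUniformlyOn_iff]
  intro ε hε x hx
  have h1 := (Metric.tendsto_nhds.1 (h x hx)) (ε / 2) (by positivity)
  have h2 := Metric.tendsto_nhds.1 (hc x hx) (ε / 2) (by positivity)
  obtain ⟨A, hA, B, hB, hAB⟩ := Filter.mem_prod_iff.1 h1
  refine ⟨(B ∩ {y | dist (F₀ y) (F₀ x) < ε / 2}) ∩ K,
    inter_mem (mem_nhdsWithin_of_mem_nhds (inter_mem hB h2)) self_mem_nhdsWithin, ?_⟩
  filter_upwards [hA] with τ hτ y hy
  have h3 : dist (F τ y) (F₀ x) < ε / 2 := hAB (mk_mem_prod hτ hy.1.1)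
  have h4 : dist (F₀ y) (F₀ x) < ε / 2 := hy.1.2
  calc dist (F₀ y) (F τ y) ≤ dist (F₀ y) (F₀ x) + dist (F τ y) (F₀ x) := dist_triangle_right _ _ _
    _ < ε := by linarith

variable {E : Type} [NormedAddCommGroup E] [NormedSpace ℝ E]
  {G : Type} [NormedAddCommGroup G] [NormedSpace ℝ G]

/-- continuous convergence of all derivatives on `O` -/
structure CI (l : Filter PP) (O : Set (Cn 2)) (F : PP → Cn 2 → E) (F₀ : Cn 2 → E) : Prop where
  sm : ∀ᶠ τ in l, ContDiffOn ℝ ∞ (F τ) O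
  sm0 : ContDiffOn ℝ ∞ F₀ O
  cv : ∀ k : ℕ, ∀ z ∈ O, CC l (fun τ => iteratedFDeriv ℝ k (F τ)) (iteratedFDeriv ℝ k F₀) z

theorem CI.cc {F : PP → Cn 2 → E} {F₀ : Cn 2 → E} (h : CI l O F F₀) (hz : z ∈ O) :
    CC l F F₀ z := by
  have h1 := h.cv 0 z hz
  have h2 : Continuous fun m : (Cn 2) [×0]→L[ℝ] E => m 0 :=
    (ContinuousMultilinearMap.apply ℝ (fun _ : Fin 0 => Cn 2) E 0).continuous
  exact h1.comp (g := fun m : (Cn 2) [×0]→L[ℝ] E => m 0) h2.continuousAt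

theorem CI.fderiv (hO : IsOpen O) {F : PP → Cn 2 → E} {F₀ : Cn 2 → E} (h : CI l O F F₀) :
    CI l O (fun τ => fderiv ℝ (F τ)) (fderiv ℝ F₀) where
  sm := h.sm.mono fun τ hτ => hτ.fderiv_of_isOpen hO (m := ∞) le_rfl
  sm0 := h.sm0.fderiv_of_isOpen hO (m := ∞) le_rfl
  cv k z hz := by
    have h1 := h.cv (k + 1) z hz
    have h2 := (continuousMultilinearCurryRightEquiv' ℝ k (Cn 2) E).continuous
    have h3 : ∀ (f : Cn 2 → E) (y : Cn 2), iteratedFDeriv ℝ k (_root_.fderiv ℝ f) y =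
        continuousMultilinearCurryRightEquiv' ℝ k (Cn 2) E (iteratedFDeriv ℝ (k + 1) f y) := by
      intro f y
      rw [iteratedFDeriv_succ_eq_comp_right, Function.comp_apply]
      exact ((continuousMultilinearCurryRightEquiv' ℝ k (Cn 2) E).apply_symm_apply _).symm
    have h4 := h1.comp (g := continuousMultilinearCurryRightEquiv' ℝ k (Cn 2) E) h2.continuousAt
    unfold CC at h4 ⊢
    simp only [h3]
    exact h4

theorem CI.clm (hO : IsOpen O) {F : PP → Cn 2 → E} {F₀ : Cn 2 → E} (h : CI l O F F₀)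
    (L : E →L[ℝ] G) : CI l O (fun τ y => L (F τ y)) (fun y => L (F₀ y)) where
  sm := h.sm.mono fun τ hτ => L.contDiff.comp_contDiffOn hτ
  sm0 := L.contDiff.comp_contDiffOn h.sm0
  cv k z hz := by
    have h1 := h.cv k z hz
    have h2 : Continuous fun m : (Cn 2) [×k]→L[ℝ] E => L.compContinuousMultilinearMap m :=
      (ContinuousLinearMap.compContinuousMultilinearMapL ℝ (fun _ : Fin k => Cn 2) E G L).continuous
    have h3 := h1.comp (g := fun m : (Cn 2) [×k]→L[ℝ] E => L.compContinuousMultilinearMap m)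
      h2.continuousAt
    have h4 : ∀ (f : Cn 2 → E), ContDiffOn ℝ ∞ f O → ∀ y ∈ O,
        L.compContinuousMultilinearMap (iteratedFDeriv ℝ k f y) =
          iteratedFDeriv ℝ k (fun y => L (f y)) y := by
      intro f hf y hy
      exact (L.iteratedFDeriv_comp_left (hf.contDiffAt (hO.mem_nhds hy))
        (by exact_mod_cast le_top)).symm
    exact h3.congrO hO hz (h.sm.mono fun τ hτ y hy => h4 _ hτ y hy) fun y hy => h4 _ h.sm0 y hy

theorem CI.congr (hO : IsOpen O) {F F' : PP → Cn 2 → E} {F₀ F₀' : Cn 2 → E} (h : CI l O F F₀)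
    (he : ∀ᶠ τ in l, ∀ y ∈ O, F τ y = F' τ y) (h0 : ∀ y ∈ O, F₀ y = F₀' y) : CI l O F' F₀' where
  sm := (h.sm.and he).mono fun τ hτ => hτ.1.congr fun y hy => (hτ.2 y hy).symm
  sm0 := h.sm0.congr fun y hy => (h0 y hy).symm
  cv k z hz := by
    have h4 : ∀ (f f' : Cn 2 → E), (∀ y ∈ O, f y = f' y) → ∀ y ∈ O,
        iteratedFDeriv ℝ k f y = iteratedFDeriv ℝ k f' y := by
      intro f f' hf y hy
      have h5 : f =ᶠ[𝓝 y] f' := by
        filter_upwards [hO.mem_nhds hy] with w hw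
        exact hf w hw
      exact (h5.iteratedFDeriv ℝ k).eq_of_nhds
    exact (h.cv k z hz).congrO hO hz (he.mono fun τ hτ => h4 _ _ hτ) (h4 _ _ h0)

/-- the operator `dS` as a continuous linear map of the derivative -/
def dSL (s : ℂ) (a : Fin 2) : (Cn 2 →L[ℝ] ℂ) →L[ℝ] ℂ :=
  (ContinuousLinearMap.apply ℝ ℂ (EuclideanSpace.single a (1 : ℂ) : Cn 2) +
    ((ContinuousLinearMap.mul ℝ ℂ) s).comp
      (ContinuousLinearMap.apply ℝ ℂ (EuclideanSpace.single a I : Cn 2)))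


theorem CI.dS (hO : IsOpen O) {F : PP → Cn 2 → ℂ} {F₀ : Cn 2 → ℂ} (h : CI l O F F₀) (s : ℂ)
    (a : Fin 2) : CI l O (fun τ => dS s a (F τ)) (dS s a F₀) :=
  ((h.fderiv hO).clm hO (dSL s a)).clm hO ((ContinuousLinearMap.mul ℝ ℂ) (1 / 2))

theorem CI.hess (hO : IsOpen O) {v : PP → Cn 2 → ℝ} {v₀ : Cn 2 → ℝ} (h : CI l O v v₀)
    (a b : Fin 2) : CI l O (fun τ y => hess (v τ) y a b) (fun y => hess v₀ y a b) :=
  ((h.clm hO Complex.ofRealCLM).dS hO I b).dS hO (-I) a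

/-- from `CvOn` -/
theorem CI.of_cvOn (hO : IsOpen O) {v : PP → Cn 2 → ℝ} {v₀ : Cn 2 → ℝ}
    (hs : ∀ᶠ τ in l, ContDiffOn ℝ ∞ (v τ) O) (hs0 : ContDiffOn ℝ ∞ v₀ O)
    (h : CvOn l O v v₀) : CI l O v v₀ where
  sm := hs
  sm0 := hs0
  cv k z hz := by
    obtain ⟨K, hK, hzK, hKO⟩ := exists_compact_subset hO hz
    have h1 := Metric.tendstoUniformlyOn_iff.1 (h k K hKO hK)
    have h2 : ContinuousAt (iteratedFDeriv ℝ k v₀) z := by
      have h3 : ContDiffAt ℝ k v₀ z :=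
        (hs0.contDiffAt (hO.mem_nhds hz)).of_le (by exact_mod_cast le_top)
      exact h3.continuousAt_iteratedFDeriv le_rfl
    refine Metric.tendsto_nhds.2 fun ε hε => ?_
    have h4 := Metric.tendsto_nhds.1 h2 (ε / 2) (by positivity)
    have h5 := (h1 (ε / 2) (by positivity)).prod_mk
      ((h4.and (mem_interior_iff_mem_nhds.1 hzK : ∀ᶠ y in 𝓝 z, y ∈ K)))
    filter_upwards [h5] with p hp
    have h6 := hp.1 p.2 hp.2.2
    calc dist (iteratedFDeriv ℝ k (v p.1) p.2) (iteratedFDeriv ℝ k v₀ z)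
        ≤ dist (iteratedFDeriv ℝ k (v p.1) p.2) (iteratedFDeriv ℝ k v₀ p.2)
          + dist (iteratedFDeriv ℝ k v₀ p.2) (iteratedFDeriv ℝ k v₀ z) := dist_triangle _ _ _
      _ < ε := by rw [dist_comm] at h6; linarith [hp.2.1]

/-- jointly smooth families -/
theorem CI.joint_aux {τ₀ : PP} (hl : l ≤ 𝓝 τ₀) (hO : IsOpen O) {N : Set PP} (hN : IsOpen N)
    (hτ : τ₀ ∈ N) (k : ℕ) : ∀ {E : Type} [NormedAddCommGroup E] [NormedSpace ℝ E]
    (f : Cn 2 × PP → E), ContDiffOn ℝ ∞ f (O ×ˢ N) → ∀ z ∈ O,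
    CC l (fun τ => iteratedFDeriv ℝ k fun y => f (y, τ)) (iteratedFDeriv ℝ k fun y => f (y, τ₀))
      z := by
  have hON : IsOpen (O ×ˢ N) := hO.prod hN
  have hsw : ∀ z : Cn 2, Tendsto (fun p : PP × Cn 2 => (p.2, p.1)) (l ×ˢ 𝓝 z) (𝓝 (z, τ₀)) := by
    intro z
    rw [nhds_prod_eq]
    exact tendsto_snd.prodMk (tendsto_fst.mono_right hl)
  induction k with
  | zero =>
    intro E _ _ f hf z hz
    have h1 : ContinuousAt f (z, τ₀) := (hf.contDiffAt (hON.mem_nhds ⟨hz, hτ⟩)).continuousAt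
    have h2 := (continuousMultilinearCurryFin0 ℝ (Cn 2) E).symm.continuous
    exact h2.continuousAt.tendsto.comp (h1.tendsto.comp (hsw z))
  | succ k ih =>
    intro E _ _ f hf z hz
    set g : Cn 2 × PP → (Cn 2 →L[ℝ] E) := fun q =>
      (_root_.fderiv ℝ f q).comp (ContinuousLinearMap.inl ℝ (Cn 2) PP) with hg
    have hgs : ContDiffOn ℝ ∞ g (O ×ˢ N) := by
      have h1 : ContDiffOn ℝ ∞ (_root_.fderiv ℝ f) (O ×ˢ N) :=
        hf.fderiv_of_isOpen hON (m := ∞) le_rfl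
      exact h1.clm_comp contDiffOn_const
    have h1 := ih g hgs z hz
    have h2 := (continuousMultilinearCurryRightEquiv' ℝ k (Cn 2) E).symm.continuous
    have h3 : ∀ τ ∈ N, ∀ y ∈ O, (continuousMultilinearCurryRightEquiv' ℝ k (Cn 2) E).symm
        (iteratedFDeriv ℝ k (fun y => g (y, τ)) y) =
          iteratedFDeriv ℝ (k + 1) (fun y => f (y, τ)) y := by
      intro τ hτN y hy
      rw [iteratedFDeriv_succ_eq_comp_right, Function.comp_apply]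
      have h4 : (fun y => g (y, τ)) =ᶠ[𝓝 y] fun y' => _root_.fderiv ℝ (fun y => f (y, τ)) y' := by
        filter_upwards [hO.mem_nhds hy] with w hw
        have h5 : HasFDerivAt f (_root_.fderiv ℝ f (w, τ)) (w, τ) :=
          ((hf.contDiffAt (hON.mem_nhds ⟨hw, hτN⟩)).differentiableAt (by simp)).hasFDerivAt
        exact (h5.comp w (hasFDerivAt_prodMk_left w τ)).fderiv.symm
      rw [(h4.iteratedFDeriv ℝ k).eq_of_nhds]
    have h4 := h1.comp (g := (continuousMultilinearCurryRightEquiv' ℝ k (Cn 2) E).symm)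
      h2.continuousAt
    refine h4.congrO hO hz ?_ (h3 τ₀ hτ)
    filter_upwards [hl (hN.mem_nhds hτ)] with τ hτN
    exact h3 τ hτN

theorem CI.joint {τ₀ : PP} (hl : l ≤ 𝓝 τ₀) (hO : IsOpen O) {N : Set PP} (hN : N ∈ 𝓝 τ₀)
    {f : Cn 2 × PP → E} (hf : ContDiffOn ℝ ∞ f (O ×ˢ N)) :
    CI l O (fun τ y => f (y, τ)) (fun y => f (y, τ₀)) := by
  have hτ : τ₀ ∈ interior N := mem_interior_iff_mem_nhds.2 hN
  have hf' : ContDiffOn ℝ ∞ f (O ×ˢ interior N) := hf.mono (prod_mono_right interior_subset)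
  have hs : ∀ τ ∈ interior N, ContDiffOn ℝ ∞ (fun y => f (y, τ)) O := by
    intro τ hτ
    exact hf'.comp (contDiffOn_id.prodMk contDiffOn_const) fun y hy => ⟨hy, hτ⟩
  have hev : ∀ᶠ τ in l, τ ∈ interior N := hl (isOpen_interior.mem_nhds hτ)
  exact ⟨hev.mono hs, hs τ₀ hτ, fun k => CI.joint_aux hl hO isOpen_interior hτ k f hf'⟩

/-! ### matrices -/

theorem cc_mat {K : PP → Cn 2 → Matrix (Fin 2) (Fin 2) ℂ} {K₀ : Cn 2 → Matrix (Fin 2) (Fin 2) ℂ}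
    (h : ∀ a b, CC l (fun τ y => K τ y a b) (fun y => K₀ y a b) z) : CC l K K₀ z :=
  tendsto_pi_nhds.2 fun a => tendsto_pi_nhds.2 fun b => h a b

theorem cont_inv {m : Matrix (Fin 2) (Fin 2) ℂ} (h : m.det ≠ 0) :
    ContinuousAt (fun m : Matrix (Fin 2) (Fin 2) ℂ => m⁻¹) m := by
  have h1 : (fun m : Matrix (Fin 2) (Fin 2) ℂ => m⁻¹) = fun m => m.det⁻¹ • m.adjugate := by
    funext m
    rw [Matrix.inv_def, Ring.inverse_eq_inv]
  rw [h1]
  have h2 : ContinuousAt (fun m : Matrix (Fin 2) (Fin 2) ℂ => m.det) m :=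
    (continuous_id.matrix_det).continuousAt
  have h3 : ContinuousAt (fun m : Matrix (Fin 2) (Fin 2) ℂ => m.adjugate) m :=
    (continuous_id.matrix_adjugate).continuousAt
  exact (h2.inv₀ h).smul h3

/-- convergence of the curvature -/
theorem cc_rm (hO : IsOpen O) {K : PP → Cn 2 → Matrix (Fin 2) (Fin 2) ℂ}
    {K₀ : Cn 2 → Matrix (Fin 2) (Fin 2) ℂ}
    (h : ∀ a b, CI l O (fun τ y => K τ y a b) (fun y => K₀ y a b)) (hz : z ∈ O)
    (h0 : (K₀ z).det ≠ 0) (c d : Fin 2) :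
    CC l (fun τ y => rm (K τ) y c d) (fun y => rm K₀ y c d) z := by
  have e1 : CC l (fun τ y => dM (-I) c (dM I d (K τ)) y) (fun y => dM (-I) c (dM I d K₀) y) z :=
    cc_mat fun a b => (((h a b).dS hO I d).dS hO (-I) c).cc hz
  have e2 : CC l (fun τ y => dM I d (K τ) y) (fun y => dM I d K₀ y) z :=
    cc_mat fun a b => ((h a b).dS hO I d).cc hz
  have e3 : CC l (fun τ y => dM (-I) c (K τ) y) (fun y => dM (-I) c K₀ y) z :=
    cc_mat fun a b => ((h a b).dS hO (-I) c).cc hz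
  have e4 : CC l (fun τ y => (K τ y)⁻¹) (fun y => (K₀ y)⁻¹) z :=
    (cc_mat fun a b => (h a b).cc hz).comp (cont_inv h0)
  unfold rm
  exact (Filter.Tendsto.neg e1).add ((Filter.Tendsto.mul e2 e4).mul e3)

theorem cont_pd : Continuous fun q : Matrix (Fin 2) (Fin 2) ℂ × Matrix (Fin 2) (Fin 2) ℂ =>
    C2F1_625.pd q.1 q.2 := by
  unfold C2F1_625.pd
  fun_prop

theorem cc_pd {R R' : PP → Cn 2 → Matrix (Fin 2) (Fin 2) ℂ}
    {R₀ R₀' : Cn 2 → Matrix (Fin 2) (Fin 2) ℂ} (h : CC l R R₀ z) (h' : CC l R' R₀' z) :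
    CC l (fun τ y => C2F1_625.pd (R τ y) (R' τ y)) (fun y => C2F1_625.pd (R₀ y) (R₀' y)) z :=
  Tendsto.comp (g := fun q : Matrix (Fin 2) (Fin 2) ℂ × Matrix (Fin 2) (Fin 2) ℂ =>
    C2F1_625.pd q.1 q.2) (f := fun p : PP × Cn 2 => (R p.1 p.2, R' p.1 p.2))
    (cont_pd.tendsto (R₀ z, R₀' z)) (Tendsto.prodMk_nhds h h')

theorem CC.div {f g : PP → Cn 2 → ℂ} {f₀ g₀ : Cn 2 → ℂ} (h : CC l f f₀ z) (h' : CC l g g₀ z)
    (h0 : g₀ z ≠ 0) : CC l (fun τ y => f τ y / g τ y) (fun y => f₀ y / g₀ y) z :=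
  Tendsto.div h h' h0

theorem CC.sub {f g : PP → Cn 2 → ℂ} {f₀ g₀ : Cn 2 → ℂ} (h : CC l f f₀ z) (h' : CC l g g₀ z) :
    CC l (fun τ y => f τ y - g τ y) (fun y => f₀ y - g₀ y) z :=
  Tendsto.sub h h'

theorem cc_det {K : PP → Cn 2 → Matrix (Fin 2) (Fin 2) ℂ}
    {K₀ : Cn 2 → Matrix (Fin 2) (Fin 2) ℂ} (h : CC l K K₀ z) :
    CC l (fun τ y => (K τ y).det) (fun y => (K₀ y).det) z :=
  h.comp (g := fun m : Matrix (Fin 2) (Fin 2) ℂ => m.det) (continuous_id.matrix_det).continuousAt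

/-- convergence of the second Chern form -/
theorem cc_c2 (hO : IsOpen O) {K : PP → Cn 2 → Matrix (Fin 2) (Fin 2) ℂ}
    {K₀ : Cn 2 → Matrix (Fin 2) (Fin 2) ℂ}
    (h : ∀ a b, CI l O (fun τ y => K τ y a b) (fun y => K₀ y a b)) (hz : z ∈ O)
    (h0 : (K₀ z).det ≠ 0) : CC l (fun τ => c2 (K τ)) (c2 K₀) z := by
  have e0 : CC l K K₀ z := cc_mat fun a b => (h a b).cc hz
  have e2 := fun c d => cc_rm hO h hz h0 c d
  have e3 := CC.sub (cc_pd (e2 0 0) (e2 1 1)) (cc_pd (e2 0 1) (e2 1 0))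
  exact CC.div e3 (cc_det e0) h0

end

end Crest.Agent.R257.Ked3_397
end

-- ▼ part R257/Ked4_397

/-!
# R257 (S0395), task KED-DEN (helper397)

`ctDStmt`, `cvDStmt` of KED_952.
-/

set_option autoImplicit false
set_option linter.unusedSectionVars false

open Set Filter Topology Complex
open scoped ContDiff Matrix ComplexConjugate ComplexOrder

namespace Crest.Agent.R257.Ked4_397

open Crest.Agent.R275.Geo Crest.Agent.R275.EDR890
open Crest.Agent.R273.Fock_243 Crest.Agent.R273.Calc_243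
open Crest.Agent.R273.Bkn_243 Crest.Agent.R273.Pos_243 Crest.Agent.R273.BochA_101
open Crest.Agent.R273.BochB_101
open Crest.Agent.R273.BochC_101 Crest.Agent.R273.BochD_101
open Crest.Agent.R273.Hess_333 Crest.Agent.R273.HessB_333
open Crest.Agent.R273.Defs_333 Crest.Agent.R273.YauDefs_635 Crest.Agent.R273.YauMax_635
open Crest.Agent.R257.C2F1_625 (c2)
open Crest.Agent.R257.C2F2_625
open Crest.Agent.R257.Defs_219
open Crest.Agent.R257.PN_835 Crest.Agent.R257.Gram_835 Crest.Agent.R257.Aff_835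
open Crest.Agent.R257.KED_952 Crest.Agent.R257.Ked1_397 Crest.Agent.R257.Ked2_397
open Crest.Agent.R257.Ked3_397

noncomputable section

variable {l : Filter PP} {O : Set (Cn 2)} {z : Cn 2}

theorem cc_const {X : Type*} [TopologicalSpace X] {τ : PP} {F : Cn 2 → X}
    (h : CC (pure τ) (fun _ => F) F z) : ContinuousAt F z := by
  have h1 : Tendsto (fun y : Cn 2 => (τ, y)) (𝓝 z) ((pure τ : Filter PP) ×ˢ 𝓝 z) := by
    refine Tendsto.prodMk ?_ tendsto_id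
    exact tendsto_pure.2 (Eventually.of_forall fun _ => rfl)
  exact (Tendsto.comp h h1 :)

theorem CI.const {E : Type} [NormedAddCommGroup E] [NormedSpace ℝ E] (hO : IsOpen O)
    {F : Cn 2 → E} (h : ContDiffOn ℝ ∞ F O) (τ : PP) : CI (pure τ) O (fun _ => F) F where
  sm := Eventually.of_forall fun _ => h
  sm0 := h
  cv k z hz := by
    have h3 : ContDiffAt ℝ k F z := (h.contDiffAt (hO.mem_nhds hz)).of_le (by exact_mod_cast le_top)
    exact (h3.continuousAt_iteratedFDeriv le_rfl).tendsto.comp tendsto_snd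

theorem cc_congr_cH {v : PP → Cn 2 → ℝ} {v₀ : Cn 2 → ℝ} (hO : IsOpen O) (h : CI l O v v₀)
    (hz : z ∈ O) (h0 : (hess v₀ z).det ≠ 0) :
    CC l (fun τ => c2 fun y => (cH (v τ) y)ᵀ) (c2 fun y => (cH v₀ y)ᵀ) z := by
  have h1 := cc_c2 (l := l) (O := O) (z := z) hO (K := fun τ y => (hess (v τ) y)ᵀ)
    (K₀ := fun y => (hess v₀ y)ᵀ) (fun a b => h.hess hO b a) hz
    (by rw [Matrix.det_transpose]; exact h0)
  have h2 : ∀ v : Cn 2 → ℝ, ContDiffOn ℝ ∞ v O → ∀ y ∈ O,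
      c2 (fun y => (hess v y)ᵀ) y = c2 (fun y => (cH v y)ᵀ) y := by
    intro v hv y hy
    refine c2_congr ?_
    filter_upwards [hO.mem_nhds hy] with w hw
    rw [cH_eq_hess (hv.contDiffAt (hO.mem_nhds hw))]
  exact h1.congrO hO hz (h.sm.mono fun τ hτ => h2 _ hτ) (h2 _ h.sm0)

theorem cc_cH {v : PP → Cn 2 → ℝ} {v₀ : Cn 2 → ℝ} (hO : IsOpen O) (h : CI l O v v₀)
    (hz : z ∈ O) : CC l (fun τ => cH (v τ)) (cH v₀) z := by
  have h1 : CC l (fun τ => hess (v τ)) (hess v₀) z := cc_mat fun a b => (h.hess hO a b).cc hz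
  exact h1.congrO hO hz
    (h.sm.mono fun τ hτ y hy => (cH_eq_hess (hτ.contDiffAt (hO.mem_nhds hy))).symm)
    fun y hy => (cH_eq_hess (h.sm0.contDiffAt (hO.mem_nhds hy))).symm

theorem CC.re {f : PP → Cn 2 → ℂ} {f₀ : Cn 2 → ℂ} (h : CC l f f₀ z) :
    CC l (fun τ y => (f τ y).re) (fun y => (f₀ y).re) z :=
  h.comp (g := Complex.re) Complex.continuous_re.continuousAt

theorem CC.rdiv {f g : PP → Cn 2 → ℝ} {f₀ g₀ : Cn 2 → ℝ} (h : CC l f f₀ z) (h' : CC l g g₀ z)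
    (h0 : g₀ z ≠ 0) : CC l (fun τ y => f τ y / g τ y) (fun y => f₀ y / g₀ y) z :=
  Tendsto.div h h' h0

theorem contDiffOn_par {f : E3 → ℂ} {s : ℂ} {θ : Cn 2 → E3} (h : Par (n := 2) f s θ O)
    {χ : E3 → ℝ} (hχ : ContDiff ℝ ∞ χ) : ContDiffOn ℝ ∞ (fun y => χ (θ y)) O := by
  have h1 : ContDiffOn ℝ ∞ θ O :=
    ((Crest.Agent.R266.SCV.contDiffOn_omega_of_differentiableOn h.isOpen h.hol).restrict_scalars
      ℝ).of_le le_top
  exact hχ.comp_contDiffOn h1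

/-- **`CtDStmt`** -/
theorem ctDStmt : CtDStmt := by
  intro f s r hr han hsm u hu
  have hD := denStmt f s r hr han hsm
  have hpos : ∀ θ O, PE f s r θ O → ∀ z ∈ O, 0 < eta2a (n := 2) f θ z := fun θ O hP z hz =>
    Loc_835.eta2a_pos hP.par hz (hsm _ (hP.ne z hz) (hP.lt z hz) (hP.par.lvl z hz))
  have hetc : ∀ θ O, PE f s r θ O → ∀ z ∈ O, ContinuousAt (fun y => eta2a (n := 2) f θ y) z := by
    intro θ O hP z hz
    obtain ⟨q, hq, hq0, hqe⟩ := eta2a_norm (n := 2) hP.par hz (han _ (hP.lt z hz))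
      (hsm _ (hP.ne z hz) (hP.lt z hz) (hP.par.lvl z hz))
    exact (hq.continuousAt.norm.pow 2).congr hqe.symm
  constructor
  · intro θ O hP z hz
    refine ContinuousAt.continuousWithinAt ?_
    have hO := hP.par.isOpen
    have h1 := cc_congr_cH (l := pure (0 : PP)) hO (CI.const hO (hu.sm θ O hP) 0) hz
      (posDef_hess ((hu.sm θ O hP).contDiffAt (hO.mem_nhds hz)) (hu.pos θ O hP z hz)).det_pos.ne'
    have h2 := Complex.continuous_re.continuousAt.comp (cc_const h1)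
    refine (h2.div (hetc θ O hP z hz) (hpos θ O hP z hz).ne').congr ?_
    filter_upwards [hO.mem_nhds hz] with y hy
    exact (eq_div_of_mul_eq (hpos θ O hP y hy).ne' ((hD θ O hP).2 u hu y hy)).symm
  · intro χ hχ θ O hP z hz
    refine ContinuousAt.continuousWithinAt ?_
    have hO := hP.par.isOpen
    have e1 := cc_cH (l := pure (0 : PP)) hO (CI.const hO (hu.sm θ O hP) 0) hz
    have e2 := cc_cH (l := pure (0 : PP)) hO (CI.const hO (contDiffOn_par hP.par hχ) 0) hz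
    have h2 := cc_const (CC.re (cc_pd e1 e2))
    refine (h2.div (hetc θ O hP z hz) (hpos θ O hP z hz).ne').congr ?_
    filter_upwards [hO.mem_nhds hz] with y hy
    exact (eq_div_of_mul_eq (hpos θ O hP y hy).ne' ((hD θ O hP).1 u χ (hu.sm θ O hP)
      (contDiffOn_par hP.par hχ) y hy)).symm

/-! ### convergence of `|η|²` -/

section Eta

variable {Φ : E3 × PP → ℂ} {τ₀ : PP} {Θ : Cn 2 × PP → E3} {N : Set PP}

theorem tendsto_swap (hl : l ≤ 𝓝 τ₀) : Tendsto (fun p : PP × Cn 2 => (p.2, p.1)) (l ×ˢ 𝓝 z)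
    (𝓝 (z, τ₀)) := by
  rw [nhds_prod_eq]
  exact tendsto_snd.prodMk (tendsto_fst.mono_right hl)

/-- the point `(Θ(z,τ),τ)` -/
theorem tendsto_pt (hl : l ≤ 𝓝 τ₀) (hN : N ∈ 𝓝 τ₀) (hΘ : AnalyticOnNhd ℂ Θ (O ×ˢ N)) (hz : z ∈ O) :
    Tendsto (fun p : PP × Cn 2 => (Θ (p.2, p.1), p.1)) (l ×ˢ 𝓝 z) (𝓝 (Θ (z, τ₀), τ₀)) := by
  have h1 : ContinuousAt Θ (z, τ₀) := (hΘ _ ⟨hz, mem_of_mem_nhds hN⟩).continuousAt
  rw [nhds_prod_eq]
  exact (Tendsto.comp h1 (tendsto_swap hl)).prodMk (tendsto_fst.mono_right hl)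

theorem cc_DF (hl : l ≤ 𝓝 τ₀) (hO : IsOpen O) (hN : N ∈ 𝓝 τ₀)
    (hΘ : AnalyticOnNhd ℂ Θ (O ×ˢ N)) (hz : z ∈ O) (a : Fin 2) (k : Fin 3) :
    CC l (fun τ y => DF (fun y => Θ (y, τ)) y a k) (fun y => DF (fun y => Θ (y, τ₀)) y a k) z := by
  set g : Cn 2 × PP → ℂ := fun q => Θ q k with hg
  have hga : AnalyticOnNhd ℂ g (O ×ˢ N) := fun q hq =>
    ((ContinuousLinearMap.proj (R := ℂ) (φ := fun _ : Fin 3 => ℂ) k).analyticAt _).comp (hΘ q hq)
  have hτ := mem_of_mem_nhds hN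
  have h1 : ∀ τ ∈ N, ∀ y ∈ O, fderiv ℂ g (y, τ) (EuclideanSpace.single a 1, 0) =
      DF (fun y => Θ (y, τ)) y a k := by
    intro τ hτ y hy
    have h5 : HasFDerivAt g (fderiv ℂ g (y, τ)) (y, τ) :=
      (hga _ ⟨hy, hτ⟩).differentiableAt.hasFDerivAt
    have h6 := (HasFDerivAt.comp y (g := g) (f := fun e : Cn 2 => (e, τ)) h5
      (hasFDerivAt_prodMk_left y τ)).fderiv
    show _ = fderiv ℂ (fun y => g (y, τ)) y (EuclideanSpace.single a 1)
    have h7 : fderiv ℂ (fun y => g (y, τ)) y = _ := h6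
    rw [h7]
    rfl
  have h2 : ContinuousAt (fun q => fderiv ℂ g q (EuclideanSpace.single a 1, 0)) (z, τ₀) := by
    have h3 := (hga (z, τ₀) ⟨hz, hτ⟩).fderiv.continuousAt
    exact ((ContinuousLinearMap.apply ℂ ℂ
      ((EuclideanSpace.single a 1, 0) : Cn 2 × PP)).continuous.continuousAt).comp h3
  have h3 : CC l (fun τ y => fderiv ℂ g (y, τ) (EuclideanSpace.single a 1, 0))
      (fun y => fderiv ℂ g (y, τ₀) (EuclideanSpace.single a 1, 0)) z :=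
    Tendsto.comp h2 (tendsto_swap hl)
  have hev : ∀ᶠ τ in l, τ ∈ N := hl hN
  exact h3.congrO hO hz (hev.mono fun τ hτ => h1 τ hτ) (h1 τ₀ hτ)

theorem cc_gra (hl : l ≤ 𝓝 τ₀) (hN : N ∈ 𝓝 τ₀) (hΘ : AnalyticOnNhd ℂ Θ (O ×ˢ N)) (hz : z ∈ O)
    (hΦ : AnalyticAt ℂ Φ (Θ (z, τ₀), τ₀)) (k : Fin 3) :
    CC l (fun τ y => gra (n := 2) (fun x => Φ (x, τ)) (Θ (y, τ)) k)
      (fun y => gra (n := 2) (fun x => Φ (x, τ₀)) (Θ (y, τ₀)) k) z := by
  have hpt := tendsto_pt hl hN hΘ hz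
  have h1 : ∀ q : E3 × PP, AnalyticAt ℂ Φ q → fderiv ℂ Φ q (Pi.single k 1, 0) =
      gra (n := 2) (fun x => Φ (x, q.2)) q.1 k := by
    rintro ⟨x, τ⟩ hq
    have h5 : HasFDerivAt Φ (fderiv ℂ Φ (x, τ)) (x, τ) := hq.differentiableAt.hasFDerivAt
    have h6 := (HasFDerivAt.comp x (g := Φ) (f := fun e : E3 => (e, τ)) h5
      (hasFDerivAt_prodMk_left x τ)).fderiv
    show _ = fderiv ℂ (fun x => Φ (x, τ)) x (Pi.single k 1)
    have h7 : fderiv ℂ (fun x => Φ (x, τ)) x = _ := h6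
    rw [h7]
    rfl
  have h2 : ContinuousAt (fun q => fderiv ℂ Φ q (Pi.single k 1, 0)) (Θ (z, τ₀), τ₀) := by
    have h3 := hΦ.fderiv.continuousAt
    exact ((ContinuousLinearMap.apply ℂ ℂ
      ((Pi.single k 1, 0) : E3 × PP)).continuous.continuousAt).comp h3
  have h3 : Tendsto (fun p : PP × Cn 2 => fderiv ℂ Φ (Θ (p.2, p.1), p.1) (Pi.single k 1, 0))
      (l ×ˢ 𝓝 z) (𝓝 (fderiv ℂ Φ (Θ (z, τ₀), τ₀) (Pi.single k 1, 0))) := Tendsto.comp h2 hpt
  unfold CC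
  rw [h1 _ hΦ] at h3
  refine h3.congr' ?_
  filter_upwards [hpt.eventually hΦ.eventually_analyticAt] with p hp
  exact h1 _ hp

theorem cc_eta (hl : l ≤ 𝓝 τ₀) (hO : IsOpen O) (hN : N ∈ 𝓝 τ₀)
    (hΘ : AnalyticOnNhd ℂ Θ (O ×ˢ N)) (hz : z ∈ O) (hΦ : AnalyticAt ℂ Φ (Θ (z, τ₀), τ₀))
    (h0 : fderiv ℂ (fun x => Φ (x, τ₀)) (Θ (z, τ₀)) ≠ 0) :
    CC l (fun τ y => eta2a (n := 2) (fun x => Φ (x, τ)) (fun y => Θ (y, τ)) y)
      (fun y => eta2a (n := 2) (fun x => Φ (x, τ₀)) (fun y => Θ (y, τ₀)) y) z := by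
  have h1 : CC l (fun τ y => DF (fun y => Θ (y, τ)) y) (fun y => DF (fun y => Θ (y, τ₀)) y) z :=
    tendsto_pi_nhds.2 fun a => tendsto_pi_nhds.2 fun k => cc_DF hl hO hN hΘ hz a k
  have hcg : Continuous fun m : Matrix (Fin 2) (Fin 3) ℂ => (gdet m).re := by
    unfold gdet
    have h3 : Continuous fun m : Matrix (Fin 2) (Fin 3) ℂ => m * mᴴ :=
      continuous_id.matrix_mul continuous_id.matrix_conjTranspose
    exact Complex.continuous_re.comp h3.matrix_det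
  have h2 := h1.comp (g := fun m : Matrix (Fin 2) (Fin 3) ℂ => (gdet m).re) hcg.continuousAt
  have hn : Continuous (nsq : E3 → ℝ) := by
    unfold nsq
    fun_prop
  have h3 : CC l (fun τ y => gra (n := 2) (fun x => Φ (x, τ)) (Θ (y, τ)))
      (fun y => gra (n := 2) (fun x => Φ (x, τ₀)) (Θ (y, τ₀))) z :=
    tendsto_pi_nhds.2 fun k => cc_gra hl hN hΘ hz hΦ k
  have h4 := h3.comp (g := fun v : E3 => nsq v) hn.continuousAt
  exact CC.rdiv h2 h4 (nga_pos h0).ne'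

end Eta

/-- **`CvDStmt`** -/
theorem cvDStmt : CvDStmt := by
  intro Φ τ₀ l r C w u hF χ hχ
  have hr := hF.r_pos
  have key : ∀ O N Θ, Chart Φ r τ₀ O N Θ → ∀ z ∈ O,
      IsOpen O ∧ AnalyticAt ℂ Φ (Θ (z, τ₀), τ₀) ∧
      fderiv ℂ (fun x => Φ (x, τ₀)) (Θ (z, τ₀)) ≠ 0 := by
    intro O N Θ hC z hz
    have hP := hC.par τ₀ (mem_of_mem_nhds hC.nhd)
    exact ⟨hP.par.isOpen, hF.an _ (hP.lt z hz).le,
      hF.sm0 _ (hP.ne z hz) (hP.lt z hz).le (hP.par.lvl z hz)⟩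
  have hCI : ∀ O N Θ, Chart Φ r τ₀ O N Θ →
      CI l O (fun τ y => w τ (Θ (y, τ))) (fun y => u (Θ (y, τ₀))) := by
    intro O N Θ hC
    have hP := hC.par τ₀ (mem_of_mem_nhds hC.nhd)
    refine CI.of_cvOn hP.par.isOpen ?_ (hF.ke0.1.sm _ _ hP) (hF.conv O N Θ hC)
    have hev : ∀ᶠ τ in l, τ ∈ N := hF.lim hC.nhd
    filter_upwards [hF.ke, hev] with τ hτ hτN
    exact hτ.1.sm _ _ (hC.par τ hτN)
  have hχI : ∀ O N Θ, Chart Φ r τ₀ O N Θ →
      CI l O (fun τ y => χ (Θ (y, τ))) (fun y => χ (Θ (y, τ₀))) := by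
    intro O N Θ hC
    have hP := hC.par τ₀ (mem_of_mem_nhds hC.nhd)
    refine CI.joint (f := fun q => χ (Θ q)) hF.lim hP.par.isOpen hC.nhd ?_
    have h1 : ContDiffOn ℝ ∞ Θ (O ×ˢ N) := fun q hq =>
      (((hC.an q hq).contDiffAt (n := ∞)).restrict_scalars ℝ).contDiffWithinAt
    exact hχ.sm.comp_contDiffOn h1
  -- the good set
  have good : ∀ O N Θ, Chart Φ r τ₀ O N Θ → ∀ z ∈ O, ∀ᶠ p : PP × Cn 2 in l ×ˢ 𝓝 z,
      p.2 ∈ O ∧ PE (fun x => Φ (x, p.1)) 0 r (fun y => Θ (y, p.1)) O ∧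
      AnalyticAt ℂ (fun x => Φ (x, p.1)) (Θ (p.2, p.1)) ∧
      fderiv ℂ (fun x => Φ (x, p.1)) (Θ (p.2, p.1)) ≠ 0 ∧
      KEon (fun x => Φ (x, p.1)) 0 r (w p.1) := by
    intro O N Θ hC z hz
    obtain ⟨hO, hΦ, h0⟩ := key O N Θ hC z hz
    have hev : ∀ᶠ τ in l, τ ∈ N := hF.lim hC.nhd
    have e1 := (hev.and (hF.sm.and hF.ke)).prod_mk (hO.mem_nhds hz : ∀ᶠ y in 𝓝 z, y ∈ O)
    have e2 := (tendsto_pt hF.lim hC.nhd hC.an hz).eventually hΦ.eventually_analyticAt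
    filter_upwards [e1, e2] with p hp hp2
    have hP := hC.par p.1 hp.1.1
    refine ⟨hp.2, hP, ?_, hp.1.2.1 _ (hP.ne _ hp.2) (hP.lt _ hp.2).le (hP.par.lvl _ hp.2),
      hp.1.2.2.1⟩
    have h2 : AnalyticAt ℂ (fun x : E3 => (x, p.1)) (Θ (p.2, p.1)) :=
      analyticAt_id.prod analyticAt_const
    exact AnalyticAt.comp (g := Φ) (f := fun x : E3 => (x, p.1)) hp2 h2
  have hct := ctDStmt (fun x => Φ (x, τ₀)) 0 r hr
    (fun x hx => by
      have h2 : AnalyticAt ℂ (fun x : E3 => (x, τ₀)) x := analyticAt_id.prod analyticAt_const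
      exact AnalyticAt.comp (g := Φ) (f := fun x : E3 => (x, τ₀)) (hF.an x hx.le) h2)
    (fun x hx hx' hx'' => hF.sm0 x hx hx'.le hx'') u hF.ke0.1
  constructor
  · intro O N Θ hC K hKO hK
    have hP := hC.par τ₀ (mem_of_mem_nhds hC.nhd)
    refine tendstoUniformlyOn_of_cc hK (fun z hz => ?_) fun z hz =>
      (hct.1 _ _ hP).continuousAt (hP.par.isOpen.mem_nhds (hKO hz))
    have hz := hKO hz
    obtain ⟨hO, hΦ, h0⟩ := key O N Θ hC z hz
    have hI := hCI O N Θ hC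
    have hne : (hess (fun y => u (Θ (y, τ₀))) z).det ≠ 0 :=
      (posDef_hess (hI.sm0.contDiffAt (hO.mem_nhds hz)) (hF.ke0.1.pos _ _ hP z hz)).det_pos.ne'
    have h1 := CC.rdiv (CC.re (cc_congr_cH hO hI hz hne))
      (cc_eta hF.lim hO hC.nhd hC.an hz hΦ h0) (Loc_835.eta2a_pos hP.par hz h0).ne'
    refine h1.congr ?_ ?_
    · filter_upwards [good O N Θ hC z hz] with p hp
      obtain ⟨hp1, hp2, hp3, hp4, hp5⟩ := hp
      have hsm : ∀ y ∈ O, ContDiffAt ℝ ∞ (fun y => w p.1 (Θ (y, p.1))) y := fun y hy =>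
        (hp5.sm _ _ hp2).contDiffAt (hO.mem_nhds hy)
      have hne' : (cH (fun y => w p.1 (Θ (y, p.1))) p.2).det ≠ 0 := by
        rw [cH_eq_hess (hsm _ hp1)]
        exact (posDef_hess (hsm _ hp1) (hp5.pos _ _ hp2 _ hp1)).det_pos.ne'
      have h2 := c2d_eq (u := w p.1) hp2.par hp1 hp3 hp4 hsm hne'
      exact (eq_div_of_mul_eq (Loc_835.eta2a_pos hp2.par hp1 hp4).ne' h2).symm
    · have hsm : ∀ y ∈ O, ContDiffAt ℝ ∞ (fun y => u (Θ (y, τ₀))) y := fun y hy =>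
        hI.sm0.contDiffAt (hO.mem_nhds hy)
      have hne' : (cH (fun y => u (Θ (y, τ₀))) z).det ≠ 0 := by
        rw [cH_eq_hess (hsm _ hz)]
        exact hne
      have hfa : AnalyticAt ℂ (fun x => Φ (x, τ₀)) (Θ (z, τ₀)) := by
        have h2 : AnalyticAt ℂ (fun x : E3 => (x, τ₀)) (Θ (z, τ₀)) :=
          analyticAt_id.prod analyticAt_const
        exact AnalyticAt.comp (g := Φ) (f := fun x : E3 => (x, τ₀)) hΦ h2
      have h2 := c2d_eq (u := u) hP.par hz hfa h0 hsm hne'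
      exact (eq_div_of_mul_eq (Loc_835.eta2a_pos hP.par hz h0).ne' h2).symm
  · intro O N Θ hC K hKO hK
    have hP := hC.par τ₀ (mem_of_mem_nhds hC.nhd)
    refine tendstoUniformlyOn_of_cc hK (fun z hz => ?_) fun z hz =>
      (hct.2 χ hχ.sm _ _ hP).continuousAt (hP.par.isOpen.mem_nhds (hKO hz))
    have hz := hKO hz
    obtain ⟨hO, hΦ, h0⟩ := key O N Θ hC z hz
    have hI := hCI O N Θ hC
    have hJ := hχI O N Θ hC
    have h1 := CC.rdiv (CC.re (cc_pd (cc_cH hO hI hz) (cc_cH hO hJ hz)))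
      (cc_eta hF.lim hO hC.nhd hC.an hz hΦ h0) (Loc_835.eta2a_pos hP.par hz h0).ne'
    refine h1.congr ?_ ?_
    · filter_upwards [good O N Θ hC z hz] with p hp
      obtain ⟨hp1, hp2, hp3, hp4, hp5⟩ := hp
      have h2 := mxd_eq (a := w p.1) (b := χ) hp2.par hp1 hp3 hp4
        ((hp5.sm _ _ hp2).contDiffAt (hO.mem_nhds hp1))
        ((contDiffOn_par hp2.par hχ.sm).contDiffAt (hO.mem_nhds hp1))
      exact (eq_div_of_mul_eq (Loc_835.eta2a_pos hp2.par hp1 hp4).ne' h2).symm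
    · have hfa : AnalyticAt ℂ (fun x => Φ (x, τ₀)) (Θ (z, τ₀)) := by
        have h2 : AnalyticAt ℂ (fun x : E3 => (x, τ₀)) (Θ (z, τ₀)) :=
          analyticAt_id.prod analyticAt_const
        exact AnalyticAt.comp (g := Φ) (f := fun x : E3 => (x, τ₀)) hΦ h2
      have h2 := mxd_eq (a := u) (b := χ) hP.par hz hfa h0
        (hI.sm0.contDiffAt (hO.mem_nhds hz))
        ((contDiffOn_par hP.par hχ.sm).contDiffAt (hO.mem_nhds hz))
      exact (eq_div_of_mul_eq (Loc_835.eta2a_pos hP.par hz h0).ne' h2).symm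

end

end Crest.Agent.R257.Ked4_397
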