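import Crest.Agent.R257.LossD_309
import Crest.Agent.R257.OutA_309
import Crest.Agent.R257.Ked4_397
import Crest.Agent.R257.Vol_397

-- ▼ part R257/OxCv1_397
section

/-!
# R257 (S0395), leaf OxCvStmt (helper397), part 1: `oxd` in a parametrisation

* `bv`     : `HO u φ θ`, `dV h θ` form a `BV`
* `chg`    : change of the parametrisation
* `oxd_eq` : `oxd` in a parametrisation, where `dh ≠ 0`
* `oxd_zero` : `oxd = 0` where `χ` is locally constant
* `dV_ne_iff` : `dV h θ z ≠ 0 ↔ ∃ v ∈ ker df, dh v ≠ 0`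
-/

set_option autoImplicit false
set_option linter.unusedSectionVars false

open Set Filter Topology Complex
open scoped ContDiff Matrix ComplexConjugate ComplexOrder

namespace Crest.Agent.R257.OxCv1_397

open Crest.Agent.R275.Geo Crest.Agent.R275.EDR890
open Crest.Agent.R273.Fock_243 Crest.Agent.R273.Calc_243
open Crest.Agent.R273.Bkn_243 Crest.Agent.R273.Pos_243 Crest.Agent.R273.BochA_101
open Crest.Agent.R273.BochB_101
open Crest.Agent.R273.BochC_101 Crest.Agent.R273.BochD_101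
open Crest.Agent.R273.Hess_333 Crest.Agent.R273.HessB_333
open Crest.Agent.R273.YauDefs_635 Crest.Agent.R273.YauMax_635
open Crest.Agent.R257.C2F2_625 Crest.Agent.R257.C2F3_625
open Crest.Agent.R257.C2F4_335 Crest.Agent.R257.C2F5_335
open Crest.Agent.R257.Defs_219
open Crest.Agent.R257.Gram_835 Crest.Agent.R257.Aff_835
open Crest.Agent.R257.KED_952 Crest.Agent.R257.Ked1_397 Crest.Agent.R257.Ked2_397
open Crest.Agent.R257.LossD_309 Crest.Agent.R257.OutB_309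

noncomputable section

variable {f : E3 → ℂ} {s : ℂ} {θ : Cn 2 → E3} {O : Set (Cn 2)} {u φ χ : E3 → ℝ} {h : E3 → ℂ}

/-- local data: `u`, `φ` smooth on the parametrisation, `∂∂̄u > 0`, `h` analytic -/
structure LD (u φ : E3 → ℝ) (h : E3 → ℂ) (θ : Cn 2 → E3) (O : Set (Cn 2)) : Prop where
  op : IsOpen O
  hol : DifferentiableOn ℂ θ O
  su : ∀ y ∈ O, ContDiffAt ℝ ∞ (fun z => u (θ z)) y
  pu : ∀ y ∈ O, (cH (fun z => u (θ z)) y).PosDef
  sφ : ∀ y ∈ O, ContDiffAt ℝ ∞ (fun z => φ (θ z)) y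
  ah : ∀ y ∈ O, AnalyticAt ℂ h (θ y)

theorem smM_HO (d : LD u φ h θ O) {z : Cn 2} (hz : z ∈ O) : SmM z (HO u φ θ) := by
  have h1 : SmM z (fun y => (hess (fun z => u (θ z)) y)⁻¹) := by
    refine SmM.inv (fun S T => contDiffAt_hess (d.su z hz) S T) ?_
    rw [← cH_eq_hess (d.su z hz)]
    exact (d.pu z hz).det_pos.ne'
  have h2 : Sm z (fun y => ((Real.exp (-φ (θ y)) : ℝ) : ℂ)) := by
    have h3 : ContDiffAt ℝ ∞ (fun y => Real.exp (-φ (θ y))) z := (d.sφ z hz).neg.exp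
    exact Complex.ofRealCLM.contDiff.contDiffAt.comp z h3
  intro S T
  refine (h2.mul (h1 S T)).congr_of_eventuallyEq ?_
  filter_upwards [d.op.mem_nhds hz] with y hy
  show (((Real.exp (-φ (θ y)) : ℝ) : ℂ) • (cH (fun z => u (θ z)) y)⁻¹) S T = _
  rw [cH_eq_hess (d.su y hy)]
  rfl

theorem pos_HO (d : LD u φ h θ O) {z : Cn 2} (hz : z ∈ O) : (HO u φ θ z).PosDef := by
  have h1 : (cH (fun z => u (θ z)) z)⁻¹.PosDef := (d.pu z hz).inv
  have h2 : (0 : ℂ) < ((Real.exp (-φ (θ z)) : ℝ) : ℂ) := by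
    exact_mod_cast Real.exp_pos _
  exact h1.smul h2


theorem LD.anθ (d : LD u φ h θ O) : AnalyticOnNhd ℂ θ O :=
  Crest.Agent.R266.SCV.analyticOnNhd_of_differentiableOn d.op d.hol

theorem LD.anh (d : LD u φ h θ O) : AnalyticOnNhd ℂ (fun y => h (θ y)) O := fun y hy =>
  AnalyticAt.fun_comp (g := h) (d.ah y hy) (d.anθ y hy)

theorem hol_dV (d : LD u φ h θ O) {z : Cn 2} (hz : z ∈ O) (i : Fin 2) :
    ∀ᶠ y in 𝓝 z, DifferentiableAt ℂ (fun w => dV h θ w i) y := by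
  filter_upwards [d.op.mem_nhds hz] with y hy
  exact (d.anh.fderiv y hy).differentiableAt.clm_apply (differentiableAt_const _)

theorem bv (d : LD u φ h θ O) {z : Cn 2} (hz : z ∈ O) : BV (HO u φ θ) (dV h θ) z where
  mH := by
    filter_upwards [d.op.mem_nhds hz] with y hy
    exact smM_HO d hy
  mP := by
    filter_upwards [d.op.mem_nhds hz] with y hy
    exact pos_HO d hy
  mV := hol_dV d hz

/-- the frame change -/
def FT (T : Cn 2 → Cn 2) (w : Cn 2) : Matrix (Fin 2) (Fin 2) ℂ := ((Jac T w)ᵀ)⁻¹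

theorem dV_trans (d : LD u φ h θ O) {θ' : Cn 2 → E3} {z' : Cn 2} {T : Cn 2 → Cn 2}
    (hT : ∀ᶠ w in 𝓝 z', DifferentiableAt ℂ T w)
    (hTe : ∀ᶠ w in 𝓝 z', T w ∈ O ∧ θ' w = θ (T w)) :
    dV h θ' z' = (Jac T z')ᵀ *ᵥ dV h θ (T z') := by
  have e : (fun w => h (θ' w)) =ᶠ[𝓝 z'] fun w => (fun y => h (θ y)) (T w) := by
    filter_upwards [hTe] with w hw
    rw [hw.2]
  have hO := hTe.self_of_nhds.1
  have h1 : DifferentiableAt ℂ (fun y => h (θ y)) (T z') := (d.anh _ hO).differentiableAt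
  have h2 : HasFDerivAt (fun w => (fun y => h (θ y)) (T w))
      ((fderiv ℂ (fun y => h (θ y)) (T z')).comp (fderiv ℂ T z')) z' :=
    HasFDerivAt.comp z' (g := fun y => h (θ y)) h1.hasFDerivAt hT.self_of_nhds.hasFDerivAt
  funext i
  show fderiv ℂ (fun w => h (θ' w)) z' (EuclideanSpace.single i 1) = _
  rw [e.fderiv_eq, h2.fderiv]
  show fderiv ℂ (fun y => h (θ y)) (T z') (fderiv ℂ T z' (EuclideanSpace.single i 1)) = _
  have h3 : fderiv ℂ T z' (EuclideanSpace.single i 1) =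
      ∑ a, Jac T z' a i • (EuclideanSpace.single a (1 : ℂ) : Cn 2) := by
    ext k
    fin_cases k <;> simp [Jac]
  rw [h3, map_sum]
  simp only [map_smul, smul_eq_mul, Matrix.mulVec, dotProduct, Matrix.transpose_apply]
  rfl

theorem chg (d : LD u φ h θ O) {θ' : Cn 2 → E3} {z' : Cn 2} {T : Cn 2 → Cn 2}
    (hT : ∀ᶠ w in 𝓝 z', DifferentiableAt ℂ T w)
    (hTe : ∀ᶠ w in 𝓝 z', T w ∈ O ∧ θ' w = θ (T w)) (hdet : (Jac T z').det ≠ 0) :
    Chg (HO u φ θ') (dV h θ') (HO u φ θ) (dV h θ) T (FT T) z' := by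
  have hJ := fun S S' => J_hol hT S S'
  have hJd : ∀ᶠ w in 𝓝 z', (Jac T w).det ≠ 0 := by
    have h1 : ContinuousAt (fun w => (Jac T w).det) z' := by
      have e : (fun w => (Jac T w).det) =
          fun w => Jac T w 0 0 * Jac T w 1 1 - Jac T w 0 1 * Jac T w 1 0 :=
        funext fun w => Matrix.det_fin_two _
      rw [e]
      exact (((hJ 0 0).self_of_nhds.mul (hJ 1 1).self_of_nhds).sub
        ((hJ 0 1).self_of_nhds.mul (hJ 1 0).self_of_nhds)).continuousAt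
    exact h1.eventually_ne hdet
  refine ⟨hT, ?_, ?_, ?_, ?_⟩
  · -- holomorphy
    have e : ∀ S S', (fun w => FT T w S S') = fun w =>
        ((Jac T w).det)⁻¹ * ((Jac T w)ᵀ).adjugate S S' := by
      intro S S'
      funext w
      unfold FT
      rw [Matrix.inv_def, Ring.inverse_eq_inv, Matrix.det_transpose]
      rfl
    intro S S'
    rw [e S S']
    filter_upwards [hJ 0 0, hJ 0 1, hJ 1 0, hJ 1 1, hJd] with w a b c e' hd
    have hdd : DifferentiableAt ℂ (fun w => (Jac T w).det) w := by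
      have e : (fun w => (Jac T w).det) =
          fun w => Jac T w 0 0 * Jac T w 1 1 - Jac T w 0 1 * Jac T w 1 0 :=
        funext fun w => Matrix.det_fin_two _
      rw [e]
      exact (a.fun_mul e').fun_sub (b.fun_mul c)
    refine (hdd.inv hd).mul ?_
    simp only [Matrix.adjugate_fin_two]
    fin_cases S <;> fin_cases S' <;> simp <;> assumption
  · unfold FT
    rw [Matrix.det_nonsing_inv, Ring.inverse_eq_inv, Matrix.det_transpose]
    exact inv_ne_zero hdet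
  · filter_upwards [eventually_eventually_nhds.2 hTe, eventually_eventually_nhds.2 hT, hJd]
      with w hw hw' hd
    obtain ⟨a1, a2⟩ := hess_trans hw' hw (a := u) (d.su _ hw.self_of_nhds.1)
    show ((Real.exp (-φ (θ' w)) : ℝ) : ℂ) • (cH (fun z => u (θ' z)) w)⁻¹ = _
    have hJt : ((Jac T w)ᵀ).det ≠ 0 := by rwa [Matrix.det_transpose]
    have hJc : ((Jac T w).map conj).det ≠ 0 := by
      have : ((Jac T w).map conj).det = conj (Jac T w).det := by
        rw [RingHom.map_det]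
        rfl
      rw [this]
      exact (map_ne_zero _).2 hd
    rw [cH_eq_hess a1, a2, hw.self_of_nhds.2]
    unfold pbk FT HO
    rw [cH_eq_hess (d.su _ hw.self_of_nhds.1), Matrix.mul_inv_rev, Matrix.mul_inv_rev,
      Matrix.conjTranspose_nonsing_inv]
    have e2 : ((Jac T w)ᵀ)ᴴ = (Jac T w).map conj := by
      ext i j
      simp
    rw [e2, Matrix.mul_smul, Matrix.smul_mul, Matrix.mul_assoc]
  · filter_upwards [eventually_eventually_nhds.2 hTe, eventually_eventually_nhds.2 hT, hJd]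
      with w hw hw' hd
    have hJt : IsUnit ((Jac T w)ᵀ).det := by
      rw [Matrix.det_transpose]
      exact isUnit_iff_ne_zero.2 hd
    rw [dV_trans d hw' hw, FT, Matrix.mulVec_mulVec, Matrix.nonsing_inv_mul _ hJt,
      Matrix.one_mulVec]

/-- **`oxd` in a parametrisation** -/
theorem oxd_eq (hP : Par (n := 2) f s θ O) (d : LD u φ h θ O) {z : Cn 2} (hz : z ∈ O)
    (hf : AnalyticAt ℂ f (θ z)) (h0 : fderiv ℂ f (θ z) ≠ 0)
    (hχ : ContDiffAt ℝ ∞ (fun z => χ (θ z)) z) (hne : dV h θ z ≠ 0) :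
    oxd f u φ h χ (θ z) * eta2a (n := 2) f θ z =
      (C2F1_625.pd (cH (fun z => χ (θ z)) z) (Gm (HO u φ θ) (dV h θ) z)).re := by
  refine dns_eq (D := fun θ z =>
    (C2F1_625.pd (cH (fun z => χ (θ z)) z) (Gm (HO u φ θ) (dV h θ) z)).re) hP hz hf h0 ?_
  intro θ' z' T hT hTz hTe hdet
  obtain ⟨a1, a2⟩ := hess_trans hT hTe (a := χ) (by rw [hTz]; exact hχ)
  have hc := chg (z' := z') d hT hTe hdet
  have hb : BV (HO u φ θ) (dV h θ) (T z') := by rw [hTz]; exact bv d hz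
  have e1 := hc.gm_eq hb (by rw [hTz]; exact hne)
  show (C2F1_625.pd (cH (fun z => χ (θ' z)) z') (Gm (HO u φ θ') (dV h θ') z')).re = _
  rw [cH_eq_hess a1, cH_eq_hess hχ, a2, e1, pd_pbk, hTz, Complex.mul_conj,
    Complex.normSq_eq_norm_sq, Complex.re_ofReal_mul]

open Classical in
/-- `oxd = 0` where `χ` is locally constant -/
theorem oxd_zero {x : E3} {c : ℝ} (hb : ∀ᶠ y in 𝓝 x, χ y = c) : oxd f u φ h χ x = 0 := by
  unfold oxd dns
  split_ifs with hx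
  · obtain ⟨h1, h2, h3⟩ := hx.choose_spec
    have hc : ContinuousAt hx.choose.1 hx.choose.2.2 :=
      h1.hol.continuousOn.continuousAt (h1.isOpen.mem_nhds h2)
    have h5 : Tendsto hx.choose.1 (𝓝 hx.choose.2.2) (𝓝 x) := by
      have := hc.tendsto
      rwa [h3] at this
    have h4 : (fun z => χ (hx.choose.1 z)) =ᶠ[𝓝 hx.choose.2.2] fun _ => c := h5.eventually hb
    have h6 : cH (fun z => χ (hx.choose.1 z)) hx.choose.2.2 = 0 := by
      rw [KEl_835.cH_congr h4]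
      ext i j
      simp [cH, Crest.Agent.R273.YauDefs_635.D2]
    change (C2F1_625.pd (cH (fun z => χ (hx.choose.1 z)) hx.choose.2.2) _).re / _ = 0
    rw [h6]
    simp [C2F1_625.pd]
  · rfl

/-! ### `dh ≠ 0` on the level -/

theorem exists_lift (hP : Par (n := 2) f s θ O) {z : Cn 2} (hz : z ∈ O)
    (hf : DifferentiableAt ℂ f (θ z)) (h0 : fderiv ℂ f (θ z) ≠ 0) {v : E3}
    (hv : fderiv ℂ f (θ z) v = 0) : ∃ w : Cn 2, fderiv ℂ θ z w = v := by
  set A : Cn 2 →ₗ[ℂ] E3 := (fderiv ℂ θ z : Cn 2 →ₗ[ℂ] E3) with hA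
  set B : E3 →ₗ[ℂ] ℂ := (fderiv ℂ f (θ z) : E3 →ₗ[ℂ] ℂ) with hB
  have hinj : Function.Injective A := by
    refine (injective_iff_map_eq_zero A).2 fun w hw => hP.imm z hz w hw
  have hle : LinearMap.range A ≤ LinearMap.ker B := by
    rintro _ ⟨w, rfl⟩
    exact hP.ker hz hf w
  have h1 : Module.finrank ℂ (LinearMap.range A) = 2 := by
    rw [LinearMap.finrank_range_of_inj hinj]
    simp
  have hs : Function.Surjective B := by
    have hBne : B ≠ 0 := fun h => h0 (by ext1 x; exact LinearMap.congr_fun h x)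
    exact LinearMap.surjective hBne
  have h2 : Module.finrank ℂ (LinearMap.ker B) = 2 := by
    have h3 := B.finrank_range_add_finrank_ker
    rw [LinearMap.range_eq_top.2 hs, finrank_top, Module.finrank_self] at h3
    have h4 : Module.finrank ℂ E3 = 3 := by simp
    omega
  have h3 : LinearMap.range A = LinearMap.ker B :=
    Submodule.eq_of_le_of_finrank_eq hle (h1.trans h2.symm)
  have h4 : v ∈ LinearMap.ker B := hv
  rw [← h3] at h4
  exact h4

theorem dV_apply (hP : Par (n := 2) f s θ O) {z : Cn 2} (hz : z ∈ O)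
    (hh : DifferentiableAt ℂ h (θ z)) (w : Cn 2) :
    fderiv ℂ h (θ z) (fderiv ℂ θ z w) = ∑ i, w i * dV h θ z i := by
  have h1 : fderiv ℂ (fun z => h (θ z)) z = (fderiv ℂ h (θ z)).comp (fderiv ℂ θ z) :=
    (HasFDerivAt.comp z (g := h) hh.hasFDerivAt (hP.diffAt hz).hasFDerivAt).fderiv
  have h2 : w = ∑ i, w i • (EuclideanSpace.single i (1 : ℂ) : Cn 2) := by
    ext k
    fin_cases k <;> simp
  have h3 : fderiv ℂ h (θ z) (fderiv ℂ θ z w) = fderiv ℂ (fun z => h (θ z)) z w := by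
    rw [h1]
    rfl
  rw [h3]
  conv_lhs => rw [h2]
  rw [map_sum]
  simp only [map_smul, smul_eq_mul]
  rfl

theorem dV_ne_iff (hP : Par (n := 2) f s θ O) {z : Cn 2} (hz : z ∈ O)
    (hf : DifferentiableAt ℂ f (θ z)) (h0 : fderiv ℂ f (θ z) ≠ 0)
    (hh : DifferentiableAt ℂ h (θ z)) :
    dV h θ z ≠ 0 ↔ ∃ v, fderiv ℂ f (θ z) v = 0 ∧ fderiv ℂ h (θ z) v ≠ 0 := by
  constructor
  · intro hne
    by_contra hcon
    push Not at hcon
    apply hne
    funext i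
    have h1 := dV_apply hP hz hh (EuclideanSpace.single i 1)
    rw [hcon _ (hP.ker hz hf _)] at h1
    simpa [PiLp.single_apply] using h1.symm
  · rintro ⟨v, hv, hv'⟩ hV
    obtain ⟨w, rfl⟩ := exists_lift hP hz hf h0 hv
    apply hv'
    rw [dV_apply hP hz hh w, hV]
    simp

theorem dV_ne_of_fderiv {z : Cn 2} (h0 : fderiv ℂ (fun z => h (θ z)) z ≠ 0) : dV h θ z ≠ 0 := by
  intro hV
  apply h0
  ext w
  have h2 : w = ∑ i, w i • (EuclideanSpace.single i (1 : ℂ) : Cn 2) := by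
    ext k
    fin_cases k <;> simp
  rw [h2, map_sum]
  refine Finset.sum_eq_zero fun i _ => ?_
  rw [map_smul]
  have h3 : fderiv ℂ (fun z => h (θ z)) z (EuclideanSpace.single i 1) = 0 := congrFun hV i
  rw [h3, smul_zero]

end

end Crest.Agent.R257.OxCv1_397
end

-- ▼ part R257/OxCv2_397
section

/-!
# R257 (S0395), leaf OxCvStmt (helper397), part 2: calculus of convergent families

* `CI.mono`, `CI.add`, `CI.prodMk`, `CI.comp` : closure of `CI` under sums, pairs, smooth maps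
* `CL l z F F₀` : `CI` near `z`; `CL.cc`, `CL.mul`, `CL.inv`, `CL.log`, `CL.dS`, `CL.hess`, ...
-/

set_option autoImplicit false
set_option linter.unusedSectionVars false

open Set Filter Topology Complex
open scoped ContDiff Matrix ComplexConjugate ComplexOrder

namespace Crest.Agent.R257.OxCv2_397

open Crest.Agent.R275.Geo Crest.Agent.R275.EDR890
open Crest.Agent.R273.Fock_243 Crest.Agent.R273.Calc_243
open Crest.Agent.R273.Hess_333 Crest.Agent.R273.HessB_333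
open Crest.Agent.R257.KED_952 (PP)
open Crest.Agent.R257.Ked3_397 Crest.Agent.R257.Ked4_397

noncomputable section

variable {l : Filter PP} {O O' : Set (Cn 2)} {z : Cn 2}
variable {E : Type} [NormedAddCommGroup E] [NormedSpace ℝ E]
  {G : Type} [NormedAddCommGroup G] [NormedSpace ℝ G]

theorem CI.mono {F : PP → Cn 2 → E} {F₀ : Cn 2 → E} (h : CI l O F F₀) (hO : O' ⊆ O) :
    CI l O' F F₀ :=
  ⟨h.sm.mono fun _ hτ => hτ.mono hO, h.sm0.mono hO, fun k z hz => h.cv k z (hO hz)⟩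

theorem CI.add (hO : IsOpen O) {F H : PP → Cn 2 → E} {F₀ H₀ : Cn 2 → E} (h : CI l O F F₀)
    (h' : CI l O H H₀) : CI l O (fun τ y => F τ y + H τ y) (fun y => F₀ y + H₀ y) where
  sm := by filter_upwards [h.sm, h'.sm] with τ a b using a.add b
  sm0 := h.sm0.add h'.sm0
  cv k z hz := by
    have h1 : CC l (fun τ y => iteratedFDeriv ℝ k (F τ) y + iteratedFDeriv ℝ k (H τ) y)
        (fun y => iteratedFDeriv ℝ k F₀ y + iteratedFDeriv ℝ k H₀ y) z :=
      Tendsto.add (h.cv k z hz) (h'.cv k z hz)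
    have key : ∀ (f g : Cn 2 → E), ContDiffOn ℝ ∞ f O → ContDiffOn ℝ ∞ g O → ∀ y ∈ O,
        iteratedFDeriv ℝ k f y + iteratedFDeriv ℝ k g y =
          iteratedFDeriv ℝ k (fun y => f y + g y) y := by
      intro f g hf hg y hy
      have a := (hf.contDiffAt (hO.mem_nhds hy)).of_le
        (show (k : WithTop ℕ∞) ≤ ∞ by exact_mod_cast le_top)
      have b := (hg.contDiffAt (hO.mem_nhds hy)).of_le
        (show (k : WithTop ℕ∞) ≤ ∞ by exact_mod_cast le_top)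
      exact (iteratedFDeriv_add_apply a b).symm
    refine h1.congrO hO hz ?_ (key _ _ h.sm0 h'.sm0)
    filter_upwards [h.sm, h'.sm] with τ a b using key _ _ a b

theorem CI.prodMk (hO : IsOpen O) {F : PP → Cn 2 → E} {F₀ : Cn 2 → E} {H : PP → Cn 2 → G}
    {H₀ : Cn 2 → G} (h : CI l O F F₀) (h' : CI l O H H₀) :
    CI l O (fun τ y => (F τ y, H τ y)) (fun y => (F₀ y, H₀ y)) := by
  have h1 := CI.add hO (h.clm hO (ContinuousLinearMap.inl ℝ E G))
    (h'.clm hO (ContinuousLinearMap.inr ℝ E G))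
  refine h1.congr hO (Eventually.of_forall fun τ y _ => ?_) fun y _ => ?_
  · simp
  · simp

theorem CI.comp_aux (hO : IsOpen O) (k : ℕ) : ∀ {E G : Type} [NormedAddCommGroup E]
    [NormedSpace ℝ E] [NormedAddCommGroup G] [NormedSpace ℝ G] {F : PP → Cn 2 → E}
    {F₀ : Cn 2 → E} (_ : CI l O F F₀) {U : Set E} (_ : IsOpen U) {g : E → G}
    (_ : ContDiffOn ℝ ∞ g U) (_ : ∀ᶠ τ in l, ∀ y ∈ O, F τ y ∈ U) (_ : ∀ y ∈ O, F₀ y ∈ U),
    ∀ z ∈ O, CC l (fun τ => iteratedFDeriv ℝ k fun y => g (F τ y))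
      (iteratedFDeriv ℝ k fun y => g (F₀ y)) z := by
  induction k with
  | zero =>
    intro E G _ _ _ _ F F₀ h U hU g hg hm hm0 z hz
    have h1 : CC l F F₀ z := h.cc hz
    have h2 : CC l (fun τ y => g (F τ y)) (fun y => g (F₀ y)) z :=
      h1.comp ((hg.contDiffAt (hU.mem_nhds (hm0 z hz))).continuousAt)
    have h3 := (continuousMultilinearCurryFin0 ℝ (Cn 2) G).symm.continuous
    exact h3.continuousAt.tendsto.comp h2
  | succ k ih =>
    intro E G _ _ _ _ F F₀ h U hU g hg hm hm0 z hz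
    set g' : E × (Cn 2 →L[ℝ] E) → (Cn 2 →L[ℝ] G) := fun q => (_root_.fderiv ℝ g q.1).comp q.2
      with hg'
    have hgs : ContDiffOn ℝ ∞ g' (U ×ˢ univ) := by
      have h1 : ContDiffOn ℝ ∞ (_root_.fderiv ℝ g) U := hg.fderiv_of_isOpen hU (m := ∞) le_rfl
      exact (h1.comp contDiffOn_fst fun q hq => hq.1).clm_comp contDiffOn_snd
    have h1 := ih (CI.prodMk hO h (h.fderiv hO)) (hU.prod isOpen_univ) hgs
      (hm.mono fun τ hτ y hy => ⟨hτ y hy, mem_univ _⟩) (fun y hy => ⟨hm0 y hy, mem_univ _⟩) z hz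
    have h2 := (continuousMultilinearCurryRightEquiv' ℝ k (Cn 2) G).symm.continuous
    have h3 : ∀ (f : Cn 2 → E), ContDiffOn ℝ ∞ f O → (∀ y ∈ O, f y ∈ U) → ∀ y ∈ O,
        (continuousMultilinearCurryRightEquiv' ℝ k (Cn 2) G).symm
          (iteratedFDeriv ℝ k (fun y => g' (f y, _root_.fderiv ℝ f y)) y) =
            iteratedFDeriv ℝ (k + 1) (fun y => g (f y)) y := by
      intro f hf hfU y hy
      rw [iteratedFDeriv_succ_eq_comp_right, Function.comp_apply]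
      have h4 : (fun y => g' (f y, _root_.fderiv ℝ f y)) =ᶠ[𝓝 y]
          fun y' => _root_.fderiv ℝ (fun y => g (f y)) y' := by
        filter_upwards [hO.mem_nhds hy] with w hw
        have h5 : HasFDerivAt g (_root_.fderiv ℝ g (f w)) (f w) :=
          ((hg.contDiffAt (hU.mem_nhds (hfU w hw))).differentiableAt (by simp)).hasFDerivAt
        have h6 : HasFDerivAt f (_root_.fderiv ℝ f w) w :=
          ((hf.contDiffAt (hO.mem_nhds hw)).differentiableAt (by simp)).hasFDerivAt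
        exact (h5.comp w h6).fderiv.symm
      rw [(h4.iteratedFDeriv ℝ k).eq_of_nhds]
    have h4 := h1.comp (g := (continuousMultilinearCurryRightEquiv' ℝ k (Cn 2) G).symm)
      h2.continuousAt
    refine h4.congrO hO hz ?_ (h3 _ h.sm0 hm0)
    filter_upwards [h.sm, hm] with τ a b using h3 _ a b

theorem CI.comp (hO : IsOpen O) {F : PP → Cn 2 → E} {F₀ : Cn 2 → E} (h : CI l O F F₀)
    {U : Set E} (hU : IsOpen U) {g : E → G} (hg : ContDiffOn ℝ ∞ g U)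
    (hm : ∀ᶠ τ in l, ∀ y ∈ O, F τ y ∈ U) (hm0 : ∀ y ∈ O, F₀ y ∈ U) :
    CI l O (fun τ y => g (F τ y)) (fun y => g (F₀ y)) where
  sm := by filter_upwards [h.sm, hm] with τ a b using hg.comp a b
  sm0 := hg.comp h.sm0 hm0
  cv k z hz := CI.comp_aux hO k h hU hg hm hm0 z hz

/-! ### local version -/

/-- convergence of all derivatives near `z` -/
def CL (l : Filter PP) (z : Cn 2) (F : PP → Cn 2 → E) (F₀ : Cn 2 → E) : Prop :=
  ∃ O : Set (Cn 2), IsOpen O ∧ z ∈ O ∧ CI l O F F₀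

theorem CI.cl {F : PP → Cn 2 → E} {F₀ : Cn 2 → E} (h : CI l O F F₀) (hO : IsOpen O)
    (hz : z ∈ O) : CL l z F F₀ := ⟨O, hO, hz, h⟩

theorem CL.cc {F : PP → Cn 2 → E} {F₀ : Cn 2 → E} (h : CL l z F F₀) : CC l F F₀ z := by
  obtain ⟨O, -, hz, h⟩ := h
  exact h.cc hz

theorem CL.clm {F : PP → Cn 2 → E} {F₀ : Cn 2 → E} (h : CL l z F F₀) (L : E →L[ℝ] G) :
    CL l z (fun τ y => L (F τ y)) (fun y => L (F₀ y)) := by
  obtain ⟨O, hO, hz, h⟩ := h
  exact ⟨O, hO, hz, h.clm hO L⟩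

theorem CL.prodMk {F : PP → Cn 2 → E} {F₀ : Cn 2 → E} {H : PP → Cn 2 → G} {H₀ : Cn 2 → G}
    (h : CL l z F F₀) (h' : CL l z H H₀) :
    CL l z (fun τ y => (F τ y, H τ y)) (fun y => (F₀ y, H₀ y)) := by
  obtain ⟨O, hO, hz, h⟩ := h
  obtain ⟨O', hO', hz', h'⟩ := h'
  exact ⟨O ∩ O', hO.inter hO', ⟨hz, hz'⟩, CI.prodMk (hO.inter hO') (CI.mono h inter_subset_left)
    (CI.mono h' inter_subset_right)⟩

theorem CL.comp {F : PP → Cn 2 → E} {F₀ : Cn 2 → E} (h : CL l z F F₀) {U : Set E}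
    (hU : IsOpen U) {g : E → G} (hg : ContDiffOn ℝ ∞ g U) (h0 : F₀ z ∈ U) :
    CL l z (fun τ y => g (F τ y)) (fun y => g (F₀ y)) := by
  obtain ⟨O, hO, hz, h⟩ := h
  have h1 : Tendsto (fun p : PP × Cn 2 => F p.1 p.2) (l ×ˢ 𝓝 z) (𝓝 (F₀ z)) := h.cc hz
  have h2 := h1 (hU.mem_nhds h0)
  obtain ⟨A, hA, B, hB, hAB⟩ := Filter.mem_prod_iff.1 h2
  have h3 : ContinuousAt F₀ z := (h.sm0.contDiffAt (hO.mem_nhds hz)).continuousAt
  have h4 := h3 (hU.mem_nhds h0)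
  obtain ⟨O', hO's, hO', hz'⟩ := mem_nhds_iff.1 (inter_mem (inter_mem hB h4) (hO.mem_nhds hz))
  refine ⟨O', hO', hz', CI.comp hO' (CI.mono h fun y hy => (hO's hy).2) hU hg ?_
    fun y hy => (hO's hy).1.2⟩
  filter_upwards [hA] with τ hτ y hy
  exact hAB (mk_mem_prod hτ (hO's hy).1.1)

theorem CL.congr {F F' : PP → Cn 2 → E} {F₀ F₀' : Cn 2 → E} (h : CL l z F F₀) (hO : IsOpen O)
    (hz : z ∈ O) (he : ∀ᶠ τ in l, ∀ y ∈ O, F τ y = F' τ y) (h0 : ∀ y ∈ O, F₀ y = F₀' y) :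
    CL l z F' F₀' := by
  obtain ⟨O', hO', hz', h⟩ := h
  refine ⟨O' ∩ O, hO'.inter hO, ⟨hz', hz⟩, (CI.mono h inter_subset_left).congr (hO'.inter hO)
    (he.mono fun τ hτ y hy => hτ y hy.2) fun y hy => h0 y hy.2⟩

theorem CL.congr' {F F' : PP → Cn 2 → E} {F₀ F₀' : Cn 2 → E} (h : CL l z F F₀)
    (he : ∀ τ y, F τ y = F' τ y) (h0 : ∀ y, F₀ y = F₀' y) : CL l z F' F₀' := by
  have e : F = F' := funext fun τ => funext fun y => he τ y
  have e' : F₀ = F₀' := funext fun y => h0 y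
  rw [← e, ← e']
  exact h

theorem CL.comp_univ {F : PP → Cn 2 → E} {F₀ : Cn 2 → E} (h : CL l z F F₀) {g : E → G}
    (hg : ContDiff ℝ ∞ g) : CL l z (fun τ y => g (F τ y)) (fun y => g (F₀ y)) :=
  CL.comp h isOpen_univ hg.contDiffOn (mem_univ _)

theorem CL.add {F H : PP → Cn 2 → E} {F₀ H₀ : Cn 2 → E} (h : CL l z F F₀) (h' : CL l z H H₀) :
    CL l z (fun τ y => F τ y + H τ y) (fun y => F₀ y + H₀ y) :=
  CL.comp_univ (CL.prodMk h h') (g := fun q : E × E => q.1 + q.2) contDiff_add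

theorem CL.sub {F H : PP → Cn 2 → E} {F₀ H₀ : Cn 2 → E} (h : CL l z F F₀) (h' : CL l z H H₀) :
    CL l z (fun τ y => F τ y - H τ y) (fun y => F₀ y - H₀ y) :=
  CL.comp_univ (CL.prodMk h h') (g := fun q : E × E => q.1 - q.2)
    (contDiff_fst.sub contDiff_snd)

theorem CL.neg {F : PP → Cn 2 → E} {F₀ : Cn 2 → E} (h : CL l z F F₀) :
    CL l z (fun τ y => - F τ y) (fun y => - F₀ y) :=
  CL.comp_univ h (g := fun q : E => - q) contDiff_neg

theorem CL.mul {F H : PP → Cn 2 → ℂ} {F₀ H₀ : Cn 2 → ℂ} (h : CL l z F F₀) (h' : CL l z H H₀) :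
    CL l z (fun τ y => F τ y * H τ y) (fun y => F₀ y * H₀ y) :=
  CL.comp_univ (CL.prodMk h h') (g := fun q : ℂ × ℂ => q.1 * q.2) contDiff_mul


theorem CL.inv {F : PP → Cn 2 → ℂ} {F₀ : Cn 2 → ℂ} (h : CL l z F F₀) (h0 : F₀ z ≠ 0) :
    CL l z (fun τ y => (F τ y)⁻¹) (fun y => (F₀ y)⁻¹) :=
  CL.comp h (isOpen_compl_singleton (x := (0 : ℂ))) (g := fun x : ℂ => x⁻¹)
    (fun _ hx => ((contDiffAt_inv ℝ hx).of_le le_top).contDiffWithinAt) h0

theorem CL.log {F : PP → Cn 2 → ℝ} {F₀ : Cn 2 → ℝ} (h : CL l z F F₀) (h0 : F₀ z ≠ 0) :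
    CL l z (fun τ y => Real.log (F τ y)) (fun y => Real.log (F₀ y)) :=
  CL.comp h (isOpen_compl_singleton (x := (0 : ℝ))) (g := Real.log)
    (fun _ hx => (Real.contDiffAt_log.2 hx).contDiffWithinAt) h0

theorem CL.conj {F : PP → Cn 2 → ℂ} {F₀ : Cn 2 → ℂ} (h : CL l z F F₀) :
    CL l z (fun τ y => conj (F τ y)) (fun y => conj (F₀ y)) :=
  CL.clm h (conjCLE : ℂ →L[ℝ] ℂ)

theorem CL.re {F : PP → Cn 2 → ℂ} {F₀ : Cn 2 → ℂ} (h : CL l z F F₀) :
    CL l z (fun τ y => (F τ y).re) (fun y => (F₀ y).re) := CL.clm h Complex.reCLM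

theorem CL.ofReal {F : PP → Cn 2 → ℝ} {F₀ : Cn 2 → ℝ} (h : CL l z F F₀) :
    CL l z (fun τ y => (F τ y : ℂ)) (fun y => (F₀ y : ℂ)) := CL.clm h Complex.ofRealCLM

theorem CL.dS {F : PP → Cn 2 → ℂ} {F₀ : Cn 2 → ℂ} (h : CL l z F F₀) (s : ℂ) (a : Fin 2) :
    CL l z (fun τ => dS s a (F τ)) (dS s a F₀) := by
  obtain ⟨O, hO, hz, h⟩ := h
  exact ⟨O, hO, hz, h.dS hO s a⟩

theorem CL.hess {v : PP → Cn 2 → ℝ} {v₀ : Cn 2 → ℝ} (h : CL l z v v₀) (a b : Fin 2) :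
    CL l z (fun τ y => hess (v τ) y a b) (fun y => hess v₀ y a b) := by
  obtain ⟨O, hO, hz, h⟩ := h
  exact ⟨O, hO, hz, h.hess hO a b⟩

/-- a family of constants -/
theorem CL.cst {c : PP → E} {c₀ : E} (h : Tendsto c l (𝓝 c₀)) :
    CL l z (fun τ _ => c τ) (fun _ => c₀) := by
  refine ⟨univ, isOpen_univ, mem_univ _, Eventually.of_forall fun τ => contDiffOn_const,
    contDiffOn_const, fun k z _ => ?_⟩
  rcases Nat.eq_zero_or_pos k with rfl | hk
  · have h3 := (continuousMultilinearCurryFin0 ℝ (Cn 2) E).symm.continuous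
    exact h3.continuousAt.tendsto.comp (h.comp tendsto_fst)
  · have e : ∀ (d : E) (y : Cn 2), iteratedFDeriv ℝ k (fun _ : Cn 2 => d) y = 0 := by
      intro d y
      rw [iteratedFDeriv_const_of_ne (Nat.pos_iff_ne_zero.1 hk)]
      rfl
    unfold CC
    simp only [e]
    exact tendsto_const_nhds

/-- matrices: common neighbourhood -/
theorem CL.common {K : PP → Cn 2 → Matrix (Fin 2) (Fin 2) ℂ} {K₀ : Cn 2 → Matrix (Fin 2) (Fin 2) ℂ}
    (h : ∀ a b, CL l z (fun τ y => K τ y a b) (fun y => K₀ y a b)) :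
    ∃ O : Set (Cn 2), IsOpen O ∧ z ∈ O ∧ ∀ a b, CI l O (fun τ y => K τ y a b)
      (fun y => K₀ y a b) := by
  choose W hW hzW hI using h
  refine ⟨⋂ a, ⋂ b, W a b, isOpen_iInter_of_finite fun a => isOpen_iInter_of_finite fun b =>
    hW a b, mem_iInter.2 fun a => mem_iInter.2 fun b => hzW a b, fun a b =>
    CI.mono (hI a b) ((iInter_subset _ a).trans (iInter_subset _ b))⟩

end

end Crest.Agent.R257.OxCv2_397
end

-- ▼ part R257/OxCv3_397

/-!
# R257 (S0395), leaf OxCvStmt (helper397), part 3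

* `cc_Gm` : convergence of the form `Γ`
* `cl_HO`, `cl_dV` : convergence of the metric and of the section
* `ctl_oxd` : `oxd` is continuous on a level where `dh ≠ 0` on `supp ∂∂̄χ`
* `ev_ne` : `dh ≠ 0` on the near levels between two radii
* `oxCvStmt`
-/

set_option autoImplicit false
set_option linter.unusedSectionVars false

open Set Filter Topology Complex
open scoped ContDiff Matrix ComplexConjugate ComplexOrder

namespace Crest.Agent.R257.OxCv3_397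

open Crest.Agent.R275.Geo Crest.Agent.R275.EDR890
open Crest.Agent.R273.Fock_243 Crest.Agent.R273.Calc_243
open Crest.Agent.R273.Bkn_243 Crest.Agent.R273.Pos_243 Crest.Agent.R273.BochA_101
open Crest.Agent.R273.BochB_101
open Crest.Agent.R273.BochC_101 Crest.Agent.R273.BochD_101
open Crest.Agent.R273.Hess_333 Crest.Agent.R273.HessB_333
open Crest.Agent.R273.YauDefs_635 Crest.Agent.R273.YauMax_635
open Crest.Agent.R257.C2F2_625 Crest.Agent.R257.C2F3_625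
open Crest.Agent.R257.C2F4_335 Crest.Agent.R257.C2F5_335
open Crest.Agent.R257.Defs_219
open Crest.Agent.R257.PN_835 (nsq)
open Crest.Agent.R257.Gram_835 Crest.Agent.R257.Aff_835
open Crest.Agent.R257.V1Defs_822 (LvlOK)
open Crest.Agent.R257.V1Pe_822 (continuous_nsq3)
open Crest.Agent.R257.KED_952 Crest.Agent.R257.KEG_952
open Crest.Agent.R257.Ked1_397 Crest.Agent.R257.Ked2_397
open Crest.Agent.R257.Ked3_397 Crest.Agent.R257.Ked4_397
open Crest.Agent.R257.LossD_309 Crest.Agent.R257.OutB_309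
open Crest.Agent.R257.OxCv1_397 Crest.Agent.R257.OxCv2_397

noncomputable section

variable {l : Filter PP} {z : Cn 2}

/-! ### the form `Γ` -/

section GmC

variable {K : PP → Cn 2 → Matrix (Fin 2) (Fin 2) ℂ} {K₀ : Cn 2 → Matrix (Fin 2) (Fin 2) ℂ}
  {V : PP → Cn 2 → Fin 2 → ℂ} {V₀ : Cn 2 → Fin 2 → ℂ}

theorem cl_hV (hK : ∀ a b, CL l z (fun τ y => K τ y a b) (fun y => K₀ y a b))
    (hV' : ∀ i, CL l z (fun τ y => V τ y i) (fun y => V₀ y i)) :
    CL l z (fun τ y => hV (K τ) (V τ) y) (fun y => hV K₀ V₀ y) := by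
  have h1 := ((hV' 0).conj.mul (((hK 0 0).mul (hV' 0)).add ((hK 0 1).mul (hV' 1)))).add
    ((hV' 1).conj.mul (((hK 1 0).mul (hV' 0)).add ((hK 1 1).mul (hV' 1))))
  refine h1.re.congr' (fun τ y => ?_) fun y => ?_
  · simp [hV, dotProduct, Matrix.mulVec, Fin.sum_univ_two]
  · simp [hV, dotProduct, Matrix.mulVec, Fin.sum_univ_two]

theorem cl_det (hK : ∀ a b, CL l z (fun τ y => K τ y a b) (fun y => K₀ y a b)) :
    CL l z (fun τ y => (K τ y).det) (fun y => (K₀ y).det) := by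
  refine (((hK 0 0).mul (hK 1 1)).sub ((hK 0 1).mul (hK 1 0))).congr' (fun τ y => ?_) fun y => ?_
  · rw [Matrix.det_fin_two]
  · rw [Matrix.det_fin_two]

theorem cl_inv (hK : ∀ a b, CL l z (fun τ y => K τ y a b) (fun y => K₀ y a b))
    (h0 : (K₀ z).det ≠ 0) (a b : Fin 2) :
    CL l z (fun τ y => (K τ y)⁻¹ a b) (fun y => (K₀ y)⁻¹ a b) := by
  have hd := (cl_det hK).inv h0
  have e : ∀ (m : Matrix (Fin 2) (Fin 2) ℂ) (a b : Fin 2), m⁻¹ a b = m.det⁻¹ * m.adjugate a b := by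
    intro m a b
    rw [Matrix.inv_def, Ring.inverse_eq_inv]
    rfl
  have key : CL l z (fun τ y => (K τ y).adjugate a b) (fun y => (K₀ y).adjugate a b) := by
    simp only [Matrix.adjugate_fin_two]
    fin_cases a <;> fin_cases b
    · exact (hK 1 1).congr' (fun _ _ => by simp) fun _ => by simp
    · exact (hK 0 1).neg.congr' (fun _ _ => by simp) fun _ => by simp
    · exact (hK 1 0).neg.congr' (fun _ _ => by simp) fun _ => by simp
    · exact (hK 0 0).congr' (fun _ _ => by simp) fun _ => by simp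
  exact (hd.mul key).congr' (fun τ y => (e _ a b).symm) fun y => (e _ a b).symm

theorem cc_vec (hV' : ∀ i, CL l z (fun τ y => V τ y i) (fun y => V₀ y i)) : CC l V V₀ z :=
  tendsto_pi_nhds.2 fun i => (hV' i).cc

theorem cc_quad {R : PP → Cn 2 → Matrix (Fin 2) (Fin 2) ℂ} {R₀ : Cn 2 → Matrix (Fin 2) (Fin 2) ℂ}
    (h : CC l R R₀ z) (h' : CC l V V₀ z) :
    CC l (fun τ y => star (V τ y) ⬝ᵥ (R τ y *ᵥ V τ y)) (fun y => star (V₀ y) ⬝ᵥ (R₀ y *ᵥ V₀ y))
      z := by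
  have hc : Continuous fun q : Matrix (Fin 2) (Fin 2) ℂ × (Fin 2 → ℂ) =>
      star q.2 ⬝ᵥ (q.1 *ᵥ q.2) :=
    continuous_snd.star.dotProduct (continuous_fst.matrix_mulVec continuous_snd)
  exact Tendsto.comp (g := fun q : Matrix (Fin 2) (Fin 2) ℂ × (Fin 2 → ℂ) =>
    star q.2 ⬝ᵥ (q.1 *ᵥ q.2)) (f := fun p : PP × Cn 2 => (R p.1 p.2, V p.1 p.2))
    (hc.tendsto (R₀ z, V₀ z)) (Tendsto.prodMk_nhds h h')

theorem cc_Gm (hK : ∀ a b, CL l z (fun τ y => K τ y a b) (fun y => K₀ y a b))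
    (hV' : ∀ i, CL l z (fun τ y => V τ y i) (fun y => V₀ y i)) (hP : (K₀ z).PosDef)
    (h0 : V₀ z ≠ 0) : CC l (fun τ => Gm (K τ) (V τ)) (Gm K₀ V₀) z := by
  have hv := cl_hV hK hV'
  have hpos : 0 < hV K₀ V₀ z := hV_pos hP h0
  have hlg := hv.log hpos.ne'
  have hdr : 0 < (K₀ z).det.re := det_re_pos'' hP
  have hld := (cl_det hK).re.log hdr.ne'
  have hdet : (K₀ z).det ≠ 0 := hP.det_pos.ne'
  obtain ⟨O, hO, hz, hKI⟩ := CL.common hK
  have c1 : CC l (fun τ y => hess (fun y => Real.log (K τ y).det.re) y)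
      (fun y => hess (fun y => Real.log (K₀ y).det.re) y) z :=
    cc_mat fun a b => (hld.hess a b).cc
  have c2' : CC l (fun τ y => hess (fun y => Real.log (hV (K τ) (V τ) y)) y)
      (fun y => hess (fun y => Real.log (hV K₀ V₀ y)) y) z :=
    cc_mat fun a b => (hlg.hess a b).cc
  have c3 : CC l (fun τ => bb (K τ) (V τ)) (bb K₀ V₀) z := by
    refine cc_mat fun c d => ?_
    have e1 := (hlg.hess c d).cc
    have e2 := cc_quad (cc_rm hO hKI hz hdet c d) (cc_vec hV')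
    have e3 := CC.div e2 hv.ofReal.cc (Complex.ofReal_ne_zero.2 hpos.ne')
    exact Tendsto.add e1 e3
  have c4 : CC l (fun τ y => (Real.log (hV (K τ) (V τ) y) : ℂ)) (fun y => (Real.log (hV K₀ V₀ y) : ℂ))
      z := hlg.ofReal.cc
  exact (Tendsto.smul c4 (Tendsto.sub c1 c2')).add c3

end GmC

/-! ### the metric and the section -/

section fam

variable {Φ : E3 × PP → ℂ} {τ₀ : PP} {r : ℝ} {O : Set (Cn 2)} {N : Set PP} {Θ : Cn 2 × PP → E3}

theorem cl_HO {w : PP → E3 → ℝ} {u : E3 → ℝ} (hO : IsOpen O)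
    (hI : CI l O (fun τ y => w τ (Θ (y, τ))) (fun y => u (Θ (y, τ₀)))) (hz : z ∈ O)
    (h0 : (cH (fun y => u (Θ (y, τ₀))) z).det ≠ 0) (a b : Fin 2) :
    CL l z (fun τ y => HO (w τ) (fun _ => 0) (fun y => Θ (y, τ)) y a b)
      (fun y => HO u (fun _ => 0) (fun y => Θ (y, τ₀)) y a b) := by
  have h1 : ∀ a b, CL l z (fun τ y => cH (fun y => w τ (Θ (y, τ))) y a b)
      (fun y => cH (fun y => u (Θ (y, τ₀))) y a b) := by
    intro a b
    refine CL.congr ⟨O, hO, hz, hI.hess hO a b⟩ hO hz ?_ fun y hy => ?_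
    · filter_upwards [hI.sm] with τ hτ y hy
      rw [cH_eq_hess (hτ.contDiffAt (hO.mem_nhds hy))]
    · rw [cH_eq_hess (hI.sm0.contDiffAt (hO.mem_nhds hy))]
  refine (cl_inv h1 h0 a b).congr' (fun τ y => ?_) fun y => ?_
  · simp [HO]
  · simp [HO]

theorem ptb_an {h : E3 → ℂ} {x a : E3} (hh : AnalyticAt ℂ h x) : AnalyticAt ℂ (ptb h a) x := by
  have h1 : AnalyticAt ℂ (fun x : E3 => ∑ i, a i * x i) x := by
    refine Finset.analyticAt_fun_sum _ fun i _ => analyticAt_const.mul ?_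
    exact (ContinuousLinearMap.proj (R := ℂ) (φ := fun _ : Fin 3 => ℂ) i).analyticAt x
  exact hh.add h1

theorem cl_dV (hl : l ≤ 𝓝 τ₀) (hC : Chart Φ r τ₀ O N Θ) {h : E3 → ℂ}
    (hh : ∀ x, nsq x < r ^ 2 → AnalyticAt ℂ h x) {a : PP → E3} (ha : Tendsto a l (𝓝 0))
    (hz : z ∈ O) (i : Fin 2) :
    CL l z (fun τ y => dV (ptb h (a τ)) (fun y => Θ (y, τ)) y i)
      (fun y => dV h (fun y => Θ (y, τ₀)) y i) := by
  have hP := hC.par τ₀ (mem_of_mem_nhds hC.nhd)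
  have hO := hP.par.isOpen
  have hsm : ContDiffOn ℝ ∞ Θ (O ×ˢ N) := fun q hq =>
    (((hC.an q hq).contDiffAt (n := ∞)).restrict_scalars ℝ).contDiffWithinAt
  have h1 : CL l z (fun τ y => h (Θ (y, τ))) (fun y => h (Θ (y, τ₀))) := by
    refine ⟨O, hO, hz, CI.joint (f := fun q => h (Θ q)) hl hO hC.nhd fun q hq => ?_⟩
    have e1 : AnalyticAt ℂ (fun q => h (Θ q)) q :=
      AnalyticAt.fun_comp (g := h) (hh _ ((hC.par q.2 hq.2).lt _ hq.1)) (hC.an q hq)
    exact ((e1.contDiffAt (n := ∞)).restrict_scalars ℝ).contDiffWithinAt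
  have h2 : ∀ k : Fin 3, CL l z (fun τ y => a τ k * Θ (y, τ) k) (fun _ => (0 : ℂ)) := by
    intro k
    have e1 : CL l z (fun τ _ => a τ k) (fun _ => (0 : ℂ)) :=
      CL.cst ((tendsto_pi_nhds.1 ha) k)
    have e2 : CL l z (fun τ y => Θ (y, τ) k) (fun y => Θ (y, τ₀) k) := by
      refine ⟨O, hO, hz, CI.joint (f := fun q => Θ q k) hl hO hC.nhd ?_⟩
      exact contDiffOn_pi.1 hsm k
    exact (e1.mul e2).congr' (fun _ _ => rfl) fun y => by simp
  have h3 := h1.add (((h2 0).add (h2 1)).add (h2 2))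
  have h4 := h3.dS (-I) i
  refine h4.congr hO hz ?_ fun y hy => ?_
  · filter_upwards [hl hC.nhd] with τ hτ y hy
    have hPτ := hC.par τ hτ
    have e1 : DifferentiableAt ℂ (fun y => ptb h (a τ) (Θ (y, τ))) y :=
      DifferentiableAt.comp y (g := ptb h (a τ)) (ptb_an (hh _ (hPτ.lt y hy))).differentiableAt
        (hPτ.par.diffAt hy)
    have e2 : (fun y => h (Θ (y, τ)) + (a τ 0 * Θ (y, τ) 0 + a τ 1 * Θ (y, τ) 1 +
        a τ 2 * Θ (y, τ) 2)) = fun y => ptb h (a τ) (Θ (y, τ)) := by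
      funext y
      unfold ptb
      rw [Fin.sum_univ_three]
    show dS (-I) i (fun y => h (Θ (y, τ)) + (a τ 0 * Θ (y, τ) 0 + a τ 1 * Θ (y, τ) 1 +
        a τ 2 * Θ (y, τ) 2)) y = _
    rw [e2]
    exact wd_hol' e1 i
  · have e1 : DifferentiableAt ℂ (fun y => h (Θ (y, τ₀))) y :=
      DifferentiableAt.comp y (g := h) (hh _ (hP.lt y hy)).differentiableAt (hP.par.diffAt hy)
    have e2 : (fun y => h (Θ (y, τ₀)) + ((0 : ℂ) + 0 + 0)) = fun y => h (Θ (y, τ₀)) := by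
      funext y
      ring
    show dS (-I) i (fun y => h (Θ (y, τ₀)) + ((0 : ℂ) + 0 + 0)) y = _
    rw [e2]
    exact wd_hol' e1 i

end fam

/-! ### continuity on one level -/

section one

variable {f : E3 → ℂ} {s : ℂ} {r : ℝ} {u χ : E3 → ℝ} {h : E3 → ℂ} {θ : Cn 2 → E3}
  {O : Set (Cn 2)}

theorem ld_of (hu : KEon f s r u) (hh : ∀ x, nsq x < r ^ 2 → AnalyticAt ℂ h x)
    (hP : PE f s r θ O) : LD u (fun _ => 0) h θ O where
  op := hP.par.isOpen
  hol := hP.par.hol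
  su y hy := (hu.sm θ O hP).contDiffAt (hP.par.isOpen.mem_nhds hy)
  pu y hy := by
    have h1 := (hu.sm θ O hP).contDiffAt (hP.par.isOpen.mem_nhds hy)
    rw [cH_eq_hess h1]
    exact posDef_hess h1 (hu.pos θ O hP y hy)
  sφ _ _ := contDiffAt_const
  ah y hy := hh _ (hP.lt y hy)

/-- continuity at a point where `dh ≠ 0` -/
theorem contAt_oxd (hL : LvlOK f s r) (hu : KEon f s r u) (hχ : ContDiff ℝ ∞ χ)
    (hh : ∀ x, nsq x < r ^ 2 → AnalyticAt ℂ h x) (hP : PE f s r θ O) {z : Cn 2} (hz : z ∈ O)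
    (hne : dV h θ z ≠ 0) :
    ContinuousAt (fun y => oxd f u (fun _ => 0) h χ (θ y)) z := by
  have d := ld_of hu hh hP
  have hO := hP.par.isOpen
  have hb := bv d hz
  have hχθ : ContDiffOn ℝ ∞ (fun y => χ (θ y)) O := contDiffOn_par hP.par hχ
  have hpos : ∀ y ∈ O, 0 < eta2a (n := 2) f θ y := fun y hy =>
    Loc_835.eta2a_pos hP.par hy (hL.sm _ (hP.ne y hy) (hP.lt y hy) (hP.par.lvl y hy))
  have hetc : ContinuousAt (fun y => eta2a (n := 2) f θ y) z := by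
    obtain ⟨q, hq, hq0, hqe⟩ := eta2a_norm (n := 2) hP.par hz (hL.an _ (hP.lt z hz))
      (hL.sm _ (hP.ne z hz) (hP.lt z hz) (hP.par.lvl z hz))
    exact (hq.continuousAt.norm.pow 2).congr hqe.symm
  have c1 : ContinuousAt (cH (fun y => χ (θ y))) z :=
    cc_const (cc_cH (l := pure (0 : PP)) hO (CI.const hO hχθ 0) hz)
  have c2 : ContinuousAt (Gm (HO u (fun _ => 0) θ) (dV h θ)) z :=
    tendsto_pi_nhds.2 fun a => tendsto_pi_nhds.2 fun b => (hb.sm_Gm hne a b).continuousAt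
  have c3 : ContinuousAt (fun y => (C2F1_625.pd (cH (fun y => χ (θ y)) y)
      (Gm (HO u (fun _ => 0) θ) (dV h θ) y)).re) z :=
    Complex.continuous_re.continuousAt.comp
      (ContinuousAt.comp (g := fun q : Matrix (Fin 2) (Fin 2) ℂ × Matrix (Fin 2) (Fin 2) ℂ =>
        C2F1_625.pd q.1 q.2) (f := fun y => (cH (fun y => χ (θ y)) y,
        Gm (HO u (fun _ => 0) θ) (dV h θ) y)) cont_pd.continuousAt (c1.prodMk c2))
  refine (c3.div hetc (hpos z hz).ne').congr ?_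
  filter_upwards [hO.mem_nhds hz, hb.ne_ev hne] with y hy hne'
  exact (eq_div_of_mul_eq (hpos y hy).ne' (oxd_eq hP.par d hy (hL.an _ (hP.lt y hy))
    (hL.sm _ (hP.ne y hy) (hP.lt y hy) (hP.par.lvl y hy))
    (hχθ.contDiffAt (hO.mem_nhds hy)) hne')).symm

theorem contAt_zero (hP : PE f s r θ O) {z : Cn 2} (hz : z ∈ O) {c : ℝ}
    (hc : ∀ᶠ y in 𝓝 (θ z), χ y = c) :
    ContinuousAt (fun y => oxd f u (fun _ => 0) h χ (θ y)) z := by
  have h1 : ContinuousAt θ z := (hP.par.diffAt hz).continuousAt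
  have h2 : (fun _ => (0 : ℝ)) =ᶠ[𝓝 z] fun y => oxd f u (fun _ => 0) h χ (θ y) := by
    filter_upwards [h1.eventually hc.eventually_nhds] with y hy
    exact (oxd_zero hy).symm
  exact continuousAt_const.congr h2

/-- `dh ≠ 0` on the level between two radii -/
def NeB (f : E3 → ℂ) (s : ℂ) (h : E3 → ℂ) (r₁ r₂ : ℝ) : Prop :=
  ∀ x, r₁ ^ 2 ≤ nsq x → nsq x ≤ r₂ ^ 2 → f x = s →
    ∃ v, fderiv ℂ f x v = 0 ∧ fderiv ℂ h x v ≠ 0

theorem ctl_oxd (hL : LvlOK f s r) (hu : KEon f s r u) (hχ : ContDiff ℝ ∞ χ)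
    (hh : ∀ x, nsq x < r ^ 2 → AnalyticAt ℂ h x) {r₁ r₂ : ℝ} {c₁ c₂ : ℝ}
    (h1 : ∀ x, nsq x ≤ r₁ ^ 2 → ∀ᶠ y in 𝓝 x, χ y = c₁)
    (h2 : ∀ x, r₂ ^ 2 ≤ nsq x → ∀ᶠ y in 𝓝 x, χ y = c₂) (hne : NeB f s h r₁ r₂) :
    CtL f s r (oxd f u (fun _ => 0) h χ) := by
  intro θ O hP z hz
  refine ContinuousAt.continuousWithinAt ?_
  by_cases e1 : nsq (θ z) ≤ r₁ ^ 2
  · exact contAt_zero hP hz (h1 _ e1)
  by_cases e2 : r₂ ^ 2 ≤ nsq (θ z)
  · exact contAt_zero hP hz (h2 _ e2)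
  push Not at e1 e2
  refine contAt_oxd hL hu hχ hh hP hz ?_
  exact (dV_ne_iff hP.par hz (hL.an _ (hP.lt z hz)).differentiableAt
    (hL.sm _ (hP.ne z hz) (hP.lt z hz) (hP.par.lvl z hz)) (hh _ (hP.lt z hz)).differentiableAt).2
    (hne _ e1.le e2.le (hP.par.lvl z hz))

theorem neb_of_noz (hL : LvlOK f 0 r) (hh : ∀ x, nsq x < r ^ 2 → AnalyticAt ℂ h x)
    (hN : NoZ f r h) {x : E3} (hx : f x = 0) (h0 : x ≠ 0) (hr : nsq x < r ^ 2) :
    ∃ v, fderiv ℂ f x v = 0 ∧ fderiv ℂ h x v ≠ 0 := by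
  obtain ⟨θ, O, z, hP, hz, rfl⟩ := exists_pe (hL.an x hr) (hL.sm x h0 hr hx) hx h0 hr
  exact (dV_ne_iff hP.par hz (hL.an _ (hP.lt z hz)).differentiableAt
    (hL.sm _ (hP.ne z hz) (hP.lt z hz) (hP.par.lvl z hz)) (hh _ (hP.lt z hz)).differentiableAt).1
    (dV_ne_of_fderiv (hN θ O hP z hz))

end one

/-! ### the near levels -/

section near

variable {Φ : E3 × PP → ℂ} {τ₀ : PP} {r : ℝ} {h : E3 → ℂ}

theorem fderiv_ptb {x a : E3} (hh : DifferentiableAt ℂ h x) (v : E3) :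
    fderiv ℂ (ptb h a) x v = fderiv ℂ h x v + ∑ i, a i * v i := by
  have h1 : HasFDerivAt (fun x : E3 => ∑ i, a i * x i)
      (∑ i, a i • (ContinuousLinearMap.proj (R := ℂ) (φ := fun _ : Fin 3 => ℂ) i)) x := by
    refine HasFDerivAt.fun_sum fun i _ => ?_
    exact ((ContinuousLinearMap.proj (R := ℂ) (φ := fun _ : Fin 3 => ℂ) i).hasFDerivAt).const_mul _
  have h2 : HasFDerivAt (ptb h a) (fderiv ℂ h x +
      ∑ i, a i • (ContinuousLinearMap.proj (R := ℂ) (φ := fun _ : Fin 3 => ℂ) i)) x :=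
    hh.hasFDerivAt.add h1
  rw [h2.fderiv]
  simp

theorem ev_ne (hF : Fam Φ τ₀ l r) (hh : ∀ x, nsq x < r ^ 2 → AnalyticAt ℂ h x)
    (hN : NoZ (fun x => Φ (x, τ₀)) r h) {r₁ r₂ : ℝ} (hr₁ : 0 < r₁) (hr₂ : 0 ≤ r₂) (h2r : r₂ < r)
    {a : PP → E3} (ha : Tendsto a l (𝓝 0)) :
    ∀ᶠ τ in l, NeB (fun x => Φ (x, τ)) 0 (ptb h (a τ)) r₁ r₂ := by
  have hL0 := Vol_397.lvl0 hF
  have hA : IsCompact {x : E3 | r₁ ^ 2 ≤ nsq x ∧ nsq x ≤ r₂ ^ 2} :=
    (KedM_941.isCompact_cball (r₂ ^ 2)).inter_left (isClosed_le continuous_const continuous_nsq3)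
  have h4 : r₂ ^ 2 < r ^ 2 := pow_lt_pow_left₀ h2r hr₂ two_ne_zero
  have key : ∀ᶠ q : PP × E3 in 𝓝 (τ₀, 0), ∀ x ∈ {x : E3 | r₁ ^ 2 ≤ nsq x ∧ nsq x ≤ r₂ ^ 2},
      Φ (x, q.1) = 0 → ∃ v, fderiv ℂ (fun x => Φ (x, q.1)) x v = 0 ∧
        fderiv ℂ (ptb h q.2) x v ≠ 0 := by
    refine hA.eventually_forall_of_forall_eventually (P := fun (q : PP × E3) (x : E3) =>
      Φ (x, q.1) = 0 → ∃ v, fderiv ℂ (fun x => Φ (x, q.1)) x v = 0 ∧
        fderiv ℂ (ptb h q.2) x v ≠ 0) fun x hx => ?_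
    have hxr : nsq x < r ^ 2 := hx.2.trans_lt h4
    have hx0 : x ≠ 0 := by
      rintro rfl
      have := hx.1
      rw [V1Pe_822.nsq_zero3] at this
      have : 0 < r₁ ^ 2 := by positivity
      linarith
    have hΦ := hF.an x hxr.le
    have ht : Tendsto (fun p : (PP × E3) × E3 => (p.2, p.1.1)) (𝓝 ((τ₀, 0), x)) (𝓝 (x, τ₀)) :=
      (continuous_snd.prodMk (continuous_fst.comp continuous_fst)).tendsto _
    have ht2 : Tendsto (fun p : (PP × E3) × E3 => p.2) (𝓝 ((τ₀, 0), x)) (𝓝 x) :=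
      continuous_snd.tendsto _
    by_cases hz : Φ (x, τ₀) = 0
    · obtain ⟨v₀, hv₀, hv₀'⟩ := neb_of_noz hL0 hh hN hz hx0 hxr
      obtain ⟨w₀, hw₀⟩ : ∃ w, fderiv ℂ (fun x => Φ (x, τ₀)) x w ≠ 0 := by
        by_contra hcon
        push Not at hcon
        exact hL0.sm x hx0 hxr hz (ContinuousLinearMap.ext fun v => by rw [hcon v]; rfl)
      -- the minor
      set m : (PP × E3) × E3 → ℂ := fun p =>
        fderiv ℂ Φ (p.2, p.1.1) (w₀, 0) * (fderiv ℂ h p.2 v₀ + ∑ i, p.1.2 i * v₀ i) -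
        fderiv ℂ Φ (p.2, p.1.1) (v₀, 0) * (fderiv ℂ h p.2 w₀ + ∑ i, p.1.2 i * w₀ i) with hm
      have c1 : ∀ v : E3, ContinuousAt (fun p : (PP × E3) × E3 => fderiv ℂ Φ (p.2, p.1.1) (v, 0))
          ((τ₀, 0), x) := fun v =>
        ((ContinuousLinearMap.apply ℂ ℂ ((v, 0) : E3 × PP)).continuous.tendsto _).comp
          ((hΦ.fderiv.continuousAt.tendsto).comp ht)
      have c2 : ∀ v : E3, ContinuousAt (fun p : (PP × E3) × E3 => fderiv ℂ h p.2 v)
          ((τ₀, 0), x) := fun v =>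
        ((ContinuousLinearMap.apply ℂ ℂ v).continuous.tendsto _).comp
          (((hh x hxr).fderiv.continuousAt.tendsto).comp ht2)
      have c3 : ∀ v : E3, ContinuousAt (fun p : (PP × E3) × E3 => ∑ i, p.1.2 i * v i)
          ((τ₀, 0), x) := fun v => by
        have : Continuous fun p : (PP × E3) × E3 => ∑ i, p.1.2 i * v i := by fun_prop
        exact this.continuousAt
      have hmc : ContinuousAt m ((τ₀, 0), x) :=
        ((c1 w₀).mul ((c2 v₀).add (c3 v₀))).sub ((c1 v₀).mul ((c2 w₀).add (c3 w₀)))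
      have hsl : ∀ v : E3, fderiv ℂ Φ (x, τ₀) (v, 0) = fderiv ℂ (fun x => Φ (x, τ₀)) x v :=
        fun v => (KedM_941.fderiv_slice hΦ.differentiableAt v).symm
      have hm0 : m ((τ₀, 0), x) ≠ 0 := by
        simp only [hm, hsl, hv₀, zero_mul, sub_zero, Pi.zero_apply, Finset.sum_const_zero,
          add_zero]
        exact mul_ne_zero hw₀ hv₀'
      filter_upwards [hmc.eventually_ne hm0, ht.eventually hΦ.eventually_analyticAt,
        ht2.eventually (hh x hxr).eventually_analyticAt] with p hp1 hp2 hp3 _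
      have e1 := fun v => KedM_941.fderiv_slice hp2.differentiableAt v
      have e2 := fun v => fderiv_ptb (a := p.1.2) hp3.differentiableAt v
      refine ⟨fderiv ℂ (fun x => Φ (x, p.1.1)) p.2 w₀ • v₀ -
        fderiv ℂ (fun x => Φ (x, p.1.1)) p.2 v₀ • w₀, ?_, ?_⟩
      · rw [map_sub, map_smul, map_smul, smul_eq_mul, smul_eq_mul]
        ring
      · rw [map_sub, map_smul, map_smul, smul_eq_mul, smul_eq_mul, e1, e1, e2, e2]
        exact hp1
    · have h5 : ∀ᶠ p : (PP × E3) × E3 in 𝓝 ((τ₀, 0), x), Φ (p.2, p.1.1) ≠ 0 :=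
        ht.eventually (hΦ.continuousAt.eventually_ne hz)
      filter_upwards [h5] with p hp hcon
      exact absurd hcon hp
  have ht : Tendsto (fun τ => (τ, a τ)) l (𝓝 (τ₀, 0)) := by
    rw [nhds_prod_eq]
    exact (tendsto_id.mono_left hF.lim).prodMk ha
  filter_upwards [ht.eventually key] with τ hτ x h1 h2 h3
  exact hτ x ⟨h1, h2⟩ h3

end near

/-- **`OxCvStmt`** -/
theorem oxCvStmt : OxCvStmt := by
  intro Φ τ₀ l r C w u hS f hf χ hχ h hh hN a ha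
  subst hf
  have hF : FamD Φ τ₀ l r C w u := hS.toFamD
  have hL0 := Vol_397.lvl0 hF.toFam
  have hh' : ∀ x, nsq x < r ^ 2 → AnalyticAt ℂ h x := fun x hx => hh x hx.le
  obtain ⟨r₁, -, h1, -, h3, -⟩ := V1Top_822.cut_locconst hχ
  obtain ⟨ρ, a1, a2, a3⟩ := hχ.supp
  set r₂ := (ρ + r) / 2 with hr₂
  have b1 : 0 ≤ r₂ := by rw [hr₂]; linarith
  have b2 : r₂ < r := by rw [hr₂]; linarith
  have h4 : ∀ x, r₂ ^ 2 ≤ nsq x → ∀ᶠ y in 𝓝 x, χ y = 0 := by
    intro x hx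
    have h6 : ∀ᶠ y in 𝓝 x, ρ ^ 2 < nsq y := by
      refine continuousAt_const.eventually_lt continuous_nsq3.continuousAt ?_
      rw [hr₂] at hx
      nlinarith
    exact h6.mono fun y hy => a3 y hy.le
  have hct : CtL (fun x => Φ (x, τ₀)) 0 r (oxd (fun x => Φ (x, τ₀)) u (fun _ => 0) h χ) := by
    intro θ O hP z hz
    exact (contAt_oxd hL0 hF.ke0.1 hχ.sm hh' hP hz
      (dV_ne_of_fderiv (hN θ O hP z hz))).continuousWithinAt
  refine ⟨?_, hct, ?_⟩
  · intro O N Θ hC K hKO hK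
    have hP := hC.par τ₀ (mem_of_mem_nhds hC.nhd)
    have hO := hP.par.isOpen
    refine tendstoUniformlyOn_of_cc hK (fun z hz => ?_) fun z hz =>
      (hct _ _ hP).continuousAt (hO.mem_nhds (hKO hz))
    have hz := hKO hz
    have hI : CI l O (fun τ y => w τ (Θ (y, τ))) (fun y => u (Θ (y, τ₀))) := by
      refine CI.of_cvOn hO ?_ (hF.ke0.1.sm _ _ hP) (hF.conv O N Θ hC)
      have hev : ∀ᶠ τ in l, τ ∈ N := hF.lim hC.nhd
      filter_upwards [hF.ke, hev] with τ hτ hτN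
      exact hτ.1.sm _ _ (hC.par τ hτN)
    have hJ : CI l O (fun τ y => χ (Θ (y, τ))) (fun y => χ (Θ (y, τ₀))) := by
      refine CI.joint (f := fun q => χ (Θ q)) hF.lim hO hC.nhd ?_
      have h1 : ContDiffOn ℝ ∞ Θ (O ×ˢ N) := fun q hq =>
        (((hC.an q hq).contDiffAt (n := ∞)).restrict_scalars ℝ).contDiffWithinAt
      exact hχ.sm.comp_contDiffOn h1
    have d0 := ld_of hF.ke0.1 hh' hP
    have hne0 : dV h (fun y => Θ (y, τ₀)) z ≠ 0 := dV_ne_of_fderiv (hN _ _ hP z hz)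
    have hdet : (cH (fun y => u (Θ (y, τ₀))) z).det ≠ 0 := (d0.pu z hz).det_pos.ne'
    have hVc := cl_dV hF.lim hC hh' ha hz
    have hG := cc_Gm (fun a b => cl_HO hO hI hz hdet a b) hVc (pos_HO d0 hz) hne0
    have hΦ : AnalyticAt ℂ Φ (Θ (z, τ₀), τ₀) := hF.an _ (hP.lt z hz).le
    have h0 : fderiv ℂ (fun x => Φ (x, τ₀)) (Θ (z, τ₀)) ≠ 0 :=
      hF.sm0 _ (hP.ne z hz) (hP.lt z hz).le (hP.par.lvl z hz)
    have e1 := CC.rdiv (CC.re (cc_pd (cc_cH hO hJ hz) hG))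
      (cc_eta hF.lim hO hC.nhd hC.an hz hΦ h0) (Loc_835.eta2a_pos hP.par hz h0).ne'
    refine e1.congr ?_ ?_
    · have hVev : ∀ᶠ p : PP × Cn 2 in l ×ˢ 𝓝 z,
          dV (ptb h (a p.1)) (fun y => Θ (y, p.1)) p.2 ≠ 0 := by
        have hc : CC l (fun τ => dV (ptb h (a τ)) (fun y => Θ (y, τ)))
            (dV h fun y => Θ (y, τ₀)) z := cc_vec (V := fun τ => dV (ptb h (a τ))
              (fun y => Θ (y, τ))) (V₀ := dV h fun y => Θ (y, τ₀)) hVc
        exact hc.eventually_ne hne0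
      have hev : ∀ᶠ τ in l, τ ∈ N := hF.lim hC.nhd
      have e2 := (hev.and ((Vol_397.ev_lvl hF.toFam).and hF.ke)).prod_mk
        (hO.mem_nhds hz : ∀ᶠ y in 𝓝 z, y ∈ O)
      filter_upwards [hVev, e2] with p hp1 hp2
      obtain ⟨⟨hpN, hpL, hpK⟩, hpO⟩ := hp2
      have hPp := hC.par p.1 hpN
      have hhp : ∀ x, nsq x < r ^ 2 → AnalyticAt ℂ (ptb h (a p.1)) x := fun x hx =>
        ptb_an (hh' x hx)
      have dp := ld_of hpK.1 hhp hPp
      have h0p := hpL.sm _ (hPp.ne _ hpO) (hPp.lt _ hpO) (hPp.par.lvl _ hpO)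
      have e3 := oxd_eq (χ := χ) hPp.par dp hpO (hpL.an _ (hPp.lt _ hpO)) h0p
        ((contDiffOn_par hPp.par hχ.sm).contDiffAt (hO.mem_nhds hpO)) hp1
      exact (eq_div_of_mul_eq (Loc_835.eta2a_pos hPp.par hpO h0p).ne' e3).symm
    · have e3 := oxd_eq (χ := χ) hP.par d0 hz (hL0.an _ (hP.lt _ hz)) h0
        ((contDiffOn_par hP.par hχ.sm).contDiffAt (hO.mem_nhds hz)) hne0
      exact (eq_div_of_mul_eq (Loc_835.eta2a_pos hP.par hz h0).ne' e3).symm
  · filter_upwards [ev_ne hF.toFam hh' hN h1 b1 b2 ha, Vol_397.ev_lvl hF.toFam, hF.ke]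
      with τ t1 t2 t3
    exact ctl_oxd t2 t3.1 hχ.sm (fun x hx => ptb_an (hh' x hx)) h3 h4 t1

end

end Crest.Agent.R257.OxCv3_397
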