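import Crest.Agent.R257.KEG_952
import Crest.Agent.R257.SkelA_219
import Crest.Agent.R257.ColAdd_812
import Crest.Agent.R257.SkelG3_952
import Crest.Agent.R257.V1W_822
import Crest.Agent.R257.Ked4_397

-- ▼ part R257/SkelG4_952

/-!
R257 / SkelG4_952: zeros of `dh` on the punctured level and the minors of `(∇f, ∇h)`; monotonicity in
the constants; product rule.
-/

set_option autoImplicit false

open Topology Filter MeasureTheory Set
open scoped ENNReal ContDiff Matrix
open Crest.AlgGeometry.Germ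

noncomputable section

namespace Crest.Agent.R257.SkelG_952

open Crest.Agent.R275.Geo
open Crest.Agent.R257.Defs_219 Crest.Agent.R257.KED_952 Crest.Agent.R257.KEG_952
open Crest.Agent.R257.SkelV_952
open Crest.Agent.R257.PN_835 (nsq)
open Crest.Agent.R257.Aff_835 (eta2a nga)
open Crest.Agent.R257.V1Defs_822 (SmL LvlOK lgh)
open Crest.Agent.R273.Defs_333 (lev)
open Crest.Agent.R257.Skel_219 (li2)
open Crest.Agent.R257.V1Pe_822 (exists_pe)
open Crest.Agent.R257.V1W_822 (iso_zero nsq_lt_of)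


section

variable {f : E3 → ℂ} {s : ℂ} {r : ℝ} {θ : Cn 2 → E3} {O : Set (Cn 2)} {z : Cn 2} {h : E3 → ℂ}

/-- the kernel of `df` is the image of `dθ` -/
theorem dker (hθ : PE f s r θ O) (hz : z ∈ O) (hf : AnalyticAt ℂ f (θ z)) (v : Cn 2) :
    fderiv ℂ f (θ z) (fderiv ℂ θ z v) = 0 := hθ.par.ker hz hf.differentiableAt v

theorem comp_fderiv (hθ : PE f s r θ O) (hz : z ∈ O) (hh : AnalyticAt ℂ h (θ z)) :
    fderiv ℂ (fun z => h (θ z)) z = (fderiv ℂ h (θ z)).comp (fderiv ℂ θ z) :=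
  fderiv_comp z hh.differentiableAt (hθ.par.diffAt hz)

/-- if the minors do not vanish then `d(h∘θ) ≠ 0` -/
theorem fderiv_ne_of_minors (hθ : PE f s r θ O) (hz : z ∈ O) (hf : AnalyticAt ℂ f (θ z))
    (hh : AnalyticAt ℂ h (θ z)) (hm : ¬ ∀ j, mnr f h j (θ z) = 0) (hfz : f (θ z) = 0) :
    fderiv ℂ (fun z => h (θ z)) z ≠ 0 := by
  intro h0
  rw [comp_fderiv hθ hz hh] at h0
  have hli : LinearIndependent ℂ ![fderiv ℂ f (θ z), fderiv ℂ h (θ z)] := by
    refine li2 ?_
    by_contra hcon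
    push Not at hcon
    refine hm fun j => ?_
    fin_cases j
    · exact hfz
    · exact hcon.1
    · exact hcon.2.1
    · exact hcon.2.2
  -- the joint kernel has dimension one, the image of `dθ` has dimension two
  set T : E3 →ₗ[ℂ] (Fin 2 → ℂ) := LinearMap.pi
    ![(fderiv ℂ f (θ z)).toLinearMap, (fderiv ℂ h (θ z)).toLinearMap] with hT
  have hsurj : Function.Surjective T := by
    rw [← LinearMap.range_eq_top]
    by_contra hne
    obtain ⟨φ, hφ0, hφ⟩ := Submodule.exists_le_ker_of_lt_top (LinearMap.range T)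
      (lt_top_iff_ne_top.2 hne)
    rw [LinearIndependent.pair_iff] at hli
    have h1 : φ (Pi.single 0 1) • fderiv ℂ f (θ z) + φ (Pi.single 1 1) • fderiv ℂ h (θ z) = 0 := by
      ext i
      have h2 : φ (T i) = 0 := hφ ⟨i, rfl⟩
      have h3 : T i = fderiv ℂ f (θ z) i • Pi.single 0 1 + fderiv ℂ h (θ z) i • Pi.single 1 1 := by
        funext j
        fin_cases j <;> simp [hT]
      rw [h3, map_add, map_smul, map_smul] at h2
      simp only [smul_eq_mul] at h2
      show φ (Pi.single 0 1) * fderiv ℂ f (θ z) i + φ (Pi.single 1 1) * fderiv ℂ h (θ z) i = 0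
      rw [← h2]
      ring
    obtain ⟨h4, h5⟩ := hli _ _ h1
    apply hφ0
    refine LinearMap.pi_ext' fun j => LinearMap.ext_ring ?_
    fin_cases j
    · exact h4
    · exact h5
  have hk : Module.finrank ℂ (LinearMap.ker T) = 1 := by
    have := LinearMap.finrank_range_add_finrank_ker T
    rw [LinearMap.range_eq_top.2 hsurj, finrank_top] at this
    simp at this
    omega
  have hle : LinearMap.range (fderiv ℂ θ z).toLinearMap ≤ LinearMap.ker T := by
    rintro _ ⟨v, rfl⟩
    rw [LinearMap.mem_ker]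
    funext j
    fin_cases j
    · exact dker hθ hz hf v
    · exact congrArg (fun L : Cn 2 →L[ℂ] ℂ => L v) h0
  have hinj : Function.Injective (fderiv ℂ θ z).toLinearMap := by
    rw [← LinearMap.ker_eq_bot, LinearMap.ker_eq_bot']
    exact fun v hv => hθ.par.imm z hz v hv
  have h2 : Module.finrank ℂ (LinearMap.range (fderiv ℂ θ z).toLinearMap) = 2 := by
    rw [LinearMap.finrank_range_of_inj hinj]
    simp
  have h3 := Submodule.finrank_mono hle
  omega


end

/-- finite `L(h)` gives no zeros near the puncture -/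
theorem noz_of_colFin {f h : E3 → ℂ} {r : ℝ} (hf : LvlOK f 0 r) (hfa : AnalyticAt ℂ f 0)
    (hh : AnalyticAt ℂ h 0) (hc : ColFin (mnr f h)) :
    ∃ ρ : ℝ, 0 < ρ ∧ ∀ r' ≤ ρ, 0 < r' → r' ≤ r → NoZ f r' h := by
  have han : ∀ j, AnalyticAt ℂ (mnr f h j) 0 := by
    have F := Crest.Agent.R257.Skel_219.analyticAt_coordDeriv hfa
    have H := Crest.Agent.R257.Skel_219.analyticAt_coordDeriv hh
    intro j
    fin_cases j
    · exact hfa
    · exact ((F 1).mul (H 2)).sub ((F 2).mul (H 1))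
    · exact ((F 2).mul (H 0)).sub ((F 0).mul (H 2))
    · exact ((F 0).mul (H 1)).sub ((F 1).mul (H 0))
  obtain ⟨ρ, h1, h2⟩ := nsq_lt_of ((iso_zero han hc).and hh.eventually_analyticAt)
  refine ⟨ρ, h1, fun r' h3 h4 h5 θ O hθ z hz => ?_⟩
  have h6 : nsq (θ z) < ρ ^ 2 := (hθ.lt z hz).trans_le (sq_mono h4.le h3)
  have h7 : nsq (θ z) < r ^ 2 := (hθ.lt z hz).trans_le (sq_mono h4.le h5)
  exact fderiv_ne_of_minors hθ hz (hf.an _ h7) (h2 _ h6).2
    (fun hcon => hθ.ne z hz ((h2 _ h6).1 hcon)) (hθ.par.lvl z hz)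


end Crest.Agent.R257.SkelG_952
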