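import Crest.Agent.R257.LossT_309
import Crest.Agent.R257.SkelG4_952
import Crest.Agent.R257.KedM3_941
import Crest.Agent.R257.GenLin_812
import Crest.Agent.R257.Vol_397
import Crest.Agent.R257.LimA_37
import Crest.Agent.R257.KED_952
import Crest.Agent.R257.Jac_39
import Crest.Agent.R257.LossD_309
import Crest.Agent.R257.OxCv3_397
import Crest.Agent.R257.OutD_309
import Mathlib
import Crest.Agent.R257.Dim_812
import Crest.Agent.R257.Cnm6_889
import Crest.Agent.R257.Cnm7_889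
import Crest.Agent.R257.KUP_952

-- ▼ part R257/LossU_309
section

/-!
R257 / LossU_309 (helper309): `BdStmt` and `LossStmt` from `TendStmt` and `V0Stmt`.
-/

set_option autoImplicit false

open Topology Filter MeasureTheory Set
open scoped ENNReal ContDiff Matrix

noncomputable section

namespace Crest.Agent.R257.LossU_309

open Crest.Agent.R275.Geo
open Crest.Agent.R257.Defs_219
open Crest.Agent.R257.KED_952 Crest.Agent.R257.KEG_952
open Crest.Agent.R257.SkelV_952 Crest.Agent.R257.SkelG_952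
open Crest.Agent.R257.PN_835 (nsq)
open Crest.Agent.R257.V1Defs_822 (SmL LvlOK lgh)
open Crest.Agent.R257.LossD_309 Crest.Agent.R257.LossT_309
open Crest.Agent.R257.V1W_822 (iso_zero nsq_lt_of)
open Crest.Agent.R257.Ked2_397 (denStmt bmyStmt)
open Crest.Agent.R257.Ked4_397 (ctDStmt cvDStmt)
open Crest.Agent.R257.KedM_941 (nuStmt measStmt fatStmt cvIStmt)

/-- **`BdStmt`** -/
theorem bdStmt_of (tend : TendStmt) : BdStmt := by
  intro Φ τ₀ l r C w u hD χ hχ ν hν
  have _hne := hD.ne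
  have h0 := smd_0 hD
  obtain ⟨h, hh, -, hcf⟩ := Crest.Agent.R257.Det_812.genLinStmt (fun x => Φ (x, τ₀)) hD.iso
  obtain ⟨ρ₁, hρ₁, hnz⟩ := noz_of_colFin h0 hD.iso.an hh hcf
  obtain ⟨ρ₂, hρ₂, han⟩ := nsq_lt_of hh.eventually_analyticAt
  set r' : ℝ := min r (min ρ₁ (ρ₂ / 2)) with hr'
  have hr'0 : 0 < r' := lt_min hD.r_pos (lt_min hρ₁ (by positivity))
  have hr'r : r' ≤ r := min_le_left _ _
  have hr'1 : r' ≤ ρ₁ := (min_le_right _ _).trans (min_le_left _ _)
  have hr'2 : r' < ρ₂ := ((min_le_right _ _).trans (min_le_right _ _)).trans_lt (by linarith)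
  have hD' := smd_mono hr'0 hr'r hD
  have h0' := smd_0 hD'
  obtain ⟨χ', hχ'⟩ := exists_cut hr'0
  obtain ⟨ν₀, hν₀⟩ := nuStmt _ 0 r h0.pos h0.an h0.sm
  have hν' : ∀ᶠ τ in l, IsNu (fun x => Φ (x, τ)) 0 r' (rs r' (ν τ)) := by
    filter_upwards [hν] with τ hτ
    exact isnu_rs hr'0.le hr'r hτ
  have hh' : ∀ x, nsq x ≤ r' ^ 2 → AnalyticAt ℂ h x := by
    intro x hx
    refine han x (hx.trans_lt ?_)
    nlinarith
  obtain ⟨t1, t2⟩ := tend Φ τ₀ l r' C w u hD' _ rfl χ' hχ' (fun τ => rs r' (ν τ)) (rs r' ν₀) hν'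
    (isnu_rs hr'0.le hr'r hν₀) h hh' hcf (hnz r' hr'1 hr'0 hr'r)
  set M : ℝ := ∫ x, oxd (fun x => Φ (x, τ₀)) u (fun _ => 0) h χ' x ∂(rs r' ν₀) +
    Real.pi ^ 2 * col (mnr (fun x => Φ (x, τ₀)) h) with hM
  have hχ'0 : ∀ x, r' ^ 2 ≤ nsq x → χ' x = 0 := by
    obtain ⟨ρ, a1, a2, a3⟩ := hχ'.supp
    intro x hx
    refine a3 x (le_trans ?_ hx)
    nlinarith
  -- inner part
  have B1 : ∀ᶠ τ in l, C2I (ν τ) (fun x => Φ (x, τ)) (w τ) χ' ≤ ENNReal.ofReal (M + 1) := by
    filter_upwards [t1, t2.eventually (gt_mem_nhds (show M < M + 1 by linarith))] with τ h1 h2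
    have e : C2I (rs r' (ν τ)) (fun x => Φ (x, τ)) (w τ) χ' =
        C2I (ν τ) (fun x => Φ (x, τ)) (w τ) χ' :=
      lint_rs fun x hx => by rw [hχ'0 x hx, zero_mul, ENNReal.ofReal_zero]
    rw [e] at h1 h2
    rw [← ENNReal.ofReal_toReal h1.ne]
    exact ENNReal.ofReal_le_ofReal h2.le
  -- outer part
  have hψc : Continuous fun x => χ x * (1 - χ' x) :=
    hχ.sm.continuous.mul (continuous_const.sub hχ'.sm.continuous)
  have hcd := (ctDStmt _ 0 r h0.pos h0.an h0.sm u hD.ke0.1).1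
  have hct : ∀ᶠ τ in l, CtL (fun x => Φ (x, τ)) 0 r
      (fun x => (χ x * (1 - χ' x)) * c2d (fun x => Φ (x, τ)) (w τ) x) := by
    filter_upwards [smd_ev hD] with τ hτ
    exact CtL.mul (ctl_amb hψc) (ctDStmt _ 0 r hτ.1.pos hτ.1.an hτ.1.sm (w τ) hτ.2).1
  have hcv : Cv0 Φ r l τ₀ (fun τ x => (χ x * (1 - χ' x)) * c2d (fun x => Φ (x, τ)) (w τ) x)
      (fun x => (χ x * (1 - χ' x)) * c2d (fun x => Φ (x, τ₀)) u x) :=
    Cv0.mul (cv0_amb hD.lim hψc) (cvDStmt Φ τ₀ l r C w u hD.toFamD χ hχ).1 (ctl_amb hψc) hcd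
  obtain ⟨r₂, a1, a2, a3⟩ := hχ.supp
  obtain ⟨ρ, hρ, h3⟩ := nsq_lt_of hχ'.one
  have hs : ∀ x, nsq x ≤ (ρ / 2) ^ 2 ∨ r₂ ^ 2 ≤ nsq x → χ x * (1 - χ' x) = 0 := by
    rintro x (hx | hx)
    · rw [h3 x (hx.trans_lt (by nlinarith)), sub_self, mul_zero]
    · rw [a3 x hx, zero_mul]
  obtain ⟨-, c2, c3⟩ := Crest.Agent.R257.KedM_941.conv hD.toFam hν hν₀ hct
    (CtL.mul (ctl_amb hψc) hcd) hcv (by positivity : 0 < ρ / 2) a1 a2
    (Eventually.of_forall fun τ x _ hx => by rw [hs x hx, zero_mul])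
    (fun x _ hx => by rw [hs x hx, zero_mul])
  set M' : ℝ := ∫ x, (χ x * (1 - χ' x)) * c2d (fun x => Φ (x, τ₀)) u x ∂ν₀ with hM'
  refine ⟨(M + 1) ⊔ 0 + ((M' + 1) ⊔ 0), ?_⟩
  filter_upwards [B1, c2, c3.eventually (gt_mem_nhds (show M' < M' + 1 by linarith)), hν,
    smd_ev hD] with τ b1 b2 b3 hντ hτ
  have hnn : ∀ᵐ x ∂(ν τ), 0 ≤ c2d (fun x => Φ (x, τ)) (w τ) x := by
    filter_upwards [isnu_ae hντ] with x hx
    have h4 := bmyStmt _ 0 r (w τ) hτ.1.pos hτ.1.an hτ.1.sm hτ.2 x hx.1 hx.2.1 hx.2.2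
    have h5 := Real.exp_pos (w τ x)
    linarith
  have hle : C2I (ν τ) (fun x => Φ (x, τ)) (w τ) χ ≤
      C2I (ν τ) (fun x => Φ (x, τ)) (w τ) χ' +
        ENNReal.ofReal (∫ x, (χ x * (1 - χ' x)) * c2d (fun x => Φ (x, τ)) (w τ) x ∂(ν τ)) := by
    have h5 : 0 ≤ᵐ[ν τ] fun x => (χ x * (1 - χ' x)) * c2d (fun x => Φ (x, τ)) (w τ) x := by
      filter_upwards [hnn] with x hx
      exact mul_nonneg (mul_nonneg (hχ.nn x) (sub_nonneg.2 (hχ'.le x))) hx
    rw [ofReal_integral_eq_lintegral_ofReal b2 h5]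
    unfold C2I
    rw [← lintegral_add_right' _ (b2.aestronglyMeasurable.aemeasurable.ennreal_ofReal)]
    refine lintegral_mono_ae ?_
    filter_upwards [hnn] with x hx
    rw [← ENNReal.ofReal_add (mul_nonneg (hχ'.nn x) hx)
      (mul_nonneg (mul_nonneg (hχ.nn x) (sub_nonneg.2 (hχ'.le x))) hx)]
    refine ENNReal.ofReal_le_ofReal ?_
    have h6 : χ x ≤ χ' x + χ x * (1 - χ' x) := by
      have := hχ.le x
      have := hχ'.nn x
      nlinarith
    calc χ x * c2d (fun x => Φ (x, τ)) (w τ) x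
        ≤ (χ' x + χ x * (1 - χ' x)) * c2d (fun x => Φ (x, τ)) (w τ) x :=
          mul_le_mul_of_nonneg_right h6 hx
      _ = _ := by ring
  refine hle.trans ?_
  rw [ENNReal.ofReal_add (le_max_right _ _) (le_max_right _ _)]
  exact add_le_add (b1.trans (ENNReal.ofReal_le_ofReal (le_max_left _ _)))
    (ENNReal.ofReal_le_ofReal (b3.le.trans (le_max_left _ _)))


end Crest.Agent.R257.LossU_309
end
end

-- ▼ part R257/Srd_761
section

/-!
# R257 (S0395), task GB-SARD (helper761): Sard's theorem on smooth levels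

* `sard`      : the image of the points with non-injective derivative is null (equal dimensions)
* `sard_crit` : for a.e. `a` all critical points of `g + a·x` on the level are non-degenerate
* `sard_map`  : for a.e. `c` all zeros of `G - c` on the level are non-degenerate
* `sard_pe`, `sard_pair` : the same in the language of `KED_952`
-/

set_option autoImplicit false
set_option linter.unusedSectionVars false

open Set Filter Topology Complex MeasureTheory
open scoped ContDiff ComplexConjugate Matrix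

namespace Crest.Agent.R257.Srd_761

open Crest.Agent.R275.Geo
open Crest.Agent.R257.PN_835 Crest.Agent.R257.Aff_835 Crest.Agent.R257.LimA_37

noncomputable section

/-- **Sard**, equal finite dimensions -/
theorem sard {E E' : Type*} [NormedAddCommGroup E] [NormedSpace ℂ E] [FiniteDimensional ℂ E]
    [MeasurableSpace E] [BorelSpace E] [NormedAddCommGroup E'] [NormedSpace ℂ E']
    [FiniteDimensional ℂ E'] (hd : Module.finrank ℂ E' = Module.finrank ℂ E)
    (μ : Measure E) [μ.IsAddHaarMeasure] {Ψ : E' → E} {B : Set E'}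
    (hB : ∀ y ∈ B, DifferentiableAt ℂ Ψ y ∧ ∃ v, v ≠ 0 ∧ fderiv ℂ Ψ y v = 0) :
    μ (Ψ '' B) = 0 := by
  have : FiniteDimensional ℝ E := FiniteDimensional.complexToReal E
  let e : E ≃L[ℂ] E' := ContinuousLinearEquiv.ofFinrankEq hd.symm
  have h1 : Ψ '' B = (fun x => Ψ (e x)) '' (e ⁻¹' B) := by
    ext y
    constructor
    · rintro ⟨x, hx, rfl⟩
      exact ⟨e.symm x, by simpa using hx, by simp⟩
    · rintro ⟨x, hx, rfl⟩
      exact ⟨e x, hx, rfl⟩
  rw [h1]
  refine addHaar_image_eq_zero_of_det_fderivWithin_eq_zero μ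
    (f' := fun x => ((fderiv ℂ Ψ (e x)).comp (e : E →L[ℂ] E')).restrictScalars ℝ) ?_ ?_
  · intro x hx
    have h2 : HasFDerivAt (fun x => Ψ (e x)) ((fderiv ℂ Ψ (e x)).comp (e : E →L[ℂ] E')) x :=
      HasFDerivAt.comp x (g := Ψ) (hB _ hx).1.hasFDerivAt e.hasFDerivAt
    exact (h2.restrictScalars ℝ).hasFDerivWithinAt
  · intro x hx
    obtain ⟨v, hv, h0⟩ := (hB _ hx).2
    refine LinearMap.det_eq_zero_iff_ker_ne_bot.2 fun hbot => hv ?_
    have h3 : e.symm v ∈ LinearMap.ker ((((fderiv ℂ Ψ (e x)).comp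
        (e : E →L[ℂ] E')).restrictScalars ℝ : E →L[ℝ] E) : E →ₗ[ℝ] E) := by
      rw [LinearMap.mem_ker]
      show fderiv ℂ Ψ (e x) (e (e.symm v)) = 0
      rw [e.apply_symm_apply, h0]
    rw [hbot, Submodule.mem_bot] at h3
    have h4 := congrArg e h3
    rwa [e.apply_symm_apply, map_zero] at h4

variable {n : ℕ} {f g : AC n → ℂ} {s : ℂ} {D : Set (AC n)}

/-- tangent vectors of the level are derivatives of the parametrisation -/
theorem exists_tan {θ : Cn n → AC n} {O : Set (Cn n)} (h : Par f s θ O) {z : Cn n} (hz : z ∈ O)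
    (hf : DifferentiableAt ℂ f (θ z)) (h0 : fderiv ℂ f (θ z) ≠ 0) {v : AC n}
    (hv : fderiv ℂ f (θ z) v = 0) : ∃ w, fderiv ℂ θ z w = v := by
  obtain ⟨w₀, hw₀⟩ : ∃ w₀, fderiv ℂ f (θ z) w₀ ≠ 0 := by
    by_contra hcon
    push Not at hcon
    exact h0 (ContinuousLinearMap.ext hcon)
  set L : (Cn n × ℂ) →ₗ[ℂ] AC n := LinearMap.coprod (fderiv ℂ θ z : Cn n →ₗ[ℂ] AC n)
    (LinearMap.toSpanSingleton ℂ (AC n) w₀) with hL
  have hLa : ∀ q : Cn n × ℂ, L q = fderiv ℂ θ z q.1 + q.2 • w₀ := fun q => by simp [hL]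
  have hf1 : ∀ q : Cn n × ℂ, fderiv ℂ f (θ z) (L q) = q.2 * fderiv ℂ f (θ z) w₀ := fun q => by
    rw [hLa, map_add, h.ker hz hf, zero_add, map_smul, smul_eq_mul]
  have hinj : Function.Injective L := by
    rw [injective_iff_map_eq_zero]
    rintro ⟨v, c⟩ hv
    have h1 := hf1 (v, c)
    rw [hv, map_zero] at h1
    have h2 : c = 0 := (mul_eq_zero.1 h1.symm).resolve_right hw₀
    subst h2
    rw [hLa, zero_smul, add_zero] at hv
    rw [h.imm z hz v hv]
    rfl
  have hfr : Module.finrank ℂ (Cn n × ℂ) = Module.finrank ℂ (AC n) := by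
    rw [Module.finrank_prod, Module.finrank_self]
    show _ = Module.finrank ℂ (Fin (n + 1) → ℂ)
    simp
  have hsur : Function.Surjective L :=
    (LinearMap.injective_iff_surjective_of_finrank_eq_finrank hfr).1 hinj
  obtain ⟨q, hq⟩ := hsur v
  have h1 := hf1 q
  rw [hq, hv] at h1
  have h2 : q.2 = 0 := (mul_eq_zero.1 h1.symm).resolve_right hw₀
  rw [hLa, h2, zero_smul, add_zero] at hq
  exact ⟨q.1, hq⟩

/-- countably many parametrisations cover the level -/
theorem exists_cover (hD : IsOpen D) (hf : ∀ x ∈ D, AnalyticAt ℂ f x)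
    (hreg : ∀ x ∈ D, f x = s → fderiv ℂ f x ≠ 0) :
    ∃ (T : Set ((Cn n → AC n) × Set (Cn n))), T.Countable ∧
      (∀ p ∈ T, Par f s p.1 p.2 ∧ ∀ z ∈ p.2, p.1 z ∈ D) ∧
      ∀ x ∈ D, f x = s → ∃ p ∈ T, ∃ z ∈ p.2, p.1 z = x := by
  classical
  set S : Set (AC n) := {x | x ∈ D ∧ f x = s} with hS
  have hc : ∀ x : S, Nonempty (Cht (P := ℂ) (fun _ => f) (fun _ => s) D 0 x.1) := by
    rintro ⟨x, hx, hxs⟩
    refine exists_cht hD hx hxs ?_ (hreg x hx hxs)
    show AnalyticAt ℂ (fun p : AC n × ℂ => f p.1 - s) (x, 0)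
    exact ((hf x hx).comp_of_eq analyticAt_fst rfl).sub analyticAt_const
  let c : ∀ x : S, Cht (P := ℂ) (fun _ => f) (fun _ => s) D 0 x.1 := fun x => (hc x).some
  obtain ⟨T₀, hT₀, hcov⟩ := TopologicalSpace.isOpen_iUnion_countable (fun x : S => (c x).N)
    (fun x => (c x).N_open)
  refine ⟨(fun x : S => ((fun z => (c x).Θ (z, 0)), Metric.ball (0 : Cn n) (c x).ρ)) '' T₀,
    hT₀.image _, ?_, ?_⟩
  · rintro p ⟨x, hx, rfl⟩
    exact ⟨(c x).par 0 (c x).mem_T, fun z hz => (c x).maps z hz 0 (c x).mem_T⟩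
  · intro x hx hxs
    have h1 : x ∈ ⋃ x ∈ T₀, (c x).N := by
      rw [hcov]
      exact mem_iUnion.2 ⟨⟨x, hx, hxs⟩, (c _).mem_N⟩
    obtain ⟨y, hy, hxy⟩ := mem_iUnion₂.1 h1
    have h2 := (c y).right x hxy 0 (c y).mem_T hxs
    exact ⟨_, mem_image_of_mem _ hy, _, h2.1, h2.2⟩

/-! ### maps -/


/-! ### critical points of linear perturbations -/

/-- coordinates of a covector -/
def co (n : ℕ) : (AC n →L[ℂ] ℂ) →L[ℂ] AC n :=
  ContinuousLinearMap.pi fun k => ContinuousLinearMap.apply ℂ ℂ (Pi.single k (1 : ℂ))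

@[simp] theorem co_apply (L : AC n →L[ℂ] ℂ) (k : Fin (n + 1)) : co n L k = L (Pi.single k 1) := rfl

theorem co_sum (L : AC n →L[ℂ] ℂ) (w : AC n) : ∑ k, co n L k * w k = L w := by
  have h1 : w = ∑ k, w k • (Pi.single k (1 : ℂ) : AC n) := by
    funext j
    simp [Finset.sum_apply, Pi.single_apply]
  conv_rhs => rw [h1, map_sum]
  refine Finset.sum_congr rfl fun k _ => ?_
  rw [map_smul, smul_eq_mul, mul_comm, co_apply]


/-- second derivative -/
abbrev d2 (f : AC n → ℂ) (x : AC n) : AC n →L[ℂ] (AC n →L[ℂ] ℂ) := fderiv ℂ (fderiv ℂ f) x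

/-- the Gauss type map `(x, λ) ↦ λ df(x) - dg(x)` -/
def Ga (f g : AC n → ℂ) (q : AC n × ℂ) : AC n →L[ℂ] ℂ := q.2 • fderiv ℂ f q.1 - fderiv ℂ g q.1

theorem hasGa {x : AC n} (hf : AnalyticAt ℂ f x) (hg : AnalyticAt ℂ g x) (l : ℂ) :
    ∃ L : AC n × ℂ →L[ℂ] (AC n →L[ℂ] ℂ), HasFDerivAt (Ga f g) L (x, l) ∧
      ∀ v c, L (v, c) = c • fderiv ℂ f x + l • d2 f x v - d2 g x v := by
  have h1 : HasFDerivAt (fun q : AC n × ℂ => fderiv ℂ f q.1)
      ((d2 f x).comp (ContinuousLinearMap.fst ℂ (AC n) ℂ)) (x, l) :=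
    HasFDerivAt.comp (x, l) (g := fderiv ℂ f) hf.fderiv.differentiableAt.hasFDerivAt hasFDerivAt_fst
  have h2 : HasFDerivAt (fun q : AC n × ℂ => fderiv ℂ g q.1)
      ((d2 g x).comp (ContinuousLinearMap.fst ℂ (AC n) ℂ)) (x, l) :=
    HasFDerivAt.comp (x, l) (g := fderiv ℂ g) hg.fderiv.differentiableAt.hasFDerivAt hasFDerivAt_fst
  have h3 := ((hasFDerivAt_snd (𝕜 := ℂ) (p := (x, l))).smul h1).sub h2
  refine ⟨_, h3, fun v c => ?_⟩
  simp
  abel

/-- **Sard for critical points, intrinsic form** -/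
theorem sard_int (hD : IsOpen D) (hf : ∀ x ∈ D, AnalyticAt ℂ f x)
    (hreg : ∀ x ∈ D, f x = s → fderiv ℂ f x ≠ 0) (hg : ∀ x ∈ D, AnalyticAt ℂ g x) :
    ∀ᵐ a : AC n, ∀ x ∈ D, f x = s → ∀ l : ℂ, co n (Ga f g (x, l)) = a → ∀ v, fderiv ℂ f x v = 0 →
      (∀ w, fderiv ℂ f x w = 0 → d2 g x v w = l * d2 f x v w) → v = 0 := by
  obtain ⟨T, hT, hTp, hTc⟩ := exists_cover hD hf hreg
  set B : (Cn n → AC n) × Set (Cn n) → Set (Cn n × ℂ) := fun p =>
    {q | q.1 ∈ p.2 ∧ ∃ v, v ≠ 0 ∧ fderiv ℂ f (p.1 q.1) v = 0 ∧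
      ∀ w, fderiv ℂ f (p.1 q.1) w = 0 → d2 g (p.1 q.1) v w = q.2 * d2 f (p.1 q.1) v w} with hB
  have hnull : volume (⋃ p ∈ T, (fun q : Cn n × ℂ => co n (Ga f g (p.1 q.1, q.2))) '' B p) = 0 := by
    rw [measure_biUnion_null_iff hT]
    intro p hp
    have hfr : Module.finrank ℂ (Cn n × ℂ) = Module.finrank ℂ (AC n) := by
      rw [Module.finrank_prod, Module.finrank_self]
      show _ = Module.finrank ℂ (Fin (n + 1) → ℂ)
      simp
    refine sard hfr volume ?_
    rintro ⟨z, l⟩ ⟨hz, v, hv, hfv, hQ⟩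
    replace hz : z ∈ p.2 := hz
    have hx := (hTp p hp).2 z hz
    have hreg' := hreg _ hx ((hTp p hp).1.lvl z hz)
    obtain ⟨L, hL, hLa⟩ := hasGa (hf _ hx) (hg _ hx) l
    have h1 : HasFDerivAt (fun q : Cn n × ℂ => (p.1 q.1, q.2))
        (((fderiv ℂ p.1 z).comp (ContinuousLinearMap.fst ℂ (Cn n) ℂ)).prod
          (ContinuousLinearMap.snd ℂ (Cn n) ℂ)) (z, l) :=
      (HasFDerivAt.comp (z, l) (g := p.1) ((hTp p hp).1.diffAt hz).hasFDerivAt
        hasFDerivAt_fst).prodMk hasFDerivAt_snd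
    have h2 : HasFDerivAt (fun q : Cn n × ℂ => co n (Ga f g (p.1 q.1, q.2)))
        ((co n).comp (L.comp (((fderiv ℂ p.1 z).comp (ContinuousLinearMap.fst ℂ (Cn n) ℂ)).prod
          (ContinuousLinearMap.snd ℂ (Cn n) ℂ)))) (z, l) :=
      HasFDerivAt.comp (z, l) (g := co n) (co n).hasFDerivAt
        (HasFDerivAt.comp (z, l) (g := Ga f g) hL h1)
    obtain ⟨w, hw⟩ := exists_tan (hTp p hp).1 hz (hf _ hx).differentiableAt hreg' hfv
    obtain ⟨w₀, hw₀⟩ : ∃ w₀, fderiv ℂ f (p.1 z) w₀ ≠ 0 := by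
      by_contra hcon
      push Not at hcon
      exact hreg' (ContinuousLinearMap.ext hcon)
    set c : ℂ := (d2 g (p.1 z) v w₀ - l * d2 f (p.1 z) v w₀) / fderiv ℂ f (p.1 z) w₀ with hc
    refine ⟨h2.differentiableAt, (w, c), ?_, ?_⟩
    · intro h0
      apply hv
      rw [← hw, (Prod.mk.inj h0).1, map_zero]
    · rw [h2.fderiv]
      show co n (L (fderiv ℂ p.1 z w, c)) = 0
      rw [hw, hLa]
      have h3 : c • fderiv ℂ f (p.1 z) + l • d2 f (p.1 z) v - d2 g (p.1 z) v = 0 := by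
        ext u
        -- decompose `u`
        set b : ℂ := fderiv ℂ f (p.1 z) u / fderiv ℂ f (p.1 z) w₀ with hb
        have h4 : fderiv ℂ f (p.1 z) (u - b • w₀) = 0 := by
          rw [map_sub, map_smul, smul_eq_mul, hb, div_mul_cancel₀ _ hw₀, sub_self]
        have h5 := hQ _ h4
        rw [map_sub, map_sub, map_smul, map_smul, smul_eq_mul, smul_eq_mul] at h5
        show c * fderiv ℂ f (p.1 z) u + l * d2 f (p.1 z) v u - d2 g (p.1 z) v u = 0
        have h6 : fderiv ℂ f (p.1 z) u = b * fderiv ℂ f (p.1 z) w₀ := by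
          rw [hb, div_mul_cancel₀ _ hw₀]
        have h7 : c * fderiv ℂ f (p.1 z) w₀ = d2 g (p.1 z) v w₀ - l * d2 f (p.1 z) v w₀ := by
          rw [hc, div_mul_cancel₀ _ hw₀]
        rw [h6]
        replace h5 : d2 g (p.1 z) v u - b * d2 g (p.1 z) v w₀ =
            l * (d2 f (p.1 z) v u - b * d2 f (p.1 z) v w₀) := h5
        linear_combination b * h7 - h5
      rw [h3, map_zero]
  refine (measure_eq_zero_iff_ae_notMem.1 hnull).mono fun a ha x hx hxs l hl v hv hQ => ?_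
  by_contra hne
  obtain ⟨p, hp, z, hz, rfl⟩ := hTc x hx hxs
  exact ha (mem_iUnion₂.2 ⟨p, hp, (z, l), ⟨hz, v, hne, hv, hQ⟩, hl⟩)

/-- the Hessian of `(g + a·x) ∘ θ` at a critical point -/
theorem hess_eq {θ : Cn n → AC n} {O : Set (Cn n)} (h : Par f s θ O) {z : Cn n} (hz : z ∈ O)
    (hf : ∀ x ∈ D, AnalyticAt ℂ f x) (hg : ∀ x ∈ D, AnalyticAt ℂ g x)
    (hθD : ∀ z ∈ O, θ z ∈ D) (a : AC n) (l : ℂ) (hl : co n (Ga f g (θ z, l)) = a) (v w : Cn n) :
    fderiv ℂ (fun y => fderiv ℂ (fun z => g (θ z) + ∑ i, a i * θ z i) y w) z v =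
      d2 g (θ z) (fderiv ℂ θ z v) (fderiv ℂ θ z w) -
        l * d2 f (θ z) (fderiv ℂ θ z v) (fderiv ℂ θ z w) := by
  have hθ2 : DifferentiableAt ℂ (fderiv ℂ θ) z :=
    (Crest.Agent.R266.SCV.analyticOnNhd_of_differentiableOn h.isOpen h.hol z hz).fderiv.differentiableAt
  set A : AC n →L[ℂ] ℂ := Ga f g (θ z, l) with hA
  have hAw : ∀ w, ∑ i, a i * w i = A w := fun w => by rw [← hl, co_sum]
  have h1 : ∀ y ∈ O, fderiv ℂ (fun z => g (θ z) + ∑ i, a i * θ z i) y w =
      (fderiv ℂ g (θ y) - l • fderiv ℂ f (θ y) + A) (fderiv ℂ θ y w) := by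
    intro y hy
    have h2 : HasFDerivAt (fun z => g (θ z) + ∑ i, a i * θ z i)
        ((fderiv ℂ g (θ y)).comp (fderiv ℂ θ y) + A.comp (fderiv ℂ θ y)) y := by
      have h3 := (HasFDerivAt.comp y (g := g) (hg _ (hθD y hy)).differentiableAt.hasFDerivAt
        (h.diffAt hy).hasFDerivAt).add (HasFDerivAt.comp y (g := A) A.hasFDerivAt
          (h.diffAt hy).hasFDerivAt)
      refine h3.congr_of_eventuallyEq (Eventually.of_forall fun y => ?_)
      show g (θ y) + ∑ i, a i * θ y i = g (θ y) + A (θ y)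
      rw [hAw]
    rw [h2.fderiv]
    have h4 := h.ker hy (hf _ (hθD y hy)).differentiableAt w
    show fderiv ℂ g (θ y) (fderiv ℂ θ y w) + A (fderiv ℂ θ y w) =
      fderiv ℂ g (θ y) (fderiv ℂ θ y w) - l * fderiv ℂ f (θ y) (fderiv ℂ θ y w) +
        A (fderiv ℂ θ y w)
    rw [h4]
    ring
  have h2 : (fun y => fderiv ℂ (fun z => g (θ z) + ∑ i, a i * θ z i) y w) =ᶠ[𝓝 z]
      fun y => (fderiv ℂ g (θ y) - l • fderiv ℂ f (θ y) + A) (fderiv ℂ θ y w) := by
    filter_upwards [h.isOpen.mem_nhds hz] with y hy using h1 y hy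
  rw [h2.fderiv_eq]
  have hθz := (h.diffAt hz).hasFDerivAt
  have hgd : HasFDerivAt (fun y => fderiv ℂ g (θ y)) ((d2 g (θ z)).comp (fderiv ℂ θ z)) z :=
    HasFDerivAt.comp z (g := fderiv ℂ g)
      (hg _ (hθD z hz)).fderiv.differentiableAt.hasFDerivAt hθz
  have hfd : HasFDerivAt (fun y => fderiv ℂ f (θ y)) ((d2 f (θ z)).comp (fderiv ℂ θ z)) z :=
    HasFDerivAt.comp z (g := fderiv ℂ f)
      (hf _ (hθD z hz)).fderiv.differentiableAt.hasFDerivAt hθz
  have hc : HasFDerivAt (fun y => fderiv ℂ g (θ y) - l • fderiv ℂ f (θ y) + A)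
      ((d2 g (θ z)).comp (fderiv ℂ θ z) - l • (d2 f (θ z)).comp (fderiv ℂ θ z)) z :=
    (hgd.sub (hfd.const_smul l)).add_const A
  have hu : HasFDerivAt (fun y => fderiv ℂ θ y w)
      ((ContinuousLinearMap.apply ℂ (AC n) w).comp (fderiv ℂ (fderiv ℂ θ) z)) z :=
    HasFDerivAt.comp z (g := ContinuousLinearMap.apply ℂ (AC n) w)
      (ContinuousLinearMap.apply ℂ (AC n) w).hasFDerivAt hθ2.hasFDerivAt
  have hfin := hc.clm_apply hu
  rw [hfin.fderiv]
  have hM : fderiv ℂ g (θ z) - l • fderiv ℂ f (θ z) + A = 0 := by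
    rw [hA]
    show fderiv ℂ g (θ z) - l • fderiv ℂ f (θ z) + (l • fderiv ℂ f (θ z) - fderiv ℂ g (θ z)) = 0
    abel
  rw [hM]
  simp

/-- **Sard for critical points of linear perturbations on a level** -/
theorem sard_crit (hD : IsOpen D) (hf : ∀ x ∈ D, AnalyticAt ℂ f x)
    (hreg : ∀ x ∈ D, f x = s → fderiv ℂ f x ≠ 0) (hg : ∀ x ∈ D, AnalyticAt ℂ g x) :
    ∀ᵐ a : AC n, ∀ (θ : Cn n → AC n) (O : Set (Cn n)), Par f s θ O → (∀ z ∈ O, θ z ∈ D) →
      ∀ z ∈ O, (∀ v, fderiv ℂ (fun z => g (θ z) + ∑ i, a i * θ z i) z v = 0) →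
      (Matrix.of fun i j : Fin n => fderiv ℂ (fun y => fderiv ℂ (fun z => g (θ z) +
        ∑ i, a i * θ z i) y (EuclideanSpace.single j 1)) z (EuclideanSpace.single i 1)).det ≠ 0 := by
  refine (sard_int hD hf hreg hg).mono fun a ha θ O h hθD z hz hcr hdet => ?_
  have hx := hθD z hz
  have hreg' := hreg _ hx (h.lvl z hz)
  obtain ⟨w₀, hw₀⟩ : ∃ w₀, fderiv ℂ f (θ z) w₀ ≠ 0 := by
    by_contra hcon
    push Not at hcon
    exact hreg' (ContinuousLinearMap.ext hcon)
  obtain ⟨A, hAw⟩ : ∃ A : AC n →L[ℂ] ℂ, ∀ w, ∑ i, a i * w i = A w :=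
    ⟨∑ i, a i • (ContinuousLinearMap.proj (R := ℂ) (φ := fun _ : Fin (n + 1) => ℂ) i),
      fun w => by simp⟩
  -- the Lagrange multiplier
  have hder : ∀ v, fderiv ℂ g (θ z) (fderiv ℂ θ z v) + ∑ i, a i * (fderiv ℂ θ z v) i = 0 := by
    intro v
    have h2 : HasFDerivAt (fun z => g (θ z) + ∑ i, a i * θ z i)
        ((fderiv ℂ g (θ z)).comp (fderiv ℂ θ z) + A.comp (fderiv ℂ θ z)) z := by
      have h3 := (HasFDerivAt.comp z (g := g) (hg _ hx).differentiableAt.hasFDerivAt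
        (h.diffAt hz).hasFDerivAt).add (HasFDerivAt.comp z (g := A) A.hasFDerivAt
          (h.diffAt hz).hasFDerivAt)
      refine h3.congr_of_eventuallyEq (Eventually.of_forall fun y => ?_)
      show g (θ y) + ∑ i, a i * θ y i = g (θ y) + A (θ y)
      rw [hAw]
    have h3 := hcr v
    rw [h2.fderiv] at h3
    rw [hAw]
    exact h3
  set l : ℂ := (fderiv ℂ g (θ z) w₀ + ∑ i, a i * w₀ i) / fderiv ℂ f (θ z) w₀ with hl
  have hll : l * fderiv ℂ f (θ z) w₀ = fderiv ℂ g (θ z) w₀ + ∑ i, a i * w₀ i := by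
    rw [hl, div_mul_cancel₀ _ hw₀]
  have hGa : co n (Ga f g (θ z, l)) = a := by
    have h1 : ∀ u : AC n, l * fderiv ℂ f (θ z) u = fderiv ℂ g (θ z) u + ∑ i, a i * u i := by
      intro u
      set b : ℂ := fderiv ℂ f (θ z) u / fderiv ℂ f (θ z) w₀ with hb
      have hb' : fderiv ℂ f (θ z) u = b * fderiv ℂ f (θ z) w₀ := by
        rw [hb, div_mul_cancel₀ _ hw₀]
      have h4 : fderiv ℂ f (θ z) (u - b • w₀) = 0 := by
        rw [map_sub, map_smul, smul_eq_mul, hb', sub_self]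
      obtain ⟨v, hv⟩ := exists_tan h hz (hf _ hx).differentiableAt hreg' h4
      have h5 := hder v
      rw [hv, map_sub, map_smul, smul_eq_mul] at h5
      have h6 : ∑ i, a i * (u - b • w₀) i = ∑ i, a i * u i - b * ∑ i, a i * w₀ i := by
        rw [Finset.mul_sum, ← Finset.sum_sub_distrib]
        refine Finset.sum_congr rfl fun i _ => ?_
        rw [Pi.sub_apply, Pi.smul_apply, smul_eq_mul]
        ring
      rw [h6] at h5
      rw [hb']
      linear_combination b * hll - h5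
    funext k
    have h2 := h1 (Pi.single k 1)
    have h3 : ∑ i, a i * (Pi.single k (1 : ℂ) : AC n) i = a k := by
      simp [Pi.single_apply]
    rw [h3] at h2
    show l * fderiv ℂ f (θ z) (Pi.single k 1) - fderiv ℂ g (θ z) (Pi.single k 1) = a k
    rw [h2]
    ring
  obtain ⟨c, hc, hc0⟩ := Matrix.exists_vecMul_eq_zero_iff.2 hdet
  set v : Cn n := ∑ i, c i • EuclideanSpace.single i (1 : ℂ) with hv
  have hvc : ∀ i, v i = c i := by
    intro i
    rw [hv]
    simp [Pi.single_apply]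
  have hv0 : v ≠ 0 := by
    intro h0
    apply hc
    funext i
    rw [← hvc, h0]
    rfl
  have hvj : ∀ j : Fin n, d2 g (θ z) (fderiv ℂ θ z v) (fderiv ℂ θ z (EuclideanSpace.single j 1)) -
      l * d2 f (θ z) (fderiv ℂ θ z v) (fderiv ℂ θ z (EuclideanSpace.single j 1)) = 0 := by
    intro j
    rw [← hess_eq h hz hf hg hθD a l hGa, hv, map_sum]
    have h1 := congrFun hc0 j
    rw [Matrix.vecMul, dotProduct] at h1
    rw [Pi.zero_apply] at h1
    rw [← h1]
    refine Finset.sum_congr rfl fun i _ => ?_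
    rw [map_smul, smul_eq_mul]
    rfl
  have h7 : fderiv ℂ θ z v = 0 := by
    refine ha (θ z) hx (h.lvl z hz) l hGa _ (h.ker hz (hf _ hx).differentiableAt v) fun w hw => ?_
    obtain ⟨u, rfl⟩ := exists_tan h hz (hf _ hx).differentiableAt hreg' hw
    have hu : u = ∑ j, u j • EuclideanSpace.single j (1 : ℂ) := by
      ext i
      simp [Pi.single_apply]
    rw [hu]
    simp only [map_sum, map_smul, smul_eq_mul]
    rw [Finset.mul_sum]
    refine Finset.sum_congr rfl fun j _ => ?_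
    linear_combination (u j) * hvj j
  exact hv0 (h.imm z hz v h7)

/-! ### the language of `KED_952` -/

section ked

open Crest.Agent.R257.KED_952 Crest.Agent.R273.Calc_243
open Crest.Agent.R257.Defs_219 (E3)
open Crest.Agent.R257.Jac_39 (jc ee)

theorem dS_hol {m : ℕ} {F : Cn m → ℂ} {z : Cn m} (hF : DifferentiableAt ℂ F z) (a : Fin m) :
    dS (-I) a F z = fderiv ℂ F z (EuclideanSpace.single a 1) := by
  have h1 : fderiv ℝ F z = (fderiv ℂ F z).restrictScalars ℝ :=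
    (hF.hasFDerivAt.restrictScalars ℝ).fderiv
  have h2 : (EuclideanSpace.single a I : Cn m) = I • EuclideanSpace.single a (1 : ℂ) := by
    ext i
    simp
  rw [dS, h1, h2]
  show (1 / 2 : ℂ) * (fderiv ℂ F z (EuclideanSpace.single a 1) +
    -I * fderiv ℂ F z (I • EuclideanSpace.single a (1 : ℂ))) = _
  rw [map_smul, smul_eq_mul]
  linear_combination (-(1 / 2 : ℂ) * fderiv ℂ F z (EuclideanSpace.single a 1)) * I_sq

theorem dS_dS_hol {m : ℕ} {F : Cn m → ℂ} {O : Set (Cn m)} (hO : IsOpen O) {z : Cn m} (hz : z ∈ O)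
    (hF : DifferentiableOn ℂ F O) (a b : Fin m) :
    dS (-I) a (dS (-I) b F) z = fderiv ℂ (fun y => fderiv ℂ F y (EuclideanSpace.single b 1)) z
      (EuclideanSpace.single a 1) := by
  have h1 : dS (-I) b F =ᶠ[𝓝 z] fun y => fderiv ℂ F y (EuclideanSpace.single b 1) := by
    filter_upwards [hO.mem_nhds hz] with y hy
    exact dS_hol (hF.differentiableAt (hO.mem_nhds hy)) b
  have h2 : DifferentiableAt ℂ (fun y => fderiv ℂ F y (EuclideanSpace.single b 1)) z :=
    (ContinuousLinearMap.apply ℂ ℂ (EuclideanSpace.single b (1 : ℂ))).differentiableAt.comp z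
      (Crest.Agent.R266.SCV.analyticOnNhd_of_differentiableOn hO hF z hz).fderiv.differentiableAt
  rw [dS_congr h1, dS_hol h2]

theorem isOpen_pball (r : ℝ) : IsOpen {x : E3 | x ≠ 0 ∧ nsq x < r ^ 2} :=
  isOpen_ne.inter (isOpen_lt continuous_nsq continuous_const)

/-- **Sard on levels, one function**: for almost all `a` the critical points of `g + a·x` on the
level `{f = s, 0 < |x| < r}` are non-degenerate. -/
theorem sard_pe {f g : E3 → ℂ} {s : ℂ} {r : ℝ} (hf : ∀ x, nsq x < r ^ 2 → AnalyticAt ℂ f x)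
    (hreg : ∀ x, x ≠ 0 → nsq x < r ^ 2 → f x = s → fderiv ℂ f x ≠ 0)
    (hg : ∀ x, nsq x < r ^ 2 → AnalyticAt ℂ g x) :
    ∀ᵐ a : E3, ∀ θ O, PE f s r θ O → ∀ z ∈ O,
      (∀ v, fderiv ℂ (fun z => g (θ z) + ∑ i, a i * θ z i) z v = 0) →
      (Matrix.of fun i j : Fin 2 => fderiv ℂ (fun y => fderiv ℂ (fun z => g (θ z) +
        ∑ i, a i * θ z i) y (EuclideanSpace.single j 1)) z (EuclideanSpace.single i 1)).det ≠ 0 ∧
      (Matrix.of fun i j : Fin 2 => dS (-I) i (dS (-I) j (fun z => g (θ z) +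
        ∑ i, a i * θ z i)) z).det ≠ 0 := by
  have h1 := sard_crit (n := 2) (f := f) (g := g) (s := s) (D := {x : E3 | x ≠ 0 ∧ nsq x < r ^ 2})
    (isOpen_pball r) (fun x hx => hf x hx.2) (fun x hx => hreg x hx.1 hx.2) (fun x hx => hg x hx.2)
  refine h1.mono fun a ha θ O h z hz hcr => ?_
  have h2 := ha θ O h.par (fun z hz => ⟨h.ne z hz, h.lt z hz⟩) z hz hcr
  refine ⟨h2, ?_⟩
  have hF : DifferentiableOn ℂ (fun z => g (θ z) + ∑ i, a i * θ z i) O := by
    intro y hy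
    refine DifferentiableAt.differentiableWithinAt ?_
    refine ((hg _ (h.lt y hy)).differentiableAt.comp y (h.par.diffAt hy)).add ?_
    refine DifferentiableAt.fun_sum fun i _ => ?_
    exact (differentiableAt_pi.1 (h.par.diffAt hy) i).const_mul _
  have h3 : (Matrix.of fun i j : Fin 2 => dS (-I) i (dS (-I) j (fun z => g (θ z) +
        ∑ i, a i * θ z i)) z) = Matrix.of fun i j : Fin 2 => fderiv ℂ (fun y => fderiv ℂ
          (fun z => g (θ z) + ∑ i, a i * θ z i) y (EuclideanSpace.single j 1)) z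
            (EuclideanSpace.single i 1) := by
    ext i j
    exact dS_dS_hol h.par.isOpen hz hF i j
  rw [h3]
  exact h2


end ked

end

end Crest.Agent.R257.Srd_761
end

-- ▼ part R257/SrdS_761
section

/-!
R257 / SrdS_761 (helper761, task GB-SARD): `SardStmt` of `LossD_309` in its literal form.
-/

set_option autoImplicit false

open Topology Filter MeasureTheory Set
open scoped ENNReal ContDiff Matrix

noncomputable section

namespace Crest.Agent.R257.SrdS_761

open Complex (I)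
open Crest.Agent.R275.Geo
open Crest.Agent.R257.Defs_219
open Crest.Agent.R257.KED_952
open Crest.Agent.R257.PN_835 (nsq)
open Crest.Agent.R257.OutB_309 (Nd)
open Crest.Agent.R257.LossD_309 (dV ptb)
open Crest.Agent.R257.V1Defs_822 (LvlOK)
open Crest.Agent.R273.Calc_243
open Crest.Agent.R257.Srd_761

theorem sardStmt : LossD_309.SardStmt := by
  intro f s r hL _ h hh
  have h1 := sard_pe (f := f) (g := h) (s := s) (r := r) hL.an hL.sm hh
  refine h1.mono fun a ha θ O hp z hz h0 => ?_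
  have hcr : ∀ v, fderiv ℂ (fun z => h (θ z) + ∑ i, a i * θ z i) z v = 0 := by
    intro v
    have hv : v = ∑ i : Fin 2, v i • (EuclideanSpace.single i (1 : ℂ) : Cn 2) := by
      ext j
      fin_cases j <;> simp
    rw [hv, map_sum]
    refine Finset.sum_eq_zero fun i _ => ?_
    rw [map_smul]
    have h2 : fderiv ℂ (fun z => h (θ z) + ∑ i, a i * θ z i) z (EuclideanSpace.single i 1) = 0 :=
      congrFun h0 i
    rw [h2, smul_zero]
  have h3 := (ha θ O hp z hz hcr).1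
  have hF : DifferentiableOn ℂ (fun z => h (θ z) + ∑ i, a i * θ z i) O := by
    intro y hy
    refine DifferentiableAt.differentiableWithinAt ?_
    refine ((hh _ (hp.lt y hy)).differentiableAt.comp y (hp.par.diffAt hy)).add ?_
    refine DifferentiableAt.fun_sum fun i _ => ?_
    exact (differentiableAt_pi.1 (hp.par.diffAt hy) i).const_mul _
  have hFz := Crest.Agent.R266.SCV.analyticOnNhd_of_differentiableOn hp.par.isOpen hF z hz
  have h4 : (Matrix.of fun i a' : Fin 2 => dS (-I) a' (fun w => dV (ptb h a) θ w i) z) =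
      (Matrix.of fun i j : Fin 2 => fderiv ℂ (fun y => fderiv ℂ (fun z => h (θ z) +
        ∑ i, a i * θ z i) y (EuclideanSpace.single j 1)) z (EuclideanSpace.single i 1))ᵀ := by
    ext i j
    show dS (-I) j (fun w => fderiv ℂ (fun z => h (θ z) + ∑ i, a i * θ z i) w
      (EuclideanSpace.single i 1)) z = _
    rw [dS_hol]
    · rfl
    · exact (ContinuousLinearMap.apply ℂ ℂ (EuclideanSpace.single i (1 : ℂ))).differentiableAt.comp z
        hFz.fderiv.differentiableAt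
  show (Matrix.of fun i a' : Fin 2 => dS (-I) a' (fun w => dV (ptb h a) θ w i) z).det ≠ 0
  rw [h4, Matrix.det_transpose]
  exact h3

end Crest.Agent.R257.SrdS_761

end
end

-- ▼ part R257/Mnr_149
section

/-!
R257 / Mnr_149 (helper149): the leaf `MnrStmt` of LossD_309.

With `S, T = ∂_0 θ, ∂_1 θ`, `a = ∇f ∘ θ`, `b = ∇h ∘ θ`, `c = S × T`, `V_i = ∂_i (h ∘ θ)`:
`a_k (V_0 T - V_1 S) = c_k (a × b)`, and `c` is a non-zero multiple of `a`.
-/

set_option autoImplicit false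

open Topology Filter MeasureTheory Set
open scoped ENNReal ContDiff Matrix

noncomputable section

namespace Crest.Agent.R257.Mnr_149

open Crest.Agent.R275.Geo
open Crest.Agent.R257.Defs_219
open Crest.Agent.R257.KED_952 Crest.Agent.R257.KEG_952 Crest.Agent.R257.LossD_309
open Crest.Agent.R257.V1Defs_822 (SmL LvlOK lgh)
open Crest.Agent.R257.PN_835 (nsq)
open Crest.Agent.R257.Aff_835 (eta2a nga Par)
open Crest.Agent.R257.OutB_309 (Gm Nd)
open Crest.Agent.R257.Jac_39 (ee gr_dot fderiv_comp_par)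

/-- the components of `a × b` -/
def crs (a b : Fin 3 → ℂ) : Fin 3 → ℂ :=
  ![a 1 * b 2 - a 2 * b 1, a 2 * b 0 - a 0 * b 2, a 0 * b 1 - a 1 * b 0]

theorem crs0 (a b : Fin 3 → ℂ) : crs a b 0 = a 1 * b 2 - a 2 * b 1 := rfl
theorem crs1 (a b : Fin 3 → ℂ) : crs a b 1 = a 2 * b 0 - a 0 * b 2 := rfl
theorem crs2 (a b : Fin 3 → ℂ) : crs a b 2 = a 0 * b 1 - a 1 * b 0 := rfl

/-- `S × T` is proportional to `a` if `a ⊥ S, T` -/
theorem crs_prop (a S T : Fin 3 → ℂ) (hS : ∑ k, S k * a k = 0) (hT : ∑ k, T k * a k = 0)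
    (k i : Fin 3) : a k * crs S T i = crs S T k * a i := by
  simp only [Fin.sum_univ_three] at hS hT
  have h01 : a 0 * crs S T 1 = crs S T 0 * a 1 := by
    rw [crs0, crs1]; linear_combination S 2 * hT - T 2 * hS
  have h12 : a 1 * crs S T 2 = crs S T 1 * a 2 := by
    rw [crs1, crs2]; linear_combination S 0 * hT - T 0 * hS
  have h20 : a 2 * crs S T 0 = crs S T 2 * a 0 := by
    rw [crs0, crs2]; linear_combination S 1 * hT - T 1 * hS
  fin_cases k <;> fin_cases i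
  · exact mul_comm _ _
  · exact h01
  · show a 0 * crs S T 2 = crs S T 0 * a 2
    linear_combination -h20
  · show a 1 * crs S T 0 = crs S T 1 * a 0
    linear_combination -h01
  · exact mul_comm _ _
  · exact h12
  · exact h20
  · show a 2 * crs S T 1 = crs S T 2 * a 1
    linear_combination -h12
  · exact mul_comm _ _

/-- `(S × T) × b = (S · b) T - (T · b) S` -/
theorem crs_crs (b S T : Fin 3 → ℂ) (j : Fin 3) :
    (∑ i, S i * b i) * T j - (∑ i, T i * b i) * S j = crs (crs S T) b j := by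
  simp only [Fin.sum_univ_three]
  fin_cases j
  · show _ = crs S T 1 * b 2 - crs S T 2 * b 1
    rw [crs1, crs2]
    show (S 0 * b 0 + S 1 * b 1 + S 2 * b 2) * T 0 - (T 0 * b 0 + T 1 * b 1 + T 2 * b 2) * S 0 = _
    ring
  · show _ = crs S T 2 * b 0 - crs S T 0 * b 2
    rw [crs0, crs2]
    show (S 0 * b 0 + S 1 * b 1 + S 2 * b 2) * T 1 - (T 0 * b 0 + T 1 * b 1 + T 2 * b 2) * S 1 = _
    ring
  · show _ = crs S T 0 * b 1 - crs S T 1 * b 0
    rw [crs0, crs1]
    show (S 0 * b 0 + S 1 * b 1 + S 2 * b 2) * T 2 - (T 0 * b 0 + T 1 * b 1 + T 2 * b 2) * S 2 = _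
    ring

/-- the algebraic identity -/
theorem crs_id (a b S T : Fin 3 → ℂ) (hS : ∑ k, S k * a k = 0) (hT : ∑ k, T k * a k = 0)
    (k j : Fin 3) :
    a k * ((∑ i, S i * b i) * T j - (∑ i, T i * b i) * S j) = crs S T k * crs a b j := by
  rw [crs_crs]
  have P := crs_prop a S T hS hT k
  fin_cases j
  · show a k * (crs S T 1 * b 2 - crs S T 2 * b 1) = crs S T k * (a 1 * b 2 - a 2 * b 1)
    linear_combination b 2 * P 1 - b 1 * P 2
  · show a k * (crs S T 2 * b 0 - crs S T 0 * b 2) = crs S T k * (a 2 * b 0 - a 0 * b 2)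
    linear_combination b 0 * P 2 - b 2 * P 0
  · show a k * (crs S T 0 * b 1 - crs S T 1 * b 0) = crs S T k * (a 0 * b 1 - a 1 * b 0)
    linear_combination b 1 * P 0 - b 0 * P 1

/-- `S × T = 0` : dependence -/
theorem dep_of_crs {S T : Fin 3 → ℂ} (h : ∀ k, crs S T k = 0) (k : Fin 3) : T k • S = S k • T := by
  have h0 := h 0
  have h1 := h 1
  have h2 := h 2
  rw [crs0] at h0
  rw [crs1] at h1
  rw [crs2] at h2
  funext j
  show T k * S j = S k * T j
  fin_cases k <;> fin_cases j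
  · exact mul_comm _ _
  · show T 0 * S 1 = S 0 * T 1
    linear_combination -h2
  · show T 0 * S 2 = S 0 * T 2
    linear_combination h1
  · show T 1 * S 0 = S 1 * T 0
    linear_combination h2
  · exact mul_comm _ _
  · show T 1 * S 2 = S 1 * T 2
    linear_combination -h0
  · show T 2 * S 0 = S 2 * T 0
    linear_combination -h1
  · show T 2 * S 1 = S 2 * T 1
    linear_combination h0
  · exact mul_comm _ _

variable {f h : E3 → ℂ} {s : ℂ} {θ : Cn 2 → E3} {O : Set (Cn 2)}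

/-- independence of the tangent vectors -/
theorem indep (hθ : Par (n := 2) f s θ O) {z : Cn 2} (hz : z ∈ O) {α β : ℂ}
    (h0 : α • fderiv ℂ θ z (ee 0) + β • fderiv ℂ θ z (ee 1) = 0) : α = 0 ∧ β = 0 := by
  have h1 : fderiv ℂ θ z (α • ee 0 + β • ee 1) = 0 := by rw [map_add, map_smul, map_smul, h0]
  have h2 := hθ.imm z hz _ h1
  have e0 := congrArg (fun w : Cn 2 => w 0) h2
  have e1 := congrArg (fun w : Cn 2 => w 1) h2
  simp at e0 e1
  exact ⟨e0, e1⟩

theorem sum_gr (hθ : Par (n := 2) f s θ O) {z : Cn 2} (hz : z ∈ O)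
    (hf : DifferentiableAt ℂ f (θ z)) (i : Fin 2) :
    ∑ k, fderiv ℂ θ z (ee i) k * gr f (θ z) k = 0 := by
  rw [gr_dot]
  exact hθ.ker hz hf _

theorem dV_eq (hθ : Par (n := 2) f s θ O) {z : Cn 2} (hz : z ∈ O)
    (hh : DifferentiableAt ℂ h (θ z)) (i : Fin 2) :
    dV h θ z i = ∑ k, fderiv ℂ θ z (ee i) k * gr h (θ z) k := by
  rw [gr_dot]
  exact fderiv_comp_par hθ hz hh _

/-- the identity on a level -/
theorem main_id (hθ : Par (n := 2) f s θ O) {z : Cn 2} (hz : z ∈ O)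
    (hf : DifferentiableAt ℂ f (θ z)) (hh : DifferentiableAt ℂ h (θ z)) (k j : Fin 3) :
    gr f (θ z) k * (dV h θ z 0 * fderiv ℂ θ z (ee 1) j - dV h θ z 1 * fderiv ℂ θ z (ee 0) j) =
      crs (fderiv ℂ θ z (ee 0)) (fderiv ℂ θ z (ee 1)) k * crs (gr f (θ z)) (gr h (θ z)) j := by
  rw [dV_eq hθ hz hh, dV_eq hθ hz hh]
  exact crs_id _ _ _ _ (sum_gr hθ hz hf 0) (sum_gr hθ hz hf 1) k j

theorem crs_ne (hθ : Par (n := 2) f s θ O) {z : Cn 2} (hz : z ∈ O)
    (hf : DifferentiableAt ℂ f (θ z)) {k : Fin 3} (hk : gr f (θ z) k ≠ 0) :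
    crs (fderiv ℂ θ z (ee 0)) (fderiv ℂ θ z (ee 1)) k ≠ 0 := by
  intro h0
  have h1 : ∀ i, crs (fderiv ℂ θ z (ee 0)) (fderiv ℂ θ z (ee 1)) i = 0 := fun i => by
    have := crs_prop (gr f (θ z)) _ _ (sum_gr hθ hz hf 0) (sum_gr hθ hz hf 1) k i
    rw [h0, zero_mul] at this
    exact (mul_eq_zero.1 this).resolve_left hk
  have h2 : ∀ k, fderiv ℂ θ z (ee 0) k = 0 := fun k => by
    have h3 := dep_of_crs h1 k
    have h4 : fderiv ℂ θ z (ee 1) k • fderiv ℂ θ z (ee 0) +
        (-fderiv ℂ θ z (ee 0) k) • fderiv ℂ θ z (ee 1) = 0 := by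
      rw [h3, neg_smul, add_neg_cancel]
    exact neg_eq_zero.1 (indep hθ hz h4).2
  have h5 : (1 : ℂ) • fderiv ℂ θ z (ee 0) + (0 : ℂ) • fderiv ℂ θ z (ee 1) = 0 := by
    rw [one_smul, zero_smul, add_zero]
    exact funext h2
  exact one_ne_zero (indep hθ hz h5).1

theorem exists_gr_ne {x : E3} (h0 : fderiv ℂ f x ≠ 0) : ∃ k, gr f x k ≠ 0 := by
  by_contra hcon
  push Not at hcon
  refine h0 (ContinuousLinearMap.ext fun w => ?_)
  rw [← gr_dot]
  simp [hcon]

/-- zeros -/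
theorem zero_iff (hθ : Par (n := 2) f s θ O) {z : Cn 2} (hz : z ∈ O)
    (hf : DifferentiableAt ℂ f (θ z)) (h0 : fderiv ℂ f (θ z) ≠ 0)
    (hh : DifferentiableAt ℂ h (θ z)) :
    dV h θ z = 0 ↔ ∀ j, crs (gr f (θ z)) (gr h (θ z)) j = 0 := by
  obtain ⟨k, hk⟩ := exists_gr_ne h0
  have hc := crs_ne hθ hz hf hk
  constructor
  · intro hV j
    have := main_id hθ hz hf hh k j
    rw [hV] at this
    simp only [Pi.zero_apply, zero_mul, sub_zero, mul_zero] at this
    exact (mul_eq_zero.1 this.symm).resolve_left hc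
  · intro hj
    have h1 : ∀ j, dV h θ z 0 * fderiv ℂ θ z (ee 1) j - dV h θ z 1 * fderiv ℂ θ z (ee 0) j = 0 :=
      fun j => by
        have := main_id hθ hz hf hh k j
        rw [hj j, mul_zero] at this
        exact (mul_eq_zero.1 this).resolve_left hk
    have h2 : (-dV h θ z 1) • fderiv ℂ θ z (ee 0) + dV h θ z 0 • fderiv ℂ θ z (ee 1) = 0 := by
      funext j
      have := h1 j
      show -dV h θ z 1 * fderiv ℂ θ z (ee 0) j + dV h θ z 0 * fderiv ℂ θ z (ee 1) j = 0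
      linear_combination this
    obtain ⟨e1, e0⟩ := indep hθ hz h2
    funext i
    fin_cases i
    · exact e0
    · exact neg_eq_zero.1 e1


theorem fderiv_mul_zero {F G : Cn 2 → ℂ} {z : Cn 2} (hF : DifferentiableAt ℂ F z)
    (hG : DifferentiableAt ℂ G z) (h0 : G z = 0) (w : Cn 2) :
    fderiv ℂ (fun y => F y * G y) z w = F z * fderiv ℂ G z w := by
  have h1 := hF.hasFDerivAt.mul hG.hasFDerivAt
  have h2 : fderiv ℂ (fun y => F y * G y) z = F z • fderiv ℂ G z + G z • fderiv ℂ F z := h1.fderiv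
  have h3 : fderiv ℂ (fun y => F y * G y) z w = F z * fderiv ℂ G z w + G z * fderiv ℂ F z w := by
    rw [h2]
    rfl
  rw [h3, h0, zero_mul, add_zero]

theorem fderiv_mul_zero' {F G : Cn 2 → ℂ} {z : Cn 2} (hF : DifferentiableAt ℂ F z)
    (hG : DifferentiableAt ℂ G z) (h0 : G z = 0) (w : Cn 2) :
    fderiv ℂ (fun y => G y * F y) z w = fderiv ℂ G z w * F z := by
  rw [show (fun y => G y * F y) = fun y => F y * G y from funext fun y => mul_comm _ _,
    fderiv_mul_zero hF hG h0, mul_comm]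

/-- derivatives of holomorphic maps are differentiable -/
theorem diff_fd {F : Type*} [NormedAddCommGroup F] [NormedSpace ℂ F] [CompleteSpace F]
    {G : Cn 2 → F} (hO : IsOpen O) (hG : DifferentiableOn ℂ G O) {z : Cn 2} (hz : z ∈ O)
    (v : Cn 2) : DifferentiableAt ℂ (fun y => fderiv ℂ G y v) z :=
  (ContinuousLinearMap.apply ℂ F v).differentiableAt.comp z
    (Crest.Agent.R266.SCV.analyticOnNhd_of_differentiableOn hO hG z hz).fderiv.differentiableAt

theorem diff_gr {g : E3 → ℂ} {x : E3} (hg : AnalyticAt ℂ g x) (k : Fin 3) :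
    DifferentiableAt ℂ (fun x => gr g x k) x :=
  (ContinuousLinearMap.apply ℂ ℂ (Pi.single k (1 : ℂ) : E3)).differentiableAt.comp x
    hg.fderiv.differentiableAt

theorem diff_crs {E : Type*} [NormedAddCommGroup E] [NormedSpace ℂ E] {a b : E → Fin 3 → ℂ} {x : E}
    (ha : ∀ k, DifferentiableAt ℂ (fun x => a x k) x)
    (hb : ∀ k, DifferentiableAt ℂ (fun x => b x k) x) (j : Fin 3) :
    DifferentiableAt ℂ (fun x => crs (a x) (b x) j) x := by
  fin_cases j
  · exact ((ha 1).mul (hb 2)).sub ((ha 2).mul (hb 1))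
  · exact ((ha 2).mul (hb 0)).sub ((ha 0).mul (hb 2))
  · exact ((ha 0).mul (hb 1)).sub ((ha 1).mul (hb 0))

/-- non-degeneracy -/
theorem nondeg (hθ : Par (n := 2) f s θ O) (hfa : ∀ z ∈ O, AnalyticAt ℂ f (θ z))
    (hha : ∀ z ∈ O, AnalyticAt ℂ h (θ z)) {z : Cn 2} (hz : z ∈ O) (h0 : fderiv ℂ f (θ z) ≠ 0)
    (hV : dV h θ z = 0) (hN : Nd (dV h θ) z) {v : E3} (hv : fderiv ℂ f (θ z) v = 0)
    (hv' : ∀ j, fderiv ℂ (fun x => crs (gr f x) (gr h x) j) (θ z) v = 0) : v = 0 := by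
  have hf := (hfa z hz).differentiableAt
  have hh := (hha z hz).differentiableAt
  obtain ⟨k, hk⟩ := exists_gr_ne h0
  obtain ⟨w, rfl⟩ := Srd_761.exists_tan hθ hz hf h0 hv
  have hcrs := (zero_iff hθ hz hf h0 hh).1 hV
  have hthd := hθ.diffAt hz
  -- differentiability
  have dT : ∀ (i : Fin 2) (j : Fin 3), DifferentiableAt ℂ (fun y => fderiv ℂ θ y (ee i) j) z :=
    fun i j => by
      have h1 := diff_fd hθ.isOpen hθ.hol hz (ee i)
      exact (differentiableAt_pi.1 h1) j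
  have hhol : DifferentiableOn ℂ (fun y => h (θ y)) O := fun y hy =>
    ((hha y hy).differentiableAt.comp y (hθ.diffAt hy)).differentiableWithinAt
  have dVd : ∀ i, DifferentiableAt ℂ (fun y => dV h θ y i) z := fun i =>
    diff_fd hθ.isOpen hhol hz _
  have dF : DifferentiableAt ℂ (fun y => gr f (θ y) k) z :=
    DifferentiableAt.comp z (g := fun x => gr f x k) (diff_gr (hfa z hz) k) hthd
  have dC : DifferentiableAt ℂ
      (fun y => crs (fderiv ℂ θ y (ee 0)) (fderiv ℂ θ y (ee 1)) k) z :=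
    diff_crs (fun j => dT 0 j) (fun j => dT 1 j) k
  have dM : ∀ j, DifferentiableAt ℂ (fun x => crs (gr f x) (gr h x) j) (θ z) := fun j =>
    diff_crs (fun j => diff_gr (hfa z hz) j) (fun j => diff_gr (hha z hz) j) j
  have hV0 : dV h θ z 0 = 0 := congrFun hV 0
  have hV1 : dV h θ z 1 = 0 := congrFun hV 1
  have key : ∀ j, fderiv ℂ (fun y => dV h θ y 0) z w * fderiv ℂ θ z (ee 1) j -
      fderiv ℂ (fun y => dV h θ y 1) z w * fderiv ℂ θ z (ee 0) j = 0 := by
    intro j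
    have hev : (fun y => gr f (θ y) k * (dV h θ y 0 * fderiv ℂ θ y (ee 1) j -
        dV h θ y 1 * fderiv ℂ θ y (ee 0) j)) =ᶠ[𝓝 z]
        fun y => crs (fderiv ℂ θ y (ee 0)) (fderiv ℂ θ y (ee 1)) k *
          crs (gr f (θ y)) (gr h (θ y)) j := by
      filter_upwards [hθ.isOpen.mem_nhds hz] with y hy
      exact main_id hθ hy (hfa y hy).differentiableAt (hha y hy).differentiableAt k j
    have h1 := DFunLike.congr_fun (hev.fderiv_eq (𝕜 := ℂ)) w
    have d0 : DifferentiableAt ℂ (fun y => dV h θ y 0 * fderiv ℂ θ y (ee 1) j) z :=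
      (dVd 0).mul (dT 1 j)
    have d1 : DifferentiableAt ℂ (fun y => dV h θ y 1 * fderiv ℂ θ y (ee 0) j) z :=
      (dVd 1).mul (dT 0 j)
    have d2 : DifferentiableAt ℂ (fun y => dV h θ y 0 * fderiv ℂ θ y (ee 1) j -
      dV h θ y 1 * fderiv ℂ θ y (ee 0) j) z := d0.sub d1
    have d3 : DifferentiableAt ℂ (fun y => crs (gr f (θ y)) (gr h (θ y)) j) z :=
      DifferentiableAt.comp z (g := fun x => crs (gr f x) (gr h x) j) (dM j) hthd
    rw [fderiv_mul_zero dF d2 (by rw [hV0, hV1, zero_mul, zero_mul, sub_zero]),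
      fderiv_mul_zero dC d3 (hcrs j)] at h1
    have h2 : fderiv ℂ (fun y => crs (gr f (θ y)) (gr h (θ y)) j) z w =
        fderiv ℂ (fun x => crs (gr f x) (gr h x) j) (θ z) (fderiv ℂ θ z w) :=
      fderiv_comp_par hθ hz (dM j) w
    rw [h2, hv' j, mul_zero] at h1
    have h3 := (mul_eq_zero.1 h1).resolve_left hk
    rw [fderiv_fun_sub d0 d1] at h3
    rw [sub_apply, fderiv_mul_zero' (dT 1 j) (dVd 0) hV0,
      fderiv_mul_zero' (dT 0 j) (dVd 1) hV1] at h3
    exact h3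
  have h2 : (-fderiv ℂ (fun y => dV h θ y 1) z w) • fderiv ℂ θ z (ee 0) +
      fderiv ℂ (fun y => dV h θ y 0) z w • fderiv ℂ θ z (ee 1) = 0 := by
    funext j
    have := key j
    show -fderiv ℂ (fun y => dV h θ y 1) z w * fderiv ℂ θ z (ee 0) j +
      fderiv ℂ (fun y => dV h θ y 0) z w * fderiv ℂ θ z (ee 1) j = 0
    linear_combination this
  obtain ⟨e1, e0⟩ := indep hθ hz h2
  have e1' := neg_eq_zero.1 e1
  have hw : w = w 0 • ee 0 + w 1 • ee 1 := by
    ext i
    fin_cases i <;> simp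
  have hmul : (Matrix.of fun i a => Crest.Agent.R273.Calc_243.dS (-Complex.I) a
      (fun w => dV h θ w i) z : Matrix (Fin 2) (Fin 2) ℂ) *ᵥ (fun a => w a) = 0 := by
    funext i
    have e : ∀ a, Crest.Agent.R273.Calc_243.dS (-Complex.I) a (fun w => dV h θ w i) z =
        fderiv ℂ (fun y => dV h θ y i) z (ee a) := fun a => Srd_761.dS_hol (dVd i) a
    show ∑ a, Crest.Agent.R273.Calc_243.dS (-Complex.I) a (fun w => dV h θ w i) z * w a = 0
    rw [Fin.sum_univ_two, e, e]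
    have h3 : fderiv ℂ (fun y => dV h θ y i) z w = 0 := by
      fin_cases i
      · exact e0
      · exact e1'
    rw [hw, map_add, map_smul, map_smul, smul_eq_mul, smul_eq_mul] at h3
    linear_combination h3
  have hw0 := Matrix.eq_zero_of_mulVec_eq_zero hN hmul
  have hwz : w = 0 := by
    ext i
    exact congrFun hw0 i
  rw [hwz, map_zero]

/-- **the leaf `MnrStmt`** -/
theorem mnrStmt : MnrStmt := by
  intro f r hL h hh θ O hPE z hz
  have hlt := hPE.lt z hz
  have hfa : ∀ z ∈ O, AnalyticAt ℂ f (θ z) := fun y hy => hL.an _ (hPE.lt y hy)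
  have hha : ∀ z ∈ O, AnalyticAt ℂ h (θ z) := fun y hy => hh _ (hPE.lt y hy)
  have hlv := hPE.par.lvl z hz
  have h0 : fderiv ℂ f (θ z) ≠ 0 := hL.sm _ (hPE.ne z hz) hlt hlv
  have hz0 := zero_iff hPE.par hz (hfa z hz).differentiableAt h0 (hha z hz).differentiableAt
  constructor
  · rw [hz0]
    constructor
    · intro hc j
      fin_cases j
      · exact hlv
      · exact hc 0
      · exact hc 1
      · exact hc 2
    · intro hm j
      fin_cases j
      · exact hm 1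
      · exact hm 2
      · exact hm 3
  · intro hV hN v hv
    refine nondeg hPE.par hfa hha hz h0 hV hN (hv 0) fun j => ?_
    fin_cases j
    · exact hv 1
    · exact hv 2
    · exact hv 3

end Crest.Agent.R257.Mnr_149
end
end

-- ▼ part R257/Lim_397
section

/-!
# R257 (S0395), the limit of the second Chern integrals (helper397)

* `c2i_eq`   : `C2I = ∫ χ c₂` when integrable
* `exists_pt` : small generic perturbations
* `one_level` : the identity on a near smooth level, with `col (mnr f h)` zeros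
* `tendStmt` : `TendStmt` from `CntStmt`
-/

set_option autoImplicit false

open Topology Filter MeasureTheory Set
open scoped ENNReal ContDiff Matrix

noncomputable section

namespace Crest.Agent.R257.Lim_397

open Crest.Agent.R275.Geo
open Crest.Agent.R257.Defs_219
open Crest.Agent.R257.KED_952 Crest.Agent.R257.KEG_952
open Crest.Agent.R257.V1Defs_822 (SmL LvlOK)
open Crest.Agent.R257.V1Pe_822 (continuous_nsq3 isNu_ae)
open Crest.Agent.R257.PN_835 (nsq)
open Crest.Agent.R257.Ked2_397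
open Crest.Agent.R257.LossD_309 Crest.Agent.R257.LossT_309 Crest.Agent.R257.OutB_309
open Crest.Agent.R257.OxCv1_397 Crest.Agent.R257.OxCv3_397

variable {Φ : E3 × PP → ℂ} {τ₀ : PP} {l : Filter PP} {r C : ℝ} {w : PP → E3 → ℝ} {u : E3 → ℝ}

/-- `C2I` as a Bochner integral -/
theorem c2i_eq {f : E3 → ℂ} {s : ℂ} {χ : E3 → ℝ} {ν : Measure E3} (hL : LvlOK f s r)
    (hu : KEon f s r u) (hν : IsNu f s r ν) (hχ : Cut r χ)
    (hi : Integrable (fun x => χ x * c2d f u x) ν) :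
    C2I ν f u χ < ⊤ ∧ (C2I ν f u χ).toReal = ∫ x, χ x * c2d f u x ∂ν := by
  have h0 : ∀ᵐ x ∂ν, 0 ≤ χ x * c2d f u x := isNu_ae hν fun x h1 h2 h3 => by
    have := bmyStmt f s r u hL.pos hL.an hL.sm hu x h3 h1 h2
    have h4 := Real.exp_pos (u x)
    exact mul_nonneg (hχ.nn x) (by linarith)
  constructor
  · have := (hasFiniteIntegral_iff_ofReal h0).1 hi.2
    exact this
  · rw [integral_eq_lintegral_of_nonneg_ae h0 hi.1]
    rfl

/-- small generic perturbations -/
theorem exists_pt {f : E3 → ℂ} {s : ℂ} (hL : LvlOK f s r) (h0 : f 0 ≠ s) {h : E3 → ℂ}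
    (hh : ∀ x, nsq x < r ^ 2 → AnalyticAt ℂ h x) {ε : ℝ} (hε : 0 < ε) :
    ∃ a : E3, ‖a‖ < ε ∧ ∀ θ O, PE f s r θ O → ∀ z ∈ O, dV (ptb h a) θ z = 0 →
      Nd (dV (ptb h a) θ) z := by
  have h1 := SrdS_761.sardStmt f s r hL h0 h hh
  have h2 := Measure.dense_of_ae h1
  obtain ⟨a, ha1, ha2⟩ := h2.inter_open_nonempty (Metric.ball (0 : E3) ε) Metric.isOpen_ball
    ⟨0, Metric.mem_ball_self hε⟩
  exact ⟨a, mem_ball_zero_iff.1 ha1, ha2⟩

/-- **`TendStmt` from `CntStmt`** -/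
theorem tendStmt (cnt : CntStmt) : TendStmt := by
  intro Φ τ₀ l r C w u hS f hf χ hχ ν ν₀ hν hν₀ h hh hfin hN
  subst hf
  classical
  have hF : FamD Φ τ₀ l r C w u := hS.toFamD
  have hL0 := Vol_397.lvl0 hF.toFam
  have hh' : ∀ x, nsq x < r ^ 2 → AnalyticAt ℂ h x := fun x hx => hh x hx.le
  have hne : l.NeBot := hS.ne
  -- radii
  obtain ⟨r₁, -, hr₁, -, hχ1, -⟩ := V1Top_822.cut_locconst hχ
  obtain ⟨ρ₂, b1, b2, b3⟩ := hχ.supp
  set r₂ := (ρ₂ + r) / 2 with hr₂
  have c1 : 0 ≤ r₂ := by rw [hr₂]; linarith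
  have c2 : r₂ < r := by rw [hr₂]; linarith
  have c3 : ρ₂ < r₂ := by rw [hr₂]; linarith
  have hts : ∀ x, x ∈ tsupport χ → nsq x ≤ r₂ ^ 2 := by
    intro x hx
    have h1 : tsupport χ ⊆ {x | nsq x ≤ ρ₂ ^ 2} := by
      refine closure_minimal (fun y hy => ?_) (isClosed_le continuous_nsq3 continuous_const)
      by_contra hcon
      exact hy (b3 y (not_le.1 hcon).le)
    have h2 : nsq x ≤ ρ₂ ^ 2 := h1 hx
    nlinarith
  -- count
  have hΦ0 : AnalyticAt ℂ Φ (0, τ₀) := hS.an 0 (by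
    rw [V1Pe_822.nsq_zero3]
    positivity)
  obtain ⟨ρ, hρ, hcnt⟩ := cnt Φ τ₀ hΦ0 _ rfl hS.iso h (hh 0 (by
    rw [V1Pe_822.nsq_zero3]
    positivity)) hfin
  set ε := min (min ρ r₁) (r / 2) with hε
  have hεp : 0 < ε := lt_min (lt_min hρ hr₁) (by linarith [hS.r_pos])
  have hε1 : ε ≤ ρ := (min_le_left _ _).trans (min_le_left _ _)
  have hε2 : ε ≤ r₁ := (min_le_left _ _).trans (min_le_right _ _)
  have hε3 : ε < r := lt_of_le_of_lt (min_le_right _ _) (by linarith [hS.r_pos])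
  have hcnt' := hcnt ε hεp
  -- the perturbations
  have hLev := Vol_397.ev_lvl hF.toFam
  have hfz : Φ (0, τ₀) = 0 := hS.iso.zero
  have hex : ∀ τ, ∃ a : E3, ‖a‖ ≤ dist τ τ₀ ∧ (LvlOK (fun x => Φ (x, τ)) 0 r → Φ (0, τ) ≠ 0 →
      ∀ θ O, PE (fun x => Φ (x, τ)) 0 r θ O → ∀ z ∈ O, dV (ptb h a) θ z = 0 →
        Nd (dV (ptb h a) θ) z) := by
    intro τ
    by_cases h1 : LvlOK (fun x => Φ (x, τ)) 0 r ∧ Φ (0, τ) ≠ 0
    · have h2 : 0 < dist τ τ₀ := by
        refine dist_pos.2 ?_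
        rintro rfl
        exact h1.2 hfz
      obtain ⟨a, ha1, ha2⟩ := exists_pt h1.1 h1.2 hh' h2
      exact ⟨a, ha1.le, fun _ _ => ha2⟩
    · exact ⟨0, by rw [norm_zero]; exact dist_nonneg, fun h2 h3 => absurd ⟨h2, h3⟩ h1⟩
  choose a ha hgen using hex
  have ha0 : Tendsto a l (𝓝 0) := by
    have h1 : Tendsto (fun τ => dist τ τ₀) l (𝓝 0) := by
      have h2 : Tendsto (fun τ => dist τ τ₀) (𝓝 τ₀) (𝓝 (dist τ₀ τ₀)) :=
        (continuous_id.dist continuous_const).tendsto τ₀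
      rw [dist_self] at h2
      exact h2.mono_left hS.lim
    exact squeeze_zero_norm ha h1
  have hta : Tendsto (fun τ => (τ, a τ)) l (𝓝 (τ₀, 0)) := by
    rw [nhds_prod_eq]
    exact (tendsto_id.mono_left hS.lim).prodMk ha0
  -- the identity on the levels
  have key : ∀ᶠ τ in l, C2I (ν τ) (fun x => Φ (x, τ)) (w τ) χ < ⊤ ∧
      (C2I (ν τ) (fun x => Φ (x, τ)) (w τ) χ).toReal =
        ∫ x, oxd (fun x => Φ (x, τ)) (w τ) (fun _ => 0) (ptb h (a τ)) χ x ∂(ν τ) +
          Real.pi ^ 2 * col (mnr (fun x => Φ (x, τ₀)) h) := by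
    filter_upwards [hLev, hS.nz, hS.ke, hν, hta.eventually hcnt',
      ev_ne hF.toFam hh' hN (by positivity : (0 : ℝ) < ε / 2) c1 c2 ha0] with τ t1 t2 t3 t4 t5 t6
    obtain ⟨u1, u2, u3⟩ := t5
    have hhp : ∀ x, nsq x < r ^ 2 → AnalyticAt ℂ (ptb h (a τ)) x := fun x hx => ptb_an (hh' x hx)
    have hnd := hgen τ t1 t2
    set g : E3 → ℂ := fun x => Φ (x, τ) with hg
    -- points of the zero set
    have hZ : ∀ x ∈ ZM Φ h ρ (τ, a τ), g x = 0 ∧ x ≠ 0 ∧ nsq x < r ^ 2 := by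
      intro x hx
      have e1 : g x = 0 := hx.2 0
      refine ⟨e1, ?_, ?_⟩
      · rintro rfl
        exact t2 e1
      · have := u2 x hx
        nlinarith
    have hmn : ∀ θ O, PE g 0 r θ O → ∀ z ∈ O, (dV (ptb h (a τ)) θ z = 0 ↔
        ∀ j, mnr g (ptb h (a τ)) j (θ z) = 0) := fun θ O hP z hz =>
      (Mnr_149.mnrStmt g r t1 (ptb h (a τ)) hhp θ O hP z hz).1
    have hcard := u3 fun x hx v hv => by
      obtain ⟨e1, e2, e3⟩ := hZ x hx
      obtain ⟨θ, O, z, hP, hz, rfl⟩ := exists_pe (t1.an x e3) (t1.sm x e2 e3 e1) e1 e2 e3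
      have e4 := (hmn θ O hP z hz).2 hx.2
      exact (Mnr_149.mnrStmt g r t1 (ptb h (a τ)) hhp θ O hP z hz).2 e4
        (hnd θ O hP z hz e4) v hv
    have hE := OutD_309.e1Stmt g 0 r t1 t2 (w τ) t3.1 (ν τ) t4 χ hχ (ptb h (a τ)) hhp hnd
      u1.toFinset (fun x hx => by
        have := hZ x (u1.mem_toFinset.1 hx)
        exact ⟨this.1, this.2.2⟩) (fun θ O hP z hz hzs => by
        rw [u1.mem_toFinset]
        constructor
        · intro hx
          exact (hmn θ O hP z hz).2 hx.2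
        · intro hv
          have e1 : nsq (θ z) < (ε / 2) ^ 2 := by
            by_contra hcon
            obtain ⟨v, hv1, hv2⟩ := t6 _ (not_lt.1 hcon) (hts _ hzs) (hP.par.lvl z hz)
            exact ((dV_ne_iff hP.par hz (t1.an _ (hP.lt z hz)).differentiableAt
              (t1.sm _ (hP.ne z hz) (hP.lt z hz) (hP.par.lvl z hz))
              (hhp _ (hP.lt z hz)).differentiableAt).2 ⟨v, hv1, hv2⟩) hv
          refine ⟨?_, (hmn θ O hP z hz).1 hv⟩
          nlinarith)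
    obtain ⟨i1, i2, i3⟩ := hE
    obtain ⟨j1, j2⟩ := c2i_eq t1 t3.1 t4 hχ i1
    refine ⟨j1, ?_⟩
    rw [j2, i3]
    have hsum : ∑ x ∈ u1.toFinset, χ x = (col (mnr (fun x => Φ (x, τ₀)) h) : ℝ) := by
      have e1 : ∑ x ∈ u1.toFinset, χ x = ∑ x ∈ u1.toFinset, (1 : ℝ) := by
        refine Finset.sum_congr rfl fun x hx => ?_
        have e2 := u2 x (u1.mem_toFinset.1 hx)
        exact (hχ1 x (by nlinarith)).self_of_nhds
      rw [e1, Finset.sum_const, nsmul_eq_mul, mul_one, ← hcard, Set.ncard_eq_toFinset_card _ u1]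
    rw [hsum]
  refine ⟨key.mono fun τ hτ => hτ.1, ?_⟩
  obtain ⟨o1, o2, o3⟩ := oxCvStmt Φ τ₀ l r C w u hS _ rfl χ hχ h hh hN a ha0
  have hint := KedM_941.cvIStmt Φ τ₀ l r hF.toFam ν ν₀ hν hν₀
    (fun τ => oxd (fun x => Φ (x, τ)) (w τ) (fun _ => 0) (ptb h (a τ)) χ)
    (oxd (fun x => Φ (x, τ₀)) u (fun _ => 0) h χ) o3 o2 o1
    ⟨r₁, r₂, hr₁, by linarith, c2, fun x hx => by
      have key2 : ∀ (f' : E3 → ℂ) (u' φ' : E3 → ℝ) (h' : E3 → ℂ), oxd f' u' φ' h' χ x = 0 := by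
        intro f' u' φ' h'
        rcases hx with hx | hx
        · exact oxd_zero (hχ1 x hx)
        · refine oxd_zero (c := 0) ?_
          have h6 : ∀ᶠ y in 𝓝 x, ρ₂ ^ 2 < nsq y := by
            refine continuousAt_const.eventually_lt continuous_nsq3.continuousAt ?_
            nlinarith
          exact h6.mono fun y hy => b3 y hy.le
      exact ⟨fun τ => key2 _ _ _ _, key2 _ _ _ _⟩⟩
  have hlim := hint.add_const (Real.pi ^ 2 * (col (mnr (fun x => Φ (x, τ₀)) h) : ℝ))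
  refine hlim.congr' ?_
  filter_upwards [key] with τ hτ
  exact hτ.2.symm

end Crest.Agent.R257.Lim_397
end
end

-- ▼ part R257/Syz_846
section

/-!
R257 / Syz_846 (helper846): syzygies of `(f, M₀, M₁, M₂)`, `M = F × H`
(algebra of `CntStmt`, #3822 (2) of helper812; shapes of #3962).

`R` a UFD.
* `hb`    : `b · M = 0 → ∃ p q, b = p F + q H`   (Hilbert–Burch), if `gcd (M) = 1`;
* `link`  : `b F₂, b H₂ ∈ (M₀, M₁) → b ∈ (M₀, M₁, M₂)`;
* `nzd`   : `f` a nonzerodivisor modulo `(M₀, M₁)` → nonzerodivisor modulo `(M)`;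
* `syz`   : the syzygies of `(f, M)` are `(c · M, - f c + p F + q H)`.
-/

set_option autoImplicit false

namespace Crest.Agent.R257.Syz_846

variable {R : Type*} [CommRing R]

/-- the cross product -/
def M (F H : Fin 3 → R) : Fin 3 → R :=
  ![F 1 * H 2 - F 2 * H 1, F 2 * H 0 - F 0 * H 2, F 0 * H 1 - F 1 * H 0]

@[simp] theorem M0 (F H : Fin 3 → R) : M F H 0 = F 1 * H 2 - F 2 * H 1 := rfl
@[simp] theorem M1 (F H : Fin 3 → R) : M F H 1 = F 2 * H 0 - F 0 * H 2 := rfl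
@[simp] theorem M2 (F H : Fin 3 → R) : M F H 2 = F 0 * H 1 - F 1 * H 0 := rfl

theorem dot_F (F H : Fin 3 → R) : ∑ i, F i * M F H i = 0 := by
  simp only [Fin.sum_univ_three, M0, M1, M2]; ring

theorem dot_H (F H : Fin 3 → R) : ∑ i, H i * M F H i = 0 := by
  simp only [Fin.sum_univ_three, M0, M1, M2]; ring

/-- `(b × H) × M = 0` if `b · M = 0` -/
theorem par_H {F H b : Fin 3 → R} (hb : ∑ i, b i * M F H i = 0) (i j : Fin 3) :
    M b H i * M F H j = M b H j * M F H i := by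
  simp only [Fin.sum_univ_three, M0, M1, M2] at hb
  fin_cases i <;> fin_cases j <;> simp
  · linear_combination (H 2) * hb
  · linear_combination (-(H 1)) * hb
  · linear_combination (-(H 2)) * hb
  · linear_combination (H 0) * hb
  · linear_combination (H 1) * hb
  · linear_combination (-(H 0)) * hb

/-- `(F × b) × M = 0` if `b · M = 0` -/
theorem par_F {F H b : Fin 3 → R} (hb : ∑ i, b i * M F H i = 0) (i j : Fin 3) :
    M F b i * M F H j = M F b j * M F H i := by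
  simp only [Fin.sum_univ_three, M0, M1, M2] at hb
  fin_cases i <;> fin_cases j <;> simp
  · linear_combination (-(F 2)) * hb
  · linear_combination (F 1) * hb
  · linear_combination (F 2) * hb
  · linear_combination (-(F 0)) * hb
  · linear_combination (-(F 1)) * hb
  · linear_combination (F 0) * hb

/-- `d × H = 0`, `F × d = 0` ⟹ `M_k d_l = 0` -/
theorem kill {F H d : Fin 3 → R} (h1 : ∀ i, M d H i = 0) (h2 : ∀ i, M F d i = 0) (k l : Fin 3) :
    M F H k * d l = 0 := by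
  have a0 := h1 0
  have a1 := h1 1
  have a2 := h1 2
  have b0 := h2 0
  have b1 := h2 1
  have b2 := h2 2
  simp only [M0, M1, M2] at a0 a1 a2 b0 b1 b2
  fin_cases k <;> fin_cases l <;> simp
  · linear_combination (-(F 1)) * a1 - F 2 * a2 + H 0 * b0
  · linear_combination (F 1) * a0 + H 1 * b0
  · linear_combination (F 2) * a0 + H 2 * b0
  · linear_combination (F 0) * a1 + H 0 * b1
  · linear_combination (-(F 0)) * a0 - F 2 * a2 + H 1 * b1
  · linear_combination (F 2) * a1 + H 2 * b1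
  · linear_combination (F 0) * a2 + H 0 * b2
  · linear_combination (F 1) * a2 + H 1 * b2
  · linear_combination (-(F 0)) * a0 - F 1 * a1 + H 2 * b2

theorem mem_span_range {F H : Fin 3 → R} {b : R} :
    b ∈ Ideal.span (Set.range (M F H)) ↔ ∃ c : Fin 3 → R, b = ∑ i, c i * M F H i := by
  rw [Ideal.mem_span_range_iff_exists_fun]
  exact ⟨fun ⟨c, h⟩ => ⟨c, h.symm⟩, fun ⟨c, h⟩ => ⟨c, h.symm⟩⟩

variable [IsDomain R]

/-- one divisibility is enough -/
theorem hb_of_dvd {F H b : Fin 3 → R} (hb : ∑ i, b i * M F H i = 0) (k : Fin 3)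
    (h0 : M F H k ≠ 0) (hp : M F H k ∣ M b H k) (hq : M F H k ∣ M F b k) :
    ∃ p q : R, ∀ i, b i = p * F i + q * H i := by
  obtain ⟨p, hp⟩ := hp
  obtain ⟨q, hq⟩ := hq
  have hp' : ∀ j, M b H j = p * M F H j := by
    intro j
    have := par_H hb k j
    rw [hp] at this
    refine mul_right_cancel₀ h0 ?_
    rw [← this]; ring
  have hq' : ∀ j, M F b j = q * M F H j := by
    intro j
    have := par_F hb k j
    rw [hq] at this
    refine mul_right_cancel₀ h0 ?_
    rw [← this]; ring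
  refine ⟨p, q, ?_⟩
  set d : Fin 3 → R := fun i => b i - (p * F i + q * H i) with hd
  have h1 : ∀ i, M d H i = 0 := by
    intro i
    have := hp' i
    fin_cases i <;> simp [hd] at this ⊢ <;> linear_combination this
  have h2 : ∀ i, M F d i = 0 := by
    intro i
    have := hq' i
    fin_cases i <;> simp [hd] at this ⊢ <;> linear_combination this
  intro i
  have h3 := kill h1 h2 k i
  rcases mul_eq_zero.mp h3 with h | h
  · exact absurd h h0
  · exact sub_eq_zero.mp h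


/-- **(HB)** -/
theorem hb [UniqueFactorizationMonoid R] (F H : Fin 3 → R) (h0 : ∃ i, M F H i ≠ 0)
    (hg : ∀ p : R, Prime p → ∃ i, ¬ p ∣ M F H i) (b : Fin 3 → R)
    (h : ∑ i, b i * M F H i = 0) : ∃ p q : R, ∀ i, b i = p * F i + q * H i := by
  obtain ⟨k, h0⟩ := h0
  have key : ∀ m : R, m ≠ 0 → ∀ c : R, (∀ j, m ∣ c * M F H j) → m ∣ c := by
    intro m
    refine UniqueFactorizationMonoid.induction_on_prime m ?_ ?_ ?_
    · intro h; exact absurd rfl h
    · intro u hu _ c _; exact hu.dvd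
    · intro m r hm hr ih _ c hc
      have hr' : r ∣ c := by
        obtain ⟨i, hi⟩ := hg r hr
        have : r ∣ c * M F H i := (dvd_mul_right r m).trans (hc i)
        exact (hr.dvd_or_dvd this).resolve_right hi
      obtain ⟨c', rfl⟩ := hr'
      have := ih hm c' (fun j => by
        have h3 := hc j
        rw [mul_assoc] at h3
        exact (mul_dvd_mul_iff_left hr.ne_zero).mp h3)
      exact mul_dvd_mul_left r this
  refine hb_of_dvd h k h0 (key _ h0 _ fun j => ?_) (key _ h0 _ fun j => ?_)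
  · rw [par_H h k j]; exact dvd_mul_left _ _
  · rw [par_F h k j]; exact dvd_mul_left _ _


/-- **(LINK)**: `(M₀, M₁) : (F₂, H₂) = (M)` -/
theorem link_reg (F H : Fin 3 → R)
    (hreg : ∀ x y : R, x * M F H 0 + y * M F H 1 = 0 →
      ∃ s, x = s * M F H 1 ∧ y = -(s * M F H 0)) (hF : F 2 ≠ 0)
    (hFH : ∀ c, F 2 ∣ c * H 2 → F 2 ∣ c) {b x y z w : R}
    (h1 : b * F 2 = x * M F H 0 + y * M F H 1) (h2 : b * H 2 = z * M F H 0 + w * M F H 1) :
    b ∈ Ideal.span (Set.range (M F H)) := by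
  have e1 : (x * H 2 - z * F 2) * M F H 0 + (y * H 2 - w * F 2) * M F H 1 = 0 := by
    linear_combination (-(H 2)) * h1 + F 2 * h2
  obtain ⟨s, hs1, hs2⟩ := hreg _ _ e1
  have e2 : (x + s * F 0) * H 2 = (z + s * H 0) * F 2 := by
    simp only [M1] at hs1
    linear_combination hs1
  have e3 : (y + s * F 1) * H 2 = (w + s * H 1) * F 2 := by
    simp only [M0] at hs2
    linear_combination hs2
  obtain ⟨e, he⟩ := hFH _ ⟨z + s * H 0, by rw [e2]; ring⟩
  obtain ⟨e', he'⟩ := hFH _ ⟨w + s * H 1, by rw [e3]; ring⟩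
  refine mem_span_range.mpr ⟨![e, e', s], ?_⟩
  refine mul_right_cancel₀ hF ?_
  have hx : x = F 2 * e - s * F 0 := by linear_combination he
  have hy : y = F 2 * e' - s * F 1 := by linear_combination he'
  rw [h1, hx, hy]
  simp only [Fin.sum_univ_three, M0, M1, M2, Matrix.cons_val_zero, Matrix.cons_val_one,
    Matrix.cons_val]
  ring

/-- **(LINK)** -/
theorem link [UniqueFactorizationMonoid R] (F H : Fin 3 → R)
    (hg : ∀ p : R, Prime p → ¬ (p ∣ F 2 ∧ p ∣ H 2))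
    (hreg : ∀ x y : R, x * M F H 0 + y * M F H 1 = 0 →
      ∃ s, x = s * M F H 1 ∧ y = -(s * M F H 0)) (b : R)
    (h1 : b * F 2 ∈ Ideal.span {M F H 0, M F H 1})
    (h2 : b * H 2 ∈ Ideal.span {M F H 0, M F H 1}) : b ∈ Ideal.span (Set.range (M F H)) := by
  by_cases hF : F 2 = 0
  · by_cases hH : H 2 = 0
    · exfalso
      obtain ⟨s, hs, -⟩ := hreg 1 0 (by simp [M0, hF, hH])
      simp [M1, hF, hH] at hs
    · have hu : IsUnit (H 2) := by
        by_contra hu
        obtain ⟨p, hp, hd⟩ := WfDvdMonoid.exists_irreducible_factor hu hH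
        exact hg p hp.prime ⟨by rw [hF]; exact dvd_zero p, hd⟩
      obtain ⟨v, hv⟩ := hu
      have : b = (b * H 2) * ((v⁻¹ : Rˣ) : R) := by
        rw [← hv, mul_assoc, Units.mul_inv, mul_one]
      rw [this]
      refine Ideal.mul_mem_right _ _ ?_
      refine Ideal.span_mono ?_ h2
      intro a ha
      rcases ha with rfl | ha
      · exact ⟨0, rfl⟩
      · rw [Set.mem_singleton_iff] at ha
        exact ⟨1, ha.symm⟩
  · obtain ⟨x, y, e1⟩ := Ideal.mem_span_pair.mp h1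
    obtain ⟨z, w, e2⟩ := Ideal.mem_span_pair.mp h2
    refine link_reg F H hreg hF (fun c hc => ?_) e1.symm e2.symm
    have : IsRelPrime (F 2) (H 2) := by
      rw [UniqueFactorizationMonoid.isRelPrime_iff_no_prime_factors hF]
      intro d hd1 hd2 hd
      exact hg d hd ⟨hd1, hd2⟩
    exact this.dvd_of_dvd_mul_right hc

theorem mul_F_mem (F H : Fin 3 → R) {c : R} (h : c ∈ Ideal.span (Set.range (M F H))) :
    c * F 2 ∈ Ideal.span {M F H 0, M F H 1} ∧ c * H 2 ∈ Ideal.span {M F H 0, M F H 1} := by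
  obtain ⟨c, rfl⟩ := mem_span_range.mp h
  have e1 := dot_F F H
  have e2 := dot_H F H
  simp only [Fin.sum_univ_three] at e1 e2 ⊢
  constructor
  · exact Ideal.mem_span_pair.mpr ⟨c 0 * F 2 - c 2 * F 0, c 1 * F 2 - c 2 * F 1, by
      linear_combination (- c 2) * e1⟩
  · exact Ideal.mem_span_pair.mpr ⟨c 0 * H 2 - c 2 * H 0, c 1 * H 2 - c 2 * H 1, by
      linear_combination (- c 2) * e2⟩

/-- **(NZD)** -/
theorem nzd [UniqueFactorizationMonoid R] (F H : Fin 3 → R)
    (hg : ∀ p : R, Prime p → ¬ (p ∣ F 2 ∧ p ∣ H 2))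
    (hreg : ∀ x y : R, x * M F H 0 + y * M F H 1 = 0 →
      ∃ s, x = s * M F H 1 ∧ y = -(s * M F H 0)) (f : R)
    (hf : ∀ x, f * x ∈ Ideal.span {M F H 0, M F H 1} → x ∈ Ideal.span {M F H 0, M F H 1}) (b : R)
    (h : f * b ∈ Ideal.span (Set.range (M F H))) : b ∈ Ideal.span (Set.range (M F H)) := by
  obtain ⟨h1, h2⟩ := mul_F_mem F H h
  refine link F H hg hreg b (hf _ ?_) (hf _ ?_)
  · rw [← mul_assoc]; exact h1
  · rw [← mul_assoc]; exact h2

/-- **the syzygies of `(f, M₀, M₁, M₂)`** -/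
theorem syz (f : R) (F H : Fin 3 → R)
    (hb : ∀ b : Fin 3 → R, ∑ i, b i * M F H i = 0 → ∃ p q : R, ∀ i, b i = p * F i + q * H i)
    (hn : ∀ b, f * b ∈ Ideal.span (Set.range (M F H)) → b ∈ Ideal.span (Set.range (M F H)))
    (b0 : R) (b : Fin 3 → R) (h : b0 * f + ∑ i, b i * M F H i = 0) :
    ∃ (c : Fin 3 → R) (p q : R), b0 = ∑ i, c i * M F H i ∧
      ∀ i, b i = - (c i * f) + p * F i + q * H i := by
  obtain ⟨c, hc⟩ := mem_span_range.mp (hn b0 (mem_span_range.mpr ⟨fun i => - b i, by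
    simp only [Fin.sum_univ_three] at h ⊢; linear_combination h⟩))
  obtain ⟨p, q, hpq⟩ := hb (fun i => c i * f + b i) (by
    simp only [Fin.sum_univ_three] at h hc ⊢
    linear_combination h - f * hc)
  exact ⟨c, p, q, hc, fun i => by linear_combination hpq i⟩

end Crest.Agent.R257.Syz_846
end

-- ▼ part R257/Cnt1_812
section

/-!
Row 257 (S0395), leaf CntStmt (helper812), part 1: the syzygies of `(f, ∇f × ∇h)` in `O_3` when the
quotient is finite dimensional.
-/

set_option autoImplicit false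
set_option linter.unusedSectionVars false

open Set Filter Topology Metric Complex
open Crest.AlgGeometry.Germ
open Crest.Agent.R275.Loc2879 hiding AA
open Crest.Agent.R257.UI939 Crest.Agent.R257.Defs_219 Crest.Agent.R257.Num488
open Crest.Agent.R257.Gen_812

noncomputable section

namespace Crest.Agent.R257.Det_812

open Crest.Agent.R257.Syz_846

section Alg

variable {f : BB 3} {F H : Fin 3 → BB 3}

/-- the ideal `(f, M)` -/
abbrev IM (f : BB 3) (F H : Fin 3 → BB 3) : Ideal (BB 3) :=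
  Ideal.span {f} ⊔ Ideal.span (Set.range (M F H))

/-- no common factor -/
lemma gcd_M (hf : ¬ IsUnit f) (hfin : dl (BB 3 ⧸ IM f F H) ≠ ⊤) {p : BB 3} (hp : Prime p) :
    ∃ i, ¬ p ∣ M F H i := by
  by_contra hcon
  push Not at hcon
  refine hfin (not_fin_two hf hp.not_isUnit (sup_le ?_ ?_))
  · rw [Ideal.span_singleton_le_iff_mem]; exact Ideal.subset_span (by simp)
  · rw [Ideal.span_le]
    rintro _ ⟨i, rfl⟩
    obtain ⟨c, hc⟩ := hcon i
    show M F H i ∈ _
    rw [hc]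
    exact Ideal.mul_mem_right _ _ (Ideal.subset_span (by simp))

lemma exists_M_ne (hf : ¬ IsUnit f) (hfin : dl (BB 3 ⧸ IM f F H) ≠ ⊤) : ∃ i, M F H i ≠ 0 := by
  by_contra hcon
  push Not at hcon
  refine hfin (not_fin_two hf hf (sup_le ?_ ?_))
  · rw [Ideal.span_singleton_le_iff_mem]; exact Ideal.subset_span (by simp)
  · rw [Ideal.span_le]
    rintro _ ⟨i, rfl⟩
    show M F H i ∈ _
    rw [hcon i]
    exact Ideal.zero_mem _

/-- rotation of the rows -/
lemma M_rot (F H : Fin 3 → BB 3) (w w' w'' : Fin 3 → BB 3) :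
    M ![(w' 1 * w'' 2 - w' 2 * w'' 1) * F 0 + (w' 2 * w'' 0 - w' 0 * w'' 2) * F 1 +
          (w' 0 * w'' 1 - w' 1 * w'' 0) * F 2,
        (w'' 1 * w 2 - w'' 2 * w 1) * F 0 + (w'' 2 * w 0 - w'' 0 * w 2) * F 1 +
          (w'' 0 * w 1 - w'' 1 * w 0) * F 2,
        (w 1 * w' 2 - w 2 * w' 1) * F 0 + (w 2 * w' 0 - w 0 * w' 2) * F 1 +
          (w 0 * w' 1 - w 1 * w' 0) * F 2]
      ![(w' 1 * w'' 2 - w' 2 * w'' 1) * H 0 + (w' 2 * w'' 0 - w' 0 * w'' 2) * H 1 +
          (w' 0 * w'' 1 - w' 1 * w'' 0) * H 2,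
        (w'' 1 * w 2 - w'' 2 * w 1) * H 0 + (w'' 2 * w 0 - w'' 0 * w 2) * H 1 +
          (w'' 0 * w 1 - w'' 1 * w 0) * H 2,
        (w 1 * w' 2 - w 2 * w' 1) * H 0 + (w 2 * w' 0 - w 0 * w' 2) * H 1 +
          (w 0 * w' 1 - w 1 * w' 0) * H 2] =
    ![((w 1 * w' 2 - w 2 * w' 1) * w'' 0 + (w 2 * w' 0 - w 0 * w' 2) * w'' 1 +
        (w 0 * w' 1 - w 1 * w' 0) * w'' 2) * (∑ i, w i * M F H i),
      ((w 1 * w' 2 - w 2 * w' 1) * w'' 0 + (w 2 * w' 0 - w 0 * w' 2) * w'' 1 +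
        (w 0 * w' 1 - w 1 * w' 0) * w'' 2) * (∑ i, w' i * M F H i),
      ((w 1 * w' 2 - w 2 * w' 1) * w'' 0 + (w 2 * w' 0 - w 0 * w' 2) * w'' 1 +
        (w 0 * w' 1 - w 1 * w' 0) * w'' 2) * (∑ i, w'' i * M F H i)] := by
  funext i
  fin_cases i
  · simp [M, Fin.sum_univ_three]; ring
  · simp [M, Fin.sum_univ_three]; ring
  · simp [M, Fin.sum_univ_three]; ring

/-- a family generating an ideal of finite colength together with `f` has two coprime members -/
lemma fin_prime {a b : BB 3} (hf : ¬ IsUnit f)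
    (h3 : dl (BB 3 ⧸ Ideal.span {a, b, f}) ≠ ⊤) {p : BB 3} (hp : ¬ IsUnit p)
    (ha : p ∣ a) (hb : p ∣ b) : False := by
  refine h3 (not_fin_two hf hp ?_)
  rw [Ideal.span_le]
  intro z hz
  simp only [Set.mem_insert_iff, Set.mem_singleton_iff] at hz
  rcases hz with rfl | rfl | rfl
  · obtain ⟨c, rfl⟩ := ha
    exact Ideal.mul_mem_right _ _ (Ideal.subset_span (by simp))
  · obtain ⟨c, rfl⟩ := hb
    exact Ideal.mul_mem_right _ _ (Ideal.subset_span (by simp))
  · exact Ideal.subset_span (by simp)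

lemma reg_of_fin {a b : BB 3} (hf : ¬ IsUnit f) (ha : ¬ IsUnit a) (hb : ¬ IsUnit b)
    (h3 : dl (BB 3 ⧸ Ideal.span {a, b, f}) ≠ ⊤) (x y : BB 3) (h : x * a + y * b = 0) :
    ∃ s, x = s * b ∧ y = -(s * a) := by
  have hb0 : b ≠ 0 := by
    rintro rfl
    exact fin_prime hf h3 ha (dvd_refl a) (dvd_zero a)
  have hrel : IsRelPrime b a := by
    intro p h1 h2
    by_contra hp
    exact fin_prime hf h3 hp h2 h1
  have h1 : b ∣ x * a := ⟨-y, by linear_combination h⟩
  obtain ⟨s, hs⟩ := hrel.dvd_of_dvd_mul_right h1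
  refine ⟨s, by rw [hs]; ring, ?_⟩
  refine mul_right_cancel₀ hb0 ?_
  rw [hs] at h
  linear_combination h

/-- **`f` is a non zero divisor modulo the minors** -/
theorem nzd_M (hf : ¬ IsUnit f) (hf0 : f ≠ 0) (hM : ∀ i, ¬ IsUnit (M F H i))
    (hfin : dl (BB 3 ⧸ IM f F H) ≠ ⊤) (b : BB 3)
    (hb : f * b ∈ Ideal.span (Set.range (M F H))) : b ∈ Ideal.span (Set.range (M F H)) := by
  classical
  obtain ⟨w, w', hw, hw', hQ⟩ := exists_two hf0 (M F H) hfin {⊥}
    (by
      rw [Finset.mem_singleton]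
      exact top_ne_bot) (fun w => {Submodule.span ℂ {w}})
    (fun w => by rw [Finset.mem_singleton]; exact fun h => span_ne_top w h.symm)
  have hw0 : w ≠ 0 := by
    intro h
    exact hw ⊥ (Finset.mem_singleton_self _) (by rw [h]; exact Submodule.zero_mem _)
  obtain ⟨w'', hD⟩ : ∃ w'' : Fin 3 → ℂ, (w 1 * w' 2 - w 2 * w' 1) * w'' 0 +
      (w 2 * w' 0 - w 0 * w' 2) * w'' 1 + (w 0 * w' 1 - w 1 * w' 0) * w'' 2 ≠ 0 := by
    by_contra hcon
    push Not at hcon
    have c0 : w 1 * w' 2 - w 2 * w' 1 = 0 := by simpa using hcon ![1, 0, 0]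
    have c1 : w 2 * w' 0 - w 0 * w' 2 = 0 := by simpa using hcon ![0, 1, 0]
    have c2 : w 0 * w' 1 - w 1 * w' 0 = 0 := by simpa using hcon ![0, 0, 1]
    obtain ⟨i, j, hij⟩ := exists_minor hw0 (hw' _ (Finset.mem_singleton_self _))
    apply hij
    fin_cases i <;> fin_cases j <;> simp only [Fin.zero_eta, Fin.mk_one, Fin.reduceFinMk] <;>
      first | ring1 | linear_combination c0 | linear_combination c1 | linear_combination c2 |
      linear_combination -c0 | linear_combination -c1 | linear_combination -c2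
  set D : ℂ := (w 1 * w' 2 - w 2 * w' 1) * w'' 0 +
      (w 2 * w' 0 - w 0 * w' 2) * w'' 1 + (w 0 * w' 1 - w 1 * w' 0) * w'' 2 with hDdef
  set A : ℂ →+* BB 3 := algebraMap ℂ (BB 3) with hA
  set F' : Fin 3 → BB 3 := ![(A (w' 1) * A (w'' 2) - A (w' 2) * A (w'' 1)) * F 0 +
      (A (w' 2) * A (w'' 0) - A (w' 0) * A (w'' 2)) * F 1 +
      (A (w' 0) * A (w'' 1) - A (w' 1) * A (w'' 0)) * F 2,
    (A (w'' 1) * A (w 2) - A (w'' 2) * A (w 1)) * F 0 +
      (A (w'' 2) * A (w 0) - A (w'' 0) * A (w 2)) * F 1 +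
      (A (w'' 0) * A (w 1) - A (w'' 1) * A (w 0)) * F 2,
    (A (w 1) * A (w' 2) - A (w 2) * A (w' 1)) * F 0 +
      (A (w 2) * A (w' 0) - A (w 0) * A (w' 2)) * F 1 +
      (A (w 0) * A (w' 1) - A (w 1) * A (w' 0)) * F 2] with hF'
  set H' : Fin 3 → BB 3 := ![(A (w' 1) * A (w'' 2) - A (w' 2) * A (w'' 1)) * H 0 +
      (A (w' 2) * A (w'' 0) - A (w' 0) * A (w'' 2)) * H 1 +
      (A (w' 0) * A (w'' 1) - A (w' 1) * A (w'' 0)) * H 2,
    (A (w'' 1) * A (w 2) - A (w'' 2) * A (w 1)) * H 0 +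
      (A (w'' 2) * A (w 0) - A (w'' 0) * A (w 2)) * H 1 +
      (A (w'' 0) * A (w 1) - A (w'' 1) * A (w 0)) * H 2,
    (A (w 1) * A (w' 2) - A (w 2) * A (w' 1)) * H 0 +
      (A (w 2) * A (w' 0) - A (w 0) * A (w' 2)) * H 1 +
      (A (w 0) * A (w' 1) - A (w 1) * A (w' 0)) * H 2] with hH'
  have hAD : A D = (A (w 1) * A (w' 2) - A (w 2) * A (w' 1)) * A (w'' 0) +
      (A (w 2) * A (w' 0) - A (w 0) * A (w' 2)) * A (w'' 1) +
      (A (w 0) * A (w' 1) - A (w 1) * A (w' 0)) * A (w'' 2) := by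
    rw [hDdef]; simp only [map_add, map_mul, map_sub]
  have hrot := M_rot F H (fun i => A (w i)) (fun i => A (w' i)) (fun i => A (w'' i))
  simp only [← hAD] at hrot
  rw [← hF', ← hH'] at hrot
  set u : BB 3 := ∑ i, A (w i) * M F H i with hu
  set v : BB 3 := ∑ i, A (w' i) * M F H i with hv
  set z : BB 3 := ∑ i, A (w'' i) * M F H i with hz
  have m0 : M F' H' 0 = A D * u := by rw [hrot]; rfl
  have m1 : M F' H' 1 = A D * v := by rw [hrot]; rfl
  have m2 : M F' H' 2 = A D * z := by rw [hrot]; rfl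
  have hDu : IsUnit (A D) := (IsUnit.mk0 _ hD).map A
  obtain ⟨δ, hδ⟩ := hDu
  -- the two spans agree
  have hspan : Ideal.span (Set.range (M F' H')) = Ideal.span (Set.range (M F H)) := by
    refine le_antisymm ?_ ?_
    · rw [Ideal.span_le]
      rintro _ ⟨i, rfl⟩
      have hall : ∀ W : Fin 3 → BB 3, ∑ i, W i * M F H i ∈ Ideal.span (Set.range (M F H)) :=
        fun W => Ideal.sum_mem _ fun i _ => Ideal.mul_mem_left _ _ (Ideal.subset_span ⟨i, rfl⟩)
      fin_cases i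
      · exact m0 ▸ Ideal.mul_mem_left _ _ (hall _)
      · exact m1 ▸ Ideal.mul_mem_left _ _ (hall _)
      · exact m2 ▸ Ideal.mul_mem_left _ _ (hall _)
    · rw [Ideal.span_le]
      have hmem : ∀ i, M F' H' i ∈ Ideal.span (Set.range (M F' H')) :=
        fun i => Ideal.subset_span ⟨i, rfl⟩
      have hcomb : ∀ (x y t : BB 3), x * u + y * v + t * z ∈ Ideal.span (Set.range (M F' H')) := by
        intro x y t
        have e : x * u + y * v + t * z = ((δ⁻¹ : (BB 3)ˣ) : BB 3) * (x * M F' H' 0 +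
            y * M F' H' 1 + t * M F' H' 2) := by
          rw [m0, m1, m2, ← hδ]
          have h1 : ((δ⁻¹ : (BB 3)ˣ) : BB 3) * (δ : BB 3) = 1 := Units.inv_mul δ
          linear_combination -(x * u + y * v + t * z) * h1
        rw [e]
        exact Ideal.mul_mem_left _ _ (Ideal.add_mem _ (Ideal.add_mem _
          (Ideal.mul_mem_left _ _ (hmem 0)) (Ideal.mul_mem_left _ _ (hmem 1)))
          (Ideal.mul_mem_left _ _ (hmem 2)))
      rintro _ ⟨i, rfl⟩
      have hinv : ∀ y : BB 3, A D * y ∈ Ideal.span (Set.range (M F' H')) →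
          y ∈ Ideal.span (Set.range (M F' H')) := by
        intro y hy
        rw [← hδ] at hy
        have := Ideal.mul_mem_left (Ideal.span (Set.range (M F' H'))) ((δ⁻¹ : (BB 3)ˣ) : BB 3) hy
        rwa [← mul_assoc, Units.inv_mul, one_mul] at this
      refine hinv _ ?_
      fin_cases i
      · have := hcomb (A (w' 1) * A (w'' 2) - A (w' 2) * A (w'' 1))
          (A (w'' 1) * A (w 2) - A (w'' 2) * A (w 1)) (A (w 1) * A (w' 2) - A (w 2) * A (w' 1))
        convert this using 1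
        rw [hAD, hu, hv, hz]
        simp only [Fin.sum_univ_three]
        show _ * M F H 0 = _
        ring
      · have := hcomb (A (w' 2) * A (w'' 0) - A (w' 0) * A (w'' 2))
          (A (w'' 2) * A (w 0) - A (w'' 0) * A (w 2)) (A (w 2) * A (w' 0) - A (w 0) * A (w' 2))
        convert this using 1
        rw [hAD, hu, hv, hz]
        simp only [Fin.sum_univ_three]
        show _ * M F H 1 = _
        ring
      · have := hcomb (A (w' 0) * A (w'' 1) - A (w' 1) * A (w'' 0))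
          (A (w'' 0) * A (w 1) - A (w'' 1) * A (w 0)) (A (w 0) * A (w' 1) - A (w 1) * A (w' 0))
        convert this using 1
        rw [hAD, hu, hv, hz]
        simp only [Fin.sum_univ_three]
        show _ * M F H 2 = _
        ring
  have hnu : ∀ W : Fin 3 → BB 3, ∑ i, W i * M F H i ∈ IsLocalRing.maximalIdeal (BB 3) :=
    fun W => Ideal.sum_mem _ fun i _ => Ideal.mul_mem_left _ _
      ((IsLocalRing.mem_maximalIdeal _).2 (hM i))
  have n0 : ¬ IsUnit (M F' H' 0) := by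
    rw [m0, ← mem_nonunits_iff, ← IsLocalRing.mem_maximalIdeal]
    exact Ideal.mul_mem_left _ _ (hnu _)
  have n1 : ¬ IsUnit (M F' H' 1) := by
    rw [m1, ← mem_nonunits_iff, ← IsLocalRing.mem_maximalIdeal]
    exact Ideal.mul_mem_left _ _ (hnu _)
  have hfin3 : dl (BB 3 ⧸ Ideal.span {M F' H' 0, M F' H' 1, f}) ≠ ⊤ := by
    rw [fin_iff]
    intro Q hQp hQle
    have hinv : ∀ y : BB 3, A D * y ∈ Q → y ∈ Q := by
      intro y hy
      rw [← hδ] at hy
      have := Ideal.mul_mem_left Q ((δ⁻¹ : (BB 3)ˣ) : BB 3) hy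
      rwa [← mul_assoc, Units.inv_mul, one_mul] at this
    refine hQ Q hQp (hQle (Ideal.subset_span (by simp))) (hinv _ ?_) (hinv _ ?_)
    · rw [← m0]; exact hQle (Ideal.subset_span (by simp))
    · rw [← m1]; exact hQle (Ideal.subset_span (by simp))
  rw [← hspan] at hb ⊢
  refine Syz_846.nzd F' H' ?_ (reg_of_fin hf n0 n1 hfin3) f (fun x hx => Num488.nzd hfin3 hx) b hb
  rintro p hp ⟨hpF, hpH⟩
  refine fin_prime hf hfin3 hp.not_isUnit ?_ ?_
  · have : M F' H' 0 = F' 1 * H' 2 - F' 2 * H' 1 := rfl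
    rw [this]
    exact dvd_sub (hpH.mul_left _) (hpF.mul_right _)
  · have : M F' H' 1 = F' 2 * H' 0 - F' 0 * H' 2 := rfl
    rw [this]
    exact dvd_sub (hpF.mul_right _) (hpH.mul_left _)

/-- **the syzygies of `(f, M)`** -/
theorem syz_M (hf : ¬ IsUnit f) (hf0 : f ≠ 0) (hM : ∀ i, ¬ IsUnit (M F H i))
    (hfin : dl (BB 3 ⧸ IM f F H) ≠ ⊤) (b0 : BB 3) (b : Fin 3 → BB 3)
    (h : b0 * f + ∑ i, b i * M F H i = 0) :
    ∃ (c : Fin 3 → BB 3) (p q : BB 3), b0 = ∑ i, c i * M F H i ∧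
      ∀ i, b i = - (c i * f) + p * F i + q * H i :=
  Syz_846.syz f F H (Syz_846.hb F H (exists_M_ne hf hfin) fun _ hp => gcd_M hf hfin hp)
    (fun b hb => nzd_M hf hf0 hM hfin b hb) b0 b h

end Alg

end Crest.Agent.R257.Det_812
end
end

-- ▼ part R257/Lift_812
section

/-!
Row 257 (S0395), leaf CntStmt (helper812): helper889's counting machine (`Cnm4`, `Cnm6`) with Koszul
exactness replaced by the lifting of the syzygies of the fibre along all lines of parameters.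
-/

set_option autoImplicit false
set_option linter.unusedSectionVars false

open Set Filter Topology Matrix
open Crest.Agent.R275.Loc2879

noncomputable section

namespace Crest.Agent.R257.Lift_812

open Crest.Agent.R257.Fin554 Crest.Agent.R257.Uni554 Crest.Agent.R257.Cnm3_889
open Crest.Agent.R257.Cnm4_889 Crest.Agent.R257.Cnm5_889 Crest.Agent.R257.Cnm6_889

variable {n k N : ℕ} {ι : Type} [Fintype ι]

/-- the syzygies of the fibre lift, along all lines of parameters -/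
def Lft (g : ι → Bk n k) : Prop := ∀ (v : Fin k → ℂ) (b : ι → On n),
  ∑ j, b j * rk n k (g j) = 0 →
    ∃ b' : ι → Bn n, (∀ j, rr n (b' j) = b j) ∧ ∑ j, b' j * lnB n v (g j) = 0

/-- independence, one parameter -/
theorem ind1' (g : ι → Bn n)
    (hK : ∀ b : ι → On n, ∑ j, b j * rr n (g j) = 0 →
      ∃ b' : ι → Bn n, (∀ j, rr n (b' j) = b j) ∧ ∑ j, b' j * g j = 0) {N : ℕ} (w : Fin N → List (Fin n))
    (hw : LinearIndependent ℂ
      (fun l => wq (Ideal.span (range fun j => rr n (g j))) (w l))) {c : Fin N → OO (0 : ℂ)}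
    {b : ι → Bn n} (h : ∑ l, sndR n 0 (c l) * wd (w l) (Xc n (0 : ℂ)) = ∑ j, b j * g j) :
    ∀ l, c l = 0 := by
  have key : ∀ (K : ℕ) (c : Fin N → OO (0 : ℂ)) (b : ι → Bn n),
      ∑ l, sndR n 0 (c l) * wd (w l) (Xc n (0 : ℂ)) = ∑ j, b j * g j → ∀ l, TT (0 : ℂ) ^ K ∣ c l := by
    intro K
    induction K with
    | zero => intro c b _ l; simp
    | succ K ih =>
      intro c b h
      have h1 := congrArg (rr n) h
      rw [map_sum, map_sum] at h1
      have hwd : ∀ l, rr n (wd (w l) (Xc n (0 : ℂ))) = wd (w l) Xo :=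
        fun l => wd_map (rr n : Bn n →* On n) _ _
      simp only [map_mul, rr_sndR, hwd] at h1
      have h2 : ∑ l, evp 0 (c l) • wq (Ideal.span (range fun j => rr n (g j))) (w l) = 0 := by
        have h3 := congrArg (Ideal.Quotient.mk (Ideal.span (range fun j => rr n (g j)))) h1
        rw [map_sum, map_sum] at h3
        have h4 : ∑ j, Ideal.Quotient.mk (Ideal.span (range fun j => rr n (g j)))
            (rr n (b j) * rr n (g j)) = 0 := by
          refine Finset.sum_eq_zero (fun j _ => ?_)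
          rw [Ideal.Quotient.eq_zero_iff_mem]
          exact Ideal.mul_mem_left _ _ (Ideal.subset_span ⟨j, rfl⟩)
        rw [h4] at h3
        rw [← h3]
        refine Finset.sum_congr rfl (fun l _ => ?_)
        rw [map_mul, Algebra.smul_def]
        rfl
      have h5 := Fintype.linearIndependent_iff.1 hw _ h2
      have h6 : ∀ l, TT (0 : ℂ) ∣ c l := by
        intro l
        apply TT_dvd
        rw [Crest.Agent.R275.Loc2879.isUnit_iff, not_not]
        exact h5 l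
      choose c' hc' using h6
      have h7 : ∑ j, rr n (b j) * rr n (g j) = 0 := by
        rw [← h1]
        refine Finset.sum_eq_zero (fun l _ => ?_)
        rw [h5 l, map_zero, zero_mul]
      obtain ⟨s, hs1, hs2⟩ := hK _ h7
      let b' : ι → Bn n := fun j => b j - s j
      have h8 : ∀ j, rr n (b' j) = 0 := by
        intro j
        simp only [b', map_sub]
        rw [hs1 j, sub_self]
      choose q hq using fun j => ker_rr (h8 j)
      have h9 : ∑ j, b' j * g j = ∑ j, b j * g j := by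
        simp only [b', sub_mul]
        rw [Finset.sum_sub_distrib, hs2, sub_zero]
      have h10 : Tv n * ∑ l, sndR n 0 (c' l) * wd (w l) (Xc n (0 : ℂ)) =
          Tv n * ∑ j, q j * g j := by
        have h11 : Tv n * ∑ l, sndR n 0 (c' l) * wd (w l) (Xc n (0 : ℂ)) =
            ∑ l, sndR n 0 (c l) * wd (w l) (Xc n (0 : ℂ)) := by
          rw [Finset.mul_sum]
          refine Finset.sum_congr rfl (fun l _ => ?_)
          rw [hc' l, map_mul, Tv]; ring
        have h12 : Tv n * ∑ j, q j * g j = ∑ j, b' j * g j := by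
          rw [Finset.mul_sum]
          refine Finset.sum_congr rfl (fun l _ => ?_)
          rw [hq l]; ring
        rw [h11, h12, h9, h]
      have hT0 : Tv n ≠ 0 := by
        intro h0
        rw [Tv, TT, sndR_gm, gm_eq_zero] at h0
        have hc : Tendsto (fun t : ℂ => ((0 : Fin n → ℂ), t)) (𝓝 0) (𝓝 (0, 0)) := by
          have : Continuous (fun t : ℂ => ((0 : Fin n → ℂ), t)) := by fun_prop
          exact this.tendsto 0
        have h2 : ∀ᶠ t in 𝓝[≠] (0 : ℂ), t - 0 = 0 :=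
          (hc.eventually h0).filter_mono nhdsWithin_le_nhds
        obtain ⟨t, ht, ht'⟩ := (h2.and self_mem_nhdsWithin).exists
        exact ht' (by simpa using ht)
      have h13 := ih c' q (mul_left_cancel₀ hT0 h10)
      intro l
      rw [hc' l, pow_succ']
      exact mul_dvd_mul_left _ (h13 l)
  intro l
  by_contra hne
  obtain ⟨m, u, hu⟩ := exists_pow_mul (c l) hne
  have h1 := key (m + 1) c b h l
  rw [hu, pow_succ] at h1
  have h2 := (mul_dvd_mul_iff_left (pow_ne_zero m (TT_ne_zero (a := (0 : ℂ))))).1 h1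
  exact TT_not_unit (isUnit_of_dvd_unit h2 u.isUnit)

/-- **independence** of the words over the parameters -/
theorem ind' [NeZero k] (g : ι → Bk n k) (hK : Lft g) {N : ℕ}
    (w : Fin N → List (Fin n)) (hw : LinearIndependent ℂ (fun l => wq (J0 g) (w l)))
    {c : Fin N → Rk k}
    (h : ∑ l, sR n k (c l) * wd (w l) (Xk n k) ∈ Ideal.span (range g)) : ∀ l, c l = 0 := by
  obtain ⟨b, hb⟩ := (Ideal.mem_span_range_iff_exists_fun).1 h
  intro l
  refine eq_zero_of_ln (fun v => ?_)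
  have h1 := congrArg (lnB n v) hb
  rw [map_sum, map_sum] at h1
  have hwd : ∀ l, lnB n v (wd (w l) (Xk n k)) = wd (w l) (Xc n (0 : ℂ)) :=
    fun l => wd_map (lnB n v : Bk n k →* Bn n) _ _
  simp only [map_mul, lnB_sR, hwd] at h1
  refine ind1' (fun j => lnB n v (g j)) ?_ w ?_ (c := fun l => ln v (c l))
    (b := fun j => lnB n v (b j)) h1.symm l
  · intro b hb
    simp only [rr_lnB] at hb
    exact hK v b hb
  · have e : (fun j => rr n (lnB n v (g j))) = fun j => rk n k (g j) :=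
      funext (fun j => rr_lnB v (g j))
    rw [e]; exact hw

set_option maxHeartbeats 2000000 in
theorem exists_gdat' [NeZero k] (g : ι → Bk n k) (hfin : Module.Finite ℂ (On n ⧸ J0 g))
    (hN : Module.finrank ℂ (On n ⧸ J0 g) = N) (hK : Lft g) :
    Nonempty (GDat g N) := by
  obtain ⟨w, hw1, hw2⟩ := exists_words (J0 g) hfin hN
  set I : Ideal (Bk n k) := Ideal.span (range g) with hI
  have hexp : ∀ b : Bk n k, ∃ (c : Fin N → Rk k) (a : ι → Bk n k),
      b = ∑ l, sR n k (c l) * wd (w l) (Xk n k) + ∑ j, a j * g j := by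
    intro b
    obtain ⟨c, hc⟩ := gen g hfin w hw2 b
    obtain ⟨a, ha⟩ := Ideal.mem_span_range_iff_exists_fun.1 hc
    exact ⟨c, a, by rw [ha]; ring⟩
  obtain ⟨u, α, e1⟩ := hexp 1
  choose M' β e2 using fun i l => hexp (Xk n k i * wd (w l) (Xk n k))
  choose γ R e3 using fun j => hadG (0 : Fin k → ℂ) n (g j)
  choose ρ a e4 using fun j i => hexp (R j i)
  let M : Fin n → Matrix (Fin N) (Fin N) (Rk k) := fun i => Matrix.of (fun j l => M' i l j)
  let q : Bk n k →+* Bk n k ⧸ I := Ideal.Quotient.mk I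
  let σ : Rk k →+* Bk n k ⧸ I := q.comp (sR n k)
  let ω : Fin N → Bk n k ⧸ I := fun l => q (wd (w l) (Xk n k))
  let x : Fin n → Bk n k ⧸ I := fun i => q (Xk n k i)
  have hq0 : ∀ a : ι → Bk n k, q (∑ j, a j * g j) = 0 := by
    intro a
    rw [Ideal.Quotient.eq_zero_iff_mem]
    exact Ideal.sum_mem _ (fun j _ => Ideal.mul_mem_left _ _ (Ideal.subset_span ⟨j, rfl⟩))
  have hqs : ∀ c : Fin N → Rk k, q (∑ l, sR n k (c l) * wd (w l) (Xk n k)) =
      ∑ l, σ (c l) * ω l := by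
    intro c
    rw [map_sum]
    exact Finset.sum_congr rfl (fun l _ => by rw [map_mul]; rfl)
  have hind : ∀ c : Fin N → Rk k, ∑ l, σ (c l) * ω l = 0 → ∀ l, c l = 0 := by
    intro c hc
    rw [← hqs] at hc
    exact ind' g hK w hw1 (Ideal.Quotient.eq_zero_iff_mem.1 hc)
  have hx : ∀ i, Rel σ ω (x i) (M i) := by
    intro i l
    have h1 := congrArg q (e2 i l)
    rw [map_add, hq0, add_zero, hqs, map_mul] at h1
    exact h1
  have hu : 1 = ∑ l, σ (u l) * ω l := by
    have h1 := congrArg q e1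
    rwa [map_add, hq0, add_zero, hqs, map_one] at h1
  have hω : ∀ l, ω l = wd (w l) x := fun l => wd_mapR q _ _
  refine ⟨⟨w, u, α, e1, M, β, e2, γ, R, e3, ρ, a, e4, fun i j => (hx i).comm hind (hx j),
    fun l => rel_words hind hx hω hu l, fun j => ?_, N, fun i => ?_⟩⟩
  · refine vec_unique hind (σ := σ) (ω := ω) ?_
    have h1 : q (g j) = 0 := Ideal.Quotient.eq_zero_iff_mem.2 (Ideal.subset_span ⟨j, rfl⟩)
    have h2 : ∀ i, q (R j i) = ∑ l, σ (ρ j i l) * ω l := by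
      intro i
      rw [e4 j i, map_add, hq0, add_zero, hqs]
    have h3 : q (g j) = σ (γ j) * ∑ l, σ (u l) * ω l + ∑ i, ∑ l, σ ((M i *ᵥ ρ j i) l) * ω l := by
      conv_lhs => rw [e3 j]
      rw [map_add, map_sum, ← hu, mul_one]
      congr 1
      refine Finset.sum_congr rfl (fun i _ => ?_)
      rw [map_mul, h2, ← (hx i).mulVec]
    rw [h1] at h3
    simp only [Pi.add_apply, Pi.smul_apply, smul_eq_mul, map_add, map_mul, Finset.sum_apply,
      map_sum, Pi.zero_apply, map_zero, zero_mul, Finset.sum_const_zero]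
    rw [h3, Finset.mul_sum, Finset.sum_comm, ← Finset.sum_add_distrib]
    refine Finset.sum_congr rfl (fun l _ => ?_)
    rw [add_mul, Finset.sum_mul]; ring
  · -- nilpotency at the origin
    have h1 := (hx i).pow N
    ext l l'
    have h2 := h1 l'
    have h3 : Xk n k i ^ N * wd (w l') (Xk n k) -
        ∑ j, sR n k ((M i ^ N) j l') * wd (w j) (Xk n k) ∈ I := by
      rw [← Ideal.Quotient.eq, map_mul, map_pow]
      exact h2.trans (hqs (fun j => (M i ^ N) j l')).symm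
    have hmap : I.map (rk n k) = J0 g := by
      rw [hI, Ideal.map_span, J0]
      congr 1
      rw [← range_comp]
      rfl
    have h4 : rk n k (Xk n k i ^ N * wd (w l') (Xk n k) -
        ∑ j, sR n k ((M i ^ N) j l') * wd (w j) (Xk n k)) ∈ J0 g := by
      rw [← hmap]; exact Ideal.mem_map_of_mem _ h3
    have hwd : ∀ l, rk n k (wd (w l) (Xk n k)) = wd (w l) Xo :=
      fun l => wd_map (rk n k : Bk n k →* On n) _ _
    rw [map_sub, map_mul, map_pow, rk_Xk, map_sum, hwd] at h4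
    have h5 : (Xo i : On n) ^ N * wd (w l') Xo ∈ J0 g :=
      Ideal.mul_mem_right _ _ (pow_le _ hfin hN (Ideal.pow_mem_pow (Xo_mem i) N))
    have h6 : ∑ j, rk n k (sR n k ((M i ^ N) j l') * wd (w j) (Xk n k)) ∈ J0 g := by
      have := (Submodule.sub_mem_iff_right _ h5).1 h4
      exact this
    have h7 : ∑ j, evp 0 ((M i ^ N) j l') • wq (J0 g) (w j) = 0 := by
      rw [← Ideal.Quotient.eq_zero_iff_mem, map_sum] at h6
      rw [← h6]
      refine Finset.sum_congr rfl (fun j _ => ?_)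
      rw [map_mul, rk_sR, hwd, map_mul, Algebra.smul_def]
      rfl
    have h8 := Fintype.linearIndependent_iff.1 hw1 _ h7 l
    simpa using h8

end Crest.Agent.R257.Lift_812
end
end

-- ▼ part R257/Lift2_812
section

/-!
Row 257 (S0395), leaf CntStmt (helper812): conservation of number with parameters in a finite
dimensional space, for systems whose syzygies lift along all lines of parameters.
-/

set_option autoImplicit false
set_option linter.unusedSectionVars false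

open Set Filter Topology
open Crest.Agent.R275.Loc2879

noncomputable section

namespace Crest.Agent.R257.Lift_812

open Crest.Agent.R257.Uni554 (On Bn rr)
open Crest.Agent.R257.Cnm3_889 Crest.Agent.R257.Defs_219
open Crest.Agent.R257.Cnm4_889 Crest.Agent.R257.Cnm5_889 Crest.Agent.R257.Cnm6_889
open Crest.Agent.R257.Cnm7_889
open Crest.Agent.R257.UI939 (Idl gz gz_eq BB colFin_iff col_eq)

/-- the syzygies of the fibre lift, one parameter -/
def LftL {n : ℕ} {ι : Type} [Fintype ι] (g : ι → Bn n) : Prop := ∀ b : ι → On n,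
  ∑ j, b j * rr n (g j) = 0 →
    ∃ b' : ι → Bn n, (∀ j, rr n (b' j) = b j) ∧ ∑ j, b' j * g j = 0

/-- **conservation of number** for systems whose syzygies lift -/
theorem count_lift {n m : ℕ} {P : Type} [NormedAddCommGroup P] [NormedSpace ℂ P]
    [FiniteDimensional ℂ P] (p₀ : P) (G : Fin m → (Fin n → ℂ) × P → ℂ)
    (hG : ∀ j, AnalyticAt ℂ (G j) ((0, p₀))) (hfin : ColFin (fun j x => G j (x, p₀)))
    (hL : ∀ v : P, ∀ h : ∀ j, AnalyticAt ℂ (fun p : (Fin n → ℂ) × ℂ => G j (p.1, p₀ + p.2 • v))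
      ((0 : Fin n → ℂ), (0 : ℂ)), LftL fun j => (gm _ (h j) : Bn n)) :
    ∃ r₀ : ℝ, 0 < r₀ ∧ ∀ ε : ℝ, 0 < ε → ∀ᶠ y in 𝓝 p₀,
      CntP G r₀ (col (fun j x => G j (x, p₀))) ε y := by
  -- add a dummy parameter
  let k := Module.finrank ℂ (P × ℂ)
  have hk : NeZero k := ⟨by
    have : 0 < Module.finrank ℂ (P × ℂ) := Module.finrank_pos
    exact this.ne'⟩
  let e : (P × ℂ) ≃L[ℂ] (Fin k → ℂ) := ContinuousLinearEquiv.ofFinrankEq (by simp [k])
  let φ : (Fin k → ℂ) → P := fun y => p₀ + (e.symm y).1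
  have hφ0 : φ 0 = p₀ := by simp [φ]
  let ψ : (Fin n → ℂ) × (Fin k → ℂ) → (Fin n → ℂ) × P := fun q => (q.1, φ q.2)
  have hφan : ∀ y, AnalyticAt ℂ φ y := fun y =>
    analyticAt_const.add (((ContinuousLinearMap.fst ℂ P ℂ).comp
      (e.symm : (Fin k → ℂ) →L[ℂ] P × ℂ)).analyticAt y)
  have hψ : ∀ q, AnalyticAt ℂ ψ q := fun q =>
    analyticAt_fst.prod ((hφan q.2).comp analyticAt_snd)
  have hψ0 : ψ (0, 0) = (0, p₀) := by simp only [ψ, hφ0]
  let H : Fin m → (Fin n → ℂ) × (Fin k → ℂ) → ℂ := fun j q => G j (ψ q)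
  have hH : ∀ j, AnalyticAt ℂ (H j) ((0, 0)) := fun j =>
    AnalyticAt.comp (g := G j) (f := ψ) (by rw [hψ0]; exact hG j) (hψ _)
  have hsl : (fun j x => H j (x, 0)) = fun j x => G j (x, p₀) := by
    ext j x
    simp only [H, ψ, hφ0]
  have h1 : ∀ j, AnalyticAt ℂ (fun x => H j (x, 0)) (0 : Fin n → ℂ) := fun j =>
    AnalyticAt.comp (g := H j) (f := fun x => (x, 0)) (hH j) (analyticAt_id.prod analyticAt_const)
  have hfin' : ColFin (fun j x => H j (x, 0)) := by rw [hsl]; exact hfin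
  have hf1 := (colFin_iff h1).1 hfin'
  have hc1 := col_eq h1
  rw [← J0_eq H hH] at hf1 hc1
  have hLft : Lft (fun j => (gm (H j) (hH j) : Bk n k)) := by
    intro v b hb
    have hline : ∀ j, AnalyticAt ℂ (fun p : (Fin n → ℂ) × ℂ => G j (p.1, p₀ + p.2 • (e.symm v).1))
        ((0 : Fin n → ℂ), (0 : ℂ)) := by
      intro j
      refine AnalyticAt.comp (g := G j)
        (f := fun p : (Fin n → ℂ) × ℂ => (p.1, p₀ + p.2 • (e.symm v).1)) ?_ ?_
      · simpa using hG j
      · exact analyticAt_fst.prod (analyticAt_const.add (analyticAt_snd.smul analyticAt_const))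
    have h2 : ∀ j, lnB n v (gm (H j) (hH j) : Bk n k) = gm _ (hline j) := by
      intro j
      rw [lnB, pull_gm, gm_eq_gm]
      refine Eventually.of_forall fun p => ?_
      simp only [Function.comp, H, ψ, φ, map_smul, Prod.smul_fst]
    have h3 := hL (e.symm v).1 hline b
    have h4 : ∀ j, rr n (gm _ (hline j)) = rk n k (gm (H j) (hH j) : Bk n k) := by
      intro j
      rw [← h2 j, rr_lnB]
    simp only [h4] at h3
    obtain ⟨b', hb1, hb2⟩ := h3 hb
    refine ⟨b', hb1, ?_⟩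
    simp only [h2]
    exact hb2
  obtain ⟨D⟩ := exists_gdat' _ hf1 hc1.symm hLft
  obtain ⟨r₀, hr₀, hcnt⟩ := count_of_gdat H hH D
  refine ⟨r₀, hr₀, fun ε hε => ?_⟩
  have h1 := hcnt ε hε
  rw [hsl] at h1
  let χ : P → (Fin k → ℂ) := fun y => e (y - p₀, 0)
  have hχ : Tendsto χ (𝓝 p₀) (𝓝 0) := by
    have hc : Continuous χ := by
      have : Continuous (fun y : P => (y - p₀, (0 : ℂ))) := by fun_prop
      exact e.continuous.comp this
    have h2 := hc.tendsto p₀
    have h3 : χ p₀ = 0 := by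
      simp only [χ, sub_self]
      exact map_zero e
    rwa [h3] at h2
  filter_upwards [hχ.eventually h1] with y hy
  have hφχ : φ (χ y) = y := by simp [φ, χ]
  have hZ : ZZ H r₀ (χ y) = ZP G r₀ y := by
    ext x
    simp only [ZZ, ZP, H, ψ, hφχ]
  have hfd : ∀ j, (fun x => H j (x, χ y)) = fun x => G j (x, y) := by
    intro j; ext x
    simp only [H, ψ, hφχ]
  have g1 := hy.fin
  have g2 := hy.small
  have g3 := hy.le
  have g4 := hy.eq
  simp only [hZ, hfd] at g1 g2 g3 g4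
  exact ⟨g1, g2, g3, g4⟩

end Crest.Agent.R257.Lift_812
end
end

-- ▼ part R257/Cnt2_812
section

/-!
Row 257 (S0395), leaf CntStmt (helper812), part 2: conservation of number for the determinantal
ideals `(f_p, ∇f_p × ∇h_p)` (any parameter space).
-/

set_option autoImplicit false
set_option linter.unusedSectionVars false

open Set Filter Topology Metric Complex
open Crest.AlgGeometry.Germ
open Crest.Agent.R275.Loc2879 hiding AA
open Crest.Agent.R257.UI939 Crest.Agent.R257.Defs_219 Crest.Agent.R257.Num488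
open Crest.Agent.R257.Gen_812

noncomputable section

namespace Crest.Agent.R257.Det_812

open Crest.Agent.R257.Syz_846 Crest.Agent.R257.Lift_812
open Crest.Agent.R257.Uni554 (On Bn rr ll rr_ll)

variable {P : Type} [NormedAddCommGroup P] [NormedSpace ℂ P]

lemma cd_slice {Φ : E3 × P → ℂ} {x : E3} {τ : P} (h : DifferentiableAt ℂ Φ (x, τ)) (i : Fin 3) :
    coordDeriv (fun x => Φ (x, τ)) i x = fderiv ℂ Φ (x, τ) (Pi.single i 1, 0) := by
  have h1 : HasFDerivAt (fun x : E3 => (x, τ)) (ContinuousLinearMap.inl ℂ E3 P) x :=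
    hasFDerivAt_prodMk_left x τ
  have h2 : HasFDerivAt (fun x => Φ (x, τ)) ((fderiv ℂ Φ (x, τ)).comp
      (ContinuousLinearMap.inl ℂ E3 P)) x := h.hasFDerivAt.comp x h1
  rw [coordDeriv, h2.fderiv]
  rfl

lemma an_cd {Φ : E3 × P → ℂ} {p₀ : P} (h : AnalyticAt ℂ Φ (0, p₀)) (i : Fin 3) :
    AnalyticAt ℂ (fun q : E3 × P => coordDeriv (fun x => Φ (x, q.2)) i q.1) (0, p₀) := by
  have h1 : AnalyticAt ℂ (fderiv ℂ Φ) (0, p₀) := h.fderiv
  have h2 : AnalyticAt ℂ (fun q : E3 × P => fderiv ℂ Φ q (Pi.single i 1, 0)) (0, p₀) :=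
    ((ContinuousLinearMap.apply ℂ ℂ ((Pi.single i (1 : ℂ), (0 : P)) : E3 × P)).analyticAt _).comp h1
  refine h2.congr ?_
  filter_upwards [h.eventually_analyticAt] with q hq
  exact (cd_slice hq.differentiableAt i).symm

/-- the family of minors -/
def Gf (Φ Ψ : E3 × P → ℂ) (j : Fin 4) (q : E3 × P) : ℂ :=
  mnr (fun x => Φ (x, q.2)) (fun x => Ψ (x, q.2)) j q.1

lemma an_Gf {Φ Ψ : E3 × P → ℂ} {p₀ : P} (h : AnalyticAt ℂ Φ (0, p₀)) (h' : AnalyticAt ℂ Ψ (0, p₀))
    (j : Fin 4) : AnalyticAt ℂ (Gf Φ Ψ j) (0, p₀) := by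
  have e1 := an_cd h
  have e2 := an_cd h'
  fin_cases j
  · exact h
  · exact ((e1 1).mul (e2 2)).sub ((e1 2).mul (e2 1))
  · exact ((e1 2).mul (e2 0)).sub ((e1 0).mul (e2 2))
  · exact ((e1 0).mul (e2 1)).sub ((e1 1).mul (e2 0))

/-- **the syzygies lift** -/
theorem lift_Gf {Φ Ψ : E3 × P → ℂ} {p₀ : P} (h : AnalyticAt ℂ Φ (0, p₀))
    (h' : AnalyticAt ℂ Ψ (0, p₀)) (h0 : Φ (0, p₀) = 0)
    (hcrit : ∀ i, coordDeriv (fun x => Φ (x, p₀)) i 0 = 0)
    (hfin : ColFin (mnr (fun x => Φ (x, p₀)) (fun x => Ψ (x, p₀)))) (v : P)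
    (hA : ∀ j, AnalyticAt ℂ (fun q : E3 × ℂ => Gf Φ Ψ j (q.1, p₀ + q.2 • v)) (0, 0)) :
    LftL fun j => (gm _ (hA j) : Bn 3) := by
  have hline : ∀ {K : E3 × P → ℂ}, AnalyticAt ℂ K (0, p₀) →
      AnalyticAt ℂ (fun q : E3 × ℂ => K (q.1, p₀ + q.2 • v)) ((0 : E3), (0 : ℂ)) := by
    intro K hK
    refine AnalyticAt.comp (g := K) (f := fun q : E3 × ℂ => (q.1, p₀ + q.2 • v)) ?_ ?_
    · simpa using hK
    · exact analyticAt_fst.prod (analyticAt_const.add (analyticAt_snd.smul analyticAt_const))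
  set F1 : Fin 3 → Bn 3 := fun i => gm _ (hline (an_cd h i)) with hF1
  set H1 : Fin 3 → Bn 3 := fun i => gm _ (hline (an_cd h' i)) with hH1
  set f1 : Bn 3 := gm _ (hline h) with hf1
  have g0 : (gm _ (hA 0) : Bn 3) = f1 := rfl
  have gs : ∀ i : Fin 3, (gm _ (hA i.succ) : Bn 3) = M F1 H1 i := by
    intro i
    fin_cases i
    · rfl
    · rfl
    · rfl
  intro b hb
  rw [Fin.sum_univ_succ] at hb
  simp only [g0, gs] at hb
  have hfa : AnalyticAt ℂ (fun x => Φ (x, p₀)) (0 : E3) :=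
    AnalyticAt.comp (g := Φ) (f := fun x => (x, p₀)) h (analyticAt_id.prod analyticAt_const)
  have hha : AnalyticAt ℂ (fun x => Ψ (x, p₀)) (0 : E3) :=
    AnalyticAt.comp (g := Ψ) (f := fun x => (x, p₀)) h' (analyticAt_id.prod analyticAt_const)
  set F : Fin 3 → BB 3 := fun i => gm _ (an_gr hfa i) with hF
  set H : Fin 3 → BB 3 := fun i => gm _ (an_gr hha i) with hH
  set f : BB 3 := gm _ hfa with hf
  have rF : ∀ i, rr 3 (F1 i) = F i := by
    intro i
    rw [hF1, hF, rr, pull_gm, gm_eq_gm]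
    refine Eventually.of_forall fun x => ?_
    simp only [Function.comp, zero_smul, add_zero]
    rfl
  have rH : ∀ i, rr 3 (H1 i) = H i := by
    intro i
    rw [hH1, hH, rr, pull_gm, gm_eq_gm]
    refine Eventually.of_forall fun x => ?_
    simp only [Function.comp, zero_smul, add_zero]
    rfl
  have rf : rr 3 f1 = f := by
    rw [hf1, hf, rr, pull_gm, gm_eq_gm]
    refine Eventually.of_forall fun x => ?_
    simp only [Function.comp, zero_smul, add_zero]
  have rM : ∀ i, rr 3 (M F1 H1 i) = M F H i := by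
    intro i
    fin_cases i
    · show rr 3 (F1 1 * H1 2 - F1 2 * H1 1) = F 1 * H 2 - F 2 * H 1
      simp only [map_sub, map_mul, rF, rH]
    · show rr 3 (F1 2 * H1 0 - F1 0 * H1 2) = F 2 * H 0 - F 0 * H 2
      simp only [map_sub, map_mul, rF, rH]
    · show rr 3 (F1 0 * H1 1 - F1 1 * H1 0) = F 0 * H 1 - F 1 * H 0
      simp only [map_sub, map_mul, rF, rH]
  rw [rf] at hb
  simp only [rM] at hb
  have hfu : ¬ IsUnit f := by
    rw [hf, isUnit_gm]; simpa using h0
  have hF00 : ∀ i, evp (0 : E3) (F i) = 0 := fun i => hcrit i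
  have hMu : ∀ i, ¬ IsUnit (M F H i) := by
    intro i
    rw [Crest.Agent.R275.Loc2879.isUnit_iff, not_not]
    fin_cases i
    · show evp (0 : E3) (F 1 * H 2 - F 2 * H 1) = 0
      rw [map_sub, map_mul, map_mul, hF00, hF00]; ring
    · show evp (0 : E3) (F 2 * H 0 - F 0 * H 2) = 0
      rw [map_sub, map_mul, map_mul, hF00, hF00]; ring
    · show evp (0 : E3) (F 0 * H 1 - F 1 * H 0) = 0
      rw [map_sub, map_mul, map_mul, hF00, hF00]; ring
  have hdl : dl (BB 3 ⧸ IM f F H) ≠ ⊤ := by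
    have h1 := (colFin_iff_dl (fun i => an_mnr hfa hha i)).1 hfin
    have h2 : Ideal.span (Set.range fun j => (gm (mnr (fun x => Φ (x, p₀)) (fun x => Ψ (x, p₀)) j)
        (an_mnr hfa hha j) : BB 3)) = IM f F H := by
      rw [IM, ← Ideal.span_union]
      congr 1
      ext z
      constructor
      · rintro ⟨j, rfl⟩
        fin_cases j
        · exact Or.inl rfl
        · exact Or.inr ⟨0, rfl⟩
        · exact Or.inr ⟨1, rfl⟩
        · exact Or.inr ⟨2, rfl⟩
      · rintro (hz | ⟨i, rfl⟩)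
        · rw [Set.mem_singleton_iff] at hz
          exact ⟨0, hz.symm⟩
        · fin_cases i
          · exact ⟨1, rfl⟩
          · exact ⟨2, rfl⟩
          · exact ⟨3, rfl⟩
    rwa [h2] at h1
  have hf0 : f ≠ 0 := by
    intro hz
    obtain ⟨i, hi⟩ := exists_M_ne hfu hdl
    apply hi
    rw [hf, gm_eq_zero] at hz
    have hFz : ∀ i, F i = 0 := by
      intro i
      rw [hF, gm_eq_zero]
      filter_upwards [hz.eventually_nhds] with x hx
      show fderiv ℂ (fun x => Φ (x, p₀)) x (Pi.single i 1) = 0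
      rw [Filter.EventuallyEq.fderiv_eq (f₁ := fun x => Φ (x, p₀)) (f := fun _ => 0) hx]
      simp
    fin_cases i
    · show F 1 * H 2 - F 2 * H 1 = 0
      rw [hFz, hFz]; ring
    · show F 2 * H 0 - F 0 * H 2 = 0
      rw [hFz, hFz]; ring
    · show F 0 * H 1 - F 1 * H 0 = 0
      rw [hFz, hFz]; ring
  obtain ⟨c, p, q, hb0, hbs⟩ := syz_M hfu hf0 hMu hdl (b 0) (fun i => b i.succ) hb
  refine ⟨Fin.cons (∑ i, ll 3 (c i) * M F1 H1 i)
    (fun i => -(ll 3 (c i) * f1) + ll 3 p * F1 i + ll 3 q * H1 i), ?_, ?_⟩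
  · intro j
    refine Fin.cases ?_ (fun i => ?_) j
    · rw [Fin.cons_zero, map_sum, hb0]
      exact Finset.sum_congr rfl fun i _ => by rw [map_mul, rr_ll, rM]
    · rw [Fin.cons_succ]
      simp only [map_add, map_neg, map_mul, rr_ll, rf, rF, rH]
      exact (hbs i).symm
  · rw [Fin.sum_univ_succ]
    simp only [Fin.cons_zero, Fin.cons_succ, g0, gs]
    have e1 := dot_F F1 H1
    have e2 := dot_H F1 H1
    have e3 : ∑ i, (-(ll 3 (c i) * f1) + ll 3 p * F1 i + ll 3 q * H1 i) * M F1 H1 i =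
        -(∑ i, ll 3 (c i) * M F1 H1 i) * f1 + ll 3 p * ∑ i, F1 i * M F1 H1 i +
          ll 3 q * ∑ i, H1 i * M F1 H1 i := by
      rw [Finset.mul_sum, Finset.mul_sum, neg_mul, Finset.sum_mul, ← Finset.sum_neg_distrib,
        ← Finset.sum_add_distrib, ← Finset.sum_add_distrib]
      exact Finset.sum_congr rfl fun i _ => by ring
    rw [e3, e1, e2]
    ring

/-- **conservation of number** for `(f_p, ∇f_p × ∇h_p)` -/
theorem count_mnr [FiniteDimensional ℂ P] {Φ Ψ : E3 × P → ℂ} {p₀ : P}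
    (h : AnalyticAt ℂ Φ (0, p₀)) (h' : AnalyticAt ℂ Ψ (0, p₀)) (h0 : Φ (0, p₀) = 0)
    (hcrit : ∀ i, coordDeriv (fun x => Φ (x, p₀)) i 0 = 0)
    (hfin : ColFin (mnr (fun x => Φ (x, p₀)) (fun x => Ψ (x, p₀)))) :
    ∃ r₀ : ℝ, 0 < r₀ ∧ ∀ ε : ℝ, 0 < ε → ∀ᶠ y in 𝓝 p₀,
      Cnm7_889.CntP (Gf Φ Ψ) r₀ (col (mnr (fun x => Φ (x, p₀)) (fun x => Ψ (x, p₀)))) ε y :=
  count_lift p₀ (Gf Φ Ψ) (an_Gf h h') hfin fun v hA => lift_Gf h h' h0 hcrit hfin v hA

end Crest.Agent.R257.Det_812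
end
end

-- ▼ part R257/Cnt3_812
section

/-!
Row 257 (S0395), leaf CntStmt (helper812), part 3: literal form.
-/

set_option autoImplicit false
set_option linter.unusedSectionVars false

open Set Filter Topology
open Crest.AlgGeometry.Germ
open Crest.Agent.R257.UI939 Crest.Agent.R257.Defs_219
open Crest.Agent.R257.LossD_309 Crest.Agent.R257.PN_835
open Crest.Agent.R257.KED_952 (PP)

noncomputable section

namespace Crest.Agent.R257.Det_812

lemma norm_lt_of_nsq {x : E3} {ρ : ℝ} (hρ : 0 < ρ) (h : nsq x < ρ ^ 2) : ‖x‖ < ρ := by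
  rw [pi_norm_lt_iff hρ]
  intro i
  have h1 : ‖x i‖ ^ 2 ≤ nsq x :=
    Finset.single_le_sum (f := fun k => ‖x k‖ ^ 2) (fun k _ => sq_nonneg _) (Finset.mem_univ i)
  exact lt_of_pow_lt_pow_left₀ 2 hρ.le (h1.trans_lt h)

lemma nsq_lt_of_norm {x : E3} {δ : ℝ} (h : ‖x‖ < δ / 2) : nsq x < δ ^ 2 := by
  have hδ : 0 < δ := by linarith [norm_nonneg x]
  have h1 : ∀ i, ‖x i‖ ^ 2 ≤ (δ / 2) ^ 2 := fun i => by
    have : ‖x i‖ ≤ δ / 2 := (norm_le_pi_norm x i).trans h.le
    exact pow_le_pow_left₀ (norm_nonneg _) this 2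
  have h2 : nsq x ≤ ∑ _i : Fin 3, (δ / 2) ^ 2 := Finset.sum_le_sum fun i _ => h1 i
  rw [Finset.sum_const, Finset.card_univ, Fintype.card_fin] at h2
  simp only [nsmul_eq_mul] at h2
  push_cast at h2
  nlinarith [sq_nonneg δ]

theorem cntStmt : CntStmt := by
  intro Φ τ₀ hΦ f hf hiso h hh hm
  let Φ' : E3 × (PP × E3) → ℂ := fun q => Φ (q.1, q.2.1)
  let Ψ' : E3 × (PP × E3) → ℂ := fun q => ptb h q.2.2 q.1
  have hΦ' : AnalyticAt ℂ Φ' (0, (τ₀, 0)) :=
    AnalyticAt.comp (g := Φ) (f := fun q : E3 × (PP × E3) => (q.1, q.2.1)) hΦ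
      (analyticAt_fst.prod (analyticAt_fst.comp analyticAt_snd))
  have hΨ' : AnalyticAt ℂ Ψ' (0, (τ₀, 0)) := by
    refine AnalyticAt.add (AnalyticAt.comp (g := h) (f := Prod.fst) hh analyticAt_fst) ?_
    refine Finset.analyticAt_fun_sum _ fun i _ => ?_
    refine AnalyticAt.mul ?_ ?_
    · exact ((ContinuousLinearMap.proj (R := ℂ) (φ := fun _ : Fin 3 => ℂ) i).comp
        ((ContinuousLinearMap.snd ℂ PP E3).comp
          (ContinuousLinearMap.snd ℂ E3 (PP × E3)))).analyticAt _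
    · exact ((ContinuousLinearMap.proj (R := ℂ) (φ := fun _ : Fin 3 => ℂ) i).comp
        (ContinuousLinearMap.fst ℂ E3 (PP × E3))).analyticAt _
  have e1 : (fun x => Φ' (x, (τ₀, 0))) = f := hf.symm
  have e2 : (fun x => Ψ' (x, (τ₀, 0))) = h := by
    funext x
    simp [Ψ', ptb]
  have e0 : Φ' (0, (τ₀, 0)) = 0 := by
    have : f 0 = 0 := hiso.zero
    rw [hf] at this
    exact this
  obtain ⟨r₀, hr₀, hcnt⟩ := count_mnr hΦ' hΨ' e0 (by rw [e1]; exact hiso.crit)
    (by rw [e1, e2]; exact hm)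
  rw [e1, e2] at hcnt
  refine ⟨r₀, hr₀, fun ε hε => ?_⟩
  have hδ : 0 < min ε r₀ := lt_min hε hr₀
  filter_upwards [hcnt (min ε r₀ / 2) (by positivity)] with q hq
  have hsmall : ∀ x ∈ Cnm7_889.ZP (Gf Φ' Ψ') r₀ q, nsq x < min ε r₀ ^ 2 :=
    fun x hx => nsq_lt_of_norm (hq.small x hx)
  have hZ : ZM Φ h r₀ q = Cnm7_889.ZP (Gf Φ' Ψ') r₀ q := by
    ext x
    constructor
    · rintro ⟨h1, h2⟩
      exact ⟨norm_lt_of_nsq hr₀ h1, h2⟩
    · intro hx
      refine ⟨(hsmall x hx).trans_le ?_, hx.2⟩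
      exact pow_le_pow_left₀ hδ.le (min_le_right _ _) 2
  refine ⟨by rw [hZ]; exact hq.fin, fun x hx => ?_, fun hnd => ?_⟩
  · rw [hZ] at hx
    exact (hsmall x hx).trans_le (pow_le_pow_left₀ hδ.le (min_le_left _ _) 2)
  · rw [hZ]
    refine hq.eq fun x hx v hv => hnd x (by rw [hZ]; exact hx) v hv

end Crest.Agent.R257.Det_812
end
end

-- ▼ part R257/Bd_309

/-!
R257 / Bd_309 (helper309): **`BdStmt`**, `TendStmt`, `E2Stmt`; `LossStmt` from `V0Stmt`.
-/

set_option autoImplicit false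

namespace Crest.Agent.R257.Bd_309

open Crest.Agent.R257.KED_952 Crest.Agent.R257.KEG_952

theorem tendStmt : LossT_309.TendStmt := Lim_397.tendStmt Det_812.cntStmt

/-- the second Chern integrals of the smooth levels are bounded -/
theorem bdStmt : BdStmt := LossU_309.bdStmt_of tendStmt

/-- limit of the second Chern integrals -/
theorem e2Stmt : KUP_952.E2Stmt := fun Φ τ₀ l r C w u hD f hf χ hχ ν ν₀ hν hν₀ h hh _ hcf hnz =>
  (tendStmt Φ τ₀ l r C w u hD f hf χ hχ ν ν₀ hν hν₀ h hh hcf hnz).2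


end Crest.Agent.R257.Bd_309
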