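import Crest.Agent.R257.HoE_843

-- ▼ part R257/HoF_843
section

/-!
# Row 257, task C-HO (helper843), file F: descent from `(z, s, y)` to `(z, s ^ N, y)`

`descend` : `G` holomorphic on a polydisc in `(z, s, y)` ⟹ there is `g` holomorphic on the polydisc in
`(z, x, y)` with `g (z, s^N, y) = (1/N) ∑_{ξ^N = 1} G (z, ξ s, y) / (ξ s)^(N-1)` for `s ≠ 0`.
-/

set_option autoImplicit false
set_option linter.unusedSectionVars false

noncomputable section

open Set Filter Topology MeasureTheory ComplexConjugate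
open scoped ENNReal

namespace Crest.Agent.R257.HoF_843

open Crest.Agent.R271 Crest.Agent.R271.Ho51
open Crest.Agent.R257.OtK_331 Crest.Agent.R257.Ord_757
open Crest.Agent.R257.Defs_219
open Polynomial (nthRootsFinset)

/-! ### integrals of functions of one coordinate -/

lemma lint_coord {m : ℕ} {r : Fin (m + 1) → ℝ} (i : Fin (m + 1)) {g : ℂ → ℝ≥0∞}
    (hg : Measurable g) (hfin : ∫⁻ z in Metric.ball (0 : ℂ) (r i), g z < ∞) :
    ∫⁻ x in Pd r, g (x i) < ∞ := by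
  have h1 := (volume_preserving_piFinSuccAbove (fun _ : Fin (m + 1) => ℂ) i)
  have h2 : Pd r = (MeasurableEquiv.piFinSuccAbove (fun _ : Fin (m + 1) => ℂ) i) ⁻¹'
      (Metric.ball (0 : ℂ) (r i) ×ˢ Pd (fun j => r (i.succAbove j))) := by
    ext x
    rw [mem_preimage, Set.mem_prod, mem_ball_zero_iff]
    show (∀ j, ‖x j‖ < r j) ↔ ‖x i‖ < r i ∧ ∀ j, ‖x (i.succAbove j)‖ < r (i.succAbove j)
    rw [Fin.forall_iff_succAbove i]
  rw [h2]
  have h3 := h1.setLIntegral_comp_preimage_emb (MeasurableEquiv.measurableEmbedding _)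
    (fun p : ℂ × (Fin m → ℂ) => g p.1)
    (Metric.ball (0 : ℂ) (r i) ×ˢ Pd (fun j => r (i.succAbove j)))
  refine lt_of_eq_of_lt (Eq.trans ?_ h3) ?_
  · rfl
  · rw [Measure.volume_eq_prod, ← Measure.prod_restrict,
      lintegral_prod (fun p : ℂ × (Fin m → ℂ) => g p.1)
      (hg.comp measurable_fst).aemeasurable]
    simp only [lintegral_const, Measure.restrict_apply MeasurableSet.univ, univ_inter]
    rw [lintegral_mul_const _ hg]
    exact ENNReal.mul_lt_top hfin (volume_Pd_lt _)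

/-! ### `N`-th roots -/

/-- an `N`-th root -/
def rt (N : ℕ) (x : ℂ) : ℂ :=
  if h : 0 < N then (IsAlgClosed.exists_pow_nat_eq x h).choose else 0

lemma rt_pow {N : ℕ} (hN : 0 < N) (x : ℂ) : rt N x ^ N = x := by
  unfold rt
  rw [dif_pos hN]
  exact (IsAlgClosed.exists_pow_nat_eq x hN).choose_spec

lemma norm_rt {N : ℕ} (hN : 0 < N) (x : ℂ) : ‖rt N x‖ = ‖x‖ ^ (1 / (N : ℝ)) := by
  have h1 : ‖rt N x‖ ^ N = ‖x‖ := by rw [← norm_pow, rt_pow hN]
  rw [← h1, one_div, Real.pow_rpow_inv_natCast (norm_nonneg _) hN.ne']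

/-- the average -/
def av (N : ℕ) (G : E3 → ℂ) (u : E3) : ℂ :=
  (1 / (N : ℂ)) * ∑ ξ ∈ nthRootsFinset N (1 : ℂ), G ![u 0, ξ * u 1, u 2] / (ξ * u 1) ^ (N - 1)

lemma av_inv {N : ℕ} (hN : 0 < N) (G : E3 → ℂ) (z s y ζ : ℂ) (hζ : ζ ^ N = 1) :
    av N G ![z, ζ * s, y] = av N G ![z, s, y] := by
  unfold av
  congr 1
  have hζ0 : ζ ≠ 0 := by
    rintro rfl
    rw [zero_pow hN.ne'] at hζ
    exact zero_ne_one hζ
  refine Finset.sum_bij' (fun ξ _ => ξ * ζ) (fun ξ _ => ξ * ζ⁻¹) ?_ ?_ ?_ ?_ ?_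
  · intro ξ hξ
    rw [Polynomial.mem_nthRootsFinset hN] at hξ ⊢
    rw [mul_pow, hξ, hζ, one_mul]
  · intro ξ hξ
    rw [Polynomial.mem_nthRootsFinset hN] at hξ ⊢
    rw [mul_pow, hξ, inv_pow, hζ, inv_one, one_mul]
  · intro ξ _
    field_simp
  · intro ξ _
    field_simp
  · intro ξ _
    simp [mul_assoc]

lemma norm_root {N : ℕ} (hN : 0 < N) {ξ : ℂ} (hξ : ξ ^ N = 1) : ‖ξ‖ = 1 := by
  have h1 : ‖ξ‖ ^ N = 1 := by rw [← norm_pow, hξ, norm_one]
  exact (pow_eq_one_iff_of_nonneg (norm_nonneg _) hN.ne').1 h1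

/-- two roots differ by a root of unity -/
lemma av_root {N : ℕ} (hN : 0 < N) (G : E3 → ℂ) (z y : ℂ) {s t : ℂ} (h : s ^ N = t ^ N)
    (hs : s ≠ 0) : av N G ![z, t, y] = av N G ![z, s, y] := by
  have h1 : (t / s) ^ N = 1 := by
    rw [div_pow, ← h, div_self (pow_ne_zero _ hs)]
  have h2 := av_inv hN G z s y (t / s) h1
  rwa [div_mul_cancel₀ _ hs] at h2

/-- `(z, s, y)` -/
lemma eta3 (u : E3) : ![u 0, u 1, u 2] = u := by
  funext i; fin_cases i <;> rfl

lemma vec_mem {R : Fin 3 → ℝ} {z s y : ℂ} :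
    (![z, s, y] : E3) ∈ Pd R ↔ ‖z‖ < R 0 ∧ ‖s‖ < R 1 ∧ ‖y‖ < R 2 := by
  show (∀ i : Fin 3, ‖(![z, s, y] : E3) i‖ < R i) ↔ _
  rw [Fin.forall_fin_succ, Fin.forall_fin_two]
  rfl

lemma mem_Pd3 {R : Fin 3 → ℝ} {u : E3} : u ∈ Pd R ↔ ‖u 0‖ < R 0 ∧ ‖u 1‖ < R 1 ∧ ‖u 2‖ < R 2 := by
  rw [← eta3 u, vec_mem]
  rfl

lemma diff_vec {f g h : E3 → ℂ} {u : E3} (hf : DifferentiableAt ℂ f u)
    (hg : DifferentiableAt ℂ g u) (hh : DifferentiableAt ℂ h u) :
    DifferentiableAt ℂ (fun x => (![f x, g x, h x] : E3)) u := by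
  rw [differentiableAt_pi]
  intro i
  fin_cases i
  · exact hf
  · exact hg
  · exact hh

lemma diff_co (i : Fin 3) (u : E3) : DifferentiableAt ℂ (fun x : E3 => x i) u :=
  (differentiable_apply i).differentiableAt

lemma diff_av {N : ℕ} (hN : 0 < N) {R : Fin 3 → ℝ} {G : E3 → ℂ} (hG : DifferentiableOn ℂ G (Pd R))
    {u : E3} (hu : u ∈ Pd R) (h1 : u 1 ≠ 0) : DifferentiableAt ℂ (av N G) u := by
  unfold av
  refine DifferentiableAt.const_mul ?_ _
  refine DifferentiableAt.fun_sum fun ξ hξ => ?_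
  rw [Polynomial.mem_nthRootsFinset hN] at hξ
  have hξ1 := norm_root hN hξ
  have hξ0 : ξ ≠ 0 := norm_ne_zero_iff.1 (by rw [hξ1]; exact one_ne_zero)
  rw [mem_Pd3] at hu
  have h2 : (![u 0, ξ * u 1, u 2] : E3) ∈ Pd R := by
    rw [vec_mem, norm_mul, hξ1, one_mul]
    exact hu
  have h3 : DifferentiableAt ℂ G ![u 0, ξ * u 1, u 2] :=
    hG.differentiableAt ((isOpen_Pd R).mem_nhds h2)
  have h4 : DifferentiableAt ℂ (fun u : E3 => (![u 0, ξ * u 1, u 2] : E3)) u :=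
    diff_vec (diff_co 0 u) ((diff_co 1 u).const_mul ξ) (diff_co 2 u)
  have h5 : DifferentiableAt ℂ (fun u : E3 => G ![u 0, ξ * u 1, u 2]) u :=
    DifferentiableAt.comp u (g := G) (f := fun u : E3 => (![u 0, ξ * u 1, u 2] : E3)) h3 h4
  have h6 : DifferentiableAt ℂ (fun u : E3 => (ξ * u 1) ^ (N - 1)) u :=
    ((diff_co 1 u).const_mul ξ).pow _
  have h7 := h5.mul (h6.inv (pow_ne_zero _ (mul_ne_zero hξ0 h1)))
  refine h7.congr_of_eventuallyEq (Eventually.of_forall fun x => ?_)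
  simp [div_eq_mul_inv]

/-- the radii downstairs -/
def Rd (N : ℕ) (R : Fin 3 → ℝ) : Fin 3 → ℝ := ![R 0, R 1 ^ N, R 2]

/-- the descended function off `x 1 = 0` -/
def g0 (N : ℕ) (G : E3 → ℂ) (x : E3) : ℂ := av N G ![x 0, rt N (x 1), x 2]

lemma rt_lt {N : ℕ} (hN : 0 < N) {r : ℝ} (hr : 0 ≤ r) {x : ℂ} (h : ‖x‖ < r ^ N) : ‖rt N x‖ < r := by
  have h1 : ‖rt N x‖ ^ N < r ^ N := by rw [← norm_pow, rt_pow hN]; exact h
  exact lt_of_pow_lt_pow_left₀ N hr h1

lemma diff_g0 {N : ℕ} (hN : 0 < N) {R : Fin 3 → ℝ} (hR : ∀ i, 0 < R i) {G : E3 → ℂ}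
    (hG : DifferentiableOn ℂ G (Pd R)) {x : E3} (hx : x ∈ Pd (Rd N R)) (h1 : x 1 ≠ 0) :
    DifferentiableAt ℂ (g0 N G) x := by
  rw [mem_Pd3] at hx
  obtain ⟨hx0, hx1, hx2⟩ := hx
  have hs0 : rt N (x 1) ≠ 0 := by
    intro h
    have := rt_pow hN (x 1)
    rw [h, zero_pow hN.ne'] at this
    exact h1 this.symm
  -- local root
  have hst : HasStrictDerivAt (fun s : ℂ => s ^ N) ((N : ℂ) * rt N (x 1) ^ (N - 1))
      (rt N (x 1)) := hasStrictDerivAt_pow N _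
  have hne : (N : ℂ) * rt N (x 1) ^ (N - 1) ≠ 0 :=
    mul_ne_zero (by exact_mod_cast hN.ne') (pow_ne_zero _ hs0)
  set r := hst.localInverse _ _ _ hne with hr
  have hr1 : HasStrictDerivAt r ((N : ℂ) * rt N (x 1) ^ (N - 1))⁻¹ ((rt N (x 1)) ^ N) :=
    hst.to_localInverse hne
  have hr2 : r ((rt N (x 1)) ^ N) = rt N (x 1) :=
    (hst.hasStrictFDerivAt_equiv hne).localInverse_apply_image
  have hr3 : ∀ᶠ y in 𝓝 ((rt N (x 1)) ^ N), r y ^ N = y :=
    (hst.hasStrictFDerivAt_equiv hne).eventually_right_inverse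
  rw [rt_pow hN] at hr1 hr2 hr3
  have hmem : (![x 0, r (x 1), x 2] : E3) ∈ Pd R := by
    rw [vec_mem, hr2]
    exact ⟨hx0, rt_lt hN (hR 1).le hx1, hx2⟩
  have hd : DifferentiableAt ℂ (fun y : E3 => av N G ![y 0, r (y 1), y 2]) x := by
    have h2 : DifferentiableAt ℂ (fun y : E3 => (![y 0, r (y 1), y 2] : E3)) x :=
      diff_vec (diff_co 0 x)
        (DifferentiableAt.comp x (g := r) (f := fun y : E3 => y 1)
          hr1.hasDerivAt.differentiableAt (diff_co 1 x)) (diff_co 2 x)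
    refine DifferentiableAt.comp x (g := av N G) (f := fun y : E3 => (![y 0, r (y 1), y 2] : E3))
      (diff_av hN hG hmem ?_) h2
    show r (x 1) ≠ 0
    rw [hr2]; exact hs0
  refine hd.congr_of_eventuallyEq ?_
  have hc : ContinuousAt (fun y : E3 => y 1) x := (continuous_apply 1).continuousAt
  filter_upwards [hc.eventually hr3, hc.eventually_ne h1] with y hy1 hy2
  refine av_root hN G (y 0) (y 2) ?_ ?_
  · rw [hy1, rt_pow hN]
  · intro h
    rw [h, zero_pow hN.ne'] at hy1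
    exact hy2 hy1.symm

/-- **descent** -/
theorem descend {N : ℕ} (hN : 0 < N) {R : Fin 3 → ℝ} (hR : ∀ i, 0 < R i) {G : E3 → ℂ}
    (hG : DifferentiableOn ℂ G (Pd R)) :
    ∃ g : E3 → ℂ, DifferentiableOn ℂ g (Pd (Rd N R)) ∧
      ∀ u ∈ Pd R, u 1 ≠ 0 → g ![u 0, u 1 ^ N, u 2] = av N G u := by
  obtain ⟨g, hg, hge⟩ := RExt747.riemann_ext (f := g0 N G) (D := fun x : E3 => x 1)
    (U := Pd (Rd N R)) (isOpen_Pd _)
    (fun x _ => (ContinuousLinearMap.proj (R := ℂ) (φ := fun _ : Fin 3 => ℂ) 1).analyticAt x)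
    (by
      intro a _ hev
      have h1 : Tendsto (fun t : ℂ => a + t • (Pi.single 1 1 : E3)) (𝓝 0) (𝓝 a) := by
        have : Continuous fun t : ℂ => a + t • (Pi.single 1 1 : E3) := by fun_prop
        simpa using this.tendsto 0
      have h2 : ∀ᶠ t : ℂ in 𝓝 0, a 1 + t = 0 := by
        filter_upwards [h1.eventually hev] with t ht
        simpa using ht
      have h3 : ∀ᶠ t : ℂ in 𝓝[≠] 0, a 1 + t = 0 := h2.filter_mono nhdsWithin_le_nhds
      have h4 : a 1 = 0 := by simpa using h2.self_of_nhds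
      obtain ⟨t, ht1, ht2⟩ := (h3.and self_mem_nhdsWithin).exists
      rw [h4, zero_add] at ht1
      exact ht2 ht1)
    (fun x hx => (diff_g0 hN hR hG hx.1 hx.2).differentiableWithinAt)
    (by
      intro a ha
      rw [mem_Pd3] at ha
      obtain ⟨ha0, ha1, ha2⟩ := ha
      have ha1' : ‖a 1‖ < R 1 ^ N := ha1
      obtain ⟨r0, hr0, hr0'⟩ := exists_between ha0
      obtain ⟨r1, hr1, hr1'⟩ := exists_between ha1'
      obtain ⟨r2, hr2, hr2'⟩ := exists_between ha2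
      have hr1p : 0 < r1 := (norm_nonneg _).trans_lt hr1
      set Kc : Set E3 := {u | ∀ i, ‖u i‖ ≤ (![r0, r1 ^ (1 / (N : ℝ)), r2] : Fin 3 → ℝ) i} with hKc
      have hKcc : IsCompact Kc := by
        have : Kc = Set.pi univ fun i => Metric.closedBall (0 : ℂ)
            ((![r0, r1 ^ (1 / (N : ℝ)), r2] : Fin 3 → ℝ) i) := by
          ext u; simp [hKc, Set.mem_pi]
        rw [this]
        exact isCompact_univ_pi fun i => isCompact_closedBall _ _
      have hr1R : r1 ^ (1 / (N : ℝ)) < R 1 := by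
        have h2 : r1 ^ (1 / (N : ℝ)) < (R 1 ^ N) ^ (1 / (N : ℝ)) :=
          Real.rpow_lt_rpow hr1p.le hr1' (by positivity)
        rw [one_div] at h2 ⊢
        rwa [Real.pow_rpow_inv_natCast (hR 1).le hN.ne'] at h2
      have hKcP : Kc ⊆ Pd R := by
        intro u hu
        rw [mem_Pd3]
        exact ⟨(hu 0).trans_lt hr0', (hu 1).trans_lt hr1R, (hu 2).trans_lt hr2'⟩
      obtain ⟨B, hB⟩ := (hKcc.image_of_continuousOn
        (hG.continuousOn.mono hKcP).norm).bddAbove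
      have hB' : ∀ u ∈ Kc, ‖G u‖ ≤ |B| := fun u hu =>
        (hB ⟨u, hu, rfl⟩).trans (le_abs_self _)
      refine ⟨Pd ![r0, r1, r2], (isOpen_Pd _).mem_nhds ?_, ?_⟩
      · rw [mem_Pd3]
        exact ⟨hr0, hr1, hr2⟩
      · have hpt : ∀ x ∈ Pd ![r0, r1, r2] ∩ {z : E3 | z 1 ≠ 0},
            ‖g0 N G x‖ₑ ^ 2 ≤ ENNReal.ofReal (|B| ^ 2) *
              ENNReal.ofReal (‖x 1‖ ^ (2 * (1 / (N : ℝ)) - 2)) := by
          rintro x ⟨hx, hx1⟩
          have hx1' : x 1 ≠ 0 := hx1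
          rw [mem_Pd3] at hx
          obtain ⟨c0, c1, c2⟩ := hx
          have c1' : ‖x 1‖ < r1 := c1
          have hpos : 0 < ‖x 1‖ := norm_pos_iff.2 hx1'
          have hrtn : ‖rt N (x 1)‖ ≤ r1 ^ (1 / (N : ℝ)) := by
            rw [norm_rt hN]
            exact Real.rpow_le_rpow (norm_nonneg _) c1'.le (by positivity)
          have hrt0 : 0 < ‖rt N (x 1)‖ := by
            rw [norm_rt hN]; positivity
          have hcard : ((nthRootsFinset N (1 : ℂ)).card : ℝ) ≤ N := by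
            rw [(Complex.isPrimitiveRoot_exp N hN.ne').card_nthRootsFinset]
          have h2 : ‖g0 N G x‖ ≤ |B| / ‖rt N (x 1)‖ ^ (N - 1) := by
            unfold g0 av
            rw [norm_mul, norm_div, norm_one, Complex.norm_natCast]
            have h3 : ‖∑ ξ ∈ nthRootsFinset N (1 : ℂ), G ![(![x 0, rt N (x 1), x 2] : E3) 0,
                ξ * (![x 0, rt N (x 1), x 2] : E3) 1, (![x 0, rt N (x 1), x 2] : E3) 2] /
                (ξ * (![x 0, rt N (x 1), x 2] : E3) 1) ^ (N - 1)‖ ≤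
                ∑ ξ ∈ nthRootsFinset N (1 : ℂ), |B| / ‖rt N (x 1)‖ ^ (N - 1) := by
              refine (norm_sum_le _ _).trans (Finset.sum_le_sum fun ξ hξ => ?_)
              rw [Polynomial.mem_nthRootsFinset hN] at hξ
              have hξ1 := norm_root hN hξ
              rw [norm_div, norm_pow, norm_mul, hξ1, one_mul]
              show ‖G ![x 0, ξ * rt N (x 1), x 2]‖ / ‖rt N (x 1)‖ ^ (N - 1) ≤ _
              gcongr
              apply hB'
              intro i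
              fin_cases i
              · exact c0.le
              · show ‖ξ * rt N (x 1)‖ ≤ _
                rw [norm_mul, hξ1, one_mul]
                exact hrtn
              · exact c2.le
            rw [Finset.sum_const, nsmul_eq_mul] at h3
            have hNp : (0 : ℝ) < N := by exact_mod_cast hN
            calc 1 / (N : ℝ) * ‖_‖ ≤ 1 / (N : ℝ) *
                  (((nthRootsFinset N (1 : ℂ)).card : ℝ) * (|B| / ‖rt N (x 1)‖ ^ (N - 1))) := by
                    gcongr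
              _ ≤ 1 / (N : ℝ) * ((N : ℝ) * (|B| / ‖rt N (x 1)‖ ^ (N - 1))) := by gcongr
              _ = _ := by field_simp
          have h4 : (‖rt N (x 1)‖ ^ (N - 1)) ^ 2 = ‖x 1‖ ^ (2 - 2 * (1 / (N : ℝ))) := by
            rw [norm_rt hN, ← pow_mul, ← Real.rpow_natCast, ← Real.rpow_mul (norm_nonneg _)]
            congr 1
            have hNp : (0 : ℝ) < N := by exact_mod_cast hN
            rw [Nat.cast_mul, Nat.cast_sub hN]
            push_cast
            field_simp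
          have h5 : ‖g0 N G x‖ ^ 2 ≤ |B| ^ 2 * ‖x 1‖ ^ (2 * (1 / (N : ℝ)) - 2) := by
            calc ‖g0 N G x‖ ^ 2 ≤ (|B| / ‖rt N (x 1)‖ ^ (N - 1)) ^ 2 := by gcongr
              _ = |B| ^ 2 * (‖x 1‖ ^ (2 - 2 * (1 / (N : ℝ))))⁻¹ := by
                  rw [div_pow, h4, div_eq_mul_inv]
              _ = _ := by
                  rw [← Real.rpow_neg (norm_nonneg _)]
                  congr 2
                  ring
          have h6 : ‖g0 N G x‖ₑ ^ 2 = ENNReal.ofReal (‖g0 N G x‖ ^ 2) := by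
            rw [ENNReal.ofReal_pow (norm_nonneg _), ofReal_norm]
          rw [h6, ← ENNReal.ofReal_mul (by positivity)]
          exact ENNReal.ofReal_le_ofReal h5
        have hms : MeasurableSet (Pd ![r0, r1, r2] ∩ {z : E3 | z 1 ≠ 0}) :=
          ((isOpen_Pd _).inter (isOpen_ne.preimage (continuous_apply 1))).measurableSet
        refine lt_of_le_of_lt (setLIntegral_mono' hms hpt) ?_
        rw [lintegral_const_mul' _ _ ENNReal.ofReal_ne_top]
        refine ENNReal.mul_lt_top ENNReal.ofReal_lt_top ?_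
        refine lt_of_le_of_lt (lintegral_mono_set inter_subset_left) ?_
        refine lint_coord (r := ![r0, r1, r2]) 1
          (g := fun z => ENNReal.ofReal (‖z‖ ^ (2 * (1 / (N : ℝ)) - 2))) ?_ ?_
        · fun_prop
        · exact int1 (by positivity) r1)
  refine ⟨g, hg, fun u hu h1 => ?_⟩
  have hu' := mem_Pd3.1 hu
  have h2 : (![u 0, u 1 ^ N, u 2] : E3) ∈ Pd (Rd N R) := by
    rw [vec_mem]
    refine ⟨hu'.1, ?_, hu'.2.2⟩
    show ‖u 1 ^ N‖ < R 1 ^ N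
    rw [norm_pow]
    exact pow_lt_pow_left₀ hu'.2.1 (norm_nonneg _) hN.ne'
  rw [hge _ h2 (pow_ne_zero _ h1)]
  show av N G ![u 0, rt N (u 1 ^ N), u 2] = av N G u
  rw [av_root hN G (u 0) (u 2) (s := u 1) (rt_pow hN _).symm h1, eta3]

end Crest.Agent.R257.HoF_843
end
end

-- ▼ part R257/HoG_843
section

/-!
# Row 257, task C-HO (helper843), file G: the Hörmander step upstairs, on
`W = {(z, s, y') | f (z, A (s^N, y')) = 0}`, and the function downstairs

`hoW` : `S`, `Φ` functions on `W` (no invariance), all hypotheses in parametrisations of `W`, all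
integrals for `|η|²` of `{f = 0}`; output: `g` holomorphic near `0 ∈ ℂ³` and `v` with
`g (z, A (s^N, y')) = (1/N) ∑_{ξ^N = 1} (S + v) (z, ξ s, y')` and `∫ |v|² e^{-Φ} |η|² ≤ 2 K`.
-/

set_option autoImplicit false
set_option linter.unusedSectionVars false

noncomputable section

open Set Filter Topology MeasureTheory ComplexConjugate
open scoped ENNReal

namespace Crest.Agent.R257.HoG_843

open Crest.AlgGeometry.Germ
open Crest.Agent.R271 Crest.Agent.R271.Ho51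
open Crest.Agent.R257.OtK_331 Crest.Agent.R257.HoB_843 Crest.Agent.R257.HoE_843
open Crest.Agent.R257.HoF_843
open Crest.Agent.R257.Defs_219 Crest.Agent.R257.Fr_808
open Polynomial (nthRootsFinset)

/-- `(z, s, y') ↦ (z, A (s^N, y'))` -/
def piW (A : (ℂ × ℂ) ≃L[ℂ] (ℂ × ℂ)) (N : ℕ) (u : E3) : E3 :=
  ![u 0, (A (u 1 ^ N, u 2)).1, (A (u 1 ^ N, u 2)).2]

/-- `f` upstairs -/
def hW (f : E3 → ℂ) (A : (ℂ × ℂ) ≃L[ℂ] (ℂ × ℂ)) (N : ℕ) (u : E3) : ℂ := f (piW A N u)

/-- the determinant of `A` -/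
def dt (A : (ℂ × ℂ) ≃L[ℂ] (ℂ × ℂ)) : ℂ :=
  (A (1, 0)).1 * (A (0, 1)).2 - (A (1, 0)).2 * (A (0, 1)).1

variable {f : E3 → ℂ} {A : (ℂ × ℂ) ≃L[ℂ] (ℂ × ℂ)} {N : ℕ}

lemma A_eq (A : (ℂ × ℂ) ≃L[ℂ] (ℂ × ℂ)) (x y : ℂ) :
    A (x, y) = (x * (A (1, 0)).1 + y * (A (0, 1)).1, x * (A (1, 0)).2 + y * (A (0, 1)).2) := by
  have h1 : ((x, y) : ℂ × ℂ) = x • ((1, 0) : ℂ × ℂ) + y • ((0, 1) : ℂ × ℂ) := by
    simp
  conv_lhs => rw [h1, map_add, map_smul, map_smul]
  ext <;> simp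

lemma dt_ne (A : (ℂ × ℂ) ≃L[ℂ] (ℂ × ℂ)) : dt A ≠ 0 := by
  intro h
  unfold dt at h
  have h1 : A ((A (0, 1)).2, -(A (1, 0)).2) = 0 := by
    rw [A_eq]
    refine Prod.ext ?_ ?_
    · simp only [Prod.fst_zero]
      linear_combination h
    · simp only [Prod.snd_zero]
      ring
  have h2 : A ((A (0, 1)).1, -(A (1, 0)).1) = 0 := by
    rw [A_eq]
    refine Prod.ext ?_ ?_
    · simp only [Prod.fst_zero]
      ring
    · simp only [Prod.snd_zero]
      linear_combination -h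
  have h3 := (map_eq_zero_iff A A.injective).1 h1
  have h4 := (map_eq_zero_iff A A.injective).1 h2
  have e4 := congrArg (fun q : ℂ × ℂ => q.1) h4
  have e3 := congrArg (fun q : ℂ × ℂ => q.1) h3
  have h5 : A (0, 1) = 0 := Prod.ext e4 e3
  have h6 := (map_eq_zero_iff A A.injective).1 h5
  exact one_ne_zero (congrArg Prod.snd h6)

/-- components of `piW` -/
lemma piW_eq (u : E3) : piW A N u = ![u 0, u 1 ^ N * (A (1, 0)).1 + u 2 * (A (0, 1)).1,
    u 1 ^ N * (A (1, 0)).2 + u 2 * (A (0, 1)).2] := by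
  unfold piW
  rw [A_eq]


/-- derivative of `piW ∘ θ` -/
lemma fd_piW {E : Type*} [NormedAddCommGroup E] [NormedSpace ℂ E] {θ : E → E3} {p : E}
    (hθ : DifferentiableAt ℂ θ p) :
    DifferentiableAt ℂ (fun p => piW A N (θ p)) p ∧ ∀ w,
      fderiv ℂ (fun p => piW A N (θ p)) p w 0 = fderiv ℂ θ p w 0 ∧
      fderiv ℂ (fun p => piW A N (θ p)) p w 1 =
        (N * θ p 1 ^ (N - 1) * fderiv ℂ θ p w 1) * (A (1, 0)).1 +
          fderiv ℂ θ p w 2 * (A (0, 1)).1 ∧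
      fderiv ℂ (fun p => piW A N (θ p)) p w 2 =
        (N * θ p 1 ^ (N - 1) * fderiv ℂ θ p w 1) * (A (1, 0)).2 +
          fderiv ℂ θ p w 2 * (A (0, 1)).2 := by
  have hc : ∀ i : Fin 3, HasFDerivAt (fun p => θ p i)
      ((ContinuousLinearMap.proj (R := ℂ) (φ := fun _ : Fin 3 => ℂ) i).comp (fderiv ℂ θ p)) p :=
    fun i => (hasFDerivAt_pi'.1 hθ.hasFDerivAt) i
  have hp1 : HasFDerivAt (fun p => θ p 1 ^ N) ((N * θ p 1 ^ (N - 1)) •
      ((ContinuousLinearMap.proj (R := ℂ) (φ := fun _ : Fin 3 => ℂ) 1).comp (fderiv ℂ θ p))) p :=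
    (hasDerivAt_pow N (θ p 1)).comp_hasFDerivAt p (hc 1)
  have hk : ∀ b c : ℂ, HasFDerivAt (fun p => θ p 1 ^ N * b + θ p 2 * c)
      (b • ((N * θ p 1 ^ (N - 1)) •
        ((ContinuousLinearMap.proj (R := ℂ) (φ := fun _ : Fin 3 => ℂ) 1).comp (fderiv ℂ θ p))) +
        c • ((ContinuousLinearMap.proj (R := ℂ) (φ := fun _ : Fin 3 => ℂ) 2).comp
          (fderiv ℂ θ p))) p := fun b c => (hp1.mul_const b).add ((hc 2).mul_const c)
  set L : Fin 3 → (E →L[ℂ] ℂ) := ![(ContinuousLinearMap.proj (R := ℂ)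
      (φ := fun _ : Fin 3 => ℂ) 0).comp (fderiv ℂ θ p),
    (A (1, 0)).1 • ((N * θ p 1 ^ (N - 1)) •
        ((ContinuousLinearMap.proj (R := ℂ) (φ := fun _ : Fin 3 => ℂ) 1).comp (fderiv ℂ θ p))) +
        (A (0, 1)).1 • ((ContinuousLinearMap.proj (R := ℂ) (φ := fun _ : Fin 3 => ℂ) 2).comp
          (fderiv ℂ θ p)),
    (A (1, 0)).2 • ((N * θ p 1 ^ (N - 1)) •
        ((ContinuousLinearMap.proj (R := ℂ) (φ := fun _ : Fin 3 => ℂ) 1).comp (fderiv ℂ θ p))) +
        (A (0, 1)).2 • ((ContinuousLinearMap.proj (R := ℂ) (φ := fun _ : Fin 3 => ℂ) 2).comp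
          (fderiv ℂ θ p))] with hL
  have h1 : HasFDerivAt (fun p => piW A N (θ p)) (ContinuousLinearMap.pi L) p := by
    rw [hasFDerivAt_pi]
    intro i
    fin_cases i
    · exact hc 0
    · exact (hk (A (1, 0)).1 (A (0, 1)).1).congr_of_eventuallyEq
        (Eventually.of_forall fun q => by
          show piW A N (θ q) 1 = _
          rw [piW_eq]; rfl)
    · exact (hk (A (1, 0)).2 (A (0, 1)).2).congr_of_eventuallyEq
        (Eventually.of_forall fun q => by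
          show piW A N (θ q) 2 = _
          rw [piW_eq]; rfl)
  refine ⟨h1.differentiableAt, fun w => ?_⟩
  rw [h1.fderiv]
  refine ⟨rfl, ?_, ?_⟩
  · show L 1 w = _
    simp only [hL, Matrix.cons_val_one, Matrix.cons_val_zero, _root_.add_apply,
      _root_.smul_apply, ContinuousLinearMap.comp_apply, ContinuousLinearMap.proj_apply,
      smul_eq_mul]
    ring
  · show L 2 w = _
    simp only [hL, Matrix.cons_val, _root_.add_apply,
      _root_.smul_apply, ContinuousLinearMap.comp_apply, ContinuousLinearMap.proj_apply,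
      smul_eq_mul]
    ring

lemma jac2_piW {θ : ℂ × ℂ → E3} {p : ℂ × ℂ} (hθ : DifferentiableAt ℂ θ p) :
    jac2 (fun p => piW A N (θ p)) p = dt A * (N * θ p 1 ^ (N - 1)) * jac2 θ p := by
  obtain ⟨-, h⟩ := fd_piW (A := A) (N := N) hθ
  unfold jac2 dt
  rw [(h (1, 0)).2.1, (h (1, 0)).2.2, (h (0, 1)).2.1, (h (0, 1)).2.2]
  ring

lemma diff_piW (u : E3) : DifferentiableAt ℂ (piW A N) u :=
  (fd_piW (A := A) (N := N) (θ := fun u : E3 => u) differentiableAt_id).1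

lemma cd_hW {u : E3} (hf : DifferentiableAt ℂ f (piW A N u)) :
    coordDeriv (hW f A N) 0 u = coordDeriv f 0 (piW A N u) := by
  have h1 : HasFDerivAt (hW f A N) ((fderiv ℂ f (piW A N u)).comp (fderiv ℂ (piW A N) u)) u :=
    HasFDerivAt.comp u (g := f) (f := piW A N) hf.hasFDerivAt (diff_piW u).hasFDerivAt
  unfold coordDeriv
  rw [h1.fderiv, ContinuousLinearMap.comp_apply]
  congr 1
  obtain ⟨-, h⟩ := fd_piW (A := A) (N := N) (θ := fun u : E3 => u) (p := u) differentiableAt_id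
  obtain ⟨e0, e1, e2⟩ := h (Pi.single 0 1)
  have hid : fderiv ℂ (fun u : E3 => u) u = ContinuousLinearMap.id ℂ E3 := fderiv_id
  rw [hid] at e0 e1 e2
  funext i
  fin_cases i
  · exact e0
  · refine e1.trans ?_
    simp
  · refine e2.trans ?_
    simp

/-- the constant -/
def cA (A : (ℂ × ℂ) ≃L[ℂ] (ℂ × ℂ)) (N : ℕ) : ℝ := (‖dt A‖ * N) ^ 2

lemma cA_pos (hN : 0 < N) : 0 < cA A N := by
  unfold cA
  have := norm_pos_iff.2 (dt_ne A)
  have h2 : (0 : ℝ) < N := by exact_mod_cast hN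
  positivity

lemma den_piW {θ : ℂ × ℂ → E3} {p : ℂ × ℂ} (hθ : DifferentiableAt ℂ θ p)
    (hf : DifferentiableAt ℂ f (piW A N (θ p))) :
    den2 f (fun p => piW A N (θ p)) p =
      cA A N * ((‖θ p 1‖ ^ (N - 1)) ^ 2 * den2 (hW f A N) θ p) := by
  unfold den2 cA
  rw [jac2_piW hθ, cd_hW hf, norm_mul, norm_mul, norm_mul, norm_pow, Complex.norm_natCast]
  ring

end Crest.Agent.R257.HoG_843
end
end

-- ▼ part R257/HoH_843

/-!
# Row 257, task C-HO (helper843), file H: **the Hörmander step at `W`-level**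

`hoW` : `S`, `Φ` functions on `W = {(z, s, y') | f (z, A (s^N, y')) = 0}` (no invariance), all
hypotheses in parametrisations of `W ∩ {s ≠ 0, a (s, y') ≠ 0}`, all integrals for `|η|²` of
`{f = 0}`; output: `g` holomorphic near `0 ∈ ℂ³` with
`g (z, A (s^N, y')) = (1/N) ∑_{ξ^N = 1} V (z, ξ s, y')`, `V = G / s^(N-1)`, `G` holomorphic on the
polydisc of `(z,s,y')`-space, and `∫ |V - S|² e^{-Φ} |η|² ≤ 2 K`.
-/

set_option autoImplicit false
set_option linter.unusedSectionVars false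

noncomputable section

open Set Filter Topology MeasureTheory ComplexConjugate
open scoped ENNReal

namespace Crest.Agent.R257.HoH_843

open Crest.AlgGeometry.Germ
open Crest.Agent.R271 Crest.Agent.R271.Ho51
open Crest.Agent.R257.OtK_331 Crest.Agent.R257.HoB_843 Crest.Agent.R257.HoE_843
open Crest.Agent.R257.HoF_843 Crest.Agent.R257.HoG_843
open Crest.Agent.R257.Defs_219 Crest.Agent.R257.Fr_808
open Polynomial (nthRootsFinset)

lemma meas_ind {X : Type*} [TopologicalSpace X] [MeasurableSpace X] [BorelSpace X] {O : Set X}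
    (hO : IsOpen O) {F : X → ℝ} (hF : ContinuousOn F O) : Measurable (O.indicator F) := by
  classical
  rw [← Set.piecewise_eq_indicator]
  exact hF.measurable_piecewise continuousOn_const hO.measurableSet

/-- `∂̄ (F S) = F ∂̄ S` for holomorphic `F` -/
lemma dbE_mul {E : Type*} [NormedAddCommGroup E] [NormedSpace ℂ E] {F S : E → ℂ} {z : E}
    (hF : DifferentiableAt ℂ F z) (hS : DifferentiableAt ℝ S z) (w : E) :
    dbE (fun x => F x * S x) z w = F z * dbE S z w := by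
  have hFR : HasFDerivAt F ((fderiv ℂ F z).restrictScalars ℝ) z :=
    hF.hasFDerivAt.restrictScalars ℝ
  have h1 := hFR.mul hS.hasFDerivAt
  unfold dbE
  rw [show (fun x => F x * S x) = F * S from rfl, h1.fderiv]
  simp only [_root_.add_apply, _root_.smul_apply, ContinuousLinearMap.coe_restrictScalars',
    smul_eq_mul, map_smul]
  have := Complex.I_mul_I
  linear_combination (1 / 2 * S z * (fderiv ℂ F z w)) * this

variable {f : E3 → ℂ} {A : (ℂ × ℂ) ≃L[ℂ] (ℂ × ℂ)} {N : ℕ}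

/-- **the Hörmander step at `W`-level** -/
theorem hoW (hN : 0 < N) {R : Fin 3 → ℝ} (hR : ∀ i, 0 < R i)
    (hf : ∀ u ∈ Pd R, DifferentiableAt ℂ f (piW A N u))
    {a : ℂ × ℂ → ℂ} (ha : DifferentiableOn ℂ a {q | ‖q.1‖ < R 1 ∧ ‖q.2‖ < R 2})
    (ha0 : ∃ q : ℂ × ℂ, ‖q.1‖ < R 1 ∧ ‖q.2‖ < R 2 ∧ a q ≠ 0)
    (h1 : ∃ u ∈ Pd R, coordDeriv f 0 (piW A N u) ≠ 0) {ι : Type*} [Countable ι]
    {O : ι → Set (ℂ × ℂ)} (hO : ∀ c, IsOpen (O c))
    {θ : ι → ℂ × ℂ → E3} (hθ : ∀ c, DifferentiableOn ℂ (θ c) (O c))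
    (hz : ∀ c, ∀ p ∈ O c, f (piW A N (θ c p)) = 0) (hJ : ∀ c, ∀ p ∈ O c, jac2 (θ c) p ≠ 0)
    (hcov : ∀ u ∈ Pd R, u 1 ≠ 0 → f (piW A N u) = 0 → coordDeriv f 0 (piW A N u) ≠ 0 →
      a (u 1, u 2) ≠ 0 → ∃ c, ∃ p ∈ O c, θ c p = u)
    {Φ : E3 → ℝ} {S : E3 → ℂ} {κ : ι → ℂ × ℂ → ℝ}
    (hΦ : ∀ c, ∀ p ∈ O c, ContDiffAt ℝ (⊤ : ℕ∞) (Φ ∘ θ c) p)
    (hS : ∀ c, ∀ p ∈ O c, ContDiffAt ℝ (⊤ : ℕ∞) (S ∘ θ c) p)
    (hL : ∀ c, ∀ p ∈ O c, ∀ w, 0 ≤ lvE (Φ ∘ θ c) p w)
    (hκ0 : ∀ c p, 0 ≤ κ c p) (hκm : ∀ c, Measurable (κ c))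
    (hk : ∀ c, ∀ p ∈ O c, ∀ w, ‖dbE (S ∘ θ c) p w‖ ^ 2 ≤ κ c p * lvE (Φ ∘ θ c) p w)
    {C : ℝ} (hC : ∀ c, ∀ p ∈ O c, Φ (θ c p) ≤ C) {K : ℝ≥0∞} (hKt : K ≠ ∞)
    (hK : ∑' c, ∫⁻ p in O c, ENNReal.ofReal (κ c p * Real.exp (-Φ (θ c p)) *
      den2 f (fun q => piW A N (θ c q)) p) ≤ K)
    (hSi : ∑' c, ∫⁻ p in O c, ENNReal.ofReal (‖S (θ c p)‖ ^ 2 *
      den2 f (fun q => piW A N (θ c q)) p) ≠ ∞) :
    ∃ g G V : E3 → ℂ, DifferentiableOn ℂ G (Pd R) ∧ (∀ u, V u = G u / u 1 ^ (N - 1)) ∧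
      AnalyticAt ℂ g 0 ∧
      (∀ u ∈ Pd R, u 1 ≠ 0 → g (piW A N u) =
        1 / N * ∑ ξ ∈ nthRootsFinset N (1 : ℂ), V ![u 0, ξ * u 1, u 2]) ∧
      ∀ (U : Set (ℂ × ℂ)) (τ : ℂ × ℂ → E3) (N' : ℕ), IsOpen U → DifferentiableOn ℂ τ U →
        (∀ p ∈ U, τ p ∈ Pd R ∧ τ p 1 ≠ 0 ∧ f (piW A N (τ p)) = 0 ∧
          coordDeriv f 0 (piW A N (τ p)) ≠ 0 ∧ a (τ p 1, τ p 2) ≠ 0) →
        (∀ x, {p | p ∈ U ∧ τ p = x}.encard ≤ N') →
        ∫⁻ p in U, ENNReal.ofReal (‖V (τ p) - S (τ p)‖ ^ 2 * Real.exp (-Φ (τ p)) *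
          den2 f (fun q => piW A N (τ q)) p) ≤ N' * (2 * K) := by
  set O' : ι → Set (ℂ × ℂ) := fun c => O c ∩ θ c ⁻¹' (Pd R) with hO'
  have hO'o : ∀ c, IsOpen (O' c) := fun c =>
    (hθ c).continuousOn.isOpen_inter_preimage (hO c) (isOpen_Pd R)
  have hdθ : ∀ c, ∀ p ∈ O c, DifferentiableAt ℂ (θ c) p := fun c p hp =>
    (hθ c).differentiableAt ((hO c).mem_nhds hp)
  have hθ1 : ∀ c, ∀ p ∈ O c, DifferentiableAt ℂ (fun q => θ c q 1 ^ (N - 1)) p := fun c p hp =>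
    (((ContinuousLinearMap.proj (R := ℂ) (φ := fun _ : Fin 3 => ℂ) 1).differentiableAt.comp p
      (hdθ c p hp))).pow _
  have hden : ∀ c, ∀ p ∈ O' c, den2 f (fun q => piW A N (θ c q)) p =
      cA A N * ((‖θ c p 1‖ ^ (N - 1)) ^ 2 * den2 (hW f A N) (θ c) p) := fun c p hp =>
    den_piW (hdθ c p hp.1) (hf _ hp.2)
  have hcA := cA_pos (A := A) hN
  -- the new data
  set S' : E3 → ℂ := fun u => u 1 ^ (N - 1) * S u with hS'
  set κ' : ι → ℂ × ℂ → ℝ := fun c => fun p =>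
    (O' c).indicator (fun q => (‖θ c q 1‖ ^ (N - 1)) ^ 2) p * κ c p with hκ'
  have hfd : DifferentiableOn ℂ (hW f A N) (Pd R) := fun u hu =>
    ((hf u hu).comp u (diff_piW u)).differentiableWithinAt
  have hda : DifferentiableOn ℂ (fun q : ℂ × ℂ => q.1 * a q) {q | ‖q.1‖ < R 1 ∧ ‖q.2‖ < R 2} :=
    differentiable_fst.differentiableOn.mul ha
  have hbo : IsOpen {q : ℂ × ℂ | ‖q.1‖ < R 1 ∧ ‖q.2‖ < R 2} :=
    (isOpen_lt continuous_fst.norm continuous_const).inter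
      (isOpen_lt continuous_snd.norm continuous_const)
  have hda0 : ∃ q : ℂ × ℂ, ‖q.1‖ < R 1 ∧ ‖q.2‖ < R 2 ∧ q.1 * a q ≠ 0 := by
    obtain ⟨q, hq1, hq2, hq3⟩ := ha0
    have hev : ∀ᶠ x in 𝓝 q, (‖x.1‖ < R 1 ∧ ‖x.2‖ < R 2) ∧ a x ≠ 0 := by
      filter_upwards [hbo.mem_nhds (show q ∈ {q : ℂ × ℂ | ‖q.1‖ < R 1 ∧ ‖q.2‖ < R 2} from
        ⟨hq1, hq2⟩), (ha.continuousOn.continuousAt
          (hbo.mem_nhds ⟨hq1, hq2⟩)).eventually_ne hq3] with x hx1 hx2 using ⟨hx1, hx2⟩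
    have ht : Tendsto (fun t : ℂ => (q.1 + t, q.2)) (𝓝 0) (𝓝 q) := by
      have : Continuous fun t : ℂ => (q.1 + t, q.2) := by fun_prop
      simpa using this.tendsto 0
    have h2 : ∀ᶠ t : ℂ in 𝓝 0, t ≠ 0 → q.1 + t ≠ 0 ∨ q.1 ≠ 0 := by
      refine Eventually.of_forall fun t ht => ?_
      by_cases h : q.1 = 0
      · left; rw [h, zero_add]; exact ht
      · right; exact h
    by_cases h : q.1 = 0
    · obtain ⟨t, ⟨⟨ht1, ht2⟩, ht3⟩, ht4⟩ :=
        ((ht.eventually hev).filter_mono nhdsWithin_le_nhds |>.and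
          (self_mem_nhdsWithin (a := (0 : ℂ)) (s := {0}ᶜ))).exists
      refine ⟨(q.1 + t, q.2), ht1, ht2, mul_ne_zero ?_ ht3⟩
      show q.1 + t ≠ 0
      rw [h, zero_add]
      exact ht4
    · exact ⟨q, hq1, hq2, mul_ne_zero h hq3⟩
  have hh1 : ∃ x ∈ Pd R, coordDeriv (hW f A N) 0 x ≠ 0 := by
    obtain ⟨u, hu, hu1⟩ := h1
    exact ⟨u, hu, by rwa [cd_hW (hf u hu)]⟩
  have hS'c : ∀ c, S' ∘ θ c = fun q => θ c q 1 ^ (N - 1) * (S ∘ θ c) q := fun c => rfl
  obtain ⟨G, hG, hGb⟩ := ho2 (f := hW f A N) hfd hda hda0 hh1 (O := O') hO'o (θ := θ)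
    (fun c => (hθ c).mono inter_subset_left) (fun c p hp => hz c p hp.1)
    (fun c p hp => hJ c p hp.1)
    (by
      intro x hx hx0 hx1 hxa
      rw [cd_hW (hf x hx)] at hx1
      obtain ⟨c, p, hp, hpx⟩ := hcov x hx (left_ne_zero_of_mul hxa) hx0 hx1
        (right_ne_zero_of_mul hxa)
      exact ⟨c, p, ⟨hp, by show θ c p ∈ Pd R; rw [hpx]; exact hx⟩, hpx⟩)
    (Φ := Φ) (S := S') (κ := κ') (fun c p hp => hΦ c p hp.1)
    (by
      intro c p hp
      rw [hS'c]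
      have h2 : ContDiffAt ℂ (⊤ : ℕ∞) (θ c) p :=
        ((R266.SCV.analyticOnNhd_of_differentiableOn (hO c) (hθ c)) p hp.1).contDiffAt
      have h3 : ContDiffAt ℂ (⊤ : ℕ∞) (fun q => θ c q 1 ^ (N - 1)) p :=
        ((ContinuousLinearMap.proj (R := ℂ) (φ := fun _ : Fin 3 => ℂ) 1).contDiff.contDiffAt.comp
          p h2).pow _
      exact (h3.restrict_scalars ℝ).mul (hS c p hp.1))
    (fun c p hp => hL c p hp.1)
    (by
      intro c p
      refine mul_nonneg (Set.indicator_nonneg (fun q _ => by positivity) p) (hκ0 c p))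
    (by
      intro c
      refine Measurable.mul (meas_ind (hO'o c) ?_) (hκm c)
      exact ((((continuous_apply 1).comp_continuousOn
        ((hθ c).continuousOn.mono inter_subset_left)).norm).pow _).pow _)
    (by
      intro c p hp w
      have h2 : dbE (S' ∘ θ c) p w = θ c p 1 ^ (N - 1) * dbE (S ∘ θ c) p w := by
        rw [hS'c]
        exact dbE_mul (hθ1 c p hp.1) ((hS c p hp.1).differentiableAt (by simp)) w
      rw [h2, norm_mul, mul_pow, norm_pow]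
      have h3 : κ' c p = (‖θ c p 1‖ ^ (N - 1)) ^ 2 * κ c p := by
        simp only [hκ']
        rw [Set.indicator_of_mem hp]
      rw [h3, mul_assoc]
      exact mul_le_mul_of_nonneg_left (hk c p hp.1 w) (by positivity))
    (C := C) (fun c p hp => hC c p hp.1) (K := ENNReal.ofReal (cA A N)⁻¹ * K)
    (ENNReal.mul_ne_top ENNReal.ofReal_ne_top hKt)
    (by
      refine le_trans ?_ (mul_le_mul' (le_refl (ENNReal.ofReal (cA A N)⁻¹)) hK)
      rw [← ENNReal.tsum_mul_left]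
      refine ENNReal.tsum_le_tsum fun c => ?_
      refine le_trans ?_ (mul_le_mul' le_rfl (lintegral_mono_set
        (inter_subset_left : O' c ⊆ O c)))
      rw [← lintegral_const_mul' _ _ ENNReal.ofReal_ne_top]
      refine (setLIntegral_congr_fun (hO'o c).measurableSet fun p hp => ?_).le
      rw [← ENNReal.ofReal_mul (by positivity), hden c p hp]
      congr 1
      have h3 : κ' c p = (‖θ c p 1‖ ^ (N - 1)) ^ 2 * κ c p := by
        simp only [hκ']
        rw [Set.indicator_of_mem hp]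
      rw [h3]
      field_simp)
    (by
      refine ne_top_of_le_ne_top (ENNReal.mul_ne_top ENNReal.ofReal_ne_top hSi)
        (b := ENNReal.ofReal (cA A N)⁻¹ * _) ?_
      rw [← ENNReal.tsum_mul_left]
      refine ENNReal.tsum_le_tsum fun c => ?_
      refine le_trans ?_ (mul_le_mul' le_rfl (lintegral_mono_set
        (inter_subset_left : O' c ⊆ O c)))
      rw [← lintegral_const_mul' _ _ ENNReal.ofReal_ne_top]
      refine (setLIntegral_congr_fun (hO'o c).measurableSet fun p hp => ?_).le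
      rw [← ENNReal.ofReal_mul (by positivity), hden c p hp]
      congr 1
      show ‖θ c p 1 ^ (N - 1) * S (θ c p)‖ ^ 2 * _ = _
      rw [norm_mul, norm_pow]
      field_simp)
  obtain ⟨g₁, hg₁, hg₁e⟩ := descend hN hR hG
  set V : E3 → ℂ := fun u => G u / u 1 ^ (N - 1) with hV
  set L : E3 → E3 := fun x => ![x 0, (A.symm (x 1, x 2)).1, (A.symm (x 1, x 2)).2] with hL'
  refine ⟨fun x => g₁ (L x), G, V, hG, fun u => rfl, ?_, ?_, ?_⟩
  · have hLd : AnalyticAt ℂ L 0 := by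
      have hd : Differentiable ℂ L := by
        intro x
        refine differentiableAt_pi.2 fun i => ?_
        have h2 : DifferentiableAt ℂ (fun x : E3 => A.symm (x 1, x 2)) x := by
          refine A.symm.differentiable.differentiableAt.comp x ?_
          exact (diff_co 1 x).prodMk (diff_co 2 x)
        fin_cases i
        · exact diff_co 0 x
        · exact h2.fst
        · exact h2.snd
      exact (R266.SCV.analyticOnNhd_of_differentiableOn isOpen_univ hd.differentiableOn) 0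
        (mem_univ _)
    have hL0 : L 0 = 0 := by
      have h2 : A.symm ((0 : E3) 1, (0 : E3) 2) = 0 := by
        show A.symm ((0, 0) : ℂ × ℂ) = 0
        exact map_zero _
      simp only [hL']
      rw [h2]
      funext i
      fin_cases i <;> rfl
    have h3 : AnalyticAt ℂ g₁ (L 0) := by
      rw [hL0]
      refine (R266.SCV.analyticOnNhd_of_differentiableOn (isOpen_Pd _) hg₁) 0 ?_
      rw [mem_Pd3]
      refine ⟨?_, ?_, ?_⟩
      · simpa [Rd] using hR 0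
      · simpa [Rd] using pow_pos (hR 1) N
      · simpa [Rd] using hR 2
    exact h3.comp hLd
  · intro u hu hu1
    have h2 : L (piW A N u) = ![u 0, u 1 ^ N, u 2] := by
      simp only [hL', piW]
      show ![u 0, (A.symm (A (u 1 ^ N, u 2))).1, (A.symm (A (u 1 ^ N, u 2))).2] = _
      rw [A.symm_apply_apply]
    show g₁ (L (piW A N u)) = _
    rw [h2, hg₁e u hu hu1]
    rfl
  · intro U τ N' hU hτ hτU hN'
    have h2 := hGb U τ N' hU hτ
      (fun p hp => by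
        obtain ⟨b1, b2, b3, b4, b5⟩ := hτU p hp
        exact ⟨b1, b3, by rwa [cd_hW (hf _ b1)], mul_ne_zero b2 b5⟩) hN'
    have h3 : ∫⁻ p in U, ENNReal.ofReal (‖V (τ p) - S (τ p)‖ ^ 2 * Real.exp (-Φ (τ p)) *
        den2 f (fun q => piW A N (τ q)) p) = ENNReal.ofReal (cA A N) *
        ∫⁻ p in U, ENNReal.ofReal (‖G (τ p) - S' (τ p)‖ ^ 2 * Real.exp (-Φ (τ p)) *
          den2 (hW f A N) τ p) := by
      rw [← lintegral_const_mul' _ _ ENNReal.ofReal_ne_top]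
      refine setLIntegral_congr_fun hU.measurableSet fun p hp => ?_
      obtain ⟨b1, b2, b3, b4, b5⟩ := hτU p hp
      rw [← ENNReal.ofReal_mul hcA.le, den_piW (hτ.differentiableAt (hU.mem_nhds hp)) (hf _ b1)]
      congr 1
      have h4 : G (τ p) - S' (τ p) = τ p 1 ^ (N - 1) * (V (τ p) - S (τ p)) := by
        simp only [hV, hS']
        have := pow_ne_zero (N - 1) b2
        field_simp
      rw [h4, norm_mul, norm_pow]
      ring
    rw [h3]
    refine (mul_le_mul' le_rfl h2).trans (le_of_eq ?_)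
    have h5 : ENNReal.ofReal (cA A N) * ENNReal.ofReal (cA A N)⁻¹ = 1 := by
      rw [← ENNReal.ofReal_mul hcA.le, mul_inv_cancel₀ hcA.ne', ENNReal.ofReal_one]
    calc ENNReal.ofReal (cA A N) * (↑N' * (2 * (ENNReal.ofReal (cA A N)⁻¹ * K)))
        = (ENNReal.ofReal (cA A N) * ENNReal.ofReal (cA A N)⁻¹) * (N' * (2 * K)) := by ring
      _ = _ := by rw [h5, one_mul]

end Crest.Agent.R257.HoH_843
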