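import Mathlib
import Crest.Agent.R257.TDefs_387
import Crest.Agent.R257.T1_387
import Crest.Agent.R257.T2_387
import Crest.Agent.R257.Sh10_297
import Crest.Agent.R257.CNS_939

/-!
Row 257 (S0395), part C, T-frame, file 0: the base data exist for every isolated germ (helper387).
-/

set_option autoImplicit false
set_option linter.unusedSectionVars false

open Polynomial Set Filter Topology Metric MeasureTheory
open Crest.AlgGeometry.Germ Crest.Agent.R257.AJ387 Crest.Agent.R257.Defs_219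
open Crest.Agent.R257.Sh_297 Crest.Agent.R257.T387

noncomputable section

namespace Crest.Agent.R257.T0_387

/-- `pt` as a linear map -/
def ptL : (ℂ × ℂ) × ℂ →L[ℂ] (Fin 3 → ℂ) :=
  ContinuousLinearMap.pi ![ContinuousLinearMap.snd ℂ (ℂ × ℂ) ℂ,
    (ContinuousLinearMap.fst ℂ ℂ ℂ).comp (ContinuousLinearMap.fst ℂ (ℂ × ℂ) ℂ),
    (ContinuousLinearMap.snd ℂ ℂ ℂ).comp (ContinuousLinearMap.fst ℂ (ℂ × ℂ) ℂ)]

lemma ptL_apply (q : ℂ × ℂ) (z : ℂ) : ptL (q, z) = pt z q := by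
  funext i
  fin_cases i <;> rfl

lemma pt_surj (x : Fin 3 → ℂ) : ptL ((x 1, x 2), x 0) = x := by
  rw [ptL_apply]
  funext i
  fin_cases i <;> rfl

lemma pt_cons (z : ℂ) : pt z 0 = (Fin.cons z 0 : E3) := by
  funext i
  fin_cases i <;> rfl

lemma an_coordDeriv {n : ℕ} {f : (Fin n → ℂ) → ℂ} {x : Fin n → ℂ} (hf : AnalyticAt ℂ f x)
    (j : Fin n) : AnalyticAt ℂ (coordDeriv f j) x :=
  ((ContinuousLinearMap.apply ℂ ℂ (Pi.single j 1 : Fin n → ℂ)).analyticAt _).comp hf.fderiv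

/-- the critical point of an isolated germ is isolated -/
theorem isolated {f : E3 → ℂ} (hf : AnalyticAt ℂ f 0) (hfin : ColFin (par f)) :
    ∀ᶠ x in 𝓝 (0 : E3), (∀ j, coordDeriv f j x = 0) → x = 0 := by
  have h := UI939.cnStmt 3 (fun j (q : E3 × ℂ) => coordDeriv f j q.1) (fun j => by
      have h1 := an_coordDeriv hf j
      exact AnalyticAt.comp (g := coordDeriv f j) (f := fun q : E3 × ℂ => q.1)
        (x := ((0, 0) : E3 × ℂ)) h1 ((ContinuousLinearMap.fst ℂ E3 ℂ).analyticAt _))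
    hfin (Frequently.of_forall fun t => le_rfl)
  have h2 : Tendsto (fun x : E3 => (x, (0 : ℂ))) (𝓝 0) (𝓝 ((0 : E3), (0 : ℂ))) := by
    have : Continuous (fun x : E3 => (x, (0 : ℂ))) := by fun_prop
    exact this.tendsto' _ _ rfl
  exact h2.eventually h


lemma Wf_zero {Y : Type*} [NormedAddCommGroup Y] [NormedSpace ℂ Y] {w : ℕ → Y → ℂ} {d : ℕ} {y : Y}
    (h1 : w d y = 1) (h0 : ∀ j < d, w j y = 0) (z : ℂ) : Wf w d y z = z ^ d := by
  unfold Wf
  rw [Finset.sum_range_succ, h1, one_mul, Finset.sum_eq_zero, zero_add]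
  intro j hj
  rw [h0 j (Finset.mem_range.1 hj), zero_mul]

lemma Wp_monic {Y : Type*} [NormedAddCommGroup Y] [NormedSpace ℂ Y] [FiniteDimensional ℂ Y] {w : ℕ → Y → ℂ} {d : ℕ} {y : Y}
    (h1 : w d y = 1) : (Wp w d y).Monic ∧ (Wp w d y).natDegree = d := by
  have hm : (Wp w d y).Monic := by
    refine monic_of_natDegree_le_of_coeff_eq_one d (degree_Wp_le w d y) ?_
    rw [coeff_Wp, if_pos (Nat.lt_succ_self d), h1]
  refine ⟨hm, le_antisymm (degree_Wp_le w d y) (le_natDegree_of_ne_zero ?_)⟩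
  rw [coeff_Wp, if_pos (Nat.lt_succ_self d), h1]
  exact one_ne_zero

/-- order of a function which vanishes at `0` but not identically -/
lemma exists_order {g : ℂ → ℂ} (hg : AnalyticAt ℂ g 0) (h0 : g 0 = 0)
    (hne : ¬ ∀ᶠ z in 𝓝 (0 : ℂ), g z = 0) : ∃ n : ℕ, 0 < n ∧ analyticOrderAt g 0 = n ∧
      ∃ u : ℂ → ℂ, AnalyticAt ℂ u 0 ∧ u 0 ≠ 0 ∧ ∀ᶠ z in 𝓝 (0 : ℂ), g z = z ^ n * u z := by
  have h1 : analyticOrderAt g 0 ≠ ⊤ := fun h => hne (analyticOrderAt_eq_top.1 h)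
  obtain ⟨n, hn⟩ := ENat.ne_top_iff_exists.1 h1
  obtain ⟨u, hu, hu0, hgu⟩ := hg.analyticOrderAt_eq_natCast.1 hn.symm
  refine ⟨n, Nat.pos_of_ne_zero ?_, hn.symm, u, hu, hu0, ?_⟩
  · rintro rfl
    have h2 := hgu.self_of_nhds
    rw [h0] at h2
    simp at h2
    exact hu0 h2.symm
  · filter_upwards [hgu] with z hz
    rw [hz, sub_zero, smul_eq_mul]

/-- the Weierstrass polynomial of an isolated germ, with generically simple roots -/
theorem exists_weier {f : E3 → ℂ} (hf : Iso f) : ∃ (d : ℕ) (w : ℕ → ℂ × ℂ → ℂ)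
    (v : (ℂ × ℂ) × ℂ → ℂ) (R rz : ℝ), 2 ≤ d ∧ 0 < R ∧ 0 < rz ∧ (∀ y, w d y = 1) ∧
      (∀ j < d, w j 0 = 0) ∧ (∀ q ∈ ball (0 : ℂ × ℂ) R, ∀ j, AnalyticAt ℂ (w j) q) ∧
      (∀ q ∈ ball (0 : ℂ × ℂ) R, ∀ z, ‖z‖ ≤ rz → AnalyticAt ℂ f (pt z q) ∧ AnalyticAt ℂ v (q, z) ∧
        v (q, z) ≠ 0 ∧ f (pt z q) = v (q, z) * Wf w d q z) ∧
      (∀ q ∈ ball (0 : ℂ × ℂ) R, ∀ z, Wf w d q z = 0 → ‖z‖ < rz) ∧
      ∃ q ∈ ball (0 : ℂ × ℂ) R, Dsc w d q ≠ 0 := by
  let F : (ℂ × ℂ) × ℂ → ℂ := fun p => f (pt p.2 p.1)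
  have hFf : F = fun p => f (ptL p) := by
    funext p
    show f (pt p.2 p.1) = f (ptL p)
    rw [← ptL_apply]
  have hFan : ∀ p, AnalyticAt ℂ f (ptL p) → AnalyticAt ℂ F p := fun p hp => by
    rw [hFf]
    exact hp.comp (ptL.analyticAt p)
  have hpt0 : pt 0 0 = (0 : E3) := by
    rw [pt_cons]; funext i; refine Fin.cases ?_ (fun j => ?_) i <;> simp
  have hL0 : ptL ((0 : ℂ × ℂ), (0 : ℂ)) = 0 := by rw [ptL_apply]; exact hpt0
  have hF0 : AnalyticAt ℂ F ((0 : ℂ × ℂ), (0 : ℂ)) := hFan _ (by rw [hL0]; exact hf.an)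
  have hFz : AnalyticAt ℂ (fun z : ℂ => F (0, z)) 0 :=
    AnalyticAt.comp (g := F) (f := fun z : ℂ => ((0 : ℂ × ℂ), z)) (x := 0) hF0
      (analyticAt_const.prod analyticAt_id)
  have hFz0 : F (0, 0) = 0 := by show f (pt 0 0) = 0; rw [hpt0]; exact hf.zero
  obtain ⟨d, hd0, hord, u, hu, hu0, hFu⟩ := exists_order hFz hFz0 (by
    intro h
    obtain ⟨z, hz1, hz2⟩ := (hf.reg.and_eventually (h.filter_mono nhdsWithin_le_nhds)).exists
    apply hz1
    rw [← pt_cons]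
    exact hz2)
  have hd2 : 2 ≤ d := by
    by_contra hcon
    have hd1 : d = 1 := by omega
    subst hd1
    have h1 : HasDerivAt (fun z : ℂ => F (0, z)) (u 0) 0 := by
      have h2 := (hasDerivAt_id (0 : ℂ)).mul hu.differentiableAt.hasDerivAt
      simp only [id, one_mul, zero_mul, add_zero] at h2
      refine h2.congr_of_eventuallyEq (hFu.mono fun z hz => ?_)
      show F (0, z) = z * u z
      rw [hz, pow_one]
    have h3 : HasDerivAt (fun z : ℂ => F (0, z)) (coordDeriv f 0 0) 0 := by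
      have h4 : HasFDerivAt f (fderiv ℂ f 0) (ptL ((0 : ℂ × ℂ), (0 : ℂ))) := by
        rw [hL0]; exact hf.an.differentiableAt.hasFDerivAt
      have h5 : HasDerivAt (fun z : ℂ => ptL ((0 : ℂ × ℂ), z)) (Pi.single 0 1 : Fin 3 → ℂ) 0 := by
        have h6 : HasDerivAt (fun z : ℂ => ((0 : ℂ × ℂ), z)) ((0 : ℂ × ℂ), (1 : ℂ)) 0 :=
          (hasDerivAt_const (0 : ℂ) (0 : ℂ × ℂ)).prodMk (hasDerivAt_id 0)
        have h7 := (ptL.hasFDerivAt (x := ((0 : ℂ × ℂ), (0 : ℂ)))).comp_hasDerivAt (0 : ℂ) h6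
        have h9 : ptL ((0 : ℂ × ℂ), (1 : ℂ)) = (Pi.single 0 1 : Fin 3 → ℂ) := by
          rw [ptL_apply]
          funext i
          fin_cases i <;> rfl
        rw [h9] at h7
        exact h7
      have h8 := h4.comp_hasDerivAt (0 : ℂ) h5
      rw [hFf]
      exact h8
    rw [hf.crit 0] at h3
    exact hu0 (h1.unique h3)
  obtain ⟨w, v, hwa, hw1, hw0, hwz, hv, hv0, hFe⟩ := exists_wpoly (y₀ := (0 : ℂ × ℂ)) hF0 hord
  have hptc : Tendsto ptL (𝓝 ((0 : ℂ × ℂ), (0 : ℂ))) (𝓝 0) := by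
    have := ptL.continuous.tendsto ((0 : ℂ × ℂ), (0 : ℂ))
    rwa [hL0] at this
  have hev : ∀ᶠ p in 𝓝 (((0 : ℂ × ℂ), (0 : ℂ)) : (ℂ × ℂ) × ℂ), AnalyticAt ℂ f (ptL p) ∧
      AnalyticAt ℂ v p ∧ v p ≠ 0 ∧ F p = v p * Wf w d p.1 p.2 ∧
      ((∀ j, coordDeriv f j (ptL p) = 0) → ptL p = 0) := by
    filter_upwards [hptc.eventually hf.an.eventually_analyticAt, hv.eventually_analyticAt,
      hv.continuousAt.eventually_ne hv0, hFe, hptc.eventually (isolated hf.an hf.fin)]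
      with p h1 h2 h3 h4 h5 using ⟨h1, h2, h3, h4, h5⟩
  obtain ⟨ε, hε, hεb⟩ := Metric.eventually_nhds_iff_ball.1 hev
  set rz : ℝ := ε / 2 with hrz
  have hrz0 : 0 < rz := by positivity
  have hw2 : ∀ᶠ y in 𝓝 (0 : ℂ × ℂ), ∀ j ∈ Finset.range d, ‖w j y‖ < rz ^ (d - j) / (d + 1) := by
    refine (Finset.eventually_all _).2 fun j hj => ?_
    rw [Finset.mem_range] at hj
    refine (hwa j).continuousAt.norm.tendsto.eventually (gt_mem_nhds ?_)
    rw [hw0 j hj, norm_zero]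
    positivity
  have hw3 : ∀ᶠ y in 𝓝 (0 : ℂ × ℂ), ∀ j ∈ Finset.range (d + 1), AnalyticAt ℂ (w j) y :=
    (Finset.eventually_all _).2 fun j _ => (hwa j).eventually_analyticAt
  obtain ⟨δ₁, hδ₁, hδ₁b⟩ := Metric.eventually_nhds_iff_ball.1 (hw2.and hw3)
  have han : ∀ y ∈ ball (0 : ℂ × ℂ) δ₁, ∀ j, AnalyticAt ℂ (w j) y := by
    intro y hy j
    rcases lt_or_ge d j with h | h
    · rw [hwz j h]; exact analyticAt_const
    · exact (hδ₁b y hy).2 j (Finset.mem_range.2 (by omega))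
  set R : ℝ := min δ₁ (ε / 2) with hR
  have hR0 : 0 < R := by positivity
  have hmem : ∀ q ∈ ball (0 : ℂ × ℂ) R, ∀ z : ℂ, ‖z‖ ≤ rz →
      (q, z) ∈ ball (((0 : ℂ × ℂ), (0 : ℂ)) : (ℂ × ℂ) × ℂ) ε := by
    intro y hy z hz
    rw [mem_ball, Prod.dist_eq, max_lt_iff]
    have h1 : dist y 0 < R := hy
    have h3 : R ≤ ε / 2 := min_le_right _ _
    constructor
    · exact h1.trans_le (by linarith)
    · show dist z 0 < ε
      rw [dist_zero_right]; linarith
  have hroots : ∀ q ∈ ball (0 : ℂ × ℂ) R, ∀ z, Wf w d q z = 0 → ‖z‖ < rz := by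
    intro q hq z hz
    exact root_bound (hw1 q) hrz0 (fun j hj => (hδ₁b q (ball_subset_ball (min_le_left _ _) hq)).1 j
      (Finset.mem_range.2 hj)) hz
  refine ⟨d, w, v, R, rz, hd2, hR0, hrz0, hw1, fun j hj => hw0 j hj,
    fun q hq j => han q (ball_subset_ball (min_le_left _ _) hq) j, fun q hq z hz => ?_, hroots, ?_⟩
  · obtain ⟨h1, h2, h3, h4, -⟩ := hεb _ (hmem q hq z hz)
    rw [ptL_apply] at h1
    exact ⟨h1, h2, h3, h4⟩
  · have hS := ae_simple ((volume : Measure ℂ).prod (volume : Measure ℂ))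
      (V := ball (((0 : ℂ × ℂ), (0 : ℂ)) : (ℂ × ℂ) × ℂ) ε) isOpen_ball (f := F)
      (fun p hp => hFan p (hεb p hp).1) (by
        intro p hp hp0 _ hfd
        obtain ⟨h1, -, -, -, h5⟩ := hεb p hp
        have h6 : fderiv ℂ F p = (fderiv ℂ f (ptL p)).comp ptL := by
          rw [hFf]
          have := fderiv_comp p h1.differentiableAt ptL.differentiableAt
          rw [ContinuousLinearMap.fderiv] at this
          exact this
        have h7 : ptL p = 0 := h5 fun j => by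
          show fderiv ℂ f (ptL p) (Pi.single j 1) = 0
          have h8 : (Pi.single j 1 : Fin 3 → ℂ) = ptL (((Pi.single j 1 : Fin 3 → ℂ) 1,
            (Pi.single j 1 : Fin 3 → ℂ) 2), (Pi.single j 1 : Fin 3 → ℂ) 0) := (pt_surj _).symm
          rw [h8]
          have h9 := congrArg (fun L => L (((Pi.single j 1 : Fin 3 → ℂ) 1,
            (Pi.single j 1 : Fin 3 → ℂ) 2), (Pi.single j 1 : Fin 3 → ℂ) 0)) h6
          rw [hfd] at h9
          exact h9.symm
        apply hp0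
        obtain ⟨⟨a, b⟩, c⟩ := p
        rw [ptL_apply] at h7
        have e0 := congrFun h7 0
        have e1 := congrFun h7 1
        have e2 := congrFun h7 2
        simp only [pt, Matrix.cons_val_zero, Matrix.cons_val_one, Matrix.cons_val, Pi.zero_apply]
          at e0 e1 e2
        rw [e0, e1, e2]
        rfl)
    have hex : ∃ q ∈ ball (0 : ℂ × ℂ) R, ∀ z, (q, z) ∈ ball (((0 : ℂ × ℂ), (0 : ℂ)) : (ℂ × ℂ) × ℂ) ε →
        F (q, z) = 0 → vd F (q, z) ≠ 0 := by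
      by_contra hcon
      push Not at hcon
      have h1 : ball (0 : ℂ × ℂ) R ⊆ {q | ¬ ∀ z, (q, z) ∈ ball (((0 : ℂ × ℂ), (0 : ℂ)) :
          (ℂ × ℂ) × ℂ) ε → F (q, z) = 0 → vd F (q, z) ≠ 0} := by
        intro q hq h
        obtain ⟨z, h2, h3, h4⟩ := hcon q hq
        exact h z h2 h3 h4
      have h2 := measure_mono_null h1 (ae_iff.1 hS)
      exact absurd h2 (measure_ball_pos _ _ hR0).ne'
    obtain ⟨q, hq, hqs⟩ := hex
    refine ⟨q, hq, (Dsc_ne_zero_iff (hw1 q)).2 fun z hz => ?_⟩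
    have hm := hmem q hq z (hroots q hq z hz).le
    obtain ⟨h1, h2, h3, h4, -⟩ := hεb _ hm
    have h5 : F (q, z) = 0 := by rw [h4]; show v (q, z) * Wf w d q z = 0; rw [hz, mul_zero]
    have h6 := hqs z hm h5
    have h7 : HasDerivAt (fun z => v (q, z)) (deriv (fun z => v (q, z)) z) z := by
      have h8 : DifferentiableAt ℂ (fun z : ℂ => ((q, z) : (ℂ × ℂ) × ℂ)) z :=
        (differentiableAt_const q).prodMk differentiableAt_id
      exact (h2.differentiableAt.comp z h8).hasDerivAt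
    have h8 := h7.mul (hasDerivAt_Wf w d q z)
    rw [hz, mul_zero, zero_add] at h8
    have h9 : (fun z => F (q, z)) =ᶠ[𝓝 z] fun z => v (q, z) * Wf w d q z := by
      have h10 : ∀ᶠ z' in 𝓝 z, (q, z') ∈ ball (((0 : ℂ × ℂ), (0 : ℂ)) : (ℂ × ℂ) × ℂ) ε :=
        (isOpen_ball.preimage (by fun_prop : Continuous fun z' : ℂ =>
          ((q, z') : (ℂ × ℂ) × ℂ))).mem_nhds hm
      filter_upwards [h10] with z' hz'
      exact (hεb _ hz').2.2.2.1
    have h10 : vd F (q, z) = v (q, z) * (Wp w d q).derivative.eval z :=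
      (h8.congr_of_eventuallyEq h9).deriv
    intro h11
    rw [h10, h11, mul_zero] at h6
    exact h6 rfl

/-- **the base data exist** -/
theorem exists_TB {f : E3 → ℂ} (hf : Iso f) : Nonempty (TB f) := by
  classical
  obtain ⟨d, w, v, R₂, rz, hd2, hR₂, hrz, hw1, hw0, hwa, hfv, hroots, q₀, hq₀, hDq₀⟩ :=
    exists_weier hf
  set D : ℂ × ℂ → ℂ := Dsc w d with hD
  have hDan : ∀ q ∈ ball (0 : ℂ × ℂ) R₂, AnalyticAt ℂ D q := fun q hq => Dsc_analytic (hwa q hq)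
  have hD0 : D 0 = 0 := by
    by_contra h
    have h1 := (Dsc_ne_zero_iff (hw1 0)).1 h 0 (by
      rw [Wf_zero (hw1 0) hw0, zero_pow (by omega)])
    apply h1
    have h2 : Wp w d 0 = X ^ d := by
      apply Polynomial.funext
      intro z
      rw [eval_Wp, Wf_zero (hw1 0) hw0, eval_pow, eval_X]
    rw [h2, derivative_X_pow, eval_mul, eval_pow, eval_X, zero_pow (by omega), mul_zero]
  have hq₀0 : q₀ ≠ 0 := fun h => hDq₀ (by rw [h]; exact hD0)
  -- the rotation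
  obtain ⟨A, hA⟩ := SeparatingDual.exists_continuousLinearEquiv_apply_eq (R := ℂ)
    (x := ((0 : ℂ), (1 : ℂ))) (y := q₀) (by simp) hq₀0
  set G : ℂ × ℂ → ℂ := fun p => D (A p) with hG
  have hA0 : A 0 = 0 := map_zero A
  have hR₂A : ∀ᶠ p in 𝓝 ((0 : ℂ), (0 : ℂ)), A p ∈ ball (0 : ℂ × ℂ) R₂ := by
    have h1 : Tendsto A (𝓝 ((0 : ℂ), (0 : ℂ))) (𝓝 (A ((0 : ℂ), (0 : ℂ)))) :=
      A.continuous.tendsto _
    have h2 : A ((0 : ℂ), (0 : ℂ)) = 0 := hA0
    rw [h2] at h1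
    exact h1.eventually (ball_mem_nhds 0 hR₂)
  have hGan : ∀ p, A p ∈ ball (0 : ℂ × ℂ) R₂ → AnalyticAt ℂ G p := fun p hp =>
    (hDan _ hp).comp (A.toContinuousLinearMap.analyticAt p)
  have hG0 : AnalyticAt ℂ G ((0 : ℂ), (0 : ℂ)) := hGan _ hR₂A.self_of_nhds
  have hAy : ∀ y : ℂ, A ((0 : ℂ), y) = y • q₀ := fun y => by
    rw [← hA, ← map_smul]
    congr 1
    simp
  have hGy : AnalyticAt ℂ (fun y : ℂ => G (0, y)) 0 :=
    AnalyticAt.comp (g := G) (f := fun y : ℂ => ((0 : ℂ), y)) (x := 0) hG0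
      (analyticAt_const.prod analyticAt_id)
  obtain ⟨n, hn0, hord, -⟩ := exists_order hGy (by
      show D (A ((0 : ℂ), (0 : ℂ))) = 0
      rw [hAy, zero_smul]; exact hD0) (by
    intro h
    have hq₀n : 0 < ‖q₀‖ := norm_pos_iff.2 hq₀0
    have hq₀R : ‖q₀‖ < R₂ := by simpa using hq₀
    have h1 : AnalyticOnNhd ℂ (fun y : ℂ => G (0, y)) (ball 0 (R₂ / ‖q₀‖)) := by
      intro y hy
      have h2 : A ((0 : ℂ), y) ∈ ball (0 : ℂ × ℂ) R₂ := by
        rw [hAy, mem_ball, dist_zero_right, norm_smul]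
        rw [mem_ball, dist_zero_right, lt_div_iff₀ hq₀n] at hy
        exact hy
      exact AnalyticAt.comp (g := G) (f := fun y : ℂ => ((0 : ℂ), y)) (hGan _ h2)
        (analyticAt_const.prod analyticAt_id)
    have h2 := h1.eqOn_zero_of_preconnected_of_eventuallyEq_zero
      (convex_ball (0 : ℂ) (R₂ / ‖q₀‖)).isPreconnected (mem_ball_self (by positivity)) h
    have h3 : (1 : ℂ) ∈ ball (0 : ℂ) (R₂ / ‖q₀‖) := by
      rw [mem_ball, dist_zero_right, norm_one, one_lt_div hq₀n]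
      exact hq₀R
    have h4 := h2 h3
    apply hDq₀
    simp only [hG, hAy, one_smul, Pi.zero_apply] at h4
    exact h4)
  obtain ⟨w', v', hwa', hw1', hw0', hwz', hv', hv0', hGe⟩ := exists_wpoly (y₀ := (0 : ℂ)) hG0 hord
  have hQm : ∀ x : ℂ, (Wp w' n x).Monic ∧ (Wp w' n x).natDegree = n := fun x => Wp_monic (hw1' x)
  obtain ⟨m, N₀, r, φ, hN₀, hr, hφan, hφroot, hφinj⟩ := puiseux (n := n) (Q := Wp w' n)
    (Eventually.of_forall hQm) (fun j => by
      simp_rw [coeff_Wp]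
      split_ifs
      · exact hwa' j
      · exact analyticAt_const)
  have h0r : (0 : ℂ) ∈ ball (0 : ℂ) r := mem_ball_self hr
  have hW0 : ∀ y, (Wp w' n (0 : ℂ)).eval y = y ^ n := fun y => by
    rw [eval_Wp, Wf_zero (hw1' 0) hw0']
  have hφ0 : ∀ i, φ i 0 = 0 := fun i => by
    have h1 := (hφroot 0 h0r (φ i 0)).2 ⟨i, rfl⟩
    rw [zero_pow hN₀.ne', hW0] at h1
    exact pow_eq_zero_iff hn0.ne' |>.1 h1
  have hm : 0 < m := by
    obtain ⟨i, -⟩ := (hφroot 0 h0r 0).1 (by rw [zero_pow hN₀.ne', hW0, zero_pow hn0.ne'])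
    exact lt_of_le_of_lt (Nat.zero_le _) i.2
  -- contact orders
  have hcon : ∀ i j, i ≠ j → ∃ δ : ℕ, 0 < δ ∧ ∃ u : ℂ → ℂ, AnalyticAt ℂ u 0 ∧ u 0 ≠ 0 ∧
      ∀ᶠ s in 𝓝 (0 : ℂ), φ i s - φ j s = s ^ δ * u s := by
    intro i j hij
    obtain ⟨δ, hδ, -, u, hu, hu0, he⟩ := exists_order
      ((hφan i 0 h0r).sub (hφan j 0 h0r)) (by simp [hφ0]) (by
        intro h
        have h1 : ∀ᶠ s in 𝓝[≠] (0 : ℂ), False := by
          filter_upwards [h.filter_mono nhdsWithin_le_nhds, self_mem_nhdsWithin,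
            nhdsWithin_le_nhds (ball_mem_nhds (0 : ℂ) hr)] with s h2 h3 h4
          exact hij (hφinj s h4 h3 (sub_eq_zero.1 h2))
        exact h1.exists.elim fun _ h => h)
    exact ⟨δ, hδ, u, hu, hu0, he⟩
  let del : Fin m → Fin m → ℕ := fun i j => if h : i ≠ j then (hcon i j h).choose else 1
  have hdel : ∀ i j (h : i ≠ j), del i j = (hcon i j h).choose := fun i j h => by
    simp only [del]; rw [dif_pos h]
  let u : Fin m → Fin m → ℂ → ℂ := fun i j =>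
    if h : i ≠ j then (hcon i j h).choose_spec.2.choose else fun _ => 1
  have hu : ∀ i j (h : i ≠ j), AnalyticAt ℂ (u i j) 0 ∧ u i j 0 ≠ 0 ∧
      ∀ᶠ s in 𝓝 (0 : ℂ), φ i s - φ j s = s ^ del i j * u i j s := fun i j h => by
    have h1 := (hcon i j h).choose_spec.2.choose_spec
    have h2 : u i j = (hcon i j h).choose_spec.2.choose := by simp only [u]; rw [dif_pos h]
    rw [h2, hdel i j h]
    exact h1
  -- the radius `R`
  have hGev : ∀ᶠ p in 𝓝 ((0 : ℂ), (0 : ℂ)), v' p ≠ 0 ∧ G p = v' p * Wf w' n p.1 p.2 :=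
    (hv'.continuousAt.eventually_ne hv0').and hGe
  obtain ⟨R, hR, hRb⟩ := TB.exists_BD (hR₂A.and hGev)
  -- the radius `ρ`
  have hρev : ∀ᶠ s in 𝓝 (0 : ℂ), ‖s ^ N₀‖ < R ∧ (∀ i, ‖φ i s‖ < R) ∧
      ∀ i j, i ≠ j → AnalyticAt ℂ (u i j) s ∧ u i j s ≠ 0 ∧
        φ i s - φ j s = s ^ del i j * u i j s := by
    refine Eventually.and ?_ (Eventually.and ?_ ?_)
    · have h1 : Tendsto (fun s : ℂ => ‖s ^ N₀‖) (𝓝 0) (𝓝 0) :=
        (by fun_prop : Continuous fun s : ℂ => ‖s ^ N₀‖).tendsto' _ _ (by simp [hN₀.ne'])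
      exact h1.eventually (gt_mem_nhds hR)
    · refine eventually_all.2 fun i => ?_
      have h1 := (hφan i 0 h0r).continuousAt.norm.tendsto
      simp only [hφ0, norm_zero] at h1
      exact h1.eventually (gt_mem_nhds hR)
    · refine eventually_all.2 fun i => eventually_all.2 fun j => ?_
      by_cases h : i = j
      · exact Eventually.of_forall fun s h' => absurd h h'
      · obtain ⟨h1, h2, h3⟩ := hu i j h
        filter_upwards [h1.eventually_analyticAt, h1.continuousAt.eventually_ne h2, h3]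
          with s e1 e2 e3 _ using ⟨e1, e2, e3⟩
  obtain ⟨ρ₁, hρ₁, hρb⟩ := Metric.eventually_nhds_iff_ball.1 hρev
  set ρ : ℝ := min (min ρ₁ r) 1 with hρdef
  have hρ : 0 < ρ := by positivity
  have hρ1 : ∀ s ∈ ball (0 : ℂ) ρ, s ∈ ball (0 : ℂ) ρ₁ := fun s hs =>
    ball_subset_ball ((min_le_left _ _).trans (min_le_left _ _)) hs
  have hρr : ∀ s ∈ ball (0 : ℂ) ρ, s ∈ ball (0 : ℂ) r := fun s hs =>
    ball_subset_ball ((min_le_left _ _).trans (min_le_right _ _)) hs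
  refine ⟨{
    A := A
    d := d
    P := fun q => Wp w d (A q)
    v := fun p => v (A p.1, p.2)
    R := R
    rz := rz
    R_pos := hR
    rz_pos := hrz
    d_pos := by omega
    monic := fun q _ => (Wp_monic (hw1 _)).1
    deg := fun q _ => (Wp_monic (hw1 _)).2
    coeff_an := ?_
    P_zero := ?_
    f_an := fun q hq z hz => (hfv _ (hRb hq).1 z hz).1
    v_an := ?_
    v_ne := fun q hq z hz => (hfv _ (hRb hq).1 z hz).2.2.1
    f_eq := fun q hq z hz => by rw [eval_Wp]; exact (hfv _ (hRb hq).1 z hz).2.2.2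
    roots_in := fun q hq z hz => by rw [eval_Wp] at hz; exact hroots _ (hRb hq).1 z hz
    N₀ := N₀
    N₀_pos := hN₀
    m := m
    m_pos := hm
    ρ := ρ
    ρ_pos := hρ
    ρ_le := min_le_right _ _
    ρ_R := fun s hs => (hρb s (hρ1 s hs)).1
    φ := φ
    φ_an := fun i s hs => hφan i s (hρr s hs)
    φ_zero := hφ0
    φ_R := fun i s hs => (hρb s (hρ1 s hs)).2.1 i
    del := del
    u := u
    del_pos := ?_
    u_an := fun i j hij s hs => ((hρb s (hρ1 s hs)).2.2 i j hij).1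
    u_ne := fun i j hij s hs => ((hρb s (hρ1 s hs)).2.2 i j hij).2.1
    φ_sub := fun i j hij s hs => ((hρb s (hρ1 s hs)).2.2 i j hij).2.2
    nodup := ?_ }⟩
  · intro i q hq
    simp_rw [coeff_Wp]
    split_ifs
    · exact AnalyticAt.comp (g := w i) (f := fun q => A q) (hwa _ (hRb hq).1 i)
        (A.toContinuousLinearMap.analyticAt q)
    · exact analyticAt_const
  · show Wp w d (A 0) = X ^ d
    rw [hA0]
    apply Polynomial.funext
    intro z
    rw [eval_Wp, Wf_zero (hw1 0) hw0, eval_pow, eval_X]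
  · intro q hq z hz
    have h1 := (hfv _ (hRb hq).1 z hz).2.1
    have h2 : AnalyticAt ℂ (fun p : (ℂ × ℂ) × ℂ => A p.1) (q, z) :=
      AnalyticAt.comp (g := fun q => A q) (f := Prod.fst) (x := (q, z))
        (A.toContinuousLinearMap.analyticAt q) analyticAt_fst
    exact AnalyticAt.comp (g := v) (f := fun p : (ℂ × ℂ) × ℂ => (A p.1, p.2)) (x := (q, z)) h1
      (h2.prod analyticAt_snd)
  · intro i j
    by_cases h : i = j
    · simp only [del]; rw [dif_neg (not_not.2 h)]; exact one_pos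
    · rw [hdel i j h]; exact (hcon i j h).choose_spec.1
  · intro s hs y hy hne
    have h1 : ((s ^ N₀, y) : ℂ × ℂ) ∈ BD R R := ⟨(hρb s (hρ1 s hs)).1, by simpa using hy⟩
    obtain ⟨h2, h3, h4⟩ := hRb h1
    refine nodup_of_Dsc (hw1 _) ?_
    show G (s ^ N₀, y) ≠ 0
    rw [h4]
    refine mul_ne_zero h3 ?_
    rw [← eval_Wp]
    intro h5
    obtain ⟨i, hi⟩ := (hφroot s (hρr s hs) y).1 h5
    exact hne i hi

end Crest.Agent.R257.T0_387
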