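import Mathlib
import Crest.Agent.R257.T6_387

/-!
Row 257 (S0395), part C, T-frame, file 7 (helper387): the sheets of a chart: `∂f/∂z` is a monomial times
a unit, the Jacobian, the exponents on the non exceptional branches.
-/

set_option autoImplicit false
set_option linter.unusedSectionVars false

open Polynomial Set Filter Topology Metric
open Crest.AlgGeometry.Germ Crest.Agent.R257.AJ387 Crest.Agent.R257.Defs_219
open Crest.Agent.R257.T0_387 (ptL ptL_apply an_coordDeriv isolated)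
open Crest.Agent.R257.Fr_808 (jac2)

noncomputable section

namespace Crest.Agent.R257.T387

namespace TB

variable {f : (Fin 3 → ℂ) → ℂ} (T : TB f)

/-- `p` is mapped to `0` -/
def Zc : Ch T.m → ℂ × ℂ → Prop
  | .edge _ k _, p => (k ≠ 0 ∧ p.1 = 0) ∨ p.2 = 0
  | .leg _, p => p.1 = 0
  | .vert _ _ _, p => p.1 = 0

lemma map_eq_zero {c : Ch T.m} (hc : T.Valid c) (p : ℂ × ℂ) : T.map c p = 0 ↔ T.Zc c p := by
  have hM := T.M_pos.ne'
  cases c with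
  | edge i k k' =>
    have hk' : T.M * k' ≠ 0 := (Nat.mul_pos T.M_pos (by have := hc.2.2.1; omega)).ne'
    simp only [map, Zc, Prod.mk_eq_zero, mul_eq_zero]
    constructor
    · rintro ⟨h1, h2⟩
      by_cases hb : p.2 = 0
      · exact Or.inr hb
      · have ha : p.1 = 0 := h1.resolve_right hb
        refine Or.inl ⟨?_, ha⟩
        rintro rfl
        rw [ha] at h2
        simp only [zero_mul, mul_zero, pow_zero, one_mul] at h2
        rw [zero_pow hM, T.φ_zero, zero_add] at h2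
        exact hb (pow_eq_zero_iff hk' |>.1 h2)
    · rintro (⟨h1, h2⟩ | h2)
      · refine ⟨Or.inl h2, ?_⟩
        have h3 : T.M * k ≠ 0 := mul_ne_zero hM h1
        rw [h2, zero_mul, zero_pow hM, T.φ_zero, zero_pow h3, zero_mul, zero_add]
      · refine ⟨Or.inr h2, ?_⟩
        rw [h2, mul_zero, zero_pow hM, T.φ_zero, zero_pow hk', mul_zero, zero_add]
  | leg i =>
    have h3 : T.M * T.top i ≠ 0 := mul_ne_zero hM (T.lev_pos (T.top_mem i)).ne'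
    simp only [map, Zc, Prod.mk_eq_zero]
    constructor
    · exact fun h => h.1
    · intro h
      rw [h, zero_pow hM, T.φ_zero, zero_pow h3, zero_mul, zero_add]
      exact ⟨rfl, rfl⟩
  | vert i k w₀ =>
    have h3 : T.M * k ≠ 0 := mul_ne_zero hM (T.lev_pos hc.1).ne'
    simp only [map, Zc, Prod.mk_eq_zero]
    constructor
    · exact fun h => h.1
    · intro h
      rw [h, zero_pow hM, T.φ_zero, zero_pow h3, zero_mul, zero_add]
      exact ⟨rfl, rfl⟩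

namespace Sheets

variable {T} {c : Ch T.m} {r : ℝ} {ζ : Fin T.d → ℂ × ℂ → ℂ} (hS : T.Sheets c r ζ)
include hS

/-- the point of the `(x', y')`-plane -/
lemma mem_R {p : ℂ × ℂ} (hp : p ∈ BD r r) :
    (((T.map c p).1 ^ T.N, (T.map c p).2) : ℂ × ℂ) ∈ BD T.R T.R := by
  obtain ⟨h1, h2⟩ := hS.mem p hp
  refine ⟨?_, h1.2⟩
  have h3 : (T.map c p).1 ^ T.M ∈ ball (0 : ℂ) T.ρ := by rwa [mem_ball_zero_iff, norm_pow]
  have h4 := T.ρ_R _ h3
  show ‖(T.map c p).1 ^ T.N‖ < T.R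
  rw [← pow_mul] at h4
  rw [N, mul_comm]
  exact h4

lemma root (j : Fin T.d) {p : ℂ × ℂ} (hp : p ∈ BD r r) :
    (T.P ((T.map c p).1 ^ T.N, (T.map c p).2)).eval (ζ j p) = 0 := by
  have h1 : (T.Q (T.map c p)).eval (ζ j p) = 0 := by
    rw [hS.split p hp, eval_prod]
    exact Finset.prod_eq_zero (Finset.mem_univ j) (by simp)
  exact h1

lemma norm_lt (j : Fin T.d) {p : ℂ × ℂ} (hp : p ∈ BD r r) : ‖ζ j p‖ < T.rz :=
  T.roots_in _ (hS.mem_R hp) _ (hS.root j hp)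

lemma th_eq (j : Fin T.d) (p : ℂ × ℂ) :
    T.th c (ζ j) p = pt (ζ j p) (T.A ((T.map c p).1 ^ T.N, (T.map c p).2)) := rfl

lemma f_an (j : Fin T.d) {p : ℂ × ℂ} (hp : p ∈ BD r r) : AnalyticAt ℂ f (T.th c (ζ j) p) :=
  T.f_an _ (hS.mem_R hp) _ (hS.norm_lt j hp).le

lemma th_V (j : Fin T.d) {p : ℂ × ℂ} (hp : p ∈ BD r r) : f (T.th c (ζ j) p) = 0 := by
  rw [hS.th_eq, T.f_eq _ (hS.mem_R hp) _ (hS.norm_lt j hp).le, hS.root j hp, mul_zero]

lemma map_an {p : ℂ × ℂ} (hp : p ∈ BD r r) : AnalyticAt ℂ (T.map c) p :=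
  T.map_an c (hS.mem p hp).2

lemma q_an {p : ℂ × ℂ} (hp : p ∈ BD r r) :
    AnalyticAt ℂ (fun p => (((T.map c p).1 ^ T.N, (T.map c p).2) : ℂ × ℂ)) p := by
  have h1 := hS.map_an hp
  have h2 : AnalyticAt ℂ (fun p => (T.map c p).1) p := analyticAt_fst.comp h1
  have h3 : AnalyticAt ℂ (fun p => (T.map c p).2) p := analyticAt_snd.comp h1
  exact (h2.pow _).prod h3

lemma th_an (j : Fin T.d) {p : ℂ × ℂ} (hp : p ∈ BD r r) : AnalyticAt ℂ (T.th c (ζ j)) p := by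
  have h1 : T.th c (ζ j) = fun p => ptL (T.A ((T.map c p).1 ^ T.N, (T.map c p).2), ζ j p) := by
    funext p
    rw [ptL_apply]
    rfl
  rw [h1]
  refine (ptL.analyticAt _).comp (AnalyticAt.prod ?_ (hS.an j p hp))
  exact AnalyticAt.comp (g := fun q => T.A q)
    (f := fun p => (((T.map c p).1 ^ T.N, (T.map c p).2) : ℂ × ℂ))
    (T.A.toContinuousLinearMap.analyticAt _) (hS.q_an hp)

/-- `∂f/∂z` on the sheet `ζ j` -/
theorem cd0 (j : Fin T.d) {p : ℂ × ℂ} (hp : p ∈ BD r r) :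
    coordDeriv f 0 (T.th c (ζ j) p) =
      T.v ((((T.map c p).1 ^ T.N, (T.map c p).2) : ℂ × ℂ), ζ j p) *
        ∏ l ∈ Finset.univ.erase j, (ζ j p - ζ l p) := by
  set q : ℂ × ℂ := ((T.map c p).1 ^ T.N, (T.map c p).2) with hq
  set z₀ := ζ j p with hz₀
  have hqR := hS.mem_R hp
  have hz := hS.norm_lt j hp
  have h1 : HasDerivAt (fun z : ℂ => f (pt z (T.A q))) (coordDeriv f 0 (pt z₀ (T.A q))) z₀ := by
    have h4 : HasFDerivAt f (fderiv ℂ f (pt z₀ (T.A q))) (ptL (T.A q, z₀)) := by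
      rw [ptL_apply]
      exact (T.f_an _ hqR _ hz.le).differentiableAt.hasFDerivAt
    have h6 : HasDerivAt (fun z : ℂ => ((T.A q, z) : (ℂ × ℂ) × ℂ)) ((0 : ℂ × ℂ), (1 : ℂ)) z₀ :=
      (hasDerivAt_const z₀ (T.A q)).prodMk (hasDerivAt_id z₀)
    have h7 := (ptL.hasFDerivAt (x := (T.A q, z₀))).comp_hasDerivAt z₀ h6
    have h9 : ptL ((0 : ℂ × ℂ), (1 : ℂ)) = (Pi.single 0 1 : Fin 3 → ℂ) := by
      rw [ptL_apply]
      funext i
      fin_cases i <;> rfl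
    rw [h9] at h7
    have h8 := h4.comp_hasDerivAt z₀ h7
    refine h8.congr_of_eventuallyEq (Eventually.of_forall fun z => ?_)
    show f (pt z (T.A q)) = f (ptL (T.A q, z))
    rw [ptL_apply]
  have h2 : HasDerivAt (fun z => T.v (q, z)) (deriv (fun z => T.v (q, z)) z₀) z₀ := by
    have h8 : DifferentiableAt ℂ (fun z : ℂ => ((q, z) : (ℂ × ℂ) × ℂ)) z₀ :=
      (differentiableAt_const q).prodMk differentiableAt_id
    exact (((T.v_an _ hqR _ hz.le).differentiableAt).comp z₀ h8).hasDerivAt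
  have h3 := h2.mul ((T.P q).hasDerivAt z₀)
  rw [hS.root j hp, mul_zero, zero_add] at h3
  have h4 : (fun z : ℂ => f (pt z (T.A q))) =ᶠ[𝓝 z₀] fun z => T.v (q, z) * (T.P q).eval z := by
    have h5 : ∀ᶠ z in 𝓝 z₀, ‖z‖ < T.rz := (continuous_norm.tendsto z₀).eventually (gt_mem_nhds hz)
    filter_upwards [h5] with z hz'
    exact T.f_eq _ hqR _ hz'.le
  have h5 := h1.unique (h3.congr_of_eventuallyEq h4)
  rw [hS.th_eq, h5]
  congr 1
  have h6 : T.P q = ∏ j, (X - C (ζ j p)) := hS.split p hp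
  rw [h6, eval_deriv_prod (fun j => ζ j p) j]

/-- differences of sheets -/
theorem sub_mono {j l : Fin T.d} (hjl : j ≠ l) : ∃ (a b : ℕ) (w : ℂ × ℂ → ℂ),
    AnalyticOnNhd ℂ w (BD r r) ∧ (∀ p ∈ BD r r, w p ≠ 0) ∧
      (∀ p ∈ BD r r, ζ j p - ζ l p = p.1 ^ a * p.2 ^ b * w p) ∧
      (∀ i k w₀, c = .vert i k w₀ → b = 0) := by
  have han : AnalyticOnNhd ℂ (fun p => ζ j p - ζ l p) (BD r r) := fun p hp =>
    (hS.an j p hp).sub (hS.an l p hp)
  have hne : ∀ p ∈ BD r r, T.Gen c p → ζ j p - ζ l p ≠ 0 := fun p hp hg h =>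
    hjl (hS.inj p hp hg (sub_eq_zero.1 h))
  cases c with
  | edge i k k' =>
    obtain ⟨a, b, w, h1, h2, h3⟩ := mono_bd hS.r_pos han fun p hp ha hb => hne p hp ⟨ha, hb⟩
    exact ⟨a, b, w, h1, h2, h3, fun _ _ _ h => by simp at h⟩
  | leg i =>
    obtain ⟨a, b, w, h1, h2, h3⟩ := mono_bd hS.r_pos han fun p hp ha hb => hne p hp ⟨ha, hb⟩
    exact ⟨a, b, w, h1, h2, h3, fun _ _ _ h => by simp at h⟩
  | vert i k w₀ =>
    obtain ⟨a, w, h1, h2, h3⟩ := mono_bd1 hS.r_pos han fun p hp ha => hne p hp ha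
    exact ⟨a, 0, w, h1, h2, fun p hp => by rw [h3 p hp, pow_zero, mul_one], fun _ _ _ _ => rfl⟩

/-- `∂f/∂z` is a monomial times a unit -/
theorem cd0_mono (j : Fin T.d) : ∃ (a b : ℕ) (w : ℂ × ℂ → ℂ),
    AnalyticOnNhd ℂ w (BD r r) ∧ (∀ p ∈ BD r r, w p ≠ 0) ∧
      (∀ p ∈ BD r r, coordDeriv f 0 (T.th c (ζ j) p) = p.1 ^ a * p.2 ^ b * w p) ∧
      (∀ i k w₀, c = .vert i k w₀ → b = 0) := by
  classical
  have h0 : ∀ l : Fin T.d, ∃ (a b : ℕ) (w : ℂ × ℂ → ℂ), l ≠ j →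
      AnalyticOnNhd ℂ w (BD r r) ∧ (∀ p ∈ BD r r, w p ≠ 0) ∧
      (∀ p ∈ BD r r, ζ j p - ζ l p = p.1 ^ a * p.2 ^ b * w p) ∧
      (∀ i k w₀, c = .vert i k w₀ → b = 0) := by
    intro l
    by_cases h : l = j
    · exact ⟨0, 0, fun _ => 1, fun h' => absurd h h'⟩
    · obtain ⟨a, b, w, h1⟩ := hS.sub_mono (j := j) (l := l) fun h' => h h'.symm
      exact ⟨a, b, w, fun _ => h1⟩
  choose a b w h using h0
  refine ⟨∑ l ∈ Finset.univ.erase j, a l, ∑ l ∈ Finset.univ.erase j, b l,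
    fun p => T.v ((((T.map c p).1 ^ T.N, (T.map c p).2) : ℂ × ℂ), ζ j p) *
      ∏ l ∈ Finset.univ.erase j, w l p, ?_, ?_, ?_, ?_⟩
  · intro p hp
    refine AnalyticAt.mul ?_ ?_
    · exact AnalyticAt.comp (g := T.v)
        (f := fun p => (((((T.map c p).1 ^ T.N, (T.map c p).2) : ℂ × ℂ), ζ j p) : (ℂ × ℂ) × ℂ))
        (T.v_an _ (hS.mem_R hp) _ (hS.norm_lt j hp).le) ((hS.q_an hp).prod (hS.an j p hp))
    · exact Finset.analyticAt_fun_prod (f := fun l (p : ℂ × ℂ) => w l p) _ fun l hl =>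
        (h l (Finset.ne_of_mem_erase hl)).1 p hp
  · intro p hp
    refine mul_ne_zero (T.v_ne _ (hS.mem_R hp) _ (hS.norm_lt j hp).le)
      (Finset.prod_ne_zero_iff.2 fun l hl => (h l (Finset.ne_of_mem_erase hl)).2.1 p hp)
  · intro p hp
    rw [hS.cd0 j hp]
    have h1 : ∏ l ∈ Finset.univ.erase j, (ζ j p - ζ l p) =
        ∏ l ∈ Finset.univ.erase j, (p.1 ^ a l * p.2 ^ b l * w l p) :=
      Finset.prod_congr rfl fun l hl => (h l (Finset.ne_of_mem_erase hl)).2.2.1 p hp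
    rw [h1, Finset.prod_mul_distrib, Finset.prod_mul_distrib, Finset.prod_pow_eq_pow_sum,
      Finset.prod_pow_eq_pow_sum]
    ring
  · intro i k w₀ hc
    exact Finset.sum_eq_zero fun l hl => (h l (Finset.ne_of_mem_erase hl)).2.2.2 i k w₀ hc

/-- the Jacobian -/
theorem jac (hc : T.Valid c) (j : Fin T.d) {p : ℂ × ℂ} (hp : p ∈ BD r r) :
    jac2 (T.th c (ζ j)) p = T.jk c * p.1 ^ (T.jx c).1 * p.2 ^ (T.jx c).2 :=
  T.jac_chart hc (hS.mem p hp).2 (hS.an j p hp).differentiableAt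

lemma zero_mem : ((0 : ℂ), (0 : ℂ)) ∈ BD r r := ⟨by simpa using hS.r_pos, by simpa using hS.r_pos⟩

/-- the special fibre -/
theorem th_zero (hc : T.Valid c) (j : Fin T.d) {p : ℂ × ℂ} (hp : p ∈ BD r r) :
    T.th c (ζ j) p = 0 ↔ T.Zc c p := by
  rw [← T.map_eq_zero hc]
  constructor
  · intro h
    have h1 : T.A ((T.map c p).1 ^ T.N, (T.map c p).2) = 0 := by
      refine Prod.ext ?_ ?_
      · exact congrFun h 1
      · exact congrFun h 2
    have h2 : (((T.map c p).1 ^ T.N, (T.map c p).2) : ℂ × ℂ) = 0 := by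
      apply T.A.injective
      rw [h1, map_zero]
    rw [Prod.mk_eq_zero] at h2
    exact Prod.ext (pow_eq_zero_iff T.N_pos.ne' |>.1 h2.1) h2.2
  · intro h
    have h1 : (((T.map c p).1 ^ T.N, (T.map c p).2) : ℂ × ℂ) = 0 := by
      rw [h]
      simp [T.N_pos.ne']
    have h2 := hS.root j hp
    rw [h1, T.P_zero, eval_pow, eval_X] at h2
    have h3 : ζ j p = 0 := pow_eq_zero_iff T.d_pos.ne' |>.1 h2
    rw [hS.th_eq, h1, h3, map_zero]
    funext i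
    fin_cases i <;> rfl

/-- near a smooth point of `{f = 0}` -/
theorem exists_H (hf : Iso f) (hc : T.Valid c) (j : Fin T.d) :
    ∀ᶠ p₀ in 𝓝 ((0 : ℂ), (0 : ℂ)), ¬ T.Zc c p₀ → ∃ H : ℂ × ℂ → ℂ, AnalyticAt ℂ H p₀ ∧
      ∀ᶠ p in 𝓝 p₀, T.jk c * p.1 ^ (T.jx c).1 * p.2 ^ (T.jx c).2 =
        coordDeriv f 0 (T.th c (ζ j) p) * H p := by
  have h0 : T.th c (ζ j) (0, 0) = 0 := by
    rw [hS.th_zero hc j hS.zero_mem]
    cases c with
    | edge i k k' => exact Or.inr rfl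
    | leg i => rfl
    | vert i k w₀ => rfl
  have ht : Tendsto (T.th c (ζ j)) (𝓝 ((0 : ℂ), (0 : ℂ))) (𝓝 0) := by
    have := (hS.th_an j hS.zero_mem).continuousAt.tendsto
    rwa [h0] at this
  filter_upwards [ht.eventually (isolated hf.an hf.fin), (isOpen_BD r r).mem_nhds hS.zero_mem]
    with p₀ h1 h2 h3
  have h4 : ∃ i, coordDeriv f i (T.th c (ζ j) p₀) ≠ 0 := by
    by_contra hcon
    push Not at hcon
    exact h3 ((hS.th_zero hc j h2).1 (h1 hcon))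
  have hBD : ∀ᶠ p in 𝓝 p₀, p ∈ BD r r := (isOpen_BD r r).mem_nhds h2
  obtain ⟨H, hH, hHe⟩ := exists_res (hS.th_an j h2) (hS.f_an j h2)
    (hBD.mono fun p hp => hS.th_V j hp) h4
  refine ⟨H, hH, ?_⟩
  filter_upwards [hHe, hBD] with p h5 h6
  rw [← hS.jac hc j h6, h5]

end Sheets

/-- on a leg the residue form has no pole along the non exceptional branch -/
theorem leg_le {i : Fin T.m} {r : ℝ} {ζ : Fin T.d → ℂ × ℂ → ℂ} (hS : T.Sheets (.leg i) r ζ)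
    (hf : Iso f) (j : Fin T.d) {a b : ℕ} {w : ℂ × ℂ → ℂ} (hw : AnalyticOnNhd ℂ w (BD r r))
    (h : ∀ p ∈ BD r r, coordDeriv f 0 (T.th (.leg i) (ζ j) p) = p.1 ^ a * p.2 ^ b * w p) :
    b ≤ T.M - 1 := by
  have hv : T.Valid (.leg i) := trivial
  have hc0 : Continuous fun z : ℂ => ((z, (0 : ℂ)) : ℂ × ℂ) := by fun_prop
  have h1 : ∀ᶠ z in 𝓝 (0 : ℂ), _ := (hc0.tendsto (0 : ℂ)).eventually (hS.exists_H hf hv j)
  have h2 : ∀ᶠ z in 𝓝 (0 : ℂ), ((z, (0 : ℂ)) : ℂ × ℂ) ∈ BD r r :=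
    (hc0.tendsto (0 : ℂ)).eventually ((isOpen_BD r r).mem_nhds hS.zero_mem)
  obtain ⟨z, ⟨h3, h4⟩, h5⟩ := (((h1.and h2).filter_mono nhdsWithin_le_nhds).and
    (self_mem_nhdsWithin : {(0 : ℂ)}ᶜ ∈ 𝓝[≠] (0 : ℂ))).exists
  have h5' : z ≠ 0 := h5
  obtain ⟨H, hH, hHe⟩ := h3 h5'
  have hc1 : Continuous fun t : ℂ => ((z, t) : ℂ × ℂ) := by fun_prop
  have h6 : ∀ᶠ t in 𝓝 (0 : ℂ), ((z, t) : ℂ × ℂ) ∈ BD r r :=
    (hc1.tendsto (0 : ℂ)).eventually ((isOpen_BD r r).mem_nhds h4)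
  have h7 := (hc1.tendsto (0 : ℂ)).eventually hHe
  refine exp_le (u := fun _ => T.jk (.leg i) * z ^ (T.jx (.leg i)).1)
    (v := fun t => z ^ a * w (z, t) * H (z, t)) continuousAt_const
    (mul_ne_zero (T.jk_ne hv) (pow_ne_zero _ h5')) ?_ ?_
  · refine ContinuousAt.mul (continuousAt_const.mul ?_) ?_
    · exact ContinuousAt.comp (g := w) (f := fun t : ℂ => ((z, t) : ℂ × ℂ)) (x := 0)
        (hw _ h4).continuousAt hc1.continuousAt
    · exact ContinuousAt.comp (g := H) (f := fun t : ℂ => ((z, t) : ℂ × ℂ)) (x := 0)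
        hH.continuousAt hc1.continuousAt
  · filter_upwards [(h6.and h7).filter_mono nhdsWithin_le_nhds] with t ht
    have h8 := ht.2
    rw [h _ ht.1] at h8
    simp only [jx] at h8 ⊢
    linear_combination h8

/-- on the top edge the residue form has no pole along the branch `{s = 0}` -/
theorem top_le {i : Fin T.m} {k' : ℕ} {r : ℝ} {ζ : Fin T.d → ℂ × ℂ → ℂ}
    (hS : T.Sheets (.edge i 0 k') r ζ) (hv : T.Valid (.edge i 0 k'))
    (hf : Iso f) (j : Fin T.d) {a b : ℕ} {w : ℂ × ℂ → ℂ} (hw : AnalyticOnNhd ℂ w (BD r r))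
    (h : ∀ p ∈ BD r r, coordDeriv f 0 (T.th (.edge i 0 k') (ζ j) p) = p.1 ^ a * p.2 ^ b * w p) :
    a ≤ T.N - 1 := by
  have hc0 : Continuous fun z : ℂ => (((0 : ℂ), z) : ℂ × ℂ) := by fun_prop
  have h1 : ∀ᶠ z in 𝓝 (0 : ℂ), _ := (hc0.tendsto (0 : ℂ)).eventually (hS.exists_H hf hv j)
  have h2 : ∀ᶠ z in 𝓝 (0 : ℂ), (((0 : ℂ), z) : ℂ × ℂ) ∈ BD r r :=
    (hc0.tendsto (0 : ℂ)).eventually ((isOpen_BD r r).mem_nhds hS.zero_mem)
  obtain ⟨z, ⟨h3, h4⟩, h5⟩ := (((h1.and h2).filter_mono nhdsWithin_le_nhds).and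
    (self_mem_nhdsWithin : {(0 : ℂ)}ᶜ ∈ 𝓝[≠] (0 : ℂ))).exists
  have h5' : z ≠ 0 := h5
  obtain ⟨H, hH, hHe⟩ := h3 (by
    rintro (⟨h6, -⟩ | h6)
    · exact h6 rfl
    · exact h5' h6)
  have hc1 : Continuous fun t : ℂ => ((t, z) : ℂ × ℂ) := by fun_prop
  have h6 : ∀ᶠ t in 𝓝 (0 : ℂ), ((t, z) : ℂ × ℂ) ∈ BD r r :=
    (hc1.tendsto (0 : ℂ)).eventually ((isOpen_BD r r).mem_nhds h4)
  have h7 := (hc1.tendsto (0 : ℂ)).eventually hHe
  refine exp_le (u := fun _ => T.jk (.edge i 0 k') * z ^ (T.jx (.edge i 0 k')).2)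
    (v := fun t => z ^ b * w (t, z) * H (t, z)) continuousAt_const
    (mul_ne_zero (T.jk_ne hv) (pow_ne_zero _ h5')) ?_ ?_
  · refine ContinuousAt.mul (continuousAt_const.mul ?_) ?_
    · exact ContinuousAt.comp (g := w) (f := fun t : ℂ => ((t, z) : ℂ × ℂ)) (x := 0)
        (hw _ h4).continuousAt hc1.continuousAt
    · exact ContinuousAt.comp (g := H) (f := fun t : ℂ => ((t, z) : ℂ × ℂ)) (x := 0)
        hH.continuousAt hc1.continuousAt
  · filter_upwards [(h6.and h7).filter_mono nhdsWithin_le_nhds] with t ht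
    have h8 := ht.2
    rw [h _ ht.1] at h8
    simp only [jx, mul_zero, add_zero] at h8 ⊢
    linear_combination h8

/-- **the chart formulas of the frame** -/
theorem frame_chart (hf : Iso f) {c : Ch T.m} (hc : T.Valid c) {r : ℝ} {ζ : Fin T.d → ℂ × ℂ → ℂ}
    (hS : T.Sheets c r ζ) (j : Fin T.d) : ∃ (a b : ℕ) (w : ℂ × ℂ → ℂ),
      AnalyticOnNhd ℂ w (BD r r) ∧ (∀ p ∈ BD r r, w p ≠ 0) ∧
      (∀ p ∈ BD r r, coordDeriv f 0 (T.th c (ζ j) p) = p.1 ^ a * p.2 ^ b * w p) ∧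
      (∀ p ∈ BD r r, jac2 (T.th c (ζ j)) p = T.jk c * p.1 ^ (T.jx c).1 * p.2 ^ (T.jx c).2) ∧
      (∀ i k w₀, c = .vert i k w₀ → b = 0) ∧ (∀ i, c = .leg i → b ≤ T.M - 1) ∧
      (∀ i k', c = .edge i 0 k' → a ≤ T.N - 1) := by
  obtain ⟨a, b, w, h1, h2, h3, h4⟩ := hS.cd0_mono j
  refine ⟨a, b, w, h1, h2, h3, fun p hp => hS.jac hc j hp, h4, ?_, ?_⟩
  · rintro i rfl
    exact T.leg_le hS hf j h1 h3
  · rintro i k' rfl
    exact T.top_le hS hc hf j h1 h3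

end TB

end Crest.Agent.R257.T387
end
private theorem rz_8fa3db8cb1 : type_of% @_root_.Crest.Agent.R257.T387.TB.Zc.eq_1 := @_root_.Crest.Agent.R257.T387.TB.Zc.eq_1 -- L26
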