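import Mathlib
import Crest.Agent.R257.BPDefs_258
import Crest.Agent.R257.T6_387

-- ▼ part R257/Lab1_931
section

/-!
Row 257 (S0395), part C, task C-LAB (helper931), file 1: general facts.

* `exists_hh` : Taylor remainder of the branches;
* `tr_eq_iff`, `mem_sp_vx` : the special points of `vx T i k` are `co i k + Sp i k`;
* `isPreconnected_norm` : annuli are connected;
* `comp_const` : the component of the retraction is constant on connected sets;
* `near_axis` : points near a compact part of an axis are in the tube;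
* `comp_onto` : every component of `XV U v` is mapped onto the complement of the special points.
-/

set_option autoImplicit false
set_option linter.unusedSectionVars false

open Polynomial Set Filter Topology Metric
open Crest.AlgGeometry.Germ Crest.Agent.R257.AJ387 Crest.Agent.R257.T387
open Crest.Agent.R257.Gr1_157 Crest.Agent.R257.BP_258

noncomputable section

namespace Crest.Agent.R257.Lab_931

/-! ### Taylor remainders -/

/-- iterated divided slopes at `0` -/
def hk (g : ℂ → ℂ) : ℕ → ℂ → ℂ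
  | 0 => g
  | k + 1 => dslope (hk g k) 0

lemma hk_diff {g : ℂ → ℂ} {ρ : ℝ} (hρ : 0 < ρ) (hg : DifferentiableOn ℂ g (ball 0 ρ)) (k : ℕ) :
    DifferentiableOn ℂ (hk g k) (ball 0 ρ) := by
  induction k with
  | zero => exact hg
  | succ k ih => exact (Complex.differentiableOn_dslope (ball_mem_nhds 0 hρ)).2 ih

lemma hk_eq (g : ℂ → ℂ) (k : ℕ) : hk g k = (Function.swap dslope 0)^[k] g := by
  induction k with
  | zero => rfl
  | succ k ih =>
    rw [Function.iterate_succ_apply', ← ih]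
    rfl

lemma hk_zero {g : ℂ → ℂ} (hg : AnalyticAt ℂ g 0) (k : ℕ) :
    hk g k 0 = iteratedDeriv k g 0 / (k.factorial : ℂ) := by
  have h1 := hg.hasFPowerSeriesAt
  have h2 := h1.has_fpower_series_iterate_dslope_fslope k
  rw [← hk_eq] at h2
  have h3 := h2.coeff_zero 1
  rw [← h3]
  have h4 : ((FormalMultilinearSeries.fslope^[k] (FormalMultilinearSeries.ofScalars ℂ
    fun n => iteratedDeriv n g 0 / (n.factorial : ℂ))).coeff 0) =
      iteratedDeriv k g 0 / (k.factorial : ℂ) := by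
    rw [FormalMultilinearSeries.coeff_iterate_fslope, zero_add]
    simp [FormalMultilinearSeries.coeff_ofScalars]
  exact h4

lemma hk_sum (g : ℂ → ℂ) (k : ℕ) (σ : ℂ) :
    g σ = ∑ n ∈ Finset.range k, hk g n 0 * σ ^ n + σ ^ k * hk g k σ := by
  induction k with
  | zero => simp [hk]
  | succ k ih =>
    rw [Finset.sum_range_succ]
    have h1 := sub_smul_dslope (hk g k) 0 σ
    have h2 : σ * hk g (k + 1) σ = hk g k σ - hk g k 0 := by
      simpa [hk] using h1
    rw [ih, pow_succ]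
    linear_combination (-σ ^ k) * h2

variable {f : (Fin 3 → ℂ) → ℂ} {T : TB f} {U : Tub T}

lemma φ_an0 (i : Fin T.m) : AnalyticAt ℂ (T.φ i) 0 := T.φ_an i 0 (mem_ball_self T.ρ_pos)

lemma hk_φ (i : Fin T.m) (k : ℕ) : hk (T.φ i) k 0 = co T i k := hk_zero (φ_an0 i) k

lemma φ_eq (i : Fin T.m) (k : ℕ) (σ : ℂ) :
    T.φ i σ = (tr T i k).eval σ + σ ^ k * hk (T.φ i) k σ := by
  rw [hk_sum (T.φ i) k σ]
  simp only [tr, eval_finsetSum, eval_mul, eval_C, eval_pow, eval_X, hk_φ]

lemma hk_cont (i : Fin T.m) (k : ℕ) : ContinuousOn (hk (T.φ i) k) (ball 0 T.ρ) :=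
  (hk_diff T.ρ_pos (fun s hs => (T.φ_an i s hs).differentiableAt.differentiableWithinAt)
    k).continuousOn

/-! ### special points -/

lemma co_sub {i j : Fin T.m} (h : i ≠ j) (n : ℕ) : n < T.del i j → co T i n = co T j n := by
  intro hn
  have h1 : (T.φ i - T.φ j) =ᶠ[𝓝 0] fun s => s ^ (T.del i j) * T.u i j s := by
    filter_upwards [ball_mem_nhds (0 : ℂ) T.ρ_pos] with s hs
    exact T.φ_sub i j h s hs
  have h2 : ((T.del i j : ℕ) : ℕ∞) ≤ analyticOrderAt (T.φ i - T.φ j) 0 := by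
    rw [natCast_le_analyticOrderAt ((φ_an0 i).sub (φ_an0 j))]
    refine ⟨T.u i j, T.u_an i j h 0 (mem_ball_self T.ρ_pos), ?_⟩
    filter_upwards [h1] with s hs
    rw [hs]; simp
  have h3 := (natCast_le_analyticOrderAt_iff_iteratedDeriv_eq_zero
    ((φ_an0 i).sub (φ_an0 j))).1 h2 n hn
  have h4 : iteratedDeriv n (T.φ i - T.φ j) 0 = iteratedDeriv n (T.φ i) 0 -
      iteratedDeriv n (T.φ j) 0 :=
    iteratedDeriv_sub (φ_an0 i).contDiffAt (φ_an0 j).contDiffAt
  rw [h4, sub_eq_zero] at h3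
  simp only [co, h3]

lemma hk_sub {i j : Fin T.m} (h : i ≠ j) {k : ℕ} (hk0 : k ≤ T.del i j) {s : ℂ}
    (hs : s ∈ ball (0 : ℂ) T.ρ) :
    hk (T.φ i) k s - hk (T.φ j) k s = s ^ (T.del i j - k) * T.u i j s := by
  have htr : tr T i k = tr T j k := by
    unfold tr
    exact Finset.sum_congr rfl fun n hn => by
      rw [co_sub h n ((Finset.mem_range.1 hn).trans_le hk0)]
  have key : ∀ s ∈ ball (0 : ℂ) T.ρ, s ≠ 0 →
      hk (T.φ i) k s - hk (T.φ j) k s = s ^ (T.del i j - k) * T.u i j s := by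
    intro s hs h0
    have h1 := φ_eq (T := T) i k s
    have h2 := φ_eq (T := T) j k s
    have h3 := T.φ_sub i j h s hs
    rw [h1, h2, htr] at h3
    have h4 : s ^ T.del i j = s ^ k * s ^ (T.del i j - k) := by
      rw [← pow_add]; congr 1; omega
    rw [h4] at h3
    refine mul_left_cancel₀ (pow_ne_zero k h0) ?_
    linear_combination h3
  by_cases h0 : s = 0
  · subst h0
    have c1 : ContinuousAt (fun s => hk (T.φ i) k s - hk (T.φ j) k s) 0 :=
      ((hk_cont i k).continuousAt (ball_mem_nhds _ T.ρ_pos)).sub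
        ((hk_cont j k).continuousAt (ball_mem_nhds _ T.ρ_pos))
    have c2 : ContinuousAt (fun s => s ^ (T.del i j - k) * T.u i j s) 0 :=
      (continuousAt_id.pow _).mul (T.u_an i j h 0 (mem_ball_self T.ρ_pos)).continuousAt
    refine tendsto_nhds_unique_of_frequently_eq c1 c2 ?_
    have hf : ∃ᶠ s in 𝓝 (0 : ℂ), s ≠ 0 := by
      exact frequently_mem_iff_neBot.2 (by exact NormedField.nhdsNE_neBot (0 : ℂ))
    refine (hf.and_eventually (ball_mem_nhds (0 : ℂ) T.ρ_pos)).mono ?_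
    rintro s ⟨h1, h2⟩
    exact key s h2 h1
  · exact key s hs h0

lemma tr_eq_iff {i j : Fin T.m} (h : i ≠ j) (k : ℕ) : tr T j k = tr T i k ↔ k ≤ T.del i j := by
  constructor
  · intro he
    by_contra hlt
    rw [not_le] at hlt
    have h1 := congrArg (fun p => p.coeff (T.del i j)) he
    simp only [tr, finsetSum_coeff, coeff_C_mul, coeff_X_pow, mul_ite, mul_one, mul_zero,
      Finset.sum_ite_eq, Finset.mem_range, hlt, if_true] at h1
    have h2 := hk_sub h le_rfl (mem_ball_self (x := (0 : ℂ)) T.ρ_pos)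
    rw [hk_φ, hk_φ, h1, sub_self, Nat.sub_self, pow_zero, one_mul] at h2
    exact T.u_ne i j h 0 (mem_ball_self T.ρ_pos) h2.symm
  · intro hle
    unfold tr
    exact Finset.sum_congr rfl fun n hn => by
      rw [co_sub h n ((Finset.mem_range.1 hn).trans_le hle)]

lemma mem_sp (v : Vtx) (w : ℂ) : w ∈ sp T v ↔ ∃ j, tr T j v.1 = v.2 ∧ co T j v.1 = w := by
  classical
  unfold sp
  rw [Finset.mem_image]
  constructor
  · rintro ⟨j, hj, hw⟩
    exact ⟨j, (Finset.mem_filter.1 hj).2, hw⟩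
  · rintro ⟨j, hj, hw⟩
    exact ⟨j, Finset.mem_filter.2 ⟨Finset.mem_univ _, hj⟩, hw⟩

lemma mem_sp_vx (i : Fin T.m) (k : ℕ) (w : ℂ) :
    co T i k + w ∈ sp T (vx T i k) ↔ w ∈ T.Sp i k := by
  rw [mem_sp]
  simp only [vx, TB.Sp, Finset.mem_image, Finset.mem_filter, Finset.mem_univ, true_and,
    Finset.mem_insert]
  constructor
  · rintro ⟨j, hj, hjw⟩
    by_cases hij : i = j
    · subst hij
      left
      linear_combination (-1 : ℂ) * hjw
    · rw [tr_eq_iff hij] at hj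
      have h2 := hk_sub hij hj (mem_ball_self (x := (0 : ℂ)) T.ρ_pos)
      rw [hk_φ, hk_φ] at h2
      rcases hj.lt_or_eq with h3 | h3
      · left
        have : T.del i j - k ≠ 0 := by omega
        rw [zero_pow this, zero_mul] at h2
        linear_combination (-1 : ℂ) * hjw - h2
      · right
        refine ⟨j, ⟨Ne.symm hij, h3.symm⟩, ?_⟩
        rw [h3, Nat.sub_self, pow_zero, one_mul, ← h3] at h2
        linear_combination hjw + h2
  · rintro (rfl | ⟨j, ⟨hj, hd⟩, rfl⟩)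
    · exact ⟨i, rfl, by ring⟩
    · have hij : i ≠ j := Ne.symm hj
      refine ⟨j, (tr_eq_iff hij k).2 hd.ge, ?_⟩
      have h2 := hk_sub hij hd.ge (mem_ball_self (x := (0 : ℂ)) T.ρ_pos)
      rw [hk_φ, hk_φ, hd, Nat.sub_self, pow_zero, one_mul] at h2
      linear_combination (-1 : ℂ) * h2

lemma vx_mem {i : Fin T.m} {k : ℕ} (h : k ∈ T.lev i) : vx T i k ∈ Vs T := by
  classical
  unfold Vs
  exact Finset.mem_biUnion.2 ⟨i, Finset.mem_univ _, Finset.mem_image_of_mem _ h⟩

/-! ### annuli -/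

lemma isPreconnected_norm {I : Set ℝ} (hI : IsPreconnected I) (h0 : ∀ t ∈ I, 0 ≤ t) :
    IsPreconnected {z : ℂ | ‖z‖ ∈ I} := by
  have h1 : {z : ℂ | ‖z‖ ∈ I} = (fun q : ℝ × ℝ => (q.1 : ℂ) * Complex.exp (q.2 * Complex.I)) ''
      (I ×ˢ univ) := by
    ext z
    constructor
    · intro hz
      exact ⟨(‖z‖, Complex.arg z), ⟨hz, mem_univ _⟩, Complex.norm_mul_exp_arg_mul_I z⟩
    · rintro ⟨⟨t, θ⟩, ⟨ht, -⟩, rfl⟩
      simp only [Set.mem_ofPred_eq, norm_mul, Complex.norm_real, Complex.norm_exp_ofReal_mul_I, mul_one,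
        Real.norm_eq_abs]
      rw [abs_of_nonneg (h0 t ht)]
      exact ht
  rw [h1]
  refine (hI.prod isPreconnected_univ).image _ (Continuous.continuousOn ?_)
  fun_prop

end Crest.Agent.R257.Lab_931
end
private theorem rz_310d3d7675 : type_of% @_root_.Crest.Agent.R257.Lab_931.hk.eq_def := @_root_.Crest.Agent.R257.Lab_931.hk.eq_def -- L29
private theorem rz_5096780497 : type_of% @_root_.Crest.Agent.R257.Lab_931.hk.eq_1 := @_root_.Crest.Agent.R257.Lab_931.hk.eq_1 -- L29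
end

-- ▼ part R257/Lab2_931
section

/-!
Row 257 (S0395), part C, task C-LAB (helper931), file 2: components and retractions.

* `comp_const` : the component of the retraction is constant on connected sets;
* `near_axis` : points near a compact part of an axis are in the tube;
* `exists_over` : every component of `XV U v` is mapped onto the complement of the special points.
-/

set_option autoImplicit false
set_option linter.unusedSectionVars false

open Polynomial Set Filter Topology Metric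
open Crest.AlgGeometry.Germ Crest.Agent.R257.AJ387 Crest.Agent.R257.T387
open Crest.Agent.R257.Gr1_157 Crest.Agent.R257.BP_258

noncomputable section

namespace Crest.Agent.R257.Lab_931

variable {f : (Fin 3 → ℂ) → ℂ} {T : TB f} {U : Tub T}

lemma wv_yv (v : Vtx) {s : ℂ} (w : ℂ) (hs : s ≠ 0) : wv T v (s, yv T v (s, w)) = w := by
  simp only [wv, yv]
  rw [add_sub_cancel_left, mul_div_cancel_left₀ _ (pow_ne_zero _ hs)]

lemma yv_wv (v : Vtx) {s : ℂ} (y : ℂ) (hs : s ≠ 0) : yv T v (s, wv T v (s, y)) = y := by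
  simp only [wv, yv]
  rw [mul_div_cancel₀ _ (pow_ne_zero _ hs)]
  ring

lemma eval_prod_X_sub_C {d : ℕ} (z : Fin d → ℂ) (x : ℂ) :
    (∏ j, (X - C (z j)) : ℂ[X]).eval x = 0 ↔ ∃ j, x = z j := by
  rw [eval_prod, Finset.prod_eq_zero_iff]
  constructor
  · rintro ⟨j, -, h⟩
    exact ⟨j, by simpa [sub_eq_zero] using h⟩
  · rintro ⟨j, h⟩
    exact ⟨j, Finset.mem_univ _, by simp [h]⟩

/-- the component of the retraction is locally constant -/
theorem comp_local (hR : RetStmt U) {v : Vtx} {Y : Type*} [TopologicalSpace Y] {Ω : Set Y}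
    {x : Y → Fin 3 → ℂ} {p₀ : Y} (hp₀ : p₀ ∈ Ω) (hx : ContinuousWithinAt x Ω p₀)
    (hin : ∀ p ∈ Ω, InT U v (x p)) :
    ∃ E : ConnectedComponents (XV U v), ∀ᶠ p in 𝓝[Ω] p₀, ∀ q, IsRet U v (x p) q →
      (q : ConnectedComponents (XV U v)) = E := by
  have h0 := hin p₀ hp₀
  obtain ⟨hex, hloc⟩ := hR v h0.mem
  obtain ⟨r, hr, R, hR0, Z, σ, h1, h2, h3, h4, h5, h6, h7, h8, h9⟩ := hloc _ h0.nsp
  set w₀ := wv T v (x p₀ 1, x p₀ 2) with hw₀
  let g : Y → ℂ × ℂ := fun p => (x p 1, wv T v (x p 1, x p 2))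
  have hx0 : ∀ i, ContinuousWithinAt (fun p => x p i) Ω p₀ := fun i =>
    (continuous_apply i).continuousAt.comp_continuousWithinAt hx
  have hg : ContinuousWithinAt g Ω p₀ := by
    refine (hx0 1).prodMk ?_
    show ContinuousWithinAt (fun p => (x p 2 - v.2.eval (x p 1 ^ T.M)) / x p 1 ^ (T.M * v.1)) Ω p₀
    refine ContinuousWithinAt.div ?_ ((hx0 1).pow _) (pow_ne_zero _ h0.ne)
    refine (hx0 2).sub ?_
    exact (v.2.continuous.continuousAt).comp_continuousWithinAt ((hx0 1).pow _)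
  have hyv : ∀ p ∈ Ω, yv T v (g p) = x p 2 := fun p hp => yv_wv v _ (hin p hp).ne
  have hmem0 : g p₀ ∈ ball (0 : ℂ) R ×ˢ ball w₀ r := by
    refine ⟨?_, mem_ball_self hr⟩
    show x p₀ 1 ∈ ball (0 : ℂ) R
    rw [mem_ball, dist_zero_right]
    exact h0.lt.trans (h1 w₀ (mem_ball_self hr)).2
  have hopen : IsOpen (ball (0 : ℂ) R ×ˢ ball w₀ r) := isOpen_ball.prod isOpen_ball
  have hgm : ∀ᶠ p in 𝓝[Ω] p₀, g p ∈ ball (0 : ℂ) R ×ˢ ball w₀ r :=
    hg.eventually_mem (hopen.mem_nhds hmem0)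
  have hroot : ∀ p ∈ Ω, g p ∈ ball (0 : ℂ) R ×ˢ ball w₀ r → ∃ j, x p 0 = Z j (g p) := by
    intro p hp hgp
    have h10 := (hin p hp).root
    have h11 := (h3 _ hgp).2.2
    rw [hyv p hp] at h11
    change (T.Q (x p 1, x p 2)) = _ at h11
    rw [h11] at h10
    exact (eval_prod_X_sub_C _ _).1 h10
  obtain ⟨j, hj⟩ := hroot p₀ hp₀ hmem0
  have hne : ∀ j', j' ≠ j → ∀ᶠ p in 𝓝[Ω] p₀, x p 0 ≠ Z j' (g p) := by
    intro j' hj'
    have c1 : ContinuousWithinAt (fun p => x p 0 - Z j' (g p)) Ω p₀ :=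
      (hx0 0).sub ((h2 j' _ hmem0).continuousAt.comp_continuousWithinAt hg)
    have h12 : x p₀ 0 - Z j' (g p₀) ≠ 0 := by
      rw [hj, sub_ne_zero]
      intro h13
      exact hj' (h4 _ hmem0 h0.ne h13).symm
    filter_upwards [c1.eventually_ne h12] with p hp h13
    exact hp (by rw [h13, sub_self])
  refine ⟨(σ j w₀ : ConnectedComponents (XV U v)), ?_⟩
  have hall : ∀ᶠ p in 𝓝[Ω] p₀, ∀ j', j' ≠ j → x p 0 ≠ Z j' (g p) := by
    rw [eventually_all]
    intro j'
    by_cases hj' : j' = j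
    · exact Eventually.of_forall fun p h => absurd hj' h
    · filter_upwards [hne j' hj'] with p hp _ using hp
  filter_upwards [hgm, hall, self_mem_nhdsWithin] with p hp1 hp2 hp3 q hq
  obtain ⟨j', hj'⟩ := hroot p hp3 hp1
  have hjj : j' = j := by
    by_contra hne'
    exact hp2 j' hne' hj'
  subst hjj
  have hret := h9 j' (g p).2 hp1.2 (g p).1 (hin p hp3).ne (hin p hp3).lt
  have hxe : pt (Z j' ((g p).1, (g p).2)) ((g p).1, yv T v ((g p).1, (g p).2)) = x p := by
    have h14 := hyv p hp3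
    funext i
    fin_cases i
    · exact hj'.symm
    · rfl
    · exact h14
  rw [hxe] at hret
  have hqe : q = σ j' (g p).2 := (hex _ (hin p hp3)).unique hq hret
  rw [hqe, ConnectedComponents.coe_eq_coe]
  have hpre : IsPreconnected (σ j' '' ball w₀ r) :=
    (convex_ball w₀ r).isPreconnected.image _ (h5 j')
  exact connectedComponent_eq (hpre.subset_connectedComponent
    (mem_image_of_mem _ hp1.2) (mem_image_of_mem _ (mem_ball_self hr)))

/-- **the component of the retraction is constant on connected sets** -/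
theorem comp_const (hR : RetStmt U) {v : Vtx} {Y : Type*} [TopologicalSpace Y] {Ω : Set Y}
    (hΩ : IsPreconnected Ω) {x : Y → Fin 3 → ℂ} (hx : ContinuousOn x Ω)
    (hin : ∀ p ∈ Ω, InT U v (x p)) {p p' : Y} (hp : p ∈ Ω) (hp' : p' ∈ Ω)
    {q q' : XV U v} (hq : IsRet U v (x p) q) (hq' : IsRet U v (x p') q') :
    (q : ConnectedComponents (XV U v)) = q' := by
  haveI : Nonempty (XV U v) := ⟨q⟩
  choose! Q hQ using fun p (hp : p ∈ Ω) => ((hR v (hin p hp).mem).1 (x p) (hin p hp)).exists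
  let F : Ω → ConnectedComponents (XV U v) := fun p => (Q p : ConnectedComponents (XV U v))
  have hF : IsLocallyConstant F := by
    rw [IsLocallyConstant.iff_eventually_eq]
    intro a
    obtain ⟨E, hE⟩ := comp_local hR a.2 (hx a a.2) hin
    have h1 : ∀ᶠ b : Ω in 𝓝 a, ∀ q, IsRet U v (x b) q → (q : ConnectedComponents (XV U v)) = E := by
      have := (map_nhds_subtype_val a) ▸ hE
      exact this
    have h2 := h1.self_of_nhds
    filter_upwards [h1] with b hb
    show (Q b : ConnectedComponents (XV U v)) = (Q a : ConnectedComponents (XV U v))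
    rw [hb _ (hQ b b.2), h2 _ (hQ a a.2)]
  haveI : PreconnectedSpace Ω := isPreconnected_iff_preconnectedSpace.1 hΩ
  have h3 := hF.apply_eq_of_preconnectedSpace ⟨p, hp⟩ ⟨p', hp'⟩
  have h4 : q = Q p := ((hR v (hin p hp).mem).1 (x p) (hin p hp)).unique hq (hQ p hp)
  have h5 : q' = Q p' := ((hR v (hin p' hp').mem).1 (x p') (hin p' hp')).unique hq' (hQ p' hp')
  rw [h4, h5]
  exact h3

lemma isClosed_sp (v : Vtx) : IsClosed {w : ℂ | w ∈ sp T v} := (sp T v).finite_toSet.isClosed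

/-- points near a compact part of the axis `{p.1 = 0}` are in the tube -/
lemma near_axis (U : Tub T) {v : Vtx} (hv : v ∈ Vs T) {W s : ℂ × ℂ → ℂ} {D : Set (ℂ × ℂ)}
    (hD : IsOpen D) (hW : ContinuousOn W D) (hs : ContinuousOn s D) {K : Set ℂ} (hK : IsCompact K)
    (h0 : ∀ b ∈ K, ((0 : ℂ), b) ∈ D ∧ s (0, b) = 0 ∧ W (0, b) ∉ sp T v) :
    ∃ a > 0, ∀ p : ℂ × ℂ, ‖p.1‖ < a → p.2 ∈ K → p ∈ D ∧ W p ∉ sp T v ∧ ‖s p‖ < U.ρ v (W p) := by
  have hop : IsOpen {w : ℂ | w ∉ sp T v} := (isClosed_sp v).isOpen_compl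
  have h1 : IsOpen (D ∩ W ⁻¹' {w : ℂ | w ∉ sp T v}) := hW.isOpen_inter_preimage hD hop
  have h2 : ContinuousOn (fun p => U.ρ v (W p) - ‖s p‖) (D ∩ W ⁻¹' {w : ℂ | w ∉ sp T v}) :=
    ((U.cont v hv).comp (hW.mono inter_subset_left) fun p hp => hp.2).sub
      (hs.mono inter_subset_left).norm
  have h3 : IsOpen ((D ∩ W ⁻¹' {w : ℂ | w ∉ sp T v}) ∩
      (fun p => U.ρ v (W p) - ‖s p‖) ⁻¹' (Ioi 0)) := h2.isOpen_inter_preimage h1 isOpen_Ioi
  obtain ⟨u, t, hu, -, h0u, hKt, hsub⟩ := generalized_tube_lemma (isCompact_singleton (x := (0 : ℂ)))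
    hK h3 (by
      rintro ⟨a, b⟩ ⟨ha, hb⟩
      rw [mem_singleton_iff] at ha
      change a = 0 at ha
      subst ha
      obtain ⟨e1, e2, e3⟩ := h0 b hb
      refine ⟨⟨e1, e3⟩, ?_⟩
      show 0 < U.ρ v (W (0, b)) - ‖s (0, b)‖
      rw [e2, norm_zero, sub_zero]
      exact U.pos v hv _ e3)
  obtain ⟨a, ha, hau⟩ := Metric.isOpen_iff.1 hu 0 (h0u rfl)
  refine ⟨a, ha, fun p hp1 hp2 => ?_⟩
  have h4 := hsub (mk_mem_prod (hau (by simpa using hp1)) (hKt hp2))
  exact ⟨h4.1.1, h4.1.2, by have := h4.2; simpa using this⟩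

/-- **every component of the curve lies over every ordinary point** -/
theorem exists_over (hR : RetStmt U) {v : Vtx} (hv : v ∈ Vs T) (q₀ : XV U v) {w : ℂ}
    (hw : w ∉ sp T v) : ∃ q : XV U v, pV U v q = w ∧
      (q : ConnectedComponents (XV U v)) = (q₀ : ConnectedComponents (XV U v)) := by
  let O : Set ℂ := {w | w ∉ sp T v}
  have hO : IsOpen O := (isClosed_sp v).isOpen_compl
  have hconn : IsPreconnected O := by
    have h1 : (sp T v : Set ℂ).Countable := (sp T v).countable_toSet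
    have h2 := h1.isConnected_compl_of_one_lt_rank (E := ℂ) (by
      rw [Complex.rank_real_complex]; norm_num)
    exact h2.isPreconnected
  let A : Set ℂ := {w | ∃ q : XV U v, pV U v q = w ∧
      (q : ConnectedComponents (XV U v)) = (q₀ : ConnectedComponents (XV U v))}
  have hmem : ∀ q : XV U v, pV U v q ∈ O := fun q => q.2.2.1
  -- local statement
  have hloc : ∀ w₀ ∈ O, ∃ r > 0, ∀ w ∈ ball w₀ r, w ∈ A → ball w₀ r ⊆ A := by
    intro w₀ hw₀
    obtain ⟨-, hl⟩ := hR v hv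
    obtain ⟨r, hr, R, hR0, Z, σ, h1, h2, h3, h4, h5, h6, h7, h8, h9⟩ := hl w₀ hw₀
    refine ⟨r, hr, ?_⟩
    rintro w hw ⟨q, hq, hqc⟩ w' hw'
    obtain ⟨j, hj⟩ := h8 q (by rw [hq]; exact hw)
    refine ⟨σ j w', h6 j w' hw', ?_⟩
    rw [← hqc, ← hj, ConnectedComponents.coe_eq_coe]
    have hpre : IsPreconnected (σ j '' ball w₀ r) :=
      (convex_ball w₀ r).isPreconnected.image _ (h5 j)
    refine connectedComponent_eq (hpre.subset_connectedComponent
      (mem_image_of_mem _ hw') (mem_image_of_mem _ ?_))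
    rw [hq]; exact hw
  have hAO : IsOpen (O ∩ A) := by
    rw [Metric.isOpen_iff]
    rintro w₀ ⟨h1, h2⟩
    obtain ⟨r, hr, h⟩ := hloc w₀ h1
    obtain ⟨r', hr', h'⟩ := Metric.isOpen_iff.1 hO w₀ h1
    refine ⟨min r r', lt_min hr hr', fun z hz => ⟨h' (ball_subset_ball (min_le_right _ _) hz),
      h w₀ (mem_ball_self hr) h2 (ball_subset_ball (min_le_left _ _) hz)⟩⟩
  have hAcO : IsOpen (O ∩ Aᶜ) := by
    rw [Metric.isOpen_iff]
    rintro w₀ ⟨h1, h2⟩
    obtain ⟨r, hr, h⟩ := hloc w₀ h1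
    obtain ⟨r', hr', h'⟩ := Metric.isOpen_iff.1 hO w₀ h1
    refine ⟨min r r', lt_min hr hr', fun z hz => ⟨h' (ball_subset_ball (min_le_right _ _) hz),
      fun hzA => h2 (h z (ball_subset_ball (min_le_left _ _) hz) hzA (mem_ball_self hr))⟩⟩
  by_contra hcon
  have hwA : w ∉ A := fun h => hcon h
  obtain ⟨z, hz1, hz2, hz3⟩ := hconn _ _ hAO hAcO
    (fun z hz => by
      by_cases hzA : z ∈ A
      · exact Or.inl ⟨hz, hzA⟩
      · exact Or.inr ⟨hz, hzA⟩)
    ⟨pV U v q₀, hmem q₀, hmem q₀, ⟨q₀, rfl, rfl⟩⟩ ⟨w, hw, hw, hwA⟩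
  exact hz3.2 hz2.2

end Crest.Agent.R257.Lab_931
end
end

-- ▼ part R257/Lab3_931

/-!
Row 257 (S0395), part C, task C-LAB (helper931), file 3: existence of the labels.

* `W1`, `W2` : the coordinate `w` of the vertex of the first / second axis, in a chart;
* `InT1`, `InT2` : points near the axes are in the tubes;
* `exists_lab` : `Nonempty (Lab U S)`.
-/

set_option autoImplicit false
set_option linter.unusedSectionVars false

open Polynomial Set Filter Topology Metric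
open Crest.AlgGeometry.Germ Crest.Agent.R257.AJ387 Crest.Agent.R257.T387
open Crest.Agent.R257.Gr1_157 Crest.Agent.R257.BP_258

noncomputable section

namespace Crest.Agent.R257.Lab_931

variable {f : (Fin 3 → ℂ) → ℂ} {T : TB f} {U : Tub T}

/-- `w` of the vertex of `{α = 0}` -/
def W1 : Ch T.m → ℂ × ℂ → ℂ
  | .edge i k k', p => hk (T.φ i) k ((p.1 * p.2) ^ T.M) + p.2 ^ (T.M * (k' - k))
  | .leg i, p => hk (T.φ i) (T.top i) (p.1 ^ T.M) + p.2 ^ T.M
  | .vert i k w₀, p => hk (T.φ i) k (p.1 ^ T.M) + (w₀ + p.2)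

/-- `w` of the vertex of `{β = 0}` -/
def W2 : Ch T.m → ℂ × ℂ → ℂ
  | .edge i k k', p => hk (T.φ i) k' ((p.1 * p.2) ^ T.M) + (p.1 ^ (T.M * (k' - k)))⁻¹
  | _, _ => 0

lemma W1_eq {c : Ch T.m} (hc : T.Valid c) {v : Vtx} (hv : v1 T c = some v) {p : ℂ × ℂ}
    (hp : T.Gen c p) : wv T v (T.map c p) = W1 c p := by
  cases c with
  | edge i k k' =>
    simp only [v1] at hv
    split_ifs at hv with hk0
    obtain rfl := Option.some.inj hv
    have hkk : k < k' := hc.2.2.1
    have h1 : p.1 ≠ 0 := hp.1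
    have h2 : p.2 ≠ 0 := hp.2
    simp only [wv, W1, TB.map, vx]
    rw [φ_eq i k]
    have e1 : p.2 ^ (T.M * k') = p.2 ^ (T.M * k) * p.2 ^ (T.M * (k' - k)) := by
      rw [← pow_add, ← Nat.mul_add]; congr 2; omega
    rw [e1, div_eq_iff (pow_ne_zero _ (mul_ne_zero h1 h2)), ← pow_mul, mul_pow p.1 p.2 (T.M * k)]
    ring
  | leg i =>
    simp only [v1] at hv
    obtain rfl := Option.some.inj hv
    have h1 : p.1 ≠ 0 := hp.1
    simp only [wv, W1, TB.map, vx]
    rw [φ_eq i (T.top i), div_eq_iff (pow_ne_zero _ h1), ← pow_mul]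
    ring
  | vert i k w₀ =>
    simp only [v1] at hv
    obtain rfl := Option.some.inj hv
    have h1 : p.1 ≠ 0 := hp
    simp only [wv, W1, TB.map, vx]
    rw [φ_eq i k, div_eq_iff (pow_ne_zero _ h1), ← pow_mul]
    ring

lemma W2_eq {c : Ch T.m} (hc : T.Valid c) {v : Vtx} (hv : v2 T c = some v) {p : ℂ × ℂ}
    (hp : T.Gen c p) : wv T v (T.map c p) = W2 c p := by
  cases c with
  | edge i k k' =>
    simp only [v2] at hv
    obtain rfl := Option.some.inj hv
    have hkk : k < k' := hc.2.2.1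
    have h1 : p.1 ≠ 0 := hp.1
    have h2 : p.2 ≠ 0 := hp.2
    simp only [wv, W2, TB.map, vx]
    rw [φ_eq i k']
    have e1 : p.1 ^ (T.M * k') = p.1 ^ (T.M * k) * p.1 ^ (T.M * (k' - k)) := by
      rw [← pow_add, ← Nat.mul_add]; congr 2; omega
    have e2 : p.1 ^ (T.M * (k' - k)) * (p.1 ^ (T.M * (k' - k)))⁻¹ = 1 :=
      mul_inv_cancel₀ (pow_ne_zero _ h1)
    rw [div_eq_iff (pow_ne_zero _ (mul_ne_zero h1 h2)), ← pow_mul, mul_pow p.1 p.2 (T.M * k')]
    linear_combination (-(p.1 ^ (T.M * k) * p.2 ^ (T.M * k'))) * e2 +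
      ((p.1 ^ (T.M * (k' - k)))⁻¹ * p.2 ^ (T.M * k')) * (-e1)
  | leg i => simp [v2] at hv
  | vert i k w₀ => simp [v2] at hv

variable (S : Sh T)

lemma two_r_pos (c : Ch T.m) : 0 < 2 * S.r c := by have := S.pos c; linarith

lemma lt_two_r {c : Ch T.m} {x : ℝ} (h : x ≤ S.r c) : x < 2 * S.r c := by
  have := S.pos c; linarith

lemma map_cont {c : Ch T.m} (hc : T.Valid c) :
    ContinuousOn (T.map c) (BD (2 * S.r c) (2 * S.r c)) := fun p hp =>
  (T.map_an c ((S.sheets c hc).mem p hp).2).continuousAt.continuousWithinAt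

lemma wc_cont {c : Ch T.m} (hc : T.Valid c) (j : Fin T.d) :
    ContinuousOn (wc S c j) (BD (2 * S.r c) (2 * S.r c)) := by
  have h1 := map_cont S hc
  have h2 : ContinuousOn (S.ζ c j) (BD (2 * S.r c) (2 * S.r c)) :=
    ((S.sheets c hc).an j).continuousOn
  rw [continuousOn_pi]
  intro i
  fin_cases i
  · exact h2
  · exact h1.fst
  · exact h1.snd

lemma hk_comp {c : Ch T.m} {D : Set (ℂ × ℂ)} {g : ℂ × ℂ → ℂ} (i : Fin T.m) (k : ℕ)
    (hg : ContinuousOn g D) (h : ∀ p ∈ D, g p ∈ ball (0 : ℂ) T.ρ) :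
    ContinuousOn (fun p => hk (T.φ i) k (g p)) D :=
  (hk_cont i k).comp hg h

lemma W1_cont {c : Ch T.m} (hc : T.Valid c) :
    ContinuousOn (W1 c) (BD (2 * S.r c) (2 * S.r c)) := by
  have hm := (S.sheets c hc).mem
  cases c with
  | edge i k k' =>
    refine (hk_comp (c := .edge i k k') i k ?_ ?_).add ?_
    · exact Continuous.continuousOn (by fun_prop)
    · intro p hp
      rw [mem_ball, dist_zero_right, norm_pow]
      exact (hm p hp).2
    · exact Continuous.continuousOn (by fun_prop)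
  | leg i =>
    refine (hk_comp (c := .leg i) i _ ?_ ?_).add ?_
    · exact Continuous.continuousOn (by fun_prop)
    · intro p hp
      rw [mem_ball, dist_zero_right, norm_pow]
      exact (hm p hp).2
    · exact Continuous.continuousOn (by fun_prop)
  | vert i k w₀ =>
    refine (hk_comp (c := .vert i k w₀) i _ ?_ ?_).add ?_
    · exact Continuous.continuousOn (by fun_prop)
    · intro p hp
      rw [mem_ball, dist_zero_right, norm_pow]
      exact (hm p hp).2
    · exact Continuous.continuousOn (by fun_prop)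

lemma W2_cont {c : Ch T.m} (hc : T.Valid c) :
    ContinuousOn (W2 c) (BD (2 * S.r c) (2 * S.r c) ∩ {p | p.1 ≠ 0}) := by
  have hm := (S.sheets c hc).mem
  cases c with
  | edge i k k' =>
    refine (hk_comp (c := .edge i k k') i k' ?_ ?_).add ?_
    · exact Continuous.continuousOn (by fun_prop)
    · intro p hp
      rw [mem_ball, dist_zero_right, norm_pow]
      exact (hm p hp.1).2
    · refine ContinuousOn.inv₀ (Continuous.continuousOn (by fun_prop)) ?_
      intro p hp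
      exact pow_ne_zero _ hp.2
  | leg i => exact continuousOn_const
  | vert i k w₀ => exact continuousOn_const

lemma v1_mem {c : Ch T.m} (hc : T.Valid c) {v : Vtx} (hv : v1 T c = some v) : v ∈ Vs T := by
  cases c with
  | edge i k k' =>
    simp only [v1] at hv
    split_ifs at hv with hk0
    obtain rfl := Option.some.inj hv
    rcases hc.1 with h | h
    · exact absurd h hk0
    · exact vx_mem h
  | leg i =>
    simp only [v1] at hv
    obtain rfl := Option.some.inj hv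
    exact vx_mem (T.top_mem i)
  | vert i k w₀ =>
    simp only [v1] at hv
    obtain rfl := Option.some.inj hv
    exact vx_mem hc.1

lemma v2_mem {c : Ch T.m} (hc : T.Valid c) {v : Vtx} (hv : v2 T c = some v) : v ∈ Vs T := by
  cases c with
  | edge i k k' =>
    simp only [v2] at hv
    obtain rfl := Option.some.inj hv
    exact vx_mem hc.2.1
  | leg i => simp [v2] at hv
  | vert i k w₀ => simp [v2] at hv

lemma W1_zero {c : Ch T.m} (hc : T.Valid c) {v : Vtx} (hv : v1 T c = some v) {b : ℂ}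
    (hb : ‖b‖ ≤ S.r c) (hb0 : IsV c ∨ b ≠ 0) : W1 c (0, b) ∉ sp T v := by
  have hM := T.M_pos.ne'
  have hb2 : ‖b‖ ≤ 2 * S.r c := (lt_two_r S hb).le
  cases c with
  | edge i k k' =>
    simp only [v1] at hv
    split_ifs at hv with hk0
    obtain rfl := Option.some.inj hv
    simp only [W1, zero_mul, zero_pow hM, hk_φ]
    rw [mem_sp_vx]
    exact (S.fare i k k' hc b (hb0.resolve_left (by simp [IsV])) hb2).1
  | leg i =>
    simp only [v1] at hv
    obtain rfl := Option.some.inj hv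
    simp only [W1, zero_pow hM, hk_φ]
    rw [mem_sp_vx]
    exact S.farl i b (hb0.resolve_left (by simp [IsV])) hb2
  | vert i k w₀ =>
    simp only [v1] at hv
    obtain rfl := Option.some.inj hv
    simp only [W1, zero_pow hM, hk_φ]
    rw [mem_sp_vx]
    exact S.far i k w₀ hc _ (by rw [add_sub_cancel_left]; exact hb2)

lemma W2_zero {c : Ch T.m} (hc : T.Valid c) {v : Vtx} (hv : v2 T c = some v) {a : ℂ}
    (ha : ‖a‖ ≤ S.r c) (ha0 : a ≠ 0) : W2 c (a, 0) ∉ sp T v := by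
  have hM := T.M_pos.ne'
  have ha2 : ‖a‖ ≤ 2 * S.r c := (lt_two_r S ha).le
  cases c with
  | edge i k k' =>
    simp only [v2] at hv
    obtain rfl := Option.some.inj hv
    simp only [W2, mul_zero, zero_pow hM, hk_φ]
    rw [mem_sp_vx]
    exact (S.fare i k k' hc a ha0 ha2).2
  | leg i => simp [v2] at hv
  | vert i k w₀ => simp [v2] at hv

lemma root_wc {c : Ch T.m} (hc : T.Valid c) (j : Fin T.d) {p : ℂ × ℂ}
    (hp : p ∈ BD (2 * S.r c) (2 * S.r c)) : (T.Q (T.map c p)).eval (S.ζ c j p) = 0 := by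
  rw [(S.sheets c hc).split p hp, eval_prod_X_sub_C]
  exact ⟨j, rfl⟩

lemma map_ne {c : Ch T.m} {p : ℂ × ℂ} (hp : T.Gen c p) : (T.map c p).1 ≠ 0 := by
  cases c with
  | edge i k k' => exact mul_ne_zero hp.1 hp.2
  | leg i => exact hp.1
  | vert i k w₀ => exact hp

lemma gen_of {c : Ch T.m} {p : ℂ × ℂ} (h1 : p.1 ≠ 0) (h2 : IsV c ∨ p.2 ≠ 0) : T.Gen c p := by
  cases c with
  | edge i k k' => exact ⟨h1, h2.resolve_left (by simp [IsV])⟩
  | leg i => exact ⟨h1, h2.resolve_left (by simp [IsV])⟩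
  | vert i k w₀ => exact h1

variable (U)

/-- points near the first axis are in the tube -/
theorem InT1 {c : Ch T.m} (hc : T.Valid c) {v : Vtx} (hv : v1 T c = some v) {K : Set ℂ}
    (hK : IsCompact K) (hKr : ∀ b ∈ K, ‖b‖ ≤ S.r c ∧ (IsV c ∨ b ≠ 0)) :
    ∃ a > 0, a ≤ S.r c ∧ ∀ p : ℂ × ℂ, p.1 ≠ 0 → ‖p.1‖ < a → p.2 ∈ K → ∀ j,
      InT U v (wc S c j p) := by
  have hM := T.M_pos.ne'
  obtain ⟨a, ha, h⟩ := near_axis U (v1_mem hc hv) (W := W1 c) (s := fun p => (T.map c p).1)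
    (isOpen_BD (2 * S.r c) (2 * S.r c)) (W1_cont S hc) (map_cont S hc).fst hK (by
      intro b hb
      obtain ⟨h1, h2⟩ := hKr b hb
      refine ⟨⟨by simpa using S.pos c, lt_two_r S h1⟩, ?_, W1_zero S hc hv h1 h2⟩
      cases c <;> simp [TB.map])
  refine ⟨min a (S.r c), lt_min ha (S.pos c), min_le_right _ _, fun p hp1 hp2 hp3 j => ?_⟩
  obtain ⟨h1, h2, h3⟩ := h p (hp2.trans_le (min_le_left _ _)) hp3
  have hgen : T.Gen c p := gen_of hp1 (hKr _ hp3).2
  have hW := W1_eq hc hv hgen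
  refine ⟨v1_mem hc hv, map_ne hgen, ?_, ?_, root_wc S hc j h1⟩
  · show wv T v (T.map c p) ∉ sp T v
    rw [hW]; exact h2
  · show ‖(T.map c p).1‖ < U.ρ v (wv T v (T.map c p))
    rw [hW]; exact h3

/-- points near the second axis are in the tube -/
theorem InT2 {c : Ch T.m} (hc : T.Valid c) {v : Vtx} (hv : v2 T c = some v) {K : Set ℂ}
    (hK : IsCompact K) (hKr : ∀ b ∈ K, ‖b‖ ≤ S.r c ∧ b ≠ 0) :
    ∃ a > 0, a ≤ S.r c ∧ ∀ p : ℂ × ℂ, p.2 ≠ 0 → ‖p.2‖ < a → p.1 ∈ K → ∀ j,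
      InT U v (wc S c j p) := by
  have hM := T.M_pos.ne'
  let D : Set (ℂ × ℂ) := BD (2 * S.r c) (2 * S.r c) ∩ {p | p.1 ≠ 0}
  have hDo : IsOpen D := (isOpen_BD _ _).inter (isOpen_ne_fun continuous_fst continuous_const)
  have hsw : Continuous (Prod.swap : ℂ × ℂ → ℂ × ℂ) := continuous_swap
  obtain ⟨a, ha, h⟩ := near_axis U (v2_mem hc hv) (W := W2 c ∘ Prod.swap)
    (s := (fun p => (T.map c p).1) ∘ Prod.swap) (D := Prod.swap ⁻¹' D)
    (hDo.preimage hsw) ((W2_cont S hc).comp hsw.continuousOn fun p hp => hp)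
    (((map_cont S hc).fst.mono inter_subset_left).comp hsw.continuousOn fun p hp => hp) hK (by
      intro b hb
      obtain ⟨h1, h2⟩ := hKr b hb
      refine ⟨⟨⟨lt_two_r S h1, by simpa using S.pos c⟩, h2⟩, ?_, W2_zero S hc hv h1 h2⟩
      cases c with
      | edge i k k' => simp [TB.map]
      | leg i => simp [v2] at hv
      | vert i k w₀ => simp [v2] at hv)
  refine ⟨min a (S.r c), lt_min ha (S.pos c), min_le_right _ _, fun p hp1 hp2 hp3 j => ?_⟩
  obtain ⟨h1, h2, h3⟩ := h p.swap (hp2.trans_le (min_le_left _ _)) hp3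
  have hgen : T.Gen c p := gen_of (hKr _ hp3).2 (Or.inr hp1)
  have hW := W2_eq hc hv hgen
  refine ⟨v2_mem hc hv, map_ne hgen, ?_, ?_, root_wc S hc j h1.1⟩
  · show wv T v (T.map c p) ∉ sp T v
    rw [hW]; exact h2
  · show ‖(T.map c p).1‖ < U.ρ v (wv T v (T.map c p))
    rw [hW]; exact h3

/-- the compact part of an axis -/
def Kt (t r : ℝ) : Set ℂ := {z | ‖z‖ ∈ Icc t r}

lemma isCompact_Kt (t r : ℝ) : IsCompact (Kt t r) := by
  have h1 : Kt t r = closedBall (0 : ℂ) r ∩ {z | t ≤ ‖z‖} := by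
    ext z
    simp [Kt, and_comm]
  rw [h1]
  exact (isCompact_closedBall _ _).inter_right (isClosed_le continuous_const continuous_norm)

lemma isPreconnected_Kt {t r : ℝ} (ht : 0 ≤ t) : IsPreconnected (Kt t r) :=
  isPreconnected_norm isPreconnected_Icc fun _ hx => ht.trans hx.1

/-- a punctured disc -/
def Pd (a : ℝ) : Set ℂ := {z | ‖z‖ ∈ Ioo 0 a}

lemma isPreconnected_Pd (a : ℝ) : IsPreconnected (Pd a) :=
  isPreconnected_norm isPreconnected_Ioo fun _ hx => hx.1.le

end Crest.Agent.R257.Lab_931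
end
private theorem rz_94dc82be16 : type_of% @_root_.Crest.Agent.R257.Lab_931.W1.eq_1 := @_root_.Crest.Agent.R257.Lab_931.W1.eq_1 -- L27
private theorem rz_6b0fab0dbb : type_of% @_root_.Crest.Agent.R257.Lab_931.W2.eq_1 := @_root_.Crest.Agent.R257.Lab_931.W2.eq_1 -- L33
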