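import Mathlib
import Crest.Agent.R257.Lab3_931

-- ▼ part R257/Lab4_931
section

/-!
Row 257 (S0395), part C, task C-LAB (helper931), file 4: **existence of the labels**
`nonempty_lab : RetStmt U → ∀ S, Nonempty (Lab U S)`, the form of the labels (`form1`, `form2`),
and the surjectivity (`surj1`, `surj2`), `finite_II`.
-/

set_option autoImplicit false
set_option linter.unusedSectionVars false

open Polynomial Set Filter Topology Metric
open Crest.AlgGeometry.Germ Crest.Agent.R257.AJ387 Crest.Agent.R257.T387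
open Crest.Agent.R257.Gr1_157 Crest.Agent.R257.BP_258

noncomputable section

namespace Crest.Agent.R257.Lab_931

variable {f : (Fin 3 → ℂ) → ℂ} {T : TB f} {U : Tub T}

/-- one component for all the regions along an axis -/
theorem axis (hR : RetStmt U) {v : Vtx} (hv : v ∈ Vs T) {r : ℝ} (hr : 0 < r) {P : Prop}
    {x : ℂ × ℂ → Fin 3 → ℂ} (hx : ContinuousOn x (BD (2 * r) (2 * r)))
    (hin : ∀ t, (0 < t ∨ (t = 0 ∧ P)) → ∃ a > 0, a ≤ r ∧ ∀ p ∈ Pd a ×ˢ Kt t r, InT U v (x p)) :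
    ∃ E : ConnectedComponents (XV U v), ∀ t, (0 < t ∨ (t = 0 ∧ P)) → ∃ a > 0, a ≤ r ∧
      ∀ p ∈ Pd a ×ˢ Kt t r, InT U v (x p) ∧ ∀ q, IsRet U v (x p) q →
        (q : ConnectedComponents (XV U v)) = E := by
  obtain ⟨a₀, ha₀, har₀, h₀⟩ := hin r (Or.inl hr)
  have hrK : ∀ t, t ≤ r → ((r : ℝ) : ℂ) ∈ Kt t r := fun t ht => by
    show ‖((r : ℝ) : ℂ)‖ ∈ Icc t r
    rw [Complex.norm_real, Real.norm_eq_abs, abs_of_pos hr]
    exact ⟨ht, le_rfl⟩
  have hPd : ∀ a b : ℝ, 0 < b → b < a → ((b : ℝ) : ℂ) ∈ Pd a := fun a b hb hba => by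
    show ‖((b : ℝ) : ℂ)‖ ∈ Ioo 0 a
    rw [Complex.norm_real, Real.norm_eq_abs, abs_of_pos hb]
    exact ⟨hb, hba⟩
  have hp₀ : (((a₀ / 2 : ℝ) : ℂ), ((r : ℝ) : ℂ)) ∈ Pd a₀ ×ˢ Kt r r :=
    ⟨hPd _ _ (by positivity) (by linarith), hrK r le_rfl⟩
  obtain ⟨q₀, hq₀⟩ := ((hR v hv).1 _ (h₀ _ hp₀)).exists
  have hcont : ∀ a t, a ≤ r → ContinuousOn x (Pd a ×ˢ Kt t r) := fun a t ha => hx.mono (by
    rintro ⟨z, b⟩ ⟨h1, h2⟩
    exact ⟨by have := h1.2; show ‖z‖ < 2 * r; linarith,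
      by have := h2.2; show ‖b‖ < 2 * r; linarith⟩)
  have hpre : ∀ a t, 0 ≤ t → IsPreconnected (Pd a ×ˢ Kt t r) := fun a t ht =>
    (isPreconnected_Pd a).prod (isPreconnected_Kt ht)
  refine ⟨q₀, fun t ht => ?_⟩
  have ht0 : 0 ≤ t := by
    rcases ht with h | h
    · exact h.le
    · exact h.1.ge
  obtain ⟨a, ha, har, h⟩ := hin t ht
  refine ⟨a, ha, har, fun p hp => ⟨h p hp, fun q hq => ?_⟩⟩
  have htr : t ≤ r := hp.2.1.trans hp.2.2
  have hm : 0 < min a a₀ := lt_min ha ha₀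
  have hp1 : (((min a a₀ / 2 : ℝ) : ℂ), ((r : ℝ) : ℂ)) ∈ Pd a ×ˢ Kt t r :=
    ⟨hPd _ _ (by positivity) (by have := min_le_left a a₀; linarith), hrK t htr⟩
  have hp2 : (((min a a₀ / 2 : ℝ) : ℂ), ((r : ℝ) : ℂ)) ∈ Pd a₀ ×ˢ Kt r r :=
    ⟨hPd _ _ (by positivity) (by have := min_le_right a a₀; linarith), hrK r le_rfl⟩
  obtain ⟨q₁, hq₁⟩ := ((hR v hv).1 _ (h _ hp1)).exists
  rw [comp_const hR (hpre a t ht0) (hcont a t har) h hp hp1 hq hq₁]
  exact comp_const hR (hpre a₀ r hr.le) (hcont a₀ r har₀) h₀ hp2 hp₀ hq₁ hq₀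

variable (S : Sh T)

theorem exists_e1 (hR : RetStmt U) {c : Ch T.m} (hc : T.Valid c) (j : Fin T.d) :
    ∃ e : Option (II U), e.map (fun E => E.1.1) = v1 T c ∧
      ∀ E, e = some E → ∀ τ > 0, ∃ a > 0, ∀ p : ℂ × ℂ,
        0 < ‖p.1‖ → ‖p.1‖ < a → ‖p.2‖ ≤ S.r c → (IsV c ∨ τ ≤ ‖p.2‖) →
        InT U E.1.1 (wc S c j p) ∧ ∀ q, IsRet U E.1.1 (wc S c j p) q →
          (q : ConnectedComponents _) = E.2 := by
  rcases hv : v1 T c with _ | v
  · exact ⟨none, rfl, fun E hE => by simp at hE⟩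
  have hvV := v1_mem hc hv
  obtain ⟨C, hC⟩ := axis (U := U) hR hvV (S.pos c) (P := IsV c) (wc_cont S hc j) (by
    intro t ht
    obtain ⟨a, ha, har, h⟩ := InT1 U S hc hv (isCompact_Kt t (S.r c)) (by
      intro b hb
      refine ⟨hb.2, ?_⟩
      rcases ht with h | h
      · right
        intro h0
        have h1 := hb.1
        rw [h0, norm_zero] at h1
        linarith
      · exact Or.inl h.2)
    exact ⟨a, ha, har, fun p hp => h p (norm_pos_iff.1 hp.1.1) hp.1.2 hp.2 j⟩)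
  refine ⟨some ⟨⟨v, hvV⟩, C⟩, rfl, fun E hE τ hτ => ?_⟩
  obtain rfl := Option.some.inj hE
  by_cases hI : IsV c
  · obtain ⟨a, ha, -, h⟩ := hC 0 (Or.inr ⟨rfl, hI⟩)
    exact ⟨a, ha, fun p h1 h2 h3 _ => h p ⟨⟨h1, h2⟩, ⟨norm_nonneg _, h3⟩⟩⟩
  · obtain ⟨a, ha, -, h⟩ := hC τ (Or.inl hτ)
    exact ⟨a, ha, fun p h1 h2 h3 h4 => h p ⟨⟨h1, h2⟩, ⟨h4.resolve_left hI, h3⟩⟩⟩

theorem exists_e2 (hR : RetStmt U) {c : Ch T.m} (hc : T.Valid c) (j : Fin T.d) :
    ∃ e : Option (II U), e.map (fun E => E.1.1) = v2 T c ∧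
      ∀ E, e = some E → ∀ τ > 0, ∃ a > 0, ∀ p : ℂ × ℂ,
        0 < ‖p.2‖ → ‖p.2‖ < a → ‖p.1‖ ≤ S.r c → τ ≤ ‖p.1‖ →
        InT U E.1.1 (wc S c j p) ∧ ∀ q, IsRet U E.1.1 (wc S c j p) q →
          (q : ConnectedComponents _) = E.2 := by
  rcases hv : v2 T c with _ | v
  · exact ⟨none, rfl, fun E hE => by simp at hE⟩
  have hvV := v2_mem hc hv
  obtain ⟨C, hC⟩ := axis (U := U) hR hvV (S.pos c) (P := False)
    (x := wc S c j ∘ Prod.swap)
    ((wc_cont S hc j).comp continuous_swap.continuousOn fun p hp => ⟨hp.2, hp.1⟩) (by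
    intro t ht
    have ht0 : 0 < t := by
      rcases ht with h | h
      · exact h
      · exact h.2.elim
    obtain ⟨a, ha, har, h⟩ := InT2 U S hc hv (isCompact_Kt t (S.r c)) (by
      intro b hb
      refine ⟨hb.2, ?_⟩
      intro h0
      have h1 := hb.1
      rw [h0, norm_zero] at h1
      linarith)
    exact ⟨a, ha, har, fun p hp => h p.swap (norm_pos_iff.1 hp.1.1) hp.1.2 hp.2 j⟩)
  refine ⟨some ⟨⟨v, hvV⟩, C⟩, rfl, fun E hE τ hτ => ?_⟩
  obtain rfl := Option.some.inj hE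
  obtain ⟨a, ha, -, h⟩ := hC τ (Or.inl hτ)
  exact ⟨a, ha, fun p h1 h2 h3 h4 => h p.swap ⟨⟨h1, h2⟩, ⟨h4, h3⟩⟩⟩

/-- **existence of the labels** -/
theorem nonempty_lab (hR : RetStmt U) : Nonempty (Lab U S) := by
  have h1 : ∀ c, Ok S c → ∀ j, ∃ e : Option (II U), _ := fun c hc j => exists_e1 S hR hc.1 j
  have h2 : ∀ c, Ok S c → ∀ j, ∃ e : Option (II U), _ := fun c hc j => exists_e2 S hR hc.1 j
  choose! e₁ he₁ using h1
  choose! e₂ he₂ using h2
  exact ⟨{
    e1 := e₁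
    e2 := e₂
    v_e1 := fun c hc j => (he₁ c hc j).1
    v_e2 := fun c hc j => (he₂ c hc j).1
    near1 := fun c hc j E hE => (he₁ c hc j).2 E hE
    near2 := fun c hc j E hE => (he₂ c hc j).2 E hE }⟩

variable {S}

/-- the form of the first label -/
theorem form1 (L : Lab U S) {c : Ch T.m} (hc : Ok S c) (j : Fin T.d) {v : Vtx}
    (hv1 : v1 T c = some v) (hv : v ∈ Vs T) : ∃ C : ConnectedComponents (XV U v),
    L.e1 c j = some ⟨⟨v, hv⟩, C⟩ ∧ ∀ τ > 0, ∃ a > 0, ∀ p : ℂ × ℂ,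
      0 < ‖p.1‖ → ‖p.1‖ < a → ‖p.2‖ ≤ S.r c → (IsV c ∨ τ ≤ ‖p.2‖) →
      InT U v (wc S c j p) ∧ ∀ q, IsRet U v (wc S c j p) q →
        (q : ConnectedComponents (XV U v)) = C := by
  have h1 := L.v_e1 c hc j
  rw [hv1] at h1
  rcases he : L.e1 c j with _ | ⟨⟨v', hv'⟩, C⟩
  · rw [he] at h1; simp at h1
  · rw [he] at h1
    have h2 : v' = v := by simpa using h1
    subst h2
    exact ⟨C, rfl, L.near1 c hc j _ he⟩

/-- the form of the second label -/
theorem form2 (L : Lab U S) {c : Ch T.m} (hc : Ok S c) (j : Fin T.d) {v : Vtx}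
    (hv2 : v2 T c = some v) (hv : v ∈ Vs T) : ∃ C : ConnectedComponents (XV U v),
    L.e2 c j = some ⟨⟨v, hv⟩, C⟩ ∧ ∀ τ > 0, ∃ a > 0, ∀ p : ℂ × ℂ,
      0 < ‖p.2‖ → ‖p.2‖ < a → ‖p.1‖ ≤ S.r c → τ ≤ ‖p.1‖ →
      InT U v (wc S c j p) ∧ ∀ q, IsRet U v (wc S c j p) q →
        (q : ConnectedComponents (XV U v)) = C := by
  have h1 := L.v_e2 c hc j
  rw [hv2] at h1
  rcases he : L.e2 c j with _ | ⟨⟨v', hv'⟩, C⟩
  · rw [he] at h1; simp at h1
  · rw [he] at h1
    have h2 : v' = v := by simpa using h1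
    subst h2
    exact ⟨C, rfl, L.near2 c hc j _ he⟩

lemma e1_none {L : Lab U S} {c : Ch T.m} (hc : Ok S c) {j : Fin T.d} (h : v1 T c = none) :
    L.e1 c j = none := by
  have h1 := L.v_e1 c hc j
  rw [h] at h1
  simpa using h1

lemma e2_none {L : Lab U S} {c : Ch T.m} (hc : Ok S c) {j : Fin T.d} (h : v2 T c = none) :
    L.e2 c j = none := by
  have h1 := L.v_e2 c hc j
  rw [h] at h1
  simpa using h1

/-- every component is the component of the retraction of some sheet -/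
theorem hit (hR : RetStmt U) {v : Vtx} (hv : v ∈ Vs T) (C : ConnectedComponents (XV U v))
    {c : Ch T.m} (hc : T.Valid c) {p : ℂ × ℂ} (hp : p ∈ BD (2 * S.r c) (2 * S.r c))
    (hin : ∀ j, InT U v (wc S c j p)) :
    ∃ j q, IsRet U v (wc S c j p) q ∧ (q : ConnectedComponents (XV U v)) = C := by
  obtain ⟨q₀, rfl⟩ := ConnectedComponents.surjective_coe C
  have j₀ : Fin T.d := ⟨0, T.d_pos⟩
  have h0 := hin j₀
  set s : ℂ := (T.map c p).1 with hs
  set y : ℂ := (T.map c p).2 with hy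
  have hs0 : s ≠ 0 := h0.ne
  have hnsp : wv T v (s, y) ∉ sp T v := h0.nsp
  have hlt : ‖s‖ < U.ρ v (wv T v (s, y)) := h0.lt
  obtain ⟨q, hq1, hq2⟩ := exists_over hR hv q₀ hnsp
  obtain ⟨-, hl⟩ := hR v hv
  obtain ⟨r, hr, R, hR0, Z, σ, h1, h2, h3, h4, h5, h6, h7, h8, h9⟩ := hl _ hnsp
  set w := wv T v (s, y) with hw
  have hyv : yv T v (s, w) = y := yv_wv v y hs0
  obtain ⟨j', hj'⟩ := h8 q (by rw [hq1]; exact mem_ball_self hr)
  rw [hq1] at hj'
  have hret := h9 j' w (mem_ball_self hr) s hs0 hlt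
  rw [hyv, hj'] at hret
  have hsR : (s, w) ∈ ball (0 : ℂ) R ×ˢ ball w r := by
    refine ⟨?_, mem_ball_self hr⟩
    show s ∈ ball (0 : ℂ) R
    rw [mem_ball, dist_zero_right]
    exact hlt.trans (h1 w (mem_ball_self hr)).2
  have h10 := (h3 _ hsR).2.2
  have h11 : (T.Q (s, y)).eval (Z j' (s, w)) = 0 := by
    change T.Q (s, yv T v (s, w)) = _ at h10
    rw [hyv] at h10
    rw [h10, eval_prod_X_sub_C]
    exact ⟨j', rfl⟩
  have h13 : T.Q (s, y) = ∏ j, (X - C (S.ζ c j p)) := (S.sheets c hc).split p hp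
  rw [h13, eval_prod_X_sub_C] at h11
  obtain ⟨j, hj⟩ := h11
  refine ⟨j, q, ?_, hq2⟩
  rw [hj] at hret
  exact hret

end Crest.Agent.R257.Lab_931
end
end

-- ▼ part R257/Lab5_931

/-!
Row 257 (S0395), part C, task C-LAB (helper931), file 5.

* `vx_ci`, `co_ci`, `hk_ci` : the canonical centre;
* `surj2` : every component is `e2` of a sheet of its parent edge;
* `surj1` : every component is `e1` of a vertex chart (at any ordinary point);
* `finite_II` : there are finitely many components;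
* `dg_Mx`, `dt_Mx`, **`iform`** : `IForm (Mx L)`.
-/

set_option autoImplicit false
set_option linter.unusedSectionVars false

open Polynomial Set Filter Topology Metric
open Crest.AlgGeometry.Germ Crest.Agent.R257.AJ387 Crest.Agent.R257.T387
open Crest.Agent.R257.Gr1_157 Crest.Agent.R257.BP_258

noncomputable section

namespace Crest.Agent.R257.Lab_931

variable {f : (Fin 3 → ℂ) → ℂ} {T : TB f} {U : Tub T} {S : Sh T}

lemma mem_Vs {v : Vtx} : v ∈ Vs T ↔ ∃ i, v.1 ∈ T.lev i ∧ v = vx T i v.1 := by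
  classical
  unfold Vs
  simp only [Finset.mem_biUnion, Finset.mem_univ, true_and, Finset.mem_image]
  constructor
  · rintro ⟨i, k, hk, rfl⟩
    exact ⟨i, hk, rfl⟩
  · rintro ⟨i, hk, h⟩
    exact ⟨i, v.1, hk, h.symm⟩

lemma iter_eq {g h u : ℂ → ℂ} (hg : AnalyticAt ℂ g 0) (hh : AnalyticAt ℂ h 0)
    (hu : AnalyticAt ℂ u 0) {k : ℕ} (he : ∀ᶠ s in 𝓝 (0 : ℂ), g s - h s = s ^ k * u s) {n : ℕ}
    (hn : n < k) : iteratedDeriv n g 0 = iteratedDeriv n h 0 := by
  have h2 : ((k : ℕ) : ℕ∞) ≤ analyticOrderAt (g - h) 0 := by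
    rw [natCast_le_analyticOrderAt (hg.sub hh)]
    refine ⟨u, hu, ?_⟩
    filter_upwards [he] with s hs
    simpa using hs
  have h3 := (natCast_le_analyticOrderAt_iff_iteratedDeriv_eq_zero (hg.sub hh)).1 h2 n hn
  have h4 : iteratedDeriv n (g - h) 0 = iteratedDeriv n g 0 - iteratedDeriv n h 0 :=
    iteratedDeriv_sub hg.contDiffAt hh.contDiffAt
  rwa [h4, sub_eq_zero] at h3

lemma hk_an (i : Fin T.m) (k : ℕ) : AnalyticAt ℂ (hk (T.φ i) k) 0 :=
  (hk_diff T.ρ_pos (fun s hs => (T.φ_an i s hs).differentiableAt.differentiableWithinAt)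
    k).analyticAt (ball_mem_nhds _ T.ρ_pos)

variable (S)

lemma tr_ci {v : Vtx} (hv : v ∈ Vs T) : tr T (S.ci v) v.1 = v.2 := by
  obtain ⟨i, hk, he⟩ := mem_Vs.1 hv
  have h2 : v.2 = tr T i v.1 := congrArg Prod.snd he
  rw [h2]
  unfold tr
  refine Finset.sum_congr rfl fun n hn => ?_
  have hn' := Finset.mem_range.1 hn
  have h3 : iteratedDeriv n (T.φ i) 0 = iteratedDeriv n (T.φ (S.ci v)) 0 := by
    refine iter_eq (φ_an0 i) (φ_an0 _) (hk_an i v.1) ?_ hn'
    filter_upwards [ball_mem_nhds (0 : ℂ) T.ρ_pos] with s hs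
    rw [S.ci_eq v hv s hs, φ_eq i v.1, h2]
    ring
  simp only [co, h3]

lemma vx_ci {v : Vtx} (hv : v ∈ Vs T) : vx T (S.ci v) v.1 = v := by
  have := tr_ci S hv
  unfold vx
  rw [this]

lemma hk_ci {v : Vtx} (hv : v ∈ Vs T) {s : ℂ} (hs : s ∈ ball (0 : ℂ) T.ρ) :
    hk (T.φ (S.ci v)) v.1 s = 0 := by
  have key : ∀ s ∈ ball (0 : ℂ) T.ρ, s ≠ 0 → hk (T.φ (S.ci v)) v.1 s = 0 := by
    intro s hs h0
    have h1 := S.ci_eq v hv s hs
    rw [φ_eq (S.ci v) v.1, tr_ci S hv] at h1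
    have h2 : s ^ v.1 * hk (T.φ (S.ci v)) v.1 s = 0 := by linear_combination h1
    exact (mul_eq_zero.1 h2).resolve_left (pow_ne_zero _ h0)
  by_cases h0 : s = 0
  · subst h0
    have c1 : ContinuousAt (fun s => hk (T.φ (S.ci v)) v.1 s) 0 :=
      (hk_cont _ _).continuousAt (ball_mem_nhds _ T.ρ_pos)
    have c2 : ContinuousAt (fun _ : ℂ => (0 : ℂ)) 0 := continuousAt_const
    refine tendsto_nhds_unique_of_frequently_eq c1 c2 ?_
    have hf : ∃ᶠ s in 𝓝 (0 : ℂ), s ≠ 0 := by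
      exact frequently_mem_iff_neBot.2 (by exact NormedField.nhdsNE_neBot (0 : ℂ))
    exact (hf.and_eventually (ball_mem_nhds (0 : ℂ) T.ρ_pos)).mono fun s h => key s h.2 h.1
  · exact key s hs h0

lemma co_ci {v : Vtx} (hv : v ∈ Vs T) : co T (S.ci v) v.1 = 0 := by
  rw [← hk_φ]
  exact hk_ci S hv (mem_ball_self T.ρ_pos)

lemma mem_sp_iff {v : Vtx} (hv : v ∈ Vs T) (w : ℂ) : w ∈ sp T v ↔ w ∈ T.Sp (S.ci v) v.1 := by
  have h1 := mem_sp_vx (S.ci v) v.1 w
  rwa [co_ci S hv, zero_add, vx_ci S hv] at h1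

lemma ok_ec {v : Vtx} (hv : v ∈ Vs T) : Ok S (ec S v) :=
  ⟨S.kp_cons v hv, v, hv, rfl, rfl, rfl⟩

lemma v2_ec {v : Vtx} (hv : v ∈ Vs T) : v2 T (ec S v) = some v := by
  show some (vx T (S.ci v) v.1) = some v
  rw [vx_ci S hv]

lemma ok_vert {v : Vtx} (hv : v ∈ Vs T) {w : ℂ} (hw : w ∉ sp T v) :
    Ok S (.vert (S.ci v) v.1 w) :=
  ⟨⟨(S.kp_cons v hv).2.1, fun h => hw ((mem_sp_iff S hv w).2 h)⟩, v, hv, rfl, rfl, hw⟩

lemma v1_vert {v : Vtx} (hv : v ∈ Vs T) (w : ℂ) : v1 T (.vert (S.ci v) v.1 w) = some v := by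
  show some (vx T (S.ci v) v.1) = some v
  rw [vx_ci S hv]

variable {S}

lemma exists_small {d : ℕ} {a : Fin d → ℝ} (ha : ∀ j, 0 < a j) {r : ℝ} (hr : 0 < r) :
    ∃ b : ℝ, 0 < b ∧ b < r ∧ ∀ j, b < a j := by
  have h1 : ∀ᶠ b in 𝓝[>] (0 : ℝ), 0 < b ∧ b < r ∧ ∀ j, b < a j := by
    refine (eventually_mem_nhdsWithin.mono fun b hb => hb).and ?_
    refine (eventually_nhdsWithin_of_eventually_nhds (eventually_lt_nhds hr)).and ?_
    rw [eventually_all]
    exact fun j => eventually_nhdsWithin_of_eventually_nhds (eventually_lt_nhds (ha j))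
  exact h1.exists

/-- **every component is `e2` of a sheet of its parent edge** -/
theorem surj2 (hR : RetStmt U) (L : Lab U S) (E : II U) : ∃ j, L.e2 (ec S E.1.1) j = some E := by
  obtain ⟨⟨v, hv⟩, C⟩ := E
  have hc := ok_ec S hv
  have hr := S.pos (ec S v)
  choose D hD hD' using fun j => form2 L hc j (v2_ec S hv) hv
  choose a ha h using fun j => hD' j (S.r (ec S v)) hr
  obtain ⟨b, hb, hbr, hba⟩ := exists_small ha hr
  let p : ℂ × ℂ := ((S.r (ec S v) : ℂ), (b : ℂ))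
  have e1 : ‖p.1‖ = S.r (ec S v) := by
    show ‖((S.r (ec S v) : ℝ) : ℂ)‖ = _
    rw [Complex.norm_real, Real.norm_eq_abs, abs_of_pos hr]
  have e2 : ‖p.2‖ = b := by
    show ‖((b : ℝ) : ℂ)‖ = _
    rw [Complex.norm_real, Real.norm_eq_abs, abs_of_pos hb]
  have h1 : ∀ j, InT U v (wc S (ec S v) j p) ∧ ∀ q : XV U v, IsRet U v (wc S (ec S v) j p) q →
      (q : ConnectedComponents (XV U v)) = D j := fun j =>
    h j p (by rw [e2]; exact hb) (by rw [e2]; exact hba j) e1.le e1.ge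
  have hp : p ∈ BD (2 * S.r (ec S v)) (2 * S.r (ec S v)) :=
    ⟨by show ‖p.1‖ < _; rw [e1]; linarith, by show ‖p.2‖ < _; rw [e2]; linarith⟩
  obtain ⟨j, q, hq, hqC⟩ := hit hR hv C hc.1 hp fun j => (h1 j).1
  refine ⟨j, ?_⟩
  have h2 := (h1 j).2 q hq
  show L.e2 (ec S v) j = _
  rw [hD j, ← h2, hqC]

/-- **every component is `e1` of a sheet of every vertex chart** -/
theorem surj1 (hR : RetStmt U) (L : Lab U S) (E : II U) {w : ℂ} (hw : w ∉ sp T E.1.1) :
    ∃ j, L.e1 (.vert (S.ci E.1.1) E.1.1.1 w) j = some E := by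
  obtain ⟨⟨v, hv⟩, C⟩ := E
  change w ∉ sp T v at hw
  have hc := ok_vert S hv hw
  set c : Ch T.m := .vert (S.ci v) v.1 w with hcdef
  have hr := S.pos c
  choose D hD hD' using fun j => form1 L hc j (v1_vert S hv w) hv
  choose a ha h using fun j => hD' j (S.r c) hr
  obtain ⟨b, hb, hbr, hba⟩ := exists_small ha hr
  let p : ℂ × ℂ := ((b : ℂ), (S.r c : ℂ))
  have e1 : ‖p.2‖ = S.r c := by
    show ‖((S.r c : ℝ) : ℂ)‖ = _
    rw [Complex.norm_real, Real.norm_eq_abs, abs_of_pos hr]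
  have e2 : ‖p.1‖ = b := by
    show ‖((b : ℝ) : ℂ)‖ = _
    rw [Complex.norm_real, Real.norm_eq_abs, abs_of_pos hb]
  have h1 : ∀ j, InT U v (wc S c j p) ∧ ∀ q : XV U v, IsRet U v (wc S c j p) q →
      (q : ConnectedComponents (XV U v)) = D j := fun j =>
    h j p (by rw [e2]; exact hb) (by rw [e2]; exact hba j) e1.le (Or.inr e1.ge)
  have hp : p ∈ BD (2 * S.r c) (2 * S.r c) :=
    ⟨by show ‖p.1‖ < _; rw [e2]; linarith, by show ‖p.2‖ < _; rw [e1]; linarith⟩
  obtain ⟨j, q, hq, hqC⟩ := hit hR hv C hc.1 hp fun j => (h1 j).1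
  refine ⟨j, ?_⟩
  have h2 := (h1 j).2 q hq
  show L.e1 c j = _
  rw [hD j, ← h2, hqC]



/-! ### the intersection form -/

section form

variable [Fintype (II U)] (L : Lab U S)

open Classical in
/-- the form of one half-edge -/
def hf (a b : Option (II U)) (E E' : II U) : ℝ :=
  if a = some E then (if b = some E' then 1 else 0) - (if E = E' then 1 else 0) else 0

lemma Mx_eq (E E' : II U) : Mx L E E' = ∑ v ∈ Vs T, ∑ j, cd S v *
    (hf (L.e1 (ec S v) j) (L.e2 (ec S v) j) E E' +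
      hf (L.e2 (ec S v) j) (L.e1 (ec S v) j) E E') := rfl

lemma hf_symm (a b : Option (II U)) (E E' : II U) :
    hf a b E E' + hf b a E E' = hf a b E' E + hf b a E' E := by
  classical
  unfold hf
  by_cases h : E = E'
  · subst h; rfl
  · have h' : ¬ E' = E := fun h1 => h h1.symm
    simp only [h, h', if_false, sub_zero]
    by_cases h1 : a = some E <;> by_cases h2 : b = some E' <;> by_cases h3 : a = some E' <;>
      by_cases h4 : b = some E <;> simp [h1, h2, h3, h4, h, h']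

lemma hf_nonneg (a b : Option (II U)) {E E' : II U} (h : E ≠ E') : 0 ≤ hf a b E E' := by
  classical
  unfold hf
  simp only [h, if_false, sub_zero]
  split_ifs <;> norm_num

lemma hf_sum (a b : Option (II U)) (x : II U → ℝ) (E : II U) :
    ∑ E', hf a b E E' * x E' = open Classical in if a = some E then yo x b - x E else 0 := by
  classical
  unfold hf
  by_cases h : a = some E
  · simp only [h, if_true, sub_mul, ite_mul, one_mul, zero_mul, Finset.sum_sub_distrib,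
      Finset.sum_ite_eq, Finset.mem_univ]
    congr 1
    cases b with
    | none => simp [yo]
    | some e => simp [yo]
  · simp [h]

/-- degrees of a cycle -/
theorem dg_Mx (x : II U → ℝ) (E : II U) : dg (Mx L) x E = ∑ v ∈ Vs T, ∑ j, cd S v *
    ((open Classical in if L.e1 (ec S v) j = some E then yo x (L.e2 (ec S v) j) - x E else 0) +
     (open Classical in if L.e2 (ec S v) j = some E then yo x (L.e1 (ec S v) j) - x E else 0)) := by
  unfold dg
  simp only [Mx_eq, Finset.sum_mul]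
  rw [Finset.sum_comm]
  refine Finset.sum_congr rfl fun v _ => ?_
  rw [Finset.sum_comm]
  refine Finset.sum_congr rfl fun j _ => ?_
  simp only [mul_assoc]
  rw [← Finset.mul_sum]
  congr 1
  simp only [add_mul, Finset.sum_add_distrib]
  rw [hf_sum, hf_sum]

lemma sum_if (a : Option (II U)) (x : II U → ℝ) (z : ℝ) :
    ∑ E, x E * (open Classical in if a = some E then z - x E else 0) =
      yo x a * (z - yo x a) := by
  classical
  cases a with
  | none => simp [yo]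
  | some e => simp [yo]

/-- the square of a cycle -/
theorem dt_Mx (x : II U → ℝ) : dt (Mx L) x x = - ∑ v ∈ Vs T, ∑ j, cd S v *
    (yo x (L.e1 (ec S v) j) - yo x (L.e2 (ec S v) j)) ^ 2 := by
  rw [dt_eq]
  simp only [dg_Mx, Finset.mul_sum]
  rw [Finset.sum_comm, ← Finset.sum_neg_distrib]
  refine Finset.sum_congr rfl fun v _ => ?_
  rw [Finset.sum_comm, ← Finset.sum_neg_distrib]
  refine Finset.sum_congr rfl fun j _ => ?_
  have h1 : ∀ E : II U, x E * (cd S v *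
      ((open Classical in if L.e1 (ec S v) j = some E then yo x (L.e2 (ec S v) j) - x E else 0) +
       (open Classical in if L.e2 (ec S v) j = some E then yo x (L.e1 (ec S v) j) - x E else 0))) =
      cd S v * (x E * (open Classical in if L.e1 (ec S v) j = some E then
          yo x (L.e2 (ec S v) j) - x E else 0) +
        x E * (open Classical in if L.e2 (ec S v) j = some E then
          yo x (L.e1 (ec S v) j) - x E else 0)) := fun E => by ring
  simp only [h1]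
  rw [← Finset.mul_sum, Finset.sum_add_distrib, sum_if, sum_if]
  ring

lemma cd_pos {v : Vtx} (hv : v ∈ Vs T) : 0 < cd S v := by
  unfold cd
  have h1 : 0 < v.1 - S.kp v := by have := (S.kp_cons v hv).2.2.1; omega
  have h2 : (0 : ℝ) < T.M := by exact_mod_cast T.M_pos
  have h3 : (0 : ℝ) < ((v.1 - S.kp v : ℕ) : ℝ) := by exact_mod_cast h1
  positivity

/-- **the intersection form is negative definite** -/
theorem iform (hR : RetStmt U) : IForm (Mx L) := by
  classical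
  refine ⟨fun E E' => ?_, fun E E' h => ?_, fun x hx => ?_⟩
  · rw [Mx_eq, Mx_eq]
    refine Finset.sum_congr rfl fun v _ => Finset.sum_congr rfl fun j _ => ?_
    rw [hf_symm]
  · rw [Mx_eq]
    refine Finset.sum_nonneg fun v hv => Finset.sum_nonneg fun j _ => ?_
    exact mul_nonneg (cd_pos hv).le (add_nonneg (hf_nonneg _ _ h) (hf_nonneg _ _ h))
  · rw [dt_Mx]
    by_contra hcon
    have hnn : ∀ v ∈ Vs T, 0 ≤ ∑ j, cd S v *
        (yo x (L.e1 (ec S v) j) - yo x (L.e2 (ec S v) j)) ^ 2 := fun v hv =>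
      Finset.sum_nonneg fun j _ => mul_nonneg (cd_pos hv).le (sq_nonneg _)
    have h0 : ∑ v ∈ Vs T, ∑ j, cd S v *
        (yo x (L.e1 (ec S v) j) - yo x (L.e2 (ec S v) j)) ^ 2 = 0 :=
      le_antisymm (by linarith) (Finset.sum_nonneg hnn)
    have h1 : ∀ v ∈ Vs T, ∀ j, yo x (L.e1 (ec S v) j) = yo x (L.e2 (ec S v) j) := by
      intro v hv j
      have h2 := (Finset.sum_eq_zero_iff_of_nonneg hnn).1 h0 v hv
      have h3 := (Finset.sum_eq_zero_iff_of_nonneg (fun j _ =>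
        mul_nonneg (cd_pos (S := S) hv).le (sq_nonneg _))).1 h2 j (Finset.mem_univ _)
      have h4 := (mul_eq_zero.1 h3).resolve_left (cd_pos (S := S) hv).ne'
      exact sub_eq_zero.1 (pow_eq_zero_iff (two_ne_zero)|>.1 h4)
    apply hx
    have key : ∀ n : ℕ, ∀ E : II U, E.1.1.1 = n → x E = 0 := by
      intro n
      induction n using Nat.strong_induction_on with
      | _ n ih =>
        intro E hE
        obtain ⟨j, hj⟩ := surj2 hR L E
        have h2 := h1 E.1.1 E.1.2 j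
        rw [hj] at h2
        change _ = x E at h2
        rw [← h2]
        rcases he : L.e1 (ec S E.1.1) j with _ | E'
        · rfl
        · show x E' = 0
          refine ih E'.1.1.1 ?_ E' rfl
          have h3 := L.v_e1 _ (ok_ec S E.1.2) j
          rw [he] at h3
          have h4 : some E'.1.1 = v1 T (ec S E.1.1) := h3
          simp only [ec, v1] at h4
          split_ifs at h4 with hk
          have h5 := Option.some.inj h4
          rw [h5, ← hE]
          exact (S.kp_cons _ E.1.2).2.2.1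
    funext E
    exact key _ E rfl

end form

end Crest.Agent.R257.Lab_931
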