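import Crest.Agent.R257.BPDefs_258
import Crest.Agent.R257.FrmA_547

/-!
R257 / Vx_331 (leaf VX of task C-FRAME, helper547 #4220): dictionary between 547's canonical indices
(`Eqv`, `sh`, `Sp`) and 258's vertices (`vx`, `tr`, `sp`, `yv`, `wv`).

* `rs T i k`   : `φ_i s = (tr T i k).eval s + s^k * rs T i k s`;
* `rest T i k` : the same in the variable `s` (`s₀ = s^M`);
* `tr_eq_iff`, `vx_eq_iff` : `tr T i k = tr T j k ↔ Eqv T k i j`;
* `sh_eq`      : `sh T k i j s = rest T i k s - rest T j k s`;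
* `mem_sp`     : `w ∈ sp T (vx T i k) ↔ w - co T i k ∈ T.Sp i k`;
* `map_vert`, `wv_vert`, `wv_edge1`, `wv_edge2`, `wv_leg`;
* `ci_vx`, `ci_rest`, `ci_co`, `mem_sp_ci` : the canonical centre.
-/

set_option autoImplicit false
set_option linter.unusedSectionVars false

open Polynomial Set Filter Topology Metric
open Crest.AlgGeometry.Germ Crest.Agent.R257.AJ387 Crest.Agent.R257.T387
open Crest.Agent.R257.Frm_547 Crest.Agent.R257.BP_258

noncomputable section

namespace Crest.Agent.R257.Vx_331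

/-- Taylor formula with analytic remainder -/
theorem taylor {g : ℂ → ℂ} {ρ : ℝ} (hρ : 0 < ρ) (hg : AnalyticOnNhd ℂ g (ball 0 ρ)) (k : ℕ) :
    AnalyticOnNhd ℂ ((Function.swap dslope (0 : ℂ))^[k] g) (ball 0 ρ) ∧
    (Function.swap dslope (0 : ℂ))^[k] g 0 = iteratedDeriv k g 0 / (k.factorial : ℂ) ∧
    ∀ s, g s = (∑ n ∈ Finset.range k, iteratedDeriv n g 0 / (n.factorial : ℂ) * s ^ n) +
      s ^ k * (Function.swap dslope (0 : ℂ))^[k] g s := by
  have h0 : (0 : ℂ) ∈ ball (0 : ℂ) ρ := mem_ball_self hρ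
  have hval : ∀ k, (Function.swap dslope (0 : ℂ))^[k] g 0 =
      iteratedDeriv k g 0 / (k.factorial : ℂ) := by
    intro k
    have h1 := (hg 0 h0).hasFPowerSeriesAt
    have h2 := h1.has_fpower_series_iterate_dslope_fslope k
    rw [← h2.coeff_zero 1, ← FormalMultilinearSeries.coeff,
      FormalMultilinearSeries.coeff_iterate_fslope, zero_add,
      FormalMultilinearSeries.coeff_ofScalars]
  have han : ∀ k, AnalyticOnNhd ℂ ((Function.swap dslope (0 : ℂ))^[k] g) (ball 0 ρ) := by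
    intro k
    induction k with
    | zero => exact hg
    | succ k ih =>
      rw [Function.iterate_succ_apply']
      refine (DifferentiableOn.analyticOnNhd ?_ isOpen_ball)
      exact (Complex.differentiableOn_dslope (isOpen_ball.mem_nhds h0)).2 ih.differentiableOn
  refine ⟨han k, hval k, ?_⟩
  intro s
  induction k with
  | zero => simp
  | succ k ih =>
    rw [Finset.sum_range_succ, Function.iterate_succ_apply', ← hval k]
    set R := (Function.swap dslope (0 : ℂ))^[k] g with hR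
    have h1 : R s = R 0 + s * Function.swap dslope (0 : ℂ) R s := by
      have := sub_smul_dslope R (0 : ℂ) s
      rw [sub_zero, smul_eq_mul] at this
      show R s = R 0 + s * dslope R 0 s
      rw [this]; ring
    rw [ih]
    rw [pow_succ]
    linear_combination s ^ k * h1

/-- a polynomial of degree `< k` which is `s^k` times a continuous function near `0` vanishes -/
theorem poly_zero {q : ℂ[X]} {k : ℕ} (hq : q.degree < k) {V : ℂ → ℂ} (hV : ContinuousAt V 0)
    (h : ∀ᶠ s in 𝓝[≠] (0 : ℂ), q.eval s = s ^ k * V s) : q = 0 := by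
  by_contra hne
  obtain ⟨q', hq', hnd⟩ := exists_eq_pow_rootMultiplicity_mul_and_not_dvd q hne 0
  set a := rootMultiplicity 0 q with ha
  have h0 : q'.eval 0 ≠ 0 := by
    intro h0
    exact hnd (dvd_iff_isRoot.2 h0)
  have h1 : k ≤ a := by
    refine pow_cmp (u := fun s => q'.eval s) (v := V) q'.continuous.continuousAt hV ?_ h0
    filter_upwards [h] with s hs
    rw [← hs, hq', eval_mul, eval_pow, eval_sub, eval_X, eval_C, sub_zero]
  have h2 : a ≤ q.natDegree := by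
    have h3 : q' ≠ 0 := by
      rintro rfl
      simp at h0
    have h5 : q.natDegree = a + q'.natDegree := by
      rw [hq', natDegree_mul (pow_ne_zero _ (X_sub_C_ne_zero 0)) h3, natDegree_pow,
        natDegree_X_sub_C, mul_one]
    omega
  rw [degree_eq_natDegree hne] at hq
  have h4 : q.natDegree < k := by exact_mod_cast hq
  omega

variable {f : (Fin 3 → ℂ) → ℂ} (T : TB f)

theorem degree_tr (i : Fin T.m) (k : ℕ) : (tr T i k).degree < k := by
  rw [degree_lt_iff_coeff_zero]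
  intro n hn
  unfold tr
  rw [finsetSum_coeff]
  refine Finset.sum_eq_zero fun l hl => ?_
  rw [coeff_C_mul_X_pow, if_neg]
  have := Finset.mem_range.1 hl
  omega

theorem coeff_tr {i : Fin T.m} {k n : ℕ} (h : n < k) : (tr T i k).coeff n = co T i n := by
  unfold tr
  rw [finsetSum_coeff]
  simp only [coeff_C_mul_X_pow]
  rw [Finset.sum_ite_eq, if_pos (Finset.mem_range.2 h)]

theorem eval_tr (i : Fin T.m) (k : ℕ) (s : ℂ) :
    (tr T i k).eval s = ∑ n ∈ Finset.range k, co T i n * s ^ n := by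
  unfold tr
  rw [eval_finsetSum]
  simp

/-- remainder in `s₀`-units -/
def rs (i : Fin T.m) (k : ℕ) : ℂ → ℂ := (Function.swap dslope (0 : ℂ))^[k] (T.φ i)

theorem rs_an (i : Fin T.m) (k : ℕ) : AnalyticOnNhd ℂ (rs T i k) (ball 0 T.ρ) :=
  (taylor T.ρ_pos (T.φ_an i) k).1

theorem rs_zero (i : Fin T.m) (k : ℕ) : rs T i k 0 = co T i k :=
  (taylor T.ρ_pos (T.φ_an i) k).2.1

theorem φ_rs (i : Fin T.m) (k : ℕ) (s : ℂ) : T.φ i s = (tr T i k).eval s + s ^ k * rs T i k s := by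
  rw [eval_tr]
  exact (taylor T.ρ_pos (T.φ_an i) k).2.2 s

theorem rs_cont (i : Fin T.m) (k : ℕ) : ContinuousAt (rs T i k) 0 :=
  (rs_an T i k 0 (mem_ball_self T.ρ_pos)).continuousAt

/-- **(VX)** equal truncations -/
theorem tr_eq_iff (i j : Fin T.m) (k : ℕ) : tr T i k = tr T j k ↔ Eqv T k i j := by
  constructor
  · intro h
    by_cases hij : i = j
    · exact Or.inl hij
    refine Or.inr ?_
    refine pow_cmp (u := T.u i j) (v := fun s => rs T i k s - rs T j k s) (u_cont T hij)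
      ((rs_cont T i k).sub (rs_cont T j k)) ?_ (u_ne0 T hij)
    refine Filter.Eventually.filter_mono nhdsWithin_le_nhds ?_
    filter_upwards [ball_nhds T] with s hs
    have h1 := T.φ_sub i j hij s hs
    rw [φ_rs T i k s, φ_rs T j k s, h] at h1
    linear_combination -h1
  · rintro (rfl | h)
    · rfl
    by_cases hij : i = j
    · rw [hij]
    rw [← sub_eq_zero]
    refine poly_zero (k := k) (V := fun s => s ^ (T.del i j - k) * T.u i j s - rs T i k s +
      rs T j k s) ?_ ?_ ?_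
    · exact (degree_sub_le _ _).trans_lt (max_lt (degree_tr T i k) (degree_tr T j k))
    · exact (((continuousAt_id.pow _).mul (u_cont T hij)).sub (rs_cont T i k)).add
        (rs_cont T j k)
    · refine Filter.Eventually.filter_mono nhdsWithin_le_nhds ?_
      filter_upwards [ball_nhds T] with s hs
      have h1 := T.φ_sub i j hij s hs
      rw [φ_rs T i k s, φ_rs T j k s] at h1
      have h2 : s ^ T.del i j = s ^ k * s ^ (T.del i j - k) := by
        rw [← pow_add, Nat.add_sub_cancel' h]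
      rw [h2] at h1
      rw [eval_sub]
      linear_combination h1

theorem vx_eq_iff (i j : Fin T.m) (k : ℕ) : vx T i k = vx T j k ↔ Eqv T k i j := by
  rw [← tr_eq_iff]
  unfold vx
  exact ⟨fun h => (Prod.mk.inj h).2, fun h => by rw [h]⟩

theorem mem_Vs {v : Vtx} : v ∈ Vs T ↔ ∃ i, ∃ k ∈ T.lev i, v = vx T i k := by
  classical
  unfold Vs
  simp only [Finset.mem_biUnion, Finset.mem_univ, true_and, Finset.mem_image]
  exact ⟨fun ⟨i, k, hk, h⟩ => ⟨i, k, hk, h.symm⟩, fun ⟨i, k, hk, h⟩ => ⟨i, k, hk, h.symm⟩⟩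

/-! ### the remainder in the variable `s` -/

/-- `φ_i(s^M) = tr(s^M) + s^(Mk) rest s` -/
def rest (i : Fin T.m) (k : ℕ) (s : ℂ) : ℂ := rs T i k (s ^ T.M)

theorem rest_an (i : Fin T.m) (k : ℕ) : AnalyticOnNhd ℂ (rest T i k) (sD T) := by
  intro s hs
  have h1 : AnalyticAt ℂ (fun s : ℂ => s ^ T.M) s := analyticAt_id.pow _
  exact AnalyticAt.comp (g := rs T i k) (rs_an T i k _ (sD_pow T hs)) h1

theorem rest_zero (i : Fin T.m) (k : ℕ) : rest T i k 0 = co T i k := by
  unfold rest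
  rw [zero_pow T.M_pos.ne', rs_zero]

theorem φ_rest (i : Fin T.m) (k : ℕ) (s : ℂ) :
    T.φ i (s ^ T.M) = (tr T i k).eval (s ^ T.M) + s ^ (T.M * k) * rest T i k s := by
  rw [pow_mul]
  exact φ_rs T i k _

/-- **(VX)** shifts -/
theorem sh_eq {i j : Fin T.m} {k : ℕ} (h : Eqv T k i j) {s : ℂ} (hs : s ∈ sD T) :
    sh T k i j s = rest T i k s - rest T j k s := by
  have key : ∀ s ∈ sD T, s ≠ 0 → sh T k i j s = rest T i k s - rest T j k s := by
    intro s hs h0
    have h1 := φ_sh T h hs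
    rw [φ_rest T i k s, φ_rest T j k s, (tr_eq_iff T i j k).2 h] at h1
    apply mul_left_cancel₀ (pow_ne_zero (T.M * k) h0)
    linear_combination -h1
  by_cases h0 : s = 0
  · subst h0
    have c1 : Tendsto (sh T k i j) (𝓝[≠] 0) (𝓝 (sh T k i j 0)) :=
      (sh_an T 0 hs).continuousAt.tendsto.mono_left nhdsWithin_le_nhds
    have c2 : Tendsto (fun s => rest T i k s - rest T j k s) (𝓝[≠] 0)
        (𝓝 (rest T i k 0 - rest T j k 0)) :=
      ((rest_an T i k 0 hs).continuousAt.sub (rest_an T j k 0 hs).continuousAt).tendsto.mono_left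
        nhdsWithin_le_nhds
    refine tendsto_nhds_unique (c1.congr' ?_) c2
    filter_upwards [nhdsWithin_le_nhds ((isOpen_sD T).mem_nhds hs), self_mem_nhdsWithin]
      with s h1 h2
    exact key s h1 h2
  · exact key s hs h0

theorem sh_zero {i j : Fin T.m} {k : ℕ} (h : Eqv T k i j) :
    sh T k i j 0 = co T i k - co T j k := by
  rw [sh_eq T h (zero_mem_sD T), rest_zero, rest_zero]

theorem mem_sp_iff {v : Vtx} {w : ℂ} : w ∈ sp T v ↔ ∃ j, tr T j v.1 = v.2 ∧ w = co T j v.1 := by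
  classical
  unfold sp
  simp only [Finset.mem_image, Finset.mem_filter, Finset.mem_univ, true_and]
  exact ⟨fun ⟨j, hj, h⟩ => ⟨j, hj, h.symm⟩, fun ⟨j, hj, h⟩ => ⟨j, hj, h.symm⟩⟩

/-- **(VX)** special points -/
theorem mem_sp {i : Fin T.m} {k : ℕ} {w : ℂ} :
    w ∈ sp T (vx T i k) ↔ w - co T i k ∈ T.Sp i k := by
  rw [mem_sp_iff, mem_Sp]
  constructor
  · rintro ⟨j, hj, h⟩
    have h1 : Eqv T k i j := ((tr_eq_iff T j i k).1 hj).symm
    refine ⟨j, h1, ?_⟩
    rw [sh_zero T h1, h]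
    show co T j k - co T i k = _
    ring
  · rintro ⟨j, hj, h⟩
    refine ⟨j, (tr_eq_iff T j i k).2 hj.symm, ?_⟩
    rw [sh_zero T hj] at h
    show w = co T j k
    linear_combination h

/-- **(VX)** vertex charts in the coordinate `w` of the vertex -/
theorem map_vert (i : Fin T.m) (k : ℕ) (w₀ : ℂ) (p : ℂ × ℂ) :
    T.map (.vert i k w₀) p = (p.1, yv T (vx T i k) (p.1, w₀ + p.2 + rest T i k p.1)) := by
  unfold TB.map yv vx
  refine Prod.ext rfl ?_
  show T.φ i (p.1 ^ T.M) + p.1 ^ (T.M * k) * (w₀ + p.2) =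
    (tr T i k).eval (p.1 ^ T.M) + p.1 ^ (T.M * k) * (w₀ + p.2 + rest T i k p.1)
  rw [φ_rest T i k]
  ring

theorem wv_yv {v : Vtx} {s w : ℂ} (hs : s ≠ 0) : wv T v (s, yv T v (s, w)) = w := by
  unfold wv yv
  have h : s ^ (T.M * v.1) ≠ 0 := pow_ne_zero _ hs
  field_simp
  ring

theorem yv_wv {v : Vtx} {s y : ℂ} (hs : s ≠ 0) : yv T v (s, wv T v (s, y)) = y := by
  unfold wv yv
  have h : s ^ (T.M * v.1) ≠ 0 := pow_ne_zero _ hs
  field_simp
  ring

theorem wv_add (i : Fin T.m) (k : ℕ) {s y : ℂ} (hs : s ≠ 0) :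
    wv T (vx T i k) (s, y) = (y - T.φ i (s ^ T.M)) / s ^ (T.M * k) + rest T i k s := by
  have h : s ^ (T.M * k) ≠ 0 := pow_ne_zero _ hs
  rw [φ_rest T i k]
  unfold wv vx
  field_simp
  ring

theorem wv_vert (i : Fin T.m) (k : ℕ) (w₀ : ℂ) {p : ℂ × ℂ} (hp : p.1 ≠ 0) :
    wv T (vx T i k) (T.map (.vert i k w₀) p) = w₀ + p.2 + rest T i k p.1 := by
  rw [map_vert]
  exact wv_yv T hp

/-- the bottom vertex of an edge chart seen from `{α = 0}` -/
theorem wv_edge1 (i : Fin T.m) {k k' : ℕ} (hk : k ≤ k') {p : ℂ × ℂ} (hp : p.1 * p.2 ≠ 0) :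
    wv T (vx T i k) (T.map (.edge i k k') p) =
      p.2 ^ (T.M * (k' - k)) + rest T i k (p.1 * p.2) := by
  have h1 : p.1 ≠ 0 := left_ne_zero_of_mul hp
  have h2 : p.2 ≠ 0 := right_ne_zero_of_mul hp
  show wv T (vx T i k) (p.1 * p.2, T.φ i ((p.1 * p.2) ^ T.M) + p.1 ^ (T.M * k) * p.2 ^ (T.M * k')) = _
  rw [wv_add T i k hp, add_sub_cancel_left]
  congr 1
  rw [mul_pow, mul_div_mul_left _ _ (pow_ne_zero _ h1), div_eq_iff (pow_ne_zero _ h2), ← pow_add,
    ← mul_add, Nat.sub_add_cancel hk]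

theorem wv_edge2 (i : Fin T.m) {k k' : ℕ} (hk : k ≤ k') {p : ℂ × ℂ} (hp : p.1 * p.2 ≠ 0) :
    wv T (vx T i k') (T.map (.edge i k k') p) =
      (p.1 ^ (T.M * (k' - k)))⁻¹ + rest T i k' (p.1 * p.2) := by
  have h1 : p.1 ≠ 0 := left_ne_zero_of_mul hp
  have h2 : p.2 ≠ 0 := right_ne_zero_of_mul hp
  show wv T (vx T i k') (p.1 * p.2, T.φ i ((p.1 * p.2) ^ T.M) + p.1 ^ (T.M * k) * p.2 ^ (T.M * k')) = _
  rw [wv_add T i k' hp, add_sub_cancel_left]
  congr 1
  rw [mul_pow, mul_div_mul_right _ _ (pow_ne_zero _ h2)]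
  have h3 : p.1 ^ (T.M * k') = p.1 ^ (T.M * k) * p.1 ^ (T.M * (k' - k)) := by
    rw [← pow_add, ← mul_add, Nat.add_sub_cancel' hk]
  rw [h3, ← div_div, div_self (pow_ne_zero _ h1), one_div]

theorem wv_leg (i : Fin T.m) {p : ℂ × ℂ} (hp : p.1 ≠ 0) :
    wv T (vx T i (T.top i)) (T.map (.leg i) p) = p.2 ^ T.M + rest T i (T.top i) p.1 := by
  show wv T (vx T i (T.top i)) (p.1, T.φ i (p.1 ^ T.M) + p.1 ^ (T.M * T.top i) * p.2 ^ T.M) = _
  rw [wv_add T i _ hp, add_sub_cancel_left, mul_div_cancel_left₀ _ (pow_ne_zero _ hp)]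

/-! ### the canonical centre -/

/-- an index whose branch is the polynomial of the vertex -/
structure IsC (v : Vtx) (i : Fin T.m) : Prop where
  eq : ∀ s ∈ ball (0 : ℂ) T.ρ, T.φ i s = v.2.eval s

theorem IsC.main {v : Vtx} {i : Fin T.m} (h : IsC T v i) (hv : v ∈ Vs T) :
    tr T i v.1 = v.2 ∧ ∀ s ∈ ball (0 : ℂ) T.ρ, rs T i v.1 s = 0 := by
  obtain ⟨l, k, hk, rfl⟩ := (mem_Vs T).1 hv
  have h1 : tr T i k = tr T l k := by
    rw [← sub_eq_zero]
    refine poly_zero (k := k) (V := fun s => - rs T i k s) ?_ (rs_cont T i k).neg ?_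
    · exact (degree_sub_le _ _).trans_lt (max_lt (degree_tr T i k) (degree_tr T l k))
    · refine Filter.Eventually.filter_mono nhdsWithin_le_nhds ?_
      filter_upwards [ball_nhds T] with s hs
      have h2 := h.eq s hs
      rw [φ_rs T i k s] at h2
      rw [eval_sub]
      change _ = eval s (tr T l k) at h2
      linear_combination h2
  refine ⟨h1, ?_⟩
  have key : ∀ s ∈ ball (0 : ℂ) T.ρ, s ≠ 0 → rs T i k s = 0 := by
    intro s hs h0
    have h2 := h.eq s hs
    rw [φ_rs T i k s, h1] at h2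
    change _ = eval s (tr T l k) at h2
    have h3 : s ^ k * rs T i k s = 0 := by linear_combination h2
    exact (mul_eq_zero.1 h3).resolve_left (pow_ne_zero _ h0)
  intro s hs
  by_cases h0 : s = 0
  · subst h0
    have c1 : Tendsto (rs T i k) (𝓝[≠] 0) (𝓝 (rs T i k 0)) :=
      (rs_cont T i k).tendsto.mono_left nhdsWithin_le_nhds
    refine tendsto_nhds_unique c1 (tendsto_const_nhds.congr' ?_)
    filter_upwards [nhdsWithin_le_nhds (isOpen_ball.mem_nhds hs), self_mem_nhdsWithin]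
      with s h1 h2
    exact (key s h1 h2).symm
  · exact key s hs h0

theorem IsC.vx {v : Vtx} {i : Fin T.m} (h : IsC T v i) (hv : v ∈ Vs T) : vx T i v.1 = v :=
  Prod.ext rfl (h.main T hv).1

theorem IsC.rest {v : Vtx} {i : Fin T.m} (h : IsC T v i) (hv : v ∈ Vs T) {s : ℂ} (hs : s ∈ sD T) :
    rest T i v.1 s = 0 := (h.main T hv).2 _ (sD_pow T hs)

theorem IsC.co {v : Vtx} {i : Fin T.m} (h : IsC T v i) (hv : v ∈ Vs T) : co T i v.1 = 0 := by
  rw [← rs_zero]
  exact (h.main T hv).2 0 (mem_ball_self T.ρ_pos)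

theorem IsC.mem_sp {v : Vtx} {i : Fin T.m} (h : IsC T v i) (hv : v ∈ Vs T) {w : ℂ} :
    w ∈ sp T v ↔ w ∈ T.Sp i v.1 := by
  have h1 := Vx_331.mem_sp T (i := i) (k := v.1) (w := w)
  rw [h.vx T hv, h.co T hv, sub_zero] at h1
  exact h1

theorem IsC.lev {v : Vtx} {i : Fin T.m} (h : IsC T v i) (hv : v ∈ Vs T) : v.1 ∈ T.lev i := by
  obtain ⟨l, k, hk, rfl⟩ := (mem_Vs T).1 hv
  have h1 := (h.main T hv).1
  exact lev_of_eqv T ((tr_eq_iff T i l k).1 h1).symm hk

section
variable {T}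
variable (S : Sh T) {v : Vtx} (hv : v ∈ Vs T)
include hv

theorem ci_isC : IsC T v (S.ci v) := ⟨S.ci_eq v hv⟩

theorem ci_vx : vx T (S.ci v) v.1 = v := (ci_isC S hv).vx T hv


theorem ci_co : co T (S.ci v) v.1 = 0 := (ci_isC S hv).co T hv

theorem ci_mem_sp {w : ℂ} : w ∈ sp T v ↔ w ∈ T.Sp (S.ci v) v.1 := (ci_isC S hv).mem_sp T hv

theorem ci_lev : v.1 ∈ T.lev (S.ci v) := (ci_isC S hv).lev T hv

end

/-- the canonical centre of `(i, k)` is equivalent to `i` -/
theorem ci_eqv {T : TB f} (S : Sh T) {i : Fin T.m} {k : ℕ} (hk : k ∈ T.lev i) :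
    Eqv T k i (S.ci (vx T i k)) := by
  have hv : vx T i k ∈ Vs T := (mem_Vs T).2 ⟨i, k, hk, rfl⟩
  have h1 := ci_vx S hv
  exact ((vx_eq_iff T (S.ci (vx T i k)) i k).1 h1).symm

end Crest.Agent.R257.Vx_331
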