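import Crest.Agent.R257.IrrB_331
import Crest.Agent.R257.FrmB_547
import Crest.Agent.R257.T7_387
import Crest.Agent.R257.Vx_331
import Crest.Agent.R257.Typ_201

-- ▼ part R257/FrmE_547
section

/-!
R257 / FrmE_547 (task C-FRAME): coverage of `{f = 0}` by one class of sheets (on (IRR)).

* `Dd T`       : `x'` times the discriminant; `Dd_iff`;
* `monFam`     : the Weierstrass polynomial over a small bidisc;
* `reg`        : `{P = 0}` is regular off the origin;
* `root_near`  : continuity of roots;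
* `cover_abs`  : if `G` is a property of the sheets `(c, j)`, `c ∈ F`, with the tie property (sheets
                 with common points arbitrarily near `0`, `s ≠ 0`, simple roots, have equivalent `G`),
                 and some sheet has `G`, then the sheets with `G` cover `{f = 0} - 0` near `0`.
-/

set_option autoImplicit false
set_option linter.unusedSectionVars false

open Polynomial Set Filter Topology Metric
open Crest.AlgGeometry.Germ Crest.Agent.R257.AJ387 Crest.Agent.R257.T387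
open Crest.Agent.R257.Defs_219 Crest.Agent.R257.Irr_547
open Crest.Agent.R257.T0_387 (ptL ptL_apply pt_surj isolated)

noncomputable section

namespace Crest.Agent.R257.FrmE_547

variable {f : (Fin 3 → ℂ) → ℂ} (T : TB f)

/-- `x'` times the discriminant of the Weierstrass polynomial -/
def Dd (q : ℂ × ℂ) : ℂ := q.1 * resultant (T.P q) (derivative (T.P q)) T.d (T.d - 1)

variable {T}

theorem res_iff {q : ℂ × ℂ} (hq : q ∈ BD T.R T.R) :
    resultant (T.P q) (derivative (T.P q)) T.d (T.d - 1) ≠ 0 ↔ (T.P q).roots.Nodup := by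
  have hm := T.monic q hq
  have hd := T.deg q hq
  have h1 : (derivative (T.P q)).natDegree = T.d - 1 := by
    rw [natDegree_derivative, hd]
  have h2 := resultant_eq_zero_iff (f := T.P q) (g := derivative (T.P q))
  rw [hd, h1] at h2
  rw [Ne, h2, nodup_roots_iff_of_splits hm.ne_zero (IsAlgClosed.splits _)]
  constructor
  · intro h
    by_contra hc
    exact h ⟨Or.inl hm.ne_zero, hc⟩
  · rintro h ⟨-, h3⟩
    exact h3 h

theorem Dd_iff {q : ℂ × ℂ} (hq : q ∈ BD T.R T.R) :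
    Dd T q ≠ 0 ↔ q.1 ≠ 0 ∧ (T.P q).roots.Nodup := by
  rw [Dd, mul_ne_zero_iff, res_iff hq]

theorem convex_BD (r r' : ℝ) : Convex ℝ (BD r r') := by
  have h1 : BD r r' = ball (0 : ℂ) r ×ˢ ball (0 : ℂ) r' := by
    ext p; simp [BD]
  rw [h1]
  exact (convex_ball _ _).prod (convex_ball _ _)

theorem exists_good {ε : ℝ} (hε : 0 < ε) (hεR : ε ≤ T.R) : ∃ q ∈ BD ε ε, Dd T q ≠ 0 := by
  have h1 : ∀ᶠ s in 𝓝[≠] (0 : ℂ), s ∈ ball (0 : ℂ) T.ρ ∧ ‖s ^ T.N₀‖ < ε ∧ s ≠ 0 := by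
    have a1 : ∀ᶠ s in 𝓝[≠] (0 : ℂ), s ∈ ball (0 : ℂ) T.ρ :=
      nhdsWithin_le_nhds (ball_mem_nhds _ T.ρ_pos)
    have a2 : ∀ᶠ s in 𝓝 (0 : ℂ), ‖s ^ T.N₀‖ < ε := by
      have : Continuous fun s : ℂ => ‖s ^ T.N₀‖ := by fun_prop
      refine (this.tendsto 0).eventually (gt_mem_nhds ?_)
      simpa [T.N₀_pos.ne'] using hε
    filter_upwards [a1, nhdsWithin_le_nhds a2, self_mem_nhdsWithin] with s b1 b2 b3
    exact ⟨b1, b2, b3⟩
  obtain ⟨s, hs1, hs2, hs3⟩ := h1.exists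
  have h2 : ∀ᶠ y in 𝓝[≠] (0 : ℂ), ‖y‖ < ε ∧ ∀ i, y ≠ T.φ i s := by
    have a1 : ∀ᶠ y in 𝓝[≠] (0 : ℂ), ‖y‖ < ε := by
      filter_upwards [nhdsWithin_le_nhds (ball_mem_nhds (0 : ℂ) hε)] with y hy
      simpa using hy
    refine a1.and (eventually_all.2 fun i => ?_)
    by_cases h : T.φ i s = 0
    · rw [h]
      exact self_mem_nhdsWithin
    · exact nhdsWithin_le_nhds (isOpen_ne.mem_nhds (Ne.symm h))
  obtain ⟨y, hy1, hy2⟩ := h2.exists
  have hmem : ((s ^ T.N₀, y) : ℂ × ℂ) ∈ BD ε ε := ⟨hs2, hy1⟩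
  refine ⟨_, hmem, ?_⟩
  rw [Dd_iff ⟨hs2.trans_le hεR, hy1.trans_le hεR⟩]
  refine ⟨pow_ne_zero _ hs3, T.nodup s hs1 y ?_ hy2⟩
  simpa using hy1.trans_le hεR

/-- the Weierstrass polynomial over a small bidisc -/
theorem monFam {ε : ℝ} (hε : 0 < ε) (hεR : ε ≤ T.R) : MonFam (BD ε ε) T.d T.P (Dd T) := by
  have hsub : ∀ q ∈ BD ε ε, q ∈ BD T.R T.R := fun q hq =>
    ⟨hq.1.trans_le hεR, hq.2.trans_le hεR⟩
  refine ⟨isOpen_BD ε ε, (convex_BD ε ε).isPreconnected, fun q hq => T.monic q (hsub q hq),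
    fun q hq => T.deg q (hsub q hq), fun k q hq => T.coeff_an k q (hsub q hq), ?_,
    exists_good hε hεR, fun q hq h => ((Dd_iff (hsub q hq)).1 h).2⟩
  intro q hq
  refine analyticAt_fst.mul ?_
  refine IrrB_331.analyticAt_resultant (fun k => T.coeff_an k q (hsub q hq)) (fun k => ?_) _ _
  simp only [coeff_derivative]
  exact (T.coeff_an (k + 1) q (hsub q hq)).mul analyticAt_const


/-- `{P = 0}` is regular off the origin -/
theorem reg (hf : Iso f) : ∀ᶠ x in 𝓝 (((0 : ℂ), (0 : ℂ)), (0 : ℂ)), (T.P x.1).eval x.2 = 0 →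
    x ≠ 0 → fderiv ℂ (fun q : (ℂ × ℂ) × ℂ => (T.P q.1).eval q.2) x ≠ 0 := by
  set L : (ℂ × ℂ) × ℂ → (Fin 3 → ℂ) := fun x => ptL (T.A x.1, x.2) with hL
  let LL : (ℂ × ℂ) × ℂ →L[ℂ] (Fin 3 → ℂ) :=
    ptL.comp ((T.A.toContinuousLinearMap.comp (ContinuousLinearMap.fst ℂ (ℂ × ℂ) ℂ)).prod
      (ContinuousLinearMap.snd ℂ (ℂ × ℂ) ℂ))
  have hLL : L = fun x => LL x := rfl
  have hL0 : L 0 = 0 := by rw [hLL]; exact map_zero LL
  have hLt : Tendsto L (𝓝 0) (𝓝 0) := by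
    have := LL.continuous.tendsto 0
    rw [map_zero] at this
    exact this
  have hLs : Function.Surjective LL := by
    intro x
    refine ⟨(T.A.symm (x 1, x 2), x 0), ?_⟩
    show ptL (T.A (T.A.symm (x 1, x 2)), x 0) = x
    rw [ContinuousLinearEquiv.apply_symm_apply]
    exact pt_surj x
  have hLi : ∀ x, LL x = 0 → x = 0 := by
    intro x hx
    have h1 : ptL (T.A x.1, x.2) = 0 := hx
    rw [ptL_apply] at h1
    have e0 := congrFun h1 0
    have e1 := congrFun h1 1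
    have e2 := congrFun h1 2
    have h2 : T.A x.1 = 0 := Prod.ext e1 e2
    have h3 : x.1 = 0 := by
      apply T.A.injective
      rw [h2, map_zero]
    exact Prod.ext h3 e0
  have hnear : ∀ᶠ x in 𝓝 (0 : (ℂ × ℂ) × ℂ), x.1 ∈ BD T.R T.R ∧ ‖x.2‖ < T.rz := by
    have h1 : ∀ᶠ x in 𝓝 (0 : (ℂ × ℂ) × ℂ), x.1 ∈ BD T.R T.R := by
      refine continuousAt_fst.eventually ((isOpen_BD T.R T.R).mem_nhds ?_)
      exact ⟨by simpa using T.R_pos, by simpa using T.R_pos⟩
    have h2 : ∀ᶠ x in 𝓝 (0 : (ℂ × ℂ) × ℂ), ‖x.2‖ < T.rz := by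
      have : Continuous fun x : (ℂ × ℂ) × ℂ => ‖x.2‖ := by fun_prop
      refine (this.tendsto 0).eventually (gt_mem_nhds ?_)
      simpa using T.rz_pos
    exact h1.and h2
  have hiso := hLt.eventually (isolated hf.an hf.fin)
  show ∀ᶠ x in 𝓝 (0 : (ℂ × ℂ) × ℂ), _
  filter_upwards [hnear.eventually_nhds, hiso] with x hx hxi hP hx0 hd
  apply hx0
  apply hLi
  apply hxi
  have hxx := hx.self_of_nhds
  have hfan : AnalyticAt ℂ f (LL x) := by
    have := T.f_an _ hxx.1 _ hxx.2.le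
    rw [← ptL_apply] at this
    exact this
  have hvan : AnalyticAt ℂ T.v x := T.v_an _ hxx.1 _ hxx.2.le
  -- the Weierstrass polynomial is differentiable at `x`
  have hPan : DifferentiableAt ℂ (fun q : (ℂ × ℂ) × ℂ => (T.P q.1).eval q.2) x := by
    have h1 : (fun q : (ℂ × ℂ) × ℂ => (T.P q.1).eval q.2) =ᶠ[𝓝 x]
        fun q => ∑ i ∈ Finset.range (T.d + 1), (T.P q.1).coeff i * q.2 ^ i := by
      filter_upwards [hx] with q hq
      rw [eval_eq_sum_range, T.deg _ hq.1]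
    refine (AnalyticAt.congr ?_ h1.symm).differentiableAt
    refine Finset.analyticAt_fun_sum _ fun i _ => AnalyticAt.mul ?_ (analyticAt_snd.pow i)
    exact AnalyticAt.comp (g := fun p => (T.P p).coeff i) (f := fun q : (ℂ × ℂ) × ℂ => q.1)
      (T.coeff_an i _ hxx.1) analyticAt_fst
  have h2 : HasFDerivAt (fun q : (ℂ × ℂ) × ℂ => T.v q * (T.P q.1).eval q.2)
      (T.v x • fderiv ℂ (fun q : (ℂ × ℂ) × ℂ => (T.P q.1).eval q.2) x +
        (T.P x.1).eval x.2 • fderiv ℂ T.v x) x :=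
    (hvan.differentiableAt.hasFDerivAt).mul hPan.hasFDerivAt
  have h20 : T.v x • fderiv ℂ (fun q : (ℂ × ℂ) × ℂ => (T.P q.1).eval q.2) x +
        (T.P x.1).eval x.2 • fderiv ℂ T.v x = 0 := by
    rw [hd, hP]
    have h21 : ∀ (a : ℂ) (K : (ℂ × ℂ) × ℂ →L[ℂ] ℂ),
        a • (0 : (ℂ × ℂ) × ℂ →L[ℂ] ℂ) + (0 : ℂ) • K = 0 := fun a K => by
      refine ContinuousLinearMap.ext fun u => ?_
      show a * 0 + 0 * K u = 0
      ring
    exact h21 _ _
  rw [h20] at h2
  have h3 : (fun q : (ℂ × ℂ) × ℂ => T.v q * (T.P q.1).eval q.2) =ᶠ[𝓝 x] fun q => f (LL q) := by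
    filter_upwards [hx] with q hq
    have h4 := T.f_eq _ hq.1 _ hq.2.le
    rw [← ptL_apply] at h4
    exact h4.symm
  have h4 : fderiv ℂ (fun q => f (LL q)) x = 0 := by
    rw [← h3.fderiv_eq]
    exact h2.fderiv
  have h5 : fderiv ℂ (fun q => f (LL q)) x = (fderiv ℂ f (LL x)).comp LL := by
    have := fderiv_comp (f := fun q => LL q) (g := f) x hfan.differentiableAt
      LL.differentiableAt
    rw [ContinuousLinearMap.fderiv] at this
    exact this
  have h6 : fderiv ℂ f (LL x) = 0 := by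
    ext u
    obtain ⟨w, rfl⟩ := hLs u
    rw [h5] at h4
    have := congrArg (fun K => K w) h4
    simpa using this
  intro j
  have h7 := Crest.Agent.R257.Node_547.fderiv_apply_eq f (LL x) (Pi.single j 1)
  rw [h6] at h7
  simp only [zero_apply] at h7
  rw [Finset.sum_eq_single j] at h7
  · show coordDeriv f j (LL x) = 0
    simpa using h7.symm
  · intro b _ hb
    rw [Pi.single_eq_of_ne hb, zero_mul]
  · intro h; exact absurd (Finset.mem_univ j) h

/-! ### continuity of roots -/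

theorem norm_le_of_far {p : ℂ[X]} (hp : p.Monic) {z : ℂ} {ε : ℝ} (hε : 0 ≤ ε)
    (h : ∀ w, p.eval w = 0 → ε ≤ ‖z - w‖) : ε ^ p.natDegree ≤ ‖p.eval z‖ := by
  have h1 : ∀ m : Multiset ℂ, (∀ w ∈ m, ε ≤ ‖z - w‖) → ε ^ m.card ≤ ‖(m.map (z - ·)).prod‖ := by
    intro m
    induction m using Multiset.induction with
    | empty => intro _; simp
    | cons a m ih =>
      intro hm
      have h2 := ih fun w hw => hm w (Multiset.mem_cons_of_mem hw)
      have h3 := hm a (Multiset.mem_cons_self a m)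
      rw [Multiset.card_cons, Multiset.map_cons, Multiset.prod_cons, norm_mul, pow_succ, mul_comm]
      exact mul_le_mul h3 h2 (pow_nonneg hε _) (norm_nonneg _)
  rw [(IsAlgClosed.splits p).eval_eq_prod_roots_of_monic hp z]
  have := h1 p.roots fun w hw => h w ((mem_roots hp.ne_zero).1 hw)
  rwa [← (IsAlgClosed.splits p).natDegree_eq_card_roots] at this

theorem root_near {q₀ : ℂ × ℂ} (hq : q₀ ∈ BD T.R T.R) {z : ℂ} (hz : (T.P q₀).eval z = 0) {ε : ℝ}
    (hε : 0 < ε) : ∀ᶠ q in 𝓝 q₀, ∃ w, (T.P q).eval w = 0 ∧ ‖z - w‖ < ε := by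
  have hc : Tendsto (fun q => ∑ i ∈ Finset.range (T.d + 1), (T.P q).coeff i * z ^ i) (𝓝 q₀)
      (𝓝 (∑ i ∈ Finset.range (T.d + 1), (T.P q₀).coeff i * z ^ i)) :=
    tendsto_finsetSum _ fun i _ => ((T.coeff_an i q₀ hq).continuousAt.tendsto).mul_const _
  rw [← T.deg q₀ hq, ← eval_eq_sum_range, hz, T.deg q₀ hq] at hc
  have h2 : 0 < ε ^ T.d := pow_pos hε _
  have h3 := hc.norm
  rw [norm_zero] at h3
  filter_upwards [h3.eventually (gt_mem_nhds h2), (isOpen_BD T.R T.R).mem_nhds hq] with q h4 h5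
  by_contra hcon
  push Not at hcon
  have h6 := norm_le_of_far (T.monic q h5) hε.le hcon
  rw [T.deg q h5, eval_eq_sum_range, T.deg q h5] at h6
  exact absurd h6 (not_le.2 h4)

/-! ### coverage -/

/-- closed bidisc -/
def CB (r : ℝ) : Set (ℂ × ℂ) := {p | ‖p.1‖ ≤ r ∧ ‖p.2‖ ≤ r}

theorem isCompact_CB (r : ℝ) : IsCompact (CB r) := by
  have h1 : CB r = closedBall (0 : ℂ) r ×ˢ closedBall (0 : ℂ) r := by
    ext p; simp [CB]
  rw [h1]
  exact (isCompact_closedBall _ _).prod (isCompact_closedBall _ _)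

variable (T) in
/-- data of a finite cover -/
structure Cov where
  F : Finset (Ch T.m)
  r : Ch T.m → ℝ
  ζ : Ch T.m → Fin T.d → ℂ × ℂ → ℂ
  valid : ∀ c ∈ F, T.Valid c
  r_pos : ∀ c ∈ F, 0 < r c
  sheets : ∀ c ∈ F, T.Sheets c (2 * r c) (ζ c)
  cov : ∃ ε > 0, ∀ s y : ℂ, ‖s‖ < ε → ‖y‖ < ε → (s, y) ≠ 0 → ∃ c ∈ F, ∃ p ∈ CB (r c),
    T.map c p = (s, y)

theorem CB_sub {r : ℝ} (hr : 0 < r) {p : ℂ × ℂ} (hp : p ∈ CB r) : p ∈ BD (2 * r) (2 * r) :=
  ⟨lt_of_le_of_lt hp.1 (by linarith), lt_of_le_of_lt hp.2 (by linarith)⟩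

/-- the points of the sheets with `G` -/
def Bs (C : Cov T) (G : Ch T.m → Fin T.d → Prop) : Set ((ℂ × ℂ) × ℂ) :=
  {x | ∃ c ∈ C.F, ∃ j, G c j ∧ ∃ p ∈ CB (C.r c), T.map c p = x.1 ∧ C.ζ c j p = x.2}

theorem isCompact_Bs (C : Cov T) (G : Ch T.m → Fin T.d → Prop) : IsCompact (Bs C G) := by
  have h1 : Bs C G = ⋃ c ∈ (C.F : Set (Ch T.m)), ⋃ j ∈ {j | G c j},
      (fun p => (T.map c p, C.ζ c j p)) '' CB (C.r c) := by
    ext ⟨q, z⟩
    simp only [Bs, mem_ofPred_eq, mem_iUnion, mem_image, Prod.mk.injEq, Finset.mem_coe,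
      exists_prop]
  rw [h1]
  refine C.F.finite_toSet.isCompact_biUnion fun c hc => (Set.toFinite _).isCompact_biUnion
    fun j _ => (isCompact_CB _).image_of_continuousOn ?_
  intro p hp
  have hp' := CB_sub (C.r_pos c hc) hp
  exact (((C.sheets c hc).map_an hp').continuousAt.prodMk
    ((C.sheets c hc).an j p hp').continuousAt).continuousWithinAt

/-- `(s, y', z) ↦ (s ^ N, y', z)` -/
def gN (N : ℕ) (x : (ℂ × ℂ) × ℂ) : (ℂ × ℂ) × ℂ := ((x.1.1 ^ N, x.1.2), x.2)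

theorem continuous_gN (N : ℕ) : Continuous (gN N) := by
  unfold gN
  fun_prop

theorem gN_open {N : ℕ} (hN : N ≠ 0) {q : (ℂ × ℂ) × ℂ} (h : q.1.1 ≠ 0) :
    𝓝 (gN N q) ≤ map (gN N) (𝓝 q) := by
  obtain ⟨⟨s, y⟩, z⟩ := q
  have h1 : map (fun s : ℂ => s ^ N) (𝓝 s) = 𝓝 (s ^ N) :=
    (hasStrictDerivAt_pow N s).map_nhds_eq
      (mul_ne_zero (by exact_mod_cast hN) (pow_ne_zero _ h))
  have h2 : map (fun p : ℂ × ℂ => (p.1 ^ N, p.2)) (𝓝 (s, y)) = 𝓝 (s ^ N, y) := by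
    rw [nhds_prod_eq, nhds_prod_eq, ← h1]
    have := Filter.prod_map_map_eq' (fun s : ℂ => s ^ N) (id : ℂ → ℂ) (𝓝 s) (𝓝 y)
    rw [Filter.map_id] at this
    exact this.symm
  have h3 : map (gN N) (𝓝 ((s, y), z)) = 𝓝 (gN N ((s, y), z)) := by
    show _ = 𝓝 ((s ^ N, y), z)
    rw [nhds_prod_eq, nhds_prod_eq (x := (s ^ N, y)), ← h2]
    have := Filter.prod_map_map_eq' (fun p : ℂ × ℂ => (p.1 ^ N, p.2)) (id : ℂ → ℂ)
      (𝓝 (s, y)) (𝓝 z)
    rw [Filter.map_id] at this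
    exact this.symm
  exact h3.ge

theorem nodup_prod {d : ℕ} {ζ : Fin d → ℂ} (h : Function.Injective ζ) :
    (∏ j, (X - C (ζ j)) : ℂ[X]).roots.Nodup := by
  have h1 : (∏ j, (X - C (ζ j)) : ℂ[X]) =
      ((Finset.univ.val.map ζ).map fun a => X - C a).prod := by
    rw [Multiset.map_map]
    rfl
  rw [h1, roots_multiset_prod_X_sub_C]
  exact Multiset.Nodup.map h Finset.univ.nodup

theorem map_zero' {c : Ch T.m} (hc : T.Valid c) : T.map c 0 = 0 := by
  rw [T.map_eq_zero hc]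
  cases c with
  | edge i k k' => exact Or.inr rfl
  | leg i => rfl
  | vert i k w => rfl

/-- **coverage by one class of sheets** -/
theorem cover_abs (hf : Iso f) (C : Cov T) (G : Ch T.m → Fin T.d → Prop)
    (tie : ∃ ε > 0, ∀ c ∈ C.F, ∀ c' ∈ C.F, ∀ j j', ∀ p ∈ CB (C.r c), ∀ p' ∈ CB (C.r c'),
      T.map c p = T.map c' p' → ‖(T.map c p).1‖ < ε → ‖(T.map c p).2‖ < ε →
      (T.map c p).1 ≠ 0 → (T.Q (T.map c p)).roots.Nodup → C.ζ c j p = C.ζ c' j' p' →
      G c j → G c' j')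
    {c₀ : Ch T.m} {j₀ : Fin T.d} (hc₀ : c₀ ∈ C.F) (hG : G c₀ j₀) :
    ∃ ρ > 0, ∀ x : Fin 3 → ℂ, x ≠ 0 → ‖x‖ < ρ → f x = 0 →
      ∃ c ∈ C.F, ∃ j, G c j ∧ ∃ p ∈ CB (C.r c), T.th c (C.ζ c j) p = x := by
  obtain ⟨εt, hεt, tie⟩ := tie
  obtain ⟨εc, hεc, hcov⟩ := C.cov
  set ε : ℝ := min εt εc with hε
  have hε0 : 0 < ε := lt_min hεt hεc
  set ε' : ℝ := min (ε ^ T.N) (min ε T.R) with hε'
  have hε'0 : 0 < ε' := lt_min (pow_pos hε0 _) (lt_min hε0 T.R_pos)
  have hε'R : ε' ≤ T.R := (min_le_right _ _).trans (min_le_right _ _)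
  have hε'ε : ε' ≤ ε := (min_le_right _ _).trans (min_le_left _ _)
  have hsmall : ∀ s : ℂ, ‖s ^ T.N‖ < ε' → ‖s‖ < ε := by
    intro s hs
    rw [norm_pow] at hs
    exact lt_of_pow_lt_pow_left₀ T.N hε0.le (hs.trans_le (min_le_left _ _))
  have MF := monFam (T := T) hε'0 hε'R
  have hsub : ∀ q ∈ BD ε' ε', q ∈ BD T.R T.R := fun q hq =>
    ⟨hq.1.trans_le hε'R, hq.2.trans_le hε'R⟩
  set Vo : Set ((ℂ × ℂ) × ℂ) := {x | x.1 ∈ BD ε' ε' ∧ Dd T x.1 ≠ 0 ∧ (T.P x.1).eval x.2 = 0}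
    with hVo
  have hsplit : ∀ q, gN T.N q ∈ Vo → q.1.1 ≠ 0 ∧ ‖q.1.1‖ < ε ∧ ‖q.1.2‖ < ε ∧
      (T.Q q.1).roots.Nodup ∧ (T.Q q.1).eval q.2 = 0 := by
    rintro ⟨⟨s, y⟩, z⟩ ⟨h1, h2, h3⟩
    have h4 := (Dd_iff (hsub _ h1)).1 h2
    exact ⟨fun h => h4.1 (by show s ^ T.N = 0; rw [show s = 0 from h, zero_pow T.N_pos.ne']),
      hsmall s h1.1, lt_of_lt_of_le h1.2 hε'ε, h4.2, h3⟩
  have hkey : ∀ q, gN T.N q ∈ Vo → q ∈ Bs C G ∨ q ∈ Bs C fun c j => ¬ G c j := by
    intro q hq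
    obtain ⟨h1, h2, h3, h4, h5⟩ := hsplit q hq
    obtain ⟨c, hc, p, hp, hpe⟩ := hcov q.1.1 q.1.2 (h2.trans_le (min_le_right _ _))
      (h3.trans_le (min_le_right _ _)) (fun h => h1 (congrArg Prod.fst h))
    have hpe' : T.map c p = q.1 := hpe
    have h6 := (Frm_547.root_iff (C.sheets c hc) (CB_sub (C.r_pos c hc) hp) (z := q.2)).1
      (by rw [hpe']; exact h5)
    obtain ⟨j, hj⟩ := h6
    by_cases hGj : G c j
    · exact Or.inl ⟨c, hc, j, hGj, p, hp, hpe', hj⟩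
    · exact Or.inr ⟨c, hc, j, hGj, p, hp, hpe', hj⟩
  have hdisj : ∀ q, gN T.N q ∈ Vo → q ∈ Bs C G → q ∉ Bs C fun c j => ¬ G c j := by
    intro q hq h1 h2
    obtain ⟨a1, a2, a3, a4, a5⟩ := hsplit q hq
    obtain ⟨c, hc, j, hGj, p, hp, hpe, hj⟩ := h1
    obtain ⟨c', hc', j', hGj', p', hp', hpe', hj'⟩ := h2
    refine hGj' (tie c hc c' hc' j j' p hp p' hp' (hpe.trans hpe'.symm) ?_ ?_ ?_ ?_
      (hj.trans hj'.symm) hGj)
    · rw [hpe]; exact a2.trans_le (min_le_left _ _)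
    · rw [hpe]; exact a3.trans_le (min_le_left _ _)
    · rw [hpe]; exact a1
    · rw [hpe]; exact a4
  have hcomp : IsClosed (gN T.N '' Bs C G) :=
    ((isCompact_Bs C G).image (continuous_gN _)).isClosed
  set A : Set ((ℂ × ℂ) × ℂ) := Vo ∩ gN T.N '' Bs C G with hA
  have hAVo : A = Vo := by
    refine IrrB_331.irr MF ⟨by simpa using hε'0, by simpa using hε'0⟩ T.P_zero (reg hf) A
      inter_subset_left ?_ ?_ ?_
    · -- open
      rintro x ⟨hx, q, hq, rfl⟩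
      have h1 : (Bs C fun c j => ¬ G c j)ᶜ ∈ 𝓝 q :=
        (isCompact_Bs C _).isClosed.isOpen_compl.mem_nhds (hdisj q hx hq)
      have h2 : gN T.N '' (Bs C fun c j => ¬ G c j)ᶜ ∈ 𝓝 (gN T.N q) :=
        gN_open T.N_pos.ne' (hsplit q hx).1 (image_mem_map h1)
      filter_upwards [h2] with y hy hyV
      obtain ⟨q', hq', rfl⟩ := hy
      exact ⟨hyV, q', (hkey q' hyV).resolve_right hq', rfl⟩
    · -- closed
      intro x hx hxA
      have h1 : x ∉ gN T.N '' Bs C G := fun h => hxA ⟨hx, h⟩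
      filter_upwards [hcomp.isOpen_compl.mem_nhds h1] with y hy hyA
      exact hy hyA.2
    · -- non-empty
      have hS := C.sheets c₀ hc₀
      have hr := C.r_pos c₀ hc₀
      have h0 : (0 : ℂ × ℂ) ∈ BD (2 * C.r c₀) (2 * C.r c₀) :=
        ⟨by simpa using hr, by simpa using hr⟩
      have hdiag : Tendsto (fun t : ℂ => ((t, t) : ℂ × ℂ)) (𝓝[≠] 0) (𝓝 (0 : ℂ × ℂ)) :=
        ((by fun_prop : Continuous fun t : ℂ => ((t, t) : ℂ × ℂ)).tendsto 0).mono_left
          nhdsWithin_le_nhds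
      have hmap : Tendsto (fun p => gN T.N (T.map c₀ p, C.ζ c₀ j₀ p)) (𝓝 (0 : ℂ × ℂ))
          (𝓝 (gN T.N (T.map c₀ 0, C.ζ c₀ j₀ 0))) :=
        ((continuous_gN T.N).tendsto _).comp
          ((hS.map_an h0).continuousAt.prodMk (hS.an j₀ 0 h0).continuousAt)
      have h1 : ∀ᶠ p in 𝓝 (0 : ℂ × ℂ), (gN T.N (T.map c₀ p, C.ζ c₀ j₀ p)).1 ∈ BD ε' ε' := by
        refine hmap.eventually (continuousAt_fst.eventually ((isOpen_BD ε' ε').mem_nhds ?_))
        rw [map_zero' (C.valid c₀ hc₀)]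
        refine ⟨?_, ?_⟩
        · show ‖(0 : ℂ) ^ T.N‖ < ε'
          rw [zero_pow T.N_pos.ne', norm_zero]; exact hε'0
        · show ‖(0 : ℂ)‖ < ε'
          rw [norm_zero]; exact hε'0
      have h2 : ∀ᶠ p in 𝓝 (0 : ℂ × ℂ), p ∈ CB (C.r c₀) := by
        have : BD (C.r c₀) (C.r c₀) ∈ 𝓝 (0 : ℂ × ℂ) :=
          (isOpen_BD _ _).mem_nhds ⟨by simpa using hr, by simpa using hr⟩
        filter_upwards [this] with p hp
        exact ⟨hp.1.le, hp.2.le⟩
      obtain ⟨t, ⟨ht1, ht2⟩, ht0⟩ := ((hdiag.eventually (h1.and h2)).and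
        self_mem_nhdsWithin).exists
      have ht0' : t ≠ 0 := ht0
      have hgen : T.Gen c₀ (t, t) := by
        cases c₀ with
        | edge i k k' => exact ⟨ht0', ht0'⟩
        | leg i => exact ⟨ht0', ht0'⟩
        | vert i k w => exact ht0'
      have hs0 : (T.map c₀ (t, t)).1 ≠ 0 := by
        cases c₀ with
        | edge i k k' => exact mul_ne_zero ht0' ht0'
        | leg i => exact ht0'
        | vert i k w => exact ht0'
      have ht3 := CB_sub hr ht2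
      have hin : gN T.N (T.map c₀ (t, t), C.ζ c₀ j₀ (t, t)) ∈ Vo := by
        refine ⟨ht1, (Dd_iff (hsub _ ht1)).2 ⟨pow_ne_zero _ hs0, ?_⟩, hS.root j₀ ht3⟩
        show (T.Q (T.map c₀ (t, t))).roots.Nodup
        rw [hS.split _ ht3]
        exact nodup_prod (hS.inj _ ht3 hgen)
      exact ⟨_, hin, _, ⟨c₀, hc₀, j₀, hG, (t, t), ht2, rfl, rfl⟩, rfl⟩
  -- closure
  have hclos : ∀ x : (ℂ × ℂ) × ℂ, x.1 ∈ BD ε' ε' → (T.P x.1).eval x.2 = 0 →
      x ∈ gN T.N '' Bs C G := by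
    rintro ⟨q, z⟩ hq hz
    simp only at hq hz
    rw [← hcomp.closure_eq]
    refine closure_mono (hAVo ▸ inter_subset_right : Vo ⊆ gN T.N '' Bs C G) ?_
    rw [Metric.mem_closure_iff]
    intro δ hδ
    have h1 := root_near (hsub q hq) hz hδ
    have h2 : ∀ᶠ q' in 𝓝 q, q' ∈ BD ε' ε' ∧ dist q q' < δ := by
      filter_upwards [(isOpen_BD ε' ε').mem_nhds hq, ball_mem_nhds q hδ] with q' a1 a2
      exact ⟨a1, by rw [dist_comm]; exact a2⟩
    obtain ⟨q', hq', ⟨w, hw, hzw⟩, hq'B, hq'd⟩ := ((MF.freq hq).and_eventually (h1.and h2)).exists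
    refine ⟨(q', w), ⟨hq'B, hq', hw⟩, ?_⟩
    rw [Prod.dist_eq, max_lt_iff]
    exact ⟨hq'd, by rw [dist_eq_norm]; exact hzw⟩
  -- conclusion
  have hAs : Tendsto (fun x : Fin 3 → ℂ => T.A.symm (x 1, x 2)) (𝓝 0) (𝓝 0) := by
    have h1 : Continuous fun x : Fin 3 → ℂ => T.A.symm (x 1, x 2) :=
      T.A.symm.continuous.comp (by fun_prop)
    have h2 := h1.tendsto 0
    have h3 : T.A.symm ((0 : Fin 3 → ℂ) 1, (0 : Fin 3 → ℂ) 2) = 0 := by
      show T.A.symm 0 = 0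
      exact map_zero _
    rwa [h3] at h2
  have hev : ∀ᶠ x : Fin 3 → ℂ in 𝓝 0, T.A.symm (x 1, x 2) ∈ BD ε' ε' ∧ ‖x 0‖ < T.rz := by
    refine (hAs.eventually ((isOpen_BD ε' ε').mem_nhds
      ⟨by simpa using hε'0, by simpa using hε'0⟩)).and ?_
    have : Continuous fun x : Fin 3 → ℂ => ‖x 0‖ := by fun_prop
    refine (this.tendsto 0).eventually (gt_mem_nhds ?_)
    simpa using T.rz_pos
  obtain ⟨ρ, hρ, hb⟩ := Metric.eventually_nhds_iff.1 hev
  refine ⟨ρ, hρ, fun x _ hxρ hfx => ?_⟩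
  obtain ⟨h1, h2⟩ := hb (by simpa using hxρ)
  set q := T.A.symm (x 1, x 2) with hq
  have hAq : T.A q = (x 1, x 2) := by rw [hq, ContinuousLinearEquiv.apply_symm_apply]
  have hx : x = pt (x 0) (T.A q) := by
    rw [hAq]
    funext i
    fin_cases i <;> rfl
  have h3 : (T.P q).eval (x 0) = 0 := by
    have h4 := T.f_eq q (hsub q h1) (x 0) h2.le
    rw [← hx, hfx] at h4
    exact (mul_eq_zero.1 h4.symm).resolve_left (T.v_ne q (hsub q h1) (x 0) h2.le)
  obtain ⟨⟨⟨s, y⟩, z⟩, ⟨c, hc, j, hGj, p, hp, hpe, hj⟩, hge⟩ := hclos (q, x 0) h1 h3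
  simp only [gN, Prod.mk.injEq] at hge hpe hj
  refine ⟨c, hc, j, hGj, p, hp, ?_⟩
  rw [hx, TB.th, TB.base, hpe, hj]
  show pt z (T.A (s ^ T.N, y)) = _
  rw [hge.1, hge.2]

end Crest.Agent.R257.FrmE_547
end
end

-- ▼ part R257/FrmF_547

/-!
R257 / FrmF_547 (task C-FRAME): the tie property of the labels of `BPDefs_258`.

* `sheets_rot` : a symmetry `R` of a chart permutes the sheets;
* `ii_eq`      : labels are determined by the retraction of one point;
* `lab_eq`     : labels of two sheets exchanged by a symmetry;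
* `classify`   : the type (V, L, N) of a limit point of the special fibre;
* `tie`        : sheets of canonical charts with common points arbitrarily near `0` have labels in the
                 same graph component.
-/

set_option autoImplicit false
set_option linter.unusedSectionVars false

open Polynomial Set Filter Topology Metric
open Crest.AlgGeometry.Germ Crest.Agent.R257.AJ387 Crest.Agent.R257.T387
open Crest.Agent.R257.FrmE_547 Crest.Agent.R257.Frm_547 Crest.Agent.R257.BP_258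
open Crest.Agent.R257.Typ_201 (TV TL TN)

noncomputable section

namespace Crest.Agent.R257.FrmF_547

variable {f : (Fin 3 → ℂ) → ℂ} {T : TB f}

theorem inj_of_nodup {c : Ch T.m} {r : ℝ} {ζ : Fin T.d → ℂ × ℂ → ℂ} (hS : T.Sheets c r ζ)
    {p : ℂ × ℂ} (hp : p ∈ BD r r) (hg : (T.Q (T.map c p)).roots.Nodup) :
    Function.Injective fun j => ζ j p := by
  have h1 : (∏ j, (Polynomial.X - C (ζ j p)) : ℂ[X]) =
      ((Finset.univ.val.map fun j => ζ j p).map fun a => Polynomial.X - C a).prod := by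
    rw [Multiset.map_map]
    rfl
  rw [hS.split p hp, h1, roots_multiset_prod_X_sub_C] at hg
  intro a b hab
  exact Multiset.inj_on_of_nodup_map hg a (Finset.mem_univ a) b (Finset.mem_univ b) hab

/-- a symmetry of a chart permutes the sheets -/
theorem sheets_rot {c : Ch T.m} {r : ℝ} {ζ : Fin T.d → ℂ × ℂ → ℂ} (hS : T.Sheets c r ζ)
    {R : ℂ × ℂ → ℂ × ℂ} (hR : ∀ q, AnalyticAt ℂ R q) (hRm : ∀ q ∈ BD r r, R q ∈ BD r r)
    (hmap : ∀ q, T.map c (R q) = T.map c q) {p : ℂ × ℂ} (hp : p ∈ BD r r)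
    (hg : (T.Q (T.map c p)).roots.Nodup)
    {j j' : Fin T.d} (hj : ζ j p = ζ j' (R p)) : ∀ q ∈ BD r r, ζ j q = ζ j' (R q) := by
  have han : ∀ q ∈ BD r r, AnalyticAt ℂ (fun q => ζ j' (R q)) q := fun q hq =>
    AnalyticAt.comp (g := ζ j') (f := R) (hS.an j' _ (hRm q hq)) (hR q)
  have h1 : ∀ᶠ q in 𝓝 p, ∏ l, (ζ j' (R q) - ζ l q) = 0 := by
    filter_upwards [(isOpen_BD r r).mem_nhds hp] with q hq
    have e1 : (T.Q (T.map c (R q))).eval (ζ j' (R q)) = 0 := hS.root j' (hRm q hq)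
    rw [hmap, hS.split q hq, eval_prod] at e1
    simpa using e1
  obtain ⟨l, -, hl⟩ := prod_ev Finset.univ (fun l _ => (han p hp).sub (hS.an l p hp)) h1
  have h2 : l = j := by
    refine inj_of_nodup hS hp hg ?_
    show ζ l p = ζ j p
    rw [hj]
    exact (sub_eq_zero.1 hl.self_of_nhds).symm
  subst h2
  have h3 : (fun q => ζ l q) =ᶠ[𝓝 p] fun q => ζ j' (R q) := by
    filter_upwards [hl] with q hq using (sub_eq_zero.1 hq).symm
  exact (show AnalyticOnNhd ℂ (fun q => ζ l q) (BD r r) from hS.an l).eqOn_of_preconnected_of_eventuallyEq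
    han (convex_BD r r).isPreconnected hp h3

variable {U : Tub T}

/-- labels are determined by the retraction of one point -/
theorem ii_eq (hR : RetStmt U) {E E' : II U} (h : E.1.1 = E'.1.1) {x : Fin 3 → ℂ}
    (h1 : InT U E.1.1 x)
    (h2 : ∀ q, IsRet U E.1.1 x q → (q : ConnectedComponents (XV U E.1.1)) = E.2)
    (h3 : ∀ q, IsRet U E'.1.1 x q → (q : ConnectedComponents (XV U E'.1.1)) = E'.2) : E = E' := by
  obtain ⟨⟨v, hv⟩, e⟩ := E
  obtain ⟨⟨v', hv'⟩, e'⟩ := E'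
  simp only at h
  subst h
  obtain ⟨q, hq, -⟩ := (hR v hv).1 x h1
  have e1 := h2 q hq
  have e2 := h3 q hq
  simp only at e1 e2
  rw [← e1, ← e2]

variable {S : Sh T} (L : Lab U S)

theorem v1_of_some {c : Ch T.m} (hc : Ok S c) {j : Fin T.d} {E : II U} (h : L.e1 c j = some E) :
    v1 T c = some E.1.1 := by
  rw [← L.v_e1 c hc j, h]; rfl

theorem v2_of_some {c : Ch T.m} (hc : Ok S c) {j : Fin T.d} {E : II U} (h : L.e2 c j = some E) :
    v2 T c = some E.1.1 := by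
  rw [← L.v_e2 c hc j, h]; rfl

theorem e1_some {c : Ch T.m} (hc : Ok S c) (j : Fin T.d) {v : Vtx} (h : v1 T c = some v) :
    ∃ E : II U, L.e1 c j = some E ∧ E.1.1 = v := by
  have h1 := L.v_e1 c hc j
  rw [h, Option.map_eq_some_iff] at h1
  exact h1

theorem e2_some {c : Ch T.m} (hc : Ok S c) (j : Fin T.d) {v : Vtx} (h : v2 T c = some v) :
    ∃ E : II U, L.e2 c j = some E ∧ E.1.1 = v := by
  have h1 := L.v_e2 c hc j
  rw [h, Option.map_eq_some_iff] at h1
  exact h1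

theorem e1_none {c : Ch T.m} (hc : Ok S c) (j : Fin T.d) (h : v1 T c = none) :
    L.e1 c j = none := by
  have h1 := L.v_e1 c hc j
  rw [h, Option.map_eq_none_iff] at h1
  exact h1

theorem e2_none {c : Ch T.m} (hc : Ok S c) (j : Fin T.d) (h : v2 T c = none) :
    L.e2 c j = none := by
  have h1 := L.v_e2 c hc j
  rw [h, Option.map_eq_none_iff] at h1
  exact h1

/-- labels of two sheets exchanged by a symmetry -/
theorem lab_eq (hR : RetStmt U) {c : Ch T.m} (hc : Ok S c) {j j' : Fin T.d} {R : ℂ × ℂ → ℂ × ℂ}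
    (hn : ∀ q, ‖(R q).1‖ = ‖q.1‖ ∧ ‖(R q).2‖ = ‖q.2‖)
    (hw : ∀ q ∈ BD (2 * S.r c) (2 * S.r c), BP_258.wc S c j q = BP_258.wc S c j' (R q)) :
    L.e1 c j = L.e1 c j' ∧ L.e2 c j = L.e2 c j' := by
  have hr := S.pos c
  have hnr : ∀ a : ℝ, 0 ≤ a → ‖(a : ℂ)‖ = a := fun a ha => by
    rw [Complex.norm_real, Real.norm_eq_abs, abs_of_nonneg ha]
  constructor
  · cases hv : v1 T c with
    | none => rw [e1_none L hc j hv, e1_none L hc j' hv]
    | some v =>
      obtain ⟨E, hE, hEv⟩ := e1_some L hc j hv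
      obtain ⟨E', hE', hEv'⟩ := e1_some L hc j' hv
      obtain ⟨a, ha, h⟩ := L.near1 c hc j E hE (S.r c) hr
      obtain ⟨a', ha', h'⟩ := L.near1 c hc j' E' hE' (S.r c) hr
      set b : ℝ := min (min a a') (S.r c) / 2 with hb
      have hm : 0 < min (min a a') (S.r c) := lt_min (lt_min ha ha') hr
      have hb0 : 0 < b := by positivity
      have hba : b < a := by
        have := (min_le_left (min a a') (S.r c)).trans (min_le_left a a'); linarith
      have hba' : b < a' := by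
        have := (min_le_left (min a a') (S.r c)).trans (min_le_right a a'); linarith
      have hbr : b < S.r c := by
        have := min_le_right (min a a') (S.r c); linarith
      let p : ℂ × ℂ := ((b : ℂ), ((S.r c : ℝ) : ℂ))
      have hp1 : ‖p.1‖ = b := hnr b hb0.le
      have hp2 : ‖p.2‖ = S.r c := hnr _ hr.le
      obtain ⟨c1, c2⟩ := h p (by rw [hp1]; exact hb0) (by rw [hp1]; exact hba)
        (by rw [hp2]) (Or.inr (by rw [hp2]))
      obtain ⟨c1', c2'⟩ := h' (R p) (by rw [(hn p).1, hp1]; exact hb0)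
        (by rw [(hn p).1, hp1]; exact hba')
        (by rw [(hn p).2, hp2]) (Or.inr (by rw [(hn p).2, hp2]))
      have hx : BP_258.wc S c j p = BP_258.wc S c j' (R p) :=
        hw p ⟨by rw [hp1]; linarith, by rw [hp2]; linarith⟩
      rw [← hx] at c2'
      rw [hE, hE', ii_eq hR (hEv.trans hEv'.symm) c1 c2 c2']
  · cases hv : v2 T c with
    | none => rw [e2_none L hc j hv, e2_none L hc j' hv]
    | some v =>
      obtain ⟨E, hE, hEv⟩ := e2_some L hc j hv
      obtain ⟨E', hE', hEv'⟩ := e2_some L hc j' hv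
      obtain ⟨a, ha, h⟩ := L.near2 c hc j E hE (S.r c) hr
      obtain ⟨a', ha', h'⟩ := L.near2 c hc j' E' hE' (S.r c) hr
      set b : ℝ := min (min a a') (S.r c) / 2 with hb
      have hm : 0 < min (min a a') (S.r c) := lt_min (lt_min ha ha') hr
      have hb0 : 0 < b := by positivity
      have hba : b < a := by
        have := (min_le_left (min a a') (S.r c)).trans (min_le_left a a'); linarith
      have hba' : b < a' := by
        have := (min_le_left (min a a') (S.r c)).trans (min_le_right a a'); linarith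
      have hbr : b < S.r c := by
        have := min_le_right (min a a') (S.r c); linarith
      let p : ℂ × ℂ := (((S.r c : ℝ) : ℂ), (b : ℂ))
      have hp1 : ‖p.2‖ = b := hnr b hb0.le
      have hp2 : ‖p.1‖ = S.r c := hnr _ hr.le
      obtain ⟨c1, c2⟩ := h p (by rw [hp1]; exact hb0) (by rw [hp1]; exact hba)
        (by rw [hp2]) (by rw [hp2])
      obtain ⟨c1', c2'⟩ := h' (R p) (by rw [(hn p).2, hp1]; exact hb0)
        (by rw [(hn p).2, hp1]; exact hba')
        (by rw [(hn p).1, hp2]) (by rw [(hn p).1, hp2])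
      have hx : BP_258.wc S c j p = BP_258.wc S c j' (R p) :=
        hw p ⟨by rw [hp2]; linarith, by rw [hp1]; linarith⟩
      rw [← hx] at c2'
      rw [hE, hE', ii_eq hR (hEv.trans hEv'.symm) c1 c2 c2']

/-- two generic points of one edge or leg chart with the same image -/
theorem exists_rot {c : Ch T.m} (hc : T.Valid c) (hv : ¬ IsV c) {p p' : ℂ × ℂ}
    (h : T.map c p = T.map c p') (hs : (T.map c p).1 ≠ 0) :
    ∃ R : ℂ × ℂ → ℂ × ℂ, (∀ q, AnalyticAt ℂ R q) ∧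
      (∀ q, ‖(R q).1‖ = ‖q.1‖ ∧ ‖(R q).2‖ = ‖q.2‖) ∧ (∀ q, T.map c (R q) = T.map c q) ∧
      R p = p' := by
  cases c with
  | vert i k w => exact absurd trivial hv
  | leg i =>
    obtain ⟨a, b⟩ := p
    obtain ⟨a', b'⟩ := p'
    simp only [TB.map, Prod.mk.injEq] at h hs
    obtain ⟨rfl, h⟩ := h
    have h3 : a ^ (T.M * T.top i) ≠ 0 := pow_ne_zero _ hs
    have h4 : b ^ T.M = b' ^ T.M := by
      have := add_left_cancel h
      exact mul_left_cancel₀ h3 this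
    by_cases h2 : b = 0
    · subst h2
      rw [zero_pow T.M_pos.ne'] at h4
      have h5 : b' = 0 := (pow_eq_zero_iff T.M_pos.ne').1 h4.symm
      exact ⟨id, fun q => analyticAt_id, fun q => ⟨rfl, rfl⟩, fun q => rfl, by rw [h5]; rfl⟩
    have h5 : (b' / b) ^ T.M = 1 := by
      rw [div_pow, ← h4, div_self (pow_ne_zero _ h2)]
    refine ⟨fun q => (q.1, (b' / b) * q.2), fun q => analyticAt_fst.prod
      (analyticAt_const.mul analyticAt_snd), fun q => ⟨rfl, ?_⟩, fun q => ?_, ?_⟩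
    · rw [norm_mul, Complex.norm_eq_one_of_pow_eq_one h5 T.M_pos.ne', one_mul]
    · simp only [TB.map]
      rw [mul_pow, h5, one_mul]
    · simp only
      rw [div_mul_cancel₀ _ h2]
  | edge i k k' =>
    obtain ⟨a, b⟩ := p
    obtain ⟨a', b'⟩ := p'
    simp only [TB.map, Prod.mk.injEq] at h hs
    obtain ⟨hab, h⟩ := h
    have ha : a ≠ 0 := left_ne_zero_of_mul hs
    have h2 : b ≠ 0 := right_ne_zero_of_mul hs
    have hkk : k < k' := hc.2.2.1
    have hk' : T.M * k' = T.M * k + T.M * (k' - k) := by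
      rw [← Nat.mul_add, Nat.add_sub_cancel' hkk.le]
    have hs' : a' * b' ≠ 0 := hab ▸ hs
    have hb' : b' ≠ 0 := right_ne_zero_of_mul hs'
    have h4 : b ^ (T.M * (k' - k)) = b' ^ (T.M * (k' - k)) := by
      rw [← hab] at h
      have h5 := add_left_cancel h
      rw [hk', pow_add, pow_add, ← mul_assoc, ← mul_assoc, ← mul_pow, ← mul_pow, ← hab] at h5
      exact mul_left_cancel₀ (pow_ne_zero _ hs) h5
    have hn : T.M * (k' - k) ≠ 0 := Nat.mul_ne_zero T.M_pos.ne' (by omega)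
    set ω : ℂ := b' / b with hω
    have h5 : ω ^ (T.M * (k' - k)) = 1 := by
      rw [hω, div_pow, ← h4, div_self (pow_ne_zero _ h2)]
    have hω0 : ω ≠ 0 := div_ne_zero hb' h2
    have hωn : ‖ω‖ = 1 := Complex.norm_eq_one_of_pow_eq_one h5 hn
    refine ⟨fun q => (ω⁻¹ * q.1, ω * q.2), fun q => (analyticAt_const.mul analyticAt_fst).prod
      (analyticAt_const.mul analyticAt_snd), fun q => ⟨?_, ?_⟩, fun q => ?_, ?_⟩
    · rw [norm_mul, norm_inv, hωn, inv_one, one_mul]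
    · rw [norm_mul, hωn, one_mul]
    · simp only [TB.map]
      have e1 : ω⁻¹ * q.1 * (ω * q.2) = q.1 * q.2 := by
        field_simp
      have e2 : (ω⁻¹ * q.1) ^ (T.M * k) * (ω * q.2) ^ (T.M * k') =
          q.1 ^ (T.M * k) * q.2 ^ (T.M * k') := by
        have e3 : ω ^ (T.M * k) ≠ 0 := pow_ne_zero _ hω0
        have e4 : ω ^ (T.M * k') = ω ^ (T.M * k) := by
          rw [hk', pow_add, h5, mul_one]
        rw [mul_pow, mul_pow, e4, inv_pow]
        field_simp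
      rw [e1, e2]
    · refine Prod.ext ?_ ?_
      · show ω⁻¹ * a = a'
        have e3 : a' = a * b / b' := by rw [hab]; field_simp
        rw [e3, hω]
        field_simp
      · show ω * b = b'
        rw [hω, div_mul_cancel₀ _ h2]

/-- points of one edge or leg chart: same point of `W` ⟹ same labels -/
theorem lab_of_eq (hR : RetStmt U) {c : Ch T.m} (hc : Ok S c) (hv : ¬ IsV c) {p p' : ℂ × ℂ}
    (hp : p ∈ CB (S.r c)) (h : T.map c p = T.map c p') (hs : (T.map c p).1 ≠ 0)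
    (hg : (T.Q (T.map c p)).roots.Nodup) {j j' : Fin T.d} (hj : S.ζ c j p = S.ζ c j' p') :
    L.e1 c j = L.e1 c j' ∧ L.e2 c j = L.e2 c j' := by
  obtain ⟨R, hRa, hRn, hRm, hRp⟩ := exists_rot hc.1 hv h hs
  have hz := sheets_rot (S.sheets c hc.1) hRa
    (fun q hq => ⟨by rw [(hRn q).1]; exact hq.1, by rw [(hRn q).2]; exact hq.2⟩) hRm
    (CB_sub (S.pos c) hp) hg (j := j) (j' := j') (by rw [hRp]; exact hj)
  refine lab_eq L hR hc hRn fun q hq => ?_
  unfold BP_258.wc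
  rw [hRm, hz q hq]

end Crest.Agent.R257.FrmF_547
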