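import Mathlib
import Crest.Agent.R257.CDataC_250
import Crest.Agent.R257.Vt5_558
import Crest.Agent.R257.Tb1_941
import Crest.Agent.R257.WtD_258
import Crest.Agent.R257.RsnD_843
import Crest.Agent.R257.Sep_547
import Crest.Agent.R257.Lab5_931
import Crest.Agent.R257.LwD_89
import Crest.Agent.R257.BPC_554

-- ▼ part R257/CDataE_250
section

/-!
Row 257, part C, task C-DATA (helper250), file E: a function of the retraction, in the charts.

`o : Bool` is the orientation of an edge: `cA o` = the coordinate vanishing on the axis of the vertex `v`,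
`cB o` = the coordinate along the axis.
-/

set_option autoImplicit false
set_option linter.unusedSectionVars false

noncomputable section

open Set Filter Topology MeasureTheory Metric
open scoped ENNReal

namespace Crest.Agent.R257.CDataE_250

open Crest.AlgGeometry.Germ Crest.Agent.R257.AJ387 Crest.Agent.R257.T387
open Crest.Agent.R257.Gr1_157 Crest.Agent.R257.HoB_843 Crest.Agent.R257.BP_258
open Crest.Agent.R257.CDataA_250 Crest.Agent.R257.CDataB_250
open Crest.Agent.R257.Wt_258 Crest.Agent.R257.Rsn_843 Crest.Agent.R257.Vt2_558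

variable {f : (Fin 3 → ℂ) → ℂ} {T : TB f} {U : Tub T} {S : Sh T}

/-! ### orientation -/

/-- the coordinate which vanishes on the axis -/
def cA (o : Bool) (p : ℂ × ℂ) : ℂ := if o then p.1 else p.2

/-- the coordinate along the axis -/
def cB (o : Bool) (p : ℂ × ℂ) : ℂ := if o then p.2 else p.1

/-- the point with coordinates `a`, `b` -/
def mkp (o : Bool) (a b : ℂ) : ℂ × ℂ := if o then (a, b) else (b, a)

@[simp] lemma cA_mkp (o : Bool) (a b : ℂ) : cA o (mkp o a b) = a := by cases o <;> rfl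
@[simp] lemma cB_mkp (o : Bool) (a b : ℂ) : cB o (mkp o a b) = b := by cases o <;> rfl
@[simp] lemma mkp_cA_cB (o : Bool) (p : ℂ × ℂ) : mkp o (cA o p) (cB o p) = p := by cases o <;> rfl

lemma continuous_cA (o : Bool) : Continuous (cA o) := by
  cases o
  · exact continuous_snd
  · exact continuous_fst

lemma continuous_cB (o : Bool) : Continuous (cB o) := by
  cases o
  · exact continuous_fst
  · exact continuous_snd

lemma continuous_mkp (o : Bool) : Continuous fun q : ℂ × ℂ => mkp o q.1 q.2 := by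
  cases o
  · exact continuous_snd.prodMk continuous_fst
  · exact continuous_id

lemma norm_sub_mkp (o : Bool) (p : ℂ × ℂ) : ‖p - mkp o 0 (cB o p)‖ = ‖cA o p‖ := by
  cases o
  · simp [cA, cB, mkp, Prod.norm_def]
  · simp [cA, cB, mkp, Prod.norm_def]



/-- the vertex of the axis -/
def vO (T : TB f) (o : Bool) (c : Ch T.m) : Option Vtx := if o then v1 T c else v2 T c

/-- the label of the axis -/
def eO (L : Lab U S) (o : Bool) (c : Ch T.m) (j : Fin T.d) : Option (II U) :=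
  if o then L.e1 c j else L.e2 c j

lemma eO_vO (L : Lab U S) {o : Bool} {c : Ch T.m} (hc : Ok S c) {j : Fin T.d} {E : II U}
    (h : eO L o c j = some E) : vO T o c = some E.1.1 := by
  cases o
  · have := L.v_e2 c hc j
    simp only [eO, Bool.false_eq_true, if_false] at h
    rw [h] at this
    exact this.symm
  · have := L.v_e1 c hc j
    simp only [eO, if_true] at h
    rw [h] at this
    exact this.symm

/-- `near1`, `near2` together -/
lemma near (L : Lab U S) {o : Bool} {c : Ch T.m} (hc : Ok S c) {j : Fin T.d} {E : II U}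
    (h : eO L o c j = some E) {τ : ℝ} (hτ : 0 < τ) : ∃ a > 0, ∀ p : ℂ × ℂ,
    0 < ‖cA o p‖ → ‖cA o p‖ < a → ‖cB o p‖ ≤ S.r c → (o = true ∧ IsV c ∨ τ ≤ ‖cB o p‖) →
    InT U E.1.1 (wc S c j p) ∧ ∀ q, IsRet U E.1.1 (wc S c j p) q →
      (q : ConnectedComponents _) = E.2 := by
  cases o
  · simp only [eO, Bool.false_eq_true, if_false] at h
    obtain ⟨a, ha, h1⟩ := L.near2 c hc j E h τ hτ
    refine ⟨a, ha, fun p h2 h3 h4 h5 => h1 p h2 h3 h4 ?_⟩
    rcases h5 with h5 | h5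
    · exact absurd h5.1 (by simp)
    · exact h5
  · simp only [eO, if_true] at h
    obtain ⟨a, ha, h1⟩ := L.near1 c hc j E h τ hτ
    refine ⟨a, ha, fun p h2 h3 h4 h5 => h1 p h2 h3 h4 ?_⟩
    rcases h5 with h5 | h5
    · exact Or.inl h5.2
    · exact Or.inr h5

/-! ### a function of the retraction -/

open Classical in
/-- `f₀ (ret x)` -/
def GG (U : Tub T) (v : Vtx) (f₀ : XV U v → ℂ) (x : Fin 3 → ℂ) : ℂ :=
  if h : ∃ q, IsRet U v x q then f₀ h.choose else 0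

lemma ret_uniq (hR : RetStmt U) {v : Vtx} {x : Fin 3 → ℂ} {q q' : XV U v} (h : IsRet U v x q)
    (h' : IsRet U v x q') : q = q' :=
  ((hR v h.1.mem).1 x h.1).unique h h'

lemma GG_eq (hR : RetStmt U) {v : Vtx} {f₀ : XV U v → ℂ} {x : Fin 3 → ℂ} {q : XV U v}
    (h : IsRet U v x q) : GG U v f₀ x = f₀ q := by
  have h1 : ∃ q, IsRet U v x q := ⟨q, h⟩
  unfold GG
  rw [dif_pos h1, ret_uniq hR h1.choose_spec h]


lemma exists_ret (hR : RetStmt U) {v : Vtx} {x : Fin 3 → ℂ} (h : InT U v x) :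
    ∃ q, IsRet U v x q := ((hR v h.mem).1 x h).exists

lemma wv_an (v : Vtx) {q : ℂ × ℂ} (hq : q.1 ≠ 0) : AnalyticAt ℂ (wv T v) q := by
  unfold wv
  refine AnalyticAt.div ?_ (analyticAt_fst.pow _) (pow_ne_zero _ hq)
  refine analyticAt_snd.sub ?_
  have h1 : AnalyticAt ℂ (fun t : ℂ => v.2.eval t) (q.1 ^ T.M) :=
    (Polynomial.differentiable v.2).analyticAt _
  exact AnalyticAt.comp (g := fun t : ℂ => v.2.eval t) (f := fun q : ℂ × ℂ => q.1 ^ T.M) h1
    (analyticAt_fst.pow _)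

/-- the points of the tube form an open subset of the surface -/
lemma inT_open {v : Vtx} {F : ℂ × ℂ → Fin 3 → ℂ} {p : ℂ × ℂ} (hF : ContinuousAt F p)
    (hroot : ∀ᶠ p' in 𝓝 p, (T.Q (F p' 1, F p' 2)).eval (F p' 0) = 0) (h : InT U v (F p)) :
    ∀ᶠ p' in 𝓝 p, InT U v (F p') := by
  have c1 : ContinuousAt (fun p' => F p' 1) p := (continuous_apply 1).continuousAt.comp hF
  have c2 : ContinuousAt (fun p' => F p' 2) p := (continuous_apply 2).continuousAt.comp hF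
  have cw : ContinuousAt (fun p' => wv T v (F p' 1, F p' 2)) p :=
    ContinuousAt.comp (g := wv T v) (f := fun p' => (F p' 1, F p' 2))
      (wv_an v (q := (F p 1, F p 2)) h.ne).continuousAt (c1.prodMk c2)
  have e1 : ∀ᶠ p' in 𝓝 p, F p' 1 ≠ 0 := c1.eventually_ne h.ne
  have e2 : ∀ᶠ p' in 𝓝 p, wv T v (F p' 1, F p' 2) ∉ sp T v :=
    cw.eventually ((isOpen_nsp v).mem_nhds h.nsp)
  have e3 : ∀ᶠ p' in 𝓝 p, ‖F p' 1‖ < U.ρ v (wv T v (F p' 1, F p' 2)) := by
    have c3 : ContinuousAt (fun p' => U.ρ v (wv T v (F p' 1, F p' 2))) p :=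
      ContinuousAt.comp (g := U.ρ v) (f := fun p' => wv T v (F p' 1, F p' 2))
        (rho_contAt U h.mem h.nsp) cw
    exact c1.norm.eventually_lt c3 h.lt
  filter_upwards [e1, e2, e3, hroot] with p' h1 h2 h3 h4
  exact ⟨h.mem, h1, h2, h3, h4⟩

/-- **analyticity in the tube** -/
lemma GG_an (hR : RetStmt U) {v : Vtx} {f₀ : XV U v → ℂ} (hf : HolX (pV U v) f₀)
    {F : ℂ × ℂ → Fin 3 → ℂ} {p : ℂ × ℂ} (hF : AnalyticAt ℂ F p)
    (hroot : ∀ᶠ p' in 𝓝 p, (T.Q (F p' 1, F p' 2)).eval (F p' 0) = 0) (h : InT U v (F p)) :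
    AnalyticAt ℂ (fun p' => GG U v f₀ (F p')) p := by
  have a1 : AnalyticAt ℂ (fun p' => F p' 1) p :=
    ((ContinuousLinearMap.proj (R := ℂ) (φ := fun _ : Fin 3 => ℂ) 1).analyticAt _).comp hF
  have a2 : AnalyticAt ℂ (fun p' => F p' 2) p :=
    ((ContinuousLinearMap.proj (R := ℂ) (φ := fun _ : Fin 3 => ℂ) 2).analyticAt _).comp hF
  have a0 : ContinuousAt (fun p' => F p' 0) p := (continuous_apply 0).continuousAt.comp
    hF.continuousAt
  have aw : AnalyticAt ℂ (fun p' => wv T v (F p' 1, F p' 2)) p :=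
    AnalyticAt.comp (g := wv T v) (f := fun p' => (F p' 1, F p' 2))
      (wv_an v (q := (F p 1, F p 2)) h.ne) (a1.prod a2)
  set w₀ : ℂ := wv T v (F p 1, F p 2) with hw₀
  obtain ⟨D⟩ := exists_LD hR h.mem (w₀ := w₀) h.nsp
  have hin := inT_open hF.continuousAt hroot h
  obtain ⟨q, hq⟩ := exists_ret hR h
  have hpq : pV U v q = w₀ := hq.2.1
  obtain ⟨l, -, -, -, h0, hql⟩ := D.of_ret hq (by rw [hpq]; exact D.w0_mem)
  rw [hpq] at h0 hql
  have hmem : ((F p 1, w₀) : ℂ × ℂ) ∈ ball (0 : ℂ) D.R ×ˢ ball w₀ D.r :=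
    ⟨by simpa using h.lt.trans (D.lt _ D.w0_mem).2, D.w0_mem⟩
  have hne : ∀ᶠ p' in 𝓝 p, ∀ l', l' ≠ l → D.Z l' (F p' 1, wv T v (F p' 1, F p' 2)) ≠ F p' 0 := by
    rw [eventually_all]
    intro l'
    by_cases hl : l' = l
    · exact Eventually.of_forall fun _ h => absurd hl h
    · have c3 : ContinuousAt (fun p' => D.Z l' (F p' 1, wv T v (F p' 1, F p' 2))) p :=
        ContinuousAt.comp (g := D.Z l') (f := fun p' => (F p' 1, wv T v (F p' 1, F p' 2)))
          (D.an l' _ hmem).continuousAt (a1.continuousAt.prodMk aw.continuousAt)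
      have h3 : D.Z l' (F p 1, wv T v (F p 1, F p 2)) ≠ F p 0 := by
        rw [h0]
        exact fun h4 => hl (D.inj _ hmem h.ne h4)
      exact ((c3.ne_iff_eventually_ne a0).1 h3).mono fun _ h _ => h
  have hball : ∀ᶠ p' in 𝓝 p, wv T v (F p' 1, F p' 2) ∈ ball w₀ D.r :=
    aw.continuousAt.eventually (isOpen_ball.mem_nhds D.w0_mem)
  have key : (fun p' => GG U v f₀ (F p')) =ᶠ[𝓝 p]
      fun p' => (f₀ ∘ D.σ l) (wv T v (F p' 1, F p' 2)) := by
    filter_upwards [hin, hne, hball] with p' h1 h2 h3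
    obtain ⟨q', hq'⟩ := exists_ret hR h1
    have hpq' : pV U v q' = wv T v (F p' 1, F p' 2) := hq'.2.1
    obtain ⟨l', -, -, -, h4, h5⟩ := D.of_ret hq' (by rw [hpq']; exact h3)
    rw [hpq'] at h4 h5
    have h6 : l' = l := by
      by_contra h7
      exact h2 l' h7 h4.symm
    rw [GG_eq hR hq', h5, h6]
    rfl
  refine AnalyticAt.congr ?_ key.symm
  exact AnalyticAt.comp (g := f₀ ∘ D.σ l) (f := fun p' => wv T v (F p' 1, F p' 2))
    (hf w₀ D.r (D.σ l) D.r_pos (D.cont l) (D.proj l)) aw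

/-- the root equation in the charts -/
lemma root_ev {c : Ch T.m} (hc : T.Valid c) (j : Fin T.d) {p : ℂ × ℂ}
    (hp : p ∈ BD (2 * S.r c) (2 * S.r c)) :
    ∀ᶠ p' in 𝓝 p, (T.Q (wc S c j p' 1, wc S c j p' 2)).eval (wc S c j p' 0) = 0 := by
  have hBDo : IsOpen (BD (2 * S.r c) (2 * S.r c)) :=
    (isOpen_lt continuous_fst.norm continuous_const).inter
    (isOpen_lt continuous_snd.norm continuous_const)
  filter_upwards [hBDo.mem_nhds hp] with p' hp'
  exact Vt5_558.wc_root S hc j hp'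

lemma GG_an_wc (hR : RetStmt U) {v : Vtx} {f₀ : XV U v → ℂ} (hf : HolX (pV U v) f₀)
    {c : Ch T.m} (hc : T.Valid c) (j : Fin T.d) {p : ℂ × ℂ}
    (hp : p ∈ BD (2 * S.r c) (2 * S.r c)) (h : InT U v (wc S c j p)) :
    AnalyticAt ℂ (fun p' => GG U v f₀ (wc S c j p')) p :=
  GG_an hR hf (wc_an hc j hp) (root_ev hc j hp) h

/-! ### near the axis -/

lemma BD_of (o : Bool) {R : ℝ} {p : ℂ × ℂ} (h1 : ‖cA o p‖ < R) (h2 : ‖cB o p‖ < R) :
    p ∈ BD R R := by
  cases o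
  · exact ⟨h2, h1⟩
  · exact ⟨h1, h2⟩

/-- `b` is an admissible coordinate on the axis -/
def Adb (S : Sh T) (o : Bool) (c : Ch T.m) (b : ℂ) : Prop :=
  ‖b‖ < 2 * S.r c ∧ (b ≠ 0 ∨ (o = true ∧ IsV c))

/-- local extension across the axis -/
lemma loc_ext (hR : RetStmt U) {v : Vtx} (hvV : v ∈ Vs T) {f₀ : XV U v → ℂ}
    (hf : HolX (pV U v) f₀) {o : Bool} {c : Ch T.m} (hc : T.Valid c) (hv : vO T o c = some v)
    {b : ℂ} (hb : Adb S o c b) (j : Fin T.d) :
    ∃ (w₀ : ℂ) (D : LD U v w₀) (W : ℂ × ℂ → ℂ) (l : Fin T.d), AnalyticAt ℂ W (mkp o 0 b) ∧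
      W (mkp o 0 b) = w₀ ∧ AnalyticAt ℂ (fun p => f₀ (D.σ l (W p))) (mkp o 0 b) ∧
      (∀ᶠ p in 𝓝 (mkp o 0 b), W p ∈ ball w₀ D.r) ∧
      ∀ᶠ p in 𝓝 (mkp o 0 b), cA o p ≠ 0 → IsRet U v (wc S c j p) (D.σ l (W p)) ∧
        GG U v f₀ (wc S c j p) = f₀ (D.σ l (W p)) := by
  have hs : ∀ᶠ p in 𝓝 (mkp o 0 b), cA o p ≠ 0 → (T.map c p).1 ≠ 0 := by
    cases o
    · rcases hb.2 with h | h
      · cases c with
        | edge i k k' =>
          have h1 : ∀ᶠ p : ℂ × ℂ in 𝓝 (b, (0 : ℂ)), p.1 ≠ 0 :=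
            continuous_fst.continuousAt.eventually_ne h
          filter_upwards [h1] with p h2 h3
          exact mul_ne_zero h2 h3
        | leg i => simp [vO, v2] at hv
        | vert i k w => simp [vO, v2] at hv
      · simp at h
    · cases c with
      | edge i k k' =>
        rcases hb.2 with h | h
        · have h1 : ∀ᶠ p : ℂ × ℂ in 𝓝 ((0 : ℂ), b), p.2 ≠ 0 :=
            continuous_snd.continuousAt.eventually_ne h
          filter_upwards [h1] with p h2 h3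
          exact mul_ne_zero h3 h2
        · exact absurd h.2 (by simp [IsV])
      | leg i => exact Eventually.of_forall fun p h3 => h3
      | vert i k w => exact Eventually.of_forall fun p h3 => h3
  have main : ∃ (w₀ : ℂ) (D : LD U v w₀) (W : ℂ × ℂ → ℂ) (l : Fin T.d),
      AnalyticAt ℂ W (mkp o 0 b) ∧ W (mkp o 0 b) = w₀ ∧ ∀ᶠ p in 𝓝 (mkp o 0 b),
      W p ∈ ball w₀ D.r ∧ ((T.map c p).1 ≠ 0 → IsRet U v (wc S c j p) (D.σ l (W p))) := by
    cases o
    · have hb' : b ≠ 0 := by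
        rcases hb.2 with h | h
        · exact h
        · simp at h
      obtain ⟨w₀, D, W, l, h1, h2, h3⟩ := Vt5_558.att2 S hR hc hvV hv hb.1 hb' j
      exact ⟨w₀, D, W, l, h1, h2, h3.mono fun p h => ⟨h.2.1, h.2.2.2⟩⟩
    · have hb' : b ≠ 0 ∨ IsV c := by
        rcases hb.2 with h | h
        · exact Or.inl h
        · exact Or.inr h.2
      obtain ⟨w₀, D, W, l, h1, h2, h3⟩ := Vt5_558.att1 S hR hc hvV hv hb.1 hb' j
      exact ⟨w₀, D, W, l, h1, h2, h3.mono fun p h => ⟨h.2.1, h.2.2.2⟩⟩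
  obtain ⟨w₀, D, W, l, hW, hW0, hev⟩ := main
  refine ⟨w₀, D, W, l, hW, hW0, ?_, hev.mono fun p h => h.1, ?_⟩
  · refine AnalyticAt.comp (g := f₀ ∘ D.σ l) (f := W) ?_ hW
    rw [hW0]
    exact hf w₀ D.r (D.σ l) D.r_pos (D.cont l) (D.proj l)
  · filter_upwards [hev, hs] with p h1 h2 h3
    have h4 := h1.2 (h2 h3)
    exact ⟨h4, GG_eq hR h4⟩

end Crest.Agent.R257.CDataE_250
end
end

-- ▼ part R257/CDataF_250
section

/-!
Row 257, part C, task C-DATA (helper250), file F: the values on the axis (`EndO`), the difference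
`f₀ (ret) - f₀ (γ)` is `O(α)`, equal points of one chart.
-/

set_option autoImplicit false
set_option linter.unusedSectionVars false

noncomputable section

open Set Filter Topology MeasureTheory Metric
open scoped ENNReal

namespace Crest.Agent.R257.CDataE_250

open Crest.AlgGeometry.Germ Crest.Agent.R257.AJ387 Crest.Agent.R257.T387
open Crest.Agent.R257.Gr1_157 Crest.Agent.R257.HoB_843 Crest.Agent.R257.BP_258
open Crest.Agent.R257.CDataA_250 Crest.Agent.R257.CDataB_250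
open Crest.Agent.R257.Wt_258 Crest.Agent.R257.Rsn_843 Crest.Agent.R257.Vt2_558

variable {f : (Fin 3 → ℂ) → ℂ} {T : TB f} {U : Tub T} {S : Sh T}

/-- the points of `XV U v` on the axis -/
structure EndO (U : Tub T) (S : Sh T) (o : Bool) (c : Ch T.m) (v : Vtx)
    (γ : Fin T.d → ℂ → XV U v) : Prop where
  cont : ∀ j, ContinuousOn (γ j) (PDc S c)
  an : ∀ j, ∀ b ∈ PDc S c, AnalyticAt ℂ (fun b => pV U v (γ j b)) b
  int : ∀ j, ∀ b ∈ PDc S c, ∀ᶠ p in 𝓝 (mkp o 0 b), cA o p ≠ 0 → InT U v (wc S c j p)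
  lim : ∀ j, ∀ b ∈ PDc S c, ∀ O ∈ 𝓝 (γ j b), ∀ᶠ p in 𝓝 (mkp o 0 b), cA o p ≠ 0 →
    ∀ q, IsRet U v (wc S c j p) q → q ∈ O

lemma isOpen_PDc (c : Ch T.m) : IsOpen (PDc S c) :=
  (isOpen_lt continuous_const continuous_norm).inter (isOpen_lt continuous_norm continuous_const)

lemma endO_of_end1 {c : Ch T.m} {v : Vtx} {γ : Fin T.d → ℂ → XV U v} (h : End1 U S c v γ) :
    EndO U S true c v γ := by
  have hsub : PDc S c ⊆ PDv S c := fun b hb => ⟨Or.inr hb.1, hb.2⟩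
  refine ⟨fun j => (h.cont j).mono hsub, fun j b hb => ?_, fun j b hb => (h.lim j b (hsub hb)).1,
    fun j b hb => (h.lim j b (hsub hb)).2⟩
  have h1 : (fun b => pV U v (γ j b)) =ᶠ[𝓝 b] fun b => cx T c + b ^ lx T c := by
    filter_upwards [(isOpen_PDc c).mem_nhds hb] with b' hb'
    exact h.pr j b' (hsub hb')
  exact (analyticAt_const.add (analyticAt_id.pow _)).congr h1.symm

lemma endO_of_end2 {c : Ch T.m} {v : Vtx} {γ : Fin T.d → ℂ → XV U v} (h : End2 U S c v γ) :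
    EndO U S false c v γ := by
  refine ⟨h.cont, fun j b hb => ?_, fun j b hb => (h.lim j b hb).1, fun j b hb => (h.lim j b hb).2⟩
  have h1 : (fun b => pV U v (γ j b)) =ᶠ[𝓝 b] fun b => (b ^ lx T c)⁻¹ := by
    filter_upwards [(isOpen_PDc c).mem_nhds hb] with b' hb'
    exact h.pr j b' hb'
  exact ((analyticAt_id.pow _).inv (pow_ne_zero _ (norm_pos_iff.1 hb.1))).congr h1.symm

lemma pV_nsp {v : Vtx} (q : XV U v) : pV U v q ∉ sp T v := q.2.2.1

namespace EndO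

variable {o : Bool} {c : Ch T.m} {v : Vtx} {γ : Fin T.d → ℂ → XV U v} (h : EndO U S o c v γ)
include h

/-- `f₀ ∘ γ j` is analytic -/
lemma an_f (hR : RetStmt U) (hvV : v ∈ Vs T) {f₀ : XV U v → ℂ} (hf : HolX (pV U v) f₀)
    (j : Fin T.d) {b : ℂ} (hb : b ∈ PDc S c) : AnalyticAt ℂ (fun b => f₀ (γ j b)) b := by
  set w₀ : ℂ := pV U v (γ j b) with hw₀
  obtain ⟨D⟩ := exists_LD hR hvV (w₀ := w₀) (pV_nsp _)
  obtain ⟨l, hl⟩ := D.surj (γ j b) D.w0_mem
  have h1 := D.near (j := l) D.w0_mem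
  rw [show D.σ l w₀ = γ j b from hl] at h1
  have h2 : ContinuousAt (γ j) b := (h.cont j).continuousAt ((isOpen_PDc c).mem_nhds hb)
  have h3 : (fun b => f₀ (γ j b)) =ᶠ[𝓝 b] fun b => (f₀ ∘ D.σ l) (pV U v (γ j b)) := by
    filter_upwards [h2.eventually h1] with b' hb'
    show _ = f₀ (D.σ l (pV U v (γ j b')))
    rw [hb'.1]
  refine AnalyticAt.congr ?_ h3.symm
  exact AnalyticAt.comp (g := f₀ ∘ D.σ l) (f := fun b => pV U v (γ j b))
    (hf w₀ D.r (D.σ l) D.r_pos (D.cont l) (D.proj l)) (h.an j b hb)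

omit h in
/-- points `mkp o t b` with `t → 0`, `t ≠ 0` -/
lemma tend_mkp (o : Bool) (b : ℂ) : Tendsto (fun t : ℂ => mkp o t b) (𝓝[≠] 0) (𝓝 (mkp o 0 b)) := by
  have h1 : Continuous fun t : ℂ => mkp o t b :=
    (continuous_mkp o).comp (continuous_id.prodMk continuous_const)
  exact (h1.tendsto 0).mono_left nhdsWithin_le_nhds

/-- the limit is unique -/
lemma lim_eq {j : Fin T.d} {b : ℂ} (hb : b ∈ PDc S c) {q₀ : XV U v}
    (hq : ∀ O ∈ 𝓝 q₀, ∃ᶠ t in 𝓝[≠] (0 : ℂ), ∃ q, IsRet U v (wc S c j (mkp o t b)) q ∧ q ∈ O) :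
    γ j b = q₀ := by
  by_contra hne
  obtain ⟨O₁, O₂, ho1, ho2, h1, h2, h3⟩ := t2_separation hne
  have e1 := (tend_mkp o b).eventually (h.lim j b hb O₁ (ho1.mem_nhds h1))
  have e2 := hq O₂ (ho2.mem_nhds h2)
  obtain ⟨t, ⟨⟨q, hq1, hq2⟩, h4⟩, h5⟩ := ((e2.and_eventually e1).and_eventually
    self_mem_nhdsWithin).exists
  have h6 := h4 (by rw [cA_mkp]; exact h5) q hq1
  exact (Set.disjoint_left.1 h3) h6 hq2

/-- the extension takes the values `f₀ (γ j b)` on the axis -/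
lemma val_ext (hR : RetStmt U) (hvV : v ∈ Vs T) {f₀ : XV U v → ℂ} (hf : HolX (pV U v) f₀)
    (hc : T.Valid c) (hv : vO T o c = some v) (j : Fin T.d) {b : ℂ} (hb : b ∈ PDc S c) :
    ∃ Fl : ℂ × ℂ → ℂ, AnalyticAt ℂ Fl (mkp o 0 b) ∧
      (∀ᶠ p in 𝓝 (mkp o 0 b), cA o p ≠ 0 → GG U v f₀ (wc S c j p) = Fl p) ∧
      ∀ᶠ p in 𝓝 (mkp o 0 b), Fl (mkp o 0 (cB o p)) = f₀ (γ j (cB o p)) := by
  have hadb : Adb S o c b := ⟨hb.2, Or.inl (norm_pos_iff.1 hb.1)⟩
  obtain ⟨w₀, D, W, l, hW, hW0, hFa, hball, hev⟩ := loc_ext (S := S) hR hvV hf hc hv hadb j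
  refine ⟨_, hFa, hev.mono fun p hp h0 => (hp h0).2, ?_⟩
  have hWc : ∀ᶠ p in 𝓝 (mkp o 0 b), ContinuousAt W p :=
    hW.eventually_analyticAt.mono fun p hp => hp.continuousAt
  have hcont : Continuous fun p : ℂ × ℂ => mkp o 0 (cB o p) :=
    (continuous_mkp o).comp (continuous_const.prodMk (continuous_cB o))
  have htend : Tendsto (fun p : ℂ × ℂ => mkp o 0 (cB o p)) (𝓝 (mkp o 0 b)) (𝓝 (mkp o 0 b)) := by
    have := hcont.tendsto (mkp o 0 b)
    simpa using this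
  have hPD : ∀ᶠ p in 𝓝 (mkp o 0 b), cB o p ∈ PDc S c := by
    refine (continuous_cB o).continuousAt.eventually ?_
    rw [cB_mkp]
    exact (isOpen_PDc c).mem_nhds hb
  filter_upwards [htend.eventually (hev.eventually_nhds), htend.eventually (hball.eventually_nhds),
    htend.eventually hWc, hPD] with p h1 h2 h3 h4
  congr 1
  symm
  refine h.lim_eq h4 fun O hO => ?_
  have c1 : ContinuousAt (fun p => D.σ l (W p)) (mkp o 0 (cB o p)) := by
    refine ContinuousAt.comp (g := D.σ l) (f := W) ?_ h3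
    exact (D.cont l).continuousAt (isOpen_ball.mem_nhds h2.self_of_nhds)
  have e1 := (tend_mkp o (cB o p)).eventually (c1.eventually hO)
  have e2 := (tend_mkp o (cB o p)).eventually h1
  refine Eventually.frequently ?_
  filter_upwards [e1, e2, self_mem_nhdsWithin] with t h5 h6 h7
  exact ⟨_, (h6 (by rw [cA_mkp]; exact h7)).1, h5⟩

/-- local form of the estimate -/
lemma est_loc (hR : RetStmt U) (hvV : v ∈ Vs T) {f₀ : XV U v → ℂ} (hf : HolX (pV U v) f₀)
    (hc : T.Valid c) (hv : vO T o c = some v) (j : Fin T.d) {b : ℂ} (hb : b ∈ PDc S c) :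
    ∃ ε > 0, ∃ C, ∀ p : ℂ × ℂ, ‖cB o p - b‖ < ε → 0 < ‖cA o p‖ → ‖cA o p‖ < ε →
      ‖GG U v f₀ (wc S c j p) - f₀ (γ j (cB o p))‖ ≤ C * ‖cA o p‖ := by
  obtain ⟨Fl, hFl, h1, h2⟩ := h.val_ext hR hvV hf hc hv j hb
  obtain ⟨K, t, ht, hK⟩ := (hFl.contDiffAt (n := 1)).exists_lipschitzOnWith
  have hcont : Continuous fun p : ℂ × ℂ => mkp o 0 (cB o p) :=
    (continuous_mkp o).comp (continuous_const.prodMk (continuous_cB o))
  have htend : Tendsto (fun p : ℂ × ℂ => mkp o 0 (cB o p)) (𝓝 (mkp o 0 b)) (𝓝 (mkp o 0 b)) := by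
    have := hcont.tendsto (mkp o 0 b)
    simpa using this
  have hev : ∀ᶠ p in 𝓝 (mkp o 0 b), cA o p ≠ 0 →
      ‖GG U v f₀ (wc S c j p) - f₀ (γ j (cB o p))‖ ≤ K * ‖cA o p‖ := by
    filter_upwards [h1, h2, ht, htend.eventually_mem ht] with p e1 e2 e3 e4 e5
    rw [e1 e5, ← e2, ← norm_sub_mkp]
    have := hK.dist_le_mul p e3 _ e4
    rwa [dist_eq_norm, dist_eq_norm] at this
  obtain ⟨ε, hε, hb'⟩ := Metric.eventually_nhds_iff.1 hev
  refine ⟨ε, hε, K, fun p e1 e2 e3 => hb' ?_ (norm_pos_iff.1 e2)⟩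
  rw [dist_eq_norm, Prod.norm_def]
  cases o
  · exact max_lt e1 (by simpa [mkp, cA] using e3)
  · exact max_lt (by simpa [mkp, cA] using e3) e1

/-- **the retraction against the axis** -/
lemma est (hR : RetStmt U) (hvV : v ∈ Vs T) {f₀ : XV U v → ℂ} (hf : HolX (pV U v) f₀)
    (hc : T.Valid c) (hv : vO T o c = some v) (j : Fin T.d) {K : Set ℂ} (hK : IsCompact K)
    (hKs : K ⊆ PDc S c) :
    ∃ ε > 0, ∃ C, ∀ p : ℂ × ℂ, cB o p ∈ K → 0 < ‖cA o p‖ → ‖cA o p‖ < ε →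
      ‖GG U v f₀ (wc S c j p) - f₀ (γ j (cB o p))‖ ≤ C * ‖cA o p‖ := by
  refine hK.induction_on (p := fun s => ∃ ε > 0, ∃ C, ∀ p : ℂ × ℂ, cB o p ∈ s → 0 < ‖cA o p‖ →
    ‖cA o p‖ < ε → ‖GG U v f₀ (wc S c j p) - f₀ (γ j (cB o p))‖ ≤ C * ‖cA o p‖) ?_ ?_ ?_ ?_
  · exact ⟨1, one_pos, 0, fun p hp => absurd hp (Set.notMem_empty _)⟩
  · rintro s t hst ⟨ε, hε, C, h1⟩
    exact ⟨ε, hε, C, fun p hp => h1 p (hst hp)⟩
  · rintro s t ⟨ε, hε, C, h1⟩ ⟨ε', hε', C', h1'⟩
    refine ⟨min ε ε', lt_min hε hε', max C C', fun p hp h2 h3 => ?_⟩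
    rcases hp with hp | hp
    · exact (h1 p hp h2 (h3.trans_le (min_le_left _ _))).trans
        (mul_le_mul_of_nonneg_right (le_max_left _ _) (norm_nonneg _))
    · exact (h1' p hp h2 (h3.trans_le (min_le_right _ _))).trans
        (mul_le_mul_of_nonneg_right (le_max_right _ _) (norm_nonneg _))
  · intro b hb
    obtain ⟨ε, hε, C, h1⟩ := h.est_loc hR hvV hf hc hv j (hKs hb)
    refine ⟨ball b ε, mem_nhdsWithin_of_mem_nhds (ball_mem_nhds b hε), ε, hε, C, fun p hp => h1 p ?_⟩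
    simpa [dist_eq_norm] using hp

end EndO

/-- `f₀ (ret)` is bounded near a compact part of the axis -/
lemma GG_bd (hR : RetStmt U) {v : Vtx} (hvV : v ∈ Vs T) {f₀ : XV U v → ℂ}
    (hf : HolX (pV U v) f₀) {o : Bool} {c : Ch T.m} (hc : T.Valid c) (hv : vO T o c = some v)
    (j : Fin T.d) {K : Set ℂ} (hK : IsCompact K) (hKs : ∀ b ∈ K, Adb S o c b) :
    ∃ ε > 0, ∃ C, ∀ p : ℂ × ℂ, cB o p ∈ K → 0 < ‖cA o p‖ → ‖cA o p‖ < ε →
      ‖GG U v f₀ (wc S c j p)‖ ≤ C := by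
  refine hK.induction_on (p := fun s => ∃ ε > 0, ∃ C, ∀ p : ℂ × ℂ, cB o p ∈ s → 0 < ‖cA o p‖ →
    ‖cA o p‖ < ε → ‖GG U v f₀ (wc S c j p)‖ ≤ C) ?_ ?_ ?_ ?_
  · exact ⟨1, one_pos, 0, fun p hp => absurd hp (Set.notMem_empty _)⟩
  · rintro s t hst ⟨ε, hε, C, h1⟩
    exact ⟨ε, hε, C, fun p hp => h1 p (hst hp)⟩
  · rintro s t ⟨ε, hε, C, h1⟩ ⟨ε', hε', C', h1'⟩
    refine ⟨min ε ε', lt_min hε hε', max C C', fun p hp h2 h3 => ?_⟩
    rcases hp with hp | hp
    · exact (h1 p hp h2 (h3.trans_le (min_le_left _ _))).trans (le_max_left _ _)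
    · exact (h1' p hp h2 (h3.trans_le (min_le_right _ _))).trans (le_max_right _ _)
  · intro b hb
    obtain ⟨w₀, D, W, l, hW, hW0, hFa, hball, hev⟩ := loc_ext (S := S) hR hvV hf hc hv (hKs b hb) j
    have h3 : ∀ᶠ p in 𝓝 (mkp o 0 b), ‖f₀ (D.σ l (W p))‖ < ‖f₀ (D.σ l (W (mkp o 0 b)))‖ + 1 :=
      hFa.continuousAt.norm.eventually_lt continuousAt_const (lt_add_one _)
    obtain ⟨ε, hε, hb'⟩ := Metric.eventually_nhds_iff.1 (hev.and h3)
    refine ⟨ball b ε, mem_nhdsWithin_of_mem_nhds (ball_mem_nhds b hε), ε, hε,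
      ‖f₀ (D.σ l (W (mkp o 0 b)))‖ + 1, fun p hp e2 e3 => ?_⟩
    have hd : dist p (mkp o 0 b) < ε := by
      have e1 : ‖cB o p - b‖ < ε := by simpa [dist_eq_norm] using hp
      rw [dist_eq_norm, Prod.norm_def]
      cases o
      · exact max_lt e1 (by simpa [mkp, cA] using e3)
      · exact max_lt (by simpa [mkp, cA] using e3) e1
    obtain ⟨h4, h5⟩ := hb' hd
    rw [(h4 (norm_pos_iff.1 e2)).2]
    exact h5.le

end Crest.Agent.R257.CDataE_250
end
end

-- ▼ part R257/CDataG_250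
section

/-!
Row 257, part C, task C-DATA (helper250), file G: equal points of one chart (`twist`), types of the points of
the special fibre: `key` (points over a compact part of `XV U v`), `sepP` (separation of a chart from the
origin of another chart).
-/

set_option autoImplicit false
set_option linter.unusedSectionVars false

noncomputable section

open Set Filter Topology MeasureTheory Metric
open scoped ENNReal

namespace Crest.Agent.R257.CDataG_250

open Crest.AlgGeometry.Germ Crest.Agent.R257.AJ387 Crest.Agent.R257.T387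
open Crest.Agent.R257.Gr1_157 Crest.Agent.R257.HoB_843 Crest.Agent.R257.BP_258
open Crest.Agent.R257.CDataA_250 Crest.Agent.R257.CDataB_250 Crest.Agent.R257.CDataE_250
open Crest.Agent.R257.Wt_258 Crest.Agent.R257.Rsn_843 Crest.Agent.R257.Vt2_558
open Crest.Agent.R257.FrmE_547 (CB)
open Crest.Agent.R257.FrmF_547 Crest.Agent.R257.Sep_547
open Crest.Agent.R257.Typ_201 (TV TL TN)

variable {f : (Fin 3 → ℂ) → ℂ} {T : TB f} {U : Tub T} {S : Sh T}

/-! ### equal points of one chart -/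

/-- **equal points of one chart** -/
theorem twist {c : Ch T.m} (hc : T.Valid c) {j j' : Fin T.d} {p p' : ℂ × ℂ}
    (hp : p ∈ BD (2 * S.r c) (2 * S.r c)) (hg : T.Gen c p)
    (hg' : T.Gen c p') (h : wc S c j p = wc S c j' p') :
    ∃ ω1 ω2 : ℂ, ‖ω1‖ = 1 ∧ ‖ω2‖ = 1 ∧ p' = (ω1 * p.1, ω2 * p.2) ∧
      ∀ q ∈ BD (2 * S.r c) (2 * S.r c), wc S c j q = wc S c j' (ω1 * q.1, ω2 * q.2) := by
  obtain ⟨ω, h1, h2, h3⟩ := mono_inv hc hg hg' (map_wc h)
  have main : ∃ ω1 ω2 : ℂ, ‖ω1‖ = 1 ∧ ‖ω2‖ = 1 ∧ p' = (ω1 * p.1, ω2 * p.2) ∧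
      ∀ q : ℂ × ℂ, T.map c (ω1 * q.1, ω2 * q.2) = T.map c q := by
    cases c with
    | edge i k k' =>
      obtain ⟨h4, h5⟩ := h2
      have hω : ω ≠ 0 := fun h0 => by rw [h0, norm_zero] at h1; exact zero_ne_one h1
      refine ⟨ω⁻¹, ω, by rw [norm_inv, h1, inv_one], h1, Prod.ext h5 h3, fun q => ?_⟩
      have e1 : ω⁻¹ * q.1 * (ω * q.2) = q.1 * q.2 := by field_simp
      have hk : k < k' := hc.2.2.1
      have e2 : T.M * k' = T.M * k + T.M * (k' - k) := by rw [← mul_add]; congr 1; omega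
      have e3 : (ω⁻¹ * q.1) ^ (T.M * k) * (ω * q.2) ^ (T.M * k') =
          q.1 ^ (T.M * k) * q.2 ^ (T.M * k') := by
        rw [e2, pow_add, pow_add, mul_pow, mul_pow, mul_pow, inv_pow, h4]
        field_simp
      show (_, _) = (_, _)
      simp only [e1, e3]
    | leg i =>
      obtain ⟨h4, h5⟩ := h2
      refine ⟨1, ω, norm_one, h1, Prod.ext (by rw [one_mul]; exact h5) h3, fun q => ?_⟩
      show (_, _) = (_, _)
      simp only [one_mul, mul_pow, h4]
    | vert i k w =>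
      obtain ⟨h4, h5⟩ := h2
      refine ⟨1, 1, norm_one, norm_one, Prod.ext (by rw [one_mul]; exact h5) (by
        rw [h3, h4]), fun q => ?_⟩
      simp only [one_mul]
  obtain ⟨ω1, ω2, n1, n2, e1, e2⟩ := main
  refine ⟨ω1, ω2, n1, n2, e1, fun q hq => ?_⟩
  have hS := S.sheets c hc
  have hnod : (T.Q (T.map c p)).roots.Nodup := by
    rw [hS.split p hp, roots_prodf]
    refine (Multiset.nodup_map_iff_inj_on Finset.univ.nodup).2 fun a _ b _ hab => ?_
    exact hS.inj p hp hg hab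
  have hz : S.ζ c j p = S.ζ c j' p' := congrFun h 0
  have hR : ∀ q : ℂ × ℂ, AnalyticAt ℂ (fun q : ℂ × ℂ => (ω1 * q.1, ω2 * q.2)) q := fun q =>
    (analyticAt_const.mul analyticAt_fst).prod (analyticAt_const.mul analyticAt_snd)
  have h5 := sheets_rot hS (R := fun q : ℂ × ℂ => (ω1 * q.1, ω2 * q.2)) hR
    (fun q hq => ⟨by simpa [norm_mul, n1] using hq.1, by simpa [norm_mul, n2] using hq.2⟩)
    (fun q => e2 q) hp hnod (j := j) (j' := j') (by rw [hz, e1]) q hq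
  unfold wc
  rw [h5, e2]

/-- values on the axis at equal points -/
theorem γ_twist (hR : RetStmt U) {o : Bool} {c : Ch T.m} {v : Vtx} {γ : Fin T.d → ℂ → XV U v}
    (hγ : EndO U S o c v γ) (hc : T.Valid c) {j j' : Fin T.d} {p p' : ℂ × ℂ}
    (hp : p ∈ BD (2 * S.r c) (2 * S.r c)) (hg : T.Gen c p) (hg' : T.Gen c p')
    (hB : cB o p ∈ PDc S c) (h : wc S c j p = wc S c j' p') :
    γ j (cB o p) = γ j' (cB o p') := by
  obtain ⟨ω1, ω2, n1, n2, e1, e2⟩ := twist hc hp hg hg' h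
  have hr := S.pos c
  have hB' : cB o p' ∈ PDc S c := by
    have : ‖cB o p'‖ = ‖cB o p‖ := by
      rw [e1]; cases o
      · simp [cB, norm_mul, n1]
      · simp [cB, norm_mul, n2]
    exact ⟨by rw [this]; exact hB.1, by rw [this]; exact hB.2⟩
  have hω1 : ω1 ≠ 0 := fun h0 => by rw [h0, norm_zero] at n1; exact zero_ne_one n1
  have hω2 : ω2 ≠ 0 := fun h0 => by rw [h0, norm_zero] at n2; exact zero_ne_one n2
  -- the factor of the coordinate `cA`
  obtain ⟨ωA, hA0, hAeq⟩ : ∃ ωA : ℂ, ωA ≠ 0 ∧ ∀ t : ℂ, ((ω1 * (mkp o t (cB o p)).1,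
      ω2 * (mkp o t (cB o p)).2) : ℂ × ℂ) = mkp o (ωA * t) (cB o p') := by
    cases o
    · exact ⟨ω2, hω2, fun t => by simp [mkp, cB, e1]⟩
    · exact ⟨ω1, hω1, fun t => by simp [mkp, cB, e1]⟩
  symm
  refine hγ.lim_eq hB' fun O hO => ?_
  have t1 := (EndO.tend_mkp o (cB o p)).eventually (hγ.lim j _ hB O hO)
  have t2 := (EndO.tend_mkp o (cB o p)).eventually (hγ.int j _ hB)
  have t3 : ∀ᶠ t in 𝓝[≠] (0 : ℂ), mkp o t (cB o p) ∈ BD (2 * S.r c) (2 * S.r c) := by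
    have h4 : ∀ᶠ t in 𝓝 (0 : ℂ), ‖t‖ < 2 * S.r c :=
      (continuous_norm.tendsto' (0 : ℂ) 0 norm_zero).eventually (gt_mem_nhds (by linarith))
    filter_upwards [h4.filter_mono nhdsWithin_le_nhds] with t ht
    exact BD_of o (by rw [cA_mkp]; exact ht) (by rw [cB_mkp]; exact hB.2)
  have key : ∀ᶠ t in 𝓝[≠] (0 : ℂ), ∃ q, IsRet U v (wc S c j' (mkp o (ωA * t) (cB o p'))) q ∧
      q ∈ O := by
    filter_upwards [t1, t2, t3, self_mem_nhdsWithin] with t h1 h2 h3 h4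
    have h5 : cA o (mkp o t (cB o p)) ≠ 0 := by rw [cA_mkp]; exact h4
    obtain ⟨q, hq⟩ := exists_ret hR (h2 h5)
    refine ⟨q, ?_, h1 h5 q hq⟩
    rwa [e2 _ h3, hAeq] at hq
  -- change of variable `t ↦ t / ωA`
  have hmul : Tendsto (fun t : ℂ => ωA⁻¹ * t) (𝓝[≠] 0) (𝓝[≠] 0) := by
    rw [tendsto_nhdsWithin_iff]
    constructor
    · have h6 : Continuous fun t : ℂ => ωA⁻¹ * t := continuous_const.mul continuous_id
      exact (h6.tendsto' 0 0 (mul_zero _)).mono_left nhdsWithin_le_nhds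
    · filter_upwards [self_mem_nhdsWithin] with t ht
      exact mul_ne_zero (inv_ne_zero hA0) ht
  refine Eventually.frequently ((hmul.eventually key).mono fun t ht => ?_)
  rwa [mul_inv_cancel_left₀ hA0] at ht

/-! ### types -/

lemma psi_zero {v : Vtx} (hv : v ∈ Vs T) (S : Sh T) : v.2.eval 0 = 0 := by
  have h1 := S.ci_eq v hv 0 (mem_ball_self T.ρ_pos)
  rw [T.φ_zero] at h1
  exact h1.symm

lemma lev_pos' {v : Vtx} (hv : v ∈ Vs T) (S : Sh T) : 0 < v.1 := T.lev_pos (S.kp_cons v hv).2.1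

lemma yv_zero {v : Vtx} (hv : v ∈ Vs T) (S : Sh T) (w : ℂ) : yv T v (0, w) = 0 := by
  have h1 := lev_pos' hv S
  have h2 : T.M * v.1 ≠ 0 := (Nat.mul_pos T.M_pos h1).ne'
  simp only [yv, zero_pow T.M_pos.ne', psi_zero hv S, zero_pow h2, zero_mul, add_zero]

/-- the type of a point over a point of `XV U v` -/
lemma tv_of {v : Vtx} (hv : v ∈ Vs T) (S : Sh T) {l : Filter (ℂ × ℂ)} {w : ℂ} (hw : w ∉ sp T v)
    (h0 : Tendsto (Prod.fst : ℂ × ℂ → ℂ) l (𝓝 0)) (h : Tendsto (wv T v) l (𝓝 w)) :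
    TV T l (S.ci v) v.1 w := by
  refine ⟨(S.kp_cons v hv).2.1, ?_, fun h1 => hw ((Lab_931.mem_sp_iff S hv w).2 h1)⟩
  refine h.congr' ?_
  have h1 : ∀ᶠ q in l, q.1 ^ T.M ∈ ball (0 : ℂ) T.ρ := by
    have h2 : Tendsto (fun q : ℂ × ℂ => q.1 ^ T.M) l (𝓝 0) := by
      have := h0.pow T.M
      rwa [zero_pow T.M_pos.ne'] at this
    exact h2.eventually (ball_mem_nhds _ T.ρ_pos)
  filter_upwards [h1] with q hq
  unfold wv Typ_201.wc
  rw [S.ci_eq v hv _ hq]

lemma vx_of_TV {v : Vtx} (hv : v ∈ Vs T) {l : Filter (ℂ × ℂ)} [l.NeBot]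
    (h0 : Tendsto (Prod.fst : ℂ × ℂ → ℂ) l (𝓝 0)) (h1 : ∀ᶠ q in l, q.1 ≠ 0) {i : Fin T.m} {k : ℕ}
    {w w' : ℂ} (h : TV T l i k w) (h' : TV T l (S.ci v) v.1 w') : vx T i k = v := by
  obtain ⟨e1, e2⟩ := Typ_201.TV_TV h0 h1 h h'
  have h3 := (Vx_331.vx_eq_iff T i (S.ci v) k).2 e2
  rw [h3, e1, Vx_331.ci_vx S hv]

/-- the type of a limit point of the special fibre, with its place -/
theorem place {c : Ch T.m} (hc : Ok S c) {p₀ : ℂ × ℂ} (hp₀ : p₀ ∈ CB (S.r c))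
    {m : Filter (ℂ × ℂ)} (hm : m ≤ 𝓝 p₀) (hg : ∀ᶠ p in m, T.Gen c p) (h0 : T.map c p₀ = 0) :
    (∃ i k w₀, TV T (map (T.map c) m) i k w₀ ∧
      ((v1 T c = some (vx T i k) ∧ (IsV c ∨ p₀.2 ≠ 0)) ∨ (v2 T c = some (vx T i k) ∧ p₀.1 ≠ 0))) ∨
    (¬ IsV c ∧ OT c (map (T.map c) m)) := by
  have hr := S.pos c
  have c1 : Tendsto (fun p : ℂ × ℂ => p.1) m (𝓝 p₀.1) := (continuous_fst.tendsto p₀).mono_left hm
  have c2 : Tendsto (fun p : ℂ × ℂ => p.2) m (𝓝 p₀.2) := (continuous_snd.tendsto p₀).mono_left hm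
  have hz := (T.map_eq_zero hc.1 p₀).1 h0
  have hs : ∀ᶠ p in m, (T.map c p).1 ≠ 0 := hg.mono fun p hp => sc_ne hp
  by_cases hp0 : p₀ = 0
  · have ho := origin_type hc.1 (m := m) (by rw [hp0] at hm; exact hm) hg
    cases c with
    | vert i k w => exact Or.inl ⟨i, k, w, ho, Or.inl ⟨rfl, Or.inl trivial⟩⟩
    | leg i => exact Or.inr ⟨fun h => h, ho⟩
    | edge i k k' => exact Or.inr ⟨fun h => h, ho⟩
  left
  cases c with
  | vert i k w =>
    refine ⟨i, k, w + p₀.2, ⟨hc.1.1, ?_, ?_⟩, Or.inl ⟨rfl, Or.inl trivial⟩⟩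
    · rw [tendsto_map'_iff]
      refine (c2.const_add w).congr' ?_
      filter_upwards [hs] with p hp
      exact (twc_vert i k w hp).symm
    · refine S.far i k w hc.1 _ ?_
      rw [add_sub_cancel_left]
      have := hp₀.2
      linarith
  | leg i =>
    have h1 : p₀.1 = 0 := hz
    have h2 : p₀.2 ≠ 0 := fun h2 => hp0 (Prod.ext h1 h2)
    refine ⟨i, T.top i, p₀.2 ^ T.M, ⟨T.top_mem i, ?_, ?_⟩, Or.inl ⟨rfl, Or.inr h2⟩⟩
    · rw [tendsto_map'_iff]
      refine (c2.pow T.M).congr' ?_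
      filter_upwards [hs] with p hp
      exact (twc_leg i hp).symm
    · refine S.farl i _ h2 ?_
      have := hp₀.2
      linarith
  | edge i k k' =>
    have hkk : k < k' := hc.1.2.2.1
    by_cases h2 : p₀.2 = 0
    · have h1 : p₀.1 ≠ 0 := fun h1 => hp0 (Prod.ext h1 h2)
      refine ⟨i, k', (p₀.1 ^ (T.M * (k' - k)))⁻¹, ⟨hc.1.2.1, ?_, ?_⟩, Or.inr ⟨rfl, h1⟩⟩
      · rw [tendsto_map'_iff]
        refine ((c1.pow _).inv₀ (pow_ne_zero _ h1)).congr' ?_
        filter_upwards [hs] with p hp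
        exact (twc_edge2 i hkk.le hp).symm
      · refine (S.fare i k k' hc.1 _ h1 ?_).2
        have := hp₀.1
        linarith
    · obtain ⟨hk0, h1⟩ : k ≠ 0 ∧ p₀.1 = 0 := hz.resolve_right h2
      have hlev : k ∈ T.lev i := hc.1.1.resolve_left hk0
      refine ⟨i, k, p₀.2 ^ (T.M * (k' - k)), ⟨hlev, ?_, ?_⟩,
        Or.inl ⟨by simp [v1, hk0], Or.inr h2⟩⟩
      · rw [tendsto_map'_iff]
        refine (c2.pow _).congr' ?_
        filter_upwards [hs] with p hp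
        exact (twc_edge1 i hkk.le hp).symm
      · refine (S.fare i k k' hc.1 _ h2 ?_).1
        have := hp₀.2
        linarith

lemma OT_TV {c : Ch T.m} (hV : ¬ IsV c) {l : Filter (ℂ × ℂ)} [l.NeBot]
    (h0 : Tendsto (Prod.fst : ℂ × ℂ → ℂ) l (𝓝 0)) (h1 : ∀ᶠ q in l, q.1 ≠ 0) (h : OT c l)
    {i : Fin T.m} {k : ℕ} {w : ℂ} (h' : TV T l i k w) : False := by
  cases c with
  | vert i k w => exact hV trivial
  | leg i => exact Typ_201.TV_TL h0 h1 h' h
  | edge i k k' => exact Typ_201.TV_TN h0 h1 h' h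

lemma isCompact_CB (r : ℝ) : IsCompact (CB r) := by
  have h1 : CB r = closedBall (0 : ℂ) r ×ˢ closedBall (0 : ℂ) r := by
    ext p
    simp [CB]
  rw [h1]
  exact (isCompact_closedBall _ _).prod (isCompact_closedBall _ _)


/-- **points over a compact part of `XV U v`** -/
theorem key {c : Ch T.m} (hc : Ok S c) {v : Vtx} (hv : v ∈ Vs T) {K : Set ℂ} (hK : IsCompact K)
    (hKs : ∀ w ∈ K, w ∉ sp T v) : ∃ δ > 0, ∀ p ∈ CB (S.r c), T.Gen c p → ‖(T.map c p).1‖ < δ →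
    wv T v (T.map c p) ∈ K →
    (v1 T c = some v ∧ (IsV c ∨ δ ≤ ‖p.2‖)) ∨ (v2 T c = some v ∧ δ ≤ ‖p.1‖) := by
  by_contra hcon
  push Not at hcon
  have h1 : ∀ n : ℕ, ∃ p ∈ CB (S.r c), T.Gen c p ∧ ‖(T.map c p).1‖ < 1 / ((n : ℝ) + 1) ∧
      wv T v (T.map c p) ∈ K ∧ ¬ ((v1 T c = some v ∧ (IsV c ∨ 1 / ((n : ℝ) + 1) ≤ ‖p.2‖)) ∨
        (v2 T c = some v ∧ 1 / ((n : ℝ) + 1) ≤ ‖p.1‖)) := by
    intro n
    obtain ⟨p, h2, h3, h4, h5, h6, h7⟩ := hcon (1 / ((n : ℝ) + 1)) (by positivity)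
    refine ⟨p, h2, h3, h4, h5, ?_⟩
    rintro (⟨e1, e2⟩ | ⟨e1, e2⟩)
    · rcases e2 with e2 | e2
      · exact (h6 e1).1 e2
      · exact absurd (h6 e1).2 (not_lt.2 e2)
    · exact absurd (h7 e1) (not_lt.2 e2)
  choose p hpC hpG hps hpK hpn using h1
  obtain ⟨⟨p₀, w₀⟩, hmem, φ, hφ, hlim⟩ := ((isCompact_CB (S.r c)).prod hK).tendsto_subseq
    (x := fun n => (p n, wv T v (T.map c (p n)))) fun n => ⟨hpC n, hpK n⟩
  obtain ⟨hp₀, hw₀⟩ := hmem
  have l1 : Tendsto (fun n => p (φ n)) atTop (𝓝 p₀) :=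
    (continuous_fst.tendsto (p₀, w₀)).comp hlim
  have l2 : Tendsto (fun n => wv T v (T.map c (p (φ n)))) atTop (𝓝 w₀) :=
    (continuous_snd.tendsto (p₀, w₀)).comp hlim
  have hε : Tendsto (fun n : ℕ => 1 / ((φ n : ℝ) + 1)) atTop (𝓝 0) :=
    tendsto_one_div_add_atTop_nhds_zero_nat.comp hφ.tendsto_atTop
  have ls : Tendsto (fun n => (T.map c (p (φ n))).1) atTop (𝓝 0) := by
    rw [tendsto_zero_iff_norm_tendsto_zero]
    exact squeeze_zero (fun n => norm_nonneg _) (fun n => (hps (φ n)).le) hε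
  have lm : Tendsto (fun n => T.map c (p (φ n))) atTop (𝓝 (T.map c p₀)) :=
    ((S.sheets c hc.1).map_an (mem2 hp₀.1 hp₀.2)).continuousAt.tendsto.comp l1
  have ly : Tendsto (fun n => T.map c (p (φ n))) atTop (𝓝 0) := by
    have h3 : ∀ n, T.map c (p (φ n)) = ((T.map c (p (φ n))).1,
        yv T v ((T.map c (p (φ n))).1, wv T v (T.map c (p (φ n))))) := fun n =>
      Prod.ext rfl (Tb_941.yv_wv (v := v) (sc_ne (hpG (φ n))) _).symm
    have h4 := (Tb_941.continuous_yv (T := T) v).continuousAt.tendsto.comp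
      (ls.prodMk_nhds l2)
    rw [yv_zero hv S] at h4
    have h5 := ls.prodMk_nhds h4
    refine Tendsto.congr (fun n => (h3 n).symm) ?_
    exact h5
  have hmap0 : T.map c p₀ = 0 := tendsto_nhds_unique lm ly
  set m : Filter (ℂ × ℂ) := map (fun n => p (φ n)) atTop with hm
  have hmle : m ≤ 𝓝 p₀ := l1
  have hgm : ∀ᶠ q in m, T.Gen c q := by
    rw [hm, eventually_map]
    exact Eventually.of_forall fun n => hpG _
  set l : Filter (ℂ × ℂ) := map (T.map c) m with hl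
  have hlne : l.NeBot := by rw [hl, hm]; infer_instance
  have hl0 : Tendsto (Prod.fst : ℂ × ℂ → ℂ) l (𝓝 0) := by
    rw [hl, hm, tendsto_map'_iff, tendsto_map'_iff]
    exact ls
  have hl1 : ∀ᶠ q in l, q.1 ≠ 0 := by
    rw [hl, eventually_map]
    exact hgm.mono fun q hq => sc_ne hq
  have htv : TV T l (S.ci v) v.1 w₀ := by
    refine tv_of hv S (hKs w₀ hw₀) hl0 ?_
    rw [hl, hm, tendsto_map'_iff, tendsto_map'_iff]
    exact l2
  rcases place hc hp₀ hmle hgm hmap0 with ⟨i, k, w, h3, h4⟩ | ⟨h3, h4⟩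
  · have h5 := vx_of_TV hv hl0 hl1 h3 htv
    rw [h5] at h4
    rcases h4 with ⟨h6, h7⟩ | ⟨h6, h7⟩
    · have h8 : ∀ᶠ n in atTop, IsV c ∨ 1 / ((φ n : ℝ) + 1) ≤ ‖p (φ n) |>.2‖ := by
        rcases h7 with h7 | h7
        · exact Eventually.of_forall fun _ => Or.inl h7
        · have h9 : Tendsto (fun n => ‖(p (φ n)).2‖) atTop (𝓝 ‖p₀.2‖) :=
            ((continuous_snd.norm).tendsto p₀).comp l1
          filter_upwards [hε.eventually_lt h9 (norm_pos_iff.2 h7)] with n hn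
          exact Or.inr hn.le
      obtain ⟨n, hn⟩ := h8.exists
      exact hpn _ (Or.inl ⟨h6, hn⟩)
    · have h9 : Tendsto (fun n => ‖(p (φ n)).1‖) atTop (𝓝 ‖p₀.1‖) :=
        ((continuous_fst.norm).tendsto p₀).comp l1
      obtain ⟨n, hn⟩ := (hε.eventually_lt h9 (norm_pos_iff.2 h7)).exists
      exact hpn _ (Or.inr ⟨h6, hn.le⟩)
  · exact OT_TV h3 hl0 hl1 h4 htv

/-- **a chart against the origin of another chart** -/
theorem sepP {c c' : Ch T.m} (hc : Ok S c) (hc' : Ok S c') (hne : c ≠ c') (hV : ¬ IsV c') :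
    ∃ b > 0, ∀ p ∈ CB (S.r c), ∀ p' ∈ CB b, T.Gen c p → T.Gen c' p' →
      T.map c p ≠ T.map c' p' := by
  by_contra hcon
  push Not at hcon
  have h1 : ∀ n : ℕ, ∃ p ∈ CB (S.r c), ∃ p' ∈ CB (1 / ((n : ℝ) + 1)), T.Gen c p ∧ T.Gen c' p' ∧
      T.map c p = T.map c' p' := fun n => hcon _ (by positivity)
  choose p hpC p' hpC' hpG hpG' he using h1
  obtain ⟨p₀, hp₀, φ, hφ, l1⟩ := (isCompact_CB (S.r c)).tendsto_subseq hpC
  have hε : Tendsto (fun n : ℕ => 1 / ((φ n : ℝ) + 1)) atTop (𝓝 0) :=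
    tendsto_one_div_add_atTop_nhds_zero_nat.comp hφ.tendsto_atTop
  have l2 : Tendsto (fun n => p' (φ n)) atTop (𝓝 (0 : ℂ × ℂ)) := by
    rw [tendsto_zero_iff_norm_tendsto_zero]
    refine squeeze_zero (fun n => norm_nonneg _) (fun n => ?_) hε
    rw [Prod.norm_def]
    exact max_le (hpC' _).1 (hpC' _).2
  have hr' := S.pos c'
  have hmap' : T.map c' (0 : ℂ × ℂ) = 0 := by
    rw [T.map_eq_zero hc'.1]
    cases c' with
    | edge i k k' => exact Or.inr rfl
    | leg i => exact rfl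
    | vert i k w => exact rfl
  have lm' : Tendsto (fun n => T.map c' (p' (φ n))) atTop (𝓝 0) := by
    have h2 := ((S.sheets c' hc'.1).map_an (p := (0 : ℂ × ℂ)) (mem2 (by simpa using hr'.le)
      (by simpa using hr'.le))).continuousAt.tendsto.comp l2
    rwa [hmap'] at h2
  have lm : Tendsto (fun n => T.map c (p (φ n))) atTop (𝓝 (T.map c p₀)) :=
    ((S.sheets c hc.1).map_an (mem2 hp₀.1 hp₀.2)).continuousAt.tendsto.comp l1
  have hee : ∀ n, T.map c (p (φ n)) = T.map c' (p' (φ n)) := fun n => he _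
  have hmap0 : T.map c p₀ = 0 := tendsto_nhds_unique lm (lm'.congr fun n => (hee n).symm)
  set m : Filter (ℂ × ℂ) := map (fun n => p (φ n)) atTop with hm
  set m' : Filter (ℂ × ℂ) := map (fun n => p' (φ n)) atTop with hm'
  have hmle : m ≤ 𝓝 p₀ := l1
  have hmle' : m' ≤ 𝓝 0 := l2
  have hgm : ∀ᶠ q in m, T.Gen c q := by
    rw [hm, eventually_map]; exact Eventually.of_forall fun n => hpG _
  have hgm' : ∀ᶠ q in m', T.Gen c' q := by
    rw [hm', eventually_map]; exact Eventually.of_forall fun n => hpG' _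
  set l : Filter (ℂ × ℂ) := map (T.map c) m with hl
  have hll : map (T.map c') m' = l := by
    rw [hl, hm, hm', Filter.map_map, Filter.map_map]
    exact Filter.map_congr (Eventually.of_forall fun n => (hee n).symm)
  have hlne : l.NeBot := by rw [hl, hm]; infer_instance
  have hl0 : Tendsto (Prod.fst : ℂ × ℂ → ℂ) l (𝓝 0) := by
    rw [← hll, hm', tendsto_map'_iff, tendsto_map'_iff]
    exact (continuous_fst.tendsto (0 : ℂ × ℂ)).comp lm'
  have hl1 : ∀ᶠ q in l, q.1 ≠ 0 := by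
    rw [hl, eventually_map]
    exact hgm.mono fun q hq => sc_ne hq
  have hO' := origin_type hc'.1 hmle' hgm'
  rw [hll] at hO'
  rcases place hc hp₀ hmle hgm hmap0 with ⟨i, k, w, h3, h4⟩ | ⟨h3, h4⟩
  · exact OT_TV hV hl0 hl1 hO' h3
  · exact hne (eq_of_type hc hc' hl0 hl1 h4 hO')

end Crest.Agent.R257.CDataG_250
end
end

-- ▼ part R257/CDataH_250

/-!
Row 257, part C, task C-DATA (helper250), file H: labels at the common points of the charts of a finite
set (`VV`), the ends.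
-/

set_option autoImplicit false
set_option linter.unusedSectionVars false

noncomputable section

open Set Filter Topology MeasureTheory Metric
open scoped ENNReal

namespace Crest.Agent.R257.CDataH_250

open Crest.AlgGeometry.Germ Crest.Agent.R257.AJ387 Crest.Agent.R257.T387
open Crest.Agent.R257.Gr1_157 Crest.Agent.R257.HoB_843 Crest.Agent.R257.BP_258
open Crest.Agent.R257.CDataA_250 Crest.Agent.R257.CDataB_250 Crest.Agent.R257.CDataE_250
open Crest.Agent.R257.CDataG_250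
open Crest.Agent.R257.Wt_258 Crest.Agent.R257.Rsn_843 Crest.Agent.R257.Vt2_558
open Crest.Agent.R257.FrmE_547 (CB)
open Crest.Agent.R257.FrmF_547

variable {f : (Fin 3 → ℂ) → ℂ} {T : TB f} {U : Tub T} {S : Sh T}

/-- one parameter for a finite set of conditions -/
lemma fin_min {α : Type*} (s : Finset α) {P : α → ℝ → Prop}
    (hm : ∀ a ε ε', 0 < ε' → ε' ≤ ε → P a ε → P a ε') (h : ∀ a ∈ s, ∃ ε > 0, P a ε) :
    ∃ ε > 0, ∀ a ∈ s, P a ε := by
  classical
  induction s using Finset.induction_on with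
  | empty => exact ⟨1, one_pos, fun a ha => absurd ha (Finset.notMem_empty _)⟩
  | insert a s ha ih =>
    obtain ⟨ε, hε, h1⟩ := ih fun b hb => h b (Finset.mem_insert_of_mem hb)
    obtain ⟨ε', hε', h2⟩ := h a (Finset.mem_insert_self _ _)
    refine ⟨min ε ε', lt_min hε hε', fun b hb => ?_⟩
    rcases Finset.mem_insert.1 hb with rfl | hb
    · exact hm _ _ _ (lt_min hε hε') (min_le_right _ _) h2
    · exact hm _ _ _ (lt_min hε hε') (min_le_left _ _) (h1 b hb)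

/-! ### orientations and labels -/

lemma eO_some (L : Lab U S) {o : Bool} {c : Ch T.m} (hc : Ok S c) (j : Fin T.d) {v : Vtx}
    (h : vO T o c = some v) : ∃ E : II U, eO L o c j = some E ∧ E.1.1 = v := by
  cases o
  · exact e2_some L hc j h
  · exact e1_some L hc j h

lemma vO_inj {o o' : Bool} {c : Ch T.m} (hc : Ok S c) {v : Vtx} (h : vO T o c = some v)
    (h' : vO T o' c = some v) : o = o' := by
  have key : ¬ (v1 T c = some v ∧ v2 T c = some v) := by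
    rintro ⟨h1, h2⟩
    cases c with
    | edge i k k' =>
      have hk : k < k' := hc.1.2.2.1
      simp only [v1] at h1
      simp only [v2] at h2
      split_ifs at h1
      rw [← h1] at h2
      have := congrArg Prod.fst (Option.some.inj h2)
      simp only [vx] at this
      omega
    | leg i => simp [v2] at h2
    | vert i k w => simp [v2] at h2
  cases o <;> cases o'
  · rfl
  · exact absurd ⟨h', h⟩ key
  · exact absurd ⟨h, h'⟩ key
  · rfl

lemma eO_inj (L : Lab U S) {o o' : Bool} {c : Ch T.m} (hc : Ok S c) {j : Fin T.d} {E : II U}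
    (h : eO L o c j = some E) (h' : eO L o' c j = some E) : o = o' :=
  vO_inj hc (eO_vO L hc h) (eO_vO L hc h')

lemma eO_V (L : Lab U S) {o : Bool} {c : Ch T.m} (hc : Ok S c) (hV : IsV c) {j : Fin T.d}
    {E : II U} (h : eO L o c j = some E) : o = true := by
  cases o
  · have h1 := eO_vO L hc h
    cases c with
    | vert i k w => simp [vO, v2] at h1
    | leg i => exact hV.elim
    | edge i k k' => exact hV.elim
  · rfl

/-- `|α| ≤ |s| / δ` -/
lemma cA_le {o : Bool} {c : Ch T.m} {v : Vtx} (hv : vO T o c = some v) {δ : ℝ} (hδ1 : δ ≤ 1)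
    {p : ℂ × ℂ} (h : (o = true ∧ IsV c) ∨ δ ≤ ‖cB o p‖) : ‖cA o p‖ * δ ≤ ‖(T.map c p).1‖ := by
  rw [T.map_fst]
  cases c with
  | edge i k k' =>
    rcases h with h | h
    · exact h.2.elim
    · show _ ≤ ‖p.1 * p.2‖
      rw [norm_mul]
      cases o
      · rw [mul_comm]
        exact mul_le_mul_of_nonneg_right h (norm_nonneg _)
      · exact mul_le_mul_of_nonneg_left h (norm_nonneg _)
  | leg i =>
    cases o
    · simp [vO, v2] at hv
    · exact (mul_le_of_le_one_right (norm_nonneg _) hδ1)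
  | vert i k w =>
    cases o
    · simp [vO, v2] at hv
    · exact (mul_le_of_le_one_right (norm_nonneg _) hδ1)

lemma cA_pos {o : Bool} {c : Ch T.m} {v : Vtx} (hv : vO T o c = some v) {p : ℂ × ℂ}
    (h : T.Gen c p) : 0 < ‖cA o p‖ := by
  rw [norm_pos_iff]
  cases c with
  | edge i k k' =>
    cases o
    · exact h.2
    · exact h.1
  | leg i =>
    cases o
    · simp [vO, v2] at hv
    · exact h.1
  | vert i k w =>
    cases o
    · simp [vO, v2] at hv
    · exact h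

lemma cB_le {o : Bool} {r : ℝ} {p : ℂ × ℂ} (h : p ∈ CB r) : ‖cB o p‖ ≤ r := by
  cases o
  · exact h.1
  · exact h.2

lemma cA_le' {o : Bool} {r : ℝ} {p : ℂ × ℂ} (h : p ∈ CB r) : ‖cA o p‖ ≤ r := by
  cases o
  · exact h.2
  · exact h.1

/-- `near` in terms of `s` -/
lemma nearS (L : Lab U S) {o : Bool} {c : Ch T.m} (hc : Ok S c) {j : Fin T.d} {E : II U}
    (h : eO L o c j = some E) {τ : ℝ} (hτ : 0 < τ) : ∃ ε > 0, ∀ p ∈ CB (S.r c), T.Gen c p →
    ‖(T.map c p).1‖ < ε → (o = true ∧ IsV c ∨ τ ≤ ‖cB o p‖) →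
    InT U E.1.1 (wc S c j p) ∧ ∀ q, IsRet U E.1.1 (wc S c j p) q →
      (q : ConnectedComponents _) = E.2 := by
  have hv := eO_vO L hc h
  have hτ' : 0 < min τ 1 := lt_min hτ one_pos
  obtain ⟨a, ha, h1⟩ := near L hc h hτ
  refine ⟨min τ 1 * a, mul_pos hτ' ha, fun p hp hg hs h2 => h1 p (cA_pos hv hg) ?_ (cB_le hp) h2⟩
  have h3 := cA_le (δ := min τ 1) hv (min_le_right _ _) (h2.imp_right fun h => (min_le_left _ _).trans h)
  have h4 : ‖cA o p‖ * min τ 1 < a * min τ 1 := by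
    rw [mul_comm a]; exact h3.trans_lt hs
  exact lt_of_mul_lt_mul_right h4 hτ'.le

/-- **labels over a compact part of `XV U v`** -/
lemma key2 (L : Lab U S) {c : Ch T.m} (hc : Ok S c) {v : Vtx} (hv : v ∈ Vs T) {K : Set ℂ}
    (hK : IsCompact K) (hKs : ∀ w ∈ K, w ∉ sp T v) : ∃ ε > 0, ∀ p ∈ CB (S.r c), T.Gen c p →
    ‖(T.map c p).1‖ < ε → wv T v (T.map c p) ∈ K → ∀ j, ∃ o, ∃ E : II U,
      eO L o c j = some E ∧ E.1.1 = v ∧ (o = true ∧ IsV c ∨ ε ≤ ‖cB o p‖) ∧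
      InT U E.1.1 (wc S c j p) ∧ ∀ q, IsRet U E.1.1 (wc S c j p) q →
        (q : ConnectedComponents _) = E.2 := by
  obtain ⟨δ, hδ, hkey⟩ := key hc hv hK hKs
  obtain ⟨ε, hε, hmin⟩ := fin_min (Finset.univ : Finset (Bool × Fin T.d))
    (P := fun a ε => ∀ E, eO L a.1 c a.2 = some E → ∀ p ∈ CB (S.r c), T.Gen c p →
      ‖(T.map c p).1‖ < ε → (a.1 = true ∧ IsV c ∨ δ ≤ ‖cB a.1 p‖) →
      InT U E.1.1 (wc S c a.2 p) ∧ ∀ q, IsRet U E.1.1 (wc S c a.2 p) q →
        (q : ConnectedComponents _) = E.2)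
    (fun a ε ε' _ hle h E hE p hp hg hs => h E hE p hp hg (hs.trans_le hle)) (by
      intro a _
      cases hE : eO L a.1 c a.2 with
      | none => exact ⟨1, one_pos, fun E h => absurd h (by simp)⟩
      | some E =>
        obtain ⟨ε, hε, h⟩ := nearS L hc hE hδ
        refine ⟨ε, hε, fun E' hE' => ?_⟩
        obtain rfl := Option.some.inj hE'
        exact h)
  refine ⟨min δ ε, lt_min hδ hε, fun p hp hg hs hw j => ?_⟩
  have h1 := hkey p hp hg (hs.trans_le (min_le_left _ _)) hw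
  have h2 : ∃ o, vO T o c = some v ∧ (o = true ∧ IsV c ∨ δ ≤ ‖cB o p‖) := by
    rcases h1 with ⟨h3, h4⟩ | ⟨h3, h4⟩
    · exact ⟨true, h3, h4.imp_left fun h => ⟨rfl, h⟩⟩
    · exact ⟨false, h3, Or.inr h4⟩
  obtain ⟨o, h3, h4⟩ := h2
  obtain ⟨E, hE, hEv⟩ := eO_some L hc j h3
  obtain ⟨h5, h6⟩ := hmin (o, j) (Finset.mem_univ _) E hE p hp hg (hs.trans_le (min_le_right _ _)) h4
  exact ⟨o, E, hE, hEv, h4.imp_right fun h => (min_le_left _ _).trans h, h5, h6⟩

/-- the `w`-values of a vertex chart -/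
lemma vert_disc {c : Ch T.m} (hc : Ok S c) (hV : IsV c) : ∃ v ∈ Vs T, v1 T c = some v ∧
    ∃ K : Set ℂ, IsCompact K ∧ (∀ w ∈ K, w ∉ sp T v) ∧
      ∀ p ∈ CB (S.r c), T.Gen c p → wv T v (T.map c p) ∈ K := by
  cases c with
  | edge i k k' => exact hV.elim
  | leg i => exact hV.elim
  | vert i k w₀ =>
    obtain ⟨v, hv, h1, h2, h3⟩ := hc.2
    have hvx : vx T i k = v := by rw [h1, h2]; exact Vt1_558.vx_ci S hv
    refine ⟨v, hv, by rw [← hvx]; rfl, closedBall w₀ (S.r (.vert i k w₀)),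
      isCompact_closedBall _ _, fun w hw => ?_, fun p hp hg => ?_⟩
    · rw [mem_closedBall, dist_eq_norm] at hw
      have h4 := S.far i k w₀ hc.1 w (by have := S.pos (.vert i k w₀); linarith)
      intro h5
      apply h4
      rw [h1, h2]
      exact (Lab_931.mem_sp_iff S hv w).1 h5
    · have hg' : p.1 ≠ 0 := hg
      have h5 : wv T v (T.map (.vert i k w₀) p) = w₀ + p.2 := by
        have h6 : (T.map (.vert i k w₀) p) =
            (p.1, v.2.eval (p.1 ^ T.M) + p.1 ^ (T.M * v.1) * (w₀ + p.2)) := by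
          have h7 : T.φ i (p.1 ^ T.M) = v.2.eval (p.1 ^ T.M) := by
            rw [h1]
            refine S.ci_eq v hv _ ?_
            have h8 := ((S.sheets (.vert i k w₀) hc.1).mem p (mem2 hp.1 hp.2)).2
            rw [mem_ball_zero_iff, norm_pow]
            exact h8
          simp only [TB.map, h7]
          rw [h2]
        rw [h6]
        unfold wv
        simp only [add_sub_cancel_left]
        exact mul_div_cancel_left₀ _ (pow_ne_zero _ hg')
      rw [h5, mem_closedBall, dist_eq_norm, add_sub_cancel_left]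
      exact hp.2

/-- **labels at the common points with a vertex chart** -/
theorem VV (hR : RetStmt U) (L : Lab U S) {F : Finset (Ch T.m)} (hF : ∀ c ∈ F, Ok S c) :
    ∃ ε > 0, ∀ c ∈ F, ∀ c' ∈ F, IsV c' → ∀ j j' p p', p ∈ CB (S.r c) → T.Gen c p →
      ‖(T.map c p).1‖ < ε → p' ∈ CB (S.r c') → T.Gen c' p' → wc S c j p = wc S c' j' p' →
      ∃ o, ∃ E : II U, L.e1 c' j' = some E ∧ eO L o c j = some E ∧
        (o = true ∧ IsV c ∨ ε ≤ ‖cB o p‖) ∧ InT U E.1.1 (wc S c j p) ∧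
        ∀ q, IsRet U E.1.1 (wc S c j p) q → (q : ConnectedComponents _) = E.2 := by
  obtain ⟨ε, hε, h⟩ := fin_min (F ×ˢ F)
    (P := fun a ε => IsV a.2 → ∀ j j' p p', p ∈ CB (S.r a.1) → T.Gen a.1 p →
      ‖(T.map a.1 p).1‖ < ε → p' ∈ CB (S.r a.2) → T.Gen a.2 p' → wc S a.1 j p = wc S a.2 j' p' →
      ∃ o, ∃ E : II U, L.e1 a.2 j' = some E ∧ eO L o a.1 j = some E ∧
        (o = true ∧ IsV a.1 ∨ ε ≤ ‖cB o p‖) ∧ InT U E.1.1 (wc S a.1 j p) ∧
        ∀ q, IsRet U E.1.1 (wc S a.1 j p) q → (q : ConnectedComponents _) = E.2)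
    (fun a ε ε' _ hle h hV j j' p p' h1 h2 h3 h4 h5 h6 => by
      obtain ⟨o, E, a1, a2, a3, a4⟩ := h hV j j' p p' h1 h2 (h3.trans_le hle) h4 h5 h6
      exact ⟨o, E, a1, a2, a3.imp_right fun h => hle.trans h, a4⟩) (by
      rintro ⟨c, c'⟩ hcc
      rw [Finset.mem_product] at hcc
      obtain ⟨hc, hc'⟩ : Ok S c ∧ Ok S c' := ⟨hF _ hcc.1, hF _ hcc.2⟩
      by_cases hV : IsV c'
      · obtain ⟨v, hv, hv1, K, hK, hKs, hKw⟩ := vert_disc hc' hV
        obtain ⟨ε₁, hε₁, h1⟩ := key2 L hc hv hK hKs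
        obtain ⟨ε₂, hε₂, h2⟩ := fin_min (Finset.univ : Finset (Fin T.d))
          (P := fun j' ε => ∀ E, eO L true c' j' = some E → ∀ p ∈ CB (S.r c'), T.Gen c' p →
            ‖(T.map c' p).1‖ < ε → (true = true ∧ IsV c' ∨ (1 : ℝ) ≤ ‖cB true p‖) →
            InT U E.1.1 (wc S c' j' p) ∧ ∀ q, IsRet U E.1.1 (wc S c' j' p) q →
              (q : ConnectedComponents _) = E.2)
          (fun a ε ε' _ hle h E hE p hp hg hs => h E hE p hp hg (hs.trans_le hle)) (by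
            intro j' _
            obtain ⟨E, hE, -⟩ := eO_some L (o := true) hc' j' hv1
            obtain ⟨ε, hε, h⟩ := nearS L hc' hE one_pos
            refine ⟨ε, hε, fun E' hE' => ?_⟩
            rw [hE] at hE'
            obtain rfl := Option.some.inj hE'
            exact h)
        refine ⟨min ε₁ ε₂, lt_min hε₁ hε₂, fun _ j j' p p' hp hg hs hp' hg' he => ?_⟩
        have hm : T.map c p = T.map c' p' := map_wc he
        obtain ⟨o, E, a1, a2, a3, a4, a5⟩ := h1 p hp hg (hs.trans_le (min_le_left _ _))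
          (by rw [hm]; exact hKw p' hp' hg') j
        obtain ⟨E', hE', hEv'⟩ := eO_some L (o := true) hc' j' hv1
        obtain ⟨b1, b2⟩ := h2 j' (Finset.mem_univ _) E' hE' p' hp' hg'
          (by rw [← hm]; exact hs.trans_le (min_le_right _ _)) (Or.inl ⟨rfl, hV⟩)
        rw [← he] at b1 b2
        have hEE : E = E' := ii_eq hR (a2.trans hEv'.symm) a4 a5 b2
        rw [← hEE] at hE'
        exact ⟨o, E, hE', a1, a3.imp_right fun h => (min_le_left _ _).trans h, a4, a5⟩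
      · exact ⟨1, one_pos, fun h => absurd h hV⟩)
  exact ⟨ε, hε, fun c hc c' hc' => h (c, c') (Finset.mem_product.2 ⟨hc, hc'⟩)⟩

/-! ### the ends -/

open Classical in
variable (S) in
/-- the edges and legs -/
def Ends : Finset (Ch T.m) := (Vs T).image (ec S) ∪ Finset.univ.image Ch.leg

lemma ends_ok {c : Ch T.m} (h : c ∈ Ends S) : Ok S c := by
  classical
  rcases Finset.mem_union.1 h with h | h
  · obtain ⟨v, hv, rfl⟩ := Finset.mem_image.1 h
    exact Lab_931.ok_ec S hv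
  · obtain ⟨i, -, rfl⟩ := Finset.mem_image.1 h
    exact ⟨trivial, trivial⟩

lemma ends_nV {c : Ch T.m} (h : c ∈ Ends S) : ¬ IsV c := by
  classical
  rcases Finset.mem_union.1 h with h | h
  · obtain ⟨v, hv, rfl⟩ := Finset.mem_image.1 h
    exact fun h => h
  · obtain ⟨i, -, rfl⟩ := Finset.mem_image.1 h
    exact fun h => h

lemma mem_ends {c : Ch T.m} (hc : Ok S c) (hV : ¬ IsV c) : c ∈ Ends S := by
  classical
  cases c with
  | edge i k k' =>
    obtain ⟨v, hv, h1, h2, h3⟩ := hc.2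
    refine Finset.mem_union_left _ (Finset.mem_image.2 ⟨v, hv, ?_⟩)
    rw [h1, h2, h3]
    rfl
  | leg i => exact Finset.mem_union_right _ (Finset.mem_image.2 ⟨i, Finset.mem_univ _, rfl⟩)
  | vert i k w => exact (hV trivial).elim

/-- the charts and the small bidiscs of the other ends -/
lemma sep_ends {F : Finset (Ch T.m)} (hF : ∀ c ∈ F, Ok S c) : ∃ b > 0,
    (∀ c ∈ Ends S, b < S.r c) ∧ ∀ c ∈ F, ∀ c' ∈ Ends S, c ≠ c' → ∀ p ∈ CB (S.r c), ∀ p' ∈ CB b,
      T.Gen c p → T.Gen c' p' → T.map c p ≠ T.map c' p' := by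
  obtain ⟨b, hb, h⟩ := fin_min (F ×ˢ Ends S)
    (P := fun a b => a.1 ≠ a.2 → ∀ p ∈ CB (S.r a.1), ∀ p' ∈ CB b,
      T.Gen a.1 p → T.Gen a.2 p' → T.map a.1 p ≠ T.map a.2 p')
    (fun a ε ε' _ hle h hne p hp p' hp' => h hne p hp p' ⟨hp'.1.trans hle, hp'.2.trans hle⟩) (by
      rintro ⟨c, c'⟩ hcc
      rw [Finset.mem_product] at hcc
      by_cases hne : c = c'
      · exact ⟨1, one_pos, fun h => absurd hne h⟩
      · obtain ⟨b, hb, h⟩ := sepP (hF c hcc.1) (ends_ok hcc.2) hne (ends_nV hcc.2)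
        exact ⟨b, hb, fun _ => h⟩)
  obtain ⟨b', hb', h'⟩ := fin_min (Ends S) (P := fun c b => b < S.r c)
    (fun c ε ε' _ hle h => hle.trans_lt h) (fun c _ => ⟨S.r c / 2, half_pos (S.pos c),
      half_lt_self (S.pos c)⟩)
  refine ⟨min b b', lt_min hb hb', fun c hc => (min_le_right _ _).trans_lt (h' c hc),
    fun c hc c' hc' hne p hp p' hp' => h (c, c') (Finset.mem_product.2 ⟨hc, hc'⟩) hne p hp p'
      ⟨hp'.1.trans (min_le_left _ _), hp'.2.trans (min_le_left _ _)⟩⟩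

end Crest.Agent.R257.CDataH_250
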