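import Mathlib
import Crest.Agent.R257.WtD_258
import Crest.Agent.R257.Tb1_941
import Crest.Agent.R257.Lab5_931

-- ▼ part R257/EndA_636
section

/-!
Row 257 (S0395), part C, task C-END (helper636), file 1: a family of sheets along an axis.

* `Ax`       : sheets `ζ j` over `m p`, `p` near the axis `{p.1 = 0}`, in the tube of `v`;
* `Ax.loc`   : near a point of the axis the sheets are the local sheets of the tube;
* `Ax.exists_γ` : the limits of the retractions on the axis.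
-/

set_option autoImplicit false
set_option linter.unusedSectionVars false

open Polynomial Set Filter Topology Metric
open Crest.AlgGeometry.Germ Crest.Agent.R257.AJ387 Crest.Agent.R257.T387
open Crest.Agent.R257.Gr1_157 Crest.Agent.R257.HoB_843 Crest.Agent.R257.BP_258
open Crest.Agent.R257.Wt_258
open Crest.Agent.R257.Tb_941 (LS exists_LS retStmt)

noncomputable section

namespace Crest.Agent.R257.End_636

variable {f : (Fin 3 → ℂ) → ℂ} {T : TB f} {U : Tub T}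

/-- data along an axis -/
structure Ax (v : Vtx) (D : Set (ℂ × ℂ)) (m : ℂ × ℂ → ℂ × ℂ) (ζ : Fin T.d → ℂ × ℂ → ℂ)
    (W : ℂ × ℂ → ℂ) : Prop where
  hv : v ∈ Vs T
  op : IsOpen D
  ms : ContinuousOn (fun p => (m p).1) D
  mz : ∀ j, ContinuousOn (ζ j) D
  mW : ContinuousOn W D
  split : ∀ p ∈ D, T.Q (m p) = ∏ j, (X - C (ζ j p))
  inj : ∀ p ∈ D, p.1 ≠ 0 → Function.Injective fun j => ζ j p
  ne : ∀ p ∈ D, p.1 ≠ 0 → (m p).1 ≠ 0
  wv : ∀ p ∈ D, p.1 ≠ 0 → wv T v (m p) = W p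
  s0 : ∀ b, ((0 : ℂ), b) ∈ D → (m (0, b)).1 = 0
  nsp : ∀ b, ((0 : ℂ), b) ∈ D → W (0, b) ∉ sp T v

variable {v : Vtx} {D : Set (ℂ × ℂ)} {m : ℂ × ℂ → ℂ × ℂ} {ζ : Fin T.d → ℂ × ℂ → ℂ}
  {W : ℂ × ℂ → ℂ}

lemma Ax.m_eq (A : Ax v D m ζ W) {p : ℂ × ℂ} (hp : p ∈ D) (h0 : p.1 ≠ 0) :
    m p = ((m p).1, yv T v ((m p).1, W p)) := by
  have h1 := A.ne p hp h0
  have h2 := A.wv p hp h0
  rw [← h2]
  have h3 := Tb_941.yv_wv (T := T) (v := v) h1 (m p).2
  exact Prod.ext rfl h3.symm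

lemma Pd_mem {ε : ℝ} {t : ℂ} : t ∈ Lab_931.Pd ε ↔ t ≠ 0 ∧ ‖t‖ < ε := by
  show (‖t‖ ∈ Ioo 0 ε) ↔ _
  rw [mem_Ioo, norm_pos_iff]

/-- **the sheets near a point of the axis** -/
theorem Ax.loc (A : Ax v D m ζ W) {b₀ : ℂ} (hb : ((0 : ℂ), b₀) ∈ D) :
    ∃ (r R : ℝ) (Z : Fin T.d → ℂ × ℂ → ℂ), LS U v (W (0, b₀)) r R Z ∧
      ∃ π : Fin T.d → Fin T.d, Function.Injective π ∧ ∃ ε > 0, ∀ p : ℂ × ℂ, ‖p.1‖ < ε →
        ‖p.2 - b₀‖ < ε → p ∈ D ∧ W p ∈ ball (W (0, b₀)) r ∧ ‖(m p).1‖ < U.ρ v (W p) ∧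
          (p.1 ≠ 0 → ∀ j, ζ j p = Z (π j) ((m p).1, W p)) := by
  obtain ⟨r, R, Z, h⟩ := exists_LS (U := U) A.hv (A.nsp b₀ hb)
  have cW : ContinuousAt W (0, b₀) := A.mW.continuousAt (A.op.mem_nhds hb)
  have cs : ContinuousAt (fun p => (m p).1) (0, b₀) := A.ms.continuousAt (A.op.mem_nhds hb)
  have e1 : ∀ᶠ p in 𝓝 ((0 : ℂ), b₀), W p ∈ ball (W (0, b₀)) r :=
    cW.eventually (ball_mem_nhds _ h.r_pos)
  have e2 : ∀ᶠ p in 𝓝 ((0 : ℂ), b₀), ‖(m p).1‖ < U.ρ v (W p) := by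
    have c1 : ContinuousAt (U.ρ v) (W (0, b₀)) := by
      have hop : IsOpen {w : ℂ | w ∉ sp T v} := (Lab_931.isClosed_sp v).isOpen_compl
      exact (U.cont v A.hv).continuousAt (hop.mem_nhds (A.nsp b₀ hb))
    have c2 : ContinuousAt (fun p => U.ρ v (W p)) (0, b₀) := c1.comp cW
    have c3 := cs.norm
    have h0 : ‖(m (0, b₀)).1‖ < U.ρ v (W (0, b₀)) := by
      rw [A.s0 b₀ hb, norm_zero]
      exact U.pos v A.hv _ (A.nsp b₀ hb)
    exact c3.eventually_lt c2 h0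
  obtain ⟨ε, hε, hE⟩ := Metric.eventually_nhds_iff.1 ((A.op.eventually_mem hb).and (e1.and e2))
  have hE' : ∀ p : ℂ × ℂ, ‖p.1‖ < ε → ‖p.2 - b₀‖ < ε →
      p ∈ D ∧ W p ∈ ball (W (0, b₀)) r ∧ ‖(m p).1‖ < U.ρ v (W p) := fun p h1 h2 => by
    refine hE ?_
    rw [Prod.dist_eq, max_lt_iff, dist_eq_norm, dist_eq_norm, sub_zero]
    exact ⟨h1, h2⟩
  -- the connected set
  set Ω : Set (ℂ × ℂ) := Lab_931.Pd ε ×ˢ ball b₀ ε with hΩ
  have hΩc : IsPreconnected Ω :=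
    (Lab_931.isPreconnected_Pd ε).prod (convex_ball b₀ ε).isPreconnected
  have hΩm : ∀ p ∈ Ω, p.1 ≠ 0 ∧ p ∈ D ∧ W p ∈ ball (W (0, b₀)) r ∧ ‖(m p).1‖ < U.ρ v (W p) := by
    rintro p ⟨h1, h2⟩
    obtain ⟨h3, h4⟩ := Pd_mem.1 h1
    exact ⟨h3, hE' p h4 (by simpa [dist_eq_norm] using h2)⟩
  let g : ℂ × ℂ → ℂ × ℂ := fun p => ((m p).1, W p)
  have hg : ContinuousOn g Ω :=
    (A.ms.mono fun p hp => (hΩm p hp).2.1).prodMk (A.mW.mono fun p hp => (hΩm p hp).2.1)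
  have hgm : ∀ p ∈ Ω, g p ∈ ball (0 : ℂ) R ×ˢ ball (W (0, b₀)) r := fun p hp =>
    h.mem_of (hΩm p hp).2.2.1 (hΩm p hp).2.2.2
  have hroot : ∀ p ∈ Ω, ∀ j, ∃ j', ζ j p = Z j' (g p) := by
    intro p hp j
    obtain ⟨h1, h2, h3, h4⟩ := hΩm p hp
    refine h.exists_j (hgm p hp) ?_
    show (T.Q ((m p).1, yv T v ((m p).1, W p))).eval (ζ j p) = 0
    rw [← A.m_eq h2 h1, A.split p h2, eval_prod]
    exact Finset.prod_eq_zero (Finset.mem_univ j) (by simp)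
  have hinj : ∀ p ∈ Ω, Function.Injective fun j => Z j (g p) := fun p hp =>
    h.inj _ (hgm p hp) (A.ne p (hΩm p hp).2.1 (hΩm p hp).1)
  have hne : (Ω).Nonempty := by
    refine ⟨(((ε / 2 : ℝ) : ℂ), b₀), Pd_mem.2 ⟨?_, ?_⟩, mem_ball_self hε⟩
    · show ((ε / 2 : ℝ) : ℂ) ≠ 0
      exact_mod_cast (by positivity : ε / 2 ≠ 0)
    · show ‖((ε / 2 : ℝ) : ℂ)‖ < ε
      rw [Complex.norm_real, Real.norm_of_nonneg (by positivity)]
      linarith
  obtain ⟨p₁, hp₁⟩ := hne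
  have : PreconnectedSpace Ω := isPreconnected_iff_preconnectedSpace.1 hΩc
  have hcon : ∀ j, ∃ j', ∀ p ∈ Ω, ζ j p = Z j' (g p) := by
    intro j
    obtain ⟨j', hj'⟩ := hroot p₁ hp₁ j
    have hcl : ∀ i, IsClosed {p : Ω | ζ j p.1 = Z i (g p.1)} := by
      intro i
      have c1 : Continuous fun p : Ω => ζ j p.1 :=
        continuousOn_iff_continuous_domRestrict.1
          ((A.mz j).mono fun p hp => (hΩm p hp).2.1)
      have c2 : Continuous fun p : Ω => Z i (g p.1) :=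
        continuousOn_iff_continuous_domRestrict.1 ((h.an i).continuousOn.comp hg hgm)
      exact isClosed_eq c1 c2
    have hop : IsOpen {p : Ω | ζ j p.1 = Z j' (g p.1)} := by
      rw [← isClosed_compl_iff]
      have h1 : {p : Ω | ζ j p.1 = Z j' (g p.1)}ᶜ =
          ⋃ i ∈ {i : Fin T.d | i ≠ j'}, {p : Ω | ζ j p.1 = Z i (g p.1)} := by
        ext p
        simp only [mem_compl_iff, Set.mem_ofPred_eq, mem_iUnion, exists_prop]
        constructor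
        · intro h2
          obtain ⟨i, hi⟩ := hroot p.1 p.2 j
          refine ⟨i, ?_, hi⟩
          rintro rfl
          exact h2 hi
        · rintro ⟨i, hi, h2⟩ h3
          exact hi (hinj p.1 p.2 (h2.symm.trans h3))
      rw [h1]
      exact (Set.toFinite _).isClosed_biUnion fun i _ => hcl i
    have h2 := IsClopen.eq_univ ⟨hcl j', hop⟩ ⟨⟨p₁, hp₁⟩, hj'⟩
    refine ⟨j', fun p hp => ?_⟩
    have h3 : (⟨p, hp⟩ : Ω) ∈ {p : Ω | ζ j p.1 = Z j' (g p.1)} := by rw [h2]; trivial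
    exact h3
  choose π hπ using hcon
  refine ⟨r, R, Z, h, π, fun j j' hjj => ?_, ε, hε, fun p h1 h2 => ?_⟩
  · refine A.inj p₁ (hΩm p₁ hp₁).2.1 (hΩm p₁ hp₁).1 ?_
    show ζ j p₁ = ζ j' p₁
    rw [hπ j p₁ hp₁, hπ j' p₁ hp₁, hjj]
  · obtain ⟨k1, k2, k3⟩ := hE' p h1 h2
    refine ⟨k1, k2, k3, fun h0 j => hπ j p ⟨Pd_mem.2 ⟨h0, h1⟩, ?_⟩⟩
    rw [mem_ball, dist_eq_norm]; exact h2

/-- `q` is the limit of the retractions of `x` at `(0, b)` -/
def Lm (U : Tub T) (v : Vtx) (x : ℂ × ℂ → Fin 3 → ℂ) (b : ℂ) (q : XV U v) : Prop :=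
  (∀ᶠ p in 𝓝 ((0 : ℂ), b), p.1 ≠ 0 → InT U v (x p)) ∧
    ∀ O ∈ 𝓝 q, ∀ᶠ p in 𝓝 ((0 : ℂ), b), p.1 ≠ 0 → ∀ q', IsRet U v (x p) q' → q' ∈ O

lemma exists_near {b : ℂ} {P : ℂ × ℂ → Prop} (h : ∀ᶠ p in 𝓝 ((0 : ℂ), b), p.1 ≠ 0 → P p) :
    ∃ t : ℂ, t ≠ 0 ∧ P (t, b) := by
  have h1 : Tendsto (fun t : ℂ => (t, b)) (𝓝[≠] 0) (𝓝 ((0 : ℂ), b)) := by
    have h2 : Continuous fun t : ℂ => (t, b) := by fun_prop
    exact (h2.tendsto 0).mono_left nhdsWithin_le_nhds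
  have h3 := (h1.eventually h).and (self_mem_nhdsWithin (a := (0 : ℂ)) (s := {0}ᶜ))
  have : (𝓝[≠] (0 : ℂ)).NeBot := NormedField.nhdsNE_neBot (0 : ℂ)
  obtain ⟨t, h4, h5⟩ := h3.exists
  exact ⟨t, h5, h4 h5⟩

lemma Lm.unique (hv : v ∈ Vs T) {x : ℂ × ℂ → Fin 3 → ℂ} {b : ℂ} {q q' : XV U v}
    (h : Lm U v x b q) (h' : Lm U v x b q') : q = q' := by
  by_contra hne
  obtain ⟨O, O', hO, hO', hq, hq', hd⟩ := t2_separation hne
  have h1 := h.2 O (hO.mem_nhds hq)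
  have h2 := h'.2 O' (hO'.mem_nhds hq')
  have h3 : ∀ᶠ p in 𝓝 ((0 : ℂ), b), p.1 ≠ 0 → InT U v (x p) ∧
      (∀ q', IsRet U v (x p) q' → q' ∈ O) ∧ ∀ q', IsRet U v (x p) q' → q' ∈ O' := by
    filter_upwards [h.1, h1, h2] with p a b c h0
    exact ⟨a h0, b h0, c h0⟩
  obtain ⟨t, -, a, b, c⟩ := exists_near h3
  obtain ⟨q₁, hq₁⟩ := ((retStmt U v hv).1 _ a).exists
  exact Set.disjoint_left.1 hd (b q₁ hq₁) (c q₁ hq₁)

/-- the retractions near a point of the axis -/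
lemma Ax.ret (A : Ax v D m ζ W) {b₀ : ℂ} {r R : ℝ} {Z : Fin T.d → ℂ × ℂ → ℂ}
    (h : LS U v (W (0, b₀)) r R Z) {π : Fin T.d → Fin T.d} {p : ℂ × ℂ} (h0 : p.1 ≠ 0)
    (h1 : p ∈ D) (h2 : W p ∈ ball (W (0, b₀)) r) (h3 : ‖(m p).1‖ < U.ρ v (W p))
    (h4 : ∀ j, ζ j p = Z (π j) ((m p).1, W p)) (j : Fin T.d) :
    InT U v (pt (ζ j p) (m p)) ∧
      ∀ q, IsRet U v (pt (ζ j p) (m p)) q ↔ q = h.sg A.hv (π j) (W p) := by
  have e : pt (ζ j p) (m p) =
      pt (Z (π j) ((m p).1, W p)) ((m p).1, yv T v ((m p).1, W p)) := by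
    rw [← h4 j, ← A.m_eq h1 h0]
  have h5 := h.isRet A.hv (π j) h2 (A.ne p h1 h0) h3
  rw [← e] at h5
  refine ⟨h5.1, fun q => ⟨fun hq => ?_, fun hq => hq ▸ h5⟩⟩
  exact ((retStmt U v A.hv).1 _ h5.1).unique hq h5

/-- **the limits of the retractions on the axis** -/
theorem Ax.exists_γ (U : Tub T) (A : Ax v D m ζ W) : ∃ γ : Fin T.d → ℂ → XV U v,
    (∀ j, ContinuousOn (γ j) {b | ((0 : ℂ), b) ∈ D}) ∧
    (∀ j b, ((0 : ℂ), b) ∈ D → pV U v (γ j b) = W (0, b)) ∧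
    (∀ b, ((0 : ℂ), b) ∈ D → Function.Injective fun j => γ j b) ∧
    (∀ b, ((0 : ℂ), b) ∈ D → ∀ q, pV U v q = W (0, b) → ∃ j, γ j b = q) ∧
    (∀ j b, ((0 : ℂ), b) ∈ D → Lm U v (fun p => pt (ζ j p) (m p)) b (γ j b)) ∧
    ∀ j b, ((0 : ℂ), b) ∈ D → ∀ᶠ p in 𝓝 ((0 : ℂ), b), p.1 ≠ 0 → ∀ q,
      IsRet U v (pt (ζ j p) (m p)) q →
        (q : ConnectedComponents (XV U v)) = (γ j b : ConnectedComponents (XV U v)) := by
  -- the local limits
  have key : ∀ b₀, ((0 : ℂ), b₀) ∈ D → ∃ (r R : ℝ) (Z : Fin T.d → ℂ × ℂ → ℂ)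
      (h : LS U v (W (0, b₀)) r R Z) (π : Fin T.d → Fin T.d), Function.Injective π ∧
      ∃ ε > 0, ∀ b, ‖b - b₀‖ < ε → ((0 : ℂ), b) ∈ D ∧ W (0, b) ∈ ball (W (0, b₀)) r ∧
        ∀ j, Lm U v (fun p => pt (ζ j p) (m p)) b (h.sg A.hv (π j) (W (0, b))) ∧
          ∀ᶠ p in 𝓝 ((0 : ℂ), b), p.1 ≠ 0 → ∀ q, IsRet U v (pt (ζ j p) (m p)) q →
            (q : ConnectedComponents (XV U v)) =
              (h.sg A.hv (π j) (W (0, b)) : ConnectedComponents (XV U v)) := by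
    intro b₀ hb₀
    obtain ⟨r, R, Z, h, π, hπ, ε, hε, hE⟩ := A.loc (U := U) hb₀
    refine ⟨r, R, Z, h, π, hπ, ε, hε, fun b hb => ?_⟩
    have hz : ‖((0 : ℂ), b).1‖ < ε := by simpa using hε
    obtain ⟨k1, k2, -, -⟩ := hE (0, b) hz hb
    have hev : ∀ᶠ p in 𝓝 ((0 : ℂ), b), ‖p.1‖ < ε ∧ ‖p.2 - b₀‖ < ε := by
      have c1 : Continuous fun p : ℂ × ℂ => ‖p.1‖ := by fun_prop
      have c2 : Continuous fun p : ℂ × ℂ => ‖p.2 - b₀‖ := by fun_prop
      exact (c1.continuousAt.eventually_lt_const hz).and (c2.continuousAt.eventually_lt_const hb)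
    refine ⟨k1, k2, fun j => ?_⟩
    have hret : ∀ᶠ p in 𝓝 ((0 : ℂ), b), W p ∈ ball (W (0, b₀)) r ∧ (p.1 ≠ 0 →
        InT U v (pt (ζ j p) (m p)) ∧
        ∀ q, IsRet U v (pt (ζ j p) (m p)) q ↔ q = h.sg A.hv (π j) (W p)) := by
      filter_upwards [hev] with p hp
      obtain ⟨l1, l2, l3, l4⟩ := hE p hp.1 hp.2
      exact ⟨l2, fun h0 => A.ret h h0 l1 l2 l3 (l4 h0) j⟩
    have cW : ContinuousAt W (0, b) := A.mW.continuousAt (A.op.mem_nhds k1)
    have csg : ContinuousAt (fun p => h.sg A.hv (π j) (W p)) (0, b) := by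
      refine ContinuousAt.comp (g := h.sg A.hv (π j)) (f := W) ?_ cW
      exact (h.continuousOn_sg A.hv (π j)).continuousAt (isOpen_ball.mem_nhds k2)
    refine ⟨⟨?_, fun O hO => ?_⟩, ?_⟩
    · filter_upwards [hret] with p hp h0 using (hp.2 h0).1
    · filter_upwards [hret, csg.eventually hO] with p hp hp2 h0 q hq
      rw [((hp.2 h0).2 q).1 hq]
      exact hp2
    · filter_upwards [hret] with p hp h0 q hq
      rw [((hp.2 h0).2 q).1 hq, ConnectedComponents.coe_eq_coe]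
      have hpre : IsPreconnected (h.sg A.hv (π j) '' ball (W (0, b₀)) r) :=
        (convex_ball _ r).isPreconnected.image _ (h.continuousOn_sg A.hv (π j))
      exact connectedComponent_eq (hpre.subset_connectedComponent
        (mem_image_of_mem _ hp.1) (mem_image_of_mem _ k2))
  -- the curve is not empty
  have hX : Nonempty (XV U v) := by
    obtain ⟨w, hw⟩ := (sp T v).exists_notMem
    obtain ⟨r, R, Z, h⟩ := exists_LS (U := U) A.hv hw
    exact ⟨h.sg A.hv ⟨0, T.d_pos⟩ w⟩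
  have hex : ∀ j b, ((0 : ℂ), b) ∈ D → ∃ q : XV U v, Lm U v (fun p => pt (ζ j p) (m p)) b q := by
    intro j b hb
    obtain ⟨r, R, Z, h, π, -, ε, hε, hE⟩ := key b hb
    exact ⟨_, ((hE b (by simpa using hε)).2.2 j).1⟩
  choose! γ hγ using hex
  have hloc : ∀ b₀, ((0 : ℂ), b₀) ∈ D → ∃ (r R : ℝ) (Z : Fin T.d → ℂ × ℂ → ℂ)
      (h : LS U v (W (0, b₀)) r R Z) (π : Fin T.d → Fin T.d), Function.Injective π ∧
      ∃ ε > 0, ∀ b, ‖b - b₀‖ < ε → W (0, b) ∈ ball (W (0, b₀)) r ∧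
        ∀ j, γ j b = h.sg A.hv (π j) (W (0, b)) := by
    intro b₀ hb₀
    obtain ⟨r, R, Z, h, π, hπ, ε, hε, hE⟩ := key b₀ hb₀
    refine ⟨r, R, Z, h, π, hπ, ε, hε, fun b hb => ?_⟩
    obtain ⟨k1, k2, k3⟩ := hE b hb
    exact ⟨k2, fun j => (hγ j b k1).unique A.hv (k3 j).1⟩
  refine ⟨γ, fun j b hb => ?_, fun j b hb => ?_, fun b hb j j' hjj => ?_, fun b hb q hq => ?_,
    hγ, fun j b hb => ?_⟩
  · obtain ⟨r, R, Z, h, π, -, ε, hε, hE⟩ := hloc b hb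
    refine ContinuousAt.continuousWithinAt ?_
    have hW : W (0, b) ∈ ball (W (0, b)) r := mem_ball_self h.r_pos
    have cW : ContinuousAt (fun b => W (0, b)) b := by
      refine ContinuousAt.comp (g := W) (f := fun b : ℂ => ((0 : ℂ), b)) ?_ (by fun_prop)
      exact A.mW.continuousAt (A.op.mem_nhds hb)
    have csg : ContinuousAt (fun b => h.sg A.hv (π j) (W (0, b))) b :=
      ContinuousAt.comp (g := h.sg A.hv (π j)) (f := fun b => W (0, b))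
        ((h.continuousOn_sg A.hv (π j)).continuousAt (isOpen_ball.mem_nhds hW)) cW
    refine csg.congr ?_
    filter_upwards [ball_mem_nhds b hε] with b' hb'
    exact ((hE b' (by simpa [dist_eq_norm] using hb')).2 j).symm
  · obtain ⟨r, R, Z, h, π, -, ε, hε, hE⟩ := hloc b hb
    obtain ⟨k1, k2⟩ := hE b (by simpa using hε)
    rw [k2 j, h.pV_sg A.hv (π j) k1]
  · obtain ⟨r, R, Z, h, π, hπ, ε, hε, hE⟩ := hloc b hb
    obtain ⟨k1, k2⟩ := hE b (by simpa using hε)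
    have h1 : h.sg A.hv (π j) (W (0, b)) = h.sg A.hv (π j') (W (0, b)) := by
      rw [← k2 j, ← k2 j']; exact hjj
    exact hπ (h.sg_inj A.hv k1 h1)
  · obtain ⟨r, R, Z, h, π, hπ, ε, hε, hE⟩ := hloc b hb
    obtain ⟨k1, k2⟩ := hE b (by simpa using hε)
    obtain ⟨i, hi⟩ := h.sg_surj A.hv q (by rw [hq]; exact k1)
    obtain ⟨j, rfl⟩ := (Finite.injective_iff_surjective.1 hπ) i
    exact ⟨j, by rw [k2 j, ← hi, hq]⟩
  · obtain ⟨r, R, Z, h, π, -, ε, hε, hE⟩ := key b hb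
    obtain ⟨k1, k2, k3⟩ := hE b (by simpa using hε)
    rw [(hγ j b k1).unique A.hv (k3 j).1]
    exact (k3 j).2

end Crest.Agent.R257.End_636
end
end

-- ▼ part R257/EndB_636

/-!
Row 257 (S0395), part C, task C-END (helper636), file 2: **`endStmt : EndStmt L`** (WtD_258).
-/

set_option autoImplicit false
set_option linter.unusedSectionVars false

open Polynomial Set Filter Topology Metric
open Crest.AlgGeometry.Germ Crest.Agent.R257.AJ387 Crest.Agent.R257.T387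
open Crest.Agent.R257.Gr1_157 Crest.Agent.R257.HoB_843 Crest.Agent.R257.BP_258
open Crest.Agent.R257.Wt_258 Crest.Agent.R257.Lab_931
open Crest.Agent.R257.Tb_941 (LS exists_LS retStmt)

noncomputable section

namespace Crest.Agent.R257.End_636

variable {f : (Fin 3 → ℂ) → ℂ} {T : TB f} {U : Tub T} {S : Sh T}

lemma isOpen_IsV (c : Ch T.m) : IsOpen {p : ℂ × ℂ | IsV c ∨ p.2 ≠ 0} := by
  by_cases h : IsV c
  · simp only [h, true_or]
    exact isOpen_univ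
  · simp only [h, false_or]
    exact isOpen_ne_fun continuous_snd continuous_const

/-- the domain of the first axis -/
def D1 (S : Sh T) (c : Ch T.m) : Set (ℂ × ℂ) :=
  BD (2 * S.r c) (2 * S.r c) ∩ {p | IsV c ∨ p.2 ≠ 0}

/-- the domain of the second axis, swapped -/
def D2 (S : Sh T) (c : Ch T.m) : Set (ℂ × ℂ) :=
  {p | p.swap ∈ BD (2 * S.r c) (2 * S.r c) ∧ p.2 ≠ 0}

lemma mem_D1 {c : Ch T.m} {b : ℂ} : ((0 : ℂ), b) ∈ D1 S c ↔ b ∈ PDv S c := by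
  have h2 := two_r_pos S c
  constructor
  · rintro ⟨⟨-, h1⟩, h3⟩
    exact ⟨h3.imp id fun h => norm_pos_iff.2 h, h1⟩
  · rintro ⟨h3, h1⟩
    exact ⟨⟨by simpa using h2, h1⟩, h3.imp id fun h => norm_pos_iff.1 h⟩

lemma mem_D2 {c : Ch T.m} {a : ℂ} : ((0 : ℂ), a) ∈ D2 S c ↔ a ∈ PDc S c := by
  have h2 := two_r_pos S c
  constructor
  · rintro ⟨⟨h1, -⟩, h3⟩
    exact ⟨norm_pos_iff.2 h3, h1⟩
  · rintro ⟨h3, h1⟩
    exact ⟨⟨h1, by simpa using h2⟩, norm_pos_iff.1 h3⟩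

lemma W1_nsp {c : Ch T.m} (hc : T.Valid c) {v : Vtx} (hv : v1 T c = some v) {b : ℂ}
    (hb : ‖b‖ ≤ 2 * S.r c) (hb0 : IsV c ∨ b ≠ 0) : W1 c (0, b) ∉ sp T v := by
  have hM := T.M_pos.ne'
  cases c with
  | edge i k k' =>
    simp only [v1] at hv
    split_ifs at hv with hk0
    obtain rfl := Option.some.inj hv
    simp only [W1, zero_mul, zero_pow hM, hk_φ]
    rw [mem_sp_vx]
    exact (S.fare i k k' hc b (hb0.resolve_left (by simp [IsV])) hb).1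
  | leg i =>
    simp only [v1] at hv
    obtain rfl := Option.some.inj hv
    simp only [W1, zero_pow hM, hk_φ]
    rw [mem_sp_vx]
    exact S.farl i b (hb0.resolve_left (by simp [IsV])) hb
  | vert i k w₀ =>
    simp only [v1] at hv
    obtain rfl := Option.some.inj hv
    simp only [W1, zero_pow hM, hk_φ]
    rw [mem_sp_vx]
    exact S.far i k w₀ hc _ (by rw [add_sub_cancel_left]; exact hb)

lemma W2_nsp {c : Ch T.m} (hc : T.Valid c) {v : Vtx} (hv : v2 T c = some v) {a : ℂ}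
    (ha : ‖a‖ ≤ 2 * S.r c) (ha0 : a ≠ 0) : W2 c (a, 0) ∉ sp T v := by
  have hM := T.M_pos.ne'
  cases c with
  | edge i k k' =>
    simp only [v2] at hv
    obtain rfl := Option.some.inj hv
    simp only [W2, mul_zero, zero_pow hM, hk_φ]
    rw [mem_sp_vx]
    exact (S.fare i k k' hc a ha0 ha).2
  | leg i => simp [v2] at hv
  | vert i k w₀ => simp [v2] at hv

theorem ax1 {c : Ch T.m} (hc : T.Valid c) {v : Vtx} (hv : v1 T c = some v) :
    Ax v (D1 S c) (T.map c) (S.ζ c) (W1 c) where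
  hv := v1_mem hc hv
  op := (isOpen_BD _ _).inter (isOpen_IsV c)
  ms := (map_cont S hc).fst.mono inter_subset_left
  mz j := ((S.sheets c hc).an j).continuousOn.mono inter_subset_left
  mW := (W1_cont S hc).mono inter_subset_left
  split p hp := (S.sheets c hc).split p hp.1
  inj p hp h0 := (S.sheets c hc).inj p hp.1 (gen_of h0 hp.2)
  ne p hp h0 := map_ne (gen_of h0 hp.2)
  wv p hp h0 := W1_eq hc hv (gen_of h0 hp.2)
  s0 b _ := by cases c <;> simp [TB.map]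
  nsp b hb := W1_nsp hc hv hb.1.2.le hb.2

theorem ax2 {c : Ch T.m} (hc : T.Valid c) {v : Vtx} (hv : v2 T c = some v) :
    Ax v (D2 S c) (fun p => T.map c p.swap) (fun j p => S.ζ c j p.swap) (fun p => W2 c p.swap) where
  hv := v2_mem hc hv
  op := ((isOpen_BD _ _).preimage continuous_swap).inter
    (isOpen_ne_fun continuous_snd continuous_const)
  ms := (map_cont S hc).fst.comp continuous_swap.continuousOn fun p hp => hp.1
  mz j := ((S.sheets c hc).an j).continuousOn.comp continuous_swap.continuousOn fun p hp => hp.1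
  mW := (W2_cont S hc).comp continuous_swap.continuousOn fun p hp => ⟨hp.1, hp.2⟩
  split p hp := (S.sheets c hc).split p.swap hp.1
  inj p hp h0 := (S.sheets c hc).inj p.swap hp.1 (gen_of hp.2 (Or.inr h0))
  ne p hp h0 := map_ne (gen_of (p := p.swap) hp.2 (Or.inr h0))
  wv p hp h0 := W2_eq hc hv (gen_of (p := p.swap) hp.2 (Or.inr h0))
  s0 b _ := by
    cases c with
    | edge i k k' => simp [TB.map]
    | leg i => simp [v2] at hv
    | vert i k w₀ => simp [v2] at hv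
  nsp b hb := W2_nsp hc hv hb.1.1.le hb.2

lemma W1_axis {c : Ch T.m} (hc : Ok S c) (b : ℂ) : W1 c (0, b) = cx T c + b ^ lx T c := by
  have hM := T.M_pos.ne'
  obtain ⟨hV, hC⟩ := hc
  cases c with
  | edge i k k' => simp only [W1, zero_mul, zero_pow hM, hk_φ, cx, lx]
  | leg i => simp only [W1, zero_pow hM, hk_φ, cx, lx]
  | vert i k w₀ =>
    obtain ⟨v, hv, rfl, rfl, -⟩ := hC
    simp only [W1, zero_pow hM, hk_φ, cx, lx, co_ci S hv, zero_add, pow_one]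

lemma W2_axis {c : Ch T.m} (hc : Ok S c) {v : Vtx} (hv : v2 T c = some v) (a : ℂ) :
    W2 c (a, 0) = (a ^ lx T c)⁻¹ := by
  have hM := T.M_pos.ne'
  obtain ⟨hV, hC⟩ := hc
  cases c with
  | edge i k k' =>
    obtain ⟨v', hv', rfl, rfl, rfl⟩ := hC
    simp only [W2, mul_zero, zero_pow hM, hk_φ, lx, co_ci S hv', zero_add]
  | leg i => simp [v2] at hv
  | vert i k w₀ => simp [v2] at hv

lemma tendsto_swap' (a : ℂ) : Tendsto (Prod.swap : ℂ × ℂ → ℂ × ℂ) (𝓝 (a, 0)) (𝓝 (0, a)) :=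
  continuous_swap.tendsto (a, 0)

lemma isPreconnected_PDc (c : Ch T.m) : IsPreconnected (PDc S c) := by
  have h : PDc S c = Pd (2 * S.r c) := by
    ext z
    rfl
  rw [h]
  exact isPreconnected_Pd _

lemma isPreconnected_PDv (c : Ch T.m) : IsPreconnected (PDv S c) := by
  by_cases h : IsV c
  · have e : PDv S c = ball 0 (2 * S.r c) := by
      ext z
      simp [PDv, h]
    rw [e]
    exact (convex_ball _ _).isPreconnected
  · have e : PDv S c = Pd (2 * S.r c) := by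
      ext z
      simp [PDv, h, Pd]
    rw [e]
    exact isPreconnected_Pd _

lemma cc_eq {v : Vtx} {γ : ℂ → XV U v} {K : Set ℂ} (hK : IsPreconnected K)
    (hγ : ContinuousOn γ K) {b b' : ℂ} (hb : b ∈ K) (hb' : b' ∈ K) :
    (γ b : ConnectedComponents (XV U v)) = (γ b' : ConnectedComponents (XV U v)) := by
  rw [ConnectedComponents.coe_eq_coe]
  have hpre : IsPreconnected (γ '' K) := hK.image _ hγ
  exact connectedComponent_eq (hpre.subset_connectedComponent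
    (mem_image_of_mem _ hb) (mem_image_of_mem _ hb'))

lemma norm_r (c : Ch T.m) : ‖((S.r c : ℝ) : ℂ)‖ = S.r c := by
  rw [Complex.norm_real, Real.norm_of_nonneg (S.pos c).le]

/-- **the ends seen in the charts** -/
theorem endStmt (L : Lab U S) : EndStmt L := by
  rintro c hc ⟨v, hvm⟩
  have hr := S.pos c
  constructor
  · intro hv
    change v1 T c = some v at hv
    have A := ax1 (S := S) hc.1 hv
    obtain ⟨γ, h1, h2, h3, h4, h5, h6⟩ := A.exists_γ U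
    have hE : End1 U S c v γ := by
      refine ⟨fun j => ?_, fun j b hb => ?_, fun b hb => h3 b (mem_D1.2 hb),
        fun b hb q hq => ?_, fun j b hb => h5 j b (mem_D1.2 hb)⟩
      · exact (h1 j).mono fun b hb => mem_D1.2 hb
      · rw [h2 j b (mem_D1.2 hb), W1_axis hc]
      · exact h4 b (mem_D1.2 hb) q (by rw [hq, W1_axis hc])
    refine ⟨γ, hE, fun j b hb => ?_⟩
    obtain ⟨C, hC, hn⟩ := form1 L hc j hv hvm
    have hb₁ : ((S.r c : ℝ) : ℂ) ∈ PDv S c := by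
      refine ⟨Or.inr ?_, ?_⟩
      · rw [norm_r]; exact hr
      · rw [norm_r]; linarith
    have h7 : (γ j ((S.r c : ℝ) : ℂ) : ConnectedComponents (XV U v)) = C := by
      obtain ⟨a, ha, hn'⟩ := hn (S.r c) hr
      have e1 := h6 j _ (mem_D1.2 hb₁)
      have e2 : ∀ᶠ p in 𝓝 ((0 : ℂ), ((S.r c : ℝ) : ℂ)), ‖p.1‖ < a := by
        have c1 : Continuous fun p : ℂ × ℂ => ‖p.1‖ := by fun_prop
        exact c1.continuousAt.eventually_lt_const (by simpa using ha)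
      obtain ⟨t, ht0, ht1, ht2⟩ := exists_near (P := fun p => (∀ q,
        IsRet U v (pt (S.ζ c j p) (T.map c p)) q → (q : ConnectedComponents (XV U v)) =
          (γ j ((S.r c : ℝ) : ℂ) : ConnectedComponents (XV U v))) ∧ ‖p.1‖ < a) (by
          filter_upwards [e1, e2] with p l1 l2 h0
          exact ⟨l1 h0, l2⟩)
      obtain ⟨k1, k2⟩ := hn' (t, ((S.r c : ℝ) : ℂ)) (norm_pos_iff.2 ht0) ht2
        (by show ‖((S.r c : ℝ) : ℂ)‖ ≤ _; rw [norm_r])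
        (Or.inr (by show _ ≤ ‖((S.r c : ℝ) : ℂ)‖; rw [norm_r]))
      obtain ⟨q₁, hq₁⟩ := ((retStmt U v hvm).1 _ k1).exists
      rw [← ht1 q₁ hq₁]
      exact k2 q₁ hq₁
    rw [hC]
    show some (⟨⟨v, hvm⟩, C⟩ : II U) = some (⟨⟨v, hvm⟩, (γ j b : ConnectedComponents (XV U v))⟩)
    rw [← h7, cc_eq (isPreconnected_PDv c) (hE.cont j) hb₁ hb]
  · intro hv
    change v2 T c = some v at hv
    have A := ax2 (S := S) hc.1 hv
    obtain ⟨γ, h1, h2, h3, h4, h5, h6⟩ := A.exists_γ U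
    have hE : End2 U S c v γ := by
      refine ⟨fun j => ?_, fun j a ha => ?_, fun a ha => h3 a (mem_D2.2 ha),
        fun a ha q hq => ?_, fun j a ha => ?_⟩
      · exact (h1 j).mono fun a ha => mem_D2.2 ha
      · rw [h2 j a (mem_D2.2 ha)]
        exact W2_axis hc hv a
      · exact h4 a (mem_D2.2 ha) q (by rw [hq]; exact (W2_axis hc hv a).symm)
      · obtain ⟨l1, l2⟩ := h5 j a (mem_D2.2 ha)
        refine ⟨?_, fun O hO => ?_⟩
        · filter_upwards [(tendsto_swap' a).eventually l1] with p hp h0 using hp h0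
        · filter_upwards [(tendsto_swap' a).eventually (l2 O hO)] with p hp h0 using hp h0
    refine ⟨γ, hE, fun j a ha => ?_⟩
    obtain ⟨C, hC, hn⟩ := form2 L hc j hv hvm
    have ha₁ : ((S.r c : ℝ) : ℂ) ∈ PDc S c := by
      refine ⟨?_, ?_⟩
      · rw [norm_r]; exact hr
      · rw [norm_r]; linarith
    have h7 : (γ j ((S.r c : ℝ) : ℂ) : ConnectedComponents (XV U v)) = C := by
      obtain ⟨a', ha', hn'⟩ := hn (S.r c) hr
      have e1 := h6 j _ (mem_D2.2 ha₁)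
      have e2 : ∀ᶠ p in 𝓝 ((0 : ℂ), ((S.r c : ℝ) : ℂ)), ‖p.1‖ < a' := by
        have c1 : Continuous fun p : ℂ × ℂ => ‖p.1‖ := by fun_prop
        exact c1.continuousAt.eventually_lt_const (by simpa using ha')
      obtain ⟨t, ht0, ht1, ht2⟩ := exists_near (P := fun p => (∀ q,
        IsRet U v (pt (S.ζ c j p.swap) (T.map c p.swap)) q →
          (q : ConnectedComponents (XV U v)) =
          (γ j ((S.r c : ℝ) : ℂ) : ConnectedComponents (XV U v))) ∧ ‖p.1‖ < a') (by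
          filter_upwards [e1, e2] with p l1 l2 h0
          exact ⟨l1 h0, l2⟩)
      obtain ⟨k1, k2⟩ := hn' (((S.r c : ℝ) : ℂ), t) (norm_pos_iff.2 ht0) ht2
        (by show ‖((S.r c : ℝ) : ℂ)‖ ≤ _; rw [norm_r])
        (by show _ ≤ ‖((S.r c : ℝ) : ℂ)‖; rw [norm_r])
      obtain ⟨q₁, hq₁⟩ := ((retStmt U v hvm).1 _ k1).exists
      rw [← ht1 q₁ hq₁]
      exact k2 q₁ hq₁
    rw [hC]
    show some (⟨⟨v, hvm⟩, C⟩ : II U) = some (⟨⟨v, hvm⟩, (γ j a : ConnectedComponents (XV U v))⟩)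
    rw [← h7, cc_eq (isPreconnected_PDc c) (hE.cont j) ha₁ ha]

end Crest.Agent.R257.End_636
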