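import Crest.Agent.R257.HoT_843
import Crest.Agent.R257.T11_387
import Mathlib
import Crest.Agent.R257.T9_387
import Crest.Agent.R257.FrmF2_547
import Crest.Agent.R257.LabI_387
import Crest.Agent.R257.FrBP1_808

-- ▼ part R257/FrBP2_808
section

/-!
R257 / FrBP2_808: the exponents of the residue form in the scaled charts are those of `Jac`.
-/

set_option autoImplicit false
set_option linter.unusedSectionVars false

open Polynomial Set Filter Topology Metric
open Crest.AlgGeometry.Germ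

noncomputable section

namespace Crest.Agent.R257.FrBP_808

open Crest.Agent.R257.Defs_219 Crest.Agent.R257.AJ387 Crest.Agent.R257.T387
open Crest.Agent.R257.BP_258 Crest.Agent.R257.HoE_843 Crest.Agent.R257.HoG_843
open Crest.Agent.R257.HoT_843
open Crest.Agent.R257.Fr_808 (jac2)

theorem zexp_le {a b : ℤ} {C : ℝ} (h : ∀ᶠ t in 𝓝[>] (0 : ℝ), t ^ a ≤ C * t ^ b) : b ≤ a := by
  by_contra hlt
  push Not at hlt
  obtain ⟨n, hn⟩ : ∃ n : ℕ, b - a = (n : ℤ) + 1 := ⟨(b - a - 1).toNat, by omega⟩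
  have h1 : ∀ᶠ t : ℝ in 𝓝[>] (0 : ℝ), t < min 1 (1 / (|C| + 1)) :=
    Filter.Eventually.filter_mono nhdsWithin_le_nhds (eventually_lt_nhds (by positivity))
  obtain ⟨t, ⟨h2, h3⟩, h4⟩ := ((h.and h1).and self_mem_nhdsWithin).exists
  have ht : (0 : ℝ) < t := h4
  have ht1 : t < 1 := h3.trans_le (min_le_left _ _)
  have ht2 : t < 1 / (|C| + 1) := h3.trans_le (min_le_right _ _)
  have hC : 0 < |C| + 1 := by positivity
  have e1 : t ^ b = t ^ a * t ^ (n + 1) := by
    rw [← zpow_natCast t (n + 1), ← zpow_add₀ ht.ne']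
    congr 1
    push_cast
    omega
  rw [e1] at h2
  have hta : 0 < t ^ a := zpow_pos ht a
  have e2 : 1 ≤ C * t ^ (n + 1) := by
    by_contra hc
    push Not at hc
    nlinarith
  have e3 : t ^ (n + 1) ≤ t := by
    calc t ^ (n + 1) ≤ t ^ 1 := pow_le_pow_of_le_one ht.le ht1.le (by omega)
      _ = t := pow_one t
  have e4 : C * t ^ (n + 1) ≤ |C| * t := by
    calc C * t ^ (n + 1) ≤ |C| * t ^ (n + 1) :=
          mul_le_mul_of_nonneg_right (le_abs_self C) (by positivity)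
      _ ≤ |C| * t := mul_le_mul_of_nonneg_left e3 (abs_nonneg C)
  have e5 : |C| * t < 1 := by
    rw [lt_div_iff₀ hC] at ht2
    nlinarith [abs_nonneg C]
  linarith

/-- exponents are determined by growth -/
theorem exp_eq {V : ℂ → ℂ} (hV : ContinuousAt V 0) (hV0 : V 0 ≠ 0) {a b : ℤ} {A B : ℝ}
    (hA : 0 < A)
    (h1 : ∀ t : ℝ, 0 < t → t < 1 → t ^ a * ‖V t‖ ≤ A * t ^ b)
    (h2 : ∀ t : ℝ, 0 < t → t < 1 → t ^ b ≤ B * (t ^ a * ‖V t‖)) : a = b := by
  have hpos : 0 < ‖V 0‖ := norm_pos_iff.2 hV0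
  have hto : Tendsto (fun t : ℝ => (t : ℂ)) (𝓝[>] 0) (𝓝 0) := by
    have : ContinuousAt (fun t : ℝ => (t : ℂ)) 0 := by fun_prop
    have h3 := this.tendsto
    simp only [Complex.ofReal_zero] at h3
    exact h3.mono_left nhdsWithin_le_nhds
  have e1 : ∀ᶠ t : ℝ in 𝓝[>] 0, ‖V 0‖ / 2 < ‖V t‖ :=
    hto.eventually (continuousAt_const.eventually_lt hV.norm (by linarith))
  have e2 : ∀ᶠ t : ℝ in 𝓝[>] 0, ‖V t‖ < ‖V 0‖ + 1 :=
    hto.eventually (hV.norm.eventually_lt continuousAt_const (by linarith))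
  have e3 : ∀ᶠ t : ℝ in 𝓝[>] (0 : ℝ), t < 1 :=
    Filter.Eventually.filter_mono nhdsWithin_le_nhds (eventually_lt_nhds one_pos)
  refine le_antisymm ?_ ?_
  · -- `t ^ b ≤ C t ^ a`
    refine zexp_le (C := |B| * (‖V 0‖ + 1)) ?_
    filter_upwards [e2, e3, self_mem_nhdsWithin] with t h4 h5 h6
    have ht : (0 : ℝ) < t := h6
    have hta : 0 < t ^ a := zpow_pos ht a
    calc t ^ b ≤ B * (t ^ a * ‖V t‖) := h2 t ht h5
      _ ≤ |B| * (t ^ a * (‖V 0‖ + 1)) := by
          refine mul_le_mul (le_abs_self B) ?_ (by positivity) (abs_nonneg B)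
          exact mul_le_mul_of_nonneg_left h4.le hta.le
      _ = |B| * (‖V 0‖ + 1) * t ^ a := by ring
  · refine zexp_le (C := A / (‖V 0‖ / 2)) ?_
    filter_upwards [e1, e3, self_mem_nhdsWithin] with t h4 h5 h6
    have ht : (0 : ℝ) < t := h6
    have hta : 0 < t ^ a := zpow_pos ht a
    have h7 : t ^ a * (‖V 0‖ / 2) ≤ A * t ^ b :=
      (mul_le_mul_of_nonneg_left h4.le hta.le).trans (h1 t ht h5)
    rw [div_mul_eq_mul_div, le_div_iff₀ (by positivity)]
    exact h7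

variable {f : (Fin 3 → ℂ) → ℂ} {T : TB f} {U : Tub T} {S : Sh T} {L : Lab U S}
  {nu : II U → ℤ} {n1 n2 : Ch T.m → Fin T.d → ℤ}

/-- exponent of the (exceptional) first axis of the scaled chart -/
def m1 (n1 n2 : Ch T.m → Fin T.d → ℤ) (c : Ch T.m) (j : Fin T.d) : ℤ :=
  if T.IsTop c then n2 c j else n1 c j

/-- exponent of the second axis of the scaled chart -/
def m2 (n1 n2 : Ch T.m → Fin T.d → ℤ) (c : Ch T.m) (j : Fin T.d) : ℤ :=
  if T.IsTop c then n1 c j else n2 c j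

theorem gen_of_ne (c : Ch T.m) {q : ℂ × ℂ} (h1 : q.1 ≠ 0) (h2 : q.2 ≠ 0) : T.Gen c q := by
  cases c with
  | edge i k k' => exact ⟨h1, h2⟩
  | leg i => exact ⟨h1, h2⟩
  | vert i k w₀ => exact h1

/-- two sided bound of the Jacobian of the scaled chart -/
theorem jac_bd (hJ : Jac L nu n1 n2) {c : Ch T.m} (hc : Ok S c) (j : Fin T.d) :
    ∃ A B : ℝ, 0 < A ∧ 0 < B ∧ ∀ p : ℂ × ℂ, p.1 ≠ 0 → p.2 ≠ 0 → ‖p.1‖ ≤ 1 → ‖p.2‖ ≤ 1 →
      ‖jac2 (T.thS c (S.r c) (S.ζ c j)) p‖ ≤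
        A * ‖coordDeriv f 0 (T.thS c (S.r c) (S.ζ c j) p)‖ *
          (‖p.1‖ ^ (-m1 n1 n2 c j - 1) * ‖p.2‖ ^ (-m2 n1 n2 c j - 1)) ∧
      ‖coordDeriv f 0 (T.thS c (S.r c) (S.ζ c j) p)‖ *
          (‖p.1‖ ^ (-m1 n1 n2 c j - 1) * ‖p.2‖ ^ (-m2 n1 n2 c j - 1)) ≤
        B * ‖jac2 (T.thS c (S.r c) (S.ζ c j)) p‖ := by
  obtain ⟨K, hK, hbd⟩ := hJ.bd c hc j
  set R : ℝ := S.r c with hR
  have hR0 : 0 < R := S.pos c
  set cc : ℝ := Real.sqrt (cA T.A T.N) with hcc
  have hcc0 : 0 < cc := Real.sqrt_pos.2 (cA_pos T.N_pos)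
  set D : ℝ := R ^ (-n1 c j - 1) * R ^ (-n2 c j - 1) with hD
  have hD0 : 0 < D := mul_pos (zpow_pos hR0 _) (zpow_pos hR0 _)
  refine ⟨R ^ 2 * cc * (K * D), (R ^ 2 * cc)⁻¹ * (K * D⁻¹), by positivity, by positivity, ?_⟩
  intro p hp1 hp2 hn1 hn2
  have hp : p ∈ AJ387.BD 2 2 := ⟨by linarith, by linarith⟩
  set q : ℂ × ℂ := T.sg c R p with hq
  have hqm : q ∈ AJ387.BD (2 * R) (2 * R) := TB.sg_mem2 hR0 hp
  have hth : AnalyticAt ℂ (T.th c (S.ζ c j)) q := (S.sheets c hc.1).th_an j hqm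
  have hRC : (R : ℂ) ≠ 0 := by exact_mod_cast hR0.ne'
  -- the Jacobian
  have e1 : ‖jac2 (T.thS c R (S.ζ c j)) p‖ = R ^ 2 * ‖jac2 (T.th c (S.ζ c j)) q‖ := by
    have h1 : jac2 (T.thS c R (S.ζ c j)) p = _ := T.jac2_sg c R hth.differentiableAt
    rw [h1, norm_mul]
    congr 1
    split_ifs
    · rw [norm_neg, norm_pow, Complex.norm_real, Real.norm_of_nonneg hR0.le]
    · rw [norm_pow, Complex.norm_real, Real.norm_of_nonneg hR0.le]
  have hcd0 : ‖T.thS c R (S.ζ c j) p‖ = ‖T.th c (S.ζ c j) q‖ := rfl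
  set δ : ℝ := ‖coordDeriv f 0 (T.th c (S.ζ c j) q)‖ with hδ
  have hδ' : ‖coordDeriv f 0 (T.thS c R (S.ζ c j) p)‖ = δ := rfl
  -- the conditions for `bd`
  have hq1 : q.1 ≠ 0 ∧ q.2 ≠ 0 ∧ ‖q.1‖ ≤ R ∧ ‖q.2‖ ≤ R ∧
      ‖q.1‖ ^ (-n1 c j - 1) * ‖q.2‖ ^ (-n2 c j - 1) =
        D * (‖p.1‖ ^ (-m1 n1 n2 c j - 1) * ‖p.2‖ ^ (-m2 n1 n2 c j - 1)) := by
    have hRn : ∀ z : ℂ, ‖(R : ℂ) * z‖ = R * ‖z‖ := fun z => by
      rw [norm_mul, Complex.norm_real, Real.norm_of_nonneg hR0.le]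
    rw [hq]
    unfold TB.sg m1 m2
    split_ifs
    · refine ⟨mul_ne_zero hRC hp2, mul_ne_zero hRC hp1, ?_, ?_, ?_⟩
      · simp only [hRn]; nlinarith
      · simp only [hRn]; nlinarith
      · simp only [hRn]
        rw [mul_zpow, mul_zpow, hD]
        ring
    · refine ⟨mul_ne_zero hRC hp1, mul_ne_zero hRC hp2, ?_, ?_, ?_⟩
      · simp only [hRn]; nlinarith
      · simp only [hRn]; nlinarith
      · simp only [hRn]
        rw [mul_zpow, mul_zpow, hD]
        ring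
  obtain ⟨hq1, hq2, hqn1, hqn2, hmon⟩ := hq1
  obtain ⟨h1, h2, h3⟩ := hbd q hqn1 hqn2 (gen_of_ne c hq1 hq2)
  have hδ0 : 0 < δ := norm_pos_iff.2 h1
  -- the density
  have e2 : ‖jac2 (T.th c (S.ζ c j)) q‖ = δ * (cc * dn S c j q) := by
    have h4 := den_wc S hc.1 hqm.1 hqm.2 j
    have h5 : den2 f (fun q => piW T.A T.N (wc S c j q)) q =
        (δ ^ 2)⁻¹ * ‖jac2 (T.th c (S.ζ c j)) q‖ ^ 2 := rfl
    rw [h5] at h4
    have hdn : 0 ≤ dn S c j q := by unfold dn; positivity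
    have h6 : ‖jac2 (T.th c (S.ζ c j)) q‖ ^ 2 = (δ * (cc * dn S c j q)) ^ 2 := by
      rw [mul_pow, mul_pow, hcc, Real.sq_sqrt (cA_pos T.N_pos).le, ← h4]
      field_simp
    exact (pow_left_inj₀ (norm_nonneg _) (by positivity) two_ne_zero).1 h6
  rw [hmon] at h2 h3
  set X : ℝ := ‖p.1‖ ^ (-m1 n1 n2 c j - 1) * ‖p.2‖ ^ (-m2 n1 n2 c j - 1) with hX
  rw [e1, hδ', e2]
  constructor
  · calc R ^ 2 * (δ * (cc * dn S c j q)) = R ^ 2 * cc * δ * dn S c j q := by ring
      _ ≤ R ^ 2 * cc * δ * (K * (D * X)) := mul_le_mul_of_nonneg_left h2 (by positivity)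
      _ = R ^ 2 * cc * (K * D) * δ * X := by ring
  · have h7 : X ≤ D⁻¹ * (K * dn S c j q) := by
      rw [inv_mul_eq_div, le_div_iff₀ hD0, mul_comm X D]
      exact h3
    calc δ * X ≤ δ * (D⁻¹ * (K * dn S c j q)) := mul_le_mul_of_nonneg_left h7 hδ0.le
      _ = (R ^ 2 * cc)⁻¹ * (K * D⁻¹) * (R ^ 2 * (δ * (cc * dn S c j q))) := by
          field_simp

/-- **the residue form in the scaled charts, with the exponents of `Jac`** -/
theorem jac_thS (hf : Iso f) (hJ : Jac L nu n1 n2) {c : Ch T.m} (hc : Ok S c) (j : Fin T.d) :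
    ∃ V : ℂ × ℂ → ℂ, AnalyticOnNhd ℂ V (AJ387.BD 2 2) ∧ (∀ p ∈ AJ387.BD 2 2, V p ≠ 0) ∧
      ∀ p ∈ AJ387.BD 2 2, p.1 ≠ 0 → p.2 ≠ 0 →
        coordDeriv f 0 (T.thS c (S.r c) (S.ζ c j) p) ≠ 0 ∧
        jac2 (T.thS c (S.r c) (S.ζ c j)) p = coordDeriv f 0 (T.thS c (S.r c) (S.ζ c j) p) *
          p.1 ^ (-m1 n1 n2 c j - 1) * p.2 ^ (-m2 n1 n2 c j - 1) * V p := by
  obtain ⟨a, b, V, -, hV, hV0, h⟩ := TB.thS_jac (S.pos c) (S.sheets c hc.1) hf hc.1 j
  obtain ⟨A, B, hA, hB, hbd⟩ := jac_bd hJ hc j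
  have key : ∀ p : ℂ × ℂ, p.1 ≠ 0 → p.2 ≠ 0 → ‖p.1‖ ≤ 1 → ‖p.2‖ ≤ 1 →
      ‖p.1‖ ^ a * ‖p.2‖ ^ b * ‖V p‖ ≤
        A * (‖p.1‖ ^ (-m1 n1 n2 c j - 1) * ‖p.2‖ ^ (-m2 n1 n2 c j - 1)) ∧
      ‖p.1‖ ^ (-m1 n1 n2 c j - 1) * ‖p.2‖ ^ (-m2 n1 n2 c j - 1) ≤
        B * (‖p.1‖ ^ a * ‖p.2‖ ^ b * ‖V p‖) := by
    intro p hp1 hp2 hn1 hn2
    have hp : p ∈ AJ387.BD 2 2 := ⟨by linarith, by linarith⟩
    obtain ⟨h1, h2⟩ := h p hp hp1 hp2
    obtain ⟨h3, h4⟩ := hbd p hp1 hp2 hn1 hn2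
    have hδ : 0 < ‖coordDeriv f 0 (T.thS c (S.r c) (S.ζ c j) p)‖ := norm_pos_iff.2 h1
    rw [h2, norm_mul, norm_mul, norm_mul, norm_zpow, norm_zpow] at h3 h4
    constructor
    · refine le_of_mul_le_mul_left ?_ hδ
      calc _ = ‖coordDeriv f 0 (T.thS c (S.r c) (S.ζ c j) p)‖ * ‖p.1‖ ^ a * ‖p.2‖ ^ b * ‖V p‖ := by
            ring
        _ ≤ _ := h3
        _ = _ := by ring
    · refine le_of_mul_le_mul_left ?_ hδ
      calc _ ≤ _ := h4
        _ = _ := by ring
  have ha : a = -m1 n1 n2 c j - 1 := by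
    have h0 : ((0 : ℂ), (1 : ℂ)) ∈ AJ387.BD 2 2 := ⟨by simp, by simp⟩
    have hc1 : ContinuousAt (fun z : ℂ => V (z, 1)) 0 :=
      ContinuousAt.comp (g := V) (f := fun z : ℂ => (z, (1 : ℂ))) (x := 0) (hV _ h0).continuousAt
        (by fun_prop)
    refine exp_eq hc1 (hV0 _ h0) hA (B := B) ?_ ?_
    · intro t ht ht1
      have h1 := (key ((t : ℂ), 1) (Complex.ofReal_ne_zero.2 ht.ne') one_ne_zero
        (by rw [Complex.norm_real, Real.norm_of_nonneg ht.le]; exact ht1.le) (by simp)).1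
      simpa [abs_of_pos ht] using h1
    · intro t ht ht1
      have h1 := (key ((t : ℂ), 1) (Complex.ofReal_ne_zero.2 ht.ne') one_ne_zero
        (by rw [Complex.norm_real, Real.norm_of_nonneg ht.le]; exact ht1.le) (by simp)).2
      simpa [abs_of_pos ht] using h1
  have hb : b = -m2 n1 n2 c j - 1 := by
    have h0 : ((1 : ℂ), (0 : ℂ)) ∈ AJ387.BD 2 2 := ⟨by simp, by simp⟩
    have hc1 : ContinuousAt (fun z : ℂ => V (1, z)) 0 :=
      ContinuousAt.comp (g := V) (f := fun z : ℂ => ((1 : ℂ), z)) (x := 0) (hV _ h0).continuousAt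
        (by fun_prop)
    refine exp_eq hc1 (hV0 _ h0) hA (B := B) ?_ ?_
    · intro t ht ht1
      have h1 := (key (1, (t : ℂ)) one_ne_zero (Complex.ofReal_ne_zero.2 ht.ne') (by simp)
        (by rw [Complex.norm_real, Real.norm_of_nonneg ht.le]; exact ht1.le)).1
      simpa [abs_of_pos ht] using h1
    · intro t ht ht1
      have h1 := (key (1, (t : ℂ)) one_ne_zero (Complex.ofReal_ne_zero.2 ht.ne') (by simp)
        (by rw [Complex.norm_real, Real.norm_of_nonneg ht.le]; exact ht1.le)).2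
      simpa [abs_of_pos ht] using h1
  subst ha
  subst hb
  exact ⟨V, hV, hV0, h⟩

end Crest.Agent.R257.FrBP_808
end
end

-- ▼ part R257/T10_387
section

/-!
Row 257 (S0395), part C, T-frame, file 10 (helper387): coverage and finiteness of the fibres of the
scaled charts.
-/

set_option autoImplicit false
set_option linter.unusedSectionVars false

open Polynomial Set Filter Topology Metric
open Crest.AlgGeometry.Germ Crest.Agent.R257.AJ387 Crest.Agent.R257.Defs_219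
open Crest.Agent.R257.T0_387 (ptL ptL_apply an_coordDeriv isolated)
open Crest.Agent.R257.Fr_808 (jac2)

noncomputable section

namespace Crest.Agent.R257.T387

/-- `x ^ n = c` has at most `n` solutions -/
lemma encard_pow_le {n : ℕ} (hn : 0 < n) (c : ℂ) : {x : ℂ | x ^ n = c}.encard ≤ n := by
  classical
  have h0 : (X ^ n - C c : ℂ[X]) ≠ 0 := X_pow_sub_C_ne_zero hn c
  have h1 : {x : ℂ | x ^ n = c} ⊆ ((X ^ n - C c : ℂ[X]).roots.toFinset : Set ℂ) := by
    intro x hx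
    rw [Finset.mem_coe, Multiset.mem_toFinset, mem_roots h0, IsRoot.def]
    simp only [eval_sub, eval_pow, eval_X, eval_C]
    rw [sub_eq_zero]
    exact hx
  refine (Set.encard_le_encard h1).trans ?_
  rw [Set.encard_coe_eq_coe_finsetCard]
  have h2 : (X ^ n - C c : ℂ[X]).roots.toFinset.card ≤ n :=
    (Multiset.toFinset_card_le _).trans ((card_roots' _).trans (natDegree_X_pow_sub_C).le)
  exact_mod_cast h2

lemma encard_biUnion_le' {α β : Type*} [DecidableEq α] (F : Finset α) (s : α → Set β) :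
    (⋃ a ∈ F, s a).encard ≤ ∑ a ∈ F, (s a).encard := by
  induction F using Finset.induction_on with
  | empty => simp
  | insert a F ha ih =>
    rw [Finset.sum_insert ha, Finset.set_biUnion_insert]
    exact (Set.encard_union_le _ _).trans (by gcongr)

namespace TB

variable {f : (Fin 3 → ℂ) → ℂ} (T : TB f)

/-- the fibres of a chart map over nonzero points are uniformly finite -/
theorem encard_map_le {c : Ch T.m} (hc : T.Valid c) : ∃ n : ℕ, ∀ q : ℂ × ℂ, q ≠ 0 →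
    {p | T.map c p = q}.encard ≤ n := by
  have hM := T.M_pos
  cases c with
  | edge i k k' =>
    have hkk : k < k' := hc.2.2.1
    have hk' : 0 < T.M * k' := Nat.mul_pos hM (by omega)
    have hd : 0 < T.M * (k' - k) := Nat.mul_pos hM (by omega)
    refine ⟨T.M * k' + T.M * (k' - k), fun q hq => ?_⟩
    by_cases h0 : q.1 = 0
    · -- the set injects by `β`
      refine le_trans ?_ (le_trans (encard_pow_le hk' q.2) (by push_cast; exact le_self_add))
      refine Set.encard_le_encard_of_injOn (f := fun p : ℂ × ℂ => p.2) ?_ ?_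
      · intro p hp
        have hp1 : p.1 * p.2 = q.1 := congrArg Prod.fst hp
        have hp2 : T.φ i ((p.1 * p.2) ^ T.M) + p.1 ^ (T.M * k) * p.2 ^ (T.M * k') = q.2 :=
          congrArg Prod.snd hp
        rw [hp1, h0, zero_pow hM.ne', T.φ_zero, zero_add] at hp2
        have hne : q.2 ≠ 0 := fun h => hq (Prod.ext h0 h)
        have hb : p.2 ≠ 0 := by
          rintro h
          rw [h, zero_pow hk'.ne', mul_zero] at hp2
          exact hne hp2.symm
        have ha : p.1 = 0 := by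
          rcases mul_eq_zero.1 (hp1.trans h0) with h | h
          · exact h
          · exact absurd h hb
        have hk : T.M * k = 0 := by
          by_contra h
          rw [ha, zero_pow h, zero_mul] at hp2
          exact hne hp2.symm
        rw [hk, pow_zero, one_mul] at hp2
        exact hp2
      · intro p hp p' hp' h
        have hne : q.2 ≠ 0 := fun h => hq (Prod.ext h0 h)
        have aux : ∀ p : ℂ × ℂ, T.map (.edge i k k') p = q → p.1 = 0 := by
          intro p hp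
          have hp1 : p.1 * p.2 = q.1 := congrArg Prod.fst hp
          have hp2 : T.φ i ((p.1 * p.2) ^ T.M) + p.1 ^ (T.M * k) * p.2 ^ (T.M * k') = q.2 :=
            congrArg Prod.snd hp
          rw [hp1, h0, zero_pow hM.ne', T.φ_zero, zero_add] at hp2
          rcases mul_eq_zero.1 (hp1.trans h0) with h | h
          · exact h
          · rw [h, zero_pow hk'.ne', mul_zero] at hp2
            exact absurd hp2.symm hne
        exact Prod.ext ((aux p hp).trans (aux p' hp').symm) h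
    · have hs : ∀ p : ℂ × ℂ, T.map (.edge i k k') p = q → p.1 * p.2 = q.1 ∧ p.1 ≠ 0 ∧ p.2 ≠ 0 ∧
          p.1 ^ (T.M * k) * p.2 ^ (T.M * k') = q.2 - T.φ i (q.1 ^ T.M) := by
        intro p hp
        have hp1 : p.1 * p.2 = q.1 := congrArg Prod.fst hp
        have hp2 : T.φ i ((p.1 * p.2) ^ T.M) + p.1 ^ (T.M * k) * p.2 ^ (T.M * k') = q.2 :=
          congrArg Prod.snd hp
        rw [hp1] at hp2
        have h1 : p.1 ≠ 0 := fun h => h0 (by rw [← hp1, h, zero_mul])
        have h2 : p.2 ≠ 0 := fun h => h0 (by rw [← hp1, h, mul_zero])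
        exact ⟨hp1, h1, h2, by rw [← hp2]; ring⟩
      refine le_trans ?_ (le_trans (encard_pow_le hd ((q.2 - T.φ i (q.1 ^ T.M)) / q.1 ^ (T.M * k)))
        (by push_cast; exact le_add_self))
      refine Set.encard_le_encard_of_injOn (f := fun p : ℂ × ℂ => p.2) ?_ ?_
      · intro p hp
        obtain ⟨h1, h2, h3, h4⟩ := hs p hp
        show p.2 ^ (T.M * (k' - k)) = _
        rw [eq_div_iff (pow_ne_zero _ h0), ← h4, ← h1, mul_pow]
        have : T.M * k' = T.M * (k' - k) + T.M * k := by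
          rw [← mul_add]; congr 1; omega
        rw [this, pow_add]
        ring
      · intro p hp p' hp' h
        obtain ⟨h1, h2, h3, h4⟩ := hs p hp
        obtain ⟨h1', h2', h3', h4'⟩ := hs p' hp'
        have h : p.2 = p'.2 := h
        refine Prod.ext ?_ h
        have h5 : p.1 * p.2 = p'.1 * p.2 := by rw [h1, h, h1']
        exact mul_right_cancel₀ h3 h5
  | leg i =>
    have htop : T.M * T.top i ≠ 0 := mul_ne_zero hM.ne' (T.lev_pos (T.top_mem i)).ne'
    refine ⟨T.M, fun q hq => ?_⟩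
    have hs : ∀ p : ℂ × ℂ, T.map (.leg i) p = q → p.1 = q.1 ∧ p.1 ≠ 0 ∧
        p.1 ^ (T.M * T.top i) * p.2 ^ T.M = q.2 - T.φ i (q.1 ^ T.M) := by
      intro p hp
      have hp1 : (T.map (.leg i) p).1 = q.1 := congrArg Prod.fst hp
      change p.1 = q.1 at hp1
      have hp2 : (T.map (.leg i) p).2 = q.2 := congrArg Prod.snd hp
      change T.φ i (p.1 ^ T.M) + p.1 ^ (T.M * T.top i) * p.2 ^ T.M = q.2 at hp2
      have h1 : p.1 ≠ 0 := by
        intro h
        rw [h, zero_pow hM.ne', T.φ_zero, zero_pow htop, zero_mul, zero_add] at hp2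
        exact hq (Prod.ext (by rw [← hp1, h]; rfl) hp2.symm)
      exact ⟨hp1, h1, by rw [← hp2, ← hp1]; ring⟩
    refine le_trans ?_ (encard_pow_le hM ((q.2 - T.φ i (q.1 ^ T.M)) / q.1 ^ (T.M * T.top i)))
    refine Set.encard_le_encard_of_injOn (f := fun p : ℂ × ℂ => p.2) ?_ ?_
    · intro p hp
      obtain ⟨h1, h2, h3⟩ := hs p hp
      show p.2 ^ T.M = _
      rw [← h1] at h3 ⊢
      rw [eq_div_iff (pow_ne_zero _ h2), ← h3]
      ring
    · intro p hp p' hp' h
      exact Prod.ext ((hs p hp).1.trans (hs p' hp').1.symm) h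
  | vert i k w₀ =>
    have hk : T.M * k ≠ 0 := mul_ne_zero hM.ne' (T.lev_pos hc.1).ne'
    refine ⟨1, fun q hq => ?_⟩
    have hs : ∀ p : ℂ × ℂ, T.map (.vert i k w₀) p = q → p.1 = q.1 ∧ p.1 ≠ 0 ∧
        p.1 ^ (T.M * k) * (w₀ + p.2) = q.2 - T.φ i (q.1 ^ T.M) := by
      intro p hp
      have hp1 : (T.map (.vert i k w₀) p).1 = q.1 := congrArg Prod.fst hp
      change p.1 = q.1 at hp1
      have hp2 : (T.map (.vert i k w₀) p).2 = q.2 := congrArg Prod.snd hp
      change T.φ i (p.1 ^ T.M) + p.1 ^ (T.M * k) * (w₀ + p.2) = q.2 at hp2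
      have h1 : p.1 ≠ 0 := by
        intro h
        rw [h, zero_pow hM.ne', T.φ_zero, zero_pow hk, zero_mul, zero_add] at hp2
        exact hq (Prod.ext (by rw [← hp1, h]; rfl) hp2.symm)
      exact ⟨hp1, h1, by rw [← hp2, ← hp1]; ring⟩
    rw [Nat.cast_one, Set.encard_le_one_iff]
    intro p p' hp hp'
    obtain ⟨h1, h2, h3⟩ := hs p hp
    obtain ⟨h1', h2', h3'⟩ := hs p' hp'
    have h4 : p.1 = p'.1 := h1.trans h1'.symm
    refine Prod.ext h4 ?_
    have h5 : p.1 ^ (T.M * k) * (w₀ + p.2) = p.1 ^ (T.M * k) * (w₀ + p'.2) := by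
      rw [h3, h4, h3']
    exact add_left_cancel (mul_left_cancel₀ (pow_ne_zero _ h2) h5)

/-- the base point of a point of `ℂ³` -/
def bs (x : Fin 3 → ℂ) : ℂ × ℂ := T.A.symm (x 1, x 2)

lemma bs_th (c : Ch T.m) (z : ℂ × ℂ → ℂ) (p : ℂ × ℂ) :
    T.bs (T.th c z p) = ((T.map c p).1 ^ T.N, (T.map c p).2) := by
  unfold bs
  show T.A.symm (T.A ((T.map c p).1 ^ T.N, (T.map c p).2)) = _
  rw [ContinuousLinearEquiv.symm_apply_apply]


/-- **finite fibres** -/
theorem thS_mult {c : Ch T.m} (hc : T.Valid c) {R : ℝ} {ζ : Fin T.d → ℂ × ℂ → ℂ} (hR : 0 < R)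
    (hS : T.Sheets c (2 * R) ζ) : ∃ n : ℕ, ∀ (j : Fin T.d) (x : Fin 3 → ℂ), x ≠ 0 →
      {p | p ∈ BD 2 2 ∧ T.thS c R (ζ j) p = x}.encard ≤ n := by
  classical
  obtain ⟨n, hn⟩ := T.encard_map_le hc
  refine ⟨T.N * n, fun j x hx => ?_⟩
  by_cases hb : T.bs x = 0
  · -- empty fibre
    have : {p | p ∈ BD 2 2 ∧ T.thS c R (ζ j) p = x} = ∅ := by
      ext p
      simp only [mem_ofPred_eq, mem_empty_iff_false, iff_false, not_and]
      intro hp h
      apply hx
      rw [← h, thS, hS.th_zero hc j (sg_mem2 hR hp), ← T.map_eq_zero hc]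
      have h1 : T.bs (T.th c (ζ j) (T.sg c R p)) = 0 := by
        have : T.th c (ζ j) (T.sg c R p) = x := h
        rw [this, hb]
      rw [bs_th, Prod.mk_eq_zero] at h1
      exact Prod.ext (pow_eq_zero_iff T.N_pos.ne' |>.1 h1.1) h1.2
    rw [this]
    simp
  · have hfin : {s : ℂ | s ^ T.N = (T.bs x).1}.encard ≤ T.N := encard_pow_le T.N_pos _
    have hf : {s : ℂ | s ^ T.N = (T.bs x).1}.Finite :=
      Set.finite_of_encard_le_coe hfin
    have hsub : ∀ p ∈ {p | p ∈ BD 2 2 ∧ T.thS c R (ζ j) p = x},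
        T.sg c R p ∈ (⋃ s ∈ hf.toFinset, {p | T.map c p = (s, (T.bs x).2)}) := by
      rintro p ⟨hp, h⟩
      have h1 : T.bs (T.th c (ζ j) (T.sg c R p)) = T.bs x := congrArg T.bs h
      rw [bs_th] at h1
      simp only [mem_iUnion]
      have e1 : (T.map c (T.sg c R p)).1 ^ T.N = (T.bs x).1 := by rw [← h1]
      have e2 : (T.map c (T.sg c R p)).2 = (T.bs x).2 := by rw [← h1]
      refine ⟨(T.map c (T.sg c R p)).1, ?_, ?_⟩
      · rw [Set.Finite.mem_toFinset]
        exact e1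
      · exact Prod.ext rfl e2
    refine (Set.encard_le_encard_of_injOn hsub (T.sg_inj c hR).injOn).trans ?_
    refine (encard_biUnion_le' _ _).trans ?_
    have h2 : ∀ s ∈ hf.toFinset, {p | T.map c p = (s, (T.bs x).2)}.encard ≤ (n : ℕ∞) := by
      intro s hs
      refine hn _ fun h => hb ?_
      rw [Set.Finite.mem_toFinset] at hs
      rw [Prod.mk_eq_zero] at h
      refine Prod.ext ?_ h.2
      have : s ^ T.N = (T.bs x).1 := hs
      rw [← this, h.1, zero_pow T.N_pos.ne']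
      rfl
    refine (Finset.sum_le_sum h2).trans ?_
    rw [Finset.sum_const, nsmul_eq_mul]
    have h3 : (hf.toFinset.card : ℕ∞) ≤ T.N := by
      rw [← Set.encard_coe_eq_coe_finsetCard, Set.Finite.coe_toFinset]
      exact hfin
    calc (hf.toFinset.card : ℕ∞) * (n : ℕ∞) ≤ (T.N : ℕ∞) * n := by gcongr
      _ = ((T.N * n : ℕ) : ℕ∞) := by push_cast; rfl


end TB

end Crest.Agent.R257.T387
end
end

-- ▼ part R257/FrmG_547
section

/-!
R257 / FrmG_547 (task C-FRAME): coverage of `{f = 0} - 0` by the sheets of one graph component.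

* `adjc_of_closed` : a set of labels closed under `Mx L E E' ≠ 0` is a union of graph components;
* `frame_cover`    : for such a (non-empty) set `g`, the sheets of the canonical charts of a finite cover
                     with labels in `g` cover `{f = 0} - 0` near `0`;
* `exists_F`       : a finite set of canonical charts with this property, for all `g`, such that every
                     label is the label of a vertex chart.
-/

set_option autoImplicit false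
set_option linter.unusedSectionVars false

open Set Filter Topology Metric
open Crest.AlgGeometry.Germ Crest.Agent.R257.AJ387 Crest.Agent.R257.T387
open Crest.Agent.R257.Defs_219
open Crest.Agent.R257.FrmE_547 Crest.Agent.R257.BP_258 Crest.Agent.R257.FrmF_547

noncomputable section

namespace Crest.Agent.R257.FrmG_547

variable {f : (Fin 3 → ℂ) → ℂ} {T : TB f} {U : Tub T} {S : Sh T} (L : Lab U S)

/-- sets of labels closed under adjacency are unions of graph components -/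
theorem adjc_of_closed {g : II U → Prop} (h : ∀ E E', g E → Mx L E E' ≠ 0 → g E') :
    Adjc L g := by
  intro v hv j E E' h1 h2
  have hok : Ok S (ec S v) := LabI_387.ec_ok (S := S) hv
  have hne : E ≠ E' := by
    rintro rfl
    have e1 := v1_of_some L hok h1
    have e2 := v2_of_some L hok h2
    have e3 : v1 T (ec S v) = v2 T (ec S v) := e1.trans e2.symm
    have hk := (S.kp_cons v hv).2.2.1
    by_cases h0 : S.kp v = 0
    · simp [ec, v1, v2, h0] at e3
    · simp only [ec, v1, v2, h0, if_false, Option.some.injEq] at e3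
      have := congrArg Prod.fst e3
      simp only [vx] at this
      omega
  have hpos : 0 < Mx L E E' := by
    rw [LabI_387.Mx_eq]
    exact GrH_547.LM_pos LabI_387.hc_pos hne (h := (⟨⟨v, hv⟩, j⟩ : LabI_387.HE T))
      (Or.inl ⟨h1, h2⟩)
  have hpos' : 0 < Mx L E' E := by
    rw [LabI_387.Mx_eq]
    exact GrH_547.LM_pos LabI_387.hc_pos hne.symm (h := (⟨⟨v, hv⟩, j⟩ : LabI_387.HE T))
      (Or.inr ⟨h1, h2⟩)
  exact ⟨fun hg => h E E' hg hpos.ne', fun hg => h E' E hg hpos'.ne'⟩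

/-- **coverage by the sheets with labels in `g`** -/
theorem frame_cover (hf : Iso f) (hR : RetStmt U) {F : Finset (Ch T.m)} (hF : ∀ c ∈ F, Ok S c)
    (hcov : ∃ ε > 0, ∀ s y : ℂ, ‖s‖ < ε → ‖y‖ < ε → (s, y) ≠ 0 → ∃ c ∈ F, ∃ p : ℂ × ℂ,
      ‖p.1‖ ≤ S.r c ∧ ‖p.2‖ ≤ S.r c ∧ T.map c p = (s, y))
    {g : II U → Prop} (h : ∀ E E', g E → Mx L E E' ≠ 0 → g E')
    {c₀ : Ch T.m} {j₀ : Fin T.d} {E₀ : II U} (hc₀ : c₀ ∈ F)
    (hE₀ : L.e1 c₀ j₀ = some E₀ ∨ L.e2 c₀ j₀ = some E₀) (hg : g E₀) :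
    ∃ ρ > 0, ∀ x : Fin 3 → ℂ, x ≠ 0 → ‖x‖ < ρ → f x = 0 → ∃ c ∈ F, ∃ j,
      (∃ E, (L.e1 c j = some E ∨ L.e2 c j = some E) ∧ g E) ∧
      (∀ E, (L.e1 c j = some E ∨ L.e2 c j = some E) → g E) ∧
      ∃ p : ℂ × ℂ, ‖p.1‖ ≤ 1 ∧ ‖p.2‖ ≤ 1 ∧ T.thS c (S.r c) (S.ζ c j) p = x := by
  have hadj := adjc_of_closed L h
  let C : Cov T :=
    { F := F
      r := S.r
      ζ := S.ζ
      valid := fun c hc => (hF c hc).1
      r_pos := fun c _ => S.pos c
      sheets := fun c hc => S.sheets c (hF c hc).1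
      cov := by
        obtain ⟨ε, hε, h1⟩ := hcov
        refine ⟨ε, hε, fun s y hs hy h0 => ?_⟩
        obtain ⟨c, hc, p, a1, a2, a3⟩ := h1 s y hs hy h0
        exact ⟨c, hc, p, ⟨a1, a2⟩, a3⟩ }
  obtain ⟨ρ, hρ, hc⟩ := cover_abs hf C (GS L g) (tie L hR hadj F hF) hc₀
    (show GS L g c₀ j₀ from ⟨E₀, hE₀, hg⟩)
  refine ⟨ρ, hρ, fun x hx0 hx hfx => ?_⟩
  obtain ⟨c, hcF, j, hG, q, hq, hqx⟩ := hc x hx0 hx hfx
  obtain ⟨p, h1, h2, h3⟩ := T.sg_surj c (S.pos c) q hq.1 hq.2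
  refine ⟨c, hcF, j, hG, fun E hE => (GS_iff L hadj (hF c hcF) hE).1 hG, p, h1, h2, ?_⟩
  unfold TB.thS
  rw [h3]
  exact hqx


end Crest.Agent.R257.FrmG_547
end
end

-- ▼ part R257/FrBP3_808
section

/-!
R257 / FrBP3_808: labels and orders in the scaled charts `T.thS c (S.r c) (S.ζ c j)`.

* `l1 L c j`, `l2 L c j` : labels of the first and second axis of the scaled chart;
* `ord_thS`              : `OrdStmt` in the scaled charts.
-/

set_option autoImplicit false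
set_option linter.unusedSectionVars false

open Polynomial Set Filter Topology Metric
open Crest.AlgGeometry.Germ

noncomputable section

namespace Crest.Agent.R257.FrBP_808

open Crest.Agent.R257.Defs_219 Crest.Agent.R257.AJ387 Crest.Agent.R257.T387
open Crest.Agent.R257.BP_258 Crest.Agent.R257.FrmF_547
open Crest.Agent.R257.Gr1_157
open Crest.Agent.R257.Fr_808 (jac2)

variable {f : (Fin 3 → ℂ) → ℂ} {T : TB f} {U : Tub T} {S : Sh T} (L : Lab U S)

/-- label of the first axis of the scaled chart -/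
def l1 (c : Ch T.m) (j : Fin T.d) : Option (II U) := if T.IsTop c then L.e2 c j else L.e1 c j

/-- label of the second axis of the scaled chart -/
def l2 (c : Ch T.m) (j : Fin T.d) : Option (II U) := if T.IsTop c then none else L.e2 c j

variable {L}

theorem not_top_of_V {c : Ch T.m} (h : IsV c) : ¬ T.IsTop c := by
  cases c with
  | edge i k k' => exact absurd h (by simp [IsV])
  | leg i => simp [TB.IsTop]
  | vert i k w => simp [TB.IsTop]

theorem l1_top {c : Ch T.m} (h : T.IsTop c) (j : Fin T.d) : l1 L c j = L.e2 c j := if_pos h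

theorem l1_not {c : Ch T.m} (h : ¬ T.IsTop c) (j : Fin T.d) : l1 L c j = L.e1 c j := if_neg h

theorem l2_top {c : Ch T.m} (h : T.IsTop c) (j : Fin T.d) : l2 L c j = none := if_pos h

theorem l2_not {c : Ch T.m} (h : ¬ T.IsTop c) (j : Fin T.d) : l2 L c j = L.e2 c j := if_neg h

theorem e1_top {c : Ch T.m} (hc : Ok S c) (h : T.IsTop c) (j : Fin T.d) : L.e1 c j = none := by
  refine e1_none L hc j ?_
  cases c with
  | edge i k k' =>
    have h0 : k = 0 := h
    simp [v1, h0]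
  | leg i => exact absurd h (by simp [TB.IsTop])
  | vert i k w => exact absurd h (by simp [TB.IsTop])

theorem l1_some {c : Ch T.m} (hc : Ok S c) (j : Fin T.d) : ∃ E, l1 L c j = some E := by
  cases c with
  | edge i k k' =>
    by_cases h0 : k = 0
    · have ht : T.IsTop (.edge i k k') := h0
      rw [l1_top ht]
      obtain ⟨E, hE, -⟩ := e2_some L hc j (v := vx T i k') rfl
      exact ⟨E, hE⟩
    · have ht : ¬ T.IsTop (.edge i k k') := h0
      rw [l1_not ht]
      obtain ⟨E, hE, -⟩ := e1_some L hc j (v := vx T i k) (by simp [v1, h0])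
      exact ⟨E, hE⟩
  | leg i =>
    have ht : ¬ T.IsTop (.leg i) := by simp [TB.IsTop]
    rw [l1_not ht]
    obtain ⟨E, hE, -⟩ := e1_some L hc j (v := vx T i (T.top i)) rfl
    exact ⟨E, hE⟩
  | vert i k w =>
    have ht : ¬ T.IsTop (.vert i k w) := by simp [TB.IsTop]
    rw [l1_not ht]
    obtain ⟨E, hE, -⟩ := e1_some L hc j (v := vx T i k) rfl
    exact ⟨E, hE⟩

theorem l2_none_iff {c : Ch T.m} (hc : Ok S c) (j : Fin T.d) : l2 L c j = none ↔ T.NE c := by
  cases c with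
  | edge i k k' =>
    by_cases h0 : k = 0
    · have ht : T.IsTop (.edge i k k') := h0
      rw [l2_top ht]
      simp [TB.NE, h0]
    · have ht : ¬ T.IsTop (.edge i k k') := h0
      rw [l2_not ht]
      obtain ⟨E, hE, -⟩ := e2_some L hc j (v := vx T i k') rfl
      rw [hE]
      simp [TB.NE, h0]
  | leg i =>
    have ht : ¬ T.IsTop (.leg i) := by simp [TB.IsTop]
    rw [l2_not ht, e2_none L hc j rfl]
    simp [TB.NE]
  | vert i k w =>
    have ht : ¬ T.IsTop (.vert i k w) := by simp [TB.IsTop]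
    rw [l2_not ht, e2_none L hc j rfl]
    simp [TB.NE]

theorem l1_or {c : Ch T.m} {j : Fin T.d} {E : II U} (h : l1 L c j = some E) :
    L.e1 c j = some E ∨ L.e2 c j = some E := by
  by_cases ht : T.IsTop c
  · rw [l1_top ht] at h; exact Or.inr h
  · rw [l1_not ht] at h; exact Or.inl h

theorem l2_or {c : Ch T.m} {j : Fin T.d} {E : II U} (h : l2 L c j = some E) :
    L.e1 c j = some E ∨ L.e2 c j = some E := by
  by_cases ht : T.IsTop c
  · rw [l2_top ht] at h; exact absurd h (by simp)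
  · rw [l2_not ht] at h; exact Or.inr h

variable {nu : II U → ℤ} {n1 n2 : Ch T.m → Fin T.d → ℤ}

theorem m1_eq (hJ : Jac L nu n1 n2) {c : Ch T.m} (hc : Ok S c) {j : Fin T.d} {E : II U}
    (h : l1 L c j = some E) : m1 n1 n2 c j = nu E := by
  unfold m1
  by_cases ht : T.IsTop c
  · rw [l1_top ht] at h
    rw [if_pos ht]
    exact hJ.some2 c hc j E h
  · rw [l1_not ht] at h
    rw [if_neg ht]
    exact hJ.some1 c hc j E h

theorem m2_eq (hJ : Jac L nu n1 n2) {c : Ch T.m} (hc : Ok S c) {j : Fin T.d} {E : II U}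
    (h : l2 L c j = some E) : m2 n1 n2 c j = nu E := by
  unfold m2
  by_cases ht : T.IsTop c
  · rw [l2_top ht] at h
    exact absurd h (by simp)
  · rw [l2_not ht] at h
    rw [if_neg ht]
    exact hJ.some2 c hc j E h

theorem m2_le (hJ : Jac L nu n1 n2) {c : Ch T.m} (hc : Ok S c) {j : Fin T.d}
    (h : l2 L c j = none) : m2 n1 n2 c j ≤ -1 := by
  unfold m2
  by_cases ht : T.IsTop c
  · rw [if_pos ht]
    exact hJ.none1 c hc j (e1_top hc ht j)
  · rw [l2_not ht] at h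
    rw [if_neg ht]
    exact hJ.none2 c hc j h

theorem freq_scale {P : ℂ → Prop} {R : ℝ} (hR : R ≠ 0) {z₀ : ℂ}
    (h : ∃ᶠ z in 𝓝 ((R : ℂ) * z₀), P z) : ∃ᶠ z in 𝓝 z₀, P (R * z) := by
  have hR' : (R : ℂ) ≠ 0 := by exact_mod_cast hR
  have h1 : Tendsto (fun z : ℂ => z / R) (𝓝 ((R : ℂ) * z₀)) (𝓝 z₀) := by
    have h2 : ContinuousAt (fun z : ℂ => z / R) ((R : ℂ) * z₀) := by fun_prop
    have h3 := h2.tendsto
    rwa [mul_div_cancel_left₀ _ hR'] at h3
  refine h1.frequently (h.mono fun z hz => ?_)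
  rwa [mul_div_cancel₀ _ hR']

/-- the special fibre of the scaled chart -/
def InSF (L : Lab U S) (c : Ch T.m) (j : Fin T.d) (p₀ : ℂ × ℂ) : Prop :=
  ‖p₀.1‖ ≤ 1 ∧ ‖p₀.2‖ ≤ 1 ∧ (p₀.1 = 0 ∨ (l2 L c j ≠ none ∧ p₀.2 = 0))

/-- **orders of functions in the scaled charts** -/
theorem ord_thS [Fintype (II U)] (hO : OrdStmt L) {g : (Fin 3 → ℂ) → ℂ} (hg : AnalyticAt ℂ g 0)
    (hne : ∃ᶠ x in 𝓝 (0 : Fin 3 → ℂ), f x = 0 ∧ g x ≠ 0) :
    ∃ v : II U → ℕ, (∀ E, dg (Mx L) (fun i => (v i : ℝ)) E ≤ 0) ∧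
      ∀ c, Ok S c → ∀ j, ∀ p₀ : ℂ × ℂ, InSF L c j p₀ →
        ∃ G : ℂ × ℂ → ℂ, AnalyticAt ℂ G p₀ ∧
          (∀ᶠ p in 𝓝 p₀, g (T.thS c (S.r c) (S.ζ c j) p) =
            p.1 ^ yn v (l1 L c j) * p.2 ^ yn v (l2 L c j) * G p) ∧
          (p₀.1 = 0 → ∀ E, l1 L c j = some E → (∃ᶠ z in 𝓝 p₀.2, G (0, z) ≠ 0) ∧
            (dg (Mx L) (fun i => (v i : ℝ)) E = 0 → G p₀ ≠ 0)) ∧
          (p₀.2 = 0 → ∀ E, l2 L c j = some E → (∃ᶠ z in 𝓝 p₀.1, G (z, 0) ≠ 0) ∧
            (dg (Mx L) (fun i => (v i : ℝ)) E = 0 → G p₀ ≠ 0)) := by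
  obtain ⟨v, hv, h⟩ := hO g hg hne
  refine ⟨v, hv, fun c hc j p₀ hp₀ => ?_⟩
  obtain ⟨hn1, hn2, hor⟩ := hp₀
  set R : ℝ := S.r c with hR
  have hR0 : 0 < R := S.pos c
  have hRC : (R : ℂ) ≠ 0 := by exact_mod_cast hR0.ne'
  have hRn : ∀ z : ℂ, ‖(R : ℂ) * z‖ = R * ‖z‖ := fun z => by
    rw [norm_mul, Complex.norm_real, Real.norm_of_nonneg hR0.le]
  have hsgc : ContinuousAt (T.sg c R) p₀ := by
    have h1 : T.sg c R = fun p => T.sgL c R p := by funext p; rw [T.sgL_apply]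
    rw [h1]
    exact (T.sgL c R).continuous.continuousAt
  have hsga : AnalyticAt ℂ (T.sg c R) p₀ := by
    have h1 : T.sg c R = fun p => T.sgL c R p := by funext p; rw [T.sgL_apply]
    rw [h1]
    exact (T.sgL c R).analyticAt p₀
  by_cases ht : T.IsTop c
  · -- top edges: the coordinates are exchanged
    have hs : ∀ p, T.sg c R p = (R * p.2, R * p.1) := fun p => if_pos ht
    have hp1 : p₀.1 = 0 := by
      rcases hor with h1 | ⟨h1, -⟩
      · exact h1
      · exact absurd (l2_top ht j) h1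
    obtain ⟨E, hE⟩ := l1_some (L := L) hc j
    rw [l1_top ht] at hE
    obtain ⟨G, hG, hev, -, h4⟩ := h c hc j (T.sg c R p₀)
      (by rw [hs]; simp only [hRn]; nlinarith) (by rw [hs]; simp only [hRn]; nlinarith)
      (Or.inr ⟨by rw [hE]; simp, by rw [hs]; simp [hp1]⟩)
    have hq2 : (T.sg c R p₀).2 = 0 := by rw [hs]; simp [hp1]
    refine ⟨fun p => (R : ℂ) ^ yn v (L.e2 c j) * G (T.sg c R p),
      analyticAt_const.mul (hG.comp hsga), ?_, ?_, ?_⟩
    · filter_upwards [hsgc.eventually hev] with p hp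
      have h5 : g (T.thS c R (S.ζ c j) p) = g (T.th c (S.ζ c j) (T.sg c R p)) := rfl
      rw [h5, hp, l1_top ht, l2_top ht, e1_top hc ht j, hs]
      simp only [yn, Option.elim]
      rw [hE]
      simp only
      rw [mul_pow]
      ring
    · intro _ E' hE'
      rw [l1_top ht] at hE'
      obtain ⟨h5, h6⟩ := h4 hq2 E' hE'
      constructor
      · rw [hs] at h5
        simp only at h5
        refine (freq_scale hR0.ne' h5).mono fun z hz => ?_
        simp only [hs, mul_zero]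
        exact mul_ne_zero (pow_ne_zero _ hRC) hz
      · intro hd
        exact mul_ne_zero (pow_ne_zero _ hRC) (h6 hd)
    · intro _ E' hE'
      rw [l2_top ht] at hE'
      exact absurd hE' (by simp)
  · have hs : ∀ p, T.sg c R p = (R * p.1, R * p.2) := fun p => if_neg ht
    have hor' : (L.e1 c j ≠ none ∧ (T.sg c R p₀).1 = 0) ∨ (L.e2 c j ≠ none ∧ (T.sg c R p₀).2 = 0) := by
      rcases hor with h1 | ⟨h1, h2⟩
      · left
        obtain ⟨E, hE⟩ := l1_some (L := L) hc j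
        rw [l1_not ht] at hE
        exact ⟨by rw [hE]; simp, by rw [hs]; simp [h1]⟩
      · right
        rw [l2_not ht] at h1
        exact ⟨h1, by rw [hs]; simp [h2]⟩
    obtain ⟨G, hG, hev, h3, h4⟩ := h c hc j (T.sg c R p₀)
      (by rw [hs]; simp only [hRn]; nlinarith) (by rw [hs]; simp only [hRn]; nlinarith) hor'
    refine ⟨fun p => (R : ℂ) ^ yn v (L.e1 c j) * (R : ℂ) ^ yn v (L.e2 c j) * G (T.sg c R p),
      analyticAt_const.mul (hG.comp hsga), ?_, ?_, ?_⟩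
    · filter_upwards [hsgc.eventually hev] with p hp
      have h5 : g (T.thS c R (S.ζ c j) p) = g (T.th c (S.ζ c j) (T.sg c R p)) := rfl
      rw [h5, hp, l1_not ht, l2_not ht, hs]
      simp only
      rw [mul_pow, mul_pow]
      ring
    · intro hp1 E' hE'
      rw [l1_not ht] at hE'
      obtain ⟨h5, h6⟩ := h3 (by rw [hs]; simp [hp1]) E' hE'
      constructor
      · rw [hs] at h5
        simp only at h5
        refine (freq_scale hR0.ne' h5).mono fun z hz => ?_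
        simp only [hs, mul_zero]
        exact mul_ne_zero (mul_ne_zero (pow_ne_zero _ hRC) (pow_ne_zero _ hRC)) hz
      · intro hd
        exact mul_ne_zero (mul_ne_zero (pow_ne_zero _ hRC) (pow_ne_zero _ hRC)) (h6 hd)
    · intro hp2 E' hE'
      rw [l2_not ht] at hE'
      obtain ⟨h5, h6⟩ := h4 (by rw [hs]; simp [hp2]) E' hE'
      constructor
      · rw [hs] at h5
        simp only at h5
        refine (freq_scale hR0.ne' h5).mono fun z hz => ?_
        simp only [hs, mul_zero]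
        exact mul_ne_zero (mul_ne_zero (pow_ne_zero _ hRC) (pow_ne_zero _ hRC)) hz
      · intro hd
        exact mul_ne_zero (mul_ne_zero (pow_ne_zero _ hRC) (pow_ne_zero _ hRC)) (h6 hd)

end Crest.Agent.R257.FrBP_808
end
end

-- ▼ part R257/FrBP4_808

/-!
R257 / FrBP4_808: the frame.

* `FrIn L nu n1 n2` : input data;
* `FrIn.fr`         : the `Frame f`.
-/

set_option autoImplicit false
set_option linter.unusedSectionVars false

open Polynomial Set Filter Topology Metric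
open Crest.AlgGeometry.Germ

noncomputable section

namespace Crest.Agent.R257.FrBP_808

open Crest.Agent.R257.Defs_219 Crest.Agent.R257.AJ387 Crest.Agent.R257.T387
open Crest.Agent.R257.BP_258 Crest.Agent.R257.FrmF_547
open Crest.Agent.R257.Gr1_157
open Crest.Agent.R257.Fr_808 (jac2 SFib ex2 Frame)

section toI

variable {α : Type} (A : Set α)

/-- restriction of a label -/
def toI (o : Option α) : Option A := by
  classical
  exact if h : ∃ E : A, o = some (E : α) then some h.choose else none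

variable {A}

theorem toI_some {o : Option α} {E : α} (h : o = some E) (hE : E ∈ A) : toI A o = some ⟨E, hE⟩ := by
  have h1 : ∃ E : A, o = some (E : α) := ⟨⟨E, hE⟩, h⟩
  unfold toI
  rw [dif_pos h1]
  congr 1
  refine Subtype.ext ?_
  exact (Option.some.inj (h.symm.trans h1.choose_spec)).symm

theorem toI_none {o : Option α} (h : o = none) : toI A o = none := by
  unfold toI
  rw [dif_neg]
  rintro ⟨E, hE⟩
  rw [h] at hE
  exact absurd hE (by simp)

theorem eq_some_of_toI {o : Option α} {E : A} (h : toI A o = some E) : o = some (E : α) := by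
  unfold toI at h
  split_ifs at h with h1
  rw [← Option.some.inj h]
  exact h1.choose_spec

theorem eq_none_of_toI {o : Option α} (hA : ∀ E, o = some E → E ∈ A) (h : toI A o = none) :
    o = none := by
  cases o with
  | none => rfl
  | some E =>
    have := toI_some (A := A) (o := some E) rfl (hA E rfl)
    rw [this] at h
    exact absurd h (by simp)

end toI

variable {f : (Fin 3 → ℂ) → ℂ} {T : TB f} {U : Tub T} {S : Sh T}

/-- input data of the frame -/
structure FrIn (L : Lab U S) (nu : II U → ℤ) (n1 n2 : Ch T.m → Fin T.d → ℤ)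
    [Fintype (II U)] where
  hf : Iso f
  hR : RetStmt U
  jac : Jac L nu n1 n2
  ord : OrdStmt L
  /-- a component, which fixes the graph component -/
  E₀ : II U
  F : Finset (Ch T.m)
  ok : ∀ c ∈ F, Ok S c
  vert : ∀ E : II U, ∃ c ∈ F, IsV c ∧ ∃ j, L.e1 c j = some E
  edge : ∀ v ∈ Vs T, ec S v ∈ F
  cov : ∃ ε > 0, ∀ s y : ℂ, ‖s‖ < ε → ‖y‖ < ε → (s, y) ≠ 0 → ∃ c ∈ F, ∃ p : ℂ × ℂ,
    ‖p.1‖ ≤ S.r c ∧ ‖p.2‖ ≤ S.r c ∧ T.map c p = (s, y)
  cover : ∃ ρ > 0, ∀ x : Fin 3 → ℂ, x ≠ 0 → ‖x‖ < ρ → f x = 0 → ∃ c ∈ F, ∃ j,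
    (∃ E, (L.e1 c j = some E ∨ L.e2 c j = some E) ∧ E ∈ cls (Mx L) E₀) ∧
    (∀ E, (L.e1 c j = some E ∨ L.e2 c j = some E) → E ∈ cls (Mx L) E₀) ∧
    ∃ p : ℂ × ℂ, ‖p.1‖ ≤ 1 ∧ ‖p.2‖ ≤ 1 ∧ T.thS c (S.r c) (S.ζ c j) p = x

namespace FrIn

variable {L : Lab U S} {nu : II U → ℤ} {n1 n2 : Ch T.m → Fin T.d → ℤ} [Fintype (II U)]
  (D : FrIn L nu n1 n2)

/-- the graph component -/
def I0 : Set (II U) := cls (Mx L) D.E₀

theorem adjc : Adjc L (fun E => E ∈ D.I0) :=
  FrmG_547.adjc_of_closed L fun _ _ h1 h2 => cls_step h1 h2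

/-- the charts of the frame: sheets with labels in `I0` -/
def K : Type := {a : {c // c ∈ D.F} × Fin T.d // GS L (fun E => E ∈ D.I0) a.1.1 a.2}

/-- the chart -/
def ch (a : D.K) : Ch T.m := a.1.1.1

/-- the sheet -/
def sh (a : D.K) : Fin T.d := a.1.2

theorem okK (a : D.K) : Ok S (D.ch a) := D.ok _ a.1.1.2

theorem gs (a : D.K) : GS L (fun E => E ∈ D.I0) (D.ch a) (D.sh a) := a.2

theorem all (a : D.K) {E : II U} (h : L.e1 (D.ch a) (D.sh a) = some E ∨
    L.e2 (D.ch a) (D.sh a) = some E) : E ∈ D.I0 :=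
  (GS_iff L D.adjc (D.okK a) h).1 (D.gs a)

theorem exE (a : D.K) : ∃ E : D.I0, l1 L (D.ch a) (D.sh a) = some (E : II U) := by
  obtain ⟨E, hE⟩ := l1_some (L := L) (D.okK a) (D.sh a)
  exact ⟨⟨E, D.all a (l1_or hE)⟩, hE⟩

/-- the first label -/
def e1 (a : D.K) : D.I0 := (D.exE a).choose

theorem e1_spec (a : D.K) : l1 L (D.ch a) (D.sh a) = some (D.e1 a : II U) := (D.exE a).choose_spec

/-- the second label -/
def e2 (a : D.K) : Option D.I0 := toI D.I0 (l2 L (D.ch a) (D.sh a))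

theorem e2_some {a : D.K} {E : D.I0} (h : D.e2 a = some E) :
    l2 L (D.ch a) (D.sh a) = some (E : II U) := eq_some_of_toI h

theorem e2_none {a : D.K} (h : D.e2 a = none) : l2 L (D.ch a) (D.sh a) = none :=
  eq_none_of_toI (fun _ hE => D.all a (l2_or hE)) h

theorem e2_none_iff (a : D.K) : D.e2 a = none ↔ l2 L (D.ch a) (D.sh a) = none :=
  ⟨D.e2_none, fun h => toI_none h⟩

theorem e2_ne_iff (a : D.K) : D.e2 a ≠ none ↔ ¬ T.NE (D.ch a) := by
  rw [Ne, D.e2_none_iff, l2_none_iff (D.okK a)]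

/-- the chart map -/
def th (a : D.K) : ℂ × ℂ → Fin 3 → ℂ := T.thS (D.ch a) (S.r (D.ch a)) (S.ζ (D.ch a) (D.sh a))

theorem sheetsK (a : D.K) : T.Sheets (D.ch a) (2 * S.r (D.ch a)) (S.ζ (D.ch a)) :=
  S.sheets _ (D.okK a).1

theorem mem2 {p : ℂ × ℂ} (hp : p ∈ Fr_808.BD) : p ∈ AJ387.BD 2 2 :=
  ⟨lt_of_le_of_lt hp.1 one_lt_two, lt_of_le_of_lt hp.2 one_lt_two⟩

theorem yn_l2 (a : D.K) (v : II U → ℕ) :
    yn v (l2 L (D.ch a) (D.sh a)) = ex2 (fun i : D.I0 => v i) (D.e2 a) := by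
  cases h : D.e2 a with
  | none =>
    rw [D.e2_none h]
    rfl
  | some E =>
    rw [D.e2_some h]
    rfl

theorem finK : Finite D.K := by
  unfold K
  infer_instance

/-- **the frame** -/
def fr : Frame f :=
  letI : Fintype D.I0 := Fintype.ofFinite _
  { I := D.I0
    fI := inferInstance
    M := rM (Mx L) D.I0
    form := iform_rM (LabI_387.iform L) D.I0
    conn := conn_cls (LabI_387.iform L).symm D.E₀
    nu := fun i => nu i
    K := D.K
    fK := haveI := D.finK; Fintype.ofFinite _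
    th := D.th
    e1 := D.e1
    e2 := D.e2
    nu2 := fun a => m2 n1 n2 (D.ch a) (D.sh a)
    nu2_some := fun a i h => m2_eq D.jac (D.okK a) (D.e2_some h)
    nu2_none := fun a h => m2_le D.jac (D.okK a) (D.e2_none h)
    surj := fun i => by
      obtain ⟨c, hc, hV, j, hj⟩ := D.vert i
      let a : D.K := ⟨(⟨c, hc⟩, j), ⟨i, Or.inl hj, i.2⟩⟩
      refine ⟨a, ?_⟩
      have h1 := D.e1_spec a
      have h2 : l1 L (D.ch a) (D.sh a) = some (i : II U) := by
        show l1 L c j = some (i : II U)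
        rw [l1_not (not_top_of_V hV)]
        exact hj
      rw [h2] at h1
      exact Subtype.ext (Option.some.inj h1).symm
    an := fun a p hp => TB.thS_an (S.pos _) (D.sheetsK a) _ (mem2 hp)
    onV := fun a p hp => TB.thS_V (S.pos _) (D.sheetsK a) _ (mem2 hp)
    zero := fun a p hp => by
      have h1 := TB.thS_zero (S.pos _) (D.sheetsK a) (D.okK a).1 (D.sh a) (mem2 hp)
      have h2 : D.th a p = 0 ↔ p.1 = 0 ∨ (¬ T.NE (D.ch a) ∧ p.2 = 0) := h1
      rw [h2, ← D.e2_ne_iff a]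
      constructor
      · intro h; exact ⟨hp, h⟩
      · intro h; exact h.2
    cover := by
      obtain ⟨ρ, hρ, h⟩ := D.cover
      refine ⟨ρ, hρ, fun x hx hxρ hfx => ?_⟩
      obtain ⟨c, hc, j, hG, -, p, hp1, hp2, hp⟩ := h x hx hxρ hfx
      exact ⟨⟨(⟨c, hc⟩, j), hG⟩, p, ⟨hp1, hp2⟩, hp⟩
    mult := by
      classical
      have h1 : ∀ c : {c // c ∈ D.F}, ∃ n : ℕ, ∀ (j : Fin T.d) (x : Fin 3 → ℂ), x ≠ 0 →
          {p | p ∈ AJ387.BD 2 2 ∧ T.thS c.1 (S.r c.1) (S.ζ c.1 j) p = x}.encard ≤ n := fun c =>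
        T.thS_mult (D.ok _ c.2).1 (S.pos _) (S.sheets _ (D.ok _ c.2).1)
      choose n hn using h1
      refine ⟨∑ c, n c, fun a x hx => ?_⟩
      refine (Set.encard_le_encard ?_).trans ((hn a.1.1 (D.sh a) x hx).trans ?_)
      · rintro p ⟨hp, hpx⟩
        exact ⟨mem2 hp, hpx⟩
      · exact_mod_cast Finset.single_le_sum (f := n) (fun _ _ => Nat.zero_le _)
          (Finset.mem_univ a.1.1)
    jac := fun a p₀ hp₀ => by
      obtain ⟨V, hV, hV0, h⟩ := jac_thS D.hf D.jac (D.okK a) (D.sh a)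
      have hp2 := mem2 hp₀.1
      refine ⟨V, hV p₀ hp2, hV0 p₀ hp2, ?_⟩
      have hopen : IsOpen (AJ387.BD (2 : ℝ) 2) := isOpen_BD 2 2
      filter_upwards [hopen.mem_nhds hp2] with p hp h1 h2
      have h3 := h p hp h1 h2
      rw [m1_eq D.jac (D.okK a) (D.e1_spec a)] at h3
      exact h3
    ord := fun g hg hne => by
      obtain ⟨v, hv, h⟩ := ord_thS D.ord hg hne
      have hdg : ∀ i : D.I0, dg (rM (Mx L) D.I0) (fun j => ((v j : ℕ) : ℝ)) i =
          dg (Mx L) (fun j => (v j : ℝ)) i := fun i =>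
        dg_rM (A := D.I0) (fun _ h1 _ h2 => cls_step h1 h2) (fun j => (v j : ℝ)) i
      refine ⟨fun i => v i, fun i => ?_, fun a p₀ hp₀ => ?_⟩
      · rw [hdg]; exact hv i
      · have hin : InSF L (D.ch a) (D.sh a) p₀ := by
          refine ⟨hp₀.1.1, hp₀.1.2, ?_⟩
          rcases hp₀.2 with h1 | ⟨h1, h2⟩
          · exact Or.inl h1
          · exact Or.inr ⟨fun h3 => h1 ((D.e2_none_iff a).2 h3), h2⟩
        obtain ⟨G, hG, hev, h3, h4⟩ := h (D.ch a) (D.okK a) (D.sh a) p₀ hin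
        refine ⟨G, hG, ?_, ?_, ?_⟩
        · filter_upwards [hev] with p hp
          rw [D.e1_spec a, D.yn_l2 a v] at hp
          exact hp
        · intro hp1
          obtain ⟨h5, h6⟩ := h3 hp1 _ (D.e1_spec a)
          refine ⟨h5, fun hd => h6 ?_⟩
          rw [hdg] at hd
          exact hd
        · intro i hi hp2
          obtain ⟨h5, h6⟩ := h4 hp2 _ (D.e2_some hi)
          refine ⟨h5, fun hd => h6 ?_⟩
          rw [hdg] at hd
          exact hd }

/-! ### access -/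









theorem fr_dg (x : II U → ℝ) (i : D.I0) :
    dg D.fr.M (fun j : D.I0 => x j) i = dg (Mx L) x i := by
  letI : Fintype D.I0 := Fintype.ofFinite _
  exact dg_rM (A := D.I0) (fun _ h1 _ h2 => cls_step h1 h2) x i

/-- the element of `K` for a sheet with a label in `I0` -/
def mkK {c : Ch T.m} (hc : c ∈ D.F) (j : Fin T.d) {E : II U}
    (hE : L.e1 c j = some E ∨ L.e2 c j = some E) (h : E ∈ D.I0) : D.K :=
  ⟨(⟨c, hc⟩, j), ⟨E, hE, h⟩⟩

theorem e1_of {a : D.K} {E : II U} (h : l1 L (D.ch a) (D.sh a) = some E) :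
    ((D.e1 a : D.I0) : II U) = E := by
  have h1 := D.e1_spec a
  rw [h] at h1
  exact (Option.some.inj h1).symm

theorem e2_of {a : D.K} {E : II U} (h : l2 L (D.ch a) (D.sh a) = some E) (hE : E ∈ D.I0) :
    D.e2 a = some ⟨E, hE⟩ := toI_some h hE

end FrIn

end Crest.Agent.R257.FrBP_808
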