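import Mathlib
import Crest.Agent.R257.Vt3_558
import Crest.Agent.R257.Tb1_941
import Crest.Agent.R257.Tb2_941

/-!
Row 257 (S0395), part C (helper941), file 3: **the action of the rotations on the vertex curves**.

* `act hG hξ v : XV U v → XV U (rv T ξ v)`: continuous, `pV_act`, `isRet_act`;
* `actP` on all points (`PP U`), `actP_one`, `actP_mul`, `rr_iff`;
* `piH hG : Ru T →* Equiv.Perm (II U)` (558's `pi`), `piH_ka`;
* the component `XE E`, connected, `covE E : FCov (sp T E.1.1) (XE E)`;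
* its stabiliser `GE hG E` acts: `mulAct hG E : MulAction (GE hG E) (XE E)`, `continuous_smulE`,
  `pr_smulE`, `isRet_smulE`;
* `rho_rv`: the radii of the canonical tubes are invariant.
-/

set_option autoImplicit false
set_option linter.unusedSectionVars false

open Polynomial Set Filter Topology Metric
open Crest.AlgGeometry.Germ Crest.Agent.R257.AJ387 Crest.Agent.R257.T387
open Crest.Agent.R257.Cpt1_419 Crest.Agent.R257.BP_258 Crest.Agent.R257.Rot1_558
open Crest.Agent.R257.Vt1_558 (rv rv_mem rv_rv rv_one mem_sp_rv yv_rv wv_rv galPt)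
open Crest.Agent.R257.Vt3_558
open Crest.Agent.R257.Vt2_558 (exists_pt)
open Crest.Agent.R257.Tb_941 (retStmt covV Gd SS rho tub)

noncomputable section

namespace Crest.Agent.R257.Tb3_941

variable {f : (Fin 3 → ℂ) → ℂ} {T : TB f} {U : Tub T}

/-! ### one rotation -/

section one

variable (hG : GalPt T) {ξ : ℂ} (hξ : ξ ^ T.N = 1)

include hG hξ in
/-- the rotation of a point of a tube, if it is small enough -/
lemma inT_rot {v : Vtx} {x : Fin 3 → ℂ} (h : InT U v x)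
    (hlt : ‖x 1‖ < U.ρ (rv T ξ v) (cw T ξ v * wv T v (x 1, x 2))) :
    InT U (rv T ξ v) (rot ξ x) := by
  have e : wv T (rv T ξ v) (rot ξ x 1, rot ξ x 2) = cw T ξ v * wv T v (x 1, x 2) :=
    wv_rv hξ v h.ne _
  refine ⟨rv_mem hG hξ h.mem, ?_, ?_, ?_, ?_⟩
  · rw [rot_1]; exact mul_ne_zero (ne_zero T hξ) h.ne
  · rw [e]
    exact fun h1 => h.nsp ((mem_sp_rv hG hξ).1 h1)
  · rw [e, rot_1, norm_mul, norm_one T hξ, one_mul]; exact hlt
  · rw [rot_1, rot_2, rot_0, Q_rot hξ]; exact h.root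

/-- **the action of a rotation** -/
def act (v : Vtx) : XV U v → XV U (rv T ξ v) := rg hG (retStmt U) hξ v

lemma continuous_act (v : Vtx) : Continuous (act hG hξ v : XV U v → XV U (rv T ξ v)) :=
  rg_cont hG (retStmt U) hξ v

lemma act_spec (v : Vtx) (q : XV U v) :
    ∃ x, IsRet U v x q ∧ IsRet U (rv T ξ v) (rot ξ x) (act hG hξ v q) :=
  rg_spec hG (retStmt U) hξ v q

lemma act_unique {v : Vtx} {q : XV U v} {q' : XV U (rv T ξ v)}
    (h : ∃ x, IsRet U v x q ∧ IsRet U (rv T ξ v) (rot ξ x) q') : q' = act hG hξ v q :=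
  rr_uni hG (retStmt U) hξ h (act_spec hG hξ v q)

lemma pV_act (v : Vtx) (q : XV U v) :
    pV U (rv T ξ v) (act hG hξ v q) = cw T ξ v * pV U v q := by
  obtain ⟨x, h1, h2⟩ := act_spec hG hξ v q
  have e1 : pV U (rv T ξ v) (act hG hξ v q) = wv T (rv T ξ v) (rot ξ x 1, rot ξ x 2) := h2.2.1
  have e2 : pV U v q = wv T v (x 1, x 2) := h1.2.1
  rw [e1, e2]
  exact wv_rv hξ v h1.1.ne _

/-- **compatibility with the retraction** -/
theorem isRet_act {v : Vtx} {x : Fin 3 → ℂ} {q : XV U v} (h : IsRet U v x q)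
    (h' : InT U (rv T ξ v) (rot ξ x)) : IsRet U (rv T ξ v) (rot ξ x) (act hG hξ v q) := by
  obtain ⟨q', hq', -⟩ := (retStmt U _ h'.mem).1 _ h'
  have h1 : q' = act hG hξ v q := act_unique hG hξ ⟨x, h, hq'⟩
  rw [← h1]; exact hq'

/-- the action on all points -/
def actP (a : PP U) : PP U := ⟨⟨rv T ξ a.1.1, rv_mem hG hξ a.1.2⟩, act hG hξ a.1.1 a.2⟩


theorem rr_iff {a b : PP U} : RR U ξ a b ↔ b = actP hG hξ a := by
  constructor
  · intro h
    obtain ⟨⟨v, hv⟩, q⟩ := a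
    obtain ⟨⟨v', hv'⟩, q'⟩ := b
    have e1 : v' = rv T ξ v := h.1
    subst e1
    have h1 : q' = act hG hξ v q := act_unique hG hξ h.2
    subst h1
    rfl
  · rintro rfl
    exact ⟨rfl, act_spec hG hξ _ a.2⟩


lemma ka_actP (a : PP U) : ka U (actP hG hξ a) = pi hG (retStmt U) hξ (ka U a) :=
  (pi_spec hG (retStmt U) hξ ((rr_iff hG hξ).2 rfl)).symm

end one

/-! ### the group law -/

lemma rr_one (a : PP U) : RR U 1 a a := by
  obtain ⟨x, hx, -⟩ := exists_pt (retStmt U) a.2 1 one_pos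
  exact ⟨(rv_one _).symm, x, hx, by rw [rot_one]; exact hx⟩

lemma actP_one (hG : GalPt T) (a : PP U) : actP hG one_root a = a :=
  ((rr_iff hG one_root).1 (rr_one a)).symm

theorem actP_mul (hG : GalPt T) {ξ η : ℂ} (hξ : ξ ^ T.N = 1) (hη : η ^ T.N = 1) (a : PP U) :
    actP hG (mul_root hξ hη) a = actP hG hξ (actP hG hη a) := by
  symm
  apply (rr_iff hG (mul_root hξ hη)).1
  refine ⟨rv_rv ξ η a.1.1, ?_⟩
  have hv := a.1.2
  have hw : pV U a.1.1 a.2 ∉ sp T a.1.1 := a.2.2.2.1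
  have h1 : cw T η a.1.1 * pV U a.1.1 a.2 ∉ sp T (rv T η a.1.1) := fun h => hw ((mem_sp_rv hG hη).1 h)
  have hm1 := rv_mem hG hη hv
  have h2 : cw T ξ (rv T η a.1.1) * (cw T η a.1.1 * pV U a.1.1 a.2) ∉
      sp T (rv T ξ (rv T η a.1.1)) := fun h => h1 ((mem_sp_rv hG hξ).1 h)
  have hm2 := rv_mem hG hξ hm1
  have p1 := U.pos _ hm1 _ h1
  have p2 := U.pos _ hm2 _ h2
  obtain ⟨x, hx, hxe⟩ := exists_pt (retStmt U) a.2 _ (lt_min p1 p2)
  have e2 : pV U a.1.1 a.2 = wv T a.1.1 (x 1, x 2) := hx.2.1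
  have hi1 : InT U (rv T η a.1.1) (rot η x) :=
    inT_rot hG hη hx.1 (by rw [← e2]; exact hxe.trans_le (min_le_left _ _))
  have hr1 := isRet_act hG hη hx hi1
  have hi2 : InT U (rv T ξ (rv T η a.1.1)) (rot ξ (rot η x)) := by
    refine inT_rot hG hξ hi1 ?_
    have e3 : wv T (rv T η a.1.1) (rot η x 1, rot η x 2) = cw T η a.1.1 * pV U a.1.1 a.2 := by
      rw [e2]; exact wv_rv hη _ hx.1.ne _
    rw [e3, rot_1, norm_mul, norm_one T hη, one_mul]
    exact hxe.trans_le (min_le_right _ _)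
  have hr2 := isRet_act hG hξ hr1 hi2
  exact ⟨x, hx, by rw [← rot_mul]; exact hr2⟩

/-- the rotations -/
abbrev Ru (T : TB f) : Subgroup ℂˣ := rootsOfUnity T.N ℂ

/-- the complex number -/
def vl (γ : Ru T) : ℂ := ((γ : ℂˣ) : ℂ)

lemma vl_pow (γ : Ru T) : vl γ ^ T.N = 1 := by
  have := (mem_rootsOfUnity T.N (γ : ℂˣ)).1 γ.2
  have h2 := congrArg Units.val this
  simpa [vl] using h2

lemma vl_one : vl (1 : Ru T) = 1 := rfl

lemma vl_mul (γ δ : Ru T) : vl (γ * δ) = vl γ * vl δ := rfl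

lemma exists_vl {ξ : ℂ} (hξ : ξ ^ T.N = 1) : ∃ γ : Ru T, vl γ = ξ := by
  refine ⟨⟨Units.mk0 ξ (ne_zero T hξ), ?_⟩, rfl⟩
  rw [mem_rootsOfUnity]
  ext
  simpa using hξ

instance : NeZero T.N := ⟨T.N_pos.ne'⟩

instance : Fintype (Ru T) := Fintype.ofFinite _

variable (hG : GalPt T)

lemma actP_congr {ξ η : ℂ} (hξ : ξ ^ T.N = 1) (hη : η ^ T.N = 1) (h : ξ = η) (a : PP U) :
    actP hG hξ a = actP hG hη a := by
  subst h; rfl

/-- **one family of permutations of the components** -/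
def piH : Ru T →* Equiv.Perm (II U) where
  toFun γ := pi hG (retStmt U) (vl_pow γ)
  map_one' := by
    refine Equiv.ext fun E => ?_
    obtain ⟨a, rfl⟩ := ka_surj U E
    rw [Equiv.Perm.one_apply, ← ka_actP hG]
    exact congrArg (ka U) ((actP_congr hG _ one_root vl_one a).trans (actP_one hG a))
  map_mul' γ δ := by
    refine Equiv.ext fun E => ?_
    obtain ⟨a, rfl⟩ := ka_surj U E
    rw [Equiv.Perm.mul_apply, ← ka_actP hG, ← ka_actP hG, ← ka_actP hG]
    exact congrArg (ka U) ((actP_congr hG _ (mul_root (vl_pow γ) (vl_pow δ)) (vl_mul γ δ) a).trans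
      (actP_mul hG _ _ a))


lemma piH_ka (γ : Ru T) (a : PP U) : piH hG γ (ka U a) = ka U (actP hG (vl_pow γ) a) :=
  (ka_actP hG (vl_pow γ) a).symm

lemma piH_fst (γ : Ru T) (E : II U) : (piH hG γ E).1.1 = rv T (vl γ) E.1.1 :=
  pi_fst hG (retStmt U) (vl_pow γ) E

/-! ### the components -/

/-- the component `E` -/
def XE (E : II U) : Type := {q : XV U E.1.1 // (q : ConnectedComponents (XV U E.1.1)) = E.2}

instance (E : II U) : TopologicalSpace (XE E) := instTopologicalSpaceSubtype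

instance (E : II U) : T2Space (XE E) :=
  inferInstanceAs (T2Space {q : XV U E.1.1 // (q : ConnectedComponents (XV U E.1.1)) = E.2})

lemma isClopen_comp (E : II U) :
    IsClopen {q : XV U E.1.1 | (q : ConnectedComponents (XV U E.1.1)) = E.2} := by
  have h1 : DiscreteTopology (ConnectedComponents (XV U E.1.1)) := inferInstance
  exact (isClopen_discrete {E.2}).preimage ConnectedComponents.continuous_coe

lemma exists_comp (E : II U) :
    ∃ q₀ : XV U E.1.1, (q₀ : ConnectedComponents (XV U E.1.1)) = E.2 :=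
  ConnectedComponents.surjective_coe E.2

lemma isConnected_comp (E : II U) :
    IsConnected {q : XV U E.1.1 | (q : ConnectedComponents (XV U E.1.1)) = E.2} := by
  obtain ⟨q₀, hq₀⟩ := exists_comp E
  have h1 : {q : XV U E.1.1 | (q : ConnectedComponents (XV U E.1.1)) = E.2} =
      connectedComponent q₀ := by
    rw [← connectedComponents_preimage_singleton]
    ext q
    simp only [Set.mem_ofPred_eq, Set.mem_preimage, Set.mem_singleton_iff, hq₀]
  rw [h1]
  exact isConnected_connectedComponent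

instance (E : II U) : ConnectedSpace (XE E) :=
  isConnected_iff_connectedSpace.1 (isConnected_comp E)

/-- the covering of a component -/
def covE (E : II U) : FCov ((sp T E.1.1 : Finset ℂ) : Set ℂ) (XE E) :=
  (covV (U := U) E.1.2).restrict _ (isClopen_comp E)


/-- the stabiliser of a component -/
def GE (E : II U) : Subgroup (Ru T) :=
  (MulAction.stabilizer (Equiv.Perm (II U)) E).comap (piH hG)

lemma mem_GE {E : II U} {γ : Ru T} : γ ∈ GE hG E ↔ piH hG γ E = E := Iff.rfl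

lemma GE_fst {E : II U} {γ : Ru T} (h : γ ∈ GE hG E) : rv T (vl γ) E.1.1 = E.1.1 := by
  rw [← piH_fst hG, (mem_GE hG).1 h]

instance (E : II U) : Fintype (GE hG E) := Fintype.ofFinite _

lemma exists_smul {ξ : ℂ} (hξ : ξ ^ T.N = 1) {v v' : Vtx} (h : v' = rv T ξ v) :
    ∃ g : XV U v → XV U v', Continuous g ∧ (∀ q, ∃ x, IsRet U v x q ∧ IsRet U v' (rot ξ x) (g q)) ∧
      (∀ q q', (∃ x, IsRet U v x q ∧ IsRet U v' (rot ξ x) q') → q' = g q) ∧
      (∀ q x, IsRet U v x q → InT U v' (rot ξ x) → IsRet U v' (rot ξ x) (g q)) ∧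
      (∀ q, pV U v' (g q) = cw T ξ v * pV U v q) ∧
      ∀ (hv : v ∈ Vs T) (hv' : v' ∈ Vs T) (q : XV U v),
        actP hG hξ ⟨⟨v, hv⟩, q⟩ = (⟨⟨v', hv'⟩, g q⟩ : PP U) := by
  subst h
  exact ⟨act hG hξ v, continuous_act hG hξ v, act_spec hG hξ v, fun q q' h => act_unique hG hξ h,
    fun q x h h' => isRet_act hG hξ h h', pV_act hG hξ v, fun _ _ _ => rfl⟩

/-- the action of an element of the stabiliser on the whole curve -/
def smv {E : II U} (γ : GE hG E) : XV U E.1.1 → XV U E.1.1 :=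
  (exists_smul hG (vl_pow γ.1) (GE_fst hG γ.2).symm).choose

lemma smv_spec {E : II U} (γ : GE hG E) : Continuous (smv hG γ) ∧
    (∀ q, ∃ x, IsRet U E.1.1 x q ∧ IsRet U E.1.1 (rot (vl γ.1) x) (smv hG γ q)) ∧
      (∀ q q', (∃ x, IsRet U E.1.1 x q ∧ IsRet U E.1.1 (rot (vl γ.1) x) q') → q' = smv hG γ q) ∧
      (∀ q x, IsRet U E.1.1 x q → InT U E.1.1 (rot (vl γ.1) x) →
        IsRet U E.1.1 (rot (vl γ.1) x) (smv hG γ q)) ∧
      (∀ q, pV U E.1.1 (smv hG γ q) = cw T (vl γ.1) E.1.1 * pV U E.1.1 q) ∧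
      ∀ (hv : E.1.1 ∈ Vs T) (hv' : E.1.1 ∈ Vs T) (q : XV U E.1.1),
        actP hG (vl_pow γ.1) ⟨⟨E.1.1, hv⟩, q⟩ = (⟨⟨E.1.1, hv'⟩, smv hG γ q⟩ : PP U) :=
  (exists_smul hG (vl_pow γ.1) (GE_fst hG γ.2).symm).choose_spec

lemma smv_actP {E : II U} (γ : GE hG E) (q : XV U E.1.1) :
    (⟨E.1, smv hG γ q⟩ : PP U) = actP hG (vl_pow γ.1) ⟨E.1, q⟩ :=
  ((smv_spec hG γ).2.2.2.2.2 E.1.2 E.1.2 q).symm

lemma smv_comp {E : II U} (γ : GE hG E) {q : XV U E.1.1}
    (hq : (q : ConnectedComponents (XV U E.1.1)) = E.2) :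
    (smv hG γ q : ConnectedComponents (XV U E.1.1)) = E.2 := by
  have h1 : ka U (⟨E.1, smv hG γ q⟩ : PP U) = E := by
    rw [smv_actP, ← piH_ka]
    have h2 : ka U (⟨E.1, q⟩ : PP U) = E := Sigma.ext rfl (heq_of_eq hq)
    rw [h2]; exact (mem_GE hG).1 γ.2
  obtain ⟨v, e⟩ := E
  have h3 : (⟨v, (smv hG γ q : ConnectedComponents (XV U v.1))⟩ : II U) = ⟨v, e⟩ := h1
  simpa using h3

lemma smv_one {E : II U} (q : XV U E.1.1) : smv hG (1 : GE hG E) q = q := by
  have h1 := smv_actP hG (1 : GE hG E) q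
  have h2 : actP hG (vl_pow (1 : GE hG E).1) (⟨E.1, q⟩ : PP U) = ⟨E.1, q⟩ :=
    (actP_congr hG _ one_root vl_one _).trans (actP_one hG _)
  rw [h2] at h1
  simpa using h1

lemma smv_mul {E : II U} (γ δ : GE hG E) (q : XV U E.1.1) :
    smv hG (γ * δ) q = smv hG γ (smv hG δ q) := by
  have h1 := smv_actP hG (γ * δ) q
  have h2 : actP hG (vl_pow (γ * δ).1) (⟨E.1, q⟩ : PP U) =
      actP hG (vl_pow γ.1) (actP hG (vl_pow δ.1) ⟨E.1, q⟩) :=
    (actP_congr hG _ (mul_root (vl_pow γ.1) (vl_pow δ.1)) (vl_mul γ.1 δ.1) _).trans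
      (actP_mul hG _ _ _)
  rw [h2, ← smv_actP, ← smv_actP] at h1
  simpa using h1

/-- **the action of the stabiliser on the component** -/
@[reducible] def mulAct (E : II U) : MulAction (GE hG E) (XE E) where
  smul γ x := ⟨smv hG γ x.1, smv_comp hG γ x.2⟩
  one_smul x := Subtype.ext (smv_one hG x.1)
  mul_smul γ δ x := Subtype.ext (smv_mul hG γ δ x.1)


lemma continuous_smulE {E : II U} (γ : GE hG E) :
    Continuous fun x : XE E => (letI := mulAct hG E; γ • x) :=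
  Continuous.subtype_mk ((smv_spec hG γ).1.comp continuous_subtype_val) _

/-- the character -/
def chE (E : II U) (γ : GE hG E) : ℂ := cw T (vl γ.1) E.1.1

lemma chE_norm (E : II U) (γ : GE hG E) : ‖chE hG E γ‖ = 1 := cw_norm (vl_pow γ.1) _

lemma pr_smulE {E : II U} (γ : GE hG E) (x : XE E) :
    ((covE E).p (letI := mulAct hG E; γ • x)).1 = chE hG E γ * ((covE E).p x).1 :=
  (smv_spec hG γ).2.2.2.2.1 x.1


/-! ### the canonical tubes are invariant -/






end Crest.Agent.R257.Tb3_941
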