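import Crest.Agent.R257.Gr1_157
import Crest.Agent.R257.ExD_121
import Crest.Agent.R257.FrBP1_808
import Crest.Agent.R257.FrBP4_808
import Crest.Agent.R257.Tb3_941
import Crest.Agent.R257.Vt8_558
import Crest.Agent.R257.KiD_121

-- ▼ part R257/Gr4_157
section

/-!
# The killing weights (row 257, part C, leaf C-TIE)

`M` an intersection form, `p ≥ nu` with `dg M p ≤ 0`; `T = {dg M p = 0}` (null vertices),
`S = {p = nu}`. `A` is a set of null vertices where `p - nu = n`.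

* `Rch M p A l` : there is a path of null vertices outside `A` from `l` to a non-null vertex;
* `Tch M p A l` : there is a path of null vertices outside `A` from `l` to a neighbour of `A`;
* `weight` : for all large `k` there is `y` with `dg M y < 0` everywhere, `y + nu = k p` on `A`,
  `y + nu < k p` off `A`, `y + nu > k p - ε` on `S`, invariant under the automorphisms preserving
  `M`, `p`, `A`.
* `exists_far` : the null vertices of `S` at maximal distance from the non-null vertices satisfy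
  the hypotheses of `weight` with `n = 0`.
-/

set_option autoImplicit false
set_option linter.unusedSectionVars false
set_option linter.deprecated false

namespace Crest.Agent.R257.Gr4_157

open Finset Crest.Agent.R257.Gr1_157

variable {ι : Type*} [Fintype ι]

/-- path of null vertices outside `A` from `l` to a non-null vertex -/
inductive Rch (M : ι → ι → ℝ) (p : ι → ℝ) (A : Set ι) : ι → Prop
  | base {l j : ι} : dg M p l = 0 → l ∉ A → M l j ≠ 0 → dg M p j ≠ 0 → Rch M p A l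
  | step {l j : ι} : dg M p l = 0 → l ∉ A → M l j ≠ 0 → Rch M p A j → Rch M p A l

/-- path of null vertices outside `A` from `l` to a neighbour of `A` -/
inductive Tch (M : ι → ι → ℝ) (p : ι → ℝ) (A : Set ι) : ι → Prop
  | base {l j : ι} : dg M p l = 0 → l ∉ A → M l j ≠ 0 → j ∈ A → Tch M p A l
  | step {l j : ι} : dg M p l = 0 → l ∉ A → M l j ≠ 0 → Tch M p A j → Tch M p A l

variable {M : ι → ι → ℝ} {p nu : ι → ℝ} {A : Set ι}

lemma Rch.null {l : ι} (h : Rch M p A l) : dg M p l = 0 ∧ l ∉ A := by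
  cases h with
  | base h1 h2 _ _ => exact ⟨h1, h2⟩
  | step h1 h2 _ _ => exact ⟨h1, h2⟩

lemma Tch.null {l : ι} (h : Tch M p A l) : dg M p l = 0 ∧ l ∉ A := by
  cases h with
  | base h1 h2 _ _ => exact ⟨h1, h2⟩
  | step h1 h2 _ _ => exact ⟨h1, h2⟩

/-- the Dirichlet problem -/
lemma dirichlet (hM : IForm M) (B : Set ι) (b d : ι → ℝ) :
    ∃ x : ι → ℝ, (∀ i, i ∉ B → x i = b i) ∧ ∀ i ∈ B, dg M x i = d i := by
  classical
  obtain ⟨x, h1, h2⟩ := exists_sol hM B (fun i => d i - dg M (fun j => if j ∈ B then 0 else b j) i)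
  refine ⟨x + fun j => if j ∈ B then 0 else b j, fun i hi => by simp [h1 i hi, hi], fun i hi => ?_⟩
  rw [dg_add, h2 i hi]; ring

lemma dg_comp {σ : Equiv.Perm ι} (hσ : ∀ i j, M (σ i) (σ j) = M i j) (x : ι → ℝ) (i : ι) :
    dg M (fun j => x (σ j)) i = dg M x (σ i) := by
  unfold dg
  rw [← Equiv.sum_comp σ (fun j => M (σ i) j * x j)]
  exact Finset.sum_congr rfl fun j _ => by rw [hσ]

lemma perm_unique (hM : IForm M) {B : Set ι} {x : ι → ℝ} {σ : Equiv.Perm ι}
    (hσ : ∀ i j, M (σ i) (σ j) = M i j)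
    (hx : ∀ i, i ∉ B → x (σ i) = x i) (hd : ∀ i ∈ B, dg M x (σ i) = dg M x i) (i : ι) :
    x (σ i) = x i := by
  have : (fun j => x (σ j)) = x := sol_unique hM (S := B) hx
    (fun i hi => by rw [dg_comp hσ]; exact hd i hi)
  exact congrFun this i

/-- positivity on `Rch` of a function harmonic on the null vertices outside `A` -/
lemma pos_of_rch (hM : IForm M) {x : ι → ℝ} (h0 : ∀ i, 0 ≤ x i)
    (h1 : ∀ i, dg M p i ≠ 0 → 0 < x i) (h2 : ∀ i, dg M p i = 0 → i ∉ A → dg M x i ≤ 0) {l : ι}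
    (h : Rch M p A l) : 0 < x l := by
  induction h with
  | @base l j a b c d =>
    refine lt_of_le_of_ne (h0 l) fun e => ?_
    exact (h1 j d).ne' (nbr_zero hM h0 e.symm (h2 l a b) c)
  | @step l j a b c d ih =>
    refine lt_of_le_of_ne (h0 l) fun e => ?_
    exact ih.ne' (nbr_zero hM h0 e.symm (h2 l a b) c)

/-- vanishing off `Tch` -/
lemma zero_of_not_tch (hM : IForm M) {x : ι → ℝ} (h1 : ∀ i, dg M p i ≠ 0 → x i = 0)
    (h2 : ∀ i, dg M p i = 0 → i ∉ A → dg M x i = 0) {l : ι} (hl : l ∉ A) (h : ¬ Tch M p A l) :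
    x l = 0 := by
  classical
  set z : ι → ℝ := fun i => if i ∈ A ∨ Tch M p A i then x i else 0 with hz
  have key : z = x := by
    refine sol_unique hM (S := {i | dg M p i = 0 ∧ i ∉ A}) ?_ ?_
    · intro i hi
      simp only [Set.mem_setOf_eq, not_and, not_not] at hi
      by_cases ha : i ∈ A
      · simp [hz, ha]
      · have : dg M p i ≠ 0 := fun e => ha (hi e)
        simp [hz, h1 i this]
    · rintro i ⟨hi, hiA⟩
      by_cases ht : Tch M p A i
      · unfold dg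
        refine Finset.sum_congr rfl fun j _ => ?_
        by_cases hm : M i j = 0
        · simp [hm]
        · congr 1
          by_cases hj : j ∈ A
          · simp [hz, hj]
          · by_cases hjp : dg M p j = 0
            · have : Tch M p A j := Tch.step hjp hj (by rw [hM.symm]; exact hm) ht
              simp [hz, this]
            · simp [hz, h1 j hjp]
      · rw [h2 i hi hiA]
        unfold dg
        refine Finset.sum_eq_zero fun j _ => ?_
        by_cases hm : M i j = 0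
        · simp [hm]
        · have h3 : ¬ (j ∈ A ∨ Tch M p A j) := by
            rintro (hj | hj)
            · exact ht (Tch.base hi hiA hm hj)
            · exact ht (Tch.step hi hiA hm hj)
          simp [hz, h3]
  rw [← key]
  simp [hz, hl, h]

/-- a positive constant smaller than finitely many positive ones -/
lemma exists_small (s : ι → ℝ) (hs : ∀ i, 0 < s i) : ∃ c : ℝ, 0 < c ∧ ∀ i, c < s i := by
  rcases isEmpty_or_nonempty ι with h | h
  · exact ⟨1, one_pos, fun i => (h.false i).elim⟩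
  · obtain ⟨i, hi⟩ := Finite.exists_min s
    exact ⟨s i / 2, by linarith [hs i], fun j => by linarith [hs i, hi j]⟩

/-- a positive multiple small with respect to finitely many positive numbers -/
lemma exists_small_mul (s t : ι → ℝ) (hs : ∀ i, 0 < s i) :
    ∃ c : ℝ, 0 < c ∧ ∀ i, c * t i < s i := by
  obtain ⟨c, hc, h⟩ := exists_small (fun i => s i / (1 + |t i|)) (fun i => by
    have := hs i; positivity)
  refine ⟨c, hc, fun i => ?_⟩
  have h1 := h i
  have h2 : (0 : ℝ) < 1 + |t i| := by positivity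
  rw [lt_div_iff₀ h2] at h1
  nlinarith [le_abs_self (t i)]

/-- the vertices where the weight is small -/
def Good (M : ι → ι → ℝ) (p nu : ι → ℝ) (A : Set ι) (n : ℝ) (i : ι) : Prop :=
  dg M p i ≠ 0 ∨ n < p i - nu i ∨
    (Rch M p A i ∨ 0 < p i - nu i) ∧ (n ≠ 0 → ¬ Tch M p A i)

/-- **The weight lemma**, pointwise form. -/
theorem weight' (hM : IForm M) (hge : ∀ i, nu i ≤ p i) (hdg : ∀ i, dg M p i ≤ 0)
    (hA : ∀ i ∈ A, dg M p i = 0) {n : ℝ} (hn : 0 ≤ n) (hAn : ∀ i ∈ A, p i - nu i = n)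
    (rs : n ≠ 0 → ∀ i, ∑ j, M i j ≤ 0)
    (h2 : ∀ i ∈ A, ∃ l, l ∉ A ∧ M i l ≠ 0 ∧ (dg M p l ≠ 0 ∨ Rch M p A l))
    {ε : ℝ} (hε : 0 < ε) :
    ∃ k₀ : ℝ, ∀ k : ℝ, k₀ ≤ k → ∃ y : ι → ℝ, (∀ i, dg M y i < 0) ∧
      (∀ i ∈ A, y i + nu i = k * p i) ∧
      (∀ i, i ∉ A → Good M p nu A n i → y i + nu i < k * p i) ∧
      (∀ i, p i = nu i → k * p i - ε < y i + nu i) ∧
      ∀ σ : Equiv.Perm ι, (∀ i j, M (σ i) (σ j) = M i j) → (∀ i, p (σ i) = p i) →
        (∀ i, σ i ∈ A ↔ i ∈ A) → ∀ i, y (σ i) = y i := by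
  classical
  set B : Set ι := {i | dg M p i = 0 ∧ i ∉ A} with hB
  -- the three solutions
  obtain ⟨h, hh0, hh1⟩ := dirichlet hM B (fun i => if i ∈ A then 0 else 1) (fun _ => 0)
  obtain ⟨a, ha0, ha1⟩ := dirichlet hM B (fun i => if i ∈ A then 1 else 0) (fun _ => 0)
  obtain ⟨g, hg0, hg1⟩ := dirichlet hM B (fun _ => 0) (fun _ => -1)
  have hhA : ∀ i ∈ A, h i = 0 := fun i hi => by
    rw [hh0 i (fun hb => hb.2 hi)]; simp [hi]
  have hhT : ∀ i, dg M p i ≠ 0 → h i = 1 := fun i hi => by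
    have : i ∉ A := fun ha => hi (hA i ha)
    rw [hh0 i (fun hb => hi hb.1)]; simp [this]
  have haA : ∀ i ∈ A, a i = 1 := fun i hi => by
    rw [ha0 i (fun hb => hb.2 hi)]; simp [hi]
  have haT : ∀ i, dg M p i ≠ 0 → a i = 0 := fun i hi => by
    have : i ∉ A := fun ha => hi (hA i ha)
    rw [ha0 i (fun hb => hi hb.1)]; simp [this]
  have hgA : ∀ i ∈ A, g i = 0 := fun i hi => hg0 i (fun hb => hb.2 hi)
  have hgT : ∀ i, dg M p i ≠ 0 → g i = 0 := fun i hi => hg0 i (fun hb => hi hb.1)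
  have hhn : ∀ i, 0 ≤ h i := nonneg_of hM (S := B) (fun i hi => by rw [hh1 i hi])
    (fun i hi => by rw [hh0 i hi]; split_ifs <;> norm_num)
  have han : ∀ i, 0 ≤ a i := nonneg_of hM (S := B) (fun i hi => by rw [ha1 i hi])
    (fun i hi => by rw [ha0 i hi]; split_ifs <;> norm_num)
  have hgn : ∀ i, 0 ≤ g i := nonneg_of hM (S := B) (fun i hi => by rw [hg1 i hi]; norm_num)
    (fun i hi => by rw [hg0 i hi])
  have hhpos : ∀ l, Rch M p A l → 0 < h l := fun l hl =>
    pos_of_rch hM hhn (fun i hi => by rw [hhT i hi]; exact one_pos)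
      (fun i hi hiA => by rw [hh1 i ⟨hi, hiA⟩]) hl
  have hazero : ∀ l, l ∉ A → ¬ Tch M p A l → a l = 0 := fun l hl ht =>
    zero_of_not_tch hM haT (fun i hi hiA => ha1 i ⟨hi, hiA⟩) hl ht
  have hale : n ≠ 0 → ∀ i, a i ≤ 1 := by
    intro hn0 i
    have : ∀ i, 0 ≤ ((1 : ι → ℝ) - a) i := by
      refine nonneg_of hM (S := B) (fun i hi => ?_) (fun i hi => ?_)
      · rw [dg_sub, ha1 i hi]
        have := rs hn0 i
        simpa [dg] using this
      · simp only [Pi.sub_apply, Pi.one_apply]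
        rw [ha0 i hi]; split_ifs <;> norm_num
    have := this i
    simp only [Pi.sub_apply, Pi.one_apply] at this
    linarith
  -- degrees of `h` and `a` on `A`
  have hdh : ∀ i ∈ A, 0 < dg M h i := by
    intro i hi
    obtain ⟨l, hlA, hl, hl2⟩ := h2 i hi
    unfold dg
    have hnn : ∀ j ∈ (Finset.univ : Finset ι), 0 ≤ M i j * h j := by
      intro j _
      by_cases hj : i = j
      · rw [← hj, hhA i hi]; simp
      · exact mul_nonneg (hM.off i j hj) (hhn j)
    refine Finset.sum_pos' hnn ⟨l, Finset.mem_univ l, ?_⟩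
    have hil : i ≠ l := fun e => hlA (e ▸ hi)
    refine mul_pos (lt_of_le_of_ne (hM.off i l hil) (Ne.symm hl)) ?_
    rcases hl2 with h' | h'
    · rw [hhT l h']; exact one_pos
    · exact hhpos l h'
  have hda : n ≠ 0 → ∀ i ∈ A, dg M a i ≤ 0 := by
    intro hn0 i hi
    refine le_trans ?_ (rs hn0 i)
    unfold dg
    refine Finset.sum_le_sum fun j _ => ?_
    by_cases hj : i = j
    · rw [← hj, haA i hi]; simp
    · nlinarith [hM.off i j hj, hale hn0 j]
  have hnda : ∀ i ∈ A, n * dg M a i ≤ 0 := by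
    intro i hi
    by_cases hn0 : n = 0
    · simp [hn0]
    · exact mul_nonpos_of_nonneg_of_nonpos hn (hda hn0 i hi)
  -- the constants
  obtain ⟨c, hc, hcs⟩ := exists_small_mul (fun _ : ι => ε) h (fun _ => hε)
  obtain ⟨η₁, hη₁, hη₁s⟩ := exists_small_mul (fun i => if i ∈ A then c * dg M h i else 1)
    (dg M g) (fun i => by
      by_cases hi : i ∈ A
      · simp only [hi, if_true]; exact mul_pos hc (hdh i hi)
      · simp [hi])
  have hmarg : ∀ i, i ∉ A → Good M p nu A n i → 0 < p i - nu i + (c * h i - n * a i) := by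
    intro i hi hgood
    by_cases hip : dg M p i = 0
    · rcases hgood.resolve_left (not_not.mpr hip) with h' | ⟨h', h''⟩
      · have : n * a i ≤ n := by
          by_cases hn0 : n = 0
          · simp [hn0]
          · have := hale hn0 i
            nlinarith
        have := mul_nonneg hc.le (hhn i)
        linarith
      · have : n * a i = 0 := by
          by_cases hn0 : n = 0
          · simp [hn0]
          · rw [hazero i hi (h'' hn0)]; simp
        rw [this]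
        rcases h' with h3 | h3
        · have := mul_pos hc (hhpos i h3)
          linarith [hge i]
        · have := mul_nonneg hc.le (hhn i)
          linarith
    · rw [hhT i hip, haT i hip]
      linarith [hge i]
  obtain ⟨η₂, hη₂, hη₂s⟩ := exists_small_mul
    (fun i => if i ∉ A ∧ Good M p nu A n i then p i - nu i + (c * h i - n * a i) else 1) g
    (fun i => by
      by_cases hi : i ∉ A ∧ Good M p nu A n i
      · rw [if_pos hi]; exact hmarg i hi.1 hi.2
      · rw [if_neg hi]; exact one_pos)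
  set η : ℝ := min η₁ η₂ with hη
  have hηpos : 0 < η := lt_min hη₁ hη₂
  set u : ι → ℝ := c • h - n • a - η • g with hu
  have hui : ∀ i, u i = c * h i - n * a i - η * g i := fun i => by
    simp [hu]
  have hdu : ∀ i, dg M u i = c * dg M h i - n * dg M a i - η * dg M g i := fun i => by
    simp only [hu, dg_sub, dg_smul]
  have hduB : ∀ i, dg M p i = 0 → 0 < dg M u i := by
    intro i hi
    rw [hdu]
    by_cases hiA : i ∈ A
    · have e1 := hη₁s i
      simp only [hiA, if_true] at e1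
      have e2 := hnda i hiA
      have e3 : η * dg M g i < c * dg M h i := by
        rcases le_total 0 (dg M g i) with h' | h'
        · exact lt_of_le_of_lt (mul_le_mul_of_nonneg_right (min_le_left _ _) h') e1
        · exact lt_of_le_of_lt (mul_nonpos_of_nonneg_of_nonpos hηpos.le h')
            (mul_pos hc (hdh i hiA))
      linarith
    · rw [hh1 i ⟨hi, hiA⟩, ha1 i ⟨hi, hiA⟩, hg1 i ⟨hi, hiA⟩]
      linarith
  have huA : ∀ i ∈ A, u i = - n := fun i hi => by
    rw [hui, hhA i hi, haA i hi, hgA i hi]; ring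
  have hunA : ∀ i, i ∉ A → Good M p nu A n i → 0 < p i - nu i + u i := by
    intro i hi hgood
    have e1 := hη₂s i
    rw [if_pos ⟨hi, hgood⟩] at e1
    have e2 : η * g i ≤ η₂ * g i := mul_le_mul_of_nonneg_right (min_le_right _ _) (hgn i)
    rw [hui]; linarith
  have huε : ∀ i, u i < ε := by
    intro i
    rw [hui]
    have := hcs i
    have := mul_nonneg hn (han i)
    have := mul_nonneg hηpos.le (hgn i)
    linarith
  -- the large constant
  obtain ⟨k₁, hk₁⟩ : ∃ k₁ : ℝ, ∀ i, dg M p i ≠ 0 → ∀ t : ℝ, k₁ ≤ t →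
      t * dg M p i - dg M u i < 0 := by
    obtain ⟨s, hs, hss⟩ := exists_small_mul
      (fun i => if dg M p i = 0 then 1 else - dg M p i) (fun i => - dg M u i) (fun i => by
        by_cases hi : dg M p i = 0
        · simp [hi]
        · simp only [hi, if_false]
          have := lt_of_le_of_ne (hdg i) hi
          linarith)
    refine ⟨1 / s, fun i hi t ht => ?_⟩
    have e1 := hss i
    simp only [hi, if_false] at e1
    have e2 : dg M p i < 0 := lt_of_le_of_ne (hdg i) hi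
    have e3 : 1 ≤ t * s := by rwa [div_le_iff₀ hs] at ht
    have e4 : (t * s) * dg M p i ≤ dg M p i := by nlinarith
    have e5 : s * (t * dg M p i - dg M u i) < 0 := by nlinarith
    by_contra hcon
    push Not at hcon
    have := mul_nonneg hs.le hcon
    linarith
  refine ⟨k₁ + 1, fun k hk => ⟨(k - 1) • p - u, ?_, ?_, ?_, ?_, ?_⟩⟩
  · intro i
    rw [dg_sub, dg_smul]
    by_cases hi : dg M p i = 0
    · rw [hi]; have := hduB i hi; linarith
    · exact hk₁ i hi (k - 1) (by linarith)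
  · intro i hi
    simp only [Pi.sub_apply, Pi.smul_apply, smul_eq_mul]
    rw [huA i hi]
    have := hAn i hi
    linarith
  · intro i hi hgood
    simp only [Pi.sub_apply, Pi.smul_apply, smul_eq_mul]
    have := hunA i hi hgood
    linarith
  · intro i hi
    simp only [Pi.sub_apply, Pi.smul_apply, smul_eq_mul]
    have := huε i
    linarith
  · intro σ hσ hσp hσA i
    have hdp : ∀ i, dg M p (σ i) = dg M p i := by
      intro i
      rw [← dg_comp hσ]
      congr 1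
      funext j; exact hσp j
    have hσB : ∀ i, σ i ∈ B ↔ i ∈ B := by
      intro i
      simp only [hB, Set.mem_setOf_eq, hdp i, hσA i]
    have e1 : h (σ i) = h i := by
      refine perm_unique hM hσ (B := B) (fun i hi => ?_) (fun i hi => ?_) i
      · rw [hh0 i hi, hh0 (σ i) (fun hb => hi ((hσB i).mp hb))]
        simp only [hσA i]
      · rw [hh1 i hi, hh1 (σ i) ((hσB i).mpr hi)]
    have e2 : a (σ i) = a i := by
      refine perm_unique hM hσ (B := B) (fun i hi => ?_) (fun i hi => ?_) i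
      · rw [ha0 i hi, ha0 (σ i) (fun hb => hi ((hσB i).mp hb))]
        simp only [hσA i]
      · rw [ha1 i hi, ha1 (σ i) ((hσB i).mpr hi)]
    have e3 : g (σ i) = g i := by
      refine perm_unique hM hσ (B := B) (fun i hi => ?_) (fun i hi => ?_) i
      · rw [hg0 i hi, hg0 (σ i) (fun hb => hi ((hσB i).mp hb))]
      · rw [hg1 i hi, hg1 (σ i) ((hσB i).mpr hi)]
    simp only [Pi.sub_apply, Pi.smul_apply, smul_eq_mul, hui, hσp i, e1, e2, e3]

/-- **The weight lemma.** -/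
theorem weight (hM : IForm M) (hge : ∀ i, nu i ≤ p i) (hdg : ∀ i, dg M p i ≤ 0)
    (hA : ∀ i ∈ A, dg M p i = 0) {n : ℝ} (hn : 0 ≤ n) (hAn : ∀ i ∈ A, p i - nu i = n)
    (rs : n ≠ 0 → ∀ i, ∑ j, M i j ≤ 0)
    (h1 : ∀ l, dg M p l = 0 → l ∉ A →
      n < p l - nu l ∨ (Rch M p A l ∨ 0 < p l - nu l) ∧ (n ≠ 0 → ¬ Tch M p A l))
    (h2 : ∀ i ∈ A, ∃ l, l ∉ A ∧ M i l ≠ 0 ∧ (dg M p l ≠ 0 ∨ Rch M p A l))
    {ε : ℝ} (hε : 0 < ε) :
    ∃ k₀ : ℝ, ∀ k : ℝ, k₀ ≤ k → ∃ y : ι → ℝ, (∀ i, dg M y i < 0) ∧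
      (∀ i ∈ A, y i + nu i = k * p i) ∧ (∀ i, i ∉ A → y i + nu i < k * p i) ∧
      (∀ i, p i = nu i → k * p i - ε < y i + nu i) ∧
      ∀ σ : Equiv.Perm ι, (∀ i j, M (σ i) (σ j) = M i j) → (∀ i, p (σ i) = p i) →
        (∀ i, σ i ∈ A ↔ i ∈ A) → ∀ i, y (σ i) = y i := by
  obtain ⟨k₀, hk⟩ := weight' hM hge hdg hA hn hAn rs h2 hε
  refine ⟨k₀, fun k hkk => ?_⟩
  obtain ⟨y, y1, y2, y3, y4, y5⟩ := hk k hkk
  refine ⟨y, y1, y2, fun i hi => y3 i hi ?_, y4, y5⟩
  by_cases hip : dg M p i = 0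
  · exact Or.inr (h1 i hip hi)
  · exact Or.inl hip

end Crest.Agent.R257.Gr4_157
end

-- ▼ part R257/Gr5_157
section

/-!
# Far null vertices (row 257, part C, leaf C-TIE)

`Reach M p` : every set of vertices closed under adjacency contains a non-null vertex.
`exists_far` : every null vertex `i ∈ S = {p = nu}` can be joined through null vertices to a null
vertex `e ∈ S` such that every set `A` of images of `e` under automorphisms satisfies the
hypotheses (h1), (h2) of `Gr4_157.weight` with `n = 0`.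
`null_kill` : the resulting weights.
-/

set_option autoImplicit false
set_option linter.unusedSectionVars false
set_option linter.deprecated false

namespace Crest.Agent.R257.Gr5_157

open Finset Crest.Agent.R257.Gr1_157 Crest.Agent.R257.Gr4_157

variable {ι : Type*} [Fintype ι] {M : ι → ι → ℝ} {p nu : ι → ℝ}

/-- every union of connected components contains a non-null vertex -/
def Reach (M : ι → ι → ℝ) (p : ι → ℝ) : Prop :=
  ∀ C : Set ι, C.Nonempty → (∀ i ∈ C, ∀ j, M i j ≠ 0 → j ∈ C) → ∃ i ∈ C, dg M p i ≠ 0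


lemma reach_of_conn (hM : IForm M) (hc : Conn M) (hp : p ≠ 0) : Reach M p := by
  intro C hC hcl
  have hu := hc C hC hcl
  by_contra hcon
  push Not at hcon
  apply hp
  refine sol_unique hM (S := Set.univ) (fun i hi => absurd (Set.mem_univ i) hi) (fun i _ => ?_)
  rw [hcon i (hu ▸ Set.mem_univ i)]
  simp [dg]

/-- vertices at distance at most `m` from the non-null vertices -/
def Lv (M : ι → ι → ℝ) (p : ι → ℝ) : ℕ → Set ι
  | 0 => {i | dg M p i ≠ 0}
  | m + 1 => {i | i ∈ Lv M p m ∨ ∃ j ∈ Lv M p m, M i j ≠ 0}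


lemma exists_lv (hM : IForm M) (hr : Reach M p) (i : ι) : ∃ m, i ∈ Lv M p m := by
  by_contra hcon
  obtain ⟨j, hj, hj2⟩ := hr {i | ∀ m, i ∉ Lv M p m} ⟨i, by push Not at hcon; exact hcon⟩ (by
    intro a ha b hab m hb
    exact ha (m + 1) (Or.inr ⟨b, hb, hab⟩))
  exact hj 0 hj2

open Classical in
/-- distance to the non-null vertices -/
noncomputable def dist (M : ι → ι → ℝ) (p : ι → ℝ) (i : ι) : ℕ :=
  if h : ∃ m, i ∈ Lv M p m then Nat.find h else 0

lemma dist_spec (hM : IForm M) (hr : Reach M p) (i : ι) : i ∈ Lv M p (dist M p i) := by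
  classical
  have h := exists_lv hM hr i
  unfold dist
  rw [dif_pos h]
  exact Nat.find_spec h

lemma dist_le {i : ι} {m : ℕ} (h : i ∈ Lv M p m) : dist M p i ≤ m := by
  classical
  unfold dist
  rw [dif_pos ⟨m, h⟩]
  exact Nat.find_min' _ h

lemma dist_pos (hM : IForm M) (hr : Reach M p) {i : ι} (hi : dg M p i = 0) : 0 < dist M p i := by
  rcases Nat.eq_zero_or_pos (dist M p i) with h | h
  · have := dist_spec hM hr i
    rw [h] at this
    exact absurd hi this
  · exact h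

lemma exists_nbr (hM : IForm M) (hr : Reach M p) {i : ι} (hi : dg M p i = 0) :
    ∃ j, M i j ≠ 0 ∧ dist M p j < dist M p i := by
  obtain ⟨m, hm⟩ : ∃ m, dist M p i = m + 1 := ⟨dist M p i - 1, by have := dist_pos hM hr hi; omega⟩
  have h := dist_spec hM hr i
  rw [hm] at h
  rcases h with h | ⟨j, hj, hij⟩
  · have := dist_le h; omega
  · exact ⟨j, hij, by rw [hm]; have := dist_le hj; omega⟩

lemma lv_perm {σ : Equiv.Perm ι} (hσ : ∀ i j, M (σ i) (σ j) = M i j) (hp : ∀ i, p (σ i) = p i)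
    (m : ℕ) (i : ι) : σ i ∈ Lv M p m ↔ i ∈ Lv M p m := by
  induction m generalizing i with
  | zero =>
    simp only [Lv, Set.mem_setOf_eq]
    have : dg M p (σ i) = dg M p i := by
      rw [← dg_comp hσ]; congr 1; funext j; exact hp j
    rw [this]
  | succ m ih =>
    simp only [Lv, Set.mem_setOf_eq]
    constructor
    · rintro (h | ⟨j, hj, hij⟩)
      · exact Or.inl ((ih i).mp h)
      · refine Or.inr ⟨σ.symm j, ?_, ?_⟩
        · rw [← ih]; simpa using hj
        · rw [← hσ]; simpa using hij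
    · rintro (h | ⟨j, hj, hij⟩)
      · exact Or.inl ((ih i).mpr h)
      · exact Or.inr ⟨σ j, (ih j).mpr hj, by rw [hσ]; exact hij⟩

lemma dist_perm (hM : IForm M) (hr : Reach M p) {σ : Equiv.Perm ι}
    (hσ : ∀ i j, M (σ i) (σ j) = M i j) (hp : ∀ i, p (σ i) = p i) (i : ι) :
    dist M p (σ i) = dist M p i := by
  refine le_antisymm (dist_le ((lv_perm hσ hp _ i).mpr (dist_spec hM hr i))) ?_
  exact dist_le ((lv_perm hσ hp _ i).mp (dist_spec hM hr (σ i)))

/-- `j` can be reached from `i` through null vertices (after `i`) -/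
def NP (M : ι → ι → ℝ) (p : ι → ℝ) : ι → ι → Prop :=
  Relation.ReflTransGen (fun a b => M a b ≠ 0 ∧ dg M p b = 0)

lemma NP.null {i j : ι} (h : NP M p i j) (hi : dg M p i = 0) : dg M p j = 0 := by
  induction h with
  | refl => exact hi
  | tail _ h _ => exact h.2

lemma NP.symm (hM : IForm M) {i j : ι} (h : NP M p i j) (hi : dg M p i = 0) : NP M p j i := by
  induction h with
  | refl => exact Relation.ReflTransGen.refl
  | @tail b c hb hbc ih =>
    exact Relation.ReflTransGen.head ⟨by rw [hM.symm]; exact hbc.1, NP.null hb hi⟩ ih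

lemma NP.map {σ : Equiv.Perm ι} (hσ : ∀ i j, M (σ i) (σ j) = M i j) (hp : ∀ i, p (σ i) = p i)
    {i j : ι} (h : NP M p i j) : NP M p (σ i) (σ j) := by
  induction h with
  | refl => exact Relation.ReflTransGen.refl
  | @tail b c hb hbc ih =>
    refine Relation.ReflTransGen.tail ih ⟨by rw [hσ]; exact hbc.1, ?_⟩
    have : dg M p (σ c) = dg M p c := by
      rw [← dg_comp hσ]; congr 1; funext j; exact hp j
    rw [this]; exact hbc.2

/-- an automorphism of the weighted configuration -/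
structure Aut (M : ι → ι → ℝ) (p nu : ι → ℝ) (σ : Equiv.Perm ι) : Prop where
  m : ∀ i j, M (σ i) (σ j) = M i j
  p : ∀ i, p (σ i) = p i
  nu : ∀ i, nu (σ i) = nu i

/-- **the far null vertices** -/
theorem exists_far (hM : IForm M) (hr : Reach M p) {i : ι} (hi : dg M p i = 0) (hS : p i = nu i) :
    ∃ e, NP M p i e ∧ dg M p e = 0 ∧ p e = nu e ∧
      ∀ A : Set ι, (∀ a ∈ A, ∃ σ : Equiv.Perm ι, Aut M p nu σ ∧ σ e = a) →
        (∀ a ∈ A, dg M p a = 0) ∧ (∀ a ∈ A, p a = nu a) ∧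
        (∀ l, dg M p l = 0 → l ∉ A → p l = nu l → Rch M p A l) ∧
        (∀ a ∈ A, ∃ l, l ∉ A ∧ M a l ≠ 0 ∧ (dg M p l ≠ 0 ∨ Rch M p A l)) := by
  classical
  obtain ⟨e, he1, he2⟩ := Finset.exists_max_image
    ((Finset.univ : Finset ι).filter (fun e => NP M p i e ∧ p e = nu e)) (dist M p)
    ⟨i, by simp [hS, NP, Relation.ReflTransGen.refl]⟩
  simp only [Finset.mem_filter, Finset.mem_univ, true_and] at he1 he2
  obtain ⟨hne, hse⟩ := he1
  have h0e : dg M p e = 0 := hne.null hi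
  refine ⟨e, hne, h0e, hse, fun A hA => ?_⟩
  have hA0 : ∀ a ∈ A, dg M p a = 0 := by
    intro a ha
    obtain ⟨σ, hσ, rfl⟩ := hA a ha
    rw [← dg_comp hσ.m, show (fun j => p (σ j)) = p from funext hσ.p]
    exact h0e
  have hAd : ∀ a ∈ A, dist M p a = dist M p e := by
    intro a ha
    obtain ⟨σ, hσ, rfl⟩ := hA a ha
    exact dist_perm hM hr hσ.m hσ.p e
  -- vertices joined to `A`
  have hfar : ∀ l, p l = nu l → ∀ a ∈ A, NP M p l a → dg M p l = 0 → dist M p l ≤ dist M p e := by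
    intro l hl a ha hla hl0
    obtain ⟨σ, hσ, rfl⟩ := hA a ha
    have hσ' : ∀ i j, M (σ.symm i) (σ.symm j) = M i j := fun i j => by
      rw [← hσ.m]; simp
    have hp' : ∀ i, p (σ.symm i) = p i := fun i => by rw [← hσ.p]; simp
    have hnu' : ∀ i, nu (σ.symm i) = nu i := fun i => by rw [← hσ.nu]; simp
    have h1 := (NP.symm hM hla hl0).map (σ := σ.symm) hσ' hp'
    simp only [Equiv.symm_apply_apply] at h1
    have h2 := he2 (σ.symm l) ⟨hne.trans h1, by rw [hp', hnu', hl]⟩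
    rwa [dist_perm hM hr hσ' hp' l] at h2
  -- main claim
  have key : ∀ m : ℕ, ∀ l, dist M p l = m → dg M p l = 0 → l ∉ A →
      (dist M p l ≤ dist M p e ∨ ∀ a ∈ A, ¬ NP M p l a) → Rch M p A l := by
    intro m
    induction m using Nat.strong_induction_on with
    | _ m ih =>
      intro l hm hl hlA hor
      obtain ⟨j, hj, hjd⟩ := exists_nbr hM hr hl
      by_cases hj0 : dg M p j = 0
      · have hjA : j ∉ A := by
          intro hjA
          rcases hor with h | h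
          · have := hAd j hjA; omega
          · exact h j hjA (Relation.ReflTransGen.single ⟨hj, hj0⟩)
        refine Rch.step hl hlA hj (ih (dist M p j) (by omega) j rfl hj0 hjA ?_)
        rcases hor with h | h
        · left; omega
        · right
          intro a ha hja
          exact h a ha (Relation.ReflTransGen.head ⟨hj, hj0⟩ hja)
      · exact Rch.base hl hlA hj hj0
  refine ⟨hA0, ?_, ?_, ?_⟩
  · intro a ha
    obtain ⟨σ, hσ, rfl⟩ := hA a ha
    rw [hσ.p, hσ.nu, hse]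
  · intro l hl hlA hls
    refine key _ l rfl hl hlA ?_
    by_cases h : ∃ a ∈ A, NP M p l a
    · obtain ⟨a, ha, hla⟩ := h
      exact Or.inl (hfar l hls a ha hla hl)
    · right
      intro a ha hla
      exact h ⟨a, ha, hla⟩
  · intro a ha
    obtain ⟨j, hj, hjd⟩ := exists_nbr hM hr (hA0 a ha)
    have hjA : j ∉ A := by
      intro hjA
      have := hAd j hjA; have := hAd a ha; omega
    refine ⟨j, hjA, hj, ?_⟩
    by_cases hj0 : dg M p j = 0
    · right
      exact key _ j rfl hj0 hjA (Or.inl (by have := hAd a ha; omega))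
    · exact Or.inl hj0

/-- **weights killing a far null vertex** -/
theorem null_kill (hM : IForm M) (hge : ∀ i, nu i ≤ p i) (hdg : ∀ i, dg M p i ≤ 0)
    (hr : Reach M p) {i : ι} (hi : dg M p i = 0) (hS : p i = nu i) :
    ∃ e, NP M p i e ∧ dg M p e = 0 ∧ p e = nu e ∧
      ∀ A : Set ι, (∀ a ∈ A, ∃ σ : Equiv.Perm ι, Aut M p nu σ ∧ σ e = a) → ∀ ε : ℝ, 0 < ε →
        ∃ k₀ : ℝ, ∀ k : ℝ, k₀ ≤ k → ∃ y : ι → ℝ, (∀ i, dg M y i < 0) ∧
          (∀ i ∈ A, y i + nu i = k * p i) ∧ (∀ i, i ∉ A → y i + nu i < k * p i) ∧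
          (∀ i, p i = nu i → k * p i - ε < y i + nu i) ∧
          ∀ σ : Equiv.Perm ι, (∀ i j, M (σ i) (σ j) = M i j) → (∀ i, p (σ i) = p i) →
            (∀ i, σ i ∈ A ↔ i ∈ A) → ∀ i, y (σ i) = y i := by
  obtain ⟨e, h1, h2, h3, h4⟩ := exists_far hM hr hi hS
  refine ⟨e, h1, h2, h3, fun A hA ε hε => ?_⟩
  obtain ⟨a1, a2, a3, a4⟩ := h4 A hA
  refine weight hM hge hdg a1 le_rfl (fun i hi => by rw [a2 i hi]; simp) (fun h => absurd rfl h)
    (fun l hl hlA => ?_) a4 hε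
  refine Or.inr ⟨?_, fun h => absurd rfl h⟩
  by_cases h : p l = nu l
  · exact Or.inl (a3 l hl hlA h)
  · right
    have := lt_of_le_of_ne (hge l) (Ne.symm h)
    linarith

end Crest.Agent.R257.Gr5_157
private theorem rz_aa5f0b106c : type_of% @_root_.Crest.Agent.R257.Gr5_157.Lv.eq_def := @_root_.Crest.Agent.R257.Gr5_157.Lv.eq_def -- L59
private theorem rz_2eb53b70f4 : type_of% @_root_.Crest.Agent.R257.Gr5_157.Lv.eq_1 := @_root_.Crest.Agent.R257.Gr5_157.Lv.eq_1 -- L59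
end

-- ▼ part R257/ExA_121
section

/-!
R257 / ExA_121: cycles for the kills, rationality of the least cycle (helper121).
-/

set_option autoImplicit false
set_option linter.unusedSectionVars false

noncomputable section

namespace Crest.Agent.R257.Ex_121

open Crest.Agent.R257.Gr1_157 Crest.Agent.R257.Gr4_157 Crest.Agent.R257.Gr5_157

variable {ι : Type*} [Fintype ι] {M : ι → ι → ℝ} {p nu : ι → ℝ}

/-- null vertices whose null component does not meet `{p = nu}` -/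
def Tw (M : ι → ι → ℝ) (p nu : ι → ℝ) : Set ι :=
  {i | dg M p i = 0 ∧ ∀ j, NP M p i j → p j ≠ nu j}

lemma Tw.closed {i j : ι} (hi : i ∈ Tw M p nu) (hij : M i j ≠ 0) (hj : dg M p j = 0) :
    j ∈ Tw M p nu :=
  ⟨hj, fun l hl => hi.2 l (Relation.ReflTransGen.head ⟨hij, hj⟩ hl)⟩

lemma Tw.aut {σ : Equiv.Perm ι} (hσ : Aut M p nu σ) {i : ι} (hi : σ i ∈ Tw M p nu) :
    i ∈ Tw M p nu := by
  refine ⟨?_, fun j hj h => ?_⟩
  · have := hi.1
    rwa [← dg_comp hσ.m, show (fun j => p (σ j)) = p from funext hσ.p] at this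
  · exact hi.2 (σ j) (hj.map hσ.m hσ.p) (by rw [hσ.p, hσ.nu, h])

lemma aut_symm {σ : Equiv.Perm ι} (hσ : Aut M p nu σ) : Aut M p nu σ.symm :=
  ⟨fun i j => by rw [← hσ.m]; simp, fun i => by rw [← hσ.p]; simp, fun i => by rw [← hσ.nu]; simp⟩

lemma Tw.aut_iff {σ : Equiv.Perm ι} (hσ : Aut M p nu σ) (i : ι) :
    σ i ∈ Tw M p nu ↔ i ∈ Tw M p nu :=
  ⟨Tw.aut hσ, fun h => Tw.aut (aut_symm hσ) (by simpa using h)⟩

lemma dg_aut {σ : Equiv.Perm ι} (hσ : Aut M p nu σ) {x : ι → ℝ} (hx : ∀ i, x (σ i) = x i) (i : ι) :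
    dg M x (σ i) = dg M x i := by
  rw [← dg_comp hσ.m, show (fun j => x (σ j)) = x from funext hx]

/-- **cycles for the kills** -/
theorem kill_cyc (hM : IForm M) (hge : ∀ i, nu i ≤ p i) (hdg : ∀ i, dg M p i ≤ 0)
    (hz : ∀ i, p i ≠ nu i → dg M p i = 0) (hr : Reach M p) {B : ℝ} (hB : 0 ≤ B) :
    ∃ (w : ι → ℝ) (a : ℕ), 0 < a ∧ (∀ i, w i < p i - nu i) ∧ (∀ i, p i = nu i → -1 ≤ w i) ∧
      (∀ i, dg M p i = 0 → dg M w i < 0) ∧
      (∀ i i', dg M p i ≠ 0 → i' ∈ Tw M p nu →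
        dg M w i' + B * ((a * (p i - nu i - w i) + (p i' - nu i' - w i')) / a) < 0) ∧
      ∀ σ : Equiv.Perm ι, Aut M p nu σ → ∀ i, w (σ i) = w i := by
  classical
  set T : Set ι := {i | dg M p i = 0} with hT
  set U : Set ι := Tw M p nu with hU
  obtain ⟨h, hh0, hh1⟩ := dirichlet hM T (fun _ => 1) (fun _ => 0)
  obtain ⟨g, hg0, hg1⟩ := dirichlet hM T (fun _ => 0) (fun _ => -1)
  obtain ⟨u, hu0, hu1⟩ := dirichlet hM U (fun _ => 0) (fun _ => -1)
  have hhT : ∀ i, dg M p i ≠ 0 → h i = 1 := fun i hi => hh0 i hi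
  have hgT : ∀ i, dg M p i ≠ 0 → g i = 0 := fun i hi => hg0 i hi
  have hUT : ∀ i, i ∈ U → dg M p i = 0 := fun i hi => hi.1
  have huT : ∀ i, dg M p i ≠ 0 → u i = 0 := fun i hi => hu0 i fun hi' => hi (hUT i hi')
  have hh : ∀ i, 0 ≤ h i := nonneg_of hM (S := T) (fun i hi => (hh1 i hi).le)
    (fun i hi => by rw [hh0 i hi]; exact zero_le_one)
  -- `h > 0`
  have hpos : ∀ i, 0 < h i := by
    intro i
    refine lt_of_le_of_ne (hh i) fun e => ?_
    obtain ⟨j, hj1, hj2⟩ := hr {i | h i = 0} ⟨i, e.symm⟩ (fun a ha b hab => by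
      by_cases haT : dg M p a = 0
      · exact nbr_zero hM hh ha (hh1 a haT).le hab
      · rw [Set.mem_setOf_eq, hhT a haT] at ha; exact absurd ha one_ne_zero)
    rw [Set.mem_setOf_eq, hhT j hj2] at hj1
    exact one_ne_zero hj1
  -- off `U`, on `T`: `dg u = 0`
  have hu2 : ∀ i, dg M p i = 0 → i ∉ U → dg M u i = 0 := by
    intro i hi hiU
    unfold dg
    refine Finset.sum_eq_zero fun j _ => ?_
    by_cases hij : M i j = 0
    · rw [hij, zero_mul]
    · rw [hu0 j, mul_zero]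
      intro hj
      exact hiU (Tw.closed hj (by rw [hM.symm]; exact hij) hi)
  -- the room on `U`
  have hroom : ∀ i, i ∈ U → 0 < p i - nu i := fun i hi => by
    have h1 := hi.2 i Relation.ReflTransGen.refl
    have := lt_of_le_of_ne (hge i) (Ne.symm h1)
    linarith
  -- `η`
  obtain ⟨η, hη, hη'⟩ := exists_small_mul (fun i => if i ∈ U then p i - nu i else 1) (fun i => u i)
    (fun i => by
      by_cases hi : i ∈ U
      · simpa [hi] using hroom i hi
      · simp [hi])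
  -- `ε`
  obtain ⟨ε, hε, hε'⟩ := exists_small_mul (fun i : ι => min 1 (η / (2 * (B + 1))))
    (fun i => max 1 (h i)) (fun i => lt_min one_pos (by positivity))
  -- `δ`
  obtain ⟨δ, hδ, hδ'⟩ := exists_small_mul (fun i => min (ε * h i)
      (if i ∈ U then p i - nu i - η * u i else 1)) (fun i => g i)
    (fun i => by
      refine lt_min (mul_pos hε (hpos i)) ?_
      by_cases hi : i ∈ U
      · have := hη' i
        simp only [hi, if_true] at this ⊢
        linarith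
      · simp [hi])
  set w : ι → ℝ := fun i => -(ε * h i) + δ * g i + η * u i with hw
  have hwT : ∀ i, dg M p i ≠ 0 → w i = -ε := fun i hi => by
    simp [hw, hhT i hi, hgT i hi, huT i hi]
  have hpT : ∀ i, dg M p i ≠ 0 → p i - nu i = 0 := fun i hi => by
    by_contra hne
    exact hi (hz i fun e => hne (by rw [e, sub_self]))
  have hdw : ∀ i, dg M w i = -(ε * dg M h i) + δ * dg M g i + η * dg M u i := by
    intro i
    have : w = -(ε • h) + δ • g + η • u := by
      funext j; simp [hw]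
    rw [this, dg_add, dg_add, dg_neg, dg_smul, dg_smul, dg_smul]
  have h1 : ∀ i, w i < p i - nu i := by
    intro i
    have e1 := (hδ' i).trans_le (min_le_left _ _)
    have e2 := (hδ' i).trans_le (min_le_right _ _)
    by_cases hi : i ∈ U
    · simp only [hi, if_true] at e2
      have := mul_pos hε (hpos i)
      simp only [hw]; linarith
    · simp only [hw, hu0 i hi, mul_zero]
      linarith [hge i]
  -- bound for `a`
  obtain ⟨Z, hZ⟩ := Finite.exists_le (fun i => p i - nu i - w i)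
  obtain ⟨a, ha⟩ := exists_nat_gt (max 1 (2 * (B * |Z|) / η))
  have ha1 : (1 : ℝ) < a := (le_max_left _ _).trans_lt ha
  have ha0 : 0 < a := by exact_mod_cast (zero_lt_one.trans ha1)
  refine ⟨w, a, ha0, h1, ?_, ?_, ?_, ?_⟩
  · intro i hi
    have e1 := (hε' i).trans_le (min_le_left _ _)
    have e2 : ε * h i ≤ ε * max 1 (h i) := mul_le_mul_of_nonneg_left (le_max_right _ _) hε.le
    have e3 : 0 ≤ g i := by
      refine nonneg_of hM (S := T) (fun i hi => ?_) (fun i hi => by rw [hg0 i hi]) i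
      rw [hg1 i hi]; norm_num
    have e4 : 0 ≤ u i := by
      refine nonneg_of hM (S := U) (fun i hi => ?_) (fun i hi => by rw [hu0 i hi]) i
      rw [hu1 i hi]; norm_num
    have e5 := mul_nonneg hδ.le e3
    have e6 := mul_nonneg hη.le e4
    simp only [hw]; linarith
  · intro i hi
    rw [hdw, hh1 i hi, hg1 i hi]
    by_cases hiU : i ∈ U
    · rw [hu1 i hiU]; linarith
    · rw [hu2 i hi hiU]; linarith
  · intro i i' hi hi'
    have hiU : dg M p i' = 0 := hUT i' hi'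
    rw [hdw, hh1 i' hiU, hg1 i' hiU, hu1 i' hi', hpT i hi, hwT i hi]
    have e1 := (hε' i).trans_le (min_le_right _ _)
    have e2 : ε ≤ ε * max 1 (h i) := le_mul_of_one_le_right hε.le (le_max_left _ _)
    have e3 : B * ε ≤ η / 2 := by
      have : ε < η / (2 * (B + 1)) := e2.trans_lt e1
      rw [lt_div_iff₀ (by positivity)] at this
      nlinarith
    have e4 : B * ((p i' - nu i' - w i') / a) < η / 2 := by
      have e5 : p i' - nu i' - w i' ≤ |Z| := (hZ i').trans (le_abs_self Z)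
      have e6 : 2 * (B * |Z|) / η < a := (le_max_right _ _).trans_lt ha
      rw [div_lt_iff₀ hη] at e6
      have e7 : B * (p i' - nu i' - w i') ≤ B * |Z| := mul_le_mul_of_nonneg_left e5 hB
      rw [← mul_div_assoc, div_lt_iff₀ (by linarith)]
      nlinarith
    have e8 : B * ((a * (0 - -ε) + (p i' - nu i' - w i')) / a) =
        B * ε + B * ((p i' - nu i' - w i') / a) := by
      have : (a : ℝ) ≠ 0 := by positivity
      field_simp
      ring
    rw [e8]
    nlinarith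
  · intro σ hσ i
    have hTσ : ∀ i, σ i ∈ T ↔ i ∈ T := fun i => by
      simp only [hT, Set.mem_setOf_eq, dg_aut hσ hσ.p]
    have a1 : ∀ i, h (σ i) = h i := perm_unique hM hσ.m
      (fun i hi => by rw [hh0 i hi, hh0 (σ i) fun h => hi ((hTσ i).1 h)])
      (fun i hi => by rw [hh1 i hi, hh1 (σ i) ((hTσ i).2 hi)])
    have a2 : ∀ i, g (σ i) = g i := perm_unique hM hσ.m
      (fun i hi => by rw [hg0 i hi, hg0 (σ i) fun h => hi ((hTσ i).1 h)])
      (fun i hi => by rw [hg1 i hi, hg1 (σ i) ((hTσ i).2 hi)])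
    have a3 : ∀ i, u (σ i) = u i := perm_unique hM hσ.m
      (fun i hi => by rw [hu0 i hi, hu0 (σ i) fun h => hi ((Tw.aut_iff hσ i).1 h)])
      (fun i hi => by rw [hu1 i hi, hu1 (σ i) ((Tw.aut_iff hσ i).2 hi)])
    simp only [hw, a1, a2, a3]

/-- the least cycle is rational -/
theorem rat_least (hM : IForm M) (hrat : ∀ i j, ∃ r : ℚ, (r : ℝ) = M i j) {q : ι → ℝ} {n : ι → ℤ}
    (hz : ∀ i, q i ≠ n i → dg M q i = 0) : ∃ r : ι → ℚ, ∀ i, (r i : ℝ) = q i := by
  classical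
  choose m hm using hrat
  have hdt : ∀ x : ι → ℚ, ((dt m x x : ℚ) : ℝ) = dt M (fun i => (x i : ℝ)) (fun i => (x i : ℝ)) := by
    intro x
    simp only [dt]
    push_cast
    refine Finset.sum_congr rfl fun i _ => Finset.sum_congr rfl fun j _ => ?_
    rw [hm]
  have hm' : IForm m := by
    refine ⟨fun i j => ?_, fun i j hij => ?_, fun x hx => ?_⟩
    · have : ((m i j : ℚ) : ℝ) = (m j i : ℚ) := by rw [hm, hm, hM.symm]
      exact_mod_cast this
    · have : (0 : ℝ) ≤ (m i j : ℚ) := by rw [hm]; exact hM.off i j hij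
      exact_mod_cast this
    · have h1 : (fun i => (x i : ℝ)) ≠ 0 := by
        intro h
        apply hx
        funext i
        have := congrFun h i
        simpa using this
      have h2 := hM.neg _ h1
      rw [← hdt] at h2
      exact_mod_cast h2
  let S : Set ι := {i | dg M q i = 0}
  obtain ⟨x, hx1, hx2⟩ := exists_sol hm' S (fun i => - dg m (fun j => if j ∈ S then 0 else (n j : ℚ)) i)
  refine ⟨x + fun j => if j ∈ S then 0 else (n j : ℚ), ?_⟩
  have key : (fun i => (((x + fun j => if j ∈ S then 0 else (n j : ℚ)) i : ℚ) : ℝ)) = q := by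
    refine sol_unique hM (S := S) ?_ ?_
    · intro i hi
      have h1 : q i = n i := by
        by_contra h
        exact hi (hz i h)
      simp [hx1 i hi, hi, h1]
    · intro i hi
      have h1 : dg m (x + fun j => if j ∈ S then 0 else (n j : ℚ)) i = 0 := by
        rw [dg_add, hx2 i hi]; ring
      have h2 : dg M (fun i => (((x + fun j => if j ∈ S then 0 else (n j : ℚ)) i : ℚ) : ℝ)) i =
          ((dg m (x + fun j => if j ∈ S then 0 else (n j : ℚ)) i : ℚ) : ℝ) := by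
        simp only [dg]
        push_cast
        exact Finset.sum_congr rfl fun j _ => by rw [hm]
      rw [h2, h1]
      have h3 : dg M q i = 0 := hi
      rw [h3]; simp
  intro i
  exact congrFun key i

/-- a common denominator -/
theorem exists_den (r : ι → ℚ) : ∃ K : ℕ, 0 < K ∧ ∀ i, ∃ z : ℤ, (K : ℚ) * r i = z := by
  classical
  refine ⟨∏ i, (r i).den, Finset.prod_pos fun i _ => (r i).den_pos, fun i => ?_⟩
  refine ⟨(∏ j ∈ Finset.univ.erase i, ((r j).den : ℤ)) * (r i).num, ?_⟩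
  rw [← Finset.mul_prod_erase _ _ (Finset.mem_univ i)]
  push_cast
  have := Rat.den_mul_eq_num (r i)
  rw [mul_comm ((r i).den : ℚ), mul_assoc, this]

end Crest.Agent.R257.Ex_121
end
end

-- ▼ part R257/ExB_121
section

/-!
R257 / ExB_121: orders and the minimum principle on a frame (helper121).
-/

set_option autoImplicit false
set_option linter.unusedSectionVars false

open Topology Filter Set
open Crest.AlgGeometry.Germ

noncomputable section

namespace Crest.Agent.R257.Ex_121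

open Crest.Agent.R257.Defs_219
open Crest.Agent.R257.Gr1_157 Crest.Agent.R257.Gr4_157 Crest.Agent.R257.Gr5_157
open Crest.Agent.R257.Fr_808 Crest.Agent.R257.Fr_808.Frame

variable {f : E3 → ℂ} {F : Frame f}

/-- generic points of every chart -/
theorem good' {g : E3 → ℂ} {v : F.I → ℕ} (h : F.Ord g v) (c : F.K) :
    ∀ᶠ z in 𝓝[≠] (0 : ℂ), ‖z‖ < 1 ∧
      ∃ H : ℂ × ℂ → ℂ, AnalyticAt ℂ H (0, z) ∧ H (0, z) ≠ 0 ∧
        ∀ᶠ p in 𝓝 ((0 : ℂ), z), g (F.th c p) = p.1 ^ v (F.e1 c) * H p := by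
  obtain ⟨G, hG, hG1, -⟩ := h.2 c (0, 0) (F.mem_SF1 c (by simp))
  filter_upwards [hG.good (hG1 rfl).1, self_mem_nhdsWithin] with z hz hz0
  exact ⟨hz.1, hz.2.1.lead hz.2.2 hz0⟩

theorem lt_of_lo {g : E3 → ℂ} {v : F.I → ℕ} (h : F.Ord g v) {i : F.I} {r : ℝ}
    (hl : Lo F g i r) : r < v i := by
  obtain ⟨c, rfl, hf⟩ := hl
  obtain ⟨z, ⟨n, H', hrn, hH', hH1'⟩, -, H, hH, hH0, hH1⟩ := (hf.and_eventually (good' h c)).exists
  have : n ≤ v (F.e1 c) := by
    refine ord_le (p₁ := (0, z)) rfl hH.continuousAt hH0 hH' ?_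
    filter_upwards [hH1, hH1'] with p h1 h2
    rw [← h1, h2]
  exact hrn.trans_le (by exact_mod_cast this)

theorem eq_of_ex {g : E3 → ℂ} {v : F.I → ℕ} (h : F.Ord g v) {i : F.I} {n : ℕ}
    (he : Ex F g i n) : v i = n := by
  obtain ⟨c, rfl, hf⟩ := he
  obtain ⟨z, ⟨H', hH', hH0', hH1'⟩, -, H, hH, hH0, hH1⟩ := (hf.and_eventually (good' h c)).exists
  apply le_antisymm
  · refine ord_le (p₁ := (0, z)) rfl hH' hH0' hH.continuousAt ?_
    filter_upwards [hH1, hH1'] with p h1 h2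
    rw [← h1, h2]
  · refine ord_le (p₁ := (0, z)) rfl hH.continuousAt hH0 hH' ?_
    filter_upwards [hH1, hH1'] with p h1 h2
    rw [← h1, h2]

/-- a function with a kill is not zero -/
theorem freq_of_kill {g : E3 → ℂ} (hg : AnalyticAt ℂ g 0) {m : F.I → ℕ} {c : F.K} {p₀ : ℂ × ℂ}
    (hp₀ : p₀ ∈ F.SF c) (hk : ∀ H, F.Fac g m c p₀ H → H p₀ ≠ 0) :
    ∃ᶠ x in 𝓝 (0 : E3), f x = 0 ∧ g x ≠ 0 := by
  by_contra hcon
  rw [not_frequently] at hcon
  have hth : AnalyticAt ℂ (F.th c) p₀ := F.an c p₀ hp₀.1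
  have hu : AnalyticAt ℂ (fun p => g (F.th c p)) p₀ := hg.comp_of_eq hth (F.th_SF hp₀)
  have h1 : ∀ᶠ p in 𝓝 p₀, ¬ (f (F.th c p) = 0 ∧ g (F.th c p) ≠ 0) := by
    have h2 : Tendsto (F.th c) (𝓝 p₀) (𝓝 0) := by
      have := hth.continuousAt.tendsto
      rwa [F.th_SF hp₀] at this
    exact h2.eventually hcon
  obtain ⟨r, hr, hr'⟩ := Metric.eventually_nhds_iff_ball.1 (hu.eventually_analyticAt.and h1)
  -- a point of the open bidisc
  set δ : ℝ := min (r / 2) (1 / 2) with hδ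
  have hδ0 : 0 < δ := lt_min (by linarith) (by norm_num)
  have hδ1 : δ ≤ 1 / 2 := min_le_right _ _
  have hδr : δ ≤ r / 2 := min_le_left _ _
  set p₁ : ℂ × ℂ := ((1 - δ : ℝ) : ℂ) • p₀ with hp₁
  have hn1 : ‖p₁.1‖ < 1 := by
    rw [hp₁, Prod.smul_fst, norm_smul, Complex.norm_real, Real.norm_eq_abs, abs_of_pos (by linarith)]
    have := hp₀.1.1
    nlinarith [norm_nonneg p₀.1]
  have hn2 : ‖p₁.2‖ < 1 := by
    rw [hp₁, Prod.smul_snd, norm_smul, Complex.norm_real, Real.norm_eq_abs, abs_of_pos (by linarith)]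
    have := hp₀.1.2
    nlinarith [norm_nonneg p₀.2]
  have hball : p₁ ∈ Metric.ball p₀ r := by
    rw [Metric.mem_ball, dist_eq_norm]
    have e1 : p₁ - p₀ = (-(δ : ℝ) : ℂ) • p₀ := by
      rw [hp₁]; push_cast; module
    rw [e1, norm_smul]
    have e2 : ‖(-(δ : ℝ) : ℂ)‖ = δ := by
      rw [norm_neg, Complex.norm_real, Real.norm_eq_abs, abs_of_pos hδ0]
    have e3 : ‖p₀‖ ≤ 1 := by
      rw [Prod.norm_def]; exact max_le hp₀.1.1 hp₀.1.2
    rw [e2]
    nlinarith
  have hz : (fun p => g (F.th c p)) =ᶠ[𝓝 p₁] 0 := by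
    have a1 : ∀ᶠ p in 𝓝 p₁, p ∈ Metric.ball p₀ r := Metric.isOpen_ball.mem_nhds hball
    have a2 : ∀ᶠ p : ℂ × ℂ in 𝓝 p₁, ‖p.1‖ < 1 :=
      (continuous_fst.norm.continuousAt (x := p₁)).eventually_lt continuousAt_const hn1
    have a3 : ∀ᶠ p : ℂ × ℂ in 𝓝 p₁, ‖p.2‖ < 1 :=
      (continuous_snd.norm.continuousAt (x := p₁)).eventually_lt continuousAt_const hn2
    filter_upwards [a1, a2, a3] with p b1 b2 b3
    by_contra hne
    exact (hr' p b1).2 ⟨F.onV c p ⟨b2.le, b3.le⟩, hne⟩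
  have hall : EqOn (fun p => g (F.th c p)) 0 (Metric.ball p₀ r) :=
    AnalyticOnNhd.eqOn_zero_of_preconnected_of_eventuallyEq_zero
      (fun p hp => (hr' p hp).1) (convex_ball p₀ r).isPreconnected hball hz
  refine hk (fun _ => 0) ⟨analyticAt_const, ?_⟩ rfl
  filter_upwards [Metric.ball_mem_nhds p₀ hr] with p hp
  have := hall hp
  simpa using this

theorem freq_of_ex {g : E3 → ℂ} {i : F.I} {n : ℕ} (he : Ex F g i n) :
    ∃ᶠ x in 𝓝 (0 : E3), f x = 0 ∧ g x ≠ 0 := by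
  obtain ⟨c, rfl, hf⟩ := he
  have h6 : ∀ᶠ z in 𝓝[≠] (0 : ℂ), ‖z‖ < 1 := by
    refine Filter.Eventually.filter_mono nhdsWithin_le_nhds ?_
    filter_upwards [Metric.ball_mem_nhds (0 : ℂ) one_pos] with z hz using by simpa using hz
  obtain ⟨z, ⟨H, hH, hH0, hH1⟩, hz⟩ := (hf.and_eventually h6).exists
  have hSF : ((0 : ℂ), z) ∈ F.SF c := F.mem_SF1 c hz.le
  have h2 : Tendsto (F.th c) (𝓝 ((0 : ℂ), z)) (𝓝 0) := by
    have := (F.an c _ hSF.1).continuousAt.tendsto
    rwa [F.th_SF hSF] at this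
  refine h2.frequently ?_
  have a2 : ∀ᶠ p : ℂ × ℂ in 𝓝 ((0 : ℂ), z), ‖p.1‖ < 1 :=
    (continuous_fst.norm.continuousAt (x := ((0 : ℂ), z))).eventually_lt continuousAt_const (by simp)
  have a3 : ∀ᶠ p : ℂ × ℂ in 𝓝 ((0 : ℂ), z), ‖p.2‖ < 1 :=
    (continuous_snd.norm.continuousAt (x := ((0 : ℂ), z))).eventually_lt continuousAt_const hz
  refine (freq1 ((0 : ℂ), z)).and_eventually ((a2.and a3).and (hH1.and (hH.eventually_ne hH0)))
    |>.mono ?_
  rintro p ⟨b1, ⟨b2, b3⟩, b4, b5⟩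
  refine ⟨F.onV c p ⟨b2.le, b3.le⟩, ?_⟩
  rw [b4]
  exact mul_ne_zero (pow_ne_zero _ b1) b5

/-- the factorisation for smaller exponents -/
theorem fac_of_le {g : E3 → ℂ} {v m : F.I → ℕ} (hmv : ∀ i, m i ≤ v i) {c : F.K} {p₀ : ℂ × ℂ}
    {G : ℂ × ℂ → ℂ} (hG : F.Fac g v c p₀ G) :
    F.Fac g m c p₀ (fun p => p.1 ^ (v (F.e1 c) - m (F.e1 c)) *
      (p.2 ^ (ex2 v (F.e2 c) - ex2 m (F.e2 c)) * G p)) := by
  have hex : ex2 m (F.e2 c) ≤ ex2 v (F.e2 c) := by
    cases F.e2 c with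
    | none => exact le_refl _
    | some i => exact hmv i
  refine ⟨(analyticAt_fst.pow _).mul ((analyticAt_snd.pow _).mul hG.1), ?_⟩
  filter_upwards [hG.2] with p hp
  rw [hp, mo, mo]
  have e1 : p.1 ^ v (F.e1 c) = p.1 ^ m (F.e1 c) * p.1 ^ (v (F.e1 c) - m (F.e1 c)) := by
    rw [← pow_add, Nat.add_sub_cancel' (hmv _)]
  have e2 : p.2 ^ ex2 v (F.e2 c) = p.2 ^ ex2 m (F.e2 c) *
      p.2 ^ (ex2 v (F.e2 c) - ex2 m (F.e2 c)) := by
    rw [← pow_add, Nat.add_sub_cancel' hex]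
  rw [e1, e2]
  ring

theorem ge_of_le {g : E3 → ℂ} {v m : F.I → ℕ} (h : F.Ord g v) (hmv : ∀ i, m i ≤ v i) :
    F.Ge g m := fun c p₀ hp₀ => by
  obtain ⟨G, hG, -⟩ := h.2 c p₀ hp₀
  exact ⟨_, fac_of_le hmv hG⟩

theorem gen_of_kill {g : E3 → ℂ} {v m : F.I → ℕ} (h : F.Ord g v) (hmv : ∀ i, m i ≤ v i) {c : F.K}
    {p₀ : ℂ × ℂ} (hp₀ : p₀ ∈ F.SF c) (hk : ∀ H, F.Fac g m c p₀ H → H p₀ ≠ 0) : F.Gen g m c p₀ := by
  obtain ⟨G, hG, -⟩ := h.2 c p₀ hp₀
  exact ⟨_, fac_of_le hmv hG, hk _ (fac_of_le hmv hG)⟩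

/-- the orders at a killed node -/
theorem eq_of_kill {g : E3 → ℂ} {v m : F.I → ℕ} (h : F.Ord g v) (hmv : ∀ i, m i ≤ v i) {c : F.K}
    (hk : ∀ H, F.Fac g m c (0, 0) H → H (0, 0) ≠ 0) :
    v (F.e1 c) = m (F.e1 c) ∧ ∀ i', F.e2 c = some i' → v i' = m i' := by
  obtain ⟨G, hG, -⟩ := h.2 c (0, 0) (F.mem_SF1 c (by simp))
  have h1 := hk _ (fac_of_le hmv hG)
  simp only at h1
  constructor
  · by_contra hne
    have : v (F.e1 c) - m (F.e1 c) ≠ 0 := by have := hmv (F.e1 c); omega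
    rw [zero_pow this, zero_mul] at h1
    exact h1 rfl
  · intro i' hi'
    by_contra hne
    rw [hi'] at h1
    have : ex2 v (some i') - ex2 m (some i') ≠ 0 := by
      have h2 := hmv i'
      simp only [ex2, Option.elim_some]; omega
    rw [zero_pow this, zero_mul, mul_zero] at h1
    exact h1 rfl

/-- neighbours of a null vertex where `v = m` -/
theorem nbr_eq {g : E3 → ℂ} {v m : F.I → ℕ} (h : F.Ord g v) (hmv : ∀ i, m i ≤ v i) {i : F.I}
    (hi0 : dg F.M (fun i => (m i : ℝ)) i = 0) (hi : v i = m i) {j : F.I} (hij : F.M i j ≠ 0) :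
    v j = m j := by
  have h1 := nbr_zero F.form (x := fun i => (v i : ℝ) - m i) (i := i) (j := j)
    (fun i => by have : (m i : ℝ) ≤ v i := by exact_mod_cast hmv i
                 linarith) (by simp [hi]) (by
      have : (fun i => (v i : ℝ) - m i) = (fun i => (v i : ℝ)) - fun i => (m i : ℝ) := rfl
      rw [this, dg_sub, hi0, sub_zero]; exact h.1 i) hij
  have h2 : (v j : ℝ) = m j := by simpa [sub_eq_zero] using h1
  exact_mod_cast h2

theorem dg_eq {g : E3 → ℂ} {v m : F.I → ℕ} (h : F.Ord g v) (hmv : ∀ i, m i ≤ v i) {i : F.I}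
    (hi0 : dg F.M (fun i => (m i : ℝ)) i = 0) (hi : v i = m i) :
    dg F.M (fun i => (v i : ℝ)) i = 0 := by
  rw [← hi0]
  unfold dg
  refine Finset.sum_congr rfl fun j _ => ?_
  by_cases hij : F.M i j = 0
  · rw [hij]; simp
  · have := nbr_eq h hmv hi0 hi hij
    simp only [this]

/-- generation at the points of a null component where `v = m` -/
theorem gen_of_null (hadj : Adj F) {g : E3 → ℂ} {v m : F.I → ℕ} (h : F.Ord g v)
    (hmv : ∀ i, m i ≤ v i) {i : F.I} (hi0 : dg F.M (fun i => (m i : ℝ)) i = 0) (hi : v i = m i)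
    {c : F.K} {p₀ : ℂ × ℂ} (hp₀ : p₀ ∈ F.SF c)
    (hon : (F.e1 c = i ∧ p₀.1 = 0) ∨ (F.e2 c = some i ∧ p₀.2 = 0)) : F.Gen g m c p₀ := by
  obtain ⟨G, hG, hG1, hG2⟩ := h.2 c p₀ hp₀
  have hv0 := dg_eq h hmv hi0 hi
  have hne : G p₀ ≠ 0 := by
    rcases hon with ⟨h1, h2⟩ | ⟨h1, h2⟩
    · exact (hG1 h2).2 (by rw [h1]; exact hv0)
    · exact (hG2 i h1 h2).2 hv0
  refine ⟨_, fac_of_le hmv hG, ?_⟩
  have e1 : p₀.1 = 0 → v (F.e1 c) - m (F.e1 c) = 0 := by
    intro h0
    rcases hon with ⟨h1, -⟩ | ⟨h1, -⟩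
    · rw [h1, hi]; simp
    · have h2 := (hadj.adj c i h1).2
      rw [nbr_eq h hmv hi0 hi (j := F.e1 c) (by rw [F.form.symm]; exact h2)]; simp
  have e2 : p₀.2 = 0 → ex2 v (F.e2 c) - ex2 m (F.e2 c) = 0 := by
    intro h0
    cases hc : F.e2 c with
    | none => simp [ex2]
    | some j =>
      simp only [ex2, Option.elim_some]
      rcases hon with ⟨h1, -⟩ | ⟨h1, -⟩
      · have h2 := (hadj.adj c j hc).2
        rw [h1] at h2
        rw [nbr_eq h hmv hi0 hi h2]; simp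
      · rw [hc] at h1
        obtain rfl := Option.some.inj h1
        rw [hi]; simp
  refine mul_ne_zero ?_ (mul_ne_zero ?_ hne)
  · by_cases h0 : p₀.1 = 0
    · rw [e1 h0, pow_zero]; exact one_ne_zero
    · exact pow_ne_zero _ h0
  · by_cases h0 : p₀.2 = 0
    · rw [e2 h0, pow_zero]; exact one_ne_zero
    · exact pow_ne_zero _ h0

variable {q : F.I → ℝ}

/-- `v ≥ k q` everywhere as soon as it holds on `{q = nu}` -/
theorem ge_all (hq : F.IsP q) {g : E3 → ℂ} {v m : F.I → ℕ} {k : ℝ} (hm : ∀ i, (m i : ℝ) = k * q i)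
    (h : F.Ord g v) (hS : ∀ i, q i = F.nu i → m i ≤ v i) (i : F.I) : m i ≤ v i := by
  have h1 := nonneg_of F.form (x := fun i => (v i : ℝ) - m i) (S := {i | q i ≠ F.nu i})
    (fun j hj => by
      have e1 : (fun i => (v i : ℝ) - m i) = (fun i => (v i : ℝ)) - k • q := by
        funext l; simp [hm l]
      rw [e1, dg_sub, dg_smul, hq.dg_eq j hj, mul_zero, sub_zero]
      exact h.1 j)
    (fun j hj => by
      have h2 : q j = F.nu j := by
        by_contra hne; exact hj hne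
      have : (m j : ℝ) ≤ v j := by exact_mod_cast hS j h2
      simp only [sub_nonneg]; exact this) i
  have : (m i : ℝ) ≤ v i := by simpa using h1
  exact_mod_cast this

/-- propagation along null vertices -/
theorem prop_null {g : E3 → ℂ} {v m : F.I → ℕ} (h : F.Ord g v) (hmv : ∀ i, m i ≤ v i) {k : ℝ}
    (hm : ∀ i, (m i : ℝ) = k * q i) {i j : F.I} (hij : NP F.M q i j) (hi0 : dg F.M q i = 0)
    (hi : v i = m i) : v j = m j := by
  have hdg : ∀ l, dg F.M q l = 0 → dg F.M (fun i => (m i : ℝ)) l = 0 := by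
    intro l hl
    have e1 : (fun i => (m i : ℝ)) = k • q := by funext l; simp [hm l]
    rw [e1, dg_smul, hl, mul_zero]
  induction hij with
  | refl => exact hi
  | @tail b c hb hbc ih => exact nbr_eq h hmv (hdg b (NP.null hb hi0)) ih hbc.1

/-- a null vertex is joined to a non-null one -/
theorem exists_exit (hr : Reach F.M q) {i : F.I} (hi : dg F.M q i = 0) :
    ∃ l b, NP F.M q i l ∧ F.M l b ≠ 0 ∧ dg F.M q b ≠ 0 := by
  by_contra hcon
  push Not at hcon
  obtain ⟨j, hj1, hj2⟩ := hr {l | NP F.M q i l} ⟨i, Relation.ReflTransGen.refl⟩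
    (fun l hl b hb => Relation.ReflTransGen.tail hl ⟨hb, hcon l b hl hb⟩)
  exact hj2 (NP.null hj1 hi)

end Crest.Agent.R257.Ex_121
end
end

-- ▼ part R257/ExC_121
section

/-!
R257 / ExC_121: the formal part of C-EXT (helper121): `bpf_of : BPFof`.
-/

set_option autoImplicit false
set_option linter.unusedSectionVars false

open Topology Filter Set
open Crest.AlgGeometry.Germ

noncomputable section

namespace Crest.Agent.R257.Ex_121

open Crest.Agent.R257.Defs_219
open Crest.Agent.R257.Gr1_157 Crest.Agent.R257.Gr4_157 Crest.Agent.R257.Gr5_157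
open Crest.Agent.R257.Fr_808 Crest.Agent.R257.Fr_808.Frame

variable {f : E3 → ℂ} {F : Frame f} {G : Subgroup (Equiv.Perm F.I)} {q : F.I → ℝ}

theorem mem_orb (i : F.I) : i ∈ orb G i := ⟨1, G.one_mem, rfl⟩

theorem on_mem {A : Set F.I} {t : ℝ} {j : F.I} (h : j ∈ A) : on A t j = t := by
  unfold on; rw [if_pos h]

theorem on_notMem {A : Set F.I} {t : ℝ} {j : F.I} (h : j ∉ A) : on A t j = 0 := by
  unfold on; rw [if_neg h]

theorem on_le {A : Set F.I} {t s : ℝ} {j : F.I} (hs : 0 ≤ s) (h : t ≤ s) : on A t j ≤ s := by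
  unfold on; split_ifs <;> assumption

/-- rotations are automorphisms -/
theorem aut_of (hrot : Rot F G) (hq : F.IsP q) {σ : Equiv.Perm F.I} (hσ : σ ∈ G) :
    Aut F.M q (fun i => (F.nu i : ℝ)) σ := by
  have hm := hrot.M_inv σ hσ
  have hn := hrot.nu_inv σ hσ
  refine ⟨hm, fun i => ?_, fun i => by rw [hn]⟩
  have h1 : F.IsP (fun i => q (σ i)) := by
    refine ⟨fun i => ?_, fun i => ?_, fun i hi => ?_⟩
    · rw [← hn i]; exact hq.ge _
    · rw [dg_comp hm]; exact hq.dg_le _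
    · rw [dg_comp hm]
      exact hq.dg_eq _ (by rw [hn]; exact hi)
  exact congrFun (h1.unique hq) i

/-- no invariant holomorphic form on a null component in `{q = nu}` -/
theorem not_th (hrot : Rot F G) (hq : F.IsP q) (hr : Reach F.M q) {Th : F.I → Prop}
    (hT : ExT F G Th) {e : F.I} (he0 : dg F.M q e = 0) (heS : q e = F.nu e) : ¬ Th e := by
  intro hTh
  have hq0 : ∀ i, 0 ≤ q i := nonneg_of F.form (S := Set.univ) (fun i _ => hq.dg_le i)
    (fun i hi => absurd (Set.mem_univ i) hi)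
  have hnu : 0 ≤ F.nu e := by
    have := hq0 e
    rw [heS] at this
    exact_mod_cast this
  obtain ⟨n, hn⟩ := Int.eq_ofNat_of_zero_le hnu
  obtain ⟨ε, hε, hTe⟩ := hT e hTh n hn.symm
  obtain ⟨y₁, -, hy₁⟩ := dirichlet F.form Set.univ (fun _ => 0) (fun _ => -1)
  obtain ⟨Y, hY⟩ := Finite.exists_le y₁
  obtain ⟨t, ht, htY⟩ : ∃ t : ℝ, 0 < t ∧ t * |Y| < ε := by
    refine ⟨ε / (|Y| + 1), by positivity, ?_⟩
    rw [div_mul_eq_mul_div, div_lt_iff₀ (by positivity)]
    nlinarith [abs_nonneg Y]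
  set y : F.I → ℝ := t • y₁ with hydef
  have hy : ∀ i, dg F.M y i = -t := fun i => by
    rw [hydef, dg_smul, hy₁ i trivial, mul_neg, mul_one]
  have hy0 : ∀ i, 0 ≤ y i := nonneg_of F.form (S := Set.univ)
    (fun i _ => by rw [hy i]; linarith) (fun i hi => absurd (Set.mem_univ i) hi)
  have hyI : Inv G y := fun σ hσ i => perm_unique F.form (hrot.M_inv σ hσ) (B := Set.univ)
    (fun i hi => absurd (Set.mem_univ i) hi)
    (fun i _ => by rw [hy i, hy (σ i)]) i
  have hyε : ∀ j, y j < ε := fun j => by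
    have h1 : y j = t * y₁ j := rfl
    have h2 : t * y₁ j ≤ t * |Y| := mul_le_mul_of_nonneg_left ((hY j).trans (le_abs_self Y)) ht.le
    linarith
  obtain ⟨g, hg, hlo, hex⟩ := hTe y hyI (fun j => by rw [hy j]; linarith) hyε
  obtain ⟨v, hv⟩ := F.exists_Ord hg (freq_of_ex (hex e (mem_orb e)))
  have hnr : (n : ℝ) = F.nu e := by rw [hn]; simp
  have hvorb : ∀ j ∈ orb G e, (v j : ℝ) = F.nu j := by
    rintro j ⟨σ, hσ, rfl⟩
    rw [eq_of_ex hv (hex (σ e) ⟨σ, hσ, rfl⟩), hrot.nu_inv σ hσ, hnr]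
  have hle : ∀ j, q j ≤ v j := by
    refine hq.least (fun j => ?_) hv.1
    by_cases hj : j ∈ orb G e
    · exact (hvorb j hj).ge
    · have := lt_of_lo hv (hlo j hj)
      have := hy0 j
      linarith
  -- propagate
  obtain ⟨l, b, hl, hlb, hb⟩ := exists_exit hr he0
  set x : F.I → ℝ := fun j => v j - q j with hx
  have hx0 : ∀ j, 0 ≤ x j := fun j => by simpa [hx] using hle j
  have hxd : ∀ j, dg F.M q j = 0 → dg F.M x j ≤ 0 := by
    intro j hj
    have e1 : x = (fun i => (v i : ℝ)) - q := rfl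
    rw [e1, dg_sub, hj, sub_zero]
    exact hv.1 j
  have hxl : ∀ j, NP F.M q e j → x j = 0 := by
    intro j hj
    induction hj with
    | refl => simp only [hx]; rw [hvorb e (mem_orb e), heS]; simp
    | @tail a c ha hac ih => exact nbr_zero F.form hx0 ih (hxd a (NP.null ha he0)) hac.1
  have hxb : x b = 0 := nbr_zero F.form hx0 (hxl l hl) (hxd l (NP.null hl he0)) hlb
  have hborb : b ∉ orb G e := by
    rintro ⟨σ, hσ, rfl⟩
    apply hb
    rw [dg_aut (aut_of hrot hq hσ) (aut_of hrot hq hσ).p, he0]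
  have h1 := lt_of_lo hv (hlo b hborb)
  have h2 : q b = F.nu b := by
    by_contra hne; exact hb (hq.dg_eq b hne)
  have h3 := hy0 b
  simp only [hx] at hxb
  linarith

/-- **the formal part of C-EXT** -/
theorem bpf_of : BPFof := by
  classical
  intro f _ F G B D Th hadj hrot hD hP hE hN hT
  obtain ⟨q, hq⟩ := F.exists_P
  by_cases hq0 : q = 0
  · have h0 : ∀ e : Option F.I, ex2 (fun _ : F.I => 0) e = 0 := by
      intro e; cases e <;> rfl
    refine ⟨q, 2, fun _ => 0, hq, le_rfl, fun i => by rw [hq0]; simp, fun c p₀ _ =>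
      ⟨fun _ => 1, analyticAt_const, fun c p₀ _ => ⟨fun _ => 1, analyticAt_const, ?_⟩,
        ⟨fun _ => 1, ⟨analyticAt_const, ?_⟩, one_ne_zero⟩⟩⟩
    · filter_upwards with p
      simp [mo, h0]
    · filter_upwards with p
      simp [mo, h0]
  have hr : Reach F.M q := reach_of_conn F.form F.conn hq0
  have hqn : ∀ i, 0 ≤ q i := nonneg_of F.form (S := Set.univ) (fun i _ => hq.dg_le i)
    (fun i hi => absurd (Set.mem_univ i) hi)
  have hqS : ∀ i, dg F.M q i ≠ 0 → q i = F.nu i := fun i hi => by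
    by_contra hne; exact hi (hq.dg_eq i hne)
  have haut : ∀ σ ∈ G, Aut F.M q (fun i => (F.nu i : ℝ)) σ := fun σ hσ => aut_of hrot hq hσ
  have hdgσ : ∀ σ ∈ G, ∀ i, dg F.M q (σ i) = dg F.M q i := fun σ hσ i =>
    dg_aut (haut σ hσ) (haut σ hσ).p i
  have hqorb : ∀ i, ∀ j ∈ orb G i, dg F.M q j = dg F.M q i := by
    rintro i j ⟨σ, hσ, rfl⟩; exact hdgσ σ hσ i
  -- the cycle of the kills
  obtain ⟨w, a, ha, hw1, hw2, hw3, hw4, hw5⟩ := kill_cyc F.form (nu := fun i => (F.nu i : ℝ)) hq.ge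
    hq.dg_le hq.dg_eq hr (abs_nonneg B)
  have hwI : ∀ σ ∈ G, ∀ i, w (σ i) = w i := fun σ hσ => hw5 σ (haut σ hσ)
  have hdw : ∀ i, ∀ j ∈ orb G i, dg F.M w j = dg F.M w i := by
    rintro i j ⟨σ, hσ, rfl⟩; exact dg_aut (haut σ hσ) (hwI σ hσ) i
  -- thresholds of the null orbits
  have hnull : ∀ i, ∃ k₀ : ℝ, dg F.M q i = 0 → q i = F.nu i → ∃ e, NP F.M q i e ∧
      dg F.M q e = 0 ∧ q e = F.nu e ∧ ∀ k : ℝ, k₀ ≤ k → ∃ y : F.I → ℝ, (∀ j, dg F.M y j < 0) ∧
        (∀ j ∈ orb G e, y j + F.nu j = k * q j) ∧ (∀ j, j ∉ orb G e → y j + F.nu j < k * q j) ∧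
        (∀ j, q j = F.nu j → k * q j - 1 < y j + F.nu j) ∧ Inv G y := by
    intro i
    by_cases hi : dg F.M q i = 0 ∧ q i = F.nu i
    · obtain ⟨e, h1, h2, h3, h4⟩ := null_kill F.form (nu := fun i => (F.nu i : ℝ)) hq.ge hq.dg_le
        hr hi.1 hi.2
      obtain ⟨k₀, hk₀⟩ := h4 (orb G e) (by
        rintro j ⟨σ, hσ, rfl⟩; exact ⟨σ, haut σ hσ, rfl⟩) 1 one_pos
      refine ⟨k₀, fun _ _ => ⟨e, h1, h2, h3, fun k hk => ?_⟩⟩
      obtain ⟨y, a1, a2, a3, a4, a5⟩ := hk₀ k hk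
      refine ⟨y, a1, a2, a3, a4, fun σ hσ i => a5 σ (haut σ hσ).m (haut σ hσ).p (fun j => ?_) i⟩
      constructor
      · rintro ⟨τ, hτ, h⟩
        exact ⟨σ⁻¹ * τ, G.mul_mem (G.inv_mem hσ) hτ, by simp [h]⟩
      · rintro ⟨τ, hτ, rfl⟩
        exact ⟨σ * τ, G.mul_mem hσ hτ, rfl⟩
    · exact ⟨0, fun h1 h2 => absurd ⟨h1, h2⟩ hi⟩
  choose kN hkN using hnull
  obtain ⟨KN, hKN⟩ := Finite.exists_le kN
  -- threshold of the positive vertices
  set z : F.I → ℝ := fun i => q i - F.nu i - w i with hz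
  have hzpos : ∀ i, 0 < z i := fun i => by have := hw1 i; simp only [hz]; linarith
  obtain ⟨Z, hZ⟩ := Finite.exists_le z
  set E : ℝ := |B| * (|Z| + 1) + 2 * (|B| * (a * |Z| + a * |Z|)) with hEdef
  have hthr : ∀ i, ∃ κ : ℝ, ∀ k : ℝ, κ ≤ k → dg F.M q i ≠ 0 →
      (k - 1) * dg F.M q i + dg F.M w i + E < 0 := by
    intro i
    by_cases hi : dg F.M q i = 0
    · exact ⟨0, fun _ _ h => absurd hi h⟩
    · have hneg : dg F.M q i < 0 := lt_of_le_of_ne (hq.dg_le i) hi
      refine ⟨(dg F.M w i + E + 1) / (-dg F.M q i) + 1, fun k hk _ => ?_⟩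
      have h1 : (dg F.M w i + E + 1) / (-dg F.M q i) ≤ k - 1 := by linarith
      rw [div_le_iff₀ (by linarith)] at h1
      linarith
  choose κ hκ using hthr
  obtain ⟨KP, hKP⟩ := Finite.exists_le κ
  -- the level `k`
  obtain ⟨r, hr'⟩ := rat_least F.form hadj.rat (n := F.nu) hq.dg_eq
  obtain ⟨K₀, hK₀, hden⟩ := exists_den r
  choose ζ hζ using hden
  have hζ' : ∀ i, (ζ i : ℝ) = K₀ * q i := fun i => by
    rw [← hr' i]
    have := hζ i
    exact_mod_cast this.symm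
  have hζ0 : ∀ i, 0 ≤ ζ i := fun i => by
    have : (0 : ℝ) ≤ ζ i := by rw [hζ']; exact mul_nonneg (Nat.cast_nonneg _) (hqn i)
    exact_mod_cast this
  obtain ⟨n, hn⟩ := exists_nat_gt (max 2 (max KN KP))
  have hn2 : (2 : ℝ) < n := (le_max_left _ _).trans_lt hn
  have hn0 : 0 < n := by exact_mod_cast (zero_lt_two.trans hn2)
  set k : ℕ := K₀ * D * n with hk
  have hkn : n ≤ k := by
    rw [hk]; exact Nat.le_mul_of_pos_left _ (Nat.mul_pos hK₀ hD)
  have hknR : (n : ℝ) ≤ k := by exact_mod_cast hkn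
  have hkKN : ∀ i, kN i ≤ k := fun i =>
    (hKN i).trans ((le_max_left _ _).trans ((le_max_right _ _).trans (hn.le.trans hknR)))
  have hkKP : ∀ i, κ i ≤ k := fun i =>
    (hKP i).trans ((le_max_right _ _).trans ((le_max_right _ _).trans (hn.le.trans hknR)))
  set m : F.I → ℕ := fun i => D * (n * (ζ i).toNat) with hmdef
  have hm : ∀ i, (m i : ℝ) = k * q i := by
    intro i
    have h1 : (((ζ i).toNat : ℤ) : ℝ) = K₀ * q i := by
      rw [Int.toNat_of_nonneg (hζ0 i), hζ']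
    have h2 : ((ζ i).toNat : ℝ) = K₀ * q i := by exact_mod_cast h1
    simp only [hmdef, hk]
    push_cast
    rw [h2]; ring
  have hmD : ∀ i, D ∣ m i := fun i => dvd_mul_right _ _
  have hmI : Inv G m := fun σ hσ i => by
    have : (m (σ i) : ℝ) = m i := by rw [hm, hm, (haut σ hσ).p]
    exact_mod_cast this
  have hdgm : ∀ l, dg F.M q l = 0 → dg F.M (fun i => (m i : ℝ)) l = 0 := by
    intro l hl
    have e1 : (fun i => (m i : ℝ)) = (k : ℝ) • q := by funext l; simp [hm l]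
    rw [e1, dg_smul, hl, mul_zero]
  -- the cycle `y` of the kills
  set y : F.I → ℝ := fun i => (k - 1) * q i + w i with hy
  have hyI : Inv G y := fun σ hσ i => by simp only [hy, (haut σ hσ).p, hwI σ hσ i]
  have hdy : ∀ i, dg F.M y i = (k - 1) * dg F.M q i + dg F.M w i := by
    intro i
    have : y = ((k : ℝ) - 1) • q + w := by funext l; simp [hy]
    rw [this, dg_add, dg_smul]
  have hzm : ∀ i, (m i : ℝ) - F.nu i - y i = z i := fun i => by
    simp only [hy, hz, hm]; ring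
  have hym : ∀ i, y i + F.nu i < m i := fun i => by
    have := hzpos i; rw [← hzm i] at this; linarith
  have hyS : ∀ i, q i = F.nu i → (m i : ℝ) - 1 ≤ y i + F.nu i := fun i hi => by
    have h1 := hw2 i hi
    have h2 := hzm i
    simp only [hz] at h2
    linarith
  have hpos : ∀ i, dg F.M q i ≠ 0 → ∀ e : ℝ, e ≤ E → dg F.M y i + e < 0 := fun i hi e he => by
    have := hκ i k (hkKP i) hi
    rw [hdy]; linarith
  have hBt : ∀ t : ℝ, 0 ≤ t → B * t ≤ |B| * t := fun t ht =>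
    mul_le_mul_of_nonneg_right (le_abs_self B) ht
  have hZa : ∀ i, z i ≤ |Z| := fun i => (hZ i).trans (le_abs_self Z)
  have ha1 : (1 : ℝ) ≤ a := by exact_mod_cast ha
  have haR : (0 : ℝ) < a := by positivity
  -- from a kill to orders
  have hge : ∀ (g : E3 → ℂ) (v : F.I → ℕ), F.Ord g v → (∀ j, Lo F g j (y j + F.nu j)) →
      ∀ i, m i ≤ v i := by
    intro g v hv hlo
    refine ge_all hq hm hv fun i hi => ?_
    have h1 := lt_of_lo hv (hlo i)
    have h2 := hyS i hi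
    have h3 : (m i : ℝ) - 1 < v i := by linarith
    have h4 : (m i : ℝ) < v i + 1 := by linarith
    exact Nat.lt_succ_iff.1 (by exact_mod_cast h4)
  -- node kills
  have hnode : ∀ (c : F.K) (i i' : F.I), F.e1 c = i → F.e2 c = some i' → ∀ (a' b' : ℕ), 0 < a' →
      0 < b' → (a' = 1 ∨ b' = 1) → a' ≤ a → b' ≤ a →
      (dg F.M q i = 0 → i ∈ Tw F.M q (fun i => (F.nu i : ℝ)) ∧ dg F.M q i' ≠ 0 ∧ a' = 1 ∧ b' = a) →
      (dg F.M q i' = 0 → i' ∈ Tw F.M q (fun i => (F.nu i : ℝ)) ∧ dg F.M q i ≠ 0 ∧ a' = a ∧ b' = 1) →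
      ∃ g : E3 → ℂ, AnalyticAt ℂ g 0 ∧ (∀ j, Lo F g j (y j + F.nu j)) ∧
        ∀ H, F.Fac g m c (0, 0) H → H (0, 0) ≠ 0 := by
    intro c i i' hc1 hc2 a' b' ha' hb' hab ha'a hb'a hTi hTi'
    have haR' : (1 : ℝ) ≤ a' := by exact_mod_cast ha'
    have hbR' : (1 : ℝ) ≤ b' := by exact_mod_cast hb'
    have ha'a' : (a' : ℝ) ≤ a := by exact_mod_cast ha'a
    have hb'a' : (b' : ℝ) ≤ a := by exact_mod_cast hb'a
    refine hE c i i' hc1 hc2 a' b' ha' hb' hab m y hmD hmI hyI hym fun j => ?_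
    rw [hzm i, hzm i']
    have hkap0 : 0 ≤ (a' : ℝ) * z i + b' * z i' :=
      add_nonneg (mul_nonneg (by linarith) (hzpos i).le) (mul_nonneg (by linarith) (hzpos i').le)
    have hkap : (a' : ℝ) * z i + b' * z i' ≤ a * |Z| + a * |Z| := by
      have h1 : (a' : ℝ) * z i ≤ a * |Z| :=
        mul_le_mul ha'a' (hZa i) (hzpos i).le haR.le
      have h2 : (b' : ℝ) * z i' ≤ a * |Z| :=
        mul_le_mul hb'a' (hZa i') (hzpos i').le haR.le
      linarith
    have hbd : ∀ t : ℝ, 1 ≤ t → B * (((a' : ℝ) * z i + b' * z i') / t) ≤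
        |B| * (a * |Z| + a * |Z|) := by
      intro t ht
      refine (hBt _ (div_nonneg hkap0 (by linarith))).trans ?_
      refine mul_le_mul_of_nonneg_left ?_ (abs_nonneg B)
      exact (div_le_self hkap0 ht).trans hkap
    have hK : 0 ≤ |B| * (a * |Z| + a * |Z|) := by positivity
    by_cases hj : dg F.M q j = 0
    · have hdj : dg F.M y j = dg F.M w j := by rw [hdy, hj]; ring
      rw [hdj]
      by_cases hi : j ∈ orb G i
      · have hi0 : dg F.M q i = 0 := by rw [← hqorb i j hi]; exact hj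
        obtain ⟨h1, h2, h3, h4⟩ := hTi hi0
        have hi' : j ∉ orb G i' := fun h => h2 (by rw [← hqorb i' j h]; exact hj)
        rw [on_mem hi, on_notMem hi', hdw i j hi, add_zero]
        have h5 := hw4 i' i h2 h1
        have h6 := hBt (((a : ℝ) * z i' + z i) / a)
          (div_nonneg (add_nonneg (mul_nonneg haR.le (hzpos i').le) (hzpos i).le) haR.le)
        rw [h3, h4]
        have h7 : (((1 : ℕ) : ℝ) * z i + a * z i') / a = (a * z i' + z i) / a := by
          push_cast; ring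
        rw [h7]
        simp only [hz] at h6 ⊢
        linarith
      · rw [on_notMem hi, zero_add]
        by_cases hi' : j ∈ orb G i'
        · have hi0 : dg F.M q i' = 0 := by rw [← hqorb i' j hi']; exact hj
          obtain ⟨h1, h2, h3, h4⟩ := hTi' hi0
          rw [on_mem hi', hdw i' j hi']
          have h5 := hw4 i i' h2 h1
          have h6 := hBt (((a : ℝ) * z i + z i') / a)
            (div_nonneg (add_nonneg (mul_nonneg haR.le (hzpos i).le) (hzpos i').le) haR.le)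
          rw [h3, h4]
          have h7 : ((a : ℝ) * z i + ((1 : ℕ) : ℝ) * z i') / a = (a * z i + z i') / a := by
            push_cast; ring
          rw [h7]
          simp only [hz] at h6 ⊢
          linarith
        · rw [on_notMem hi', add_zero]
          exact hw3 j hj
    · refine hpos j hj _ ?_
      have h1 : on (orb G i) (B * ((a' * z i + b' * z i') / b')) j ≤
          |B| * (a * |Z| + a * |Z|) := on_le hK (hbd _ hbR')
      have h2 : on (orb G i') (B * ((a' * z i + b' * z i') / a')) j ≤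
          |B| * (a * |Z| + a * |Z|) := on_le hK (hbd _ haR')
      have h3 : 0 ≤ |B| * (|Z| + 1) := by positivity
      simp only [hEdef]; linarith
  -- null components
  have hnullC : ∀ i, dg F.M q i = 0 → ∃ g : E3 → ℂ, AnalyticAt ℂ g 0 ∧ ∃ v, F.Ord g v ∧
      (∀ j, m j ≤ v j) ∧ v i = m i := by
    intro i hi
    by_cases hiT : i ∈ Tw F.M q (fun i => (F.nu i : ℝ))
    · obtain ⟨l, b, hil, hlb, hb⟩ := exists_exit hr hi
      have hl0 : dg F.M q l = 0 := NP.null hil hi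
      have hlT : l ∈ Tw F.M q (fun i => (F.nu i : ℝ)) :=
        ⟨hl0, fun j hj => hiT.2 j (hil.trans hj)⟩
      have hlb' : l ≠ b := fun h => hb (h ▸ hl0)
      have hkill : ∃ c, (F.e1 c = l ∨ F.e2 c = some l) ∧ ∃ g : E3 → ℂ, AnalyticAt ℂ g 0 ∧
          (∀ j, Lo F g j (y j + F.nu j)) ∧ ∀ H, F.Fac g m c (0, 0) H → H (0, 0) ≠ 0 := by
        obtain ⟨c, ⟨h1, h2⟩ | ⟨h1, h2⟩⟩ := hadj.node l b hlb' hlb
        · exact ⟨c, Or.inl h1, hnode c l b h1 h2 1 a one_pos ha (Or.inl rfl) ha le_rfl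
            (fun _ => ⟨hlT, hb, rfl, rfl⟩) (fun h => absurd h hb)⟩
        · exact ⟨c, Or.inr h2, hnode c b l h1 h2 a 1 ha one_pos (Or.inr rfl) le_rfl ha
            (fun h => absurd h hb) (fun _ => ⟨hlT, hb, rfl, rfl⟩)⟩
      obtain ⟨c, hc, g, hg, hlo, hkl⟩ := hkill
      obtain ⟨v, hv⟩ := F.exists_Ord hg (freq_of_kill hg (F.mem_SF1 c (by simp)) hkl)
      have hmv := hge g v hv hlo
      have hek := eq_of_kill hv hmv hkl
      have hvl : v l = m l := by
        rcases hc with hc | hc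
        · rw [← hc]; exact hek.1
        · exact hek.2 l hc
      exact ⟨g, hg, v, hv, hmv, prop_null hv hmv hm (NP.symm F.form hil hi) hl0 hvl⟩
    · have h1 : ∃ j, NP F.M q i j ∧ q j = F.nu j := by
        by_contra hcon
        push Not at hcon
        exact hiT ⟨hi, hcon⟩
      obtain ⟨j, hij, hjS⟩ := h1
      have hj0 : dg F.M q j = 0 := NP.null hij hi
      obtain ⟨e, hje, he0, heS, hyk⟩ := hkN j hj0 hjS
      obtain ⟨y', b1, b2, b3, b4, b5⟩ := hyk k (hkKN j)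
      obtain ⟨g, hg, hlo, hex⟩ := hN e (not_th hrot hq hr hT he0 heS) m y' hmD hmI b5
        (fun l hl => hdgm l (by rw [hqorb e l hl]; exact he0))
        (fun l hl => by rw [hm l]; exact b2 l hl) (fun l hl => by rw [hm l]; exact b3 l hl) b1
      obtain ⟨v, hv⟩ := F.exists_Ord hg (freq_of_ex (hex e (mem_orb e)))
      have hmv : ∀ l, m l ≤ v l := by
        refine ge_all hq hm hv fun l hl => ?_
        by_cases hlo' : l ∈ orb G e
        · exact (eq_of_ex hv (hex l hlo')).ge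
        · have h1 := lt_of_lo hv (hlo l hlo')
          have h2 := b4 l hl
          rw [← hm l] at h2
          have h4 : (m l : ℝ) < v l + 1 := by linarith
          exact Nat.lt_succ_iff.1 (by exact_mod_cast h4)
      have hve : v e = m e := eq_of_ex hv (hex e (mem_orb e))
      have hei : NP F.M q e i := (NP.symm F.form hje hj0).trans (NP.symm F.form hij hi)
      exact ⟨g, hg, v, hv, hmv, prop_null hv hmv hm hei he0 hve⟩
  -- point kills
  have hpoint : ∀ (c : F.K) (p₀ : ℂ × ℂ) (i : F.I), p₀ ∈ F.SF c →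
      ((F.e1 c = i ∧ p₀.1 = 0 ∧ (F.e2 c = none ∨ p₀.2 ≠ 0)) ∨
        (F.e2 c = some i ∧ p₀.2 = 0 ∧ p₀.1 ≠ 0)) → dg F.M q i ≠ 0 →
      ∃ g : E3 → ℂ, AnalyticAt ℂ g 0 ∧ (∀ j, Lo F g j (y j + F.nu j)) ∧
        ∀ H, F.Fac g m c p₀ H → H p₀ ≠ 0 := by
    intro c p₀ i hp₀ hcase hi
    refine hP c p₀ i hp₀ hcase m y hmD hmI hyI hym fun j => ?_
    rw [hzm i]
    by_cases hj : dg F.M q j = 0
    · have hji : j ∉ orb G i := fun h => hi (by rw [← hqorb i j h]; exact hj)
      rw [on_notMem hji, add_zero, hdy, hj, mul_zero, zero_add]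
      exact hw3 j hj
    · refine hpos j hj _ ?_
      have h3 : 0 ≤ |B| * (|Z| + 1) := by positivity
      have h4 : 0 ≤ 2 * (|B| * (a * |Z| + a * |Z|)) := by positivity
      have h5 : on (orb G i) (B * (z i + 1)) j ≤ |B| * (|Z| + 1) := by
        refine on_le h3 ((hBt _ (by linarith [hzpos i])).trans ?_)
        exact mul_le_mul_of_nonneg_left (by linarith [hZa i]) (abs_nonneg B)
      simp only [hEdef]; linarith
  have hfin : ∀ (c : F.K) (p₀ : ℂ × ℂ), p₀ ∈ F.SF c →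
      (∃ g : E3 → ℂ, AnalyticAt ℂ g 0 ∧ (∀ j, Lo F g j (y j + F.nu j)) ∧
        ∀ H, F.Fac g m c p₀ H → H p₀ ≠ 0) →
      ∃ g : E3 → ℂ, AnalyticAt ℂ g 0 ∧ F.Ge g m ∧ F.Gen g m c p₀ := by
    rintro c p₀ hp₀ ⟨g, hg, hlo, hkl⟩
    obtain ⟨v, hv⟩ := F.exists_Ord hg (freq_of_kill hg hp₀ hkl)
    have hmv := hge g v hv hlo
    exact ⟨g, hg, ge_of_le hv hmv, gen_of_kill hv hmv hp₀ hkl⟩
  have hnullG : ∀ (c : F.K) (p₀ : ℂ × ℂ) (i : F.I), p₀ ∈ F.SF c →
      ((F.e1 c = i ∧ p₀.1 = 0) ∨ (F.e2 c = some i ∧ p₀.2 = 0)) → dg F.M q i = 0 →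
      ∃ g : E3 → ℂ, AnalyticAt ℂ g 0 ∧ F.Ge g m ∧ F.Gen g m c p₀ := by
    intro c p₀ i hp₀ hon hi
    obtain ⟨g, hg, v, hv, hmv, hvi⟩ := hnullC i hi
    exact ⟨g, hg, ge_of_le hv hmv, gen_of_null hadj hv hmv (hdgm i hi) hvi hp₀ hon⟩
  refine ⟨q, k, m, hq, ?_, hm, fun c p₀ hp₀ => ?_⟩
  · have : (2 : ℝ) < k := hn2.trans_le hknR
    exact_mod_cast this.le
  by_cases h1 : p₀.1 = 0
  · by_cases hi : dg F.M q (F.e1 c) = 0
    · exact hnullG c p₀ _ hp₀ (Or.inl ⟨rfl, h1⟩) hi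
    · cases hc : F.e2 c with
      | none => exact hfin c p₀ hp₀ (hpoint c p₀ _ hp₀ (Or.inl ⟨rfl, h1, Or.inl hc⟩) hi)
      | some i' =>
        by_cases h2 : p₀.2 = 0
        · by_cases hi' : dg F.M q i' = 0
          · exact hnullG c p₀ _ hp₀ (Or.inr ⟨hc, h2⟩) hi'
          · have hp : p₀ = (0, 0) := Prod.ext h1 h2
            rw [hp] at hp₀ ⊢
            exact hfin c (0, 0) hp₀ (hnode c _ i' rfl hc 1 1 one_pos one_pos (Or.inl rfl) ha ha
              (fun h => absurd h hi) (fun h => absurd h hi'))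
        · exact hfin c p₀ hp₀ (hpoint c p₀ _ hp₀ (Or.inl ⟨rfl, h1, Or.inr h2⟩) hi)
  · have h2 : F.e2 c ≠ none ∧ p₀.2 = 0 := hp₀.2.resolve_left h1
    obtain ⟨i', hc⟩ := Option.ne_none_iff_exists'.1 h2.1
    by_cases hi' : dg F.M q i' = 0
    · exact hnullG c p₀ _ hp₀ (Or.inr ⟨hc, h2.2⟩) hi'
    · exact hfin c p₀ hp₀ (hpoint c p₀ i' hp₀ (Or.inr ⟨hc, h2.2, h1⟩) hi')

end Crest.Agent.R257.Ex_121
end
end

-- ▼ part R257/ExF1_121
section

/-!
Row 257 (S0395), C-EXT (helper121): extension of invariant functions from one graph component to the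
whole graph, in the presence of a group of automorphisms.
-/

set_option autoImplicit false
set_option linter.unusedSectionVars false

noncomputable section

namespace Crest.Agent.R257.ExF_121

open Crest.Agent.R257.Gr1_157 Crest.Agent.R257.FrBP_808

variable {ι : Type} {H : Type*} [Group H] (ρ : H →* Equiv.Perm ι) (A : Set ι)

theorem inv_self (γ : H) (i : ι) : ρ γ⁻¹ (ρ γ i) = i := by
  rw [← Equiv.Perm.mul_apply, ← map_mul]; simp

theorem self_inv (γ : H) (i : ι) : ρ γ (ρ γ⁻¹ i) = i := by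
  rw [← Equiv.Perm.mul_apply, ← map_mul]; simp

/-- the permutations of `A` which come from the group -/
def stab : Subgroup (Equiv.Perm A) where
  carrier := {σ | ∃ γ : H, ∀ a : A, ρ γ a = σ a}
  one_mem' := ⟨1, fun a => by simp⟩
  mul_mem' := by
    rintro σ τ ⟨γ, hγ⟩ ⟨δ, hδ⟩
    refine ⟨γ * δ, fun a => ?_⟩
    rw [map_mul, Equiv.Perm.mul_apply, hδ a, hγ (τ a)]
    rfl
  inv_mem' := by
    rintro σ ⟨γ, hγ⟩
    refine ⟨γ⁻¹, fun a => ?_⟩
    rw [map_inv, Equiv.Perm.inv_eq_iff_eq, hγ (σ⁻¹ a)]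
    simp

variable {A}

/-- `A` is a block -/
def Blk (A : Set ι) : Prop := ∀ (γ : H) (a : ι), a ∈ A → ρ γ a ∈ A → ∀ b ∈ A, ρ γ b ∈ A

variable {ρ}

theorem exists_stab (hb : Blk ρ A) {γ : H} {a : ι} (ha : a ∈ A) (h : ρ γ a ∈ A) :
    ∃ σ ∈ stab ρ A, ∀ b : A, ρ γ b = σ b := by
  have h1 : ∀ b : A, ρ γ b ∈ A := fun b => hb γ a ha h b b.2
  have h2 : ∀ b : A, ρ γ⁻¹ b ∈ A := fun b => hb γ⁻¹ (ρ γ a) h (by
    rw [inv_self]; exact ha) b b.2
  refine ⟨⟨fun b => ⟨ρ γ b, h1 b⟩, fun b => ⟨ρ γ⁻¹ b, h2 b⟩, fun b => ?_, fun b => ?_⟩,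
    ⟨γ, fun b => rfl⟩, fun b => rfl⟩
  · refine Subtype.ext ?_
    exact inv_self ρ γ b
  · refine Subtype.ext ?_
    exact self_inv ρ γ b

variable (ρ) in
open Classical in
/-- extension of `y` by `z` -/
def ext {α : Type*} (y : A → α) (z : ι → α) (i : ι) : α :=
  if h : ∃ γ, ρ γ i ∈ A then y ⟨ρ h.choose i, h.choose_spec⟩ else z i

variable {α : Type*} {y : A → α} {z : ι → α}

/-- invariance -/
def InvA (ρ : H →* Equiv.Perm ι) {A : Set ι} {α : Type*} (y : A → α) : Prop :=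
  ∀ σ ∈ stab ρ A, ∀ a, y (σ a) = y a

theorem ext_eq (hb : Blk ρ A) (hy : InvA ρ y) {i : ι} {γ : H} (h : ρ γ i ∈ A) :
    ext ρ y z i = y ⟨ρ γ i, h⟩ := by
  have h0 : ∃ γ, ρ γ i ∈ A := ⟨γ, h⟩
  unfold ext
  rw [dif_pos h0]
  have h1 := h0.choose_spec
  have h2 : ρ (γ * h0.choose⁻¹) (ρ h0.choose i) = ρ γ i := by
    rw [map_mul, Equiv.Perm.mul_apply, inv_self]
  obtain ⟨σ, hσ, hσ'⟩ := exists_stab hb h1 (by rw [h2]; exact h)
  rw [← hy σ hσ]
  congr 1
  refine Subtype.ext ?_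
  rw [← hσ' ⟨ρ h0.choose i, h1⟩]
  exact h2

theorem ext_coe (hb : Blk ρ A) (hy : InvA ρ y) (a : A) : ext ρ y z a = y a := by
  have h : ρ 1 (a : ι) ∈ A := by simp
  rw [ext_eq hb hy h]
  congr 1
  exact Subtype.ext (by simp)

theorem ext_not {i : ι} (h : ¬ ∃ γ, ρ γ i ∈ A) : ext ρ y z i = z i := by
  unfold ext
  rw [dif_neg h]

theorem ext_inv (hb : Blk ρ A) (hy : InvA ρ y) (hz : ∀ γ i, z (ρ γ i) = z i) (γ : H) (i : ι) :
    ext ρ y z (ρ γ i) = ext ρ y z i := by
  by_cases h : ∃ δ, ρ δ i ∈ A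
  · obtain ⟨δ, hδ⟩ := h
    have h1 : ρ (δ * γ⁻¹) (ρ γ i) = ρ δ i := by
      rw [map_mul, Equiv.Perm.mul_apply, inv_self]
    have h2 : ρ (δ * γ⁻¹) (ρ γ i) ∈ A := by rw [h1]; exact hδ
    rw [ext_eq hb hy h2, ext_eq hb hy hδ]
    congr 1
    exact Subtype.ext h1
  · have h1 : ¬ ∃ δ, ρ δ (ρ γ i) ∈ A := by
      rintro ⟨δ, hδ⟩
      exact h ⟨δ * γ, by rw [map_mul, Equiv.Perm.mul_apply]; exact hδ⟩
    rw [ext_not h, ext_not h1, hz]

/-- a property of an invariant function holds if it holds on `A` and off the rotates of `A` -/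
theorem ext_ind {P : ι → Prop} (hP : ∀ γ i, P (ρ γ i) → P i) (h1 : ∀ a : A, P a)
    (h2 : ∀ i, (¬ ∃ γ, ρ γ i ∈ A) → P i) (i : ι) : P i := by
  by_cases h : ∃ γ, ρ γ i ∈ A
  · obtain ⟨γ, hγ⟩ := h
    exact hP γ i (h1 ⟨_, hγ⟩)
  · exact h2 i h

variable [Fintype ι] {M : ι → ι → ℝ}

theorem dg_perm (hM : ∀ (γ : H) i j, M (ρ γ i) (ρ γ j) = M i j) (x : ι → ℝ) (γ : H) (i : ι) :
    dg M (fun j => x (ρ γ j)) i = dg M x (ρ γ i) := by
  unfold dg
  rw [← Equiv.sum_comp (ρ γ) (fun j => M (ρ γ i) j * x j)]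
  exact Finset.sum_congr rfl fun j _ => by rw [hM]

theorem dg_ext [Fintype A] (hb : Blk ρ A) (hM : ∀ (γ : H) i j, M (ρ γ i) (ρ γ j) = M i j)
    (hs : ∀ i j, M i j = M j i) (hcl : ∀ i ∈ A, ∀ j, M i j ≠ 0 → j ∈ A) {y : A → ℝ} {z : ι → ℝ}
    (hy : InvA ρ y) (hz : ∀ γ i, z (ρ γ i) = z i) (i : ι) :
    dg M (ext ρ y z) i = ext ρ (fun a => dg (rM M A) y a) (dg M z) i := by
  have hA : ∀ a : A, dg M (ext ρ y z) a = dg (rM M A) y a := by
    intro a
    rw [← dg_rM hcl]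
    congr 1
    funext b
    exact ext_coe hb hy b
  have hdy : InvA ρ (fun a => dg (rM M A) y a) := by
    rintro σ ⟨γ, hγ⟩ a
    show dg (rM M A) y (σ a) = dg (rM M A) y a
    rw [← hA, ← hA, ← hγ a, ← dg_perm hM]
    congr 1
    funext j
    exact ext_inv hb hy hz γ j
  by_cases h : ∃ γ, ρ γ i ∈ A
  · obtain ⟨γ, hγ⟩ := h
    rw [ext_eq hb hdy hγ, ← hA ⟨ρ γ i, hγ⟩, ← dg_perm hM]
    congr 1
    funext j
    exact (ext_inv hb hy hz γ j).symm
  · rw [ext_not h]
    unfold dg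
    refine Finset.sum_congr rfl fun j _ => ?_
    by_cases h0 : M i j = 0
    · rw [h0, zero_mul, zero_mul]
    · rw [ext_not]
      rintro ⟨γ, hγ⟩
      refine h ⟨γ, hcl _ hγ _ ?_⟩
      rw [hM, hs]; exact h0

/-- a graph component is a block -/
theorem blk_cls (hM : ∀ (γ : H) i j, M (ρ γ i) (ρ γ j) = M i j) (hs : ∀ i j, M i j = M j i) (e : ι) :
    Blk ρ (cls M e) := by
  intro γ a ha hγa b hb
  have hsym : ∀ {i j : ι}, Relation.ReflTransGen (fun a b => M a b ≠ 0) i j →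
      Relation.ReflTransGen (fun a b => M a b ≠ 0) j i := by
    intro i j h
    have h2 : Relation.ReflTransGen (Function.swap fun a b => M a b ≠ 0) j i :=
      Relation.reflTransGen_swap.2 h
    refine Relation.ReflTransGen.mono (fun a b hab => ?_) _ _ h2
    show M a b ≠ 0
    rw [hs a b]; exact hab
  have h1 : Relation.ReflTransGen (fun a b => M a b ≠ 0) a b := (hsym ha).trans hb
  have h2 : Relation.ReflTransGen (fun a b => M a b ≠ 0) (ρ γ a) (ρ γ b) := by
    have h3 : ∀ c, Relation.ReflTransGen (fun a b => M a b ≠ 0) a c →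
        Relation.ReflTransGen (fun a b => M a b ≠ 0) (ρ γ a) (ρ γ c) := by
      intro c hc
      induction hc with
      | refl => exact Relation.ReflTransGen.refl
      | tail _ hbc ih => exact ih.tail (by rw [hM]; exact hbc)
    exact h3 b h1
  exact Relation.ReflTransGen.trans hγa h2

/-- an invariant strictly superharmonic function -/
theorem exists_z (hF : IForm M) (hM : ∀ (γ : H) i j, M (ρ γ i) (ρ γ j) = M i j) :
    ∃ z : ι → ℝ, (∀ i, dg M z i = -1) ∧ ∀ (γ : H) i, z (ρ γ i) = z i := by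
  obtain ⟨z, hz⟩ := exists_dg hF (fun _ => (-1 : ℝ))
  refine ⟨z, hz, fun γ i => ?_⟩
  exact congrFun (sol_unique hF (S := Set.univ) (x := fun j => z (ρ γ j)) (y := z)
    (fun i hi => absurd (Set.mem_univ i) hi) (fun i _ => by rw [dg_perm hM, hz, hz])) i

end Crest.Agent.R257.ExF_121
end
end

-- ▼ part R257/ExF_121

/-!
Row 257 (S0395), C-EXT (helper121): the rotations of the frame `D.fr` (808) and the extension of
invariant data from its graph component to all components.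

* `GG D hG`    : the group; `rot_fr : Rot D.fr (GG D hG)`; `mem_orb_iff`;
* `exists_ext` : the extension; `exo_eq` : the orbit functions.
-/

set_option autoImplicit false
set_option linter.unusedSectionVars false

open Polynomial Set Filter Topology Metric
open Crest.AlgGeometry.Germ Crest.Agent.R257.AJ387 Crest.Agent.R257.T387
open Crest.Agent.R257.Defs_219 Crest.Agent.R257.Gr1_157
open Crest.Agent.R257.BP_258 Crest.Agent.R257.Rot1_558 Crest.Agent.R257.Vt1_558
open Crest.Agent.R257.Vt2_558 Crest.Agent.R257.Vt3_558 Crest.Agent.R257.Vt4_558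
open Crest.Agent.R257.Vt5_558 Crest.Agent.R257.Vt6_558 Crest.Agent.R257.Vt7_558
open Crest.Agent.R257.Vt8_558 (exists_vert)
open Crest.Agent.R257.Tb_941 Crest.Agent.R257.Tb3_941
open Crest.Agent.R257.FrBP_808 Crest.Agent.R257.ExF_121
open Crest.Agent.R257.KiD_121

noncomputable section

namespace Crest.Agent.R257.ExF_121

variable {f : (Fin 3 → ℂ) → ℂ} {T : TB f} {U : Tub T} {S : Sh T}

/-- `nu` is invariant (558's proof of `rot'`) -/
theorem nu_pi (hG : GalPt T) (hR : RetStmt U) (L : Lab U S) {nu : II U → ℤ}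
    {n1 n2 : Ch T.m → Fin T.d → ℤ} (hJ : Jac L nu n1 n2) {ξ : ℂ} (hξ : ξ ^ T.N = 1) (E : II U) :
    nu (pi hG hR hξ E) = nu E := by
  obtain ⟨i, k, w₀, j, hok, hE⟩ := exists_vert hR L E
  set c : Ch T.m := .vert i k w₀ with hc
  obtain ⟨τ, hτ⟩ := exists_tau hG hξ S hok.1
  have hok' : Ok S (rc T ξ c) := ok_rc S hG hξ hok
  have hE' : L.e1 (rc T ξ c) (τ j) = some (pi hG hR hξ E) := by
    rw [lab1 hG hR hξ L hok (hτ j), hE]; rfl
  obtain ⟨K, hK, hb⟩ := hJ.bd c hok j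
  obtain ⟨K', hK', hb'⟩ := hJ.bd _ hok' (τ j)
  rw [hJ.some1 c hok j E hE, hJ.vert c hok trivial j] at hb
  rw [hJ.some1 _ hok' _ _ hE', hJ.vert _ hok' ((isV_rc ξ c).2 trivial) (τ j)] at hb'
  have hr := S.pos c
  have hr' := S.pos (rc T ξ c)
  have hsmall : ∀ {r : ℝ}, 0 < r → ∀ᶠ t in 𝓝[≠] (0 : ℂ), ‖t‖ < r := fun {r} hr => by
    have : ∀ᶠ t in 𝓝 (0 : ℂ), ‖t‖ < r :=
      continuous_norm.continuousAt.eventually (gt_mem_nhds (by simpa using hr))
    exact this.filter_mono nhdsWithin_le_nhds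
  have h1 : ∀ᶠ t in 𝓝[≠] (0 : ℂ), K⁻¹ * ‖t‖ ^ (-nu E - 1) ≤ dn S c j (t, 0) ∧
      dn S c j (t, 0) ≤ K * ‖t‖ ^ (-nu E - 1) := by
    filter_upwards [hsmall hr, self_mem_nhdsWithin] with t h2 h3
    obtain ⟨-, h4, h5⟩ := hb (t, 0) h2.le (by simpa using hr.le) h3
    simp only [neg_neg, sub_self, zpow_zero, mul_one] at h4 h5
    refine ⟨?_, h4⟩
    rw [inv_mul_le_iff₀ hK]
    exact h5
  have h2 : ∀ᶠ t in 𝓝[≠] (0 : ℂ), K'⁻¹ * ‖t‖ ^ (-nu (pi hG hR hξ E) - 1) ≤ dn S c j (t, 0) ∧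
      dn S c j (t, 0) ≤ K' * ‖t‖ ^ (-nu (pi hG hR hξ E) - 1) := by
    filter_upwards [hsmall hr, hsmall hr', self_mem_nhdsWithin] with t e1 e2 e3
    obtain ⟨r1, r2⟩ := rp_norm hξ c (t, (0 : ℂ))
    obtain ⟨-, h4, h5⟩ := hb' (rp T ξ c (t, 0)) (by rw [r1]; exact e2.le)
      (by rw [r2]; simpa using hr'.le) ((gen_rot hξ c _).2 e3)
    have hm : (t, (0 : ℂ)) ∈ BD (2 * S.r c) (2 * S.r c) :=
      ⟨by show ‖t‖ < _; linarith, by simpa using hr⟩
    have hm' : (t, (0 : ℂ)) ∈ BD (2 * S.r (rc T ξ c)) (2 * S.r (rc T ξ c)) :=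
      ⟨by show ‖t‖ < _; linarith, by simpa using hr'⟩
    have h6 := dn_rot hG hξ S hok.1 hm hm' (hτ j (t, 0)
      (by
        show ‖t‖ < 2 * min (S.r c) (S.r (rc T ξ c))
        have := lt_min e1 e2
        have := lt_min hr hr'
        linarith)
      (by
        show ‖(0 : ℂ)‖ < 2 * min (S.r c) (S.r (rc T ξ c))
        have := lt_min hr hr'
        rw [norm_zero]; linarith))
    rw [h6, r1, r2] at h4 h5
    simp only [neg_neg, sub_self, zpow_zero, mul_one] at h4 h5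
    refine ⟨?_, h4⟩
    rw [inv_mul_le_iff₀ hK']
    exact h5
  have h3 := exp_unique (inv_pos.2 hK') (inv_pos.2 hK) h2 h1
  linarith

/-- the two descriptions of the rotations -/
theorem forall_pi {P : II U → II U → Prop} (hG : GalPt T) (hR : RetStmt U)
    (h : ∀ (γ : Ru T) (E : II U), P (piH hG γ E) E) {ξ : ℂ} (hξ : ξ ^ T.N = 1) (E : II U) :
    P (pi hG hR hξ E) E := by
  obtain ⟨γ, rfl⟩ := exists_vl hξ
  exact h γ E

theorem exo_pos (hG : GalPt T) (hR : RetStmt U) {E E' : II U} (h : ∃ γ : Ru T, piH hG γ E = E') :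
    exo hG hR (some E) E' = 1 := by
  obtain ⟨γ, h⟩ := h
  unfold exo
  rw [if_pos]
  exact ⟨vl γ, vl_pow γ, congrArg some h⟩

theorem exo_neg (hG : GalPt T) (hR : RetStmt U) {E E' : II U} (h : ¬ ∃ γ : Ru T, piH hG γ E = E') :
    exo hG hR (some E) E' = 0 := by
  unfold exo
  rw [if_neg]
  rintro ⟨ξ, hξ, h'⟩
  obtain ⟨γ, rfl⟩ := exists_vl hξ
  exact h ⟨γ, Option.some.inj h'⟩

theorem exo_none (hG : GalPt T) (hR : RetStmt U) (E' : II U) : exo hG hR none E' = 0 := by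
  unfold exo
  rw [if_neg]
  rintro ⟨ξ, hξ, h'⟩
  exact absurd h' (by simp)


section frame

variable {L : Lab U S} {nu : II U → ℤ} {n1 n2 : Ch T.m → Fin T.d → ℤ} [Fintype (II U)]
  (D : FrIn L nu n1 n2) (hG : GalPt T)

theorem Mx_piH (γ : Ru T) (E E' : II U) : Mx L (piH hG γ E) (piH hG γ E') = Mx L E E' :=
  Mx_rot hG (retStmt U) (vl_pow γ) L E E'

include D in
theorem nu_piH (γ : Ru T) (E : II U) : nu (piH hG γ E) = nu E :=
  nu_pi hG (retStmt U) L D.jac (vl_pow γ) E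

theorem Mx_symm (E E' : II U) : Mx L E E' = Mx L E' E := (LabI_387.iform L).symm E E'

theorem blk : Blk (piH (U := U) hG) D.I0 := blk_cls (Mx_piH hG) (Mx_symm) _

variable {D} in
/-- a component of the frame, as a component -/
def iU (i : D.fr.I) : II U := Subtype.val (p := fun E => E ∈ D.I0) i

theorem iU_mem (i : D.fr.I) : iU i ∈ D.I0 := Subtype.property (p := fun E => E ∈ D.I0) i

/-- the group -/
def GG : Subgroup (Equiv.Perm D.fr.I) := stab (piH (U := U) hG) D.I0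

theorem rot_fr : Ex_121.Rot D.fr (GG D hG) where
  M_inv := by
    rintro σ ⟨γ, hγ⟩ i j
    show Mx L (iU (σ i)) (iU (σ j)) = Mx L (iU i) (iU j)
    have h1 : piH hG γ (iU i) = iU (σ i) := hγ i
    have h2 : piH hG γ (iU j) = iU (σ j) := hγ j
    rw [← h1, ← h2]
    exact Mx_piH hG γ _ _
  nu_inv := by
    rintro σ ⟨γ, hγ⟩ i
    show nu (iU (σ i)) = nu (iU i)
    have h1 : piH hG γ (iU i) = iU (σ i) := hγ i
    rw [← h1]
    exact nu_piH D hG γ _

theorem mem_orb_iff (i j : D.fr.I) :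
    j ∈ Ex_121.orb (GG D hG) i ↔ ∃ γ, piH hG γ (iU i) = iU j := by
  constructor
  · rintro ⟨σ, ⟨γ, hγ⟩, rfl⟩
    exact ⟨γ, hγ i⟩
  · rintro ⟨γ, hγ⟩
    obtain ⟨σ, hσ, hσ'⟩ := exists_stab (blk D hG) (γ := γ) (a := iU i) (iU_mem D i)
      (by rw [hγ]; exact iU_mem D j)
    exact ⟨σ, hσ, Subtype.ext ((hσ' i).symm.trans hγ)⟩

/-- extension from the graph component -/
def ex {α : Type} (y : D.fr.I → α) (z : II U → α) : II U → α := ext (piH (U := U) hG) (A := D.I0) y z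

variable {D hG} {α : Type}

theorem ex_coe {y : D.fr.I → α} {z : II U → α} (hy : Ex_121.Inv (GG D hG) y) (i : D.fr.I) :
    ex D hG y z (iU i) = y i := ext_coe (blk D hG) hy i

theorem ex_inv {y : D.fr.I → α} {z : II U → α} (hy : Ex_121.Inv (GG D hG) y)
    (hz : ∀ γ E, z (piH hG γ E) = z E) (γ : Ru T) (E : II U) :
    ex D hG y z (piH hG γ E) = ex D hG y z E := ext_inv (blk D hG) hy hz γ E

theorem ex_not {y : D.fr.I → α} {z : II U → α} {E : II U} (h : ¬ ∃ γ, piH hG γ E ∈ D.I0) :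
    ex D hG y z E = z E := ext_not h

theorem dg_ex {y : D.fr.I → ℝ} {z : II U → ℝ} (hy : Ex_121.Inv (GG D hG) y)
    (hz : ∀ γ E, z (piH hG γ E) = z E) (E : II U) :
    dg (Mx L) (ex D hG y z) E = ex D hG (fun i => dg D.fr.M y i) (dg (Mx L) z) E := by
  let _ : Fintype D.I0 := Fintype.ofFinite _
  exact dg_ext (blk D hG) (Mx_piH hG) Mx_symm (fun _ h1 _ h2 => cls_step h1 h2) hy hz E

/-- an invariant pointwise property -/
theorem ex_all {P : II U → Prop} (hP : ∀ γ E, P (piH hG γ E) → P E) (h1 : ∀ i : D.fr.I, P (iU i))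
    (h2 : ∀ E, (¬ ∃ γ, piH hG γ E ∈ D.I0) → P E) (E : II U) : P E :=
  ext_ind (ρ := piH (U := U) hG) (A := D.I0) hP h1 h2 E

variable (D hG) in
/-- **the extension** -/
theorem exists_ext {d : ℕ} (hd : 0 < d) {m : D.fr.I → ℕ} {y : D.fr.I → ℝ} (hmd : ∀ i, d ∣ m i)
    (hm : Ex_121.Inv (GG D hG) m) (hy : Ex_121.Inv (GG D hG) y) :
    ∃ (mt : II U → ℕ) (yt : II U → ℝ), (∀ E, d ∣ mt E) ∧
      (∀ γ E, mt (piH hG γ E) = mt E) ∧ (∀ γ E, yt (piH hG γ E) = yt E) ∧
      (∀ i : D.fr.I, mt (iU i) = m i) ∧ (∀ i : D.fr.I, yt (iU i) = y i) ∧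
      (∀ E, (¬ ∃ γ, piH hG γ E ∈ D.I0) → yt E + nu E < mt E) ∧
      ∀ e : D.fr.I → ℝ, Ex_121.Inv (GG D hG) e → (∀ j, dg D.fr.M y j + e j < 0) →
        ∀ E, dg (Mx L) yt E + ex D hG e (fun _ => 0) E < 0 := by
  obtain ⟨z, hz, hzI⟩ := exists_z (ρ := piH (U := U) hG) (LabI_387.iform L) (Mx_piH hG)
  obtain ⟨K, hK⟩ : ∃ K : ℕ, ∀ E, z E + nu E < (d * K : ℕ) := by
    obtain ⟨B, hB⟩ := Finite.exists_le (fun E => z E + nu E)
    obtain ⟨K, hK⟩ := exists_nat_gt B
    refine ⟨K, fun E => (hB E).trans_lt (hK.trans_le ?_)⟩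
    exact_mod_cast Nat.le_mul_of_pos_left K hd
  refine ⟨ex D hG m (fun _ => d * K), ex D hG y z, ?_, fun γ E => ex_inv hm (fun _ _ => rfl) γ E,
    fun γ E => ex_inv hy hzI γ E, fun i => ex_coe hm i, fun i => ex_coe hy i, ?_, ?_⟩
  · refine ex_all (D := D) (hG := hG) (fun γ E h => ?_) (fun i => ?_) (fun E h => ?_)
    · rwa [ex_inv hm (fun _ _ => rfl)] at h
    · have := ex_coe (z := fun _ => d * K) hm i
      rw [this]; exact hmd _
    · rw [ex_not h]; exact dvd_mul_right _ _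
  · intro E h
    rw [ex_not h, ex_not h]
    exact hK E
  · intro e he hlt
    refine ex_all (D := D) (hG := hG) (fun γ E h => ?_) (fun i => ?_) (fun E h => ?_)
    · rw [ex_inv he (fun _ _ => rfl), dg_ex hy hzI,
        ex_inv (y := fun i => dg D.fr.M y i) ?_ ?_] at h
      · rw [dg_ex hy hzI]; exact h
      · rintro σ hσ i
        have h1 := (rot_fr D hG).M_inv σ hσ
        show dg D.fr.M y (σ i) = dg D.fr.M y i
        rw [← Gr4_157.dg_comp h1]
        congr 1
        funext j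
        exact hy σ hσ j
      · intro γ E
        rw [hz, hz]
    · have h1 := ex_coe (z := fun _ => (0 : ℝ)) he i
      rw [h1, dg_ex hy hzI, ex_coe (y := fun i => dg D.fr.M y i) ?_ i]
      · exact hlt i
      · rintro σ hσ i
        have h1 := (rot_fr D hG).M_inv σ hσ
        show dg D.fr.M y (σ i) = dg D.fr.M y i
        rw [← Gr4_157.dg_comp h1]
        congr 1
        funext j
        exact hy σ hσ j
    · rw [ex_not h, dg_ex hy hzI, ex_not h, hz]
      norm_num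

/-- the orbit functions -/
theorem exo_eq (hR : RetStmt U) (i : D.fr.I) (t : ℝ) (E : II U) :
    t * exo hG hR (some (iU i)) E =
      ex D hG (Ex_121.on (Ex_121.orb (GG D hG) i) t) (fun _ => 0) E := by
  have hinvO : ∀ σ ∈ GG D hG, ∀ j : D.fr.I, σ j ∈ Ex_121.orb (GG D hG) i ↔
      j ∈ Ex_121.orb (GG D hG) i := by
    intro σ hσ j
    constructor
    · rintro ⟨τ, hτ, h⟩
      exact ⟨σ⁻¹ * τ, (GG D hG).mul_mem ((GG D hG).inv_mem hσ) hτ, by simp [h]⟩
    · rintro ⟨τ, hτ, rfl⟩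
      exact ⟨σ * τ, (GG D hG).mul_mem hσ hτ, rfl⟩
  have hon : Ex_121.Inv (GG D hG) (Ex_121.on (Ex_121.orb (GG D hG) i) t) := by
    intro σ hσ j
    by_cases h : j ∈ Ex_121.orb (GG D hG) i
    · rw [Ex_121.on_mem h, Ex_121.on_mem ((hinvO σ hσ j).2 h)]
    · rw [Ex_121.on_notMem h, Ex_121.on_notMem fun h' => h ((hinvO σ hσ j).1 h')]
  refine ex_all (D := D) (hG := hG) (P := fun E => t * exo hG hR (some (iU i)) E =
      ex D hG (Ex_121.on (Ex_121.orb (GG D hG) i) t) (fun _ => 0) E) (fun γ E h => ?_)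
      (fun j => ?_) (fun E h => ?_) E
  · rw [ex_inv hon (fun _ _ => rfl)] at h
    rw [← h]
    congr 1
    by_cases h1 : ∃ γ' : Ru T, piH hG γ' (iU i) = E
    · rw [exo_pos hG hR h1, exo_pos hG hR]
      obtain ⟨δ, rfl⟩ := h1
      exact ⟨γ * δ, by rw [map_mul]; rfl⟩
    · rw [exo_neg hG hR h1, exo_neg hG hR]
      rintro ⟨δ, hδ⟩
      exact h1 ⟨γ⁻¹ * δ, by rw [map_mul, Equiv.Perm.mul_apply, hδ, inv_self]⟩
  · have h1 := ex_coe (z := fun _ => (0 : ℝ)) hon j
    rw [h1]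
    by_cases h2 : ∃ γ' : Ru T, piH hG γ' (iU i) = iU j
    · rw [exo_pos hG hR h2, Ex_121.on_mem ((mem_orb_iff D hG i j).2 h2), mul_one]
    · rw [exo_neg hG hR h2, Ex_121.on_notMem fun h3 => h2 ((mem_orb_iff D hG i j).1 h3), mul_zero]
  · rw [ex_not h, exo_neg hG hR, mul_zero]
    rintro ⟨γ, rfl⟩
    exact h ⟨γ⁻¹, by rw [inv_self]; exact iU_mem D i⟩

end frame

end Crest.Agent.R257.ExF_121
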