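import Mathlib
import Crest.Agent.R257.T3_387
import Crest.Agent.R257.OrdL_578
import Crest.Agent.R257.FrmB_547

-- ▼ part R257/Deg1_578
section

/-!
# Row 257, leaf C-DEG (helper578), part 1: the degree formula on the Riemann sphere

* `rational` : `N` holomorphic on `ℂ ∖ S`, `|N| ≍ |w-c|^(k c)` at `c ∈ S`, `|N| ≍ |w|^(-M)` at `∞`;
  then `∑ k c + M ≤ 0`, and `= 0` only if `N` has no zero on `ℂ ∖ S`.
* `cover` : the same for a function on a finite covering (norm over the sheets); the sheets over a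
  punctured neighbourhood of `c` are parametrised by `w = c + β^l`.
-/

set_option autoImplicit false
set_option linter.unusedSectionVars false

open Set Filter Topology Complex Bornology

noncomputable section

namespace Crest.Agent.R257.Deg_578

/-! ### the rational function lemma -/

/-- removable singularities at the points of a finite set -/
theorem exists_entire {S : Finset ℂ} {F : ℂ → ℂ} (hF : DifferentiableOn ℂ F (S : Set ℂ)ᶜ)
    (hb : ∀ c ∈ S, ∃ A : ℝ, ∀ᶠ w in 𝓝[≠] c, ‖F w‖ ≤ A) :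
    ∃ E : ℂ → ℂ, Differentiable ℂ E ∧ ∀ w ∉ S, E w = F w := by
  classical
  refine ⟨fun w => if w ∈ S then limUnder (𝓝[≠] w) F else F w, ?_, fun w hw => if_neg hw⟩
  intro w
  have hfin : (S : Set ℂ).Finite := S.finite_toSet
  by_cases hw : w ∈ S
  · obtain ⟨A, hA⟩ := hb w hw
    have h1 : ((S : Set ℂ) \ {w})ᶜ ∈ 𝓝 w :=
      (hfin.sdiff).isClosed.isOpen_compl.mem_nhds (by simp)
    rw [eventually_nhdsWithin_iff] at hA
    obtain ⟨ε, hε, hsub⟩ := Metric.mem_nhds_iff.1 (Filter.inter_mem hA h1)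
    have hd : DifferentiableOn ℂ F (Metric.ball w ε \ {w}) := by
      intro y hy
      have h2 := (hsub hy.1).2
      have h3 : y ∉ S := fun h4 => h2 ⟨h4, hy.2⟩
      exact (hF y h3).mono fun z hz => by
        intro h4
        exact (hsub hz.1).2 ⟨h4, hz.2⟩
    have hbd : BddAbove (norm ∘ F '' (Metric.ball w ε \ {w})) := by
      refine ⟨A, ?_⟩
      rintro _ ⟨y, hy, rfl⟩
      exact (hsub hy.1).1 hy.2
    have h5 := Complex.differentiableOn_update_limUnder_of_bddAbove (Metric.ball_mem_nhds w hε) hd hbd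
    have h6 : DifferentiableAt ℂ (Function.update F w (limUnder (𝓝[≠] w) F)) w :=
      h5.differentiableAt (Metric.ball_mem_nhds w hε)
    refine h6.congr_of_eventuallyEq ?_
    filter_upwards [Metric.ball_mem_nhds w hε] with y hy
    by_cases hyw : y = w
    · subst hyw
      simp [hw]
    · have h3 : y ∉ S := fun h4 => (hsub hy).2 ⟨h4, hyw⟩
      simp [h3, hyw]
  · have h1 : (S : Set ℂ)ᶜ ∈ 𝓝 w := hfin.isClosed.isOpen_compl.mem_nhds hw
    refine ((hF w hw).differentiableAt h1).congr_of_eventuallyEq ?_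
    filter_upwards [h1] with y hy
    exact if_neg hy

/-- two-sided comparison with an integral power -/
def Cmp (l : Filter ℂ) (f : ℂ → ℂ) (g : ℂ → ℝ) (k : ℤ) : Prop :=
  ∃ a A : ℝ, 0 < a ∧ ∀ᶠ w in l, a * g w ^ k ≤ ‖f w‖ ∧ ‖f w‖ ≤ A * g w ^ k

theorem Cmp.mul {l : Filter ℂ} {f f' : ℂ → ℂ} {g : ℂ → ℝ} {k k' : ℤ} (h : Cmp l f g k)
    (h' : Cmp l f' g k') (hg : ∀ᶠ w in l, 0 < g w) : Cmp l (fun w => f w * f' w) g (k + k') := by
  obtain ⟨a, A, ha, h⟩ := h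
  obtain ⟨a', A', ha', h'⟩ := h'
  refine ⟨a * a', A * A', mul_pos ha ha', ?_⟩
  filter_upwards [h, h', hg] with w h1 h2 h3
  rw [norm_mul, zpow_add₀ h3.ne']
  have h4 : 0 < g w ^ k := zpow_pos h3 _
  have h5 : 0 < g w ^ k' := zpow_pos h3 _
  constructor
  · calc a * a' * (g w ^ k * g w ^ k') = (a * g w ^ k) * (a' * g w ^ k') := by ring
      _ ≤ ‖f w‖ * ‖f' w‖ := mul_le_mul h1.1 h2.1 (by positivity) (norm_nonneg _)
  · calc ‖f w‖ * ‖f' w‖ ≤ (A * g w ^ k) * (A' * g w ^ k') :=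
        mul_le_mul h1.2 h2.2 (norm_nonneg _) ((norm_nonneg _).trans h1.2)
      _ = _ := by ring

theorem Cmp.one {l : Filter ℂ} {g : ℂ → ℝ} : Cmp l (fun _ => 1) g 0 :=
  ⟨1, 1, one_pos, by simp⟩

theorem Cmp.prod {ι : Type*} {l : Filter ℂ} {f : ι → ℂ → ℂ} {g : ℂ → ℝ} {k : ι → ℤ}
    (s : Finset ι) (h : ∀ i ∈ s, Cmp l (f i) g (k i)) (hg : ∀ᶠ w in l, 0 < g w) :
    Cmp l (fun w => ∏ i ∈ s, f i w) g (∑ i ∈ s, k i) := by
  classical
  induction s using Finset.induction_on with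
  | empty => simpa using Cmp.one
  | insert a s ha ih =>
    simp only [Finset.prod_insert ha, Finset.sum_insert ha]
    exact (h a (Finset.mem_insert_self _ _)).mul
      (ih fun i hi => h i (Finset.mem_insert_of_mem hi)) hg

theorem Cmp.pow {l : Filter ℂ} {f : ℂ → ℂ} {g : ℂ → ℝ} {k : ℤ} (h : Cmp l f g k)
    (hg : ∀ᶠ w in l, 0 < g w) (n : ℕ) : Cmp l (fun w => f w ^ n) g (n * k) := by
  have h1 := Cmp.prod (f := fun _ : Fin n => f) (k := fun _ => k) Finset.univ (fun i _ => h) hg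
  simpa using h1

/-- a function with a nonzero limit -/
theorem Cmp.of_tendsto {l : Filter ℂ} {f : ℂ → ℂ} {g : ℂ → ℝ} {b : ℂ} (h : Tendsto f l (𝓝 b))
    (hb : b ≠ 0) : Cmp l f g 0 := by
  have hb' : 0 < ‖b‖ := norm_pos_iff.2 hb
  refine ⟨‖b‖ / 2, 2 * ‖b‖, by positivity, ?_⟩
  filter_upwards [h.norm.eventually (Ioo_mem_nhds (show ‖b‖ / 2 < ‖b‖ by linarith)
    (show ‖b‖ < 2 * ‖b‖ by linarith))] with w hw
  simp only [zpow_zero, mul_one]
  exact ⟨hw.1.le, hw.2.le⟩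

theorem Cmp.zpow_self {l : Filter ℂ} {f : ℂ → ℂ} {g : ℂ → ℝ} (h : ∀ᶠ w in l, ‖f w‖ = g w)
    (k : ℤ) : Cmp l (fun w => f w ^ k) g k := by
  refine ⟨1, 1, one_pos, ?_⟩
  filter_upwards [h] with w hw
  rw [norm_zpow, hw, one_mul]
  exact ⟨le_rfl, le_rfl⟩

theorem pos_near (c : ℂ) : ∀ᶠ w in 𝓝[≠] c, 0 < ‖w - c‖ := by
  filter_upwards [self_mem_nhdsWithin] with w hw
  exact norm_pos_iff.2 (sub_ne_zero.2 hw)

theorem pos_inf : ∀ᶠ w : ℂ in cobounded ℂ, 0 < ‖w‖ := by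
  filter_upwards [tendsto_norm_cobounded_atTop.eventually_gt_atTop 0] with w hw using hw

/-- `|w - c| ≍ |w|` at infinity -/
theorem cmp_inf_sub (c : ℂ) : Cmp (cobounded ℂ) (fun w => w - c) (fun w => ‖w‖) 1 := by
  refine ⟨1 / 2, 2, by norm_num, ?_⟩
  filter_upwards [tendsto_norm_cobounded_atTop.eventually_gt_atTop (2 * ‖c‖ + 1)] with w hw
  have h1 : ‖w‖ - ‖c‖ ≤ ‖w - c‖ := norm_sub_norm_le _ _
  have h2 : ‖w - c‖ ≤ ‖w‖ + ‖c‖ := norm_sub_le _ _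
  have h3 := norm_nonneg c
  rw [zpow_one]
  constructor <;> linarith

theorem Cmp.inv {l : Filter ℂ} {f : ℂ → ℂ} {g : ℂ → ℝ} {k : ℤ} (h : Cmp l f g k)
    (hg : ∀ᶠ w in l, 0 < g w) : Cmp l (fun w => (f w)⁻¹) g (-k) := by
  obtain ⟨a, A, ha, h⟩ := h
  refine ⟨(|A| + 1)⁻¹, a⁻¹, by positivity, ?_⟩
  filter_upwards [h, hg] with w h1 h2
  have h4 : 0 < g w ^ k := zpow_pos h2 _
  have h5 : 0 < ‖f w‖ := lt_of_lt_of_le (by positivity) h1.1
  rw [norm_inv, zpow_neg, ← mul_inv, ← mul_inv]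
  constructor
  · refine inv_anti₀ h5 (h1.2.trans ?_)
    refine mul_le_mul_of_nonneg_right ?_ h4.le
    linarith [le_abs_self A]
  · exact inv_anti₀ (by positivity) h1.1

theorem Cmp.zpow {l : Filter ℂ} {f : ℂ → ℂ} {g : ℂ → ℝ} {k : ℤ} (h : Cmp l f g k)
    (hg : ∀ᶠ w in l, 0 < g w) (n : ℤ) : Cmp l (fun w => f w ^ n) g (n * k) := by
  obtain ⟨m, rfl | rfl⟩ := n.eq_nat_or_neg
  · simpa using h.pow hg m
  · have h1 := (h.pow hg m).inv hg
    simpa using h1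

/-- **the rational function lemma** -/
theorem rational {S : Finset ℂ} {N : ℂ → ℂ} (hN : DifferentiableOn ℂ N (S : Set ℂ)ᶜ)
    {k : ℂ → ℤ} (hk : ∀ c ∈ S, Cmp (𝓝[≠] c) N (fun w => ‖w - c‖) (k c)) {M : ℤ}
    (hM : Cmp (cobounded ℂ) N (fun w => ‖w‖) (-M)) :
    ∑ c ∈ S, k c + M ≤ 0 ∧ (∑ c ∈ S, k c + M = 0 → ∀ w ∉ S, N w ≠ 0) := by
  classical
  set F : ℂ → ℂ := fun w => N w * ∏ c ∈ S, (w - c) ^ (- k c) with hF
  have hFd : DifferentiableOn ℂ F (S : Set ℂ)ᶜ := by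
    intro w hw
    refine (hN w hw).mul ?_
    refine DifferentiableWithinAt.fun_finsetProd fun c hc => ?_
    have h1 : w - c ≠ 0 := sub_ne_zero.2 fun h => hw (h ▸ hc)
    exact (((differentiableAt_id.sub_const c).zpow (Or.inl h1))).differentiableWithinAt
  have hFb : ∀ c ∈ S, Cmp (𝓝[≠] c) F (fun w => ‖w - c‖) 0 := by
    intro c hc
    have h1 : Cmp (𝓝[≠] c) (fun w => ∏ c' ∈ S.erase c, (w - c') ^ (- k c')) (fun w => ‖w - c‖) 0 := by
      have h2 : Tendsto (fun w => ∏ c' ∈ S.erase c, (w - c') ^ (- k c')) (𝓝[≠] c)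
          (𝓝 (∏ c' ∈ S.erase c, (c - c') ^ (- k c'))) := by
        refine tendsto_finsetProd _ fun c' hc' => ?_
        have h3 : c - c' ≠ 0 := sub_ne_zero.2 (Finset.ne_of_mem_erase hc').symm
        have h4 : ContinuousAt (fun w : ℂ => (w - c') ^ (- k c')) c :=
          (continuousAt_id.sub continuousAt_const).zpow₀ _ (Or.inl h3)
        exact h4.tendsto.mono_left nhdsWithin_le_nhds
      refine Cmp.of_tendsto h2 ?_
      rw [Finset.prod_ne_zero_iff]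
      intro c' hc'
      exact zpow_ne_zero _ (sub_ne_zero.2 (Finset.ne_of_mem_erase hc').symm)
    have h2 : Cmp (𝓝[≠] c) (fun w => (w - c) ^ (- k c)) (fun w => ‖w - c‖) (- k c) :=
      Cmp.zpow_self (Eventually.of_forall fun w => rfl) _
    have h3 := ((hk c hc).mul (h2.mul h1 (pos_near c)) (pos_near c))
    have h4 : F = fun w => N w * ((w - c) ^ (- k c) * ∏ c' ∈ S.erase c, (w - c') ^ (- k c')) := by
      funext w
      rw [hF, Finset.mul_prod_erase S (fun c' => (w - c') ^ (- k c')) hc]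
    rw [h4]
    simpa using h3
  obtain ⟨E, hE, hEF⟩ := exists_entire hFd fun c hc => by
    obtain ⟨a, A, -, h⟩ := hFb c hc
    refine ⟨A, ?_⟩
    filter_upwards [h] with w hw
    simpa using hw.2
  have hSinf : ∀ᶠ w : ℂ in cobounded ℂ, w ∉ S := by
    have h0 : IsBounded (S : Set ℂ) := S.finite_toSet.isBounded
    have h1 : (S : Set ℂ)ᶜ ∈ cobounded ℂ := Bornology.isBounded_def.1 h0
    filter_upwards [h1] with w hw using hw
  have hEinf : Cmp (cobounded ℂ) E (fun w => ‖w‖) (-M - ∑ c ∈ S, k c) := by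
    have h1 : Cmp (cobounded ℂ) F (fun w => ‖w‖) (-M + ∑ c ∈ S, (- k c * 1)) :=
      hM.mul (Cmp.prod S (fun c _ => (cmp_inf_sub c).zpow pos_inf (- k c)) pos_inf) pos_inf
    obtain ⟨a, A, ha, h⟩ := h1
    refine ⟨a, A, ha, ?_⟩
    filter_upwards [h, hSinf] with w hw hS
    rw [hEF w hS]
    have e1 : -M + ∑ c ∈ S, (- k c * 1) = -M - ∑ c ∈ S, k c := by
      simp [sub_eq_add_neg]
    rw [e1] at hw
    exact hw
  obtain ⟨a, A, ha, hbd⟩ := hEinf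
  set κ : ℤ := -M - ∑ c ∈ S, k c with hκ
  have hle1 : ∀ᶠ w : ℂ in cobounded ℂ, 1 ≤ ‖w‖ :=
    tendsto_norm_cobounded_atTop.eventually_ge_atTop 1
  -- if `κ ≤ 0` then `E` is a nonzero constant
  have key : κ ≤ 0 → ∃ b : ℂ, b ≠ 0 ∧ ∀ w, E w = b := by
    intro hκ0
    have hbd2 : ∀ᶠ w in cobounded ℂ, ‖E w‖ ≤ |A| := by
      filter_upwards [hbd, hle1] with w h1 h2
      have h3 : (‖w‖ : ℝ) ^ κ ≤ 1 := zpow_le_one_of_nonpos₀ h2 hκ0
      have h4 : 0 ≤ (‖w‖ : ℝ) ^ κ := zpow_nonneg (norm_nonneg _) _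
      calc ‖E w‖ ≤ A * ‖w‖ ^ κ := h1.2
        _ ≤ |A| * ‖w‖ ^ κ := mul_le_mul_of_nonneg_right (le_abs_self A) h4
        _ ≤ |A| * 1 := mul_le_mul_of_nonneg_left h3 (abs_nonneg A)
        _ = |A| := mul_one _
    have hbdd : IsBounded (range E) := by
      rw [Metric.cobounded_eq_cocompact] at hbd2
      obtain ⟨K, hK, hKs⟩ := mem_cocompact.1 hbd2
      have h1 : IsBounded (E '' K) := (hK.image hE.continuous).isBounded
      refine (h1.union (Metric.isBounded_closedBall (x := (0 : ℂ)) (r := |A|))).subset ?_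
      rintro _ ⟨w, rfl⟩
      by_cases hw : w ∈ K
      · exact Or.inl ⟨w, hw, rfl⟩
      · exact Or.inr (by simpa using hKs hw)
    have hconst : ∀ w, E w = E 0 := fun w => hE.apply_eq_apply_of_bounded hbdd w 0
    refine ⟨E 0, ?_, hconst⟩
    intro h0
    obtain ⟨w, hw1, hw2⟩ := (hbd.and pos_inf).exists
    have h3 : 0 < a * ‖w‖ ^ κ := mul_pos ha (zpow_pos hw2 _)
    have h4 := hw1.1
    rw [hconst w, h0, norm_zero] at h4
    linarith
  have hκ0 : 0 ≤ κ := by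
    by_contra hneg
    push Not at hneg
    obtain ⟨b, hb, hconst⟩ := key hneg.le
    have h1 : Tendsto (fun w : ℂ => A * ‖w‖ ^ κ) (cobounded ℂ) (𝓝 (A * 0)) := by
      refine Tendsto.const_mul _ ?_
      exact (tendsto_zpow_atTop_zero hneg).comp tendsto_norm_cobounded_atTop
    rw [mul_zero] at h1
    have h2 : ‖b‖ ≤ 0 := by
      refine ge_of_tendsto h1 ?_
      filter_upwards [hbd] with w hw
      rw [← hconst w]
      exact hw.2
    exact hb (norm_le_zero_iff.1 h2)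
  refine ⟨by omega, fun h0 w hw hNw => ?_⟩
  obtain ⟨b, hb, hconst⟩ := key (by omega)
  apply hb
  rw [← hconst w, hEF w hw, hF]
  simp [hNw]

end Crest.Agent.R257.Deg_578
end
end

-- ▼ part R257/Deg2_578
section

/-!
# Row 257, leaf C-DEG (helper578), part 2: the degree formula on a finite covering of `ℂ ∖ S`

Real exponents.  `cover` : per point enumeration of the fibre near the punctures;
`cover_param` : the sheets over a punctured neighbourhood are parametrised by `w = c + β^l`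
(resp. `w = β^(-l)` at infinity).
-/

set_option autoImplicit false
set_option linter.unusedSectionVars false

open Set Filter Topology Complex Bornology

noncomputable section

namespace Crest.Agent.R257.Deg_578

/-- two-sided comparison with a real power -/
def CmpR (l : Filter ℂ) (f : ℂ → ℂ) (g : ℂ → ℝ) (m : ℝ) : Prop :=
  ∃ a A : ℝ, 0 < a ∧ ∀ᶠ w in l, a * g w ^ m ≤ ‖f w‖ ∧ ‖f w‖ ≤ A * g w ^ m

theorem CmpR.toInt {l : Filter ℂ} {f : ℂ → ℂ} {g : ℂ → ℝ} {k : ℤ} (h : CmpR l f g k) :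
    Cmp l f g k := by
  obtain ⟨a, A, ha, h⟩ := h
  refine ⟨a, A, ha, ?_⟩
  filter_upwards [h] with w hw
  rwa [Real.rpow_intCast] at hw

/-- **the exponent at an isolated singularity is an integer** -/
theorem int_of_cmp {N : ℂ → ℂ} {c : ℂ} (hN : ∀ᶠ w in 𝓝[≠] c, DifferentiableAt ℂ N w) {m : ℝ}
    (h : CmpR (𝓝[≠] c) N (fun w => ‖w - c‖) m) : ∃ k : ℤ, m = k := by
  obtain ⟨a, A, ha, hb⟩ := h
  have hA : 0 < A := by
    obtain ⟨w, hw, hw2⟩ := (hb.and (pos_near c)).exists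
    have h1 : 0 < ‖w - c‖ ^ m := Real.rpow_pos_of_pos hw2 _
    have h2 : 0 < A * ‖w - c‖ ^ m := lt_of_lt_of_le (mul_pos ha h1) (hw.1.trans hw.2)
    exact (pos_iff_pos_of_mul_pos h2).2 h1
  -- multiply by a high power to get a bounded function
  obtain ⟨K, hK⟩ : ∃ K : ℕ, 0 ≤ K + m := by
    obtain ⟨K, hK⟩ := exists_nat_ge (-m)
    exact ⟨K, by linarith⟩
  set F : ℂ → ℂ := fun w => (w - c) ^ K * N w with hF
  have hsmall : ∀ᶠ w in 𝓝[≠] c, ‖w - c‖ < 1 := by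
    have : ∀ᶠ w in 𝓝 c, ‖w - c‖ < 1 := by
      filter_upwards [Metric.ball_mem_nhds c one_pos] with w hw
      rwa [Metric.mem_ball, dist_eq_norm] at hw
    exact this.filter_mono nhdsWithin_le_nhds
  have hFb : ∀ᶠ w in 𝓝[≠] c, ‖F w‖ = ‖w - c‖ ^ (K : ℝ) * ‖N w‖ := by
    filter_upwards with w
    rw [hF, norm_mul, norm_pow, Real.rpow_natCast]
  have hFu : ∀ᶠ w in 𝓝[≠] c, ‖F w‖ ≤ A := by
    filter_upwards [hFb, hb, hsmall, pos_near c] with w h1 h2 h3 h4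
    rw [h1]
    calc ‖w - c‖ ^ (K : ℝ) * ‖N w‖ ≤ ‖w - c‖ ^ (K : ℝ) * (A * ‖w - c‖ ^ m) :=
          mul_le_mul_of_nonneg_left h2.2 (Real.rpow_nonneg h4.le _)
      _ = A * ‖w - c‖ ^ ((K : ℝ) + m) := by rw [Real.rpow_add h4]; ring
      _ ≤ A * 1 := mul_le_mul_of_nonneg_left (Real.rpow_le_one h4.le h3.le hK) hA.le
      _ = A := mul_one A
  have hFd : ∀ᶠ w in 𝓝[≠] c, DifferentiableAt ℂ F w := by
    filter_upwards [hN] with w hw
    exact ((differentiableAt_id.sub_const c).pow K).mul hw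
  -- removable singularity
  rw [eventually_nhdsWithin_iff] at hFd hFu
  obtain ⟨ε, hε, hsub⟩ := Metric.mem_nhds_iff.1 (Filter.inter_mem hFd hFu)
  have hd : DifferentiableOn ℂ F (Metric.ball c ε \ {c}) := fun y hy =>
    ((hsub hy.1).1 hy.2).differentiableWithinAt
  have hbd : BddAbove (norm ∘ F '' (Metric.ball c ε \ {c})) := by
    refine ⟨A, ?_⟩
    rintro _ ⟨y, hy, rfl⟩
    exact (hsub hy.1).2 hy.2
  have h5 := Complex.differentiableOn_update_limUnder_of_bddAbove (Metric.ball_mem_nhds c hε) hd hbd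
  set H := Function.update F c (limUnder (𝓝[≠] c) F) with hH
  have hHan : AnalyticAt ℂ H c := h5.analyticAt (Metric.ball_mem_nhds c hε)
  have hHF : ∀ᶠ w in 𝓝[≠] c, H w = F w := by
    filter_upwards [self_mem_nhdsWithin] with w hw
    exact Function.update_of_ne hw _ _
  have hne : analyticOrderAt H c ≠ ⊤ := by
    intro htop
    rw [analyticOrderAt_eq_top] at htop
    have h6 : ∀ᶠ w in 𝓝[≠] c, H w = 0 := htop.filter_mono nhdsWithin_le_nhds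
    obtain ⟨w, ⟨⟨hw1, hw2⟩, hw3⟩, hw4⟩ := (((hHF.and h6).and hb).and (pos_near c)).exists
    have h7 : F w = 0 := by rw [← hw1, hw2]
    have h8 : N w = 0 := by
      rw [hF] at h7
      rcases mul_eq_zero.1 h7 with h9 | h9
      · exfalso
        have h11 : ‖(w - c) ^ K‖ = 0 := by rw [h9, norm_zero]
        rw [norm_pow] at h11
        exact (pow_pos hw4 K).ne' h11
      · exact h9
    have h9 : 0 < a * ‖w - c‖ ^ m := mul_pos ha (Real.rpow_pos_of_pos hw4 _)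
    have h10 := hw3.1
    rw [h8, norm_zero] at h10
    linarith
  obtain ⟨p, hp⟩ : ∃ p : ℕ, analyticOrderAt H c = p := ⟨(analyticOrderAt H c).toNat,
    (ENat.natCast_toNat hne).symm⟩
  obtain ⟨u, hu, hu0, hfac⟩ := (hHan.analyticOrderAt_eq_natCast).1 hp
  refine ⟨(p : ℤ) - K, ?_⟩
  -- compare exponents
  have hut : Tendsto (fun w => ‖u w‖) (𝓝[≠] c) (𝓝 ‖u c‖) :=
    (hu.continuousAt.norm.tendsto).mono_left nhdsWithin_le_nhds
  have hu0' : 0 < ‖u c‖ := norm_pos_iff.2 hu0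
  have hub : ∀ᶠ w in 𝓝[≠] c, ‖u c‖ / 2 < ‖u w‖ ∧ ‖u w‖ < 2 * ‖u c‖ :=
    hut.eventually (Ioo_mem_nhds (by linarith) (by linarith))
  have hrel : ∀ᶠ w in 𝓝[≠] c, ‖w - c‖ ^ (K : ℝ) * ‖N w‖ = ‖w - c‖ ^ (p : ℝ) * ‖u w‖ := by
    filter_upwards [hFb, hHF, hfac.filter_mono nhdsWithin_le_nhds] with w h1 h2 h3
    rw [← h1, ← h2, h3, smul_eq_mul, norm_mul, norm_pow, Real.rpow_natCast]
  set s : ℝ := K + m - p with hs
  have h6 : ∀ᶠ w in 𝓝[≠] c, a * ‖w - c‖ ^ s ≤ 2 * ‖u c‖ ∧ ‖u c‖ / 2 ≤ A * ‖w - c‖ ^ s := by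
    filter_upwards [hrel, hub, hb, pos_near c] with w h1 h2 h3 h4
    have h7 : ‖u w‖ = ‖w - c‖ ^ ((K : ℝ) - p) * ‖N w‖ := by
      rw [Real.rpow_sub h4, div_mul_eq_mul_div, h1, mul_div_assoc, mul_comm]
      rw [div_mul_cancel₀ _ (Real.rpow_pos_of_pos h4 _).ne']
    have h8 : ‖w - c‖ ^ s = ‖w - c‖ ^ ((K : ℝ) - p) * ‖w - c‖ ^ m := by
      rw [← Real.rpow_add h4]; congr 1; rw [hs]; ring
    have h9 : 0 < ‖w - c‖ ^ ((K : ℝ) - p) := Real.rpow_pos_of_pos h4 _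
    constructor
    · calc a * ‖w - c‖ ^ s = ‖w - c‖ ^ ((K : ℝ) - p) * (a * ‖w - c‖ ^ m) := by rw [h8]; ring
        _ ≤ ‖w - c‖ ^ ((K : ℝ) - p) * ‖N w‖ := mul_le_mul_of_nonneg_left h3.1 h9.le
        _ = ‖u w‖ := h7.symm
        _ ≤ _ := h2.2.le
    · calc ‖u c‖ / 2 ≤ ‖u w‖ := h2.1.le
        _ = ‖w - c‖ ^ ((K : ℝ) - p) * ‖N w‖ := h7
        _ ≤ ‖w - c‖ ^ ((K : ℝ) - p) * (A * ‖w - c‖ ^ m) := mul_le_mul_of_nonneg_left h3.2 h9.le
        _ = A * ‖w - c‖ ^ s := by rw [h8]; ring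
  have htz : Tendsto (fun w : ℂ => ‖w - c‖) (𝓝[≠] c) (𝓝[>] 0) := by
    refine tendsto_nhdsWithin_iff.2 ⟨?_, pos_near c⟩
    have h7 : Tendsto (fun w : ℂ => ‖w - c‖) (𝓝 c) (𝓝 ‖c - c‖) :=
      (continuous_id.sub continuous_const).norm.tendsto c
    rw [sub_self, norm_zero] at h7
    exact h7.mono_left nhdsWithin_le_nhds
  have hs0 : s = 0 := by
    rcases lt_trichotomy s 0 with hneg | h0 | hpos
    · exfalso
      have h7 : Tendsto (fun w : ℂ => a * ‖w - c‖ ^ s) (𝓝[≠] c) atTop :=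
        ((tendsto_rpow_neg_nhdsGT_zero hneg).comp htz).const_mul_atTop ha
      obtain ⟨w, hw1, hw2⟩ := ((h7.eventually_gt_atTop (2 * ‖u c‖)).and h6).exists
      linarith [hw2.1]
    · exact h0
    · exfalso
      have h7 : Tendsto (fun w : ℂ => A * ‖w - c‖ ^ s) (𝓝[≠] c) (𝓝 (A * 0)) := by
        refine Tendsto.const_mul _ ?_
        have h8 : Tendsto (fun x : ℝ => x ^ s) (𝓝[>] 0) (𝓝 0) := by
          have h9 := (Real.continuousAt_rpow_const (0 : ℝ) s (Or.inr hpos.le)).tendsto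
          rw [Real.zero_rpow hpos.ne'] at h9
          exact h9.mono_left nhdsWithin_le_nhds
        exact h8.comp htz
      rw [mul_zero] at h7
      obtain ⟨w, hw1, hw2⟩ := ((h7.eventually_lt_const (show 0 < ‖u c‖ / 2 by positivity)).and
        h6).exists
      linarith [hw2.2]
  have : m = (p : ℝ) - K := by rw [hs] at hs0; linarith
  rw [this]
  push_cast
  ring

theorem inv_tendsto : Tendsto (fun w : ℂ => w⁻¹) (𝓝[≠] 0) (cobounded ℂ) :=
  tendsto_inv₀_nhdsNE_zero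

/-- **the rational function lemma, real exponents** -/
theorem rationalR {S : Finset ℂ} {N : ℂ → ℂ} (hN : DifferentiableOn ℂ N (S : Set ℂ)ᶜ)
    {k : ℂ → ℝ} (hk : ∀ c ∈ S, CmpR (𝓝[≠] c) N (fun w => ‖w - c‖) (k c)) {M : ℝ}
    (hM : CmpR (cobounded ℂ) N (fun w => ‖w‖) (-M)) :
    ∑ c ∈ S, k c + M ≤ 0 ∧ (∑ c ∈ S, k c + M = 0 → ∀ w ∉ S, N w ≠ 0) := by
  classical
  have hfin : (S : Set ℂ).Finite := S.finite_toSet
  have hNat : ∀ w ∉ S, DifferentiableAt ℂ N w := fun w hw =>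
    (hN w hw).differentiableAt (hfin.isClosed.isOpen_compl.mem_nhds hw)
  have h1 : ∀ c ∈ S, ∃ z : ℤ, k c = z := by
    intro c hc
    refine int_of_cmp ?_ (hk c hc)
    have h2 : ((S : Set ℂ) \ {c})ᶜ ∈ 𝓝 c := (hfin.sdiff).isClosed.isOpen_compl.mem_nhds (by simp)
    filter_upwards [mem_nhdsWithin_of_mem_nhds h2, self_mem_nhdsWithin] with w hw1 hw2
    exact hNat w fun h3 => hw1 ⟨h3, hw2⟩
  have hSinf : ∀ᶠ w : ℂ in cobounded ℂ, w ∉ S := by
    have h0 : IsBounded (S : Set ℂ) := hfin.isBounded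
    have h1 : (S : Set ℂ)ᶜ ∈ cobounded ℂ := Bornology.isBounded_def.1 h0
    filter_upwards [h1] with w hw using hw
  have h2 : ∃ z : ℤ, M = z := by
    refine int_of_cmp (N := fun w => N w⁻¹) (c := 0) ?_ ?_
    · filter_upwards [inv_tendsto.eventually hSinf, self_mem_nhdsWithin] with w hw hw0
      exact (hNat _ hw).comp w (differentiableAt_inv hw0)
    · obtain ⟨a, A, ha, h⟩ := hM
      refine ⟨a, A, ha, ?_⟩
      filter_upwards [inv_tendsto.eventually h, self_mem_nhdsWithin] with w hw hw0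
      have h3 : ‖w⁻¹‖ ^ (-M) = ‖w - 0‖ ^ M := by
        rw [norm_inv, sub_zero, Real.inv_rpow (norm_nonneg _), Real.rpow_neg (norm_nonneg _),
          inv_inv]
      rw [← h3]
      exact hw
  choose! k' hk' using h1
  obtain ⟨M', rfl⟩ := h2
  have h3 := rational hN (k := k') (fun c hc => by
    have := hk c hc
    rw [hk' c hc] at this
    exact this.toInt) (M := M') (by
    have h4 : CmpR (cobounded ℂ) N (fun w => ‖w‖) ((-M' : ℤ) : ℝ) := by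
      push_cast
      exact hM
    exact h4.toInt)
  have h4 : ∑ c ∈ S, k c = ((∑ c ∈ S, k' c : ℤ) : ℝ) := by
    push_cast
    exact Finset.sum_congr rfl fun c hc => hk' c hc
  rw [h4]
  refine ⟨by exact_mod_cast h3.1, fun h5 => h3.2 (by exact_mod_cast h5)⟩

/-! ### coverings -/

variable {Z : Type*}

/-- enumeration of a fibre together with two-sided bounds -/
def EnumAt {J : Type*} (fib : ℂ → Set Z) (G : ℂ → Z → ℂ) (g : ℂ → ℝ) (e : J → ℝ) (a A : ℝ)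
    (w : ℂ) : Prop :=
  ∃ z : J → Z, Function.Injective z ∧ (∀ x, x ∈ fib w ↔ ∃ j, z j = x) ∧
    ∀ j, a * g w ^ e j ≤ ‖G w (z j)‖ ∧ ‖G w (z j)‖ ≤ A * g w ^ e j

/-- the norm over the fibre -/
def nrm (fib : ℂ → Set Z) (G : ℂ → Z → ℂ) (w : ℂ) : ℂ := ∏ᶠ z ∈ fib w, G w z

theorem nrm_eq {J : Type*} [Fintype J] {fib : ℂ → Set Z} {G : ℂ → Z → ℂ} {w : ℂ} {z : J → Z}
    (hz : Function.Injective z) (hf : ∀ x, x ∈ fib w ↔ ∃ j, z j = x) :
    nrm fib G w = ∏ j, G w (z j) := by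
  have h1 : fib w = range z := by
    ext x
    rw [hf]
    rfl
  rw [nrm, h1, finprod_mem_range hz, finprod_eq_prod_of_fintype]

theorem nrm_bounds {J : Type*} [Fintype J] {fib : ℂ → Set Z} {G : ℂ → Z → ℂ} {g : ℂ → ℝ}
    {e : J → ℝ} {a A : ℝ} {w : ℂ} (h : EnumAt fib G g e a A w) (ha : 0 < a) (hg : 0 < g w) :
    a ^ Fintype.card J * g w ^ (∑ j, e j) ≤ ‖nrm fib G w‖ ∧
      ‖nrm fib G w‖ ≤ A ^ Fintype.card J * g w ^ (∑ j, e j) := by
  obtain ⟨z, hz, hf, hb⟩ := h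
  rw [nrm_eq hz hf, norm_prod, Real.rpow_sum_of_pos hg]
  have h1 : ∀ c : ℝ, c ^ Fintype.card J * ∏ j, g w ^ e j = ∏ j, (c * g w ^ e j) := by
    intro c
    rw [Finset.prod_mul_distrib, Finset.prod_const, Finset.card_univ]
  rw [h1, h1]
  constructor
  · exact Finset.prod_le_prod (fun j _ => mul_nonneg ha.le (Real.rpow_nonneg hg.le _))
      fun j _ => (hb j).1
  · exact Finset.prod_le_prod (fun j _ => norm_nonneg _) fun j _ => (hb j).2

/-- **degree formula on a finite covering of `ℂ ∖ S`** -/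
theorem cover {S : Finset ℂ} {fib : ℂ → Set Z} {G : ℂ → Z → ℂ}
    (hloc : ∀ w₀ ∉ S, ∃ (J : Type) (_ : Fintype J) (ζ : J → ℂ → Z),
      (∀ᶠ w in 𝓝 w₀, Function.Injective (fun j => ζ j w) ∧ ∀ x, x ∈ fib w ↔ ∃ j, ζ j w = x) ∧
      ∀ j, DifferentiableAt ℂ (fun w => G w (ζ j w)) w₀)
    {J : ℂ → Type} [∀ c, Fintype (J c)] {e : ∀ c, J c → ℝ}
    (hS : ∀ c ∈ S, ∃ a A : ℝ, 0 < a ∧
      ∀ᶠ w in 𝓝[≠] c, EnumAt fib G (fun w => ‖w - c‖) (e c) a A w)
    {J' : Type} [Fintype J'] {e' : J' → ℝ}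
    (hinf : ∃ a A : ℝ, 0 < a ∧
      ∀ᶠ w in cobounded ℂ, EnumAt fib G (fun w => ‖w‖) (fun j => - e' j) a A w) :
    ∑ c ∈ S, ∑ j, e c j + ∑ j, e' j ≤ 0 ∧
      (∑ c ∈ S, ∑ j, e c j + ∑ j, e' j = 0 → ∀ w ∉ S, ∀ z ∈ fib w, G w z ≠ 0) := by
  classical
  have hN : DifferentiableOn ℂ (nrm fib G) (S : Set ℂ)ᶜ := by
    intro w₀ hw₀
    obtain ⟨J, hJ, ζ, hζ, hd⟩ := hloc w₀ hw₀
    have h1 : nrm fib G =ᶠ[𝓝 w₀] fun w => ∏ j, G w (ζ j w) := by
      filter_upwards [hζ] with w hw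
      exact nrm_eq hw.1 hw.2
    have h2 : DifferentiableAt ℂ (fun w => ∏ j, G w (ζ j w)) w₀ :=
      DifferentiableAt.fun_finsetProd fun j _ => hd j
    exact (h2.congr_of_eventuallyEq h1).differentiableWithinAt
  have h1 := rationalR hN (k := fun c => ∑ j, e c j) (fun c hc => by
    obtain ⟨a, A, ha, h⟩ := hS c hc
    refine ⟨a ^ Fintype.card (J c), A ^ Fintype.card (J c), by positivity, ?_⟩
    filter_upwards [h, pos_near c] with w hw hw0
    exact nrm_bounds hw ha hw0) (M := ∑ j, e' j) (by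
    obtain ⟨a, A, ha, h⟩ := hinf
    refine ⟨a ^ Fintype.card J', A ^ Fintype.card J', by positivity, ?_⟩
    filter_upwards [h, pos_inf] with w hw hw0
    have h2 := nrm_bounds hw ha hw0
    rwa [Finset.sum_neg_distrib] at h2)
  refine ⟨h1.1, fun h2 w hw z hz hGz => ?_⟩
  obtain ⟨J, hJ, ζ, hζ, hd⟩ := hloc w hw
  have h3 := hζ.self_of_nhds
  apply h1.2 h2 w hw
  rw [nrm_eq h3.1 h3.2]
  obtain ⟨j, hj⟩ := (h3.2 z).1 hz
  exact Finset.prod_eq_zero (Finset.mem_univ j) (by simp only [hj, hGz])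

/-- sheets over a punctured neighbourhood, parametrised by `w = φ β`, `‖β‖ ^ l = g (φ β)` -/
def Sheets {J : Type*} (fib : ℂ → Set Z) (G : ℂ → Z → ℂ) (φ : ℂ → ℂ) (ζ : J → ℂ → Z)
    (e : J → ℤ) : Prop :=
  (∀ᶠ β in 𝓝[≠] (0 : ℂ), Function.Injective (fun j => ζ j β) ∧
      ∀ x, x ∈ fib (φ β) ↔ ∃ j, ζ j β = x) ∧
    ∀ j, ∃ a A : ℝ, 0 < a ∧ ∀ᶠ β in 𝓝[≠] (0 : ℂ),
      a * ‖β‖ ^ e j ≤ ‖G (φ β) (ζ j β)‖ ∧ ‖G (φ β) (ζ j β)‖ ≤ A * ‖β‖ ^ e j

theorem Sheets.enum {J : Type*} [Fintype J] {fib : ℂ → Set Z} {G : ℂ → Z → ℂ} {φ : ℂ → ℂ}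
    {ζ : J → ℂ → Z} {e : J → ℤ} (h : Sheets fib G φ ζ e) :
    ∃ a A : ℝ, 0 < a ∧ ∃ r : ℝ, 0 < r ∧ ∀ β : ℂ, β ≠ 0 → ‖β‖ < r →
      ∀ (g : ℂ → ℝ) (s : ℝ), 0 ≤ g (φ β) → (‖β‖ = g (φ β) ^ s) →
        EnumAt fib G g (fun j => s * e j) a A (φ β) := by
  obtain ⟨h1, h2⟩ := h
  choose a A ha h2 using h2
  have h3 := h1.and (Filter.eventually_all.2 h2)
  rw [eventually_nhdsWithin_iff] at h3
  obtain ⟨r, hr, hsub⟩ := Metric.eventually_nhds_iff_ball.1 h3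
  obtain ⟨a₀, ha₀, ha₀'⟩ : ∃ a₀ > 0, ∀ j, a₀ ≤ a j := by
    rcases isEmpty_or_nonempty J with hJ | hJ
    · exact ⟨1, one_pos, fun j => (hJ.false j).elim⟩
    · obtain ⟨j₀, -, hj₀⟩ := Finset.univ.exists_min_image a ⟨Classical.arbitrary J, Finset.mem_univ _⟩
      exact ⟨a j₀, ha j₀, fun j => hj₀ j (Finset.mem_univ _)⟩
  have hA₀ : ∀ j, A j ≤ ∑ j, |A j| := fun j =>
    (le_abs_self _).trans (Finset.single_le_sum (f := fun j => |A j|)
      (fun j _ => abs_nonneg _) (Finset.mem_univ j))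
  refine ⟨a₀, ∑ j, |A j|, ha₀, r, hr, fun β hβ hβr g s hg hs => ?_⟩
  obtain ⟨h4, h5⟩ := hsub β (by simpa using hβr) hβ
  refine ⟨fun j => ζ j β, h4.1, h4.2, fun j => ?_⟩
  have h6 : g (φ β) ^ (s * e j) = ‖β‖ ^ e j := by
    rw [hs, Real.rpow_mul hg, Real.rpow_intCast]
  rw [h6]
  have h7 : 0 ≤ ‖β‖ ^ e j := zpow_nonneg (norm_nonneg _) _
  exact ⟨(mul_le_mul_of_nonneg_right (ha₀' j) h7).trans (h5 j).1,
    (h5 j).2.trans (mul_le_mul_of_nonneg_right (hA₀ j) h7)⟩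

/-- sheets at a finite puncture, `w = c + β ^ l` -/
theorem Sheets.near {J : Type*} [Fintype J] {fib : ℂ → Set Z} {G : ℂ → Z → ℂ} {c : ℂ} {l : ℕ}
    (hl : 0 < l) {ζ : J → ℂ → Z} {e : J → ℤ} (h : Sheets fib G (fun β => c + β ^ l) ζ e) :
    ∃ a A : ℝ, 0 < a ∧
      ∀ᶠ w in 𝓝[≠] c, EnumAt fib G (fun w => ‖w - c‖) (fun j => (e j : ℝ) / l) a A w := by
  obtain ⟨a, A, ha, r, hr, h1⟩ := h.enum
  refine ⟨a, A, ha, ?_⟩
  rw [eventually_nhdsWithin_iff]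
  filter_upwards [Metric.ball_mem_nhds c (show 0 < r ^ l by positivity)] with w hw hwc
  obtain ⟨β, hβ⟩ := IsAlgClosed.exists_pow_nat_eq (w - c) hl
  have hwβ : w = c + β ^ l := by rw [hβ]; ring
  have hn : ‖β‖ ^ l = ‖w - c‖ := by rw [← norm_pow, hβ]
  have hβ0 : β ≠ 0 := by
    rintro rfl
    rw [zero_pow hl.ne'] at hβ
    exact hwc (sub_eq_zero.1 hβ.symm)
  have hβr : ‖β‖ < r := by
    rw [Metric.mem_ball, dist_eq_norm, ← hn] at hw
    exact lt_of_pow_lt_pow_left₀ l hr.le hw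
  have hlR : (l : ℝ) ≠ 0 := by exact_mod_cast hl.ne'
  have h2 := h1 β hβ0 hβr (fun w => ‖w - c‖) (1 / l) (norm_nonneg _) (by
    simp only [← hwβ]
    rw [← hn, ← Real.rpow_natCast, ← Real.rpow_mul (norm_nonneg _), mul_one_div_cancel hlR,
      Real.rpow_one])
  rw [hwβ]
  have h3 : (fun j => (e j : ℝ) / l) = fun j => (1 / (l : ℝ)) * e j := by
    funext j
    ring
  rw [h3]
  exact h2

/-- sheets at infinity, `w = (β ^ l)⁻¹` -/
theorem Sheets.inf {J : Type*} [Fintype J] {fib : ℂ → Set Z} {G : ℂ → Z → ℂ} {l : ℕ}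
    (hl : 0 < l) {ζ : J → ℂ → Z} {e : J → ℤ} (h : Sheets fib G (fun β => (β ^ l)⁻¹) ζ e) :
    ∃ a A : ℝ, 0 < a ∧
      ∀ᶠ w in cobounded ℂ, EnumAt fib G (fun w => ‖w‖) (fun j => -((e j : ℝ) / l)) a A w := by
  obtain ⟨a, A, ha, r, hr, h1⟩ := h.enum
  refine ⟨a, A, ha, ?_⟩
  filter_upwards [tendsto_norm_cobounded_atTop.eventually_gt_atTop ((r ^ l)⁻¹)] with w hw
  have hw0 : 0 < ‖w‖ := lt_trans (by positivity) hw
  obtain ⟨β, hβ⟩ := IsAlgClosed.exists_pow_nat_eq (w⁻¹) hl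
  have hwβ : w = (β ^ l)⁻¹ := by rw [hβ, inv_inv]
  have hn : ‖β‖ ^ l = ‖w‖⁻¹ := by rw [← norm_pow, hβ, norm_inv]
  have hβ0 : β ≠ 0 := by
    rintro rfl
    rw [zero_pow hl.ne'] at hβ
    exact (norm_pos_iff.1 hw0) (inv_eq_zero.1 hβ.symm)
  have hβr : ‖β‖ < r := by
    have h2 : ‖β‖ ^ l < r ^ l := by
      rw [hn]
      exact inv_lt_of_inv_lt₀ (by positivity) hw
    exact lt_of_pow_lt_pow_left₀ l hr.le h2
  have hlR : (l : ℝ) ≠ 0 := by exact_mod_cast hl.ne'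
  have h2 := h1 β hβ0 hβr (fun w => ‖w‖) (-(1 / l)) (norm_nonneg _) (by
    simp only [← hwβ]
    have h3 : ‖w‖ = (‖β‖ ^ l)⁻¹ := by rw [hn, inv_inv]
    rw [h3, Real.rpow_neg (by positivity), Real.inv_rpow (by positivity), inv_inv,
      ← Real.rpow_natCast, ← Real.rpow_mul (norm_nonneg _), mul_one_div_cancel hlR,
      Real.rpow_one])
  rw [hwβ]
  have h3 : (fun j => -((e j : ℝ) / l)) = fun j => (-(1 / (l : ℝ))) * e j := by
    funext j
    ring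
  rw [h3]
  exact h2

/-- **degree formula, parametrised sheets**: at `c ∈ S` `w = c + β ^ l c`, at infinity
`w = (β ^ l')⁻¹`, `|G| ≍ |β| ^ e` on the sheets. -/
theorem cover_param {S : Finset ℂ} {fib : ℂ → Set Z} {G : ℂ → Z → ℂ}
    (hloc : ∀ w₀ ∉ S, ∃ (J : Type) (_ : Fintype J) (ζ : J → ℂ → Z),
      (∀ᶠ w in 𝓝 w₀, Function.Injective (fun j => ζ j w) ∧ ∀ x, x ∈ fib w ↔ ∃ j, ζ j w = x) ∧
      ∀ j, DifferentiableAt ℂ (fun w => G w (ζ j w)) w₀)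
    {J : ℂ → Type} [∀ c, Fintype (J c)] {l : ℂ → ℕ} (hl : ∀ c ∈ S, 0 < l c)
    {ζ : ∀ c, J c → ℂ → Z} {e : ∀ c, J c → ℤ}
    (hS : ∀ c ∈ S, Sheets fib G (fun β => c + β ^ l c) (ζ c) (e c))
    {J' : Type} [Fintype J'] {l' : ℕ} (hl' : 0 < l') {ζ' : J' → ℂ → Z} {e' : J' → ℤ}
    (hinf : Sheets fib G (fun β => (β ^ l')⁻¹) ζ' e') :
    ∑ c ∈ S, ∑ j, (e c j : ℝ) / l c + ∑ j, (e' j : ℝ) / l' ≤ 0 ∧
      (∑ c ∈ S, ∑ j, (e c j : ℝ) / l c + ∑ j, (e' j : ℝ) / l' = 0 →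
        ∀ w ∉ S, ∀ z ∈ fib w, G w z ≠ 0) :=
  cover hloc (e := fun c j => (e c j : ℝ) / l c) (fun c hc => (hS c hc).near (hl c hc))
    (e' := fun j => (e' j : ℝ) / l') (hinf.inf hl')

end Crest.Agent.R257.Deg_578
end
end

-- ▼ part R257/Deg3_578
section

/-!
# Row 257, leaf C-DEG (helper578), part 3: the degree formula with analytic leading coefficients

`cover_an` : `G` on the sheet `ζ c j` over `w = c + β^l` is `β^(v c j) * H c j β`, `H c j` analytic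
at `0` and not identically `0`; then `∑ v / l ≤ 0`, and `= 0` only if `G` has no zeros and all
`H c j 0 ≠ 0`.
-/

set_option autoImplicit false
set_option linter.unusedSectionVars false

open Set Filter Topology Complex Bornology

noncomputable section

namespace Crest.Agent.R257.Deg_578

/-- two-sided bounds for a germ of an analytic function -/
theorem bounds_of_analytic {H : ℂ → ℂ} (hH : AnalyticAt ℂ H 0) (hne : ∃ᶠ β in 𝓝 (0 : ℂ), H β ≠ 0) :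
    ∃ m : ℕ, (m = 0 → H 0 ≠ 0) ∧ ∃ a A : ℝ, 0 < a ∧ ∀ᶠ β in 𝓝 (0 : ℂ),
      a * ‖β‖ ^ m ≤ ‖H β‖ ∧ ‖H β‖ ≤ A * ‖β‖ ^ m := by
  have htop : analyticOrderAt H 0 ≠ ⊤ := by
    intro h
    rw [analyticOrderAt_eq_top] at h
    exact hne (h.mono fun β hβ h2 => h2 hβ)
  obtain ⟨m, hm⟩ : ∃ m : ℕ, analyticOrderAt H 0 = m := ⟨(analyticOrderAt H 0).toNat,
    (ENat.natCast_toNat htop).symm⟩
  obtain ⟨u, hu, hu0, hfac⟩ := (hH.analyticOrderAt_eq_natCast).1 hm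
  have hu0' : 0 < ‖u 0‖ := norm_pos_iff.2 hu0
  refine ⟨m, ?_, ‖u 0‖ / 2, 2 * ‖u 0‖, by positivity, ?_⟩
  · intro h0
    have h1 := hfac.self_of_nhds
    rw [h0, pow_zero, one_smul] at h1
    rw [h1]
    exact hu0
  · filter_upwards [hfac, hu.continuousAt.norm.tendsto.eventually
      (Ioo_mem_nhds (show ‖u 0‖ / 2 < ‖u 0‖ by linarith) (show ‖u 0‖ < 2 * ‖u 0‖ by linarith))]
      with β h1 h2
    rw [h1, sub_zero, smul_eq_mul, norm_mul, norm_pow]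
    have h3 : 0 ≤ ‖β‖ ^ m := by positivity
    constructor
    · rw [mul_comm]
      exact mul_le_mul_of_nonneg_left h2.1.le h3
    · rw [mul_comm]
      exact mul_le_mul_of_nonneg_right h2.2.le h3

variable {Z : Type*}

/-- sheets with analytic leading coefficients -/
def SheetsA {J : Type*} (fib : ℂ → Set Z) (G : ℂ → Z → ℂ) (φ : ℂ → ℂ) (ζ : J → ℂ → Z)
    (v : J → ℤ) (H : J → ℂ → ℂ) : Prop :=
  (∀ᶠ β in 𝓝[≠] (0 : ℂ), Function.Injective (fun j => ζ j β) ∧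
      ∀ x, x ∈ fib (φ β) ↔ ∃ j, ζ j β = x) ∧
    ∀ j, AnalyticAt ℂ (H j) 0 ∧ (∃ᶠ β in 𝓝 (0 : ℂ), H j β ≠ 0) ∧
      ∀ᶠ β in 𝓝[≠] (0 : ℂ), G (φ β) (ζ j β) = β ^ v j * H j β

theorem SheetsA.sheets {J : Type*} {fib : ℂ → Set Z} {G : ℂ → Z → ℂ} {φ : ℂ → ℂ} {ζ : J → ℂ → Z}
    {v : J → ℤ} {H : J → ℂ → ℂ} (h : SheetsA fib G φ ζ v H) :
    ∃ m : J → ℕ, (∀ j, m j = 0 → H j 0 ≠ 0) ∧ Sheets fib G φ ζ (fun j => v j + m j) := by
  choose m hm1 hm2 using fun j => bounds_of_analytic (h.2 j).1 (h.2 j).2.1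
  refine ⟨m, hm1, h.1, fun j => ?_⟩
  obtain ⟨a, A, ha, hb⟩ := hm2 j
  refine ⟨a, A, ha, ?_⟩
  filter_upwards [(h.2 j).2.2, hb.filter_mono nhdsWithin_le_nhds, self_mem_nhdsWithin]
    with β h1 h2 h3
  have hβ : 0 < ‖β‖ := norm_pos_iff.2 h3
  rw [h1, norm_mul, norm_zpow, zpow_add₀ hβ.ne', zpow_natCast]
  have h4 : 0 < ‖β‖ ^ v j := zpow_pos hβ _
  constructor
  · calc a * (‖β‖ ^ v j * ‖β‖ ^ m j) = ‖β‖ ^ v j * (a * ‖β‖ ^ m j) := by ring
      _ ≤ _ := mul_le_mul_of_nonneg_left h2.1 h4.le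
  · calc ‖β‖ ^ v j * ‖H j β‖ ≤ ‖β‖ ^ v j * (A * ‖β‖ ^ m j) :=
        mul_le_mul_of_nonneg_left h2.2 h4.le
      _ = _ := by ring

/-- **degree formula, analytic leading coefficients** -/
theorem cover_an {S : Finset ℂ} {fib : ℂ → Set Z} {G : ℂ → Z → ℂ}
    (hloc : ∀ w₀ ∉ S, ∃ (J : Type) (_ : Fintype J) (ζ : J → ℂ → Z),
      (∀ᶠ w in 𝓝 w₀, Function.Injective (fun j => ζ j w) ∧ ∀ x, x ∈ fib w ↔ ∃ j, ζ j w = x) ∧
      ∀ j, DifferentiableAt ℂ (fun w => G w (ζ j w)) w₀)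
    {J : ℂ → Type} [∀ c, Fintype (J c)] {l : ℂ → ℕ} (hl : ∀ c ∈ S, 0 < l c)
    {ζ : ∀ c, J c → ℂ → Z} {v : ∀ c, J c → ℤ} {H : ∀ c, J c → ℂ → ℂ}
    (hS : ∀ c ∈ S, SheetsA fib G (fun β => c + β ^ l c) (ζ c) (v c) (H c))
    {J' : Type} [Fintype J'] {l' : ℕ} (hl' : 0 < l') {ζ' : J' → ℂ → Z} {v' : J' → ℤ}
    {H' : J' → ℂ → ℂ} (hinf : SheetsA fib G (fun β => (β ^ l')⁻¹) ζ' v' H') :
    ∑ c ∈ S, ∑ j, (v c j : ℝ) / l c + ∑ j, (v' j : ℝ) / l' ≤ 0 ∧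
      (∑ c ∈ S, ∑ j, (v c j : ℝ) / l c + ∑ j, (v' j : ℝ) / l' = 0 →
        (∀ w ∉ S, ∀ z ∈ fib w, G w z ≠ 0) ∧ (∀ c ∈ S, ∀ j, H c j 0 ≠ 0) ∧ ∀ j, H' j 0 ≠ 0) := by
  classical
  have h1 : ∀ c, ∃ m : J c → ℕ, (c ∈ S → (∀ j, m j = 0 → H c j 0 ≠ 0) ∧
      Sheets fib G (fun β => c + β ^ l c) (ζ c) (fun j => v c j + m j)) := by
    intro c
    by_cases hc : c ∈ S
    · obtain ⟨m, hm1, hm2⟩ := (hS c hc).sheets
      exact ⟨m, fun _ => ⟨hm1, hm2⟩⟩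
    · exact ⟨fun _ => 0, fun h => absurd h hc⟩
  choose m hm using h1
  obtain ⟨m', hm1', hm2'⟩ := hinf.sheets
  have h2 := cover_param hloc hl (fun c hc => (hm c hc).2) hl' hm2'
  have h3 : ∑ c ∈ S, ∑ j, ((v c j + m c j : ℤ) : ℝ) / l c + ∑ j, ((v' j + m' j : ℤ) : ℝ) / l' =
      (∑ c ∈ S, ∑ j, (v c j : ℝ) / l c + ∑ j, (v' j : ℝ) / l') +
      (∑ c ∈ S, ∑ j, (m c j : ℝ) / l c + ∑ j, (m' j : ℝ) / l') := by
    have e1 : ∀ c, ∑ j, ((v c j + m c j : ℤ) : ℝ) / l c =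
        ∑ j, (v c j : ℝ) / l c + ∑ j, (m c j : ℝ) / l c := by
      intro c
      rw [← Finset.sum_add_distrib]
      refine Finset.sum_congr rfl fun j _ => ?_
      push_cast
      ring
    have e2 : ∑ j, ((v' j + m' j : ℤ) : ℝ) / l' =
        ∑ j, (v' j : ℝ) / l' + ∑ j, (m' j : ℝ) / l' := by
      rw [← Finset.sum_add_distrib]
      refine Finset.sum_congr rfl fun j _ => ?_
      push_cast
      ring
    simp_rw [e1]
    rw [e2, Finset.sum_add_distrib]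
    ring
  have hA : ∀ c ∈ S, 0 ≤ ∑ j, (m c j : ℝ) / l c := fun c _ =>
    Finset.sum_nonneg fun j _ => by positivity
  have hB : 0 ≤ ∑ j, (m' j : ℝ) / l' := Finset.sum_nonneg fun j _ => by positivity
  have hC : 0 ≤ ∑ c ∈ S, ∑ j, (m c j : ℝ) / l c := Finset.sum_nonneg hA
  rw [h3] at h2
  refine ⟨by linarith [h2.1], fun h0 => ?_⟩
  have h4 : ∑ c ∈ S, ∑ j, (m c j : ℝ) / l c = 0 := by linarith [h2.1]
  have h5 : ∑ j, (m' j : ℝ) / l' = 0 := by linarith [h2.1]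
  refine ⟨h2.2 (by rw [h0, h4, h5]; ring), fun c hc j => ?_, fun j => ?_⟩
  · have h6 := (Finset.sum_eq_zero_iff_of_nonneg hA).1 h4 c hc
    have h7 := (Finset.sum_eq_zero_iff_of_nonneg fun j _ => by positivity).1 h6 j
      (Finset.mem_univ j)
    refine (hm c hc).1 j ?_
    have hlR : (l c : ℝ) ≠ 0 := by exact_mod_cast (hl c hc).ne'
    rw [div_eq_zero_iff] at h7
    exact_mod_cast h7.resolve_right hlR
  · have h7 := (Finset.sum_eq_zero_iff_of_nonneg fun j _ => by positivity).1 h5 j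
      (Finset.mem_univ j)
    refine hm1' j ?_
    have hlR : (l' : ℝ) ≠ 0 := by exact_mod_cast hl'.ne'
    rw [div_eq_zero_iff] at h7
    exact_mod_cast h7.resolve_right hlR

end Crest.Agent.R257.Deg_578
end
end

-- ▼ part R257/OrdT1_578
section

/-!
# Row 257, part C, `Frame.ord` in the T-frame (helper578), part 1: pull-backs of germs to the charts
-/

set_option autoImplicit false
set_option linter.unusedSectionVars false

open Polynomial Set Filter Topology Metric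
open Crest.AlgGeometry.Germ Crest.Agent.R257.AJ387

noncomputable section

namespace Crest.Agent.R257.OrdT_578

open Crest.Agent.R257.T387 Crest.Agent.R257.OrdL_578

variable {f : (Fin 3 → ℂ) → ℂ} (T : TB f)

/-- `g ∘ th` -/
def gth (g : (Fin 3 → ℂ) → ℂ) (c : Ch T.m) (z : ℂ × ℂ → ℂ) (q : ℂ × ℂ) : ℂ := g (T.th c z q)

variable {T}

theorem pt_an {z : ℂ × ℂ → ℂ} {q : ℂ × ℂ → ℂ × ℂ} {p : ℂ × ℂ} (hz : AnalyticAt ℂ z p)
    (hq : AnalyticAt ℂ q p) : AnalyticAt ℂ (fun p => pt (z p) (q p)) p := by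
  refine AnalyticAt.pi fun i => ?_
  fin_cases i
  · exact hz
  · exact AnalyticAt.comp (g := fun x : ℂ × ℂ => x.1) (f := q) analyticAt_fst hq
  · exact AnalyticAt.comp (g := fun x : ℂ × ℂ => x.2) (f := q) analyticAt_snd hq

theorem pt_zero : pt 0 (0 : ℂ × ℂ) = 0 := by
  funext i
  fin_cases i <;> rfl

theorem base_an (q : ℂ × ℂ) : AnalyticAt ℂ T.base q := by
  have h1 : AnalyticAt ℂ (fun q : ℂ × ℂ => (q.1 ^ T.N, q.2)) q :=
    (analyticAt_fst.pow _).prod analyticAt_snd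
  exact AnalyticAt.comp (g := T.A) (f := fun q : ℂ × ℂ => (q.1 ^ T.N, q.2))
    ((T.A : (ℂ × ℂ) →L[ℂ] (ℂ × ℂ)).analyticAt _) h1

theorem base_zero : T.base 0 = 0 := by
  have : (((0 : ℂ × ℂ).1 ^ T.N, (0 : ℂ × ℂ).2) : ℂ × ℂ) = 0 := by
    ext <;> simp [T.N_pos.ne']
  rw [TB.base, this, map_zero]

/-- the chart map is analytic where `|s|^M < ρ` -/
theorem map_an {c : Ch T.m} {p : ℂ × ℂ} (h : ‖(T.map c p).1‖ ^ T.M < T.ρ) :
    AnalyticAt ℂ (T.map c) p := by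
  have hφ : ∀ (i : Fin T.m) (g : ℂ × ℂ → ℂ), AnalyticAt ℂ g p → ‖g p‖ ^ T.M < T.ρ →
      AnalyticAt ℂ (fun p => T.φ i (g p ^ T.M)) p := by
    intro i g hg hlt
    refine AnalyticAt.comp (g := T.φ i) (f := fun p => g p ^ T.M) ?_ (hg.pow _)
    refine T.φ_an i _ ?_
    rwa [mem_ball, dist_zero_right, norm_pow]
  cases c with
  | edge i k k' =>
    have h1 : AnalyticAt ℂ (fun p : ℂ × ℂ => p.1 * p.2) p := analyticAt_fst.mul analyticAt_snd
    exact h1.prod ((hφ i _ h1 h).add ((analyticAt_fst.pow _).mul (analyticAt_snd.pow _)))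
  | leg i =>
    exact analyticAt_fst.prod ((hφ i _ analyticAt_fst h).add
      ((analyticAt_fst.pow _).mul (analyticAt_snd.pow _)))
  | vert i k w₀ =>
    exact analyticAt_fst.prod ((hφ i _ analyticAt_fst h).add
      ((analyticAt_fst.pow _).mul (analyticAt_const.add analyticAt_snd)))

/-- sheets vanish where the chart map vanishes -/
theorem sheet_zero {c : Ch T.m} {r : ℝ} {ζ : Fin T.d → ℂ × ℂ → ℂ} (h : T.Sheets c r ζ)
    {p : ℂ × ℂ} (hp : p ∈ BD r r) (h0 : T.map c p = 0) (j : Fin T.d) : ζ j p = 0 := by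
  have h1 := h.split p hp
  have h2 : T.Q 0 = X ^ T.d := by
    have : (((0 : ℂ × ℂ).1 ^ T.N, (0 : ℂ × ℂ).2) : ℂ × ℂ) = 0 := by
      ext <;> simp [T.N_pos.ne']
    rw [TB.Q, this, T.P_zero]
  rw [h0, h2] at h1
  have h3 := congrArg (Polynomial.eval (ζ j p)) h1
  rw [eval_pow, eval_X, eval_prod, Finset.prod_eq_zero (Finset.mem_univ j) (by simp)] at h3
  exact (pow_eq_zero_iff T.d_pos.ne').1 h3

theorem th_zero {c : Ch T.m} {r : ℝ} {ζ : Fin T.d → ℂ × ℂ → ℂ} (h : T.Sheets c r ζ)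
    {p : ℂ × ℂ} (hp : p ∈ BD r r) (h0 : T.map c p = 0) (j : Fin T.d) : T.th c (ζ j) p = 0 := by
  rw [TB.th, sheet_zero h hp h0 j, h0, base_zero, pt_zero]

theorem th_an {c : Ch T.m} {z : ℂ × ℂ → ℂ} {p : ℂ × ℂ} (hz : AnalyticAt ℂ z p)
    (hs : ‖(T.map c p).1‖ ^ T.M < T.ρ) : AnalyticAt ℂ (T.th c z) p :=
  pt_an hz (AnalyticAt.comp (g := T.base) (f := T.map c) (base_an _) (map_an hs))

/-- `g ∘ th` is analytic on the special fibre -/
theorem gth_an {g : (Fin 3 → ℂ) → ℂ} (hg : AnalyticAt ℂ g 0) {c : Ch T.m} {r : ℝ}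
    {ζ : Fin T.d → ℂ × ℂ → ℂ} (h : T.Sheets c r ζ) {p : ℂ × ℂ} (hp : p ∈ BD r r)
    (h0 : T.map c p = 0) (j : Fin T.d) : AnalyticAt ℂ (gth T g c (ζ j)) p := by
  refine AnalyticAt.comp (g := g) (f := T.th c (ζ j)) ?_ (th_an (h.an j p hp) (h.mem p hp).2)
  rw [th_zero h hp h0 j]
  exact hg

/-- the points of the special fibre -/
theorem map_vert {i : Fin T.m} {k : ℕ} (hk : 0 < k) (w₀ b : ℂ) :
    T.map (.vert i k w₀) (0, b) = 0 := by
  have h1 : T.M * k ≠ 0 := (Nat.mul_pos T.M_pos hk).ne'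
  simp [TB.map, T.M_pos.ne', T.φ_zero, h1]

theorem map_leg (i : Fin T.m) (b : ℂ) : T.map (.leg i) (0, b) = 0 := by
  have h1 : T.M * T.top i ≠ 0 := (Nat.mul_pos T.M_pos (TB.lev_pos (T := T) (TB.top_mem (T := T) i))).ne'
  simp [TB.map, T.M_pos.ne', T.φ_zero, h1]

theorem map_edge1 {i : Fin T.m} {k k' : ℕ} (hk : 0 < k) (b : ℂ) :
    T.map (.edge i k k') (0, b) = 0 := by
  have h1 : T.M * k ≠ 0 := (Nat.mul_pos T.M_pos hk).ne'
  simp [TB.map, T.M_pos.ne', T.φ_zero, h1]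

theorem map_edge2 {i : Fin T.m} {k k' : ℕ} (hk' : 0 < k') (a : ℂ) :
    T.map (.edge i k k') (a, 0) = 0 := by
  have h1 : T.M * k' ≠ 0 := (Nat.mul_pos T.M_pos hk').ne'
  simp [TB.map, T.M_pos.ne', T.φ_zero, h1]

end Crest.Agent.R257.OrdT_578
end
end

-- ▼ part R257/OrdL2_578
section

/-!
# Row 257, leaf C-ORDLOC (helper578), part 2: congruence, translation, open mapping
-/

set_option autoImplicit false
set_option linter.unusedSectionVars false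

open Set Filter Topology Complex

noncomputable section

namespace Crest.Agent.R257.OrdL_578

theorem Quo.congr {h h' : ℂ × ℂ → ℂ} {b : ℂ} {n : ℕ} {G : ℂ × ℂ → ℂ} (hG : Quo h b n G)
    (he : h =ᶠ[𝓝 ((0 : ℂ), b)] h') : Quo h' b n G := by
  refine ⟨hG.1, ?_⟩
  filter_upwards [hG.2, he] with q h1 h2
  rw [← h2, h1]

theorem HasOrd.congr {h h' : ℂ × ℂ → ℂ} {b : ℂ} {n : ℕ} (hn : HasOrd h b n)
    (he : h =ᶠ[𝓝 ((0 : ℂ), b)] h') : HasOrd h' b n := by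
  obtain ⟨G, hG, hne⟩ := hn
  exact ⟨G, hG.congr he, hne⟩


theorem lc_congr {h h' : ℂ × ℂ → ℂ} {b : ℂ} {n : ℕ} (he : h =ᶠ[𝓝 ((0 : ℂ), b)] h') :
    lc h n b = lc h' n b := by
  have h1 : (fun s : ℂ => h (s, b) / s ^ n) =ᶠ[𝓝[≠] 0] fun s => h' (s, b) / s ^ n := by
    filter_upwards [((tendsto_fst b).eventually he).filter_mono nhdsWithin_le_nhds] with s hs
    rw [hs]
  unfold lc limUnder
  rw [Filter.map_congr h1]

/-- translations -/
theorem chg_trans (b c : ℂ) : Chg (fun q => (q.1, q.2 + c)) (fun _ => 1) b (b + c) where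
  an1 := analyticAt_fst
  an2 := analyticAt_snd.add analyticAt_const
  val := rfl
  uan := analyticAt_const
  une := one_ne_zero
  fst := Eventually.of_forall fun q => by simp
  snd := by
    have h1 : ∀ᶠ z in 𝓝[≠] b, z + c ≠ b + c := by
      filter_upwards [self_mem_nhdsWithin] with z hz
      exact fun h => hz (add_right_cancel h)
    exact (h1.frequently).filter_mono nhdsWithin_le_nhds

theorem hasOrd_trans {h : ℂ × ℂ → ℂ} {b c : ℂ} {n : ℕ} :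
    HasOrd (fun q => h (q.1, q.2 + c)) b n ↔ HasOrd h (b + c) n := by
  constructor
  · intro hn
    have h1 := (chg_trans (b + c) (-c)).hasOrd (h := fun q => h (q.1, q.2 + c)) (n := n)
      (by simpa using hn)
    simpa using h1
  · exact (chg_trans b c).hasOrd

theorem lc_trans {h : ℂ × ℂ → ℂ} {b c : ℂ} {n : ℕ} :
    lc (fun q => h (q.1, q.2 + c)) n b = lc h n (b + c) := rfl

/-- a change of charts, given pointwise -/
theorem HasOrd.of_att {h h' : ℂ × ℂ → ℂ} {φ : ℂ × ℂ → ℂ × ℂ} {u : ℂ × ℂ → ℂ} {b b' : ℂ}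
    (hφ : Chg φ u b b') (he : ∀ᶠ q in 𝓝 ((0 : ℂ), b), h' q = h (φ q)) {n : ℕ}
    (hn : HasOrd h b' n) : HasOrd h' b n :=
  (hφ.hasOrd hn).congr (he.mono fun _ hq => hq.symm)

/-- nonvanishing is transported by a change of charts -/
theorem Chg.not_zero {φ : ℂ × ℂ → ℂ × ℂ} {u : ℂ × ℂ → ℂ} {b b' : ℂ} (hφ : Chg φ u b b')
    {h : ℂ × ℂ → ℂ} (hh : AnalyticAt ℂ h (0, b'))
    (h0 : ¬ ∀ᶠ q in 𝓝 ((0 : ℂ), b'), h q = 0) : ¬ ∀ᶠ q in 𝓝 ((0 : ℂ), b), h (φ q) = 0 := by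
  obtain ⟨n, hn⟩ := exists_ord hh h0
  exact (hφ.hasOrd hn).not_zero

/-- the order of the pull-back determines the order -/
theorem HasOrd.of_att' {h h' : ℂ × ℂ → ℂ} {φ : ℂ × ℂ → ℂ × ℂ} {u : ℂ × ℂ → ℂ} {b b' : ℂ}
    (hφ : Chg φ u b b') (he : ∀ᶠ q in 𝓝 ((0 : ℂ), b), h' q = h (φ q)) {n : ℕ}
    (hh : AnalyticAt ℂ h (0, b')) (hn : HasOrd h' b n) : HasOrd h b' n := by
  have h1 : HasOrd (fun q => h (φ q)) b n := hn.congr he
  refine (hφ.hasOrd_iff hh ?_).1 h1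
  intro h0
  have ht : Tendsto φ (𝓝 ((0 : ℂ), b)) (𝓝 ((0 : ℂ), b')) := by
    have := hφ.an.continuousAt.tendsto
    rwa [hφ.val] at this
  exact h1.not_zero (ht.eventually h0)

/-- leading coefficients under a change of charts given pointwise -/
theorem lc_of_att {h h' : ℂ × ℂ → ℂ} {φ : ℂ × ℂ → ℂ × ℂ} {u : ℂ × ℂ → ℂ} {b b' : ℂ}
    (hφ : Chg φ u b b') (he : ∀ᶠ q in 𝓝 ((0 : ℂ), b), h' q = h (φ q)) {n : ℕ}
    (hn : HasOrd h b' n) : lc h' n b = u (0, b) ^ n * lc h n b' := by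
  obtain ⟨G, hG, -⟩ := hn
  have h1 := (hφ.lc_eq hG).self_of_nhds
  rw [hφ.val] at h1
  rw [lc_congr he]
  exact h1

/-! ### discs and crosses -/

/-- the order along a disc in the special fibre -/
theorem exists_ord_ball {h : ℂ × ℂ → ℂ} {r : ℝ} (han : ∀ z, ‖z‖ < r → AnalyticAt ℂ h (0, z))
    {z₀ : ℂ} (hz₀ : ‖z₀‖ < r) (h0 : ¬ ∀ᶠ q in 𝓝 ((0 : ℂ), z₀), h q = 0) :
    ∃ n, ∀ z, ‖z‖ < r → HasOrd h z n := by
  obtain ⟨n, hn⟩ := exists_ord (han z₀ hz₀) h0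
  have h1 := HasOrd.of_preconnected (K := Metric.ball (0 : ℂ) r) (convex_ball _ _).isPreconnected
    (fun z hz => han z (by simpa using hz)) (b := z₀) (by simpa using hz₀) hn
  exact ⟨n, fun z hz => h1 z (by simpa using hz)⟩



theorem sw_an' {h : ℂ × ℂ → ℂ} {a b : ℂ} (hh : AnalyticAt ℂ h (a, b)) :
    AnalyticAt ℂ (sw h) (b, a) := sw_an (p := (b, a)) hh


end Crest.Agent.R257.OrdL_578
end
end

-- ▼ part R257/OrdT2_578
section

/-!
# Row 257, part C, `Frame.ord` in the T-frame (helper578), part 2: the coordinate `w` of a vertex in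
the charts

`Wf i k c` : the coordinate `w = (y' - φ_i)/s^(Mk)` of the vertex `(i,k)` in the chart `c`;
`T.map c q = T.map (vert i k x) ((T.map c q).1, Wf q - x)`.
-/

set_option autoImplicit false
set_option linter.unusedSectionVars false

open Polynomial Set Filter Topology Metric
open Crest.AlgGeometry.Germ Crest.Agent.R257.AJ387

noncomputable section

namespace Crest.Agent.R257.OrdT_578

open Crest.Agent.R257.T387 Crest.Agent.R257.OrdL_578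

variable {f : (Fin 3 → ℂ) → ℂ} (T : TB f)

/-- `(φ_j - φ_i) / s₀ ^ k` -/
def shD (k : ℕ) (i j : Fin T.m) (s : ℂ) : ℂ :=
  if j = i then 0 else s ^ (T.del j i - k) * T.u j i s

/-- `i` and `j` define the same vertex at level `k` -/
def Same (k : ℕ) (i j : Fin T.m) : Prop := j = i ∨ k ≤ T.del j i

variable {T}

theorem shD_an (k : ℕ) (i j : Fin T.m) {s : ℂ} (hs : s ∈ ball (0 : ℂ) T.ρ) :
    AnalyticAt ℂ (shD T k i j) s := by
  unfold shD
  by_cases h : j = i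
  · simp only [h, if_true]
    exact analyticAt_const
  · simp only [h, if_false]
    exact (analyticAt_id.pow _).mul (T.u_an j i h s hs)

theorem shD_spec {k : ℕ} {i j : Fin T.m} (h : Same T k i j) {s : ℂ} (hs : s ∈ ball (0 : ℂ) T.ρ) :
    T.φ j s = T.φ i s + s ^ k * shD T k i j s := by
  unfold shD
  by_cases hj : j = i
  · simp [hj]
  · have h1 : k ≤ T.del j i := h.resolve_left hj
    have h2 := T.φ_sub j i hj s hs
    simp only [hj, if_false]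
    rw [← mul_assoc, ← pow_add, Nat.add_sub_cancel' h1, ← h2]
    ring

variable (T)

/-- the coordinate `w` of the vertex `(i,k)` in the chart `c` -/
def Wf (i : Fin T.m) (k : ℕ) : Ch T.m → ℂ × ℂ → ℂ
  | .edge j k₁ k₂, q => shD T k i j ((q.1 * q.2) ^ T.M) +
      if k = k₁ then q.2 ^ (T.M * (k₂ - k₁)) else (q.1 ^ (T.M * (k₂ - k₁)))⁻¹
  | .leg j, q => shD T k i j (q.1 ^ T.M) + q.2 ^ T.M
  | .vert j _ w₁, q => shD T k i j (q.1 ^ T.M) + (w₁ + q.2)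

variable {T}

theorem map_vert_eq {i : Fin T.m} {k : ℕ} {x W s y : ℂ} (h : y = T.φ i (s ^ T.M) + s ^ (T.M * k) * W) :
    (s, y) = T.map (.vert i k x) (s, W - x) := by
  simp only [TB.map]
  rw [h]
  congr 1
  ring

theorem Wf_vert {i j : Fin T.m} {k : ℕ} (hs : Same T k i j) {w₁ x : ℂ} {q : ℂ × ℂ}
    (hq : ‖q.1‖ ^ T.M < T.ρ) :
    T.map (.vert j k w₁) q = T.map (.vert i k x) (q.1, Wf T i k (.vert j k w₁) q - x) := by
  rw [← map_vert_eq (W := Wf T i k (.vert j k w₁) q)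
    (y := (T.map (.vert j k w₁) q).2) (s := q.1)]
  · rfl
  · simp only [TB.map, Wf]
    have h1 := shD_spec hs (s := q.1 ^ T.M) (by rwa [mem_ball, dist_zero_right, norm_pow])
    rw [h1, ← pow_mul]
    ring

theorem Wf_leg {i j : Fin T.m} {k : ℕ} (hs : Same T k i j) (hk : T.top j = k) {x : ℂ} {q : ℂ × ℂ}
    (hq : ‖q.1‖ ^ T.M < T.ρ) :
    T.map (.leg j) q = T.map (.vert i k x) (q.1, Wf T i k (.leg j) q - x) := by
  rw [← map_vert_eq (W := Wf T i k (.leg j) q) (y := (T.map (.leg j) q).2) (s := q.1)]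
  · rfl
  · simp only [TB.map, Wf]
    have h1 := shD_spec hs (s := q.1 ^ T.M) (by rwa [mem_ball, dist_zero_right, norm_pow])
    rw [h1, ← pow_mul, hk]
    ring

theorem Wf_edge1 {i j : Fin T.m} {k k₂ : ℕ} (hs : Same T k i j) (hk : k ≤ k₂) {x : ℂ} {q : ℂ × ℂ}
    (hq : ‖q.1 * q.2‖ ^ T.M < T.ρ) :
    T.map (.edge j k k₂) q = T.map (.vert i k x) (q.1 * q.2, Wf T i k (.edge j k k₂) q - x) := by
  rw [← map_vert_eq (W := Wf T i k (.edge j k k₂) q) (y := (T.map (.edge j k k₂) q).2)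
    (s := q.1 * q.2)]
  · rfl
  · simp only [TB.map, Wf, if_true]
    have h1 := shD_spec hs (s := (q.1 * q.2) ^ T.M) (by rwa [mem_ball, dist_zero_right, norm_pow])
    rw [h1, ← pow_mul, mul_add, add_assoc]
    congr 2
    rw [mul_pow, mul_assoc, ← pow_add, ← mul_add, Nat.add_sub_cancel' hk]

theorem Wf_edge2 {i j : Fin T.m} {k₁ k : ℕ} (hs : Same T k i j) (hk : k₁ < k) {x : ℂ} {q : ℂ × ℂ}
    (hq : ‖q.1 * q.2‖ ^ T.M < T.ρ) (hq1 : q.1 ≠ 0) :
    T.map (.edge j k₁ k) q = T.map (.vert i k x) (q.1 * q.2, Wf T i k (.edge j k₁ k) q - x) := by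
  rw [← map_vert_eq (W := Wf T i k (.edge j k₁ k) q) (y := (T.map (.edge j k₁ k) q).2)
    (s := q.1 * q.2)]
  · rfl
  · simp only [TB.map, Wf, hk.ne', if_false]
    have h1 := shD_spec hs (s := (q.1 * q.2) ^ T.M) (by rwa [mem_ball, dist_zero_right, norm_pow])
    rw [h1, ← pow_mul, mul_add, add_assoc]
    congr 2
    have h2 : T.M * k = T.M * k₁ + T.M * (k - k₁) := by
      rw [← mul_add, Nat.add_sub_cancel' hk.le]
    have h3 : q.1 ^ (T.M * (k - k₁)) ≠ 0 := pow_ne_zero _ hq1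
    rw [mul_pow, h2, pow_add, pow_add]
    field_simp

end Crest.Agent.R257.OrdT_578
end
private theorem rz_6cce3b143f : type_of% @_root_.Crest.Agent.R257.OrdT_578.Wf.eq_1 := @_root_.Crest.Agent.R257.OrdT_578.Wf.eq_1 -- L58
end

-- ▼ part R257/OrdT3_578
section

/-!
# Row 257, part C, `Frame.ord` in the T-frame (helper578), part 3: the charts against the vertex
charts are admissible changes of coordinates (`Chg`).
-/

set_option autoImplicit false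
set_option linter.unusedSectionVars false

open Polynomial Set Filter Topology Metric
open Crest.AlgGeometry.Germ Crest.Agent.R257.AJ387

noncomputable section

namespace Crest.Agent.R257.OrdT_578

open Crest.Agent.R257.T387 Crest.Agent.R257.OrdL_578

variable {f : (Fin 3 → ℂ) → ℂ} {T : TB f}

theorem zero_mem_ρ : (0 : ℂ) ∈ ball (0 : ℂ) T.ρ := mem_ball_self T.ρ_pos

/-- analyticity of `shD` composed with a function vanishing at the point -/
theorem shD_comp (k : ℕ) (i j : Fin T.m) {g : ℂ × ℂ → ℂ} {p : ℂ × ℂ} (hg : AnalyticAt ℂ g p)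
    (h0 : g p = 0) : AnalyticAt ℂ (fun q => shD T k i j (g q ^ T.M)) p := by
  refine AnalyticAt.comp (g := shD T k i j) (f := fun q => g q ^ T.M) ?_ (hg.pow _)
  refine shD_an k i j ?_
  rw [h0, zero_pow T.M_pos.ne']
  exact zero_mem_ρ

theorem frequently_of_deriv {W : ℂ → ℂ} {b d : ℂ} (h : HasDerivAt W d b) (hd : d ≠ 0) (x : ℂ) :
    ∃ᶠ z in 𝓝 b, W z ≠ x :=
  ((h.eventually_ne hd (c := x)).frequently).filter_mono nhdsWithin_le_nhds


/-- vertex charts -/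
theorem chg_vert (i j : Fin T.m) (k : ℕ) (w₁ b : ℂ) :
    Chg (fun q => (q.1, Wf T i k (.vert j k w₁) q - (shD T k i j 0 + (w₁ + b))))
      (fun _ => 1) b 0 where
  an1 := analyticAt_fst
  an2 := by
    refine AnalyticAt.sub ?_ analyticAt_const
    exact (shD_comp k i j analyticAt_fst rfl).add (analyticAt_const.add analyticAt_snd)
  val := by
    simp [Wf, T.M_pos.ne']
  uan := analyticAt_const
  une := one_ne_zero
  fst := Eventually.of_forall fun q => by simp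
  snd := by
    have h1 : ∀ z : ℂ, Wf T i k (.vert j k w₁) (0, z) - (shD T k i j 0 + (w₁ + b)) = z - b := by
      intro z
      simp [Wf, T.M_pos.ne']
    simp only [h1]
    exact frequently_of_deriv ((hasDerivAt_id' b).sub_const b) one_ne_zero 0

/-- leg charts off the end point -/
theorem chg_leg (i j : Fin T.m) (k : ℕ) {b : ℂ} (hb : b ≠ 0) :
    Chg (fun q => (q.1, Wf T i k (.leg j) q - (shD T k i j 0 + b ^ T.M)))
      (fun _ => 1) b 0 where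
  an1 := analyticAt_fst
  an2 := by
    refine AnalyticAt.sub ?_ analyticAt_const
    exact (shD_comp k i j analyticAt_fst rfl).add (analyticAt_snd.pow _)
  val := by
    simp [Wf, T.M_pos.ne']
  uan := analyticAt_const
  une := one_ne_zero
  fst := Eventually.of_forall fun q => by simp
  snd := by
    have h1 : ∀ z : ℂ, Wf T i k (.leg j) (0, z) - (shD T k i j 0 + b ^ T.M) =
        z ^ T.M - b ^ T.M := by
      intro z
      simp [Wf, T.M_pos.ne']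
    simp only [h1]
    have hM : ((T.M : ℕ) : ℂ) ≠ 0 := by exact_mod_cast T.M_pos.ne'
    exact frequently_of_deriv ((hasDerivAt_pow T.M b).sub_const _)
      (mul_ne_zero hM (pow_ne_zero _ hb)) 0

/-- edge charts, first branch -/
theorem chg_edge1 (i j : Fin T.m) {k k₂ : ℕ} (hk : k < k₂) {b : ℂ} (hb : b ≠ 0) :
    Chg (fun q => (q.1 * q.2, Wf T i k (.edge j k k₂) q -
      (shD T k i j 0 + b ^ (T.M * (k₂ - k))))) (fun q => q.2) b 0 where
  an1 := analyticAt_fst.mul analyticAt_snd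
  an2 := by
    refine AnalyticAt.sub ?_ analyticAt_const
    have h1 : Wf T i k (.edge j k k₂) = fun q : ℂ × ℂ =>
        shD T k i j ((q.1 * q.2) ^ T.M) + q.2 ^ (T.M * (k₂ - k)) := by
      funext q; simp [Wf]
    rw [h1]
    exact (shD_comp k i j (analyticAt_fst.mul analyticAt_snd) (by simp)).add (analyticAt_snd.pow _)
  val := by
    simp [Wf, T.M_pos.ne']
  uan := analyticAt_snd
  une := hb
  fst := Eventually.of_forall fun q => rfl
  snd := by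
    have h1 : ∀ z : ℂ, Wf T i k (.edge j k k₂) (0, z) -
        (shD T k i j 0 + b ^ (T.M * (k₂ - k))) =
        z ^ (T.M * (k₂ - k)) - b ^ (T.M * (k₂ - k)) := by
      intro z
      simp [Wf, T.M_pos.ne']
    simp only [h1]
    have hl : ((T.M * (k₂ - k) : ℕ) : ℂ) ≠ 0 := by
      have : 0 < T.M * (k₂ - k) := Nat.mul_pos T.M_pos (by omega)
      exact_mod_cast this.ne'
    exact frequently_of_deriv ((hasDerivAt_pow (T.M * (k₂ - k)) b).sub_const _)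
      (mul_ne_zero hl (pow_ne_zero _ hb)) 0

/-- edge charts, second branch (in exchanged coordinates) -/
theorem chg_edge2 (i j : Fin T.m) {k₁ k : ℕ} (hk : k₁ < k) {a : ℂ} (ha : a ≠ 0) :
    Chg (fun q => (q.2 * q.1, Wf T i k (.edge j k₁ k) (q.2, q.1) -
      (shD T k i j 0 + (a ^ (T.M * (k - k₁)))⁻¹))) (fun q => q.2) a 0 where
  an1 := analyticAt_snd.mul analyticAt_fst
  an2 := by
    refine AnalyticAt.sub ?_ analyticAt_const
    have h1 : (fun q : ℂ × ℂ => Wf T i k (.edge j k₁ k) (q.2, q.1)) = fun q =>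
        shD T k i j ((q.2 * q.1) ^ T.M) + (q.2 ^ (T.M * (k - k₁)))⁻¹ := by
      funext q; simp [Wf, hk.ne']
    rw [h1]
    exact (shD_comp k i j (analyticAt_snd.mul analyticAt_fst) (by simp)).add
      ((analyticAt_snd.pow _).inv (pow_ne_zero _ ha))
  val := by
    simp [Wf, T.M_pos.ne', hk.ne']
  uan := analyticAt_snd
  une := ha
  fst := Eventually.of_forall fun q => by simp [mul_comm]
  snd := by
    have h1 : ∀ z : ℂ, Wf T i k (.edge j k₁ k) (z, 0) -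
        (shD T k i j 0 + (a ^ (T.M * (k - k₁)))⁻¹) =
        (z ^ (T.M * (k - k₁)))⁻¹ - (a ^ (T.M * (k - k₁)))⁻¹ := by
      intro z
      simp [Wf, T.M_pos.ne', hk.ne']
    simp only [h1]
    have hl : ((T.M * (k - k₁) : ℕ) : ℂ) ≠ 0 := by
      have : 0 < T.M * (k - k₁) := Nat.mul_pos T.M_pos (by omega)
      exact_mod_cast this.ne'
    have hal : a ^ (T.M * (k - k₁)) ≠ 0 := pow_ne_zero _ ha
    have h2 := ((hasDerivAt_pow (T.M * (k - k₁)) a).fun_inv hal).sub_const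
      ((a ^ (T.M * (k - k₁)))⁻¹)
    exact frequently_of_deriv h2
      (div_ne_zero (neg_ne_zero.2 (mul_ne_zero hl (pow_ne_zero _ ha))) (pow_ne_zero _ hal)) 0

end Crest.Agent.R257.OrdT_578
end
end

-- ▼ part R257/OrdT4_578
section

/-!
# Row 257, part C, `Frame.ord` in the T-frame (helper578), part 4: sheets of a chart against the sheets
of a vertex chart

`attach` : near a generic point of the special fibre every sheet of a chart is the pull-back of exactly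
one sheet of the vertex chart.
-/

set_option autoImplicit false
set_option linter.unusedSectionVars false

open Polynomial Set Filter Topology Metric
open Crest.AlgGeometry.Germ Crest.Agent.R257.AJ387

noncomputable section

namespace Crest.Agent.R257.OrdT_578

open Crest.Agent.R257.T387 Crest.Agent.R257.OrdL_578

/-- germs of analytic functions form a domain -/
theorem germ_mul {E : Type*} [NormedAddCommGroup E] [NormedSpace ℂ E] {f g : E → ℂ} {p : E}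
    (hf : AnalyticAt ℂ f p) (hg : AnalyticAt ℂ g p) (h : ∀ᶠ q in 𝓝 p, f q * g q = 0) :
    (∀ᶠ q in 𝓝 p, f q = 0) ∨ ∀ᶠ q in 𝓝 p, g q = 0 := by
  by_contra hcon
  push Not at hcon
  obtain ⟨h1, h2⟩ := hcon
  obtain ⟨r, hr, hball⟩ := Metric.eventually_nhds_iff_ball.1
    ((hf.eventually_analyticAt.and hg.eventually_analyticAt).and h)
  obtain ⟨y, hyf, hyb⟩ := (h1.and_eventually (Metric.ball_mem_nhds p hr)).exists
  have h3 : ∀ᶠ q in 𝓝 y, g q = 0 := by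
    filter_upwards [(hball y hyb).1.1.continuousAt.eventually_ne hyf,
      Metric.isOpen_ball.mem_nhds hyb] with q hq1 hq2
    exact (mul_eq_zero.1 (hball q hq2).2).resolve_left hq1
  let _ : NormedSpace ℝ E := NormedSpace.restrictScalars ℝ ℂ E
  have h4 : EqOn g 0 (Metric.ball p r) := by
    refine AnalyticOnNhd.eqOn_zero_of_preconnected_of_eventuallyEq_zero
      (fun q hq => (hball q hq).1.2) (convex_ball p r).isPreconnected hyb h3
  refine h2 ?_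
  filter_upwards [Metric.ball_mem_nhds p hr] with q hq
  exact not_not.2 (h4 hq)

theorem germ_prod {E : Type*} [NormedAddCommGroup E] [NormedSpace ℂ E] {ι : Type*} {f : ι → E → ℂ}
    {p : E} (s : Finset ι) (hf : ∀ i ∈ s, AnalyticAt ℂ (f i) p)
    (h : ∀ᶠ q in 𝓝 p, ∏ i ∈ s, f i q = 0) : ∃ i ∈ s, ∀ᶠ q in 𝓝 p, f i q = 0 := by
  classical
  induction s using Finset.induction_on with
  | empty =>
    obtain ⟨q, hq⟩ := h.exists
    simp at hq
  | insert a s ha ih =>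
    simp only [Finset.prod_insert ha] at h
    have h1 : AnalyticAt ℂ (fun q => ∏ i ∈ s, f i q) p :=
      Finset.analyticAt_fun_prod s fun i hi => hf i (Finset.mem_insert_of_mem hi)
    rcases germ_mul (hf a (Finset.mem_insert_self _ _)) h1 h with h2 | h2
    · exact ⟨a, Finset.mem_insert_self _ _, h2⟩
    · obtain ⟨i, hi, h3⟩ := ih (fun i hi => hf i (Finset.mem_insert_of_mem hi)) h2
      exact ⟨i, Finset.mem_insert_of_mem hi, h3⟩

variable {f : (Fin 3 → ℂ) → ℂ} {T : TB f}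

/-- **attaching** the sheets of a chart to the sheets of a vertex chart -/
theorem attach {c c' : Ch T.m} {r r' : ℝ} {ζ ζ' : Fin T.d → ℂ × ℂ → ℂ} (h : T.Sheets c r ζ)
    (h' : T.Sheets c' r' ζ') {p : ℂ × ℂ} (hp : p ∈ BD r r) {φ : ℂ × ℂ → ℂ × ℂ}
    (hφ : AnalyticAt ℂ φ p) (hφp : φ p ∈ BD r' r')
    (hmap : ∀ᶠ q in 𝓝 p, T.map c q = T.map c' (φ q))
    (hgen : ∃ᶠ q in 𝓝 p, T.Gen c q) :
    ∃ σ : Equiv.Perm (Fin T.d), ∀ j, ∀ᶠ q in 𝓝 p, ζ j q = ζ' (σ j) (φ q) := by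
  classical
  have hφn : ∀ᶠ q in 𝓝 p, φ q ∈ BD r' r' :=
    hφ.continuousAt.eventually ((isOpen_BD r' r').mem_nhds hφp)
  have hpn : ∀ᶠ q in 𝓝 p, q ∈ BD r r := (isOpen_BD r r).mem_nhds hp
  have key : ∀ j, ∃ n, ∀ᶠ q in 𝓝 p, ζ j q = ζ' n (φ q) := by
    intro j
    have h1 : ∀ᶠ q in 𝓝 p, ∏ n ∈ Finset.univ, (ζ j q - ζ' n (φ q)) = 0 := by
      filter_upwards [hmap, hφn, hpn] with q h2 h3 h4
      have h5 : (T.Q (T.map c q)).eval (ζ j q) = 0 := by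
        rw [h.split q h4, eval_prod]
        exact Finset.prod_eq_zero (Finset.mem_univ j) (by simp)
      rw [h2, h'.split _ h3, eval_prod] at h5
      simpa using h5
    obtain ⟨n, -, hn⟩ := germ_prod (f := fun n q => ζ j q - ζ' n (φ q)) Finset.univ
      (fun n _ => (h.an j p hp).sub (AnalyticAt.comp (g := ζ' n) (f := φ) (h'.an n _ hφp) hφ)) h1
    exact ⟨n, hn.mono fun q hq => sub_eq_zero.1 hq⟩
  choose σ hσ using key
  have hinj : Function.Injective σ := by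
    intro j j' hjj
    by_contra hne
    obtain ⟨q, hq1, hq2, hq3, hq4⟩ := (hgen.and_eventually
      ((hσ j).and ((hσ j').and hpn))).exists
    apply hne
    refine h.inj q hq4 hq1 ?_
    show ζ j q = ζ j' q
    rw [hq2, hq3, hjj]
  exact ⟨Equiv.ofBijective σ (Finite.injective_iff_bijective.1 hinj), hσ⟩

theorem gen_freq1 (c : Ch T.m) {b : ℂ} (hc : (∃ j k₁ k₂, c = .edge j k₁ k₂) ∨ (∃ j, c = .leg j) →
    b ≠ 0) : ∃ᶠ q in 𝓝 ((0 : ℂ), b), T.Gen c q := by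
  have h1 : Tendsto (fun s : ℂ => (s, b)) (𝓝[≠] 0) (𝓝 ((0 : ℂ), b)) :=
    (tendsto_fst b).mono_left nhdsWithin_le_nhds
  refine h1.frequently ?_
  have h2 : ∀ᶠ s in 𝓝[≠] (0 : ℂ), T.Gen c (s, b) := by
    filter_upwards [self_mem_nhdsWithin] with s hs
    cases c with
    | edge i k k' => exact ⟨hs, hc (Or.inl ⟨i, k, k', rfl⟩)⟩
    | leg i => exact ⟨hs, hc (Or.inr ⟨i, rfl⟩)⟩
    | vert i k w₀ => exact hs
  exact h2.frequently

theorem gen_freq2 {j : Fin T.m} {k₁ k₂ : ℕ} {a : ℂ} (ha : a ≠ 0) :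
    ∃ᶠ q in 𝓝 (a, (0 : ℂ)), T.Gen (.edge j k₁ k₂) q := by
  have h1 : Tendsto (fun s : ℂ => (a, s)) (𝓝[≠] 0) (𝓝 (a, (0 : ℂ))) := by
    have h2 : Tendsto (fun s : ℂ => (a, s)) (𝓝 0) (𝓝 (a, (0 : ℂ))) :=
      (by fun_prop : Continuous fun s : ℂ => (a, s)).tendsto 0
    exact h2.mono_left nhdsWithin_le_nhds
  refine h1.frequently ?_
  have h2 : ∀ᶠ s in 𝓝[≠] (0 : ℂ), T.Gen (.edge j k₁ k₂) (a, s) := by
    filter_upwards [self_mem_nhdsWithin] with s hs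
    exact ⟨ha, hs⟩
  exact h2.frequently

end Crest.Agent.R257.OrdT_578
end
end

-- ▼ part R257/OrdT5_578
section

/-!
# Row 257, part C, `Frame.ord` in the T-frame (helper578), part 5: orders at the points of the special
fibre

`gm T g μ ζ`  : the pull-back of `g` to the chart `μ` with the sheet `ζ`;
`Ox g x n`    : the order of `g` at the point `x : X T i k` is `n`; invariance along components;
`Lw g i k n w γ` : the leading coefficient;
`BrP`         : a point of a branch of a chart; transfer of orders and leading coefficients.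
-/

set_option autoImplicit false
set_option linter.unusedSectionVars false

open Polynomial Set Filter Topology Metric
open Crest.AlgGeometry.Germ Crest.Agent.R257.AJ387

noncomputable section

namespace Crest.Agent.R257.OrdT_578

open Crest.Agent.R257.T387 Crest.Agent.R257.OrdL_578
open Crest.Agent.R257.Frm_547 (Z2 Sh1 X Step Cmp cl fib Att LocBr Eqv)

variable {f : (Fin 3 → ℂ) → ℂ} (T : TB f)

/-- the pull-back of `g` to the chart `μ` with the sheet `ζ` -/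
def gm (g : (Fin 3 → ℂ) → ℂ) (μ : ℂ × ℂ → ℂ × ℂ) (ζ : ℂ × ℂ → ℂ) (q : ℂ × ℂ) : ℂ :=
  g (pt (ζ q) (T.base (μ q)))


variable {T}

theorem root_zero {z : ℂ} (h : (T.Q 0).eval z = 0) : z = 0 := by
  have h2 : T.Q 0 = (Polynomial.X : Polynomial ℂ) ^ T.d := by
    have : (((0 : ℂ × ℂ).1 ^ T.N, (0 : ℂ × ℂ).2) : ℂ × ℂ) = 0 := by
      ext <;> simp [T.N_pos.ne']
    rw [TB.Q, this, T.P_zero]
  rw [h2, eval_pow, eval_X] at h
  exact (pow_eq_zero_iff T.d_pos.ne').1 h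

theorem gm_an {g : (Fin 3 → ℂ) → ℂ} (hg : AnalyticAt ℂ g 0) {μ : ℂ × ℂ → ℂ × ℂ} {ζ : ℂ × ℂ → ℂ}
    {p : ℂ × ℂ} (hμ : AnalyticAt ℂ μ p) (hμ0 : μ p = 0) (hζ : AnalyticAt ℂ ζ p) (hζ0 : ζ p = 0) :
    AnalyticAt ℂ (gm T g μ ζ) p := by
  have h1 : AnalyticAt ℂ (fun q => pt (ζ q) (T.base (μ q))) p :=
    pt_an hζ (AnalyticAt.comp (g := T.base) (f := μ) (base_an _) hμ)
  refine AnalyticAt.comp (g := g) (f := fun q => pt (ζ q) (T.base (μ q))) ?_ h1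
  rw [hζ0, hμ0, base_zero, pt_zero]
  exact hg

theorem gm_congr {g : (Fin 3 → ℂ) → ℂ} {μ : ℂ × ℂ → ℂ × ℂ} {ζ ζ' : ℂ × ℂ → ℂ} {p : ℂ × ℂ}
    (h : ζ =ᶠ[𝓝 p] ζ') : gm T g μ ζ =ᶠ[𝓝 p] gm T g μ ζ' := by
  filter_upwards [h] with q hq
  rw [gm, gm, hq]

theorem sh1_zero {i : Fin T.m} {k : ℕ} (hk : 0 < k) {w : ℂ} {r : ℝ} {ξ : ℂ × ℂ → ℂ}
    (h : Sh1 T i k w r ξ) {β : ℂ} (hβ : ‖β‖ < r) : ξ (0, β) = 0 := by
  have h1 := h.root (0, β) ⟨by simpa using h.r_pos, hβ⟩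
  rw [map_vert hk] at h1
  exact root_zero h1

theorem sh1_gan {g : (Fin 3 → ℂ) → ℂ} (hg : AnalyticAt ℂ g 0) {i : Fin T.m} {k : ℕ} (hk : 0 < k)
    {w : ℂ} {r : ℝ} {ξ : ℂ × ℂ → ℂ} (h : Sh1 T i k w r ξ) {β : ℂ} (hβ : ‖β‖ < r) :
    AnalyticAt ℂ (gm T g (T.map (.vert i k w)) ξ) (0, β) := by
  have hmem : ((0 : ℂ), β) ∈ BD r r := ⟨by simpa using h.r_pos, hβ⟩
  exact gm_an hg (map_an (h.mem _ hmem).2) (map_vert hk w β) (h.an _ hmem) (sh1_zero hk h hβ)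

/-- the order of `g` at a point of the special fibre -/
def Ox (g : (Fin 3 → ℂ) → ℂ) {i : Fin T.m} {k : ℕ} (x : X T i k) (n : ℕ) : Prop :=
  ∃ ζ : ℂ × ℂ → ℂ, x.1.2 = (ζ : Z2) ∧ HasOrd (gm T g (T.map (.vert i k x.1.1)) ζ) 0 n

variable (T) in
/-- the leading coefficient of `g` at a point of the special fibre -/
def Lw (g : (Fin 3 → ℂ) → ℂ) (i : Fin T.m) (k : ℕ) (n : ℕ) (w : ℂ) (γ : Z2) : ℂ :=
  lc (gm T g (T.map (.vert i k w)) (Quotient.out γ)) n 0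

theorem out_ev {γ : Z2} {ζ : ℂ × ℂ → ℂ} (h : γ = (ζ : Z2)) :
    (Quotient.out γ : ℂ × ℂ → ℂ) =ᶠ[𝓝 (0 : ℂ × ℂ)] ζ := by
  have h1 : ((Quotient.out γ : ℂ × ℂ → ℂ) : Z2) = γ := Quotient.out_eq γ
  exact Germ.coe_eq.1 (h1.trans h)

theorem Lw_eq {g : (Fin 3 → ℂ) → ℂ} {i : Fin T.m} {k n : ℕ} {w : ℂ} {γ : Z2} {ζ : ℂ × ℂ → ℂ}
    (h : γ = (ζ : Z2)) : Lw T g i k n w γ = lc (gm T g (T.map (.vert i k w)) ζ) n 0 :=
  lc_congr (gm_congr (out_ev h))

theorem Ox.any {g : (Fin 3 → ℂ) → ℂ} {i : Fin T.m} {k : ℕ} {x : X T i k} {n : ℕ} (h : Ox g x n)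
    {ζ : ℂ × ℂ → ℂ} (hζ : x.1.2 = (ζ : Z2)) : HasOrd (gm T g (T.map (.vert i k x.1.1)) ζ) 0 n := by
  obtain ⟨ζ', h1, h2⟩ := h
  exact h2.congr (gm_congr (Germ.coe_eq.1 (h1.symm.trans hζ)))

theorem Ox.iff {g : (Fin 3 → ℂ) → ℂ} {i : Fin T.m} {k : ℕ} {x : X T i k} {n : ℕ}
    {ζ : ℂ × ℂ → ℂ} (hζ : x.1.2 = (ζ : Z2)) :
    Ox g x n ↔ HasOrd (gm T g (T.map (.vert i k x.1.1)) ζ) 0 n :=
  ⟨fun h => h.any hζ, fun h => ⟨ζ, hζ, h⟩⟩

theorem Ox.unique {g : (Fin 3 → ℂ) → ℂ} {i : Fin T.m} {k : ℕ} {x : X T i k} {n n' : ℕ}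
    (h : Ox g x n) (h' : Ox g x n') : n = n' := by
  obtain ⟨ζ, h1, h2⟩ := h
  exact h2.unique (h'.any h1)

theorem ord_ball {h : ℂ × ℂ → ℂ} {r : ℝ} (han : ∀ z, ‖z‖ < r → AnalyticAt ℂ h (0, z)) {z z' : ℂ}
    (hz : ‖z‖ < r) (hz' : ‖z'‖ < r) {n : ℕ} (hn : HasOrd h z n) : HasOrd h z' n := by
  obtain ⟨m, hm⟩ := exists_ord_ball han hz hn.not_zero
  have := hn.unique (hm z hz)
  subst this
  exact hm z' hz'

theorem gm_shift (g : (Fin 3 → ℂ) → ℂ) (i : Fin T.m) (k : ℕ) (w β : ℂ) (ζ : ℂ × ℂ → ℂ) :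
    gm T g (T.map (.vert i k (w + β))) (fun p : ℂ × ℂ => ζ (p.1, p.2 + β)) =
      fun q => gm T g (T.map (.vert i k w)) ζ (q.1, q.2 + β) := by
  funext q
  have h1 : T.map (.vert i k (w + β)) q = T.map (.vert i k w) (q.1, q.2 + β) := by
    rw [Frm_547.map_vert, Frm_547.map_vert]
    congr 2
    ring
  simp only [gm, h1]

theorem Ox.step {g : (Fin 3 → ℂ) → ℂ} (hg : AnalyticAt ℂ g 0) {i : Fin T.m} {k : ℕ} (hk : 0 < k)
    {x y : X T i k} (h : Step T i k x y) {n : ℕ} : Ox g x n ↔ Ox g y n := by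
  obtain ⟨r, ζ, h1, h2, β, hβ, h3, h4⟩ := h
  rw [Ox.iff h2, Ox.iff h4, h3, gm_shift, hasOrd_trans, zero_add]
  have h0 : ‖(0 : ℂ)‖ < r := by simpa using h1.r_pos
  have han : ∀ z, ‖z‖ < r → AnalyticAt ℂ (gm T g (T.map (.vert i k x.1.1)) ζ) (0, z) :=
    fun z hz => sh1_gan hg hk h1 hz
  exact ⟨fun h => ord_ball han h0 hβ h, fun h => ord_ball han hβ h0 h⟩

theorem Ox.cl {g : (Fin 3 → ℂ) → ℂ} (hg : AnalyticAt ℂ g 0) {i : Fin T.m} {k : ℕ} (hk : 0 < k)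
    {x y : X T i k} (h : cl T x = cl T y) {n : ℕ} : Ox g x n ↔ Ox g y n := by
  have h1 := Quot.eqvGen_exact h
  clear h
  induction h1 with
  | rel x y h => exact Ox.step hg hk h
  | refl x => exact Iff.rfl
  | symm x y _ ih => exact ih.symm
  | trans x y z _ _ ih1 ih2 => exact ih1.trans ih2

/-- the order of `g` on a component -/
def Oc (g : (Fin 3 → ℂ) → ℂ) {i : Fin T.m} {k : ℕ} (E : Cmp T i k) (n : ℕ) : Prop :=
  ∃ x : X T i k, Frm_547.cl T x = E ∧ Ox g x n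

theorem Oc.all {g : (Fin 3 → ℂ) → ℂ} (hg : AnalyticAt ℂ g 0) {i : Fin T.m} {k : ℕ} (hk : 0 < k)
    {E : Cmp T i k} {n : ℕ} (h : Oc g E n) {x : X T i k} (hx : Frm_547.cl T x = E) : Ox g x n := by
  obtain ⟨y, h1, h2⟩ := h
  exact (Ox.cl hg hk (h1.trans hx.symm)).1 h2

theorem Oc.unique {g : (Fin 3 → ℂ) → ℂ} (hg : AnalyticAt ℂ g 0) {i : Fin T.m} {k : ℕ} (hk : 0 < k)
    {E : Cmp T i k} {n n' : ℕ} (h : Oc g E n) (h' : Oc g E n') : n = n' := by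
  obtain ⟨y, h1, h2⟩ := h
  exact h2.unique (h'.all hg hk h1)

/-! ### points of a branch -/

/-- the point `(0, b)` of a branch `{q.1 = 0}` of the chart `μ` with coordinate function `W`,
`s = q.1 * u q` -/
structure BrP (i : Fin T.m) (k : ℕ) (μ : ℂ × ℂ → ℂ × ℂ) (W u : ℂ × ℂ → ℂ)
    (ζ : Fin T.d → ℂ × ℂ → ℂ) (b : ℂ) : Prop where
  loc : LocBr (T := T) i k μ W ζ (0, b)
  an : AnalyticAt ℂ μ (0, b)
  zero : μ (0, b) = 0
  uan : AnalyticAt ℂ u (0, b)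
  une : u (0, b) ≠ 0
  fst : ∀ᶠ q in 𝓝 ((0 : ℂ), b), (μ q).1 = q.1 * u q
  snd : ∃ᶠ z in 𝓝 b, W (0, z) ≠ W (0, b)

theorem att_W {i : Fin T.m} {k : ℕ} {μ : ℂ × ℂ → ℂ × ℂ} {W : ℂ × ℂ → ℂ}
    {ζ : Fin T.d → ℂ × ℂ → ℂ} {p : ℂ × ℂ} (h : LocBr (T := T) i k μ W ζ p) {x : X T i k}
    {j : Fin T.d} (ha : Att T i k x μ (ζ j) p) : W p = x.1.1 ∧ ∃ γ : ℂ × ℂ → ℂ,
      AnalyticAt ℂ γ 0 ∧ x.1.2 = (γ : Z2) ∧ ∀ᶠ q in 𝓝 p,
        μ q = T.map (.vert i k x.1.1) ((μ q).1, W q - x.1.1) ∧ ζ j q = γ ((μ q).1, W q - x.1.1) := by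
  obtain ⟨hs0, W', γ, hW', hWp', hγ, hxγ, he⟩ := ha
  have h1 : ∀ᶠ q in 𝓝 p, (μ q).1 ^ (T.M * k) * (W q - W' q) = 0 := by
    filter_upwards [h.eq, he] with q hq hq'
    have e2 := hq'.1
    rw [Frm_547.map_vert_sub] at e2
    have e3 := congrArg Prod.snd (hq.symm.trans e2)
    simp only [Frm_547.bm] at e3
    linear_combination e3
  have h2 : ∀ᶠ q in 𝓝 p, W q - W' q = 0 := by
    rcases Frm_547.mul_ev (h.hμ.pow _) (h.hW.sub hW') h1 with h3 | h3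
    · exfalso
      obtain ⟨q, hq, hq'⟩ := (h.nz.and_eventually h3).exists
      exact pow_ne_zero _ hq hq'
    · exact h3
  refine ⟨(sub_eq_zero.1 h2.self_of_nhds).trans hWp', γ, hγ, hxγ, ?_⟩
  filter_upwards [h2, he] with q a1 a2
  rw [sub_eq_zero.1 a1]
  exact a2

theorem BrP.chg {i : Fin T.m} {k : ℕ} {μ : ℂ × ℂ → ℂ × ℂ} {W u : ℂ × ℂ → ℂ}
    {ζ : Fin T.d → ℂ × ℂ → ℂ} {b : ℂ} (h : BrP (T := T) i k μ W u ζ b) :
    Chg (fun q => ((μ q).1, W q - W (0, b))) u b 0 where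
  an1 := h.loc.hμ
  an2 := h.loc.hW.sub analyticAt_const
  val := by
    rw [h.loc.s0]
    simp
  uan := h.uan
  une := h.une
  fst := h.fst
  snd := h.snd.mono fun z hz => sub_ne_zero.2 hz

/-- comparison of the pull-backs -/
theorem BrP.att {i : Fin T.m} {k : ℕ} {μ : ℂ × ℂ → ℂ × ℂ} {W u : ℂ × ℂ → ℂ}
    {ζ : Fin T.d → ℂ × ℂ → ℂ} {b : ℂ} (h : BrP (T := T) i k μ W u ζ b) {x : X T i k} {j : Fin T.d}
    (ha : Att T i k x μ (ζ j) (0, b)) (g : (Fin 3 → ℂ) → ℂ) : W (0, b) = x.1.1 ∧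
      ∃ γ : ℂ × ℂ → ℂ, x.1.2 = (γ : Z2) ∧ ∀ᶠ q in 𝓝 ((0 : ℂ), b),
        gm T g μ (ζ j) q = gm T g (T.map (.vert i k x.1.1)) γ ((μ q).1, W q - W (0, b)) := by
  obtain ⟨h1, γ, -, h3, h4⟩ := att_W h.loc ha
  refine ⟨h1, γ, h3, ?_⟩
  filter_upwards [h4] with q hq
  rw [h1]
  simp only [gm]
  rw [← hq.1, ← hq.2]

theorem x_gan {g : (Fin 3 → ℂ) → ℂ} (hg : AnalyticAt ℂ g 0) {i : Fin T.m} {k : ℕ} (hk : 0 < k)
    (x : X T i k) {γ : ℂ × ℂ → ℂ} (hγ : x.1.2 = (γ : Z2)) :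
    AnalyticAt ℂ (gm T g (T.map (.vert i k x.1.1)) γ) (0, 0) := by
  obtain ⟨-, r, ξ, hξ, hx⟩ := x.2
  have h0 : ‖(0 : ℂ)‖ < r := by simpa using hξ.r_pos
  exact (sh1_gan hg hk hξ h0).congr (gm_congr (Germ.coe_eq.1 (hx.symm.trans hγ)))

/-- **transfer of orders** -/
theorem BrP.hasOrd_iff {g : (Fin 3 → ℂ) → ℂ} (hg : AnalyticAt ℂ g 0) {i : Fin T.m} {k : ℕ}
    (hk : 0 < k) {μ : ℂ × ℂ → ℂ × ℂ} {W u : ℂ × ℂ → ℂ}
    {ζ : Fin T.d → ℂ × ℂ → ℂ} {b : ℂ} (h : BrP (T := T) i k μ W u ζ b) {x : X T i k} {j : Fin T.d}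
    (ha : Att T i k x μ (ζ j) (0, b)) {n : ℕ} : HasOrd (gm T g μ (ζ j)) b n ↔ Ox g x n := by
  obtain ⟨h1, γ, h3, h4⟩ := h.att ha g
  rw [Ox.iff h3]
  constructor
  · intro hn
    exact hn.of_att' h.chg h4 (x_gan hg hk x h3)
  · intro hn
    exact hn.of_att h.chg h4

/-- **transfer of leading coefficients** -/
theorem BrP.lc_eq {g : (Fin 3 → ℂ) → ℂ} {i : Fin T.m} {k : ℕ} {μ : ℂ × ℂ → ℂ × ℂ}
    {W u : ℂ × ℂ → ℂ} {ζ : Fin T.d → ℂ × ℂ → ℂ} {b : ℂ} (h : BrP (T := T) i k μ W u ζ b)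
    {x : X T i k} {j : Fin T.d} (ha : Att T i k x μ (ζ j) (0, b)) {n : ℕ} (hn : Ox g x n) :
    lc (gm T g μ (ζ j)) n b = u (0, b) ^ n * Lw T g i k n x.1.1 x.1.2 := by
  obtain ⟨h1, γ, h3, h4⟩ := h.att ha g
  rw [Lw_eq h3]
  exact lc_of_att h.chg h4 (hn.any h3)

end Crest.Agent.R257.OrdT_578
end
end

-- ▼ part R257/OrdT6_578
section

/-!
# Row 257, part C, `Frame.ord` in the T-frame (helper578), part 6: the degree formula on a component

`Raw`, `Raw.Ok` : the branch of a chart ending at a special point (or at infinity) of the vertex;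
`deg_vertex`    : the degree formula.
-/

set_option autoImplicit false
set_option linter.unusedSectionVars false

open Polynomial Set Filter Topology Metric
open Crest.AlgGeometry.Germ Crest.Agent.R257.AJ387

noncomputable section

namespace Crest.Agent.R257.OrdT_578

open Crest.Agent.R257.T387 Crest.Agent.R257.OrdL_578 Crest.Agent.R257.Deg_578
open Crest.Agent.R257.Frm_547 (Z2 Sh1 X Step Cmp cl fib Att LocBr Eqv)

variable {f : (Fin 3 → ℂ) → ℂ} {T : TB f}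

/-- the sheets near an ordinary point -/
theorem fib_loc (hS : T.SheetsStmt) {g : (Fin 3 → ℂ) → ℂ} (hg : AnalyticAt ℂ g 0) {i : Fin T.m}
    {k : ℕ} (hk : k ∈ T.lev i) {E : Cmp T i k} {n : ℕ} (hE : Oc g E n) {w₀ : ℂ}
    (hw₀ : w₀ ∉ T.Sp i k) : ∃ (J : Type) (_ : Fintype J) (ζ : J → ℂ → Z2),
      (∀ᶠ w in 𝓝 w₀, Function.Injective (fun j => ζ j w) ∧ ∀ x, x ∈ fib T E w ↔ ∃ j, ζ j w = x) ∧
      ∀ j, DifferentiableAt ℂ (fun w => Lw T g i k n w (ζ j w)) w₀ := by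
  classical
  have hk0 : 0 < k := TB.lev_pos (T := T) hk
  obtain ⟨r, σ, hσ, hsp⟩ := Frm_547.exists_sheets_vert hS hk hw₀
  have hsh : ∀ j, Sh1 T i k w₀ r (σ j) := fun j => Frm_547.sh1_of hσ hsp j
  refine ⟨{j : Fin T.d // cl T (hsh j).pt = E}, inferInstance,
    fun j w => ((fun p : ℂ × ℂ => σ j (p.1, p.2 + (w - w₀)) : ℂ × ℂ → ℂ) : Z2), ?_, ?_⟩
  · filter_upwards [ball_mem_nhds w₀ hσ.r_pos] with w hw
    have hβ : ‖w - w₀‖ < r := by simpa [dist_eq_norm] using hw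
    obtain ⟨β, hβw⟩ : ∃ β, w = w₀ + β := ⟨w - w₀, by ring⟩
    subst hβw
    simp only [add_sub_cancel_left] at hβ ⊢
    have hlb := Frm_547.locBr_vert hσ hβ (hsp β hβ)
    obtain ⟨ξ, hatt, hξw, hinj, hsurj, -⟩ := hlb.pts hS hk
    have hξ : ∀ j, ((hsh j).shift hβ).pt = ξ j := fun j =>
      Frm_547.Att.unique hS hk hlb.hμ hlb.nz (Frm_547.att_shift (hsh j) hβ) (hatt j)
    have hcl : ∀ j, cl T ((hsh j).shift hβ).pt = cl T (hsh j).pt :=
      fun j => (Quot.sound ((hsh j).step hβ)).symm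
    constructor
    · intro j j' hjj
      apply Subtype.ext
      apply hinj
      rw [← hξ, ← hξ]
      exact Subtype.ext (Prod.ext rfl hjj)
    · intro γ
      constructor
      · rintro ⟨x, hx, hcx⟩
        have hx1 : x.1.1 = w₀ + β := by rw [hx]
        obtain ⟨j, hj⟩ := hsurj x hx1
        refine ⟨⟨j, ?_⟩, ?_⟩
        · rw [← hcl, hξ, hj, hcx]
        · have h1 : x.1.2 = γ := by rw [hx]
          have h2 : ((hsh j).shift hβ).pt = x := (hξ j).trans hj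
          exact (congrArg (fun y : X T i k => y.1.2) h2).trans h1
      · rintro ⟨j, hj⟩
        refine ⟨((hsh j.1).shift hβ).pt, ?_, ?_⟩
        · rw [← hj]
          rfl
        · rw [hcl]
          exact j.2
  · rintro ⟨j, hj⟩
    have h1 : HasOrd (gm T g (T.map (.vert i k w₀)) (σ j)) 0 n :=
      (hE.all hg hk0 hj).any rfl
    have h2 : AnalyticAt ℂ (fun w => lc (gm T g (T.map (.vert i k w₀)) (σ j)) n (w - w₀)) w₀ := by
      refine AnalyticAt.comp (g := lc (gm T g (T.map (.vert i k w₀)) (σ j)) n)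
        (f := fun w => w - w₀) ?_ (analyticAt_id.sub analyticAt_const)
      simpa using h1.lc_an
    refine (h2.differentiableAt).congr_of_eventuallyEq (Eventually.of_forall fun w => ?_)
    show Lw T g i k n w ((fun p : ℂ × ℂ => σ j (p.1, p.2 + (w - w₀)) : ℂ × ℂ → ℂ) : Z2) = _
    rw [Lw_eq rfl]
    have h3 := gm_shift g i k w₀ (w - w₀) (σ j)
    rw [add_sub_cancel] at h3
    rw [h3, lc_trans, zero_add]

variable (T) in
/-- a branch of a chart, the components of its sheets, and the expansions -/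
structure Raw (i : Fin T.m) (k : ℕ) : Type where
  μ : ℂ × ℂ → ℂ × ℂ
  W : ℂ × ℂ → ℂ
  u : ℂ × ℂ → ℂ
  ζ : Fin T.d → ℂ × ℂ → ℂ
  e : Fin T.d → Cmp T i k
  v : Fin T.d → ℤ
  H : Fin T.d → ℂ → ℂ

/-- the branch is over `w = φ β` near `β = 0` -/
structure Raw.Ok {i : Fin T.m} {k : ℕ} (B : Raw T i k) (g : (Fin 3 → ℂ) → ℂ) (E : Cmp T i k)
    (n : ℕ) (φ : ℂ → ℂ) : Prop where
  pts : ∀ᶠ β in 𝓝[≠] (0 : ℂ), BrP (T := T) i k B.μ B.W B.u B.ζ β ∧ B.W (0, β) = φ β ∧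
    ∀ j x, Att T i k x B.μ (B.ζ j) (0, β) → cl T x = B.e j
  coef : ∀ j, B.e j = E → AnalyticAt ℂ (B.H j) 0 ∧ (∃ᶠ β in 𝓝 (0 : ℂ), B.H j β ≠ 0) ∧
    ∀ᶠ β in 𝓝[≠] (0 : ℂ), lc (gm T g B.μ (B.ζ j)) n β = B.u (0, β) ^ n * (β ^ (B.v j) * B.H j β)

open Classical in
/-- the point of the sheet `j` at `(0, β)` -/
def Raw.z {i : Fin T.m} {k : ℕ} (B : Raw T i k) (j : Fin T.d) (β : ℂ) : Z2 :=
  if h : ∃ x : X T i k, Att T i k x B.μ (B.ζ j) (0, β) then h.choose.1.2 else (0 : ℂ × ℂ → ℂ)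

theorem Raw.Ok.sheetsA (hS : T.SheetsStmt) {g : (Fin 3 → ℂ) → ℂ} (hg : AnalyticAt ℂ g 0)
    {i : Fin T.m} {k : ℕ} (hk : k ∈ T.lev i) {E : Cmp T i k} {n : ℕ} (hE : Oc g E n)
    {B : Raw T i k} {φ : ℂ → ℂ} (h : B.Ok g E n φ) :
    SheetsA (fib T E) (Lw T g i k n) φ (fun (j : {j : Fin T.d // B.e j = E}) β => B.z j β)
      (fun j => B.v j) (fun j => B.H j) := by
  classical
  have hk0 : 0 < k := TB.lev_pos (T := T) hk
  -- the points
  have key : ∀ᶠ β in 𝓝[≠] (0 : ℂ), BrP (T := T) i k B.μ B.W B.u B.ζ β ∧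
      ∃ ξ : Fin T.d → X T i k, (∀ j, Att T i k (ξ j) B.μ (B.ζ j) (0, β)) ∧
        (∀ j, (ξ j).1.1 = φ β) ∧ Function.Injective ξ ∧
        (∀ y : X T i k, y.1.1 = φ β → ∃ j, ξ j = y) ∧ (∀ j, cl T (ξ j) = B.e j) ∧
        ∀ j, B.z j β = (ξ j).1.2 := by
    filter_upwards [h.pts] with β hβ
    obtain ⟨h1, h2, h3⟩ := hβ
    obtain ⟨ξ, hatt, hξw, hinj, hsurj, -⟩ := h1.loc.pts hS hk
    refine ⟨h1, ξ, hatt, fun j => (hξw j).trans h2, hinj, fun y hy => hsurj y (hy.trans h2.symm),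
      fun j => h3 j _ (hatt j), fun j => ?_⟩
    have hex : ∃ x : X T i k, Att T i k x B.μ (B.ζ j) (0, β) := ⟨_, hatt j⟩
    rw [Raw.z, dif_pos hex,
      Frm_547.Att.unique hS hk h1.loc.hμ h1.loc.nz hex.choose_spec (hatt j)]
  refine ⟨?_, fun j => ?_⟩
  · filter_upwards [key] with β hβ
    obtain ⟨-, ξ, hatt, hξw, hinj, hsurj, hcl, hz⟩ := hβ
    constructor
    · intro j j' hjj
      apply Subtype.ext
      apply hinj
      have h4 : B.z j β = B.z j' β := hjj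
      rw [hz, hz] at h4
      exact Subtype.ext (Prod.ext ((hξw _).trans (hξw _).symm) h4)
    · intro γ
      constructor
      · rintro ⟨x, hx, hcx⟩
        obtain ⟨j, hj⟩ := hsurj x (by rw [hx])
        refine ⟨⟨j, ?_⟩, ?_⟩
        · rw [← hcl, hj, hcx]
        · show B.z j β = γ
          rw [hz, hj, hx]
      · rintro ⟨⟨j, hjE⟩, hj⟩
        refine ⟨ξ j, Prod.ext (hξw j) ?_, (hcl j).trans hjE⟩
        rw [← hj]
        exact (hz j).symm
  · obtain ⟨j, hjE⟩ := j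
    obtain ⟨h1, h2, h3⟩ := h.coef j hjE
    refine ⟨h1, h2, ?_⟩
    filter_upwards [key, h3] with β hβ h4
    obtain ⟨hbr, ξ, hatt, hξw, hinj, hsurj, hcl, hz⟩ := hβ
    have h5 := hbr.lc_eq (hatt j) (hE.all hg hk0 ((hcl j).trans hjE))
    rw [h4, hξw j] at h5
    have h6 : B.u (0, β) ^ n ≠ 0 := pow_ne_zero _ hbr.une
    show Lw T g i k n (φ β) (B.z j β) = β ^ B.v j * B.H j β
    rw [hz j]
    exact (mul_left_cancel₀ h6 h5).symm

open Classical in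
/-- **the degree formula on the component `E`** -/
theorem deg_vertex (hS : T.SheetsStmt) {g : (Fin 3 → ℂ) → ℂ} (hg : AnalyticAt ℂ g 0)
    {i : Fin T.m} {k : ℕ} (hk : k ∈ T.lev i) {E : Cmp T i k} {n : ℕ} (hE : Oc g E n)
    {B : ℂ → Raw T i k} {B' : Raw T i k} {l : ℂ → ℕ} {l' : ℕ} (hl : ∀ c ∈ T.Sp i k, 0 < l c)
    (hl' : 0 < l') (hB : ∀ c ∈ T.Sp i k, (B c).Ok g E n (fun β => c + β ^ l c))
    (hB' : B'.Ok g E n (fun β => (β ^ l')⁻¹)) :
    ∑ c ∈ T.Sp i k, ∑ j, (if (B c).e j = E then ((B c).v j : ℝ) / l c else 0) +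
        ∑ j, (if B'.e j = E then (B'.v j : ℝ) / l' else 0) ≤ 0 ∧
      (∑ c ∈ T.Sp i k, ∑ j, (if (B c).e j = E then ((B c).v j : ℝ) / l c else 0) +
        ∑ j, (if B'.e j = E then (B'.v j : ℝ) / l' else 0) = 0 →
        (∀ x : X T i k, cl T x = E → Lw T g i k n x.1.1 x.1.2 ≠ 0) ∧
        (∀ c ∈ T.Sp i k, ∀ j, (B c).e j = E → (B c).H j 0 ≠ 0) ∧
        ∀ j, B'.e j = E → B'.H j 0 ≠ 0) := by
  have h1 := cover_an (S := T.Sp i k) (fib := fib T E) (G := Lw T g i k n)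
    (fun w₀ hw₀ => fib_loc hS hg hk hE hw₀) (J := fun c => {j : Fin T.d // (B c).e j = E}) hl
    (fun c hc => (hB c hc).sheetsA hS hg hk hE) hl' (hB'.sheetsA hS hg hk hE)
  have e1 : ∀ c, ∑ j, (if (B c).e j = E then ((B c).v j : ℝ) / l c else 0) =
      ∑ j : {j : Fin T.d // (B c).e j = E}, ((B c).v j : ℝ) / l c := by
    intro c
    rw [← Finset.sum_filter]
    exact Finset.sum_subtype _ (by simp) _
  have e2 : ∑ j, (if B'.e j = E then (B'.v j : ℝ) / l' else 0) =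
      ∑ j : {j : Fin T.d // B'.e j = E}, (B'.v j : ℝ) / l' := by
    rw [← Finset.sum_filter]
    exact Finset.sum_subtype _ (by simp) _
  simp only [e1, e2]
  refine ⟨h1.1, fun h0 => ?_⟩
  obtain ⟨a1, a2, a3⟩ := h1.2 h0
  refine ⟨fun x hx => a1 _ x.2.1 _ ⟨x, rfl, hx⟩, fun c hc j hj => a2 c hc ⟨j, hj⟩,
    fun j hj => a3 ⟨j, hj⟩⟩

end Crest.Agent.R257.OrdT_578
end
end

-- ▼ part R257/OrdT7_578

/-!
# Row 257, part C, `Frame.ord` in the T-frame (helper578), part 7: the branches of the edge and leg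
charts

`brp_vert`, `brp_leg`, `brp_edge1`, `brp_edge2` : the points of the branches (`BrP`).
-/

set_option autoImplicit false
set_option linter.unusedSectionVars false

open Polynomial Set Filter Topology Metric
open Crest.AlgGeometry.Germ Crest.Agent.R257.AJ387

noncomputable section

namespace Crest.Agent.R257.OrdT_578

open Crest.Agent.R257.T387 Crest.Agent.R257.OrdL_578 Crest.Agent.R257.Deg_578
open Crest.Agent.R257.Frm_547 (Z2 Sh1 X Step Cmp cl fib Att LocBr Eqv)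

variable {f : (Fin 3 → ℂ) → ℂ} {T : TB f}

theorem same_of_eqv {k : ℕ} {i l : Fin T.m} (h : Eqv T k i l) : Same T k i l := by
  rcases h.symm with h | h
  · exact Or.inl h
  · exact Or.inr h

theorem sh_eq_shD (k : ℕ) (i l : Fin T.m) (s : ℂ) : Frm_547.sh T k l i s = shD T k i l (s ^ T.M) := by
  unfold Frm_547.sh shD
  split_ifs <;> rfl

theorem shD_zero_eq {k : ℕ} {i l : Fin T.m} (h : Eqv T k i l) :
    shD T k i l 0 = - Frm_547.sh T k i l 0 := by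
  have h1 := sh_eq_shD k i l (0 : ℂ)
  rw [zero_pow T.M_pos.ne'] at h1
  have h2 := Frm_547.sh_cocycle T h h.symm (Frm_547.zero_mem_sD T)
  rw [Frm_547.sh_self] at h2
  rw [← h1]
  linear_combination -h2

theorem shD_self (k : ℕ) (i : Fin T.m) (s : ℂ) : shD T k i i s = 0 := by simp [shD]

/-- from `Sheets` to `LocBr`, in the coordinates of the chart composed with `χ` -/
theorem locBr_of {c : Ch T.m} {r : ℝ} {ζ : Fin T.d → ℂ × ℂ → ℂ} (h : T.Sheets c r ζ) {i : Fin T.m}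
    {k : ℕ} {χ : ℂ × ℂ → ℂ × ℂ} {p : ℂ × ℂ} (hχ : AnalyticAt ℂ χ p) (hp : χ p ∈ BD r r)
    {W : ℂ × ℂ → ℂ} (hW : AnalyticAt ℂ W p) (s0 : (T.map c (χ p)).1 = 0) (sp : W p ∉ T.Sp i k)
    (eq : ∀ᶠ q in 𝓝 p, T.map c (χ q) = Frm_547.bm T i k ((T.map c (χ q)).1, W q))
    (nz : ∃ᶠ q in 𝓝 p, (T.map c (χ q)).1 ≠ 0)
    (hgen : ∀ q, (T.map c q).1 ≠ 0 → T.Gen c q) :
    LocBr (T := T) i k (fun q => T.map c (χ q)) W (fun j q => ζ j (χ q)) p := by
  have hev : ∀ᶠ q in 𝓝 p, χ q ∈ BD r r := hχ.continuousAt.eventually ((isOpen_BD r r).mem_nhds hp)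
  have hm : AnalyticAt ℂ (fun q => T.map c (χ q)) p :=
    AnalyticAt.comp (g := T.map c) (f := χ) (map_an (h.mem _ hp).2) hχ
  refine ⟨hW, ?_, s0, sp, eq, nz, fun j => AnalyticAt.comp (g := ζ j) (f := χ) (h.an j _ hp) hχ,
    ?_, ?_⟩
  · exact AnalyticAt.comp (g := fun x : ℂ × ℂ => x.1) (f := fun q => T.map c (χ q)) analyticAt_fst hm
  · filter_upwards [hev] with q hq
    exact h.split _ hq
  · filter_upwards [hev] with q hq h0
    exact h.inj _ hq (hgen _ h0)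

theorem bm_of_vert {i : Fin T.m} {k : ℕ} {p : ℂ × ℂ} {s W x : ℂ}
    (h : p = T.map (.vert i k x) (s, W - x)) : p = Frm_547.bm T i k (p.1, W) := by
  rw [Frm_547.map_vert_sub] at h
  conv_lhs => rw [h]
  rw [h]
  rfl

theorem small_ev {g : ℂ × ℂ → ℂ} {p : ℂ × ℂ} (hg : ContinuousAt g p) (h0 : g p = 0) :
    ∀ᶠ q in 𝓝 p, ‖g q‖ ^ T.M < T.ρ := by
  have h1 : ContinuousAt (fun q => ‖g q‖ ^ T.M) p := hg.norm.pow _
  refine h1.eventually_lt_const ?_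
  simp only [h0, norm_zero, zero_pow T.M_pos.ne']
  exact T.ρ_pos

/-- vertex charts -/
theorem brp_vert {i j₀ : Fin T.m} {k : ℕ} (hk : 0 < k) (he : Eqv T k i j₀) {w₁ : ℂ} {r : ℝ}
    {ζ : Fin T.d → ℂ × ℂ → ℂ} (h : T.Sheets (.vert j₀ k w₁) r ζ) {b : ℂ} (hb : ‖b‖ < r)
    (hsp : shD T k i j₀ 0 + (w₁ + b) ∉ T.Sp i k) :
    BrP (T := T) i k (T.map (.vert j₀ k w₁)) (Wf T i k (.vert j₀ k w₁)) (fun _ => 1) ζ b := by
  have hc := chg_vert (T := T) i j₀ k w₁ b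
  have hmem : ((0 : ℂ), b) ∈ BD r r := ⟨by simpa using h.r_pos, hb⟩
  have hW : Wf T i k (.vert j₀ k w₁) (0, b) = shD T k i j₀ 0 + (w₁ + b) := by
    simp [Wf, T.M_pos.ne']
  have hWan : AnalyticAt ℂ (Wf T i k (.vert j₀ k w₁)) (0, b) := by
    have := hc.an2.add (analyticAt_const (v := shD T k i j₀ 0 + (w₁ + b)))
    refine this.congr (Eventually.of_forall fun q => ?_)
    simp
  refine ⟨?_, map_an (h.mem _ hmem).2, map_vert hk w₁ b, hc.uan, hc.une, hc.fst, ?_⟩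
  · refine locBr_of h (χ := fun q => q) analyticAt_id hmem hWan rfl (by rw [hW]; exact hsp) ?_ ?_
      fun q hq => hq
    · filter_upwards [small_ev (T := T) (g := fun q => q.1) (p := ((0 : ℂ), b)) continuousAt_fst rfl]
        with q hq
      exact bm_of_vert (x := 0) (Wf_vert (same_of_eqv he) hq)
    · exact gen_freq1 (T := T) (.vert j₀ k w₁) (by
        rintro (⟨_, _, _, h⟩ | ⟨_, h⟩) <;> cases h)
  · refine hc.snd.mono fun z hz => ?_
    rw [hW]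
    exact sub_ne_zero.1 hz

/-- leg charts -/
theorem brp_leg {i l : Fin T.m} {k : ℕ} (he : Eqv T k i l) (htop : T.top l = k) {r : ℝ}
    {ζ : Fin T.d → ℂ × ℂ → ℂ} (h : T.Sheets (.leg l) r ζ) {b : ℂ} (hb : ‖b‖ < r) (hb0 : b ≠ 0)
    (hsp : shD T k i l 0 + b ^ T.M ∉ T.Sp i k) :
    BrP (T := T) i k (T.map (.leg l)) (Wf T i k (.leg l)) (fun _ => 1) ζ b := by
  have hc := chg_leg (T := T) i l k hb0
  have hmem : ((0 : ℂ), b) ∈ BD r r := ⟨by simpa using h.r_pos, hb⟩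
  have hW : Wf T i k (.leg l) (0, b) = shD T k i l 0 + b ^ T.M := by
    simp [Wf, T.M_pos.ne']
  have hWan : AnalyticAt ℂ (Wf T i k (.leg l)) (0, b) := by
    have := hc.an2.add (analyticAt_const (v := shD T k i l 0 + b ^ T.M))
    refine this.congr (Eventually.of_forall fun q => ?_)
    simp
  -- generic points
  have hgen : ∀ᶠ q in 𝓝 ((0 : ℂ), b), q.2 ≠ 0 :=
    (continuousAt_snd (p := ((0 : ℂ), b))).eventually_ne hb0
  have hev : ∀ᶠ q in 𝓝 ((0 : ℂ), b), q ∈ BD r r := (isOpen_BD r r).mem_nhds hmem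
  refine ⟨⟨hWan, analyticAt_fst, rfl, by rw [hW]; exact hsp, ?_, ?_, fun j => h.an j _ hmem, ?_, ?_⟩,
    map_an (h.mem _ hmem).2, map_leg l b, hc.uan, hc.une, hc.fst, ?_⟩
  · filter_upwards [small_ev (T := T) (g := fun q => q.1) (p := ((0 : ℂ), b)) continuousAt_fst rfl]
      with q hq
    exact bm_of_vert (x := 0) (Wf_leg (same_of_eqv he) htop hq)
  · exact (gen_freq1 (T := T) (.leg l) (fun _ => hb0)).mono fun q hq => hq.1
  · filter_upwards [hev] with q hq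
    exact h.split q hq
  · filter_upwards [hev, hgen] with q hq h1 h2
    exact h.inj q hq ⟨h2, h1⟩
  · refine hc.snd.mono fun z hz => ?_
    rw [hW]
    exact sub_ne_zero.1 hz

/-- edge charts, first branch -/
theorem brp_edge1 {i l : Fin T.m} {k k₂ : ℕ} (hk : 0 < k) (he : Eqv T k i l) (hkk : k < k₂) {r : ℝ}
    {ζ : Fin T.d → ℂ × ℂ → ℂ} (h : T.Sheets (.edge l k k₂) r ζ) {b : ℂ} (hb : ‖b‖ < r) (hb0 : b ≠ 0)
    (hsp : shD T k i l 0 + b ^ (T.M * (k₂ - k)) ∉ T.Sp i k) :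
    BrP (T := T) i k (T.map (.edge l k k₂)) (Wf T i k (.edge l k k₂)) (fun q => q.2) ζ b := by
  have hc := chg_edge1 (T := T) i l hkk hb0
  have hmem : ((0 : ℂ), b) ∈ BD r r := ⟨by simpa using h.r_pos, hb⟩
  have hW : Wf T i k (.edge l k k₂) (0, b) = shD T k i l 0 + b ^ (T.M * (k₂ - k)) := by
    simp [Wf, T.M_pos.ne']
  have hWan : AnalyticAt ℂ (Wf T i k (.edge l k k₂)) (0, b) := by
    have := hc.an2.add (analyticAt_const (v := shD T k i l 0 + b ^ (T.M * (k₂ - k))))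
    refine this.congr (Eventually.of_forall fun q => ?_)
    simp
  have hev : ∀ᶠ q in 𝓝 ((0 : ℂ), b), q ∈ BD r r := (isOpen_BD r r).mem_nhds hmem
  have hs0 : (T.map (.edge l k k₂) (0, b)).1 = 0 := by simp [TB.map]
  refine ⟨⟨hWan, analyticAt_fst.mul analyticAt_snd, hs0, by rw [hW]; exact hsp, ?_, ?_,
    fun j => h.an j _ hmem, ?_, ?_⟩,
    map_an (h.mem _ hmem).2, map_edge1 hk b, hc.uan, hc.une, hc.fst, ?_⟩
  · filter_upwards [small_ev (T := T) (g := fun q => q.1 * q.2) (p := ((0 : ℂ), b))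
      (continuousAt_fst.mul continuousAt_snd) (by simp)] with q hq
    exact bm_of_vert (x := 0) (Wf_edge1 (same_of_eqv he) hkk.le hq)
  · exact (gen_freq1 (T := T) (.edge l k k₂) (fun _ => hb0)).mono fun q hq => mul_ne_zero hq.1 hq.2
  · filter_upwards [hev] with q hq
    exact h.split q hq
  · filter_upwards [hev] with q hq h2
    exact h.inj q hq ⟨left_ne_zero_of_mul h2, right_ne_zero_of_mul h2⟩
  · refine hc.snd.mono fun z hz => ?_
    rw [hW]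
    exact sub_ne_zero.1 hz

/-- edge charts, second branch, in exchanged coordinates -/
theorem brp_edge2 {i l : Fin T.m} {k₁ k : ℕ} (he : Eqv T k i l) (hkk : k₁ < k) {r : ℝ}
    {ζ : Fin T.d → ℂ × ℂ → ℂ} (h : T.Sheets (.edge l k₁ k) r ζ) {a : ℂ} (ha : ‖a‖ < r) (ha0 : a ≠ 0)
    (hsp : shD T k i l 0 + (a ^ (T.M * (k - k₁)))⁻¹ ∉ T.Sp i k) :
    BrP (T := T) i k (fun q => T.map (.edge l k₁ k) (q.2, q.1))
      (fun q => Wf T i k (.edge l k₁ k) (q.2, q.1)) (fun q => q.2) (fun j q => ζ j (q.2, q.1)) a := by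
  have hc := chg_edge2 (T := T) i l hkk ha0
  have hmem : (a, (0 : ℂ)) ∈ BD r r := ⟨ha, by simpa using h.r_pos⟩
  have hW : Wf T i k (.edge l k₁ k) (a, 0) = shD T k i l 0 + (a ^ (T.M * (k - k₁)))⁻¹ := by
    simp [Wf, T.M_pos.ne', hkk.ne']
  have hWan : AnalyticAt ℂ (fun q : ℂ × ℂ => Wf T i k (.edge l k₁ k) (q.2, q.1)) (0, a) := by
    have := hc.an2.add (analyticAt_const (v := shD T k i l 0 + (a ^ (T.M * (k - k₁)))⁻¹))
    refine this.congr (Eventually.of_forall fun q => ?_)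
    simp
  have hχ : AnalyticAt ℂ (fun q : ℂ × ℂ => ((q.2, q.1) : ℂ × ℂ)) (0, a) :=
    analyticAt_snd.prod analyticAt_fst
  have hev : ∀ᶠ q : ℂ × ℂ in 𝓝 ((0 : ℂ), a), ((q.2, q.1) : ℂ × ℂ) ∈ BD r r :=
    hχ.continuousAt.eventually ((isOpen_BD r r).mem_nhds hmem)
  have hs0 : (T.map (.edge l k₁ k) (a, 0)).1 = 0 := by simp [TB.map]
  have hk' : 0 < k := by omega
  have hq1 : ∀ᶠ q in 𝓝 ((0 : ℂ), a), q.2 ≠ 0 :=
    (continuousAt_snd (p := ((0 : ℂ), a))).eventually_ne ha0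
  refine ⟨⟨hWan, analyticAt_snd.mul analyticAt_fst, hs0, ?_, ?_, ?_,
    fun j => AnalyticAt.comp (g := ζ j) (f := fun q : ℂ × ℂ => ((q.2, q.1) : ℂ × ℂ))
      (h.an j _ hmem) hχ, ?_, ?_⟩,
    AnalyticAt.comp (g := T.map (.edge l k₁ k)) (f := fun q : ℂ × ℂ => ((q.2, q.1) : ℂ × ℂ))
      (map_an (h.mem _ hmem).2) hχ, map_edge2 hk' a, hc.uan, hc.une, ?_, ?_⟩
  · show Wf T i k (.edge l k₁ k) (a, 0) ∉ T.Sp i k
    rw [hW]
    exact hsp
  · filter_upwards [small_ev (T := T) (g := fun q => q.2 * q.1) (p := ((0 : ℂ), a))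
      (continuousAt_snd.mul continuousAt_fst) (by simp), hq1] with q hq hq2
    exact bm_of_vert (x := 0) (Wf_edge2 (q := (q.2, q.1)) (same_of_eqv he) hkk hq hq2)
  · have h1 : ∃ᶠ q in 𝓝 (a, (0 : ℂ)), T.Gen (.edge l k₁ k) q := gen_freq2 ha0
    have h2 : ∃ᶠ q : ℂ × ℂ in 𝓝 ((0 : ℂ), a), T.Gen (.edge l k₁ k) (q.2, q.1) :=
      (sw_tendsto (a, (0 : ℂ))).frequently (p := fun q => T.Gen (.edge l k₁ k) (q.2, q.1)) h1
    exact h2.mono fun q hq => mul_ne_zero hq.1 hq.2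
  · filter_upwards [hev] with q hq
    exact h.split _ hq
  · filter_upwards [hev] with q hq h2
    exact h.inj _ hq ⟨left_ne_zero_of_mul h2, right_ne_zero_of_mul h2⟩
  · exact Eventually.of_forall fun q => mul_comm _ _
  · refine hc.snd.mono fun z hz => ?_
    show Wf T i k (.edge l k₁ k) (z, 0) ≠ Wf T i k (.edge l k₁ k) (a, 0)
    rw [hW]
    exact sub_ne_zero.1 hz

end Crest.Agent.R257.OrdT_578
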