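import Crest.Agent.R257.Vt1_558
import Crest.Agent.R257.OrdT7_578
import Crest.Agent.R257.ExF_121

-- ▼ part R257/Tr_121
section

/-!
Row 257 (S0395), part C, C-TRANS (helper121): near an ordinary point of an exceptional axis every sheet
of a canonical chart is a sheet of a canonical vertex chart centred at that point, with the same label.
-/

set_option autoImplicit false
set_option linter.unusedSectionVars false

open Polynomial Set Filter Topology Metric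
open Crest.AlgGeometry.Germ Crest.Agent.R257.AJ387 Crest.Agent.R257.T387
open Crest.Agent.R257.BP_258 Crest.Agent.R257.OrdT_578 Crest.Agent.R257.OrdL_578
open Crest.Agent.R257.Vt1_558

noncomputable section

namespace Crest.Agent.R257.Tr_121

variable {f : (Fin 3 → ℂ) → ℂ} {T : TB f}

lemma same_of_tr {i j : Fin T.m} {k : ℕ} (h : tr T j k = tr T i k) : Same T k i j := by
  by_cases hij : j = i
  · exact Or.inl hij
  · exact Or.inr ((tr_eq_iff_del hij).1 h)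

lemma shD_zero_of {i j : Fin T.m} {k : ℕ} (h : Same T k i j) :
    shD T k i j 0 = co T j k - co T i k := by
  unfold shD
  by_cases hij : j = i
  · simp [hij]
  · have h1 : k ≤ T.del j i := h.resolve_left hij
    rw [if_neg hij, co_sub hij h1]
    by_cases h2 : k = T.del j i
    · rw [if_pos h2, h2]; simp
    · rw [if_neg h2, zero_pow (by omega), zero_mul]

lemma sp_iff (i : Fin T.m) (k : ℕ) (w : ℂ) : w ∈ sp T (vx T i k) ↔ w - co T i k ∈ T.Sp i k := by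
  rw [Rot1_558.mem_Sp, mem_sp]
  constructor
  · rintro ⟨j, h1, h2⟩
    have h1' : tr T j k = tr T i k := h1
    have h2' : co T j k = w := h2
    by_cases hj : j = i
    · subst hj
      left; rw [← h2', sub_self]
    · have h4 := (tr_eq_iff_del (Ne.symm hj)).1 h1'.symm
      have h5 := co_sub (Ne.symm hj) h4
      rw [h2'] at h5
      rcases h4.eq_or_lt with h6 | h6
      · right
        rw [if_pos h6] at h5
        exact ⟨j, ⟨hj, h6.symm⟩, by rw [← h5, neg_sub]⟩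
      · left
        rw [if_neg h6.ne] at h5
        rw [← neg_eq_zero, neg_sub]; exact h5
  · rintro (h | ⟨j, ⟨hj, hk⟩, hw⟩)
    · exact ⟨i, rfl, (sub_eq_zero.1 h).symm⟩
    · have h1 := co_sub hj.symm (le_refl (T.del i j))
      rw [if_pos rfl, hk] at h1
      refine ⟨j, ((tr_eq_iff_del hj.symm).2 hk.ge).symm, ?_⟩
      show co T j k = w
      rw [← h1] at hw
      linear_combination hw

variable {U : Tub T}

/-- labels are determined by one point -/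
lemma lab_unique (hR : RetStmt U) {E E' : II U} (hv : E.1 = E'.1) {x : Fin 3 → ℂ}
    (h : InT U E.1.1 x ∧ ∀ q, IsRet U E.1.1 x q → (q : ConnectedComponents _) = E.2)
    (h' : InT U E'.1.1 x ∧ ∀ q, IsRet U E'.1.1 x q → (q : ConnectedComponents _) = E'.2) :
    E = E' := by
  obtain ⟨v, A⟩ := E
  obtain ⟨v', A'⟩ := E'
  simp only at hv
  subst hv
  obtain ⟨q, hq, -⟩ := (hR v.1 v.2).1 x h.1
  have h1 := h.2 q hq
  have h2 := h'.2 q hq
  simp only at h1 h2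
  rw [← h1, ← h2]

variable {S : Sh T}

variable (S) in
/-- the canonical vertex chart of the vertex `v` at `x` -/
def vc (v : Vtx) (x : ℂ) : Ch T.m := .vert (S.ci v) v.1 x

lemma ok_vc {v : Vtx} (hv : v ∈ Vs T) {x : ℂ} (hx : x ∉ sp T v) : Ok S (vc S v x) :=
  ⟨⟨lev_ci S hv, fun h => hx ((Sp_ci S hv).1 h)⟩, v, hv, rfl, rfl, hx⟩

/-- `T.map c` in the coordinates of the vertex -/
structure Tra (c : Ch T.m) (p₀ : ℂ × ℂ) (e : ℂ × ℂ → ℂ) (v : Vtx) (x : ℂ)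
    (χ : ℂ × ℂ → ℂ × ℂ) (u : ℂ × ℂ → ℂ) : Prop where
  nsp : x ∉ sp T v
  an : AnalyticAt ℂ χ p₀
  zero : χ p₀ = (0, 0)
  uan : AnalyticAt ℂ u p₀
  une : u p₀ ≠ 0
  fst : ∀ᶠ p in 𝓝 p₀, (χ p).1 = e p * u p
  mfst : ∀ᶠ p in 𝓝 p₀, (χ p).1 = (T.map c p).1
  map : ∀ᶠ p in 𝓝 p₀, T.map c p = T.map (vc S v x) (χ p)

lemma ρ_ev {g : ℂ × ℂ → ℂ} {p₀ : ℂ × ℂ} (hg : ContinuousAt g p₀) (h0 : g p₀ = 0) :
    ∀ᶠ p in 𝓝 p₀, ‖g p‖ ^ T.M < T.ρ := by
  have h1 : ContinuousAt (fun p => ‖g p‖ ^ T.M) p₀ := hg.norm.pow _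
  refine h1.eventually_lt_const ?_
  simp only [h0, norm_zero, zero_pow T.M_pos.ne']
  exact T.ρ_pos

/-- vertex charts -/
lemma tra_vert {v : Vtx} {w₁ b : ℂ} (hb : w₁ + b ∉ sp T v) :
    ∃ χ u, Tra (S := S) (vc S v w₁) (0, b) Prod.fst v (w₁ + b) χ u := by
  have hS : Same T v.1 (S.ci v) (S.ci v) := Or.inl rfl
  have h0 : Wf T (S.ci v) v.1 (vc S v w₁) (0, b) = w₁ + b := by
    simp [Wf, vc, shD]
  refine ⟨fun p => (p.1, Wf T (S.ci v) v.1 (vc S v w₁) p - (w₁ + b)), fun _ => 1, hb,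
    analyticAt_fst.prod ?_, ?_, analyticAt_const, one_ne_zero, ?_, ?_, ?_⟩
  · have h1 : (fun p => Wf T (S.ci v) v.1 (vc S v w₁) p - (w₁ + b)) = fun p : ℂ × ℂ => p.2 - b := by
      funext p
      simp [Wf, vc, shD]
    rw [h1]
    exact analyticAt_snd.sub analyticAt_const
  · simp [h0]
  · exact Eventually.of_forall fun p => (mul_one _).symm
  · exact Eventually.of_forall fun p => rfl
  · filter_upwards [ρ_ev (T := T) (g := fun q : ℂ × ℂ => q.1) (p₀ := ((0 : ℂ), b)) continuousAt_fst rfl]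
      with p hp
    exact Wf_vert hS hp

/-- leg charts -/
lemma tra_leg {l : Fin T.m} {b : ℂ} (hb0 : b ≠ 0) (hb : ‖b‖ ≤ 2 * S.r (.leg l)) :
    ∃ x χ u, Tra (S := S) (.leg l) (0, b) Prod.fst (vx T l (T.top l)) x χ u := by
  set v := vx T l (T.top l) with hv'
  have hlev : T.top l ∈ T.lev l := Finset.max'_mem _ _
  have hv : v ∈ Vs T := vx_mem hlev
  have hS : Same T v.1 (S.ci v) l := same_of_tr (by rw [tr_ci S hv]; rfl)
  have hc := chg_leg (T := T) (S.ci v) l v.1 hb0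
  set x := shD T v.1 (S.ci v) l 0 + b ^ T.M with hx
  refine ⟨x, fun q => (q.1, Wf T (S.ci v) v.1 (.leg l) q - x), fun _ => 1, ?_,
    hc.an1.prod hc.an2, hc.val, hc.uan, hc.une, hc.fst, ?_, ?_⟩
  · intro h
    refine S.farl l b hb0 hb ?_
    have h1 := (sp_iff l (T.top l) x).1 h
    rwa [hx, shD_zero_of hS, co_ci_lev S hv, sub_zero, show v.1 = T.top l from rfl,
      add_sub_cancel_left] at h1
  · exact Eventually.of_forall fun q => rfl
  · filter_upwards [ρ_ev (T := T) (g := fun q : ℂ × ℂ => q.1) (p₀ := ((0 : ℂ), b)) continuousAt_fst rfl]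
      with q hq
    exact Wf_leg hS rfl hq

/-- edge charts, first axis -/
lemma tra_edge1 {i : Fin T.m} {k k' : ℕ} (hc : T.Valid (.edge i k k')) (hk : k ≠ 0) {b : ℂ}
    (hb0 : b ≠ 0) (hb : ‖b‖ ≤ 2 * S.r (.edge i k k')) :
    ∃ x χ u, Tra (S := S) (.edge i k k') (0, b) Prod.fst (vx T i k) x χ u := by
  set v := vx T i k with hv'
  have hc' : T.Cons i k k' := hc
  have hlev : k ∈ T.lev i := hc'.1.resolve_left hk
  have hv : v ∈ Vs T := vx_mem hlev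
  have hS : Same T v.1 (S.ci v) i := same_of_tr (by rw [tr_ci S hv]; rfl)
  have hcc := chg_edge1 (T := T) (S.ci v) i hc'.2.2.1 hb0
  set x := shD T k (S.ci v) i 0 + b ^ (T.M * (k' - k)) with hx
  refine ⟨x, fun q => (q.1 * q.2, Wf T (S.ci v) k (.edge i k k') q - x), fun q => q.2, ?_,
    hcc.an1.prod hcc.an2, hcc.val, hcc.uan, hcc.une, hcc.fst, ?_, ?_⟩
  · intro h
    refine (S.fare i k k' hc b hb0 hb).1 ?_
    have h1 := (sp_iff i k x).1 h
    have h2 : shD T k (S.ci v) i 0 = co T i k := by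
      rw [shD_zero_of (k := k) hS]
      have : co T (S.ci v) k = 0 := co_ci_lev S hv
      rw [this, sub_zero]
    rwa [hx, h2, add_sub_cancel_left] at h1
  · exact Eventually.of_forall fun q => rfl
  · filter_upwards [ρ_ev (T := T) (g := fun q : ℂ × ℂ => q.1 * q.2) (p₀ := ((0 : ℂ), b))
      (continuousAt_fst.mul continuousAt_snd) (by simp)] with q hq
    exact Wf_edge1 hS hc'.2.2.1.le hq

/-- edge charts, second axis -/
lemma tra_edge2 {i : Fin T.m} {k k' : ℕ} (hc : T.Valid (.edge i k k')) {a : ℂ}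
    (ha0 : a ≠ 0) (ha : ‖a‖ ≤ 2 * S.r (.edge i k k')) :
    ∃ x χ u, Tra (S := S) (.edge i k k') (a, 0) Prod.snd (vx T i k') x χ u := by
  set v := vx T i k' with hv'
  have hc' : T.Cons i k k' := hc
  have hv : v ∈ Vs T := vx_mem hc'.2.1
  have hS : Same T v.1 (S.ci v) i := same_of_tr (by rw [tr_ci S hv]; rfl)
  have hcc := chg_edge2 (T := T) (S.ci v) i hc'.2.2.1 ha0
  set x := shD T k' (S.ci v) i 0 + (a ^ (T.M * (k' - k)))⁻¹ with hx
  have hsw : AnalyticAt ℂ (fun q : ℂ × ℂ => ((q.2, q.1) : ℂ × ℂ)) (a, (0 : ℂ)) :=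
    analyticAt_snd.prod analyticAt_fst
  have hsw' : Tendsto (fun q : ℂ × ℂ => ((q.2, q.1) : ℂ × ℂ)) (𝓝 (a, (0 : ℂ))) (𝓝 ((0 : ℂ), a)) :=
    hsw.continuousAt
  have h2 : AnalyticAt ℂ (fun q : ℂ × ℂ => Wf T (S.ci v) k' (.edge i k k') q - x) (a, (0 : ℂ)) := by
    have := AnalyticAt.comp (g := fun q : ℂ × ℂ => Wf T (S.ci v) k' (.edge i k k') (q.2, q.1) - x)
      (f := fun q : ℂ × ℂ => ((q.2, q.1) : ℂ × ℂ)) (x := (a, (0 : ℂ))) hcc.an2 hsw
    exact this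
  refine ⟨x, fun q => (q.1 * q.2, Wf T (S.ci v) k' (.edge i k k') q - x), fun q => q.1, ?_,
    (analyticAt_fst.mul analyticAt_snd).prod h2, ?_, analyticAt_fst, ha0, ?_, ?_, ?_⟩
  · intro h
    refine (S.fare i k k' hc a ha0 ha).2 ?_
    have h1 := (sp_iff i k' x).1 h
    have h3 : shD T k' (S.ci v) i 0 = co T i k' := by
      rw [shD_zero_of (k := k') hS]
      have : co T (S.ci v) k' = 0 := co_ci_lev S hv
      rw [this, sub_zero]
    rwa [hx, h3, add_sub_cancel_left] at h1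
  · have h4 := hcc.val
    have h5 := congrArg Prod.snd h4
    simp only at h5
    simp only [mul_zero, Prod.mk.injEq, true_and]
    exact h5
  · exact Eventually.of_forall fun q => mul_comm _ _
  · exact Eventually.of_forall fun q => rfl
  · have hne : ∀ᶠ q : ℂ × ℂ in 𝓝 (a, (0 : ℂ)), q.1 ≠ 0 :=
      (continuousAt_fst (p := (a, (0 : ℂ)))).eventually_ne ha0
    filter_upwards [ρ_ev (T := T) (g := fun q : ℂ × ℂ => q.1 * q.2) (p₀ := (a, (0 : ℂ)))
      (continuousAt_fst.mul continuousAt_snd) (by simp), hne] with q hq hq1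
    exact Wf_edge2 hS hc'.2.2.1 hq hq1

/-- the sheets -/
lemma Tra.sheet {c : Ch T.m} (hc : Ok S c) {p₀ : ℂ × ℂ} (hp₀ : p₀ ∈ BD (2 * S.r c) (2 * S.r c))
    {e : ℂ × ℂ → ℂ} {v : Vtx} (hv : v ∈ Vs T) {x : ℂ} {χ : ℂ × ℂ → ℂ × ℂ} {u : ℂ × ℂ → ℂ}
    (h : Tra (S := S) c p₀ e v x χ u) (hgen : ∃ᶠ q in 𝓝 p₀, T.Gen c q) (j : Fin T.d) :
    ∃ j' : Fin T.d, ∀ᶠ p in 𝓝 p₀, wc S c j p = wc S (vc S v x) j' (χ p) := by
  have hok : Ok S (vc S v x) := ok_vc hv h.nsp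
  have h0 : χ p₀ ∈ BD (2 * S.r (vc S v x)) (2 * S.r (vc S v x)) := by
    rw [h.zero]
    have := S.pos (vc S v x)
    constructor <;> simp only [norm_zero] <;> linarith
  obtain ⟨σ, hσ⟩ := attach (S.sheets c hc.1) (S.sheets _ hok.1) hp₀ h.an h0 h.map hgen
  refine ⟨σ j, ?_⟩
  filter_upwards [hσ j, h.map] with p h1 h2
  rw [wc, wc, ← h2, h1]

/-- **first axis** -/
theorem tra1 (hR : RetStmt U) (L : Lab U S) {c : Ch T.m} (hc : Ok S c) (j : Fin T.d) {b : ℂ}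
    (hb : ‖b‖ ≤ S.r c) (hb0 : IsV c ∨ b ≠ 0) {E : II U} (hE : L.e1 c j = some E) :
    ∃ (x : ℂ) (j' : Fin T.d) (χ : ℂ × ℂ → ℂ × ℂ) (u : ℂ × ℂ → ℂ),
      Tra (S := S) c (0, b) Prod.fst E.1.1 x χ u ∧ L.e1 (vc S E.1.1 x) j' = some E ∧
      ∀ᶠ p in 𝓝 ((0 : ℂ), b), wc S c j p = wc S (vc S E.1.1 x) j' (χ p) := by
  have hr := S.pos c
  have hv1 : v1 T c = some E.1.1 := by rw [← L.v_e1 c hc j, hE]; rfl
  have hb2 : ‖b‖ ≤ 2 * S.r c := by linarith
  have key : ∃ x χ u, Tra (S := S) c (0, b) Prod.fst E.1.1 x χ u := by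
    cases c with
    | edge i k k' =>
      have hk : k ≠ 0 := by
        intro hk
        simp [v1, hk] at hv1
      simp only [v1, hk, if_false, Option.some.injEq] at hv1
      rw [← hv1]
      exact tra_edge1 hc.1 hk (hb0.resolve_left id) hb2
    | leg i =>
      simp only [v1, Option.some.injEq] at hv1
      rw [← hv1]
      exact tra_leg (hb0.resolve_left id) hb2
    | vert i k w₁ =>
      simp only [v1, Option.some.injEq] at hv1
      obtain ⟨v, hv, h1, h2, h3⟩ := hc.2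
      have h4 : E.1.1 = v := by
        rw [← hv1, h1, h2]
        exact vx_ci S hv
      have h5 : (Ch.vert i k w₁ : Ch T.m) = vc S v w₁ := by rw [h1, h2]; rfl
      rw [h4]
      have h6 := S.far i k w₁ hc.1 (w₁ + b) (by simpa using hb2)
      rw [h1, h2] at h6
      obtain ⟨χ, u, h7⟩ := tra_vert (S := S) (v := v) (w₁ := w₁) (b := b)
        (fun h => h6 ((Sp_ci S hv).2 h))
      rw [h5]
      exact ⟨_, χ, u, h7⟩
  obtain ⟨x, χ, u, h⟩ := key
  have hok : Ok S (vc S E.1.1 x) := ok_vc E.1.2 h.nsp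
  have hgen : ∃ᶠ q in 𝓝 ((0 : ℂ), b), T.Gen c q := by
    refine gen_freq1 c ?_
    rintro (⟨_, _, _, rfl⟩ | ⟨_, rfl⟩) <;> exact hb0.resolve_left id
  have hp₀ : ((0 : ℂ), b) ∈ BD (2 * S.r c) (2 * S.r c) := by
    constructor
    · simpa using hr
    · show ‖b‖ < 2 * S.r c
      linarith
  obtain ⟨j', hj'⟩ := h.sheet hc hp₀ E.1.2 hgen j
  refine ⟨x, j', χ, u, h, ?_, hj'⟩
  -- labels
  have hve := L.v_e1 _ hok j'
  have hv1' : v1 T (vc S E.1.1 x) = some E.1.1 := by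
    simp only [v1, vc]
    rw [vx_ci S E.1.2]
  rw [hv1'] at hve
  obtain ⟨E', hE', hEE⟩ := Option.map_eq_some_iff.1 hve
  rw [hE']
  have hvE : E.1 = E'.1 := Subtype.ext hEE.symm
  -- near the point
  obtain ⟨a, ha, hnear⟩ := L.near1 c hc j E hE (if b = 0 then 1 else ‖b‖) (by
    split_ifs with h0
    · exact one_pos
    · exact norm_pos_iff.2 h0)
  obtain ⟨a', ha', hnear'⟩ := L.near1 _ hok j' E' hE' 1 one_pos
  have hr' := S.pos (vc S E.1.1 x)
  have hχ0 : Tendsto χ (𝓝 ((0 : ℂ), b)) (𝓝 (0, 0)) := by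
    have := h.an.continuousAt.tendsto
    rwa [h.zero] at this
  have ev : ∀ᶠ p in 𝓝 ((0 : ℂ), b), ‖(χ p).1‖ < a' ∧ ‖(χ p).2‖ ≤ S.r (vc S E.1.1 x) ∧
      ‖p.1‖ < a ∧ u p ≠ 0 := by
    have h1 : ∀ᶠ q : ℂ × ℂ in 𝓝 ((0 : ℂ), (0 : ℂ)), ‖q.1‖ < a' ∧ ‖q.2‖ < S.r (vc S E.1.1 x) := by
      refine ((continuous_fst.norm.continuousAt (x := ((0 : ℂ), (0 : ℂ)))).eventually_lt_const
        (by simpa using ha')).and
        ((continuous_snd.norm.continuousAt (x := ((0 : ℂ), (0 : ℂ)))).eventually_lt_const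
        (by simpa using hr'))
    have h2 := hχ0.eventually h1
    have h3 : ∀ᶠ p : ℂ × ℂ in 𝓝 ((0 : ℂ), b), ‖p.1‖ < a :=
      (continuous_fst.norm.continuousAt (x := ((0 : ℂ), b))).eventually_lt_const (by simpa using ha)
    have h4 : ∀ᶠ p in 𝓝 ((0 : ℂ), b), u p ≠ 0 := h.uan.continuousAt.eventually_ne h.une
    filter_upwards [h2, h3, h4] with p h5 h6 h7
    exact ⟨h5.1, h5.2.le, h6, h7⟩
  have hlim : Tendsto (fun s : ℂ => (s, b)) (𝓝[≠] 0) (𝓝 ((0 : ℂ), b)) := by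
    have h1 : Tendsto (fun s : ℂ => (s, b)) (𝓝 0) (𝓝 ((0 : ℂ), b)) :=
      (by fun_prop : Continuous fun s : ℂ => (s, b)).tendsto 0
    exact h1.mono_left nhdsWithin_le_nhds
  have ev' := hlim.eventually ((ev.and h.fst).and hj')
  obtain ⟨s, ⟨⟨⟨h1, h2, h3, h4⟩, h5⟩, h6⟩, hs⟩ := (ev'.and self_mem_nhdsWithin).exists
  have hs0 : s ≠ 0 := hs
  have h7 : 0 < ‖(χ (s, b)).1‖ := by
    rw [h5]
    exact norm_pos_iff.2 (mul_ne_zero hs0 h4)
  have h8 := hnear (s, b) (norm_pos_iff.2 hs0) h3 hb (by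
    by_cases hV : IsV c
    · exact Or.inl hV
    · right
      have : b ≠ 0 := hb0.resolve_left hV
      rw [if_neg this])
  have h9 := hnear' (χ (s, b)) h7 h1 h2 (Or.inl trivial)
  rw [← h6] at h9
  rw [lab_unique hR hvE h8 h9]

/-- **second axis** -/
theorem tra2 (hR : RetStmt U) (L : Lab U S) {c : Ch T.m} (hc : Ok S c) (j : Fin T.d) {a : ℂ}
    (ha : ‖a‖ ≤ S.r c) (ha0 : a ≠ 0) {E : II U} (hE : L.e2 c j = some E) :
    ∃ (x : ℂ) (j' : Fin T.d) (χ : ℂ × ℂ → ℂ × ℂ) (u : ℂ × ℂ → ℂ),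
      Tra (S := S) c (a, 0) Prod.snd E.1.1 x χ u ∧ L.e1 (vc S E.1.1 x) j' = some E ∧
      ∀ᶠ p in 𝓝 (a, (0 : ℂ)), wc S c j p = wc S (vc S E.1.1 x) j' (χ p) := by
  have hr := S.pos c
  have hv2 : v2 T c = some E.1.1 := by rw [← L.v_e2 c hc j, hE]; rfl
  have hb2 : ‖a‖ ≤ 2 * S.r c := by linarith
  obtain ⟨i, k, k', rfl⟩ : ∃ i k k', c = .edge i k k' := by
    cases c with
    | edge i k k' => exact ⟨i, k, k', rfl⟩
    | leg i => simp [v2] at hv2
    | vert i k w₁ => simp [v2] at hv2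
  simp only [v2, Option.some.injEq] at hv2
  obtain ⟨x, χ, u, h⟩ : ∃ x χ u, Tra (S := S) (.edge i k k') (a, 0) Prod.snd E.1.1 x χ u := by
    rw [← hv2]
    exact tra_edge2 hc.1 ha0 hb2
  have hok : Ok S (vc S E.1.1 x) := ok_vc E.1.2 h.nsp
  have hgen : ∃ᶠ q in 𝓝 (a, (0 : ℂ)), T.Gen (.edge i k k') q := gen_freq2 ha0
  have hp₀ : (a, (0 : ℂ)) ∈ BD (2 * S.r (.edge i k k')) (2 * S.r (.edge i k k')) := by
    constructor
    · show ‖a‖ < 2 * S.r (.edge i k k')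
      linarith
    · simpa using hr
  obtain ⟨j', hj'⟩ := h.sheet hc hp₀ E.1.2 hgen j
  refine ⟨x, j', χ, u, h, ?_, hj'⟩
  -- labels
  have hve := L.v_e1 _ hok j'
  have hv1' : v1 T (vc S E.1.1 x) = some E.1.1 := by
    simp only [v1, vc]
    rw [vx_ci S E.1.2]
  rw [hv1'] at hve
  obtain ⟨E', hE', hEE⟩ := Option.map_eq_some_iff.1 hve
  rw [hE']
  have hvE : E.1 = E'.1 := Subtype.ext hEE.symm
  -- near the point
  obtain ⟨a₁, ha₁, hnear⟩ := L.near2 _ hc j E hE ‖a‖ (norm_pos_iff.2 ha0)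
  obtain ⟨a', ha', hnear'⟩ := L.near1 _ hok j' E' hE' 1 one_pos
  have hr' := S.pos (vc S E.1.1 x)
  have hχ0 : Tendsto χ (𝓝 (a, (0 : ℂ))) (𝓝 (0, 0)) := by
    have := h.an.continuousAt.tendsto
    rwa [h.zero] at this
  have ev : ∀ᶠ p in 𝓝 (a, (0 : ℂ)), ‖(χ p).1‖ < a' ∧ ‖(χ p).2‖ ≤ S.r (vc S E.1.1 x) ∧
      ‖p.2‖ < a₁ ∧ u p ≠ 0 := by
    have h1 : ∀ᶠ q : ℂ × ℂ in 𝓝 ((0 : ℂ), (0 : ℂ)), ‖q.1‖ < a' ∧ ‖q.2‖ < S.r (vc S E.1.1 x) := by
      refine ((continuous_fst.norm.continuousAt (x := ((0 : ℂ), (0 : ℂ)))).eventually_lt_const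
        (by simpa using ha')).and
        ((continuous_snd.norm.continuousAt (x := ((0 : ℂ), (0 : ℂ)))).eventually_lt_const
        (by simpa using hr'))
    have h2 := hχ0.eventually h1
    have h3 : ∀ᶠ p : ℂ × ℂ in 𝓝 (a, (0 : ℂ)), ‖p.2‖ < a₁ :=
      (continuous_snd.norm.continuousAt (x := (a, (0 : ℂ)))).eventually_lt_const (by simpa using ha₁)
    have h4 : ∀ᶠ p in 𝓝 (a, (0 : ℂ)), u p ≠ 0 := h.uan.continuousAt.eventually_ne h.une
    filter_upwards [h2, h3, h4] with p h5 h6 h7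
    exact ⟨h5.1, h5.2.le, h6, h7⟩
  have hlim : Tendsto (fun s : ℂ => (a, s)) (𝓝[≠] 0) (𝓝 (a, (0 : ℂ))) := by
    have h1 : Tendsto (fun s : ℂ => (a, s)) (𝓝 0) (𝓝 (a, (0 : ℂ))) :=
      (by fun_prop : Continuous fun s : ℂ => (a, s)).tendsto 0
    exact h1.mono_left nhdsWithin_le_nhds
  have ev' := hlim.eventually ((ev.and h.fst).and hj')
  obtain ⟨s, ⟨⟨⟨h1, h2, h3, h4⟩, h5⟩, h6⟩, hs⟩ := (ev'.and self_mem_nhdsWithin).exists
  have hs0 : s ≠ 0 := hs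
  have h7 : 0 < ‖(χ (a, s)).1‖ := by
    rw [h5]
    exact norm_pos_iff.2 (mul_ne_zero hs0 h4)
  have h8 := hnear (a, s) (norm_pos_iff.2 hs0) h3 ha le_rfl
  have h9 := hnear' (χ (a, s)) h7 h1 h2 (Or.inl trivial)
  rw [← h6] at h9
  rw [lab_unique hR hvE h8 h9]

end Crest.Agent.R257.Tr_121
end
end

-- ▼ part R257/ExG_121
section

/-!
Row 257 (S0395), C-EXT (helper121): transfer of kills from the origin of a canonical vertex chart to an
ordinary point of an exceptional axis, and from `BPDefs_258` to the frame `D.fr`.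
-/

set_option autoImplicit false
set_option linter.unusedSectionVars false

open Polynomial Set Filter Topology Metric
open Crest.AlgGeometry.Germ Crest.Agent.R257.AJ387 Crest.Agent.R257.T387
open Crest.Agent.R257.Defs_219 Crest.Agent.R257.Gr1_157
open Crest.Agent.R257.BP_258 Crest.Agent.R257.Rot1_558 Crest.Agent.R257.Vt1_558
open Crest.Agent.R257.Vt3_558 Crest.Agent.R257.Tr_121
open Crest.Agent.R257.Tb_941 Crest.Agent.R257.Tb3_941
open Crest.Agent.R257.FrBP_808 Crest.Agent.R257.ExF_121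
open Crest.Agent.R257.KiD_121

noncomputable section

namespace Crest.Agent.R257.ExG_121

variable {f : (Fin 3 → ℂ) → ℂ} {T : TB f} {U : Tub T} {S : Sh T} {L : Lab U S}

variable (L) in
/-- the function of a factorisation at the origin does not vanish -/
def KC (g : (Fin 3 → ℂ) → ℂ) (m : II U → ℕ) (c : Ch T.m) (j : Fin T.d) : Prop :=
  ∀ H : ℂ × ℂ → ℂ, ContinuousAt H (0, 0) →
    (∀ᶠ p in 𝓝 ((0 : ℂ), (0 : ℂ)), g (T.th c (S.ζ c j) p) =
      p.1 ^ yn m (L.e1 c j) * p.2 ^ yn m (L.e2 c j) * H p) → H (0, 0) ≠ 0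

variable (L) in
/-- the function of a factorisation at `p₀` does not vanish -/
def At (g : (Fin 3 → ℂ) → ℂ) (m : II U → ℕ) (c : Ch T.m) (j : Fin T.d) (p₀ : ℂ × ℂ) : Prop :=
  ∀ H : ℂ × ℂ → ℂ, AnalyticAt ℂ H p₀ →
    (∀ᶠ p in 𝓝 p₀, g (T.th c (S.ζ c j) p) =
      p.1 ^ yn m (L.e1 c j) * p.2 ^ yn m (L.e2 c j) * H p) → H p₀ ≠ 0

theorem KC.at {g : (Fin 3 → ℂ) → ℂ} {m : II U → ℕ} {c : Ch T.m} {j : Fin T.d}
    (h : KC L g m c j) : At L g m c j (0, 0) := fun H hH => h H hH.continuousAt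

/-! ### division -/

theorem fst_freq (p₀ : ℂ × ℂ) : ∃ᶠ p : ℂ × ℂ in 𝓝 p₀, p.1 ≠ 0 := by
  have h1 : ∃ᶠ s : ℂ in 𝓝 p₀.1, s ≠ 0 := by
    have h2 : ∃ᶠ s : ℂ in 𝓝[≠] p₀.1, s ≠ 0 := by
      have : ∀ᶠ s : ℂ in 𝓝[≠] p₀.1, s ≠ 0 := by
        by_cases h : p₀.1 = 0
        · rw [h]; exact self_mem_nhdsWithin
        · exact (continuousAt_id.eventually_ne h).filter_mono nhdsWithin_le_nhds
      exact this.frequently
    exact h2.filter_mono nhdsWithin_le_nhds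
  have h3 : Tendsto (fun s : ℂ => (s, p₀.2)) (𝓝 p₀.1) (𝓝 p₀) := by
    have : Continuous fun s : ℂ => (s, p₀.2) := by fun_prop
    have h4 := this.tendsto p₀.1
    exact h4
  exact h3.frequently h1

theorem snd_freq (p₀ : ℂ × ℂ) : ∃ᶠ p : ℂ × ℂ in 𝓝 p₀, p.2 ≠ 0 := by
  have h3 : Tendsto (fun q : ℂ × ℂ => ((q.2, q.1) : ℂ × ℂ)) (𝓝 (p₀.2, p₀.1)) (𝓝 p₀) := by
    have : Continuous fun q : ℂ × ℂ => ((q.2, q.1) : ℂ × ℂ) := by fun_prop
    exact this.tendsto (p₀.2, p₀.1)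
  exact h3.frequently (p := fun q : ℂ × ℂ => q.2 ≠ 0) (fst_freq (p₀.2, p₀.1))

theorem div_eq {p₀ : ℂ × ℂ} {e X Y : ℂ × ℂ → ℂ} {n : ℕ} (he : ∃ᶠ p in 𝓝 p₀, e p ≠ 0)
    (hX : ContinuousAt X p₀) (hY : ContinuousAt Y p₀)
    (h : ∀ᶠ p in 𝓝 p₀, e p ^ n * X p = e p ^ n * Y p) : X p₀ = Y p₀ := by
  by_contra hne
  have h1 : ∀ᶠ p in 𝓝 p₀, X p - Y p ≠ 0 := (hX.sub hY).eventually_ne (sub_ne_zero.2 hne)
  obtain ⟨p, hp, h2, h3⟩ := (he.and_eventually (h.and h1)).exists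
  exact h3 (sub_eq_zero.2 (mul_left_cancel₀ (pow_ne_zero n hp) h2))

/-- orders can be compared where a factor does not vanish along the axis -/
theorem le_of {p₀ : ℂ × ℂ} {e X Y : ℂ × ℂ → ℂ} {v n : ℕ}
    (he : ∀ p₁ : ℂ × ℂ, ∃ᶠ p in 𝓝 p₁, e p ≠ 0) (hec : Continuous e)
    (hX : ∀ᶠ p in 𝓝 p₀, ContinuousAt X p) (hY : ∀ᶠ p in 𝓝 p₀, ContinuousAt Y p)
    (h : ∀ᶠ p in 𝓝 p₀, e p ^ v * X p = e p ^ n * Y p) (hfr : ∃ᶠ p in 𝓝 p₀, e p = 0 ∧ X p ≠ 0) :
    n ≤ v := by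
  by_contra hlt
  push Not at hlt
  obtain ⟨p, ⟨h0, hne⟩, h1, h2, h3⟩ :=
    (hfr.and_eventually (h.eventually_nhds.and (hX.and hY))).exists
  refine hne ?_
  have h4 := div_eq (e := e) (n := v) (X := X) (Y := fun p => e p ^ (n - v) * Y p) (he p) h2
    ((hec.continuousAt.pow _).mul h3) (h1.mono fun q hq => by
      rw [hq, ← mul_assoc, ← pow_add, Nat.add_sub_cancel' hlt.le])
  rw [h4, h0, zero_pow (by omega), zero_mul]

/-! ### transfer -/

theorem th_of_wc {c c' : Ch T.m} {j j' : Fin T.d} {p p' : ℂ × ℂ}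
    (h : wc S c j p = wc S c' j' p') : T.th c (S.ζ c j) p = T.th c' (S.ζ c' j') p' := by
  have h0 := congrFun h 0
  have h1 := congrFun h 1
  have h2 := congrFun h 2
  simp only [wc, pt, Matrix.cons_val_zero, Matrix.cons_val_one, Matrix.cons_val] at h0 h1 h2
  have h3 : T.map c p = T.map c' p' := Prod.ext h1 h2
  unfold TB.th
  rw [h0, h3]

theorem f_th {c : Ch T.m} (hc : Ok S c) (j : Fin T.d) {p : ℂ × ℂ}
    (hp : p ∈ BD (2 * S.r c) (2 * S.r c)) : f (T.th c (S.ζ c j) p) = 0 :=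
  (S.sheets c hc.1).th_V j hp

theorem zc_zero {c : Ch T.m} : T.Zc c (0, 0) := by
  cases c with
  | edge i k k' => exact Or.inr rfl
  | leg i => rfl
  | vert i k w => rfl

/-- a kill is non zero on `{f = 0}` -/
theorem KC.freq {g : (Fin 3 → ℂ) → ℂ} {m : II U → ℕ} {c : Ch T.m}
    {j : Fin T.d} (h : KC L g m c j) (hc : Ok S c) :
    ∃ᶠ x in 𝓝 (0 : Fin 3 → ℂ), f x = 0 ∧ g x ≠ 0 := by
  by_contra hcon
  rw [Filter.not_frequently] at hcon
  have hr := S.pos c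
  have hp : ((0 : ℂ), (0 : ℂ)) ∈ BD (2 * S.r c) (2 * S.r c) := by
    constructor <;> simp only [norm_zero] <;> linarith
  have hth : T.th c (S.ζ c j) (0, 0) = 0 := ((S.sheets c hc.1).th_zero hc.1 j hp).2 zc_zero
  have hcont : Tendsto (T.th c (S.ζ c j)) (𝓝 (0, 0)) (𝓝 0) := by
    have := ((S.sheets c hc.1).th_an j hp).continuousAt.tendsto
    rwa [hth] at this
  refine h (fun _ => 0) continuousAt_const ?_ rfl
  filter_upwards [hcont.eventually hcon, (isOpen_BD _ _).mem_nhds hp] with p h1 h2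
  by_contra hne
  exact h1 ⟨f_th hc j h2, fun h3 => hne (by rw [h3]; simp)⟩

/-- the value at the centre of a vertex chart -/
theorem KC.val [Fintype (II U)] {g : (Fin 3 → ℂ) → ℂ} {m : II U → ℕ} {v : Vtx} (hv : v ∈ Vs T)
    {x : ℂ} {j : Fin T.d} (h : KC L g m (vc S v x) j) (hx : x ∉ sp T v) {E : II U}
    (hE : L.e1 (vc S v x) j = some E) {w : II U → ℕ} (hmw : m E ≤ w E) {G : ℂ × ℂ → ℂ}
    (hG : ContinuousAt G (0, 0))
    (hev : ∀ᶠ p in 𝓝 ((0 : ℂ), (0 : ℂ)), g (T.th (vc S v x) (S.ζ (vc S v x) j) p) =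
      p.1 ^ w E * G p) : w E = m E ∧ G (0, 0) ≠ 0 := by
  have hok : Ok S (vc S v x) := ok_vc hv hx
  have he2 : L.e2 (vc S v x) j = none := by
    have := L.v_e2 _ hok j
    simp only [vc, v2] at this
    exact Option.map_eq_none_iff.1 this
  have h1 := h (fun p => p.1 ^ (w E - m E) * G p) ((continuousAt_fst.pow _).mul hG) (by
    filter_upwards [hev] with p hp
    rw [hp, hE, he2]
    simp only [yn, Option.elim, pow_zero, mul_one]
    rw [← mul_assoc, ← pow_add, Nat.add_sub_cancel' hmw])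
  constructor
  · by_contra hne
    refine h1 ?_
    simp only
    rw [zero_pow (by omega), zero_mul]
  · exact right_ne_zero_of_mul h1

/-- **transfer**, first axis -/
theorem at1 [Fintype (II U)] (hR : RetStmt U) (hO : OrdStmt L) {c : Ch T.m} (hc : Ok S c)
    {j : Fin T.d} {b : ℂ} (hb : ‖b‖ ≤ S.r c) (hb0 : IsV c ∨ b ≠ 0) {E : II U}
    (hE : L.e1 c j = some E) : ∃ (x : ℂ) (j' : Fin T.d), x ∉ sp T E.1.1 ∧
      L.e1 (vc S E.1.1 x) j' = some E ∧ ∀ (g : (Fin 3 → ℂ) → ℂ) (m : II U → ℕ), AnalyticAt ℂ g 0 →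
        KC L g m (vc S E.1.1 x) j' → At L g m c j (0, b) := by
  obtain ⟨x, j', χ, u, h, hE', hwc⟩ := tra1 hR L hc j hb hb0 hE
  refine ⟨x, j', h.nsp, hE', fun g m hg hK H hH hev => ?_⟩
  have hok : Ok S (vc S E.1.1 x) := ok_vc E.1.2 h.nsp
  obtain ⟨w, -, hw⟩ := hO g hg (hK.freq hok)
  have hr := S.pos c
  have hr' := S.pos (vc S E.1.1 x)
  obtain ⟨G, hG, hGev, hG1, -⟩ := hw c hc j (0, b) (by simpa using hr.le) hb
    (Or.inl ⟨by rw [hE]; simp, rfl⟩)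
  obtain ⟨G₀, hG₀, hG₀ev, -, -⟩ := hw _ hok j' (0, 0) (by simpa using hr'.le) (by simpa using hr'.le)
    (Or.inl ⟨by rw [hE']; simp, rfl⟩)
  have he2 : L.e2 (vc S E.1.1 x) j' = none := by
    have := L.v_e2 _ hok j'
    simp only [vc, v2] at this
    exact Option.map_eq_none_iff.1 this
  simp only [hE, hE', he2, yn, Option.elim, pow_zero, mul_one] at hGev hG₀ev hev
  -- the other factor
  set a₂ : ℕ := yn w (L.e2 c j) with ha₂
  set b₂ : ℕ := yn m (L.e2 c j) with hb₂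
  have hb2 : b ≠ 0 ∨ (a₂ = 0 ∧ b₂ = 0) := by
    rcases hb0 with hV | hb0
    · right
      have h1 : L.e2 c j = none := by
        have := L.v_e2 c hc j
        cases c with
        | edge i k k' => exact absurd hV (by simp [IsV])
        | leg i => exact absurd hV (by simp [IsV])
        | vert i k w => exact Option.map_eq_none_iff.1 this
      simp [ha₂, hb₂, h1, yn]
    · exact Or.inl hb0
  have hmw : m E ≤ w E := by
    refine le_of (p₀ := ((0 : ℂ), b)) (e := Prod.fst) (X := fun p => p.2 ^ a₂ * G p)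
      (Y := fun p => p.2 ^ b₂ * H p) fst_freq continuous_fst ?_ ?_ ?_ ?_
    · exact hG.eventually_analyticAt.mono fun p hp => (continuousAt_snd.pow _).mul hp.continuousAt
    · exact hH.eventually_analyticAt.mono fun p hp => (continuousAt_snd.pow _).mul hp.continuousAt
    · filter_upwards [hGev, hev] with p h1 h2
      have h1' : g (T.th c (S.ζ c j) p) = p.1 ^ w E * p.2 ^ a₂ * G p := h1
      have h2' : g (T.th c (S.ζ c j) p) = p.1 ^ m E * p.2 ^ b₂ * H p := h2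
      rw [← mul_assoc, ← mul_assoc, ← h1', ← h2']
    · have h1 := (hG1 rfl E hE).1
      have h2 : Tendsto (fun z : ℂ => ((0 : ℂ), z)) (𝓝 b) (𝓝 ((0 : ℂ), b)) :=
        (by fun_prop : Continuous fun z : ℂ => ((0 : ℂ), z)).tendsto b
      refine h2.frequently ?_
      have h3 : ∀ᶠ z in 𝓝 b, z ^ a₂ ≠ 0 := by
        rcases hb2 with hb2 | hb2
        · exact (continuousAt_id.eventually_ne hb2).mono fun z hz => pow_ne_zero _ hz
        · exact Eventually.of_forall fun z => by rw [hb2.1, pow_zero]; exact one_ne_zero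
      exact (h1.and_eventually h3).mono fun z hz => ⟨rfl, mul_ne_zero hz.2 hz.1⟩
  have hG₀ev' : ∀ᶠ p in 𝓝 ((0 : ℂ), (0 : ℂ)),
      g (T.th (vc S E.1.1 x) (S.ζ (vc S E.1.1 x) j') p) = p.1 ^ w E * G₀ p := hG₀ev
  obtain ⟨hwm, hne⟩ := hK.val E.1.2 h.nsp hE' hmw hG₀.continuousAt hG₀ev'
  have hχ0 : Tendsto χ (𝓝 ((0 : ℂ), b)) (𝓝 (0, 0)) := by
    have := h.an.continuousAt.tendsto
    rwa [h.zero] at this
  have hχc : ContinuousAt (fun p => G₀ (χ p)) ((0 : ℂ), b) := by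
    have h1 : ContinuousAt G₀ (χ ((0 : ℂ), b)) := by rw [h.zero]; exact hG₀.continuousAt
    exact ContinuousAt.comp (f := χ) (g := G₀) h1 h.an.continuousAt
  have key := div_eq (p₀ := ((0 : ℂ), b)) (e := Prod.fst) (n := m E) (X := fun p => p.2 ^ b₂ * H p)
    (Y := fun p => u p ^ m E * G₀ (χ p)) (fst_freq _) ((continuousAt_snd.pow _).mul hH.continuousAt)
    ((h.uan.continuousAt.pow _).mul hχc) (by
      filter_upwards [hev, hχ0.eventually hG₀ev', hwc, h.fst] with p h1 h2 h3 h4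
      have h1' : g (T.th c (S.ζ c j) p) = p.1 ^ m E * p.2 ^ b₂ * H p := h1
      rw [← mul_assoc, ← h1', th_of_wc h3, h2, hwm, h4]
      ring)
  intro hH0
  have h5 : (u ((0 : ℂ), b)) ^ m E * G₀ (χ ((0 : ℂ), b)) = 0 := by
    rw [← key, hH0, mul_zero]
  rw [h.zero] at h5
  exact mul_ne_zero (pow_ne_zero _ h.une) hne h5

/-- **transfer**, second axis -/
theorem at2 [Fintype (II U)] (hR : RetStmt U) (hO : OrdStmt L) {c : Ch T.m} (hc : Ok S c)
    {j : Fin T.d} {a : ℂ} (ha : ‖a‖ ≤ S.r c) (ha0 : a ≠ 0) {E : II U}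
    (hE : L.e2 c j = some E) : ∃ (x : ℂ) (j' : Fin T.d), x ∉ sp T E.1.1 ∧
      L.e1 (vc S E.1.1 x) j' = some E ∧ ∀ (g : (Fin 3 → ℂ) → ℂ) (m : II U → ℕ), AnalyticAt ℂ g 0 →
        KC L g m (vc S E.1.1 x) j' → At L g m c j (a, 0) := by
  obtain ⟨x, j', χ, u, h, hE', hwc⟩ := tra2 hR L hc j ha ha0 hE
  refine ⟨x, j', h.nsp, hE', fun g m hg hK H hH hev => ?_⟩
  have hok : Ok S (vc S E.1.1 x) := ok_vc E.1.2 h.nsp
  obtain ⟨w, -, hw⟩ := hO g hg (hK.freq hok)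
  have hr := S.pos c
  have hr' := S.pos (vc S E.1.1 x)
  obtain ⟨G, hG, hGev, -, hG1⟩ := hw c hc j (a, 0) ha (by simpa using hr.le)
    (Or.inr ⟨by rw [hE]; simp, rfl⟩)
  obtain ⟨G₀, hG₀, hG₀ev, -, -⟩ := hw _ hok j' (0, 0) (by simpa using hr'.le) (by simpa using hr'.le)
    (Or.inl ⟨by rw [hE']; simp, rfl⟩)
  have he2 : L.e2 (vc S E.1.1 x) j' = none := by
    have := L.v_e2 _ hok j'
    simp only [vc, v2] at this
    exact Option.map_eq_none_iff.1 this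
  simp only [hE, hE', he2, yn, Option.elim, pow_zero, mul_one] at hGev hG₀ev hev
  set a₂ : ℕ := yn w (L.e1 c j) with ha₂
  set b₂ : ℕ := yn m (L.e1 c j) with hb₂
  have hmw : m E ≤ w E := by
    refine le_of (p₀ := (a, (0 : ℂ))) (e := Prod.snd) (X := fun p => p.1 ^ a₂ * G p)
      (Y := fun p => p.1 ^ b₂ * H p) snd_freq continuous_snd ?_ ?_ ?_ ?_
    · exact hG.eventually_analyticAt.mono fun p hp => (continuousAt_fst.pow _).mul hp.continuousAt
    · exact hH.eventually_analyticAt.mono fun p hp => (continuousAt_fst.pow _).mul hp.continuousAt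
    · filter_upwards [hGev, hev] with p h1 h2
      have h1' : g (T.th c (S.ζ c j) p) = p.1 ^ a₂ * p.2 ^ w E * G p := h1
      have h2' : g (T.th c (S.ζ c j) p) = p.1 ^ b₂ * p.2 ^ m E * H p := h2
      calc p.2 ^ w E * (p.1 ^ a₂ * G p) = p.1 ^ a₂ * p.2 ^ w E * G p := by ring
        _ = p.1 ^ b₂ * p.2 ^ m E * H p := by rw [← h1', ← h2']
        _ = p.2 ^ m E * (p.1 ^ b₂ * H p) := by ring
    · have h1 := (hG1 rfl E hE).1
      have h2 : Tendsto (fun z : ℂ => (z, (0 : ℂ))) (𝓝 a) (𝓝 (a, (0 : ℂ))) :=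
        (by fun_prop : Continuous fun z : ℂ => (z, (0 : ℂ))).tendsto a
      refine h2.frequently ?_
      have h3 : ∀ᶠ z in 𝓝 a, z ^ a₂ ≠ 0 :=
        (continuousAt_id.eventually_ne ha0).mono fun z hz => pow_ne_zero _ hz
      exact (h1.and_eventually h3).mono fun z hz => ⟨rfl, mul_ne_zero hz.2 hz.1⟩
  have hG₀ev' : ∀ᶠ p in 𝓝 ((0 : ℂ), (0 : ℂ)),
      g (T.th (vc S E.1.1 x) (S.ζ (vc S E.1.1 x) j') p) = p.1 ^ w E * G₀ p := hG₀ev
  obtain ⟨hwm, hne⟩ := hK.val E.1.2 h.nsp hE' hmw hG₀.continuousAt hG₀ev'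
  have hχ0 : Tendsto χ (𝓝 (a, (0 : ℂ))) (𝓝 (0, 0)) := by
    have := h.an.continuousAt.tendsto
    rwa [h.zero] at this
  have hχc : ContinuousAt (fun p => G₀ (χ p)) (a, (0 : ℂ)) := by
    have h1 : ContinuousAt G₀ (χ (a, (0 : ℂ))) := by rw [h.zero]; exact hG₀.continuousAt
    exact ContinuousAt.comp (f := χ) (g := G₀) h1 h.an.continuousAt
  have key := div_eq (p₀ := (a, (0 : ℂ))) (e := Prod.snd) (n := m E) (X := fun p => p.1 ^ b₂ * H p)
    (Y := fun p => u p ^ m E * G₀ (χ p)) (snd_freq _) ((continuousAt_fst.pow _).mul hH.continuousAt)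
    ((h.uan.continuousAt.pow _).mul hχc) (by
      filter_upwards [hev, hχ0.eventually hG₀ev', hwc, h.fst] with p h1 h2 h3 h4
      have h1' : g (T.th c (S.ζ c j) p) = p.1 ^ b₂ * p.2 ^ m E * H p := h1
      calc p.2 ^ m E * (p.1 ^ b₂ * H p) = p.1 ^ b₂ * p.2 ^ m E * H p := by ring
        _ = p.2 ^ m E * (u p ^ m E * G₀ (χ p)) := by
            rw [← h1', th_of_wc h3, h2, hwm, h4]; ring)
  intro hH0
  have h5 : (u (a, (0 : ℂ))) ^ m E * G₀ (χ (a, (0 : ℂ))) = 0 := by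
    rw [← key, hH0, mul_zero]
  rw [h.zero] at h5
  exact mul_ne_zero (pow_ne_zero _ h.une) hne h5

end Crest.Agent.R257.ExG_121
end
end

-- ▼ part R257/ExH_121
section

/-!
Row 257 (S0395), C-EXT (helper121): **`ExP` and `ExE` for the frame `D.fr`**.
-/

set_option autoImplicit false
set_option linter.unusedSectionVars false

open Polynomial Set Filter Topology Metric
open Crest.AlgGeometry.Germ Crest.Agent.R257.AJ387 Crest.Agent.R257.T387
open Crest.Agent.R257.Defs_219 Crest.Agent.R257.Gr1_157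
open Crest.Agent.R257.BP_258 Crest.Agent.R257.Rot1_558 Crest.Agent.R257.Vt1_558
open Crest.Agent.R257.Vt3_558 Crest.Agent.R257.Tr_121
open Crest.Agent.R257.Tb_941 Crest.Agent.R257.Tb3_941
open Crest.Agent.R257.FrBP_808 Crest.Agent.R257.ExF_121 Crest.Agent.R257.ExG_121
open Crest.Agent.R257.KiD_121

noncomputable section

namespace Crest.Agent.R257.ExH_121

variable {f : (Fin 3 → ℂ) → ℂ} {T : TB f} {U : Tub T} {S : Sh T} {L : Lab U S}
  {nu : II U → ℤ} {n1 n2 : Ch T.m → Fin T.d → ℤ} [Fintype (II U)] {D : FrIn L nu n1 n2}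

/-! ### scaling -/

/-- the inverse of `T.sg` -/
def gs (T : TB f) (c : Ch T.m) (R : ℝ) (q : ℂ × ℂ) : ℂ × ℂ :=
  if T.IsTop c then ((R : ℂ)⁻¹ * q.2, (R : ℂ)⁻¹ * q.1) else ((R : ℂ)⁻¹ * q.1, (R : ℂ)⁻¹ * q.2)

theorem gs_an (c : Ch T.m) (R : ℝ) (q : ℂ × ℂ) : AnalyticAt ℂ (gs T c R) q := by
  unfold gs
  by_cases ht : T.IsTop c
  · simp only [if_pos ht]
    exact (analyticAt_const.mul analyticAt_snd).prod (analyticAt_const.mul analyticAt_fst)
  · simp only [if_neg ht]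
    exact (analyticAt_const.mul analyticAt_fst).prod (analyticAt_const.mul analyticAt_snd)

theorem gs_sg (c : Ch T.m) {R : ℝ} (hR : 0 < R) (p : ℂ × ℂ) : gs T c R (T.sg c R p) = p := by
  have hR' : (R : ℂ) ≠ 0 := by exact_mod_cast hR.ne'
  unfold gs TB.sg
  split_ifs <;> simp [hR']

theorem sg_gs (c : Ch T.m) {R : ℝ} (hR : 0 < R) (p : ℂ × ℂ) : T.sg c R (gs T c R p) = p := by
  have hR' : (R : ℂ) ≠ 0 := by exact_mod_cast hR.ne'
  unfold gs TB.sg
  split_ifs <;> simp [hR']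

theorem sg_an (c : Ch T.m) (R : ℝ) (p : ℂ × ℂ) : AnalyticAt ℂ (T.sg c R) p := by
  have h1 : T.sg c R = fun p => T.sgL c R p := by funext p; rw [T.sgL_apply]
  rw [h1]
  exact (T.sgL c R).analyticAt p

theorem l1_iU (a : D.K) : l1 L (D.ch a) (D.sh a) = some (iU (D.fr.e1 a)) := D.e1_spec a

theorem yn_l1 {mt : II U → ℕ} {m : D.fr.I → ℕ} (hm : ∀ i : D.fr.I, mt (iU i) = m i) (a : D.K) :
    yn mt (l1 L (D.ch a) (D.sh a)) = m (D.fr.e1 a) := by
  rw [l1_iU, ← hm]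
  rfl

theorem yn_l2 {mt : II U → ℕ} {m : D.fr.I → ℕ} (hm : ∀ i : D.fr.I, mt (iU i) = m i) (a : D.K) :
    yn mt (l2 L (D.ch a) (D.sh a)) = Fr_808.ex2 m (D.fr.e2 a) := by
  show _ = Fr_808.ex2 m (D.e2 a)
  cases h : D.e2 a with
  | none => rw [D.e2_none h]; rfl
  | some E =>
    rw [D.e2_some h]
    exact hm E

theorem l2_iU {a : D.K} {i : D.fr.I} (h : D.fr.e2 a = some i) :
    l2 L (D.ch a) (D.sh a) = some (iU i) := D.e2_some h

/-- from a chart to the frame -/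
theorem fac_of_at {g : (Fin 3 → ℂ) → ℂ} {mt : II U → ℕ} {m : D.fr.I → ℕ}
    (hm : ∀ i : D.fr.I, mt (iU i) = m i) {a : D.K} {p₀ : ℂ × ℂ}
    (h : At L g mt (D.ch a) (D.sh a) (T.sg (D.ch a) (S.r (D.ch a)) p₀)) :
    ∀ H, D.fr.Fac g m a p₀ H → H p₀ ≠ 0 := by
  rintro H ⟨hH, hev⟩ h0
  set c := D.ch a with hc
  set j := D.sh a with hj
  set R := S.r c with hRdef
  have hR : 0 < R := S.pos c
  set q₀ := T.sg c R p₀ with hq₀
  have hgq : gs T c R q₀ = p₀ := gs_sg c hR p₀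
  set A : ℕ := m (D.fr.e1 a) with hA
  set B : ℕ := Fr_808.ex2 m (D.fr.e2 a) with hB
  have hHan : AnalyticAt ℂ (fun q => (R : ℂ)⁻¹ ^ A * (R : ℂ)⁻¹ ^ B * H (gs T c R q)) q₀ := by
    refine analyticAt_const.mul (AnalyticAt.comp (g := H) (f := gs T c R) ?_ (gs_an c R q₀))
    rw [hgq]; exact hH
  refine h _ hHan ?_ (by simp only [hgq, h0, mul_zero])
  have htd : Tendsto (gs T c R) (𝓝 q₀) (𝓝 p₀) := by
    have := (gs_an c R q₀).continuousAt.tendsto
    rwa [hgq] at this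
  filter_upwards [htd.eventually hev] with q hq
  have h1 : D.fr.th a (gs T c R q) = T.th c (S.ζ c j) q := by
    show T.thS c R (S.ζ c j) (gs T c R q) = _
    unfold TB.thS
    rw [sg_gs c hR]
  have h2 : D.fr.mo m a (gs T c R q) = (gs T c R q).1 ^ A * (gs T c R q).2 ^ B := rfl
  rw [h1, h2] at hq
  rw [hq]
  have hl1 := yn_l1 hm a
  have hl2 := yn_l2 hm a
  rw [← hc, ← hj] at hl1 hl2
  by_cases ht : T.IsTop c
  · rw [l1_top ht] at hl1
    rw [l2_top ht] at hl2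
    have he1 : L.e1 c j = none := e1_top (D.okK a) ht j
    rw [he1, hl1]
    have hB0 : B = 0 := hl2.symm
    have hgs : gs T c R q = ((R : ℂ)⁻¹ * q.2, (R : ℂ)⁻¹ * q.1) := if_pos ht
    rw [hgs, hB0, ← hA]
    simp only [yn, Option.elim, pow_zero, mul_one, one_mul]
    rw [mul_pow]; ring
  · rw [l1_not ht] at hl1
    rw [l2_not ht] at hl2
    rw [hl1, hl2]
    have hgs : gs T c R q = ((R : ℂ)⁻¹ * q.1, (R : ℂ)⁻¹ * q.2) := if_neg ht
    rw [hgs, ← hA, ← hB]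
    simp only
    rw [mul_pow, mul_pow]; ring

/-- orders -/
theorem lo_of {g : (Fin 3 → ℂ) → ℂ} {r : II U → ℝ}
    (h : ∀ c, Ok S c → IsV c → ∀ (j : Fin T.d) (E : II U), L.e1 c j = some E → ∀ z : ℂ,
      ‖z‖ < S.r c → ∃ (n : ℕ) (H : ℂ × ℂ → ℂ), r E < n ∧ AnalyticAt ℂ H (0, z) ∧
        ∀ᶠ p in 𝓝 ((0 : ℂ), z), g (T.th c (S.ζ c j) p) = p.1 ^ n * H p) (i : D.fr.I) :
    Ex_121.Lo D.fr g i (r (iU i)) := by
  obtain ⟨c, hc, hV, j, hj⟩ := D.vert (iU i)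
  have hR : 0 < S.r c := S.pos c
  let a : D.K := D.mkK hc j (Or.inl hj) (iU_mem D i)
  have ht : ¬ T.IsTop c := not_top_of_V hV
  refine ⟨a, ?_, ?_⟩
  · have h1 : ((D.e1 a : D.I0) : II U) = iU i := D.e1_of (by
      show l1 L c j = _
      rw [l1_not ht]; exact hj)
    exact Subtype.ext h1
  · have h0 : ∀ᶠ z in 𝓝[≠] (0 : ℂ), ‖z‖ < 1 := by
      have : ∀ᶠ z in 𝓝 (0 : ℂ), ‖z‖ < 1 :=
        continuous_norm.continuousAt.eventually (gt_mem_nhds (by simp))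
      exact this.filter_mono nhdsWithin_le_nhds
    refine h0.frequently.mono fun z hz => ?_
    obtain ⟨n, H, hn, hH, hev⟩ := h c (D.ok c hc) hV j (iU i) hj ((S.r c : ℂ) * z) (by
      rw [norm_mul, Complex.norm_real, Real.norm_of_nonneg hR.le]
      exact mul_lt_of_lt_one_right hR hz)
    have hsg : ∀ p, T.sg c (S.r c) p = ((S.r c : ℂ) * p.1, (S.r c : ℂ) * p.2) := fun p => if_neg ht
    have hsg0 : T.sg c (S.r c) (0, z) = (0, (S.r c : ℂ) * z) := by rw [hsg]; simp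
    have htd : Tendsto (T.sg c (S.r c)) (𝓝 ((0 : ℂ), z)) (𝓝 ((0 : ℂ), (S.r c : ℂ) * z)) := by
      have := (sg_an (T := T) c (S.r c) ((0 : ℂ), z)).continuousAt.tendsto
      rwa [hsg0] at this
    refine ⟨n, fun p => (S.r c : ℂ) ^ n * H (T.sg c (S.r c) p), hn, ?_, ?_⟩
    · refine continuousAt_const.mul (ContinuousAt.comp (g := H) (f := T.sg c (S.r c)) ?_
        (sg_an (T := T) c (S.r c) ((0 : ℂ), z)).continuousAt)
      rw [hsg0]; exact hH.continuousAt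
    · filter_upwards [htd.eventually hev] with p hp
      have h1 : D.fr.th a p = T.th c (S.ζ c j) (T.sg c (S.r c) p) := rfl
      rw [h1, hp, hsg]
      simp only
      rw [mul_pow]; ring

end Crest.Agent.R257.ExH_121
end
end

-- ▼ part R257/ExI_121

/-!
Row 257 (S0395), C-EXT (helper121): **`ExP` and `ExE` for the frame `D.fr`**, from `KillBPStmt` and
`KOrbStmt`.
-/

set_option autoImplicit false
set_option linter.unusedSectionVars false

open Polynomial Set Filter Topology Metric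
open Crest.AlgGeometry.Germ Crest.Agent.R257.AJ387 Crest.Agent.R257.T387
open Crest.Agent.R257.Defs_219 Crest.Agent.R257.Gr1_157
open Crest.Agent.R257.BP_258 Crest.Agent.R257.Rot1_558 Crest.Agent.R257.Vt1_558
open Crest.Agent.R257.Vt3_558 Crest.Agent.R257.Tr_121
open Crest.Agent.R257.Tb_941 Crest.Agent.R257.Tb3_941
open Crest.Agent.R257.FrBP_808 Crest.Agent.R257.ExF_121 Crest.Agent.R257.ExG_121
open Crest.Agent.R257.KiD_121 Crest.Agent.R257.ExH_121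

noncomputable section

namespace Crest.Agent.R257.ExI_121

variable {f : (Fin 3 → ℂ) → ℂ} {T : TB f} {U : Tub T} {S : Sh T} {L : Lab U S}
  {nu : II U → ℤ} {n1 n2 : Ch T.m → Fin T.d → ℤ} [Fintype (II U)] (D : FrIn L nu n1 n2)
  (hG : GalPt T) (hR : RetStmt U)

theorem Dv_pos : 0 < Dv T := Nat.mul_pos T.N_pos (Nat.mul_pos T.M_pos (Nat.factorial_pos _))

/-- the function of an orbit -/
def onO (o : Option D.fr.I) (t : ℝ) (j : D.fr.I) : ℝ :=
  o.elim 0 fun i => Ex_121.on (Ex_121.orb (GG D hG) i) t j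

variable {D hG}

theorem on_inv (i : D.fr.I) (t : ℝ) :
    Ex_121.Inv (GG D hG) (Ex_121.on (Ex_121.orb (GG D hG) i) t) := by
  intro σ hσ j
  have h1 : σ j ∈ Ex_121.orb (GG D hG) i ↔ j ∈ Ex_121.orb (GG D hG) i := by
    constructor
    · rintro ⟨τ, hτ, h⟩
      exact ⟨σ⁻¹ * τ, (GG D hG).mul_mem ((GG D hG).inv_mem hσ) hτ, by simp [h]⟩
    · rintro ⟨τ, hτ, rfl⟩
      exact ⟨σ * τ, (GG D hG).mul_mem hσ hτ, rfl⟩
  by_cases h : j ∈ Ex_121.orb (GG D hG) i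
  · rw [Ex_121.on_mem h, Ex_121.on_mem (h1.2 h)]
  · rw [Ex_121.on_notMem h, Ex_121.on_notMem fun h' => h (h1.1 h')]

theorem onO_inv (o : Option D.fr.I) (t : ℝ) : Ex_121.Inv (GG D hG) (onO D hG o t) := by
  cases o with
  | none => intro σ hσ j; rfl
  | some i => exact on_inv i t

theorem ex_add {y y' : D.fr.I → ℝ} (E : II U) :
    ex D hG (fun j => y j + y' j) (fun _ => 0) E =
      ex D hG y (fun _ => 0) E + ex D hG y' (fun _ => 0) E := by
  unfold ExF_121.ex ExF_121.ext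
  split_ifs <;> simp

theorem onO_ex (o : Option D.fr.I) (t : ℝ) (E : II U) :
    t * exo hG hR (o.map iU) E = ex D hG (onO D hG o t) (fun _ => 0) E := by
  cases o with
  | none =>
    show t * exo hG hR none E = _
    rw [exo_none, mul_zero]
    unfold ExF_121.ex ExF_121.ext
    split_ifs <;> rfl
  | some i => exact exo_eq hR i t E

variable {hR}

/-- one kill -/
theorem kill_step (hK : KillBPStmt hG hR L nu n1 n2) (hOrb : KOrbStmt U) {c₀ : Ch T.m}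
    (hc₀ : Ok S c₀) (j₀ : Fin T.d) {a b : ℕ} (ha : 0 < a) (hb : 0 < b)
    (hab : (a = 1 ∧ b = 1) ∨ (L.e1 c₀ j₀ ≠ none ∧ L.e2 c₀ j₀ ≠ none)) {m : D.fr.I → ℕ}
    {y : D.fr.I → ℝ} (hmD : ∀ i, Dv T ∣ m i) (hm : Ex_121.Inv (GG D hG) m)
    (hy : Ex_121.Inv (GG D hG) y) (hlt : ∀ j, y j + D.fr.nu j < m j) {t : ℝ} (ht : 0 < t)
    {o1 o2 : Option D.fr.I} (h1 : L.e1 c₀ j₀ = o1.map iU) (h2 : L.e2 c₀ j₀ = o2.map iU)
    (hle : (a : ℝ) * Fr_808.ex2 m o1 + b * Fr_808.ex2 m o2 ≤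
      a * (o1.elim 0 y + n1 c₀ j₀) + b * (o2.elim 0 y + n2 c₀ j₀) + a * b * t)
    (hdg : ∀ j, dg D.fr.M y j + (onO D hG o1 ((T.N * T.d : ℕ) * t * a) j +
      onO D hG o2 ((T.N * T.d : ℕ) * t * b) j) < 0) :
    ∃ (g : (Fin 3 → ℂ) → ℂ) (mt : II U → ℕ), AnalyticAt ℂ g 0 ∧ (∀ i : D.fr.I, mt (iU i) = m i) ∧
      (∀ i, Ex_121.Lo D.fr g i (y i + D.fr.nu i)) ∧ KC L g mt c₀ j₀ := by
  obtain ⟨mt, yt, k1, k2, k3, k4, k5, k6, k7⟩ := exists_ext D hG (Dv_pos (T := T)) hmD hm hy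
  obtain ⟨κ, hκ⟩ := hOrb hG hR S L c₀ hc₀ j₀
  have hynm : ∀ o : Option D.fr.I, yn mt (o.map iU) = Fr_808.ex2 m o := by
    intro o
    cases o with
    | none => rfl
    | some i => exact k4 i
  have hyoy : ∀ o : Option D.fr.I, yo yt (o.map iU) = o.elim 0 y := by
    intro o
    cases o with
    | none => rfl
    | some i => exact k5 i
  have hall : ∀ E, yt E + nu E < mt E := by
    refine ex_all (D := D) (hG := hG) (fun γ E h => ?_) (fun i => ?_) k6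
    · rwa [k2, k3, nu_piH D] at h
    · rw [k4, k5]; exact hlt i
  obtain ⟨g, hg, g1, g2⟩ := hK c₀ hc₀ j₀ κ hκ a b ha hb hab mt yt k1
    (fun ξ hξ E => forall_pi (P := fun E' E => mt E' = mt E) hG hR k2 hξ E)
    (fun ξ hξ E => forall_pi (P := fun E' E => yt E' = yt E) hG hR k3 hξ E) hall t ht
    (by rw [h1, h2, hynm, hynm, hyoy, hyoy]; exact hle) (fun E => by
      have h3 := k7 (fun j => onO D hG o1 ((T.N * T.d : ℕ) * t * a) j +
        onO D hG o2 ((T.N * T.d : ℕ) * t * b) j) (fun σ hσ j => by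
          show _ + _ = _ + _
          rw [onO_inv o1 _ σ hσ j, onO_inv o2 _ σ hσ j]) hdg E
      rw [ex_add, ← onO_ex hR, ← onO_ex hR, ← h1, ← h2] at h3
      have e : (T.N * T.d : ℕ) * t * ((a : ℝ) * exo hG hR (L.e1 c₀ j₀) E +
          b * exo hG hR (L.e2 c₀ j₀) E) = (T.N * T.d : ℕ) * t * a * exo hG hR (L.e1 c₀ j₀) E +
          (T.N * T.d : ℕ) * t * b * exo hG hR (L.e2 c₀ j₀) E := by ring
      rw [e]
      exact h3)
  refine ⟨g, mt, hg, k4, fun i => ?_, g2⟩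
  have h3 := lo_of (D := D) (r := fun E => yt E + nu E) g1 i
  simp only [k5] at h3
  exact h3

variable (D) in
/-- the bound -/
def NB : ℝ := 1 + ∑ c ∈ D.F, ∑ j, (|(n1 c j : ℝ)| + |(n2 c j : ℝ)|)

theorem NB_ge : 1 ≤ NB D := by
  unfold NB
  have : 0 ≤ ∑ c ∈ D.F, ∑ j, (|(n1 c j : ℝ)| + |(n2 c j : ℝ)|) :=
    Finset.sum_nonneg fun c _ => Finset.sum_nonneg fun j _ => by positivity
  linarith

theorem le_NB {c : Ch T.m} (hc : c ∈ D.F) (j : Fin T.d) :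
    |(n1 c j : ℝ)| + |(n2 c j : ℝ)| ≤ NB D := by
  have h1 : |(n1 c j : ℝ)| + |(n2 c j : ℝ)| ≤ ∑ j, (|(n1 c j : ℝ)| + |(n2 c j : ℝ)|) :=
    Finset.single_le_sum (f := fun j => |(n1 c j : ℝ)| + |(n2 c j : ℝ)|)
      (fun j _ => by positivity) (Finset.mem_univ j)
  have h2 : ∑ j, (|(n1 c j : ℝ)| + |(n2 c j : ℝ)|) ≤
      ∑ c ∈ D.F, ∑ j, (|(n1 c j : ℝ)| + |(n2 c j : ℝ)|) :=
    Finset.single_le_sum (f := fun c => ∑ j, (|(n1 c j : ℝ)| + |(n2 c j : ℝ)|))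
      (fun c _ => Finset.sum_nonneg fun j _ => by positivity) hc
  unfold NB
  linarith

theorem on_mono {A : Set D.fr.I} {t s : ℝ} (h : t ≤ s) (j : D.fr.I) :
    Ex_121.on A t j ≤ Ex_121.on A s j := by
  unfold Ex_121.on
  split_ifs
  · exact h
  · exact le_rfl

/-- a kill at a point of exactly one exceptional axis -/
theorem kill_pt (hK : KillBPStmt hG hR L nu n1 n2) (hOrb : KOrbStmt U) {c₀ : Ch T.m}
    (hc₀ : Ok S c₀) (j₀ : Fin T.d) {i : D.fr.I} {n : ℤ}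
    (hlab : (L.e1 c₀ j₀ = some (iU i) ∧ L.e2 c₀ j₀ = none ∧ n = n2 c₀ j₀) ∨
      (L.e1 c₀ j₀ = none ∧ L.e2 c₀ j₀ = some (iU i) ∧ n = n1 c₀ j₀)) (hn : n ≤ -1)
    (hnb : |(n : ℝ)| ≤ NB D) {m : D.fr.I → ℕ}
    {y : D.fr.I → ℝ} (hmD : ∀ i, Dv T ∣ m i) (hm : Ex_121.Inv (GG D hG) m)
    (hy : Ex_121.Inv (GG D hG) y) (hlt : ∀ j, y j + D.fr.nu j < m j)
    (hdg : ∀ j, dg D.fr.M y j + Ex_121.on (Ex_121.orb (GG D hG) i)
      (((T.N * T.d : ℕ) * NB D) * ((m i - D.fr.nu i - y i) + 1)) j < 0) :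
    ∃ (g : (Fin 3 → ℂ) → ℂ) (mt : II U → ℕ), AnalyticAt ℂ g 0 ∧ (∀ i : D.fr.I, mt (iU i) = m i) ∧
      (∀ i, Ex_121.Lo D.fr g i (y i + D.fr.nu i)) ∧ KC L g mt c₀ j₀ := by
  set z : ℝ := m i - D.fr.nu i - y i with hz
  have hz0 : 0 < z := by have := hlt i; rw [hz]; linarith
  have hnR : (n : ℝ) ≤ -1 := by exact_mod_cast hn
  have habs : |(n : ℝ)| = -n := abs_of_nonpos (by linarith)
  rw [habs] at hnb
  set t : ℝ := z - n with htdef
  have ht : 0 < t := by rw [htdef]; linarith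
  have hNd : (0 : ℝ) ≤ (T.N * T.d : ℕ) := Nat.cast_nonneg _
  have hNB := NB_ge (D := D)
  have hle : (T.N * T.d : ℕ) * t * ((1 : ℕ) : ℝ) ≤ ((T.N * T.d : ℕ) * NB D) * (z + 1) := by
    rw [Nat.cast_one, mul_one, mul_assoc]
    refine mul_le_mul_of_nonneg_left ?_ hNd
    rw [htdef]
    nlinarith
  rcases hlab with ⟨h1, h2, h3⟩ | ⟨h1, h2, h3⟩
  · have hn1 : (n1 c₀ j₀ : ℝ) = D.fr.nu i := by
      have := D.jac.some1 c₀ hc₀ j₀ _ h1
      rw [this]; rfl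
    refine kill_step hK hOrb hc₀ j₀ one_pos one_pos (Or.inl ⟨rfl, rfl⟩) hmD hm hy hlt ht
      (o1 := some i) (o2 := none) h1 h2 ?_ fun j => ?_
    · simp only [Fr_808.ex2, Option.elim]
      rw [hn1, htdef, hz, h3]
      push_cast
      linarith
    · have h4 := hdg j
      have h5 := on_mono (A := Ex_121.orb (GG D hG) i) hle j
      show _ + (Ex_121.on (Ex_121.orb (GG D hG) i) _ j + 0) < 0
      linarith
  · have hn1 : (n2 c₀ j₀ : ℝ) = D.fr.nu i := by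
      have := D.jac.some2 c₀ hc₀ j₀ _ h2
      rw [this]; rfl
    refine kill_step hK hOrb hc₀ j₀ one_pos one_pos (Or.inl ⟨rfl, rfl⟩) hmD hm hy hlt ht
      (o1 := none) (o2 := some i) h1 h2 ?_ fun j => ?_
    · simp only [Fr_808.ex2, Option.elim]
      rw [hn1, htdef, hz, h3]
      push_cast
      linarith
    · have h4 := hdg j
      have h5 := on_mono (A := Ex_121.orb (GG D hG) i) hle j
      show _ + (0 + Ex_121.on (Ex_121.orb (GG D hG) i) _ j) < 0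
      linarith

/-- the labels of a vertex chart -/
theorem vc_e2 {v : Vtx} (hv : v ∈ Vs T) {x : ℂ} (hx : x ∉ sp T v) (j : Fin T.d) :
    L.e2 (vc S v x) j = none := by
  have := L.v_e2 _ (ok_vc hv hx) j
  simp only [vc, v2] at this
  exact Option.map_eq_none_iff.1 this

/-- **`ExP`** -/
theorem exP (hK : KillBPStmt hG hR L nu n1 n2) (hOrb : KOrbStmt U) :
    Ex_121.ExP D.fr (GG D hG) ((T.N * T.d : ℕ) * NB D) (Dv T) := by
  intro c p₀ i hp₀ hcase m y hmD hm hy hlt hdg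
  set cc : Ch T.m := D.ch c with hcc
  set jj : Fin T.d := D.sh c with hjj
  have hok : Ok S cc := D.okK c
  have hccF : cc ∈ D.F := c.1.1.2
  have hR0 : 0 < S.r cc := S.pos cc
  have hRC : (S.r cc : ℂ) ≠ 0 := by exact_mod_cast hR0.ne'
  have hnrm : ∀ z : ℂ, ‖z‖ ≤ 1 → ‖(S.r cc : ℂ) * z‖ ≤ S.r cc := fun z hz => by
    rw [norm_mul, Complex.norm_real, Real.norm_of_nonneg hR0.le]
    exact mul_le_of_le_one_right hR0.le hz
  -- it is enough to kill at `(cc, jj, sg p₀)`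
  suffices hs : ∃ (g : (Fin 3 → ℂ) → ℂ) (mt : II U → ℕ), AnalyticAt ℂ g 0 ∧
      (∀ i : D.fr.I, mt (iU i) = m i) ∧ (∀ i, Ex_121.Lo D.fr g i (y i + D.fr.nu i)) ∧
      At L g mt cc jj (T.sg cc (S.r cc) p₀) by
    obtain ⟨g, mt, hg, hmt, hlo, hat⟩ := hs
    exact ⟨g, hg, hlo, fac_of_at hmt hat⟩
  -- interior points
  have hint : ∀ {q₀ : ℂ × ℂ}, (∃ (x : ℂ) (j' : Fin T.d), x ∉ sp T (iU i).1.1 ∧
      L.e1 (vc S (iU i).1.1 x) j' = some (iU i) ∧ ∀ (g : (Fin 3 → ℂ) → ℂ) (m : II U → ℕ),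
        AnalyticAt ℂ g 0 → KC L g m (vc S (iU i).1.1 x) j' → At L g m cc jj q₀) →
      ∃ (g : (Fin 3 → ℂ) → ℂ) (mt : II U → ℕ), AnalyticAt ℂ g 0 ∧
        (∀ i : D.fr.I, mt (iU i) = m i) ∧ (∀ i, Ex_121.Lo D.fr g i (y i + D.fr.nu i)) ∧
        At L g mt cc jj q₀ := by
    rintro q₀ ⟨x, j', hx, hE, htr⟩
    have hv : (iU i).1.1 ∈ Vs T := (iU i).1.2
    have hokv := ok_vc (S := S) hv hx
    have hn2 : n2 (vc S (iU i).1.1 x) j' = -1 := D.jac.vert _ hokv trivial j'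
    obtain ⟨g, mt, hg, hmt, hlo, hkc⟩ := kill_pt hK hOrb hokv j' (i := i) (n := -1)
      (Or.inl ⟨hE, vc_e2 hv hx j', hn2.symm⟩) le_rfl (by
        have := NB_ge (D := D)
        push_cast
        rw [abs_neg, abs_one]; exact this) hmD hm hy hlt hdg
    exact ⟨g, mt, hg, hmt, hlo, htr g mt hg hkc⟩
  -- the origin of `cc`
  have horig : ∀ {n : ℤ}, ((L.e1 cc jj = some (iU i) ∧ L.e2 cc jj = none ∧ n = n2 cc jj) ∨
      (L.e1 cc jj = none ∧ L.e2 cc jj = some (iU i) ∧ n = n1 cc jj)) → n ≤ -1 →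
      |(n : ℝ)| ≤ NB D → ∃ (g : (Fin 3 → ℂ) → ℂ) (mt : II U → ℕ), AnalyticAt ℂ g 0 ∧
        (∀ i : D.fr.I, mt (iU i) = m i) ∧ (∀ i, Ex_121.Lo D.fr g i (y i + D.fr.nu i)) ∧
        At L g mt cc jj (0, 0) := by
    intro n h1 h2 h3
    obtain ⟨g, mt, hg, hmt, hlo, hkc⟩ := kill_pt hK hOrb hok jj h1 h2 h3 hmD hm hy hlt hdg
    exact ⟨g, mt, hg, hmt, hlo, hkc.at⟩
  by_cases ht : T.IsTop cc
  · have hsg : T.sg cc (S.r cc) p₀ = ((S.r cc : ℂ) * p₀.2, (S.r cc : ℂ) * p₀.1) := if_pos ht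
    rcases hcase with ⟨h1, h2, h3⟩ | ⟨h1, -, -⟩
    · have hl1 := l1_iU (D := D) c
      rw [← hcc, ← hjj, l1_top ht, h1] at hl1
      have he1 : L.e1 cc jj = none := e1_top hok ht jj
      rw [hsg, h2, mul_zero]
      by_cases hp2 : p₀.2 = 0
      · rw [hp2, mul_zero]
        refine horig (Or.inr ⟨he1, hl1, rfl⟩) (D.jac.none1 cc hok jj he1) ?_
        have := le_NB (D := D) hccF jj
        have h5 := abs_nonneg (n2 cc jj : ℝ)
        linarith
      · exact hint (at2 hR D.ord hok (hnrm _ hp₀.1.2) (mul_ne_zero hRC hp2) hl1)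
    · have hl2 := l2_iU (D := D) h1
      rw [← hcc, ← hjj, l2_top ht] at hl2
      exact absurd hl2 (by simp)
  · have hsg : T.sg cc (S.r cc) p₀ = ((S.r cc : ℂ) * p₀.1, (S.r cc : ℂ) * p₀.2) := if_neg ht
    rcases hcase with ⟨h1, h2, h3⟩ | ⟨h1, h2, h3⟩
    · have hl1 := l1_iU (D := D) c
      rw [← hcc, ← hjj, l1_not ht, h1] at hl1
      rw [hsg, h2, mul_zero]
      by_cases hp2 : IsV cc ∨ p₀.2 ≠ 0
      · exact hint (at1 hR D.ord hok (hnrm _ hp₀.1.2) (hp2.imp_right (mul_ne_zero hRC)) hl1)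
      · push Not at hp2
        have he2 : L.e2 cc jj = none := by
          have h4 : D.fr.e2 c = none := h3.resolve_right (by rw [hp2.2]; simp)
          have h5 : l2 L cc jj = none := D.e2_none h4
          rwa [l2_not ht] at h5
        rw [hp2.2, mul_zero]
        refine horig (Or.inl ⟨hl1, he2, rfl⟩) (D.jac.none2 cc hok jj he2) ?_
        have := le_NB (D := D) hccF jj
        have h5 := abs_nonneg (n1 cc jj : ℝ)
        linarith
    · have hl2 := l2_iU (D := D) h1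
      rw [← hcc, ← hjj, l2_not ht] at hl2
      rw [hsg, h2, mul_zero]
      exact hint (at2 hR D.ord hok (hnrm _ hp₀.1.1) (mul_ne_zero hRC h3) hl2)

/-- **`ExE`** -/
theorem exE (hK : KillBPStmt hG hR L nu n1 n2) (hOrb : KOrbStmt U) :
    Ex_121.ExE D.fr (GG D hG) ((T.N * T.d : ℕ) * NB D) (Dv T) := by
  intro c i i' h1 h2 a b ha hb hab m y hmD hm hy hlt hdg
  set cc : Ch T.m := D.ch c with hcc
  set jj : Fin T.d := D.sh c with hjj
  have hok : Ok S cc := D.okK c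
  have hl2 := l2_iU (D := D) h2
  have ht : ¬ T.IsTop cc := by
    intro ht
    rw [← hcc, ← hjj, l2_top ht] at hl2
    exact absurd hl2 (by simp)
  have hl1 := l1_iU (D := D) c
  rw [← hcc, ← hjj, l1_not ht, h1] at hl1
  rw [← hcc, ← hjj, l2_not ht] at hl2
  set z : ℝ := m i - D.fr.nu i - y i with hz
  set z' : ℝ := m i' - D.fr.nu i' - y i' with hz'
  have hz0 : 0 < z := by have := hlt i; rw [hz]; linarith
  have hz0' : 0 < z' := by have := hlt i'; rw [hz']; linarith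
  have haR : (0 : ℝ) < a := by exact_mod_cast ha
  have hbR : (0 : ℝ) < b := by exact_mod_cast hb
  set t : ℝ := (a * z + b * z') / (a * b) with htdef
  have hs0 : 0 < (a : ℝ) * z + b * z' := by positivity
  have ht0 : 0 < t := by rw [htdef]; positivity
  have hta : t * a = (a * z + b * z') / b := by rw [htdef]; field_simp
  have htb : t * b = (a * z + b * z') / a := by rw [htdef]; field_simp
  have hNd : (0 : ℝ) ≤ (T.N * T.d : ℕ) := Nat.cast_nonneg _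
  have hNB := NB_ge (D := D)
  have hNdB : ((T.N * T.d : ℕ) : ℝ) ≤ (T.N * T.d : ℕ) * NB D := le_mul_of_one_le_right hNd hNB
  have hn1 : (n1 cc jj : ℝ) = D.fr.nu i := by
    have := D.jac.some1 cc hok jj _ hl1
    rw [this]; rfl
  have hn2 : (n2 cc jj : ℝ) = D.fr.nu i' := by
    have := D.jac.some2 cc hok jj _ hl2
    rw [this]; rfl
  obtain ⟨g, mt, hg, hmt, hlo, hkc⟩ := kill_step hK hOrb hok jj ha hb
    (Or.inr ⟨by rw [hl1]; simp, by rw [hl2]; simp⟩) hmD hm hy hlt ht0 (o1 := some i)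
    (o2 := some i') hl1 hl2 (by
      simp only [Fr_808.ex2, Option.elim]
      rw [hn1, hn2]
      have e : (a : ℝ) * b * t = a * z + b * z' := by rw [htdef]; field_simp
      rw [e, hz, hz']
      linarith) (fun j => by
      have h4 := hdg j
      have e1 : (T.N * T.d : ℕ) * t * a ≤ (T.N * T.d : ℕ) * NB D * ((a * z + b * z') / b) := by
        rw [mul_assoc, hta]
        exact mul_le_mul_of_nonneg_right hNdB (div_nonneg hs0.le hbR.le)
      have e2 : (T.N * T.d : ℕ) * t * b ≤ (T.N * T.d : ℕ) * NB D * ((a * z + b * z') / a) := by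
        rw [mul_assoc, htb]
        exact mul_le_mul_of_nonneg_right hNdB (div_nonneg hs0.le haR.le)
      have h5 := on_mono (A := Ex_121.orb (GG D hG) i) e1 j
      have h6 := on_mono (A := Ex_121.orb (GG D hG) i') e2 j
      show _ + (Ex_121.on (Ex_121.orb (GG D hG) i) _ j +
        Ex_121.on (Ex_121.orb (GG D hG) i') _ j) < 0
      linarith)
  refine ⟨g, hg, hlo, fac_of_at (p₀ := (0, 0)) hmt ?_⟩
  have hsg : T.sg (D.ch c) (S.r (D.ch c)) (0, 0) = (0, 0) := by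
    unfold TB.sg
    split_ifs <;> simp
  rw [hsg]
  exact hkc.at

end Crest.Agent.R257.ExI_121
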