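import Crest.Agent.R276.Sub_185
import Crest.Agent.R266.SCV
import Crest.Agent.R102.Limits_151
import Crest.Agent.R271.Null_821
import Crest.Agent.R275.Loc2C_879

-- ▼ part R257/Sh1_297
section

/-!
# Row 257, leaf D-SH (helper297), part 1: sections of a holomorphic function of one variable and the
sub-mean value inequality for `‖G‖ ^ q / ‖f'‖ ^ 2` along the zeros of `f`.

* `Sec f W r z₀` : a holomorphic section `ζ` of `f` over the disc of radius `r`, `ζ 0 = z₀`;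
* `sec_le`  : `‖G z₀‖ ^ q / ‖f' z₀‖ ^ 2 * (π r²) ≤ ∫ over the image of ζ of ‖G‖ ^ q`;
* `tsum_sec_le` : the sum over all zeros in a set all of whose points have sections of radius `r`.
-/

set_option autoImplicit false

open MeasureTheory Set Metric Topology Filter
open scoped ENNReal Real

namespace Crest.Agent.R257.Sh_297

noncomputable section

/-- logarithm of a nowhere zero holomorphic function on a disc (as in R269/Brody3_164) -/
theorem exists_log_ball {c : ℂ → ℂ} {R : ℝ} (hR : 0 < R) (hc : DifferentiableOn ℂ c (ball 0 R))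
    (h0 : ∀ z ∈ ball (0 : ℂ) R, c z ≠ 0) :
    ∃ φ : ℂ → ℂ, DifferentiableOn ℂ φ (ball 0 R) ∧
      ∀ z ∈ ball (0 : ℂ) R, Complex.exp (φ z) = c z := by
  have hd : DifferentiableOn ℂ (fun z => deriv c z / c z) (ball 0 R) :=
    (hc.deriv isOpen_ball).div hc h0
  obtain ⟨g, hg⟩ := hd.isExactOn_ball
  have hgd : DifferentiableOn ℂ g (ball 0 R) := fun z hz =>
    (hg z hz).differentiableAt.differentiableWithinAt
  set q : ℂ → ℂ := fun z => c z * Complex.exp (- g z) with hq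
  have hqd : ∀ z ∈ ball (0 : ℂ) R, HasDerivAt q 0 z := by
    intro z hz
    have h1 : HasDerivAt c (deriv c z) z :=
      (hc.differentiableAt (isOpen_ball.mem_nhds hz)).hasDerivAt
    have h2 := h1.mul ((hg z hz).neg.cexp)
    refine h2.congr_deriv ?_
    have := h0 z hz
    field_simp
    ring
  have hqD : DifferentiableOn ℂ q (ball 0 R) := fun z hz =>
    (hqd z hz).differentiableAt.differentiableWithinAt
  have h0m : (0 : ℂ) ∈ ball (0 : ℂ) R := mem_ball_self hR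
  have hconst : ∀ z ∈ ball (0 : ℂ) R, q z = q 0 := fun z hz =>
    isOpen_ball.is_const_of_deriv_eq_zero (convex_ball (0 : ℂ) R).isPreconnected hqD
      (fun w hw => (hqd w hw).deriv) hz h0m
  have hq0 : q 0 ≠ 0 := mul_ne_zero (h0 0 h0m) (Complex.exp_ne_zero _)
  refine ⟨fun z => g z + Complex.log (q 0), hgd.add_const _, fun z hz => ?_⟩
  rw [Complex.exp_add, Complex.exp_log hq0, ← hconst z hz, hq]
  simp only
  rw [mul_comm, mul_assoc, ← Complex.exp_add, neg_add_cancel, Complex.exp_zero, mul_one]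

/-- a holomorphic section of `f` over the disc of radius `r`, with values in `W` -/
structure Sec (f : ℂ → ℂ) (W : Set ℂ) (r : ℝ) (z₀ : ℂ) where
  /-- the section -/
  ζ : ℂ → ℂ
  diff : DifferentiableOn ℂ ζ (ball 0 r)
  maps : MapsTo ζ (ball 0 r) W
  sec : ∀ s ∈ ball (0 : ℂ) r, f (ζ s) = s
  zero : ζ 0 = z₀

variable {f : ℂ → ℂ} {W : Set ℂ} {r : ℝ} {z₀ : ℂ}

/-- restriction to a smaller disc -/
def Sec.restr (S : Sec f W r z₀) {r' : ℝ} (h : r' ≤ r) : Sec f W r' z₀ where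
  ζ := S.ζ
  diff := S.diff.mono (ball_subset_ball h)
  maps := fun _ hs => S.maps (ball_subset_ball h hs)
  sec := fun s hs => S.sec s (ball_subset_ball h hs)
  zero := S.zero

/-- larger target -/
def Sec.mono (S : Sec f W r z₀) {W' : Set ℂ} (h : W ⊆ W') : Sec f W' r z₀ where
  ζ := S.ζ
  diff := S.diff
  maps := fun _ hs => h (S.maps hs)
  sec := S.sec
  zero := S.zero

lemma Sec.injOn (S : Sec f W r z₀) : InjOn S.ζ (ball 0 r) := by
  intro a ha b hb h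
  rw [← S.sec a ha, ← S.sec b hb, h]

lemma Sec.image_subset (S : Sec f W r z₀) : S.ζ '' ball 0 r ⊆ {w | w ∈ W ∧ ‖f w‖ < r} := by
  rintro _ ⟨s, hs, rfl⟩
  refine ⟨S.maps hs, ?_⟩
  rw [S.sec s hs]
  simpa using hs

lemma Sec.meas (S : Sec f W r z₀) : MeasurableSet (S.ζ '' ball 0 r) :=
  measurableSet_ball.image_of_continuousOn_injOn S.diff.continuousOn S.injOn

/-- chain rule -/
lemma Sec.deriv_mul (S : Sec f W r z₀) (hW : IsOpen W) (hf : DifferentiableOn ℂ f W) {s : ℂ}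
    (hs : s ∈ ball (0 : ℂ) r) : deriv f (S.ζ s) * deriv S.ζ s = 1 := by
  have h1 : HasDerivAt S.ζ (deriv S.ζ s) s :=
    (S.diff.differentiableAt (isOpen_ball.mem_nhds hs)).hasDerivAt
  have h2 : HasDerivAt f (deriv f (S.ζ s)) (S.ζ s) :=
    (hf.differentiableAt (hW.mem_nhds (S.maps hs))).hasDerivAt
  have h3 := h2.comp s h1
  have h4 : (f ∘ S.ζ) =ᶠ[𝓝 s] fun x => x := by
    filter_upwards [isOpen_ball.mem_nhds hs] with x hx using S.sec x hx
  have h5 : HasDerivAt (fun x : ℂ => x) (deriv f (S.ζ s) * deriv S.ζ s) s :=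
    h3.congr_of_eventuallyEq h4.symm
  exact h5.unique (hasDerivAt_id s)

lemma abs_det_eq {g : ℂ → ℂ} (x : ℂ) :
    |((ContinuousLinearMap.toSpanSingleton ℂ (deriv g x)).restrictScalars ℝ : ℂ →L[ℝ] ℂ).det| =
      ‖deriv g x‖ ^ 2 := by
  have h1 : ((ContinuousLinearMap.toSpanSingleton ℂ (deriv g x)).restrictScalars ℝ :
      ℂ →L[ℝ] ℂ).det = ‖deriv g x‖ ^ 2 := by
    simp [ContinuousLinearMap.det, LinearMap.det_restrictScalars, Algebra.norm_complex_eq,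
      Complex.normSq_eq_norm_sq]
  rw [h1, abs_of_nonneg (by positivity)]

/-- area formula for an injective holomorphic function of one variable -/
theorem area {g : ℂ → ℂ} {S : Set ℂ} (hS : IsOpen S) (hg : DifferentiableOn ℂ g S)
    (hi : InjOn g S) (u : ℂ → ℝ≥0∞) :
    ∫⁻ w in g '' S, u w = ∫⁻ s in S, ‖deriv g s‖ₑ ^ 2 * u (g s) := by
  rw [lintegral_image_eq_lintegral_abs_det_fderiv_mul volume hS.measurableSet
    (f' := fun x => (ContinuousLinearMap.toSpanSingleton ℂ (deriv g x)).restrictScalars ℝ) ?_ hi]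
  · refine lintegral_congr fun s => ?_
    rw [abs_det_eq, ENNReal.ofReal_pow (norm_nonneg _), ofReal_norm]
  · intro x hx
    have h1 := ((hg.differentiableAt (hS.mem_nhds hx)).hasDerivAt.hasFDerivAt).restrictScalars ℝ
    exact h1.hasFDerivWithinAt

/-- the sub-mean value inequality along a section -/
theorem sec_le (hr : 0 < r) (S : Sec f W r z₀) (hW : IsOpen W) (hf : DifferentiableOn ℂ f W)
    {G : ℂ → ℂ} (hG : DifferentiableOn ℂ G W) {q : ℝ} (hq : 0 < q) :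
    ‖G z₀‖ₑ ^ q / ‖deriv f z₀‖ₑ ^ 2 * volume (ball (0 : ℂ) r) ≤
      ∫⁻ w in S.ζ '' ball 0 r, ‖G w‖ₑ ^ q := by
  have h0 : (0 : ℂ) ∈ ball (0 : ℂ) r := mem_ball_self hr
  have hne : ∀ s ∈ ball (0 : ℂ) r, deriv S.ζ s ≠ 0 := by
    intro s hs h
    have := S.deriv_mul hW hf hs
    rw [h, mul_zero] at this
    exact zero_ne_one this
  obtain ⟨φ, hφ, hφe⟩ := exists_log_ball hr (S.diff.deriv isOpen_ball) hne
  set h : ℂ → ℂ := fun s => G (S.ζ s) * Complex.exp ((2 / q : ℝ) * φ s) with hh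
  have hd : DifferentiableOn ℂ h (ball 0 r) := by
    refine (hG.comp S.diff S.maps).mul ?_
    exact (hφ.const_mul _).cexp
  have hnorm : ∀ s ∈ ball (0 : ℂ) r, ‖h s‖ₑ ^ q = ‖deriv S.ζ s‖ₑ ^ 2 * ‖G (S.ζ s)‖ₑ ^ q := by
    intro s hs
    rw [hh]
    simp only
    rw [enorm_mul, ENNReal.mul_rpow_of_nonneg _ _ hq.le, mul_comm]
    congr 1
    have h1 : ‖Complex.exp ((2 / q : ℝ) * φ s)‖ = ‖deriv S.ζ s‖ ^ (2 / q) := by
      rw [← hφe s hs, Complex.norm_exp, Complex.norm_exp, ← Real.exp_mul]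
      congr 1
      rw [Complex.re_ofReal_mul, mul_comm]
    rw [← ofReal_norm, h1, ← ofReal_norm, ENNReal.ofReal_rpow_of_nonneg (by positivity) hq.le,
      ← Real.rpow_mul (norm_nonneg _), div_mul_cancel₀ _ hq.ne',
      ← ENNReal.ofReal_pow (norm_nonneg _)]
    norm_num
  have hm := R276.Sub_185.mul_measure_le (E := ℂ) volume isOpen_ball
    (balanced_ball_zero (r := r)) hd hq
  rw [hnorm 0 h0, S.zero] at hm
  rw [area isOpen_ball S.diff S.injOn]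
  calc ‖G z₀‖ₑ ^ q / ‖deriv f z₀‖ₑ ^ 2 * volume (ball (0 : ℂ) r)
      = ‖deriv S.ζ 0‖ₑ ^ 2 * ‖G z₀‖ₑ ^ q * volume (ball (0 : ℂ) r) := by
        congr 1
        have h2 := S.deriv_mul hW hf h0
        rw [S.zero] at h2
        have h3 : deriv S.ζ 0 = (deriv f z₀)⁻¹ := by
          rw [eq_comm, inv_eq_of_mul_eq_one_right h2]
        have h4 : deriv f z₀ ≠ 0 := left_ne_zero_of_mul_eq_one h2
        rw [h3, enorm_inv h4, ← ENNReal.inv_pow, div_eq_mul_inv, mul_comm]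
    _ ≤ ∫⁻ w in ball 0 r, ‖h w‖ₑ ^ q := hm
    _ = _ := setLIntegral_congr_fun measurableSet_ball hnorm

/-- two sections whose images meet are equal -/
theorem sec_unique (hW : IsOpen W) (hf : DifferentiableOn ℂ f W) {z₁ z₂ : ℂ}
    (S₁ : Sec f W r z₁) (S₂ : Sec f W r z₂)
    (h : ¬ Disjoint (S₁.ζ '' ball 0 r) (S₂.ζ '' ball 0 r)) : z₁ = z₂ := by
  rw [Set.not_disjoint_iff] at h
  obtain ⟨w, ⟨a, ha, haw⟩, ⟨b, hb, hbw⟩⟩ := h
  have hab : a = b := by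
    rw [← S₁.sec a ha, ← S₂.sec b hb, haw, hbw]
  subst hab
  have hr : 0 < r := pos_of_mem_ball ha
  have h0 : (0 : ℂ) ∈ ball (0 : ℂ) r := mem_ball_self hr
  have hf' : HasStrictDerivAt f (deriv f w) w := by
    have hwW : w ∈ W := haw ▸ S₁.maps ha
    exact (hf.analyticAt (hW.mem_nhds hwW)).hasStrictDerivAt
  have hne : deriv f w ≠ 0 := by
    have h2 := S₁.deriv_mul hW hf ha
    rw [haw] at h2
    exact left_ne_zero_of_mul_eq_one h2
  -- local injectivity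
  have hinj : ∃ U ∈ 𝓝 w, InjOn f U := by
    refine ⟨(hf'.hasStrictFDerivAt_equiv hne).toOpenPartialHomeomorph.source, ?_, ?_⟩
    · exact (hf'.hasStrictFDerivAt_equiv hne).toOpenPartialHomeomorph.open_source.mem_nhds
        (hf'.hasStrictFDerivAt_equiv hne).mem_toOpenPartialHomeomorph_source
    · have := (hf'.hasStrictFDerivAt_equiv hne).toOpenPartialHomeomorph.injOn
      simpa using this
  obtain ⟨U, hU, hUi⟩ := hinj
  have hc1 : ContinuousAt S₁.ζ a := (S₁.diff.differentiableAt (isOpen_ball.mem_nhds ha)).continuousAt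
  have hc2 : ContinuousAt S₂.ζ a := (S₂.diff.differentiableAt (isOpen_ball.mem_nhds ha)).continuousAt
  have hev : S₁.ζ =ᶠ[𝓝 a] S₂.ζ := by
    have e1 : ∀ᶠ s in 𝓝 a, S₁.ζ s ∈ U := hc1.eventually_mem (haw.symm ▸ hU)
    have e2 : ∀ᶠ s in 𝓝 a, S₂.ζ s ∈ U := hc2.eventually_mem (hbw.symm ▸ hU)
    filter_upwards [e1, e2, isOpen_ball.mem_nhds ha] with s h1 h2 h3
    exact hUi h1 h2 (by rw [S₁.sec s h3, S₂.sec s h3])
  have heq := (S₁.diff.analyticOnNhd isOpen_ball).eqOn_of_preconnected_of_eventuallyEq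
    (S₂.diff.analyticOnNhd isOpen_ball) (convex_ball (0 : ℂ) r).isPreconnected ha hev
  rw [← S₁.zero, ← S₂.zero]
  exact heq h0

/-- the sum over all points of `T`, if every point of `T` has a section of radius `r` -/
theorem tsum_sec_le (hr : 0 < r) (hW : IsOpen W) (hf : DifferentiableOn ℂ f W) (T : Set ℂ)
    (hT : ∀ z ∈ T, Nonempty (Sec f W r z)) {G : ℂ → ℂ} (hG : DifferentiableOn ℂ G W) {q : ℝ}
    (hq : 0 < q) :
    (∑' z : T, ‖G z‖ₑ ^ q / ‖deriv f z‖ₑ ^ 2) * volume (ball (0 : ℂ) r) ≤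
      ∫⁻ w in {w | w ∈ W ∧ ‖f w‖ < r}, ‖G w‖ₑ ^ q := by
  classical
  have S : ∀ z : T, Sec f W r z := fun z => (hT z z.2).some
  rw [← ENNReal.tsum_mul_right]
  rw [ENNReal.tsum_eq_iSup_sum]
  refine iSup_le fun A => ?_
  have h1 : ∀ z ∈ A, ‖G z‖ₑ ^ q / ‖deriv f z‖ₑ ^ 2 * volume (ball (0 : ℂ) r) ≤
      ∫⁻ w in (S z).ζ '' ball 0 r, ‖G w‖ₑ ^ q := fun z _ => sec_le hr (S z) hW hf hG hq
  refine (Finset.sum_le_sum h1).trans ?_
  rw [← lintegral_biUnion_finset]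
  · refine lintegral_mono_set ?_
    refine iUnion₂_subset fun z _ => ?_
    exact (S z).image_subset
  · intro z₁ _ z₂ _ h12
    by_contra hcon
    exact h12 (Subtype.ext (sec_unique hW hf (S z₁) (S z₂) hcon))
  · exact fun z _ => (S z).meas

end

end Crest.Agent.R257.Sh_297
end

-- ▼ part R257/Sh2_297
section

/-!
# Row 257, leaf D-SH (helper297), part 2: sections of `F (y, ·)`, uniformly in `y`
-/

set_option autoImplicit false
set_option linter.unusedSectionVars false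

open MeasureTheory Set Metric Topology Filter
open scoped ENNReal Real

namespace Crest.Agent.R257.Sh_297

noncomputable section

variable {Y : Type*} [NormedAddCommGroup Y] [NormedSpace ℂ Y] [CompleteSpace Y]

/-- the vertical derivative -/
def vd (F : Y × ℂ → ℂ) (p : Y × ℂ) : ℂ := deriv (fun z => F (p.1, z)) p.2

lemma vd_eq {F : Y × ℂ → ℂ} {p : Y × ℂ} (hF : DifferentiableAt ℂ F p) :
    vd F p = fderiv ℂ F p (0, 1) := by
  have h1 : HasDerivAt (fun z : ℂ => ((p.1, z) : Y × ℂ)) ((0, 1) : Y × ℂ) p.2 :=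
    (hasDerivAt_const p.2 p.1).prodMk (hasDerivAt_id p.2)
  have h2 : HasFDerivAt F (fderiv ℂ F p) ((fun z : ℂ => ((p.1, z) : Y × ℂ)) p.2) := hF.hasFDerivAt
  exact (h2.comp_hasDerivAt p.2 h1).deriv

lemma vd_analytic {F : Y × ℂ → ℂ} {Ω : Set (Y × ℂ)} (hΩ : IsOpen Ω) (hF : AnalyticOnNhd ℂ F Ω) :
    AnalyticOnNhd ℂ (vd F) Ω := by
  have h1 : AnalyticOnNhd ℂ (fun p => fderiv ℂ F p ((0, 1) : Y × ℂ)) Ω := fun p hp =>
    (((ContinuousLinearMap.apply ℂ ℂ ((0, 1) : Y × ℂ)).analyticAt _).comp (hF.fderiv p hp))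
  refine h1.congr hΩ fun p hp => ?_
  exact (vd_eq (hF p hp).differentiableAt).symm

/-- slices are open -/
lemma isOpen_slice {Ω : Set (Y × ℂ)} (hΩ : IsOpen Ω) (y : Y) : IsOpen {z : ℂ | (y, z) ∈ Ω} :=
  hΩ.preimage (by fun_prop)

lemma diff_slice {Ω : Set (Y × ℂ)} {F : Y × ℂ → ℂ} (hF : AnalyticOnNhd ℂ F Ω) (y : Y) :
    DifferentiableOn ℂ (fun z => F (y, z)) {z : ℂ | (y, z) ∈ Ω} := by
  intro z hz
  have h1 : DifferentiableAt ℂ (fun z : ℂ => ((y, z) : Y × ℂ)) z :=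
    (differentiableAt_const y).prodMk differentiableAt_id
  exact ((hF (y, z) hz).differentiableAt.comp z h1).differentiableWithinAt

/-- the linear equivalence `(u, v) ↦ (u, L (u, v))` -/
def eqv (L : Y × ℂ →L[ℂ] ℂ) (h : L (0, 1) ≠ 0) : (Y × ℂ) ≃L[ℂ] (Y × ℂ) :=
  ContinuousLinearEquiv.equivOfInverse
    ((ContinuousLinearMap.fst ℂ Y ℂ).prod L)
    ((ContinuousLinearMap.fst ℂ Y ℂ).prod
      ((L (0, 1))⁻¹ • (ContinuousLinearMap.snd ℂ Y ℂ -
        L.comp ((ContinuousLinearMap.fst ℂ Y ℂ).prod 0))))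
    (by
      rintro ⟨u, v⟩
      have h1 : L (u, v) = L (u, 0) + v * L (0, 1) := by
        rw [← smul_eq_mul, ← map_smul, ← map_add]; simp
      simp only [ContinuousLinearMap.prod_apply, ContinuousLinearMap.coe_fst',
        ContinuousLinearMap.smul_apply, ContinuousLinearMap.sub_apply,
        ContinuousLinearMap.coe_snd', ContinuousLinearMap.comp_apply,
        ContinuousLinearMap.zero_apply, smul_eq_mul, h1, Prod.mk.injEq, true_and]
      field_simp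
      ring)
    (by
      rintro ⟨u, v⟩
      have h1 : ∀ w : ℂ, L (u, w) = L (u, 0) + w * L (0, 1) := fun w => by
        rw [← smul_eq_mul, ← map_smul, ← map_add]; simp
      simp only [ContinuousLinearMap.prod_apply, ContinuousLinearMap.coe_fst',
        ContinuousLinearMap.smul_apply, ContinuousLinearMap.sub_apply,
        ContinuousLinearMap.coe_snd', ContinuousLinearMap.comp_apply,
        ContinuousLinearMap.zero_apply, smul_eq_mul, Prod.mk.injEq, true_and]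
      rw [h1 ((L (0, 1))⁻¹ * (v - L (u, 0)))]
      field_simp
      ring)

lemma coe_eqv (L : Y × ℂ →L[ℂ] ℂ) (h : L (0, 1) ≠ 0) :
    ((eqv L h : (Y × ℂ) ≃L[ℂ] (Y × ℂ)) : Y × ℂ →L[ℂ] Y × ℂ) =
      (ContinuousLinearMap.fst ℂ Y ℂ).prod L := rfl

theorem local_data {Ω : Set (Y × ℂ)} (hΩ : IsOpen Ω) {F : Y × ℂ → ℂ} (hF : AnalyticOnNhd ℂ F Ω)
    {p₀ : Y × ℂ} (hp₀ : p₀ ∈ Ω) (h0 : F p₀ = 0) (h1 : vd F p₀ ≠ 0) :
    ∃ δ > 0, ∃ ρ > 0, ∃ B : ℝ, ∃ U ∈ 𝓝 p₀, ∃ ξ : Y → ℂ,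
      DifferentiableOn ℂ ξ (ball p₀.1 δ) ∧
      (∀ y ∈ ball p₀.1 δ, (y, ξ y) ∈ Ω ∧ F (y, ξ y) = 0 ∧ ‖vd F (y, ξ y)‖ ≤ B ∧
        Nonempty (Sec (fun z => F (y, z)) {z | (y, z) ∈ Ω} ρ (ξ y))) ∧
      (∀ p ∈ U, p.1 ∈ ball p₀.1 (δ / 2) ∧ (F p = 0 → p.2 = ξ p.1)) := by
  set Φ : Y × ℂ → Y × ℂ := fun p => (p.1, F p) with hΦ
  have hstrict : ∀ p ∈ Ω, HasStrictFDerivAt Φ
      ((ContinuousLinearMap.fst ℂ Y ℂ).prod (fderiv ℂ F p)) p := fun p hp =>
    hasStrictFDerivAt_fst.prodMk (hF p hp).hasStrictFDerivAt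
  have hL : ∀ p ∈ Ω, vd F p ≠ 0 → fderiv ℂ F p (0, 1) ≠ 0 := fun p hp h => by
    rwa [← vd_eq (hF p hp).differentiableAt]
  have hstrict0 : HasStrictFDerivAt Φ
      ((eqv (fderiv ℂ F p₀) (hL p₀ hp₀ h1) : (Y × ℂ) ≃L[ℂ] (Y × ℂ)) : Y × ℂ →L[ℂ] Y × ℂ) p₀ := by
    rw [coe_eqv]; exact hstrict p₀ hp₀
  set e := hstrict0.toOpenPartialHomeomorph Φ with he
  have hecoe : (e : Y × ℂ → Y × ℂ) = Φ := hstrict0.toOpenPartialHomeomorph_coe
  have hes : p₀ ∈ e.source := hstrict0.mem_toOpenPartialHomeomorph_source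
  have hvdc : ContinuousOn (vd F) Ω := (vd_analytic hΩ hF).continuousOn
  set Ω' : Set (Y × ℂ) := {p | p ∈ Ω ∧ vd F p ≠ 0 ∧ ‖vd F p‖ < ‖vd F p₀‖ + 1} with hΩ'
  have hΩ'o : IsOpen Ω' := by
    have h2 : Ω' = Ω ∩ vd F ⁻¹' ({w | w ≠ 0} ∩ {w | ‖w‖ < ‖vd F p₀‖ + 1}) := by
      ext p; simp only [hΩ', mem_setOf_eq, mem_inter_iff, mem_preimage]
    rw [h2]
    exact hvdc.isOpen_inter_preimage hΩ (isOpen_ne.inter (isOpen_lt continuous_norm continuous_const))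
  have hp₀' : p₀ ∈ Ω' := ⟨hp₀, h1, by linarith⟩
  -- the open set in the target
  have hB : ∀ᶠ q in 𝓝 ((p₀.1, (0 : ℂ)) : Y × ℂ), q ∈ e.target ∧ e.symm q ∈ Ω' := by
    have hq0 : e p₀ = (p₀.1, (0 : ℂ)) := by rw [hecoe, hΦ]; simp [h0]
    have h2 : (p₀.1, (0 : ℂ)) ∈ e.target := hq0 ▸ e.map_source hes
    have h3 : e.symm (p₀.1, (0 : ℂ)) = p₀ := by rw [← hq0]; exact e.left_inv hes
    have h4 : ContinuousAt e.symm (p₀.1, (0 : ℂ)) := e.symm.continuousAt (by simpa using h2)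
    have h5 : ∀ᶠ q in 𝓝 ((p₀.1, (0 : ℂ)) : Y × ℂ), q ∈ e.target := e.open_target.mem_nhds h2
    refine h5.and (h4.eventually_mem ?_)
    rw [h3]; exact hΩ'o.mem_nhds hp₀'
  rw [Metric.eventually_nhds_iff_ball] at hB
  obtain ⟨ε, hε, hBε⟩ := hB
  have hmem : ∀ y ∈ ball p₀.1 ε, ∀ s ∈ ball (0 : ℂ) ε, (y, s) ∈ e.target ∧ e.symm (y, s) ∈ Ω' := by
    intro y hy s hs
    refine hBε (y, s) ?_
    rw [mem_ball, Prod.dist_eq]
    exact max_lt hy hs
  have hfst : ∀ y ∈ ball p₀.1 ε, ∀ s ∈ ball (0 : ℂ) ε, e.symm (y, s) = (y, (e.symm (y, s)).2) ∧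
      F (y, (e.symm (y, s)).2) = s := by
    intro y hy s hs
    have h2 := e.right_inv (hmem y hy s hs).1
    rw [hecoe, hΦ] at h2
    simp only [Prod.mk.injEq] at h2
    have h3 : e.symm (y, s) = (y, (e.symm (y, s)).2) := by
      ext
      · exact h2.1
      · rfl
    refine ⟨h3, ?_⟩
    rw [← h3]; exact h2.2
  refine ⟨ε, hε, ε, hε, ‖vd F p₀‖ + 1, e.source ∩ (Prod.fst ⁻¹' ball p₀.1 (ε / 2)),
    inter_mem (e.open_source.mem_nhds hes) ?_, fun y => (e.symm (y, 0)).2, ?_, ?_, ?_⟩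
  · exact (continuous_fst.isOpen_preimage _ isOpen_ball).mem_nhds (mem_ball_self (by positivity))
  · -- differentiability of ξ
    intro y hy
    have h2 := hmem y hy 0 (mem_ball_self hε)
    have h3 := hstrict (e.symm (y, 0)) h2.2.1
    have h4 : HasFDerivAt e ((eqv (fderiv ℂ F (e.symm (y, 0))) (hL _ h2.2.1 h2.2.2.1) :
        (Y × ℂ) ≃L[ℂ] (Y × ℂ)) : Y × ℂ →L[ℂ] Y × ℂ) (e.symm (y, 0)) := by
      rw [coe_eqv, hecoe]; exact h3.hasFDerivAt
    have h5 := e.hasFDerivAt_symm h2.1 h4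
    have h6 : DifferentiableAt ℂ (fun y : Y => e.symm (y, (0 : ℂ))) y := by
      have h7 : DifferentiableAt ℂ (fun y : Y => ((y, (0 : ℂ)) : Y × ℂ)) y :=
        differentiableAt_id.prodMk (differentiableAt_const _)
      exact DifferentiableAt.comp (g := e.symm) y h5.differentiableAt h7
    exact h6.snd.differentiableWithinAt
  · intro y hy
    have h2 := hmem y hy 0 (mem_ball_self hε)
    have h3 := hfst y hy 0 (mem_ball_self hε)
    simp only
    rw [← h3.1]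
    refine ⟨h2.2.1, ?_, h2.2.2.2.le, ?_⟩
    · rw [h3.1]; exact h3.2
    · refine ⟨⟨fun s => (e.symm (y, s)).2, ?_, ?_, ?_, rfl⟩⟩
      · intro s hs
        have h4 := hmem y hy s hs
        have h5 := hfst y hy s hs
        have h6 : ContinuousAt (fun s : ℂ => (e.symm (y, s)).2) s := by
          have h7 : ContinuousAt e.symm (y, s) := e.symm.continuousAt (by simpa using h4.1)
          have h8 : ContinuousAt (fun s : ℂ => ((y, s) : Y × ℂ)) s := by fun_prop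
          exact continuous_snd.continuousAt.comp (ContinuousAt.comp (g := e.symm) h7 h8)
        have h9 : (y, (e.symm (y, s)).2) ∈ Ω' := h5.1 ▸ h4.2
        have h10 : HasDerivAt (fun z => F (y, z)) (vd F (y, (e.symm (y, s)).2))
            ((e.symm (y, s)).2) := by
          have := (diff_slice hF y).differentiableAt ((isOpen_slice hΩ y).mem_nhds
            (show (e.symm (y, s)).2 ∈ {z | (y, z) ∈ Ω} from h9.1))
          exact this.hasDerivAt
        have h11 := HasDerivAt.of_local_left_inverse h6 h10 h9.2.1 (by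
          filter_upwards [isOpen_ball.mem_nhds hs] with s' hs'
          exact (hfst y hy s' hs').2)
        exact h11.differentiableAt.differentiableWithinAt
      · intro s hs
        have h4 := hmem y hy s hs
        have h5 := hfst y hy s hs
        show (y, (e.symm (y, s)).2) ∈ Ω
        rw [← h5.1]; exact h4.2.1
      · intro s hs
        exact (hfst y hy s hs).2
  · rintro p ⟨hps, hpb⟩
    refine ⟨hpb, fun hp => ?_⟩
    have h2 : e p = (p.1, (0 : ℂ)) := by rw [hecoe, hΦ]; simp [hp]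
    have h3 := e.left_inv hps
    rw [h2] at h3
    simp only
    rw [h3]

/-- a uniform radius for the sections over a compact set -/
theorem exists_sec_radius {Ω : Set (Y × ℂ)} (hΩ : IsOpen Ω) {F : Y × ℂ → ℂ}
    (hF : AnalyticOnNhd ℂ F Ω) {K : Set (Y × ℂ)} (hK : IsCompact K) (hKΩ : K ⊆ Ω)
    (hreg : ∀ p ∈ K, F p = 0 → vd F p ≠ 0) :
    ∃ r > 0, ∀ p ∈ K, F p = 0 →
      Nonempty (Sec (fun z => F (p.1, z)) {z | (p.1, z) ∈ Ω} r p.2) := by
  refine hK.induction_on (p := fun S => ∃ r > 0, ∀ p ∈ S, F p = 0 →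
      Nonempty (Sec (fun z => F (p.1, z)) {z | (p.1, z) ∈ Ω} r p.2)) ?_ ?_ ?_ ?_
  · exact ⟨1, one_pos, by simp⟩
  · rintro S T hST ⟨r, hr, h⟩
    exact ⟨r, hr, fun p hp => h p (hST hp)⟩
  · rintro S T ⟨r, hr, h⟩ ⟨r', hr', h'⟩
    refine ⟨min r r', lt_min hr hr', fun p hp h0 => ?_⟩
    rcases hp with hp | hp
    · exact ⟨(h p hp h0).some.restr (min_le_left _ _)⟩
    · exact ⟨(h' p hp h0).some.restr (min_le_right _ _)⟩
  · intro p₀ hp₀
    by_cases h0 : F p₀ = 0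
    · obtain ⟨δ, hδ, ρ, hρ, B, U, hU, ξ, -, h2, h3⟩ :=
        local_data hΩ hF (hKΩ hp₀) h0 (hreg p₀ hp₀ h0)
      refine ⟨U, mem_nhdsWithin_of_mem_nhds hU, ρ, hρ, fun p hp hp0 => ?_⟩
      obtain ⟨h4, h5⟩ := h3 p hp
      obtain ⟨-, -, -, h6⟩ := h2 p.1 (ball_subset_ball (by linarith) h4)
      rw [← h5 hp0] at h6
      exact h6
    · refine ⟨{p | F p ≠ 0}, mem_nhdsWithin_of_mem_nhds ?_, 1, one_pos, fun p hp hp0 =>
        absurd hp0 hp⟩
      exact (hF p₀ (hKΩ hp₀)).continuousAt.eventually_ne h0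

end

end Crest.Agent.R257.Sh_297
end

-- ▼ part R257/Sh3_297
section

/-!
# Row 257, leaf D-SH (helper297), part 3: sheet integrals `shInt`, comparison with tube integrals

* `shInt μ F K φ` : the integral over `y` of the sum over the zeros `z` of `F (y, ·)` with
  `(y, z) ∈ K`, `vd F ≠ 0` of `φ (y, z) / ‖vd F (y, z)‖ ^ 2`;
* `shInt_le` : `shInt` of `‖G‖ ^ q` over `K` times `π r²` is at most the integral of `‖G‖ ^ q` over
  the tube `{‖F‖ < r}`, as soon as the points of `K` have sections of radius `r`;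
* `sup_le` : pointwise bound of `G` on compact subsets of the regular part of `{F = 0}`.
-/

set_option autoImplicit false
set_option linter.unusedSectionVars false

open MeasureTheory Set Metric Topology Filter
open scoped ENNReal Real

namespace Crest.Agent.R257.Sh_297

noncomputable section

variable {Y : Type*} [NormedAddCommGroup Y] [NormedSpace ℂ Y] [FiniteDimensional ℂ Y]
  [MeasurableSpace Y] [BorelSpace Y] [SecondCountableTopology Y]

/-- the sheet integral over `{F = 0} ∩ K` -/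
def shInt (μ : Measure Y) (F : Y × ℂ → ℂ) (K : Set (Y × ℂ)) (φ : Y × ℂ → ℝ≥0∞) : ℝ≥0∞ :=
  ∫⁻ y, ∑' z : {z : ℂ | (y, z) ∈ K ∧ F (y, z) = 0 ∧ vd F (y, z) ≠ 0},
    φ (y, z) / ‖vd F (y, z)‖ₑ ^ 2 ∂μ

/-- the tube integral -/
def tube (μ : Measure Y) (F : Y × ℂ → ℂ) (Ω : Set (Y × ℂ)) (r : ℝ) (φ : Y × ℂ → ℝ≥0∞) : ℝ≥0∞ :=
  ∫⁻ p in {p | p ∈ Ω ∧ ‖F p‖ < r}, φ p ∂(μ.prod volume)

lemma isOpen_tube {Ω : Set (Y × ℂ)} (hΩ : IsOpen Ω) {F : Y × ℂ → ℂ} (hF : ContinuousOn F Ω)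
    (r : ℝ) : IsOpen {p | p ∈ Ω ∧ ‖F p‖ < r} := by
  have : {p | p ∈ Ω ∧ ‖F p‖ < r} = Ω ∩ F ⁻¹' {w | ‖w‖ < r} := by
    ext p; simp only [mem_ofPred_eq, mem_inter_iff, mem_preimage]
  rw [this]
  exact hF.isOpen_inter_preimage hΩ (isOpen_lt continuous_norm continuous_const)

/-- Tonelli on a tube -/
lemma tube_eq (μ : Measure Y) [SFinite μ] {Ω : Set (Y × ℂ)} (hΩ : IsOpen Ω) {F G : Y × ℂ → ℂ}
    (hF : ContinuousOn F Ω) (hG : ContinuousOn G Ω) (r q : ℝ) :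
    tube μ F Ω r (fun p => ‖G p‖ₑ ^ q) =
      ∫⁻ y, (∫⁻ w in {w | w ∈ {w : ℂ | (y, w) ∈ Ω} ∧ ‖F (y, w)‖ < r}, ‖G (y, w)‖ₑ ^ q) ∂μ := by
  set T : Set (Y × ℂ) := {p | p ∈ Ω ∧ ‖F p‖ < r} with hT
  have hTo : IsOpen T := isOpen_tube hΩ hF r
  have hm : Measurable (T.indicator (fun p => ‖G p‖ₑ ^ q)) := by
    classical
    have h1 : ContinuousOn (fun p => ‖G p‖ₑ ^ q) T :=
      (ENNReal.continuous_rpow_const).comp_continuousOn
        (continuous_enorm.comp_continuousOn (hG.mono fun p hp => hp.1))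
    have h2 : Measurable (T.piecewise (fun p => ‖G p‖ₑ ^ q) (fun _ => (0 : ℝ≥0∞))) :=
      h1.measurable_piecewise continuousOn_const hTo.measurableSet
    have h3 : T.piecewise (fun p => ‖G p‖ₑ ^ q) (fun _ => (0 : ℝ≥0∞)) =
        T.indicator (fun p => ‖G p‖ₑ ^ q) := by
      ext p; by_cases hp : p ∈ T <;> simp [hp]
    rwa [h3] at h2
  unfold tube
  rw [← lintegral_indicator hTo.measurableSet, lintegral_prod _ hm.aemeasurable]
  refine lintegral_congr fun y => ?_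
  have h4 : MeasurableSet {w | w ∈ {w : ℂ | (y, w) ∈ Ω} ∧ ‖F (y, w)‖ < r} :=
    (hTo.preimage (by fun_prop : Continuous fun w : ℂ => (y, w))).measurableSet
  rw [← lintegral_indicator h4]
  rfl

theorem shInt_le (μ : Measure Y) [SFinite μ] {Ω : Set (Y × ℂ)} (hΩ : IsOpen Ω) {F G : Y × ℂ → ℂ}
    (hF : AnalyticOnNhd ℂ F Ω) (hG : AnalyticOnNhd ℂ G Ω) {K : Set (Y × ℂ)} {r : ℝ} (hr : 0 < r)
    (hK : ∀ p ∈ K, F p = 0 → vd F p ≠ 0 →
      Nonempty (Sec (fun z => F (p.1, z)) {z | (p.1, z) ∈ Ω} r p.2)) {q : ℝ} (hq : 0 < q) :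
    shInt μ F K (fun p => ‖G p‖ₑ ^ q) * volume (ball (0 : ℂ) r) ≤
      tube μ F Ω r (fun p => ‖G p‖ₑ ^ q) := by
  have hvt : volume (ball (0 : ℂ) r) ≠ ∞ := measure_ball_lt_top.ne
  rw [tube_eq μ hΩ hF.continuousOn hG.continuousOn, shInt, ← lintegral_mul_const' _ _ hvt]
  refine lintegral_mono fun y => ?_
  refine tsum_sec_le hr (isOpen_slice hΩ y) (diff_slice hF y)
    {z : ℂ | (y, z) ∈ K ∧ F (y, z) = 0 ∧ vd F (y, z) ≠ 0} ?_ (diff_slice hG y) hq
  rintro z ⟨h1, h2, h3⟩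
  exact hK (y, z) h1 h2 h3

/-- pointwise bound on compact subsets of the regular part of the zero set -/
theorem sup_le (μ : Measure Y) [μ.IsAddHaarMeasure] {Ω : Set (Y × ℂ)} (hΩ : IsOpen Ω)
    {F : Y × ℂ → ℂ} (hF : AnalyticOnNhd ℂ F Ω) {K : Set (Y × ℂ)} (hK : IsCompact K) (hKΩ : K ⊆ Ω)
    (hreg : ∀ p ∈ K, F p = 0 → vd F p ≠ 0) {q : ℝ} (hq : 0 < q) :
    ∃ r₀ > 0, ∃ C : ℝ≥0∞, C ≠ ∞ ∧ ∀ r > 0, r ≤ r₀ → ∀ G : Y × ℂ → ℂ, AnalyticOnNhd ℂ G Ω →
      ∀ p ∈ K, F p = 0 → ‖G p‖ₑ ^ q * volume (ball (0 : ℂ) r) ≤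
        C * tube μ F Ω r (fun p => ‖G p‖ₑ ^ q) := by
  have : CompleteSpace Y := FiniteDimensional.complete ℂ Y
  have : FiniteDimensional ℝ Y := FiniteDimensional.complexToReal Y
  have : ProperSpace Y := FiniteDimensional.proper ℝ Y
  refine hK.induction_on (p := fun S => ∃ r₀ > 0, ∃ C : ℝ≥0∞, C ≠ ∞ ∧ ∀ r > 0, r ≤ r₀ →
    ∀ G : Y × ℂ → ℂ, AnalyticOnNhd ℂ G Ω → ∀ p ∈ S, F p = 0 →
      ‖G p‖ₑ ^ q * volume (ball (0 : ℂ) r) ≤ C * tube μ F Ω r (fun p => ‖G p‖ₑ ^ q)) ?_ ?_ ?_ ?_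
  · exact ⟨1, one_pos, 0, ENNReal.zero_ne_top, by simp⟩
  · rintro S T hST ⟨r, hr, C, hC, h⟩
    exact ⟨r, hr, C, hC, fun r' h1 h2 G hG p hp => h r' h1 h2 G hG p (hST hp)⟩
  · rintro S T ⟨r, hr, C, hC, h⟩ ⟨r', hr', C', hC', h'⟩
    refine ⟨min r r', lt_min hr hr', C + C', ENNReal.add_ne_top.2 ⟨hC, hC'⟩,
      fun s h1 h2 G hG p hp h0 => ?_⟩
    rcases hp with hp | hp
    · refine (h s h1 (h2.trans (min_le_left _ _)) G hG p hp h0).trans ?_
      gcongr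
      exact le_self_add
    · refine (h' s h1 (h2.trans (min_le_right _ _)) G hG p hp h0).trans ?_
      gcongr
      exact le_add_self
  · intro p₀ hp₀
    by_cases h0 : F p₀ = 0
    swap
    · refine ⟨{p | F p ≠ 0}, mem_nhdsWithin_of_mem_nhds ?_, 1, one_pos, 0, ENNReal.zero_ne_top,
        fun r _ _ G _ p hp hp0 => absurd hp0 hp⟩
      exact (hF p₀ (hKΩ hp₀)).continuousAt.eventually_ne h0
    obtain ⟨δ, hδ, ρ, hρ, B, U, hU, ξ, hξ, h2, h3⟩ :=
      local_data hΩ hF (hKΩ hp₀) h0 (hreg p₀ hp₀ h0)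
    have hμ0 : μ (ball (0 : Y) (δ / 2)) ≠ 0 := (measure_ball_pos μ _ (by positivity)).ne'
    have hμt : μ (ball (0 : Y) (δ / 2)) ≠ ∞ := measure_ball_lt_top.ne
    refine ⟨U, mem_nhdsWithin_of_mem_nhds hU, ρ, hρ,
      (μ (ball (0 : Y) (δ / 2)))⁻¹ * ENNReal.ofReal B ^ 2, ?_, ?_⟩
    · exact ENNReal.mul_ne_top (ENNReal.inv_ne_top.2 hμ0)
        (ENNReal.pow_ne_top ENNReal.ofReal_ne_top)
    intro r hr hrρ G hG p hp hp0
    obtain ⟨h4, h5⟩ := h3 p hp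
    have h6 := h5 hp0
    have hsub : ball p.1 (δ / 2) ⊆ ball p₀.1 δ := by
      intro y hy
      rw [mem_ball] at hy h4 ⊢
      linarith [dist_triangle y p.1 p₀.1]
    set g : Y → ℂ := fun y => G (y, ξ y) with hg
    have hgd : DifferentiableOn ℂ g (ball p.1 (δ / 2)) := by
      intro y hy
      have h7 := h2 y (hsub hy)
      have h8 : DifferentiableAt ℂ (fun y => ((y, ξ y) : Y × ℂ)) y :=
        differentiableAt_id.prodMk (hξ.differentiableAt (isOpen_ball.mem_nhds (hsub hy)))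
      exact (DifferentiableAt.comp (g := G) y (hG _ h7.1).differentiableAt h8).differentiableWithinAt
    have hgp : g p.1 = G p := by
      rw [hg]; simp only; rw [← h6]
    have h9 := R276.Sub_185.mul_measure_le' μ hgd hq
    rw [hgp] at h9
    have hvt : volume (ball (0 : ℂ) r) ≠ ∞ := measure_ball_lt_top.ne
    have h10 : ∀ y ∈ ball p.1 (δ / 2), ‖g y‖ₑ ^ q * volume (ball (0 : ℂ) r) ≤
        ENNReal.ofReal B ^ 2 *
          ∫⁻ w in {w | w ∈ {w : ℂ | (y, w) ∈ Ω} ∧ ‖F (y, w)‖ < r}, ‖G (y, w)‖ₑ ^ q := by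
      intro y hy
      obtain ⟨h11, h12, h13, ⟨S⟩⟩ := h2 y (hsub hy)
      have h14 := sec_le hr (S.restr hrρ) (isOpen_slice hΩ y) (diff_slice hF y)
        (diff_slice hG y) hq
      have h15 := h14.trans (lintegral_mono_set (S.restr hrρ).image_subset)
      have hvd : deriv (fun z => F (y, z)) (ξ y) ≠ 0 := by
        have := S.deriv_mul (isOpen_slice hΩ y) (diff_slice hF y) (mem_ball_self hρ)
        rw [S.zero] at this
        exact left_ne_zero_of_mul_eq_one this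
      have hv0 : ‖deriv (fun z => F (y, z)) (ξ y)‖ₑ ^ 2 ≠ 0 := by
        simpa using hvd
      have hvt' : ‖deriv (fun z => F (y, z)) (ξ y)‖ₑ ^ 2 ≠ ∞ :=
        ENNReal.pow_ne_top enorm_ne_top
      calc ‖g y‖ₑ ^ q * volume (ball (0 : ℂ) r)
          = ‖deriv (fun z => F (y, z)) (ξ y)‖ₑ ^ 2 * (‖G (y, ξ y)‖ₑ ^ q /
              ‖deriv (fun z => F (y, z)) (ξ y)‖ₑ ^ 2 * volume (ball (0 : ℂ) r)) := by
            rw [← mul_assoc, ENNReal.mul_div_cancel hv0 hvt']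
        _ ≤ ENNReal.ofReal B ^ 2 *
            ∫⁻ w in {w | w ∈ {w : ℂ | (y, w) ∈ Ω} ∧ ‖F (y, w)‖ < r}, ‖G (y, w)‖ₑ ^ q := by
            refine mul_le_mul' ?_ h15
            refine pow_le_pow_left' ?_ 2
            rw [← ofReal_norm]
            exact ENNReal.ofReal_le_ofReal h13
    have h16 : (∫⁻ y in ball p.1 (δ / 2), ‖g y‖ₑ ^ q ∂μ) * volume (ball (0 : ℂ) r) ≤
        ENNReal.ofReal B ^ 2 * tube μ F Ω r (fun p => ‖G p‖ₑ ^ q) := by
      rw [tube_eq μ hΩ hF.continuousOn hG.continuousOn, ← lintegral_mul_const' _ _ hvt,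
        ← lintegral_const_mul' _ _ (ENNReal.pow_ne_top ENNReal.ofReal_ne_top)]
      exact (setLIntegral_mono' measurableSet_ball h10).trans (setLIntegral_le_lintegral _ _)
    calc ‖G p‖ₑ ^ q * volume (ball (0 : ℂ) r)
        = (μ (ball (0 : Y) (δ / 2)))⁻¹ * (‖G p‖ₑ ^ q * μ (ball (0 : Y) (δ / 2)) *
            volume (ball (0 : ℂ) r)) := by
          rw [mul_comm (‖G p‖ₑ ^ q) (μ _), mul_assoc (μ _), ← mul_assoc (μ _)⁻¹,
            ENNReal.inv_mul_cancel hμ0 hμt, one_mul]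
      _ ≤ (μ (ball (0 : Y) (δ / 2)))⁻¹ * (ENNReal.ofReal B ^ 2 *
            tube μ F Ω r (fun p => ‖G p‖ₑ ^ q)) := by
          refine mul_le_mul' le_rfl (le_trans ?_ h16)
          gcongr
      _ = _ := by rw [mul_assoc]

end

end Crest.Agent.R257.Sh_297
end

-- ▼ part R257/Sh4_297
section

/-!
# Row 257, leaf D-SH (helper297), part 4: maximum principle off a hypersurface

`max_off`: `Δ` open connected in a finite dimensional complex space, `D` holomorphic on `Δ`, not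
identically zero, `A ⊆ Δ` compact.  There is a compact `T ⊆ Δ ∩ {D ≠ 0}` such that
`sup_A ‖a‖ ≤ sup_T ‖a‖` for every `a` holomorphic on `Δ`.
-/

set_option autoImplicit false
set_option linter.unusedSectionVars false

open Set Metric Topology Filter

namespace Crest.Agent.R257.Sh_297

noncomputable section

variable {Y : Type*} [NormedAddCommGroup Y] [NormedSpace ℂ Y] [FiniteDimensional ℂ Y]

/-- local version -/
theorem max_off_local {Δ : Set Y} (hΔ : IsOpen Δ) (hc : IsPreconnected Δ) {D : Y → ℂ}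
    (hD : AnalyticOnNhd ℂ D Δ) (hne : ∃ y ∈ Δ, D y ≠ 0) {y₀ : Y} (hy₀ : y₀ ∈ Δ) :
    ∃ N ∈ 𝓝 y₀, ∃ T : Set Y, IsCompact T ∧ T ⊆ Δ ∧ (∀ y ∈ T, D y ≠ 0) ∧
      ∀ a : Y → ℂ, DifferentiableOn ℂ a Δ → ∀ C : ℝ, (∀ y ∈ T, ‖a y‖ ≤ C) →
        ∀ y ∈ N, ‖a y‖ ≤ C := by
  have : FiniteDimensional ℝ Y := FiniteDimensional.complexToReal Y
  have : ProperSpace Y := FiniteDimensional.proper ℝ Y
  obtain ⟨ε, hε, hεΔ⟩ := Metric.isOpen_iff.1 hΔ y₀ hy₀
  -- a point with `D ≠ 0` near `y₀`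
  have h1 := R266.SCV.dense_ne_zero hΔ hc hD hne y₀ hy₀
  obtain ⟨y₁, ⟨-, hy₁0⟩, hy₁⟩ := (h1.and_eventually (ball_mem_nhds y₀ (half_pos hε))).exists
  set v : Y := y₁ - y₀ with hv
  have hvn : ‖v‖ < ε / 2 := by rw [hv, ← dist_eq_norm]; exact hy₁
  -- the function on the line
  set g : ℂ → ℂ := fun τ => D (y₀ + τ • v) with hg
  have hmem : ∀ y ∈ ball y₀ (ε / 2), ∀ τ ∈ closedBall (0 : ℂ) 1, y + τ • v ∈ Δ := by
    intro y hy τ hτ
    refine hεΔ ?_
    rw [mem_ball, dist_eq_norm]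
    have h2 : ‖τ • v‖ ≤ ‖v‖ := by
      rw [norm_smul]
      have : ‖τ‖ ≤ 1 := by simpa using hτ
      nlinarith [norm_nonneg v]
    have h3 : ‖y - y₀‖ < ε / 2 := by rw [← dist_eq_norm]; exact hy
    calc ‖y + τ • v - y₀‖ = ‖(y - y₀) + τ • v‖ := by congr 1; abel
      _ ≤ ‖y - y₀‖ + ‖τ • v‖ := norm_add_le _ _
      _ < ε := by linarith
  have hy₀b : y₀ ∈ ball y₀ (ε / 2) := mem_ball_self (half_pos hε)
  have hga : AnalyticOnNhd ℂ g (closedBall 0 1) := by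
    intro τ hτ
    have h2 : AnalyticAt ℂ (fun τ : ℂ => y₀ + τ • v) τ := by fun_prop
    exact AnalyticAt.comp (g := D) (hD _ (hmem y₀ hy₀b τ hτ)) h2
  have hg1 : g 1 ≠ 0 := by
    have h9 : y₀ + (1 : ℂ) • v = y₁ := by rw [hv]; simp
    show D (y₀ + (1 : ℂ) • v) ≠ 0
    rw [h9]; exact hy₁0
  have hgev : ∀ᶠ τ in 𝓝[≠] (0 : ℂ), g τ ≠ 0 := by
    rcases (hga 0 (by simp)).eventually_eq_zero_or_eventually_ne_zero with h | h
    · exfalso
      have := hga.eqOn_zero_of_preconnected_of_eventuallyEq_zero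
        (convex_closedBall (0 : ℂ) 1).isPreconnected (by simp) h
      exact hg1 (this (by simp))
    · exact h
  obtain ⟨ρ₀, hρ₀, hρ⟩ := Metric.mem_nhdsWithin_iff.1 hgev
  set ρ : ℝ := min (ρ₀ / 2) 1 with hρdef
  have hρpos : 0 < ρ := lt_min (by positivity) one_pos
  have hρ1 : ρ ≤ 1 := min_le_right _ _
  have hρρ₀ : ρ < ρ₀ := (min_le_left _ _).trans_lt (by linarith)
  have hcirc : ∀ τ ∈ sphere (0 : ℂ) ρ, g τ ≠ 0 := by
    intro τ hτ
    have hτn : ‖τ‖ = ρ := by simpa using hτ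
    refine hρ ⟨?_, ?_⟩
    · rw [mem_ball, dist_zero_right, hτn]; exact hρρ₀
    · intro h
      rw [mem_singleton_iff] at h
      rw [h, norm_zero] at hτn
      exact hρpos.ne hτn
  -- tube lemma
  have hopen : IsOpen {p : Y × ℂ | p.1 + p.2 • v ∈ Δ ∩ {y | D y ≠ 0}} := by
    have h2 : Continuous (fun p : Y × ℂ => p.1 + p.2 • v) := by fun_prop
    have h3 : IsOpen (Δ ∩ {y | D y ≠ 0}) := by
      have : Δ ∩ {y | D y ≠ 0} = Δ ∩ D ⁻¹' {w | w ≠ 0} := rfl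
      rw [this]
      exact hD.continuousOn.isOpen_inter_preimage hΔ isOpen_ne
    exact h3.preimage h2
  have htube := generalized_tube_lemma (s := {y₀}) (t := sphere (0 : ℂ) ρ) isCompact_singleton
    (isCompact_sphere 0 ρ) hopen (by
      rintro ⟨y, τ⟩ ⟨hy, hτ⟩
      rw [mem_singleton_iff] at hy
      simp only at hy hτ
      subst hy
      refine ⟨hmem y hy₀b τ ?_, hcirc τ hτ⟩
      exact (closedBall_subset_closedBall hρ1) (sphere_subset_closedBall hτ))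
  obtain ⟨u, w, huo, hwo, hyu, hsw, huw⟩ := htube
  obtain ⟨η, hη, hηu⟩ := Metric.isOpen_iff.1 huo y₀ (hyu (mem_singleton _))
  set η' : ℝ := min (η / 2) (ε / 4) with hη'
  have hη'pos : 0 < η' := lt_min (by positivity) (by positivity)
  refine ⟨ball y₀ η', ball_mem_nhds _ hη'pos,
    (fun p : Y × ℂ => p.1 + p.2 • v) '' (closedBall y₀ η' ×ˢ sphere (0 : ℂ) ρ), ?_, ?_, ?_, ?_⟩
  · exact ((isCompact_closedBall _ _).prod (isCompact_sphere _ _)).image (by fun_prop)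
  · rintro _ ⟨⟨y, τ⟩, ⟨hy, hτ⟩, rfl⟩
    have hyη : y ∈ ball y₀ η := (closedBall_subset_ball ((min_le_left _ _).trans_lt (by linarith))) hy
    exact (huw (mk_mem_prod (hηu hyη) (hsw hτ))).1
  · rintro _ ⟨⟨y, τ⟩, ⟨hy, hτ⟩, rfl⟩
    have hyη : y ∈ ball y₀ η := (closedBall_subset_ball ((min_le_left _ _).trans_lt (by linarith))) hy
    exact (huw (mk_mem_prod (hηu hyη) (hsw hτ))).2
  · intro a ha C hC y hy
    have hyε : y ∈ ball y₀ (ε / 2) := ball_subset_ball ((min_le_right _ _).trans (by linarith)) hy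
    have h2 : DiffContOnCl ℂ (fun τ : ℂ => a (y + τ • v)) (ball 0 ρ) := by
      refine DifferentiableOn.diffContOnCl ?_
      rw [closure_ball _ hρpos.ne']
      refine ha.comp (by fun_prop : Differentiable ℂ fun τ : ℂ => y + τ • v).differentiableOn ?_
      intro τ hτ
      exact hmem y hyε τ (closedBall_subset_closedBall hρ1 hτ)
    have h3 := Complex.norm_le_of_forall_mem_frontier_norm_le isBounded_ball h2 (C := C) (by
      intro τ hτ
      rw [frontier_ball _ hρpos.ne'] at hτ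
      exact hC _ ⟨(y, τ), ⟨ball_subset_closedBall hy, hτ⟩, rfl⟩)
      (subset_closure (mem_ball_self hρpos))
    simpa using h3

/-- maximum principle off a hypersurface -/
theorem max_off {Δ : Set Y} (hΔ : IsOpen Δ) (hc : IsPreconnected Δ) {D : Y → ℂ}
    (hD : AnalyticOnNhd ℂ D Δ) (hne : ∃ y ∈ Δ, D y ≠ 0) {A : Set Y} (hA : IsCompact A)
    (hAΔ : A ⊆ Δ) :
    ∃ T : Set Y, IsCompact T ∧ T ⊆ Δ ∧ (∀ y ∈ T, D y ≠ 0) ∧
      ∀ a : Y → ℂ, DifferentiableOn ℂ a Δ → ∀ C : ℝ, (∀ y ∈ T, ‖a y‖ ≤ C) →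
        ∀ y ∈ A, ‖a y‖ ≤ C := by
  refine hA.induction_on (p := fun S => ∃ T : Set Y, IsCompact T ∧ T ⊆ Δ ∧ (∀ y ∈ T, D y ≠ 0) ∧
      ∀ a : Y → ℂ, DifferentiableOn ℂ a Δ → ∀ C : ℝ, (∀ y ∈ T, ‖a y‖ ≤ C) →
        ∀ y ∈ S, ‖a y‖ ≤ C) ?_ ?_ ?_ ?_
  · exact ⟨∅, isCompact_empty, empty_subset _, by simp, by simp⟩
  · rintro S S' hSS ⟨T, h1, h2, h3, h4⟩
    exact ⟨T, h1, h2, h3, fun a ha C hC y hy => h4 a ha C hC y (hSS hy)⟩
  · rintro S S' ⟨T, h1, h2, h3, h4⟩ ⟨T', h1', h2', h3', h4'⟩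
    refine ⟨T ∪ T', h1.union h1', union_subset h2 h2', ?_, ?_⟩
    · rintro y (hy | hy)
      · exact h3 y hy
      · exact h3' y hy
    · rintro a ha C hC y (hy | hy)
      · exact h4 a ha C (fun w hw => hC w (Or.inl hw)) y hy
      · exact h4' a ha C (fun w hw => hC w (Or.inr hw)) y hy
  · intro y hy
    obtain ⟨N, hN, T, h1, h2, h3, h4⟩ := max_off_local hΔ hc hD hne (hAΔ hy)
    exact ⟨N, mem_nhdsWithin_of_mem_nhds hN, T, h1, h2, h3, h4⟩

end

end Crest.Agent.R257.Sh_297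
end

-- ▼ part R257/Sh5_297
section

/-!
# Row 257, leaf D-SH (helper297), part 5: Lagrange bound and division by a Weierstrass polynomial

* `lagr_bound` : a polynomial of degree `< deg W` is bounded by its values at the (simple) roots of
  `W`;
* `Wf w d y z = ∑_{j ≤ d} w j y * z ^ j`;
* `Rp w d ρ G y` : the remainder of `G (y, ·)` modulo `Wf w d y ·`, a polynomial of degree `< d`;
  `Rf` its value. `Rf = G` on the zeros of `Wf`, `Rf` is analytic.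
-/

set_option autoImplicit false
set_option linter.unusedSectionVars false

open MeasureTheory Set Metric Topology Filter Polynomial
open scoped ENNReal Real

namespace Crest.Agent.R257.Sh_297

noncomputable section

/-- bound of a polynomial by its values at the simple roots of `W` -/
theorem lagr_bound {W P : ℂ[X]} (hW : W.Monic) (hdeg : P.degree < W.natDegree)
    (hsep : W.roots.Nodup) {ρ η M : ℝ} (hρ : ∀ ξ ∈ W.roots, ‖ξ‖ ≤ ρ) (hη : 0 < η)
    (hd : ∀ ξ ∈ W.roots, η ≤ ‖W.derivative.eval ξ‖) (hM0 : 0 ≤ M)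
    (hM : ∀ ξ ∈ W.roots, ‖P.eval ξ‖ ≤ M) {z : ℂ} (hz : ‖z‖ ≤ ρ) :
    ‖P.eval z‖ ≤ W.natDegree * (M * ((2 * ρ) ^ (W.natDegree - 1) / η)) := by
  classical
  set s : Finset ℂ := W.roots.toFinset with hs
  have hρ0 : 0 ≤ ρ := (norm_nonneg z).trans hz
  have hmem : ∀ ξ ∈ s, ξ ∈ W.roots := fun ξ h => Multiset.mem_toFinset.1 h
  have hcard : s.card = W.natDegree := by
    rw [hs, Multiset.toFinset_card_of_nodup hsep]
    exact (IsAlgClosed.splits W).natDegree_eq_card_roots.symm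
  have hWn : W = Lagrange.nodal s id := by
    have h1 : W = (W.roots.map fun a => X - C a).prod :=
      (IsAlgClosed.splits W).eq_prod_roots_of_monic hW
    rw [Lagrange.nodal_eq]
    conv_lhs => rw [h1]
    rw [Finset.prod_eq_multiset_prod]
    congr 1
    rw [hs, Multiset.toFinset_val, Multiset.dedup_eq_self.2 hsep]
    rfl
  have hP : P = Lagrange.interpolate s id (fun ξ => P.eval ξ) := by
    refine Lagrange.eq_interpolate (injOn_id _) ?_
    rw [hcard]; exact hdeg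
  have hev : P.eval z = ∑ ξ ∈ s, P.eval ξ * ∏ l ∈ s.erase ξ, ((ξ - l)⁻¹ * (z - l)) := by
    conv_lhs => rw [hP]
    rw [Lagrange.interpolate_apply, eval_finsetSum]
    refine Finset.sum_congr rfl fun ξ _ => ?_
    rw [eval_mul, eval_C, Lagrange.basis, eval_prod]
    congr 1
    refine Finset.prod_congr rfl fun l _ => ?_
    rw [Lagrange.basisDivisor]
    simp
  rw [hev]
  have hterm : ∀ ξ ∈ s, ‖P.eval ξ * ∏ l ∈ s.erase ξ, ((ξ - l)⁻¹ * (z - l))‖ ≤
      M * ((2 * ρ) ^ (W.natDegree - 1) / η) := by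
    intro ξ hξ
    rw [norm_mul, Finset.prod_mul_distrib, Finset.prod_inv_distrib, norm_mul, norm_inv]
    have h1 : ∏ l ∈ s.erase ξ, (ξ - l) = W.derivative.eval ξ := by
      rw [hWn]
      have := Lagrange.eval_nodal_derivative_eval_node_eq (v := (id : ℂ → ℂ)) hξ
      simp only [id] at this
      rw [this, Lagrange.eval_nodal]
      rfl
    rw [h1]
    have h2 : ‖∏ l ∈ s.erase ξ, (z - l)‖ ≤ (2 * ρ) ^ (W.natDegree - 1) := by
      rw [norm_prod]
      calc ∏ l ∈ s.erase ξ, ‖z - l‖ ≤ ∏ l ∈ s.erase ξ, (2 * ρ) := by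
            refine Finset.prod_le_prod (fun _ _ => norm_nonneg _) fun l hl => ?_
            have h3 := hρ l (hmem l (Finset.mem_of_mem_erase hl))
            calc ‖z - l‖ ≤ ‖z‖ + ‖l‖ := norm_sub_le _ _
              _ ≤ 2 * ρ := by linarith
        _ = (2 * ρ) ^ (W.natDegree - 1) := by
            rw [Finset.prod_const, Finset.card_erase_of_mem hξ, hcard]
    have h4 := hd ξ (hmem ξ hξ)
    have h5 : ‖W.derivative.eval ξ‖⁻¹ ≤ η⁻¹ := inv_anti₀ hη h4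
    calc ‖P.eval ξ‖ * (‖W.derivative.eval ξ‖⁻¹ * ‖∏ l ∈ s.erase ξ, (z - l)‖)
        ≤ M * (η⁻¹ * (2 * ρ) ^ (W.natDegree - 1)) := by
          refine mul_le_mul (hM ξ (hmem ξ hξ)) ?_ (by positivity) hM0
          exact mul_le_mul h5 h2 (norm_nonneg _) (by positivity)
      _ = _ := by rw [div_eq_mul_inv, mul_comm η⁻¹]
  calc ‖∑ ξ ∈ s, P.eval ξ * ∏ l ∈ s.erase ξ, ((ξ - l)⁻¹ * (z - l))‖
      ≤ ∑ ξ ∈ s, ‖P.eval ξ * ∏ l ∈ s.erase ξ, ((ξ - l)⁻¹ * (z - l))‖ := norm_sum_le _ _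
    _ ≤ ∑ ξ ∈ s, M * ((2 * ρ) ^ (W.natDegree - 1) / η) := Finset.sum_le_sum hterm
    _ = _ := by rw [Finset.sum_const, hcard, nsmul_eq_mul]

/-! ### division -/

variable {Y : Type*} [NormedAddCommGroup Y] [NormedSpace ℂ Y] [FiniteDimensional ℂ Y]

/-- a polynomial in `z` with coefficients depending on `y` -/
def Wf (w : ℕ → Y → ℂ) (d : ℕ) (y : Y) (z : ℂ) : ℂ := ∑ j ∈ Finset.range (d + 1), w j y * z ^ j

/-- the same as a polynomial -/
def Wp (w : ℕ → Y → ℂ) (d : ℕ) (y : Y) : ℂ[X] :=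
  ∑ j ∈ Finset.range (d + 1), C (w j y) * X ^ j

lemma eval_Wp (w : ℕ → Y → ℂ) (d : ℕ) (y : Y) (z : ℂ) : (Wp w d y).eval z = Wf w d y z := by
  simp [Wp, Wf, eval_finsetSum]

/-- the moments of `G / W` on the circle -/
def mom (w : ℕ → Y → ℂ) (d : ℕ) (ρ : ℝ) (G : Y × ℂ → ℂ) (k : ℕ) (y : Y) : ℂ :=
  (2 * π * Complex.I : ℂ)⁻¹ • ∮ ζ in C(0, ρ), G (y, ζ) / Wf w d y ζ * ζ ^ k

/-- the remainder -/
def Rf (w : ℕ → Y → ℂ) (d : ℕ) (ρ : ℝ) (G : Y × ℂ → ℂ) (y : Y) (z : ℂ) : ℂ :=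
  ∑ j ∈ Finset.range (d + 1), w j y *
    ∑ i ∈ Finset.range j, mom w d ρ G (j - 1 - i) y * z ^ i

/-- the remainder as a polynomial -/
def Rp (w : ℕ → Y → ℂ) (d : ℕ) (ρ : ℝ) (G : Y × ℂ → ℂ) (y : Y) : ℂ[X] :=
  ∑ j ∈ Finset.range (d + 1), C (w j y) *
    ∑ i ∈ Finset.range j, C (mom w d ρ G (j - 1 - i) y) * X ^ i

lemma eval_Rp (w : ℕ → Y → ℂ) (d : ℕ) (ρ : ℝ) (G : Y × ℂ → ℂ) (y : Y) (z : ℂ) :
    (Rp w d ρ G y).eval z = Rf w d ρ G y z := by
  simp [Rp, Rf, eval_finsetSum]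

lemma degree_Rp_lt (w : ℕ → Y → ℂ) (d : ℕ) (ρ : ℝ) (G : Y × ℂ → ℂ) (y : Y) :
    (Rp w d ρ G y).degree < d := by
  unfold Rp
  refine (degree_sum_le _ _).trans_lt ?_
  rw [Finset.sup_lt_iff (by exact_mod_cast WithBot.bot_lt_coe _)]
  intro j hj
  rw [Finset.mem_range] at hj
  rcases eq_or_ne (w j y) 0 with h0 | h0
  · rw [h0, C_0, zero_mul, degree_zero]; exact WithBot.bot_lt_coe _
  rw [degree_C_mul h0]
  refine (degree_sum_le _ _).trans_lt ?_
  rw [Finset.sup_lt_iff (WithBot.bot_lt_coe _)]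
  intro i hi
  rw [Finset.mem_range] at hi
  refine (degree_C_mul_X_pow_le _ _).trans_lt ?_
  exact_mod_cast (by omega : i < d)

/-- the algebraic identity behind the division -/
lemma Wf_sub (w : ℕ → Y → ℂ) (d : ℕ) (y : Y) (z ζ : ℂ) :
    Wf w d y ζ - Wf w d y z = (ζ - z) * ∑ j ∈ Finset.range (d + 1), w j y *
      ∑ i ∈ Finset.range j, ζ ^ (j - 1 - i) * z ^ i := by
  unfold Wf
  rw [← Finset.sum_sub_distrib, Finset.mul_sum]
  refine Finset.sum_congr rfl fun j _ => ?_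
  have h1 : (∑ i ∈ Finset.range j, z ^ i * ζ ^ (j - 1 - i)) * (z - ζ) = z ^ j - ζ ^ j :=
    (Commute.all z ζ).geom_sum₂_mul j
  have h2 : ∑ i ∈ Finset.range j, ζ ^ (j - 1 - i) * z ^ i =
      ∑ i ∈ Finset.range j, z ^ i * ζ ^ (j - 1 - i) := by
    refine Finset.sum_congr rfl fun i _ => mul_comm _ _
  rw [h2]
  linear_combination (w j y) * h1

/-- the remainder agrees with `G` on the zeros of `W` -/
theorem Rf_eq {w : ℕ → Y → ℂ} {d : ℕ} {ρ : ℝ} (hρ : 0 < ρ) {G : Y × ℂ → ℂ} {y : Y}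
    (hG : DifferentiableOn ℂ (fun z => G (y, z)) (closedBall 0 ρ))
    (hne : ∀ ζ ∈ sphere (0 : ℂ) ρ, Wf w d y ζ ≠ 0) {z : ℂ} (hz : z ∈ ball (0 : ℂ) ρ)
    (h0 : Wf w d y z = 0) : Rf w d ρ G y z = G (y, z) := by
  have hWc : Continuous (fun ζ => Wf w d y ζ) := by unfold Wf; fun_prop
  have hcont : ContinuousOn (fun ζ => G (y, ζ) / Wf w d y ζ) (sphere 0 ρ) :=
    (hG.continuousOn.mono sphere_subset_closedBall).div hWc.continuousOn hne
  have hci : ∀ k : ℕ, CircleIntegrable (fun ζ => G (y, ζ) / Wf w d y ζ * ζ ^ k) 0 ρ := fun k =>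
    (hcont.mul (by fun_prop)).circleIntegrable hρ.le
  have h1 : Rf w d ρ G y z = (2 * π * Complex.I : ℂ)⁻¹ • ∮ ζ in C(0, ρ),
      G (y, ζ) / Wf w d y ζ * ∑ j ∈ Finset.range (d + 1), w j y *
        ∑ i ∈ Finset.range j, ζ ^ (j - 1 - i) * z ^ i := by
    unfold Rf mom
    have h2 : ∀ ζ : ℂ, G (y, ζ) / Wf w d y ζ * ∑ j ∈ Finset.range (d + 1), w j y *
        ∑ i ∈ Finset.range j, ζ ^ (j - 1 - i) * z ^ i =
        ∑ j ∈ Finset.range (d + 1), ∑ i ∈ Finset.range j, (w j y * z ^ i) •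
          (G (y, ζ) / Wf w d y ζ * ζ ^ (j - 1 - i)) := by
      intro ζ
      rw [Finset.mul_sum]
      refine Finset.sum_congr rfl fun j _ => ?_
      rw [Finset.mul_sum, Finset.mul_sum]
      refine Finset.sum_congr rfl fun i _ => ?_
      rw [smul_eq_mul]; ring
    simp_rw [h2]
    rw [circleIntegral.integral_fun_sum, Finset.smul_sum]
    · refine Finset.sum_congr rfl fun j _ => ?_
      rw [circleIntegral.integral_fun_sum, Finset.smul_sum, Finset.mul_sum]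
      · refine Finset.sum_congr rfl fun i _ => ?_
        rw [circleIntegral.integral_smul]
        simp only [smul_eq_mul]; ring
      · intro i _
        exact (hci _).const_smul
    · intro j _
      exact CircleIntegrable.fun_sum _ fun i _ => (hci _).const_smul
  rw [h1]
  have h3 : (∮ ζ in C(0, ρ), G (y, ζ) / Wf w d y ζ * ∑ j ∈ Finset.range (d + 1), w j y *
        ∑ i ∈ Finset.range j, ζ ^ (j - 1 - i) * z ^ i) =
      ∮ ζ in C(0, ρ), (ζ - z)⁻¹ • G (y, ζ) := by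
    refine circleIntegral.integral_congr hρ.le fun ζ hζ => ?_
    have h4 := Wf_sub w d y z ζ
    rw [h0, sub_zero] at h4
    have h5 : ζ - z ≠ 0 := by
      intro h
      rw [sub_eq_zero] at h
      rw [h, mem_sphere] at hζ
      rw [mem_ball] at hz
      linarith
    have h6 := hne ζ hζ
    set S := ∑ j ∈ Finset.range (d + 1), w j y * ∑ i ∈ Finset.range j, ζ ^ (j - 1 - i) * z ^ i
      with hS
    have h7 : S ≠ 0 := by
      intro h; rw [h, mul_zero] at h4; exact h6 h4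
    rw [h4, smul_eq_mul]
    field_simp
  rw [h3]
  exact (hG.diffContOnCl_ball (closedBall_subset_closedBall le_rfl)).two_pi_i_inv_smul_circleIntegral_sub_inv_smul hz

end

end Crest.Agent.R257.Sh_297
end

-- ▼ part R257/Sh6_297
section

/-!
# Row 257, leaf D-SH (helper297), part 6: the remainder `Rf` is holomorphic
-/

set_option autoImplicit false
set_option linter.unusedSectionVars false

open MeasureTheory Set Metric Topology Filter Polynomial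
open scoped ENNReal Real

namespace Crest.Agent.R257.Sh_297

noncomputable section

variable {Y : Type*} [NormedAddCommGroup Y] [NormedSpace ℂ Y] [FiniteDimensional ℂ Y]

lemma Wf_cont {w : ℕ → Y → ℂ} {d : ℕ} {Δ : Set Y} (hw : ∀ j, ContinuousOn (w j) Δ) :
    ContinuousOn (fun p : Y × ℂ => Wf w d p.1 p.2) (Δ ×ˢ univ) := by
  unfold Wf
  refine continuousOn_finsetSum _ fun j _ => ContinuousOn.mul ?_ (by fun_prop)
  exact (hw j).comp continuous_fst.continuousOn fun p hp => hp.1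

lemma Wf_diff {w : ℕ → Y → ℂ} {d : ℕ} {Δ : Set Y} (hw : ∀ j, DifferentiableOn ℂ (w j) Δ) (z : ℂ) :
    DifferentiableOn ℂ (fun y : Y => Wf w d y z) Δ := by
  unfold Wf
  exact DifferentiableOn.fun_sum fun j _ => (hw j).mul (differentiableOn_const _)

/-- the moments are analytic -/
theorem mom_analytic {w : ℕ → Y → ℂ} {d : ℕ} {ρ : ℝ} (hρ : 0 < ρ) {G : Y × ℂ → ℂ}
    {Δ : Set Y} (hΔ : IsOpen Δ) {Ω : Set (Y × ℂ)} (hsub : Δ ×ˢ closedBall (0 : ℂ) ρ ⊆ Ω)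
    (hG : DifferentiableOn ℂ G Ω) (hw : ∀ j, DifferentiableOn ℂ (w j) Δ)
    (hne : ∀ y ∈ Δ, ∀ ζ ∈ sphere (0 : ℂ) ρ, Wf w d y ζ ≠ 0) (k : ℕ) :
    AnalyticOnNhd ℂ (mom w d ρ G k) Δ := by
  have hsp : ∀ θ : ℝ, circleMap 0 ρ θ ∈ sphere (0 : ℂ) ρ := fun θ =>
    circleMap_mem_sphere 0 hρ.le θ
  set f : Y × ℝ → ℂ := fun p => deriv (circleMap 0 ρ) p.2 •
    (G (p.1, circleMap 0 ρ p.2) / Wf w d p.1 (circleMap 0 ρ p.2) * circleMap 0 ρ p.2 ^ k) with hf
  have h1 : AnalyticOnNhd ℂ (fun y => ∫ θ in (0 : ℝ)..2 * π, f (y, θ)) Δ := by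
    refine R266.SCV.analyticOnNhd_intervalIntegral hΔ ?_ ?_
    · have hc1 : Continuous (fun p : Y × ℝ => circleMap 0 ρ p.2) :=
        (continuous_circleMap 0 ρ).comp continuous_snd
      have hc2 : Continuous (fun p : Y × ℝ => deriv (circleMap 0 ρ) p.2) := by
        simp only [deriv_circleMap]
        fun_prop
      have hm : MapsTo (fun p : Y × ℝ => (p.1, circleMap 0 ρ p.2))
          (Δ ×ˢ uIcc 0 (2 * π)) Ω := fun p hp =>
        hsub ⟨hp.1, sphere_subset_closedBall (hsp p.2)⟩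
      refine hc2.continuousOn.smul (ContinuousOn.mul (ContinuousOn.div ?_ ?_ ?_) ?_)
      · exact hG.continuousOn.comp (by fun_prop) hm
      · exact (Wf_cont (fun j => (hw j).continuousOn)).comp (f := fun p : Y × ℝ =>
          (p.1, circleMap 0 ρ p.2)) (by fun_prop) fun p hp => ⟨hp.1, mem_univ _⟩
      · exact fun p hp => hne p.1 hp.1 _ (hsp p.2)
      · exact (hc1.pow k).continuousOn
    · intro θ _
      show DifferentiableOn ℂ (fun y => deriv (circleMap 0 ρ) θ •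
        (G (y, circleMap 0 ρ θ) / Wf w d y (circleMap 0 ρ θ) * circleMap 0 ρ θ ^ k)) Δ
      refine DifferentiableOn.const_smul (f := fun y => (G (y, circleMap 0 ρ θ) /
        Wf w d y (circleMap 0 ρ θ) * circleMap 0 ρ θ ^ k)) ?_ (deriv (circleMap 0 ρ) θ)
      simp_rw [div_eq_mul_inv]
      refine (DifferentiableOn.mul ?_ ((Wf_diff hw _).inv fun y hy => hne y hy _ (hsp θ))).mul_const _
      refine hG.comp (t := Ω) ?_ fun y hy => hsub ⟨hy, sphere_subset_closedBall (hsp θ)⟩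
      exact (differentiable_id.prodMk (differentiable_const _)).differentiableOn
  have h2 : mom w d ρ G k = fun y => (2 * π * Complex.I : ℂ)⁻¹ •
      ∫ θ in (0 : ℝ)..2 * π, f (y, θ) := by
    funext y; rfl
  rw [h2]
  exact fun y hy => (h1 y hy).fun_const_smul

theorem Rf_analytic {w : ℕ → Y → ℂ} {d : ℕ} {ρ : ℝ} (hρ : 0 < ρ) {G : Y × ℂ → ℂ}
    {Δ : Set Y} (hΔ : IsOpen Δ) {Ω : Set (Y × ℂ)} (hsub : Δ ×ˢ closedBall (0 : ℂ) ρ ⊆ Ω)
    (hG : DifferentiableOn ℂ G Ω) (hw : ∀ j, AnalyticOnNhd ℂ (w j) Δ)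
    (hne : ∀ y ∈ Δ, ∀ ζ ∈ sphere (0 : ℂ) ρ, Wf w d y ζ ≠ 0) :
    AnalyticOnNhd ℂ (fun p : Y × ℂ => Rf w d ρ G p.1 p.2) (Δ ×ˢ univ) := by
  rintro ⟨y, z⟩ ⟨hy, -⟩
  unfold Rf
  have hfst : AnalyticAt ℂ (Prod.fst : Y × ℂ → Y) (y, z) := analyticAt_fst
  have hsnd : AnalyticAt ℂ (Prod.snd : Y × ℂ → ℂ) (y, z) := analyticAt_snd
  refine Finset.analyticAt_fun_sum _ fun j _ => AnalyticAt.mul ?_ ?_
  · exact AnalyticAt.comp (g := w j) (f := Prod.fst) (hw j y hy) hfst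
  · refine Finset.analyticAt_fun_sum _ fun i _ => AnalyticAt.mul ?_ (hsnd.pow i)
    exact AnalyticAt.comp (g := mom w d ρ G (j - 1 - i)) (f := Prod.fst)
      (mom_analytic hρ hΔ hsub hG (fun j => (hw j).differentiableOn) hne _ y hy) hfst

end

end Crest.Agent.R257.Sh_297
end

-- ▼ part R257/Sh7_297
section

/-!
# Row 257, leaf D-SH (helper297), part 7: Weierstrass boxes, uniform bound of the remainders, limit
-/

set_option autoImplicit false
set_option linter.unusedSectionVars false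

open MeasureTheory Set Metric Topology Filter Polynomial
open scoped ENNReal Real

namespace Crest.Agent.R257.Sh_297

noncomputable section

variable {Y : Type*} [NormedAddCommGroup Y] [NormedSpace ℂ Y] [FiniteDimensional ℂ Y]

/-- a Weierstrass box for `F`: on `Δ × closedBall 0 ρ` the zeros of `F` are those of the monic
polynomial `Wf w d`, all in the open disc; off the zeros of `D` they are simple. -/
structure WBox (F : Y × ℂ → ℂ) (Ω : Set (Y × ℂ)) (Δ : Set Y) (ρ : ℝ) (w : ℕ → Y → ℂ) (d : ℕ)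
    (D : Y → ℂ) : Prop where
  hΩ : IsOpen Ω
  hΔ : IsOpen Δ
  conn : IsPreconnected Δ
  hρ : 0 < ρ
  sub : Δ ×ˢ closedBall (0 : ℂ) ρ ⊆ Ω
  hF : AnalyticOnNhd ℂ F Ω
  hw : ∀ j, AnalyticOnNhd ℂ (w j) Δ
  monic : ∀ y ∈ Δ, w d y = 1
  zeros : ∀ y ∈ Δ, ∀ z ∈ closedBall (0 : ℂ) ρ, F (y, z) = 0 ↔ Wf w d y z = 0
  roots_in : ∀ y ∈ Δ, ∀ z, Wf w d y z = 0 → z ∈ ball (0 : ℂ) ρ
  simple : ∀ y ∈ Δ, ∀ z ∈ ball (0 : ℂ) ρ, Wf w d y z = 0 →
    (vd F (y, z) ≠ 0 ↔ (Wp w d y).derivative.eval z ≠ 0)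
  hD : AnalyticOnNhd ℂ D Δ
  Dne : ∃ y ∈ Δ, D y ≠ 0
  sep : ∀ y ∈ Δ, D y ≠ 0 → (Wp w d y).roots.Nodup

variable {F : Y × ℂ → ℂ} {Ω : Set (Y × ℂ)} {Δ : Set Y} {ρ : ℝ} {w : ℕ → Y → ℂ} {d : ℕ} {D : Y → ℂ}

lemma coeff_Wp (w : ℕ → Y → ℂ) (d : ℕ) (y : Y) (k : ℕ) :
    (Wp w d y).coeff k = if k < d + 1 then w k y else 0 := by
  classical
  unfold Wp
  rw [finsetSum_coeff]
  simp only [coeff_C_mul, coeff_X_pow]
  by_cases hk : k < d + 1
  · rw [if_pos hk, Finset.sum_eq_single k]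
    · simp
    · intro j _ hj
      rw [if_neg (Ne.symm hj), mul_zero]
    · intro h
      exact absurd (Finset.mem_range.2 hk) h
  · rw [if_neg hk]
    refine Finset.sum_eq_zero fun j hj => ?_
    rw [Finset.mem_range] at hj
    rw [if_neg (by omega), mul_zero]

lemma degree_Wp_le (w : ℕ → Y → ℂ) (d : ℕ) (y : Y) : (Wp w d y).natDegree ≤ d := by
  rw [natDegree_le_iff_coeff_eq_zero]
  intro k hk
  rw [coeff_Wp, if_neg (by omega)]

lemma WBox.monicWp (B : WBox F Ω Δ ρ w d D) {y : Y} (hy : y ∈ Δ) : (Wp w d y).Monic := by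
  refine monic_of_natDegree_le_of_coeff_eq_one d (degree_Wp_le w d y) ?_
  rw [coeff_Wp, if_pos (Nat.lt_succ_self d), B.monic y hy]

lemma WBox.natDegree (B : WBox F Ω Δ ρ w d D) {y : Y} (hy : y ∈ Δ) : (Wp w d y).natDegree = d := by
  refine le_antisymm (degree_Wp_le w d y) (le_natDegree_of_ne_zero ?_)
  rw [coeff_Wp, if_pos (Nat.lt_succ_self d), B.monic y hy]
  exact one_ne_zero

lemma WBox.mem_roots (B : WBox F Ω Δ ρ w d D) {y : Y} (hy : y ∈ Δ) {z : ℂ} :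
    z ∈ (Wp w d y).roots ↔ z ∈ closedBall (0 : ℂ) ρ ∧ F (y, z) = 0 := by
  rw [Polynomial.mem_roots (B.monicWp hy).ne_zero, IsRoot, eval_Wp]
  constructor
  · intro h
    have h1 := ball_subset_closedBall (B.roots_in y hy z h)
    exact ⟨h1, (B.zeros y hy z h1).2 h⟩
  · rintro ⟨h1, h2⟩
    exact (B.zeros y hy z h1).1 h2

/-- at a separable point the zeros are simple -/
lemma WBox.vd_ne (B : WBox F Ω Δ ρ w d D) {y : Y} (hy : y ∈ Δ) (hD : D y ≠ 0) {z : ℂ}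
    (hz : z ∈ closedBall (0 : ℂ) ρ) (h0 : F (y, z) = 0) : vd F (y, z) ≠ 0 := by
  have h1 : Wf w d y z = 0 := (B.zeros y hy z hz).1 h0
  have hz' := B.roots_in y hy z h1
  rw [B.simple y hy z hz' h1]
  have hr : z ∈ (Wp w d y).roots := (B.mem_roots hy).2 ⟨hz, h0⟩
  have h2 := B.sep y hy hD
  intro h3
  have h4 : 1 < (Wp w d y).rootMultiplicity z := by
    rw [one_lt_rootMultiplicity_iff_isRoot (B.monicWp hy).ne_zero]
    exact ⟨(Polynomial.mem_roots (B.monicWp hy).ne_zero).1 hr, h3⟩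
  have h5 := Multiset.nodup_iff_count_le_one.1 h2 z
  rw [count_roots] at h5
  omega

lemma WBox.ne_sphere (B : WBox F Ω Δ ρ w d D) : ∀ y ∈ Δ, ∀ ζ ∈ sphere (0 : ℂ) ρ,
    Wf w d y ζ ≠ 0 := by
  intro y hy ζ hζ h
  have h1 := B.roots_in y hy ζ h
  rw [mem_sphere] at hζ
  rw [mem_ball] at h1
  linarith

/-- the zero set over a compact set is compact -/
lemma WBox.compact_zero (B : WBox F Ω Δ ρ w d D) {T : Set Y} (hT : IsCompact T) (hTΔ : T ⊆ Δ) :
    IsCompact {p : Y × ℂ | p ∈ T ×ˢ closedBall (0 : ℂ) ρ ∧ F p = 0} := by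
  have h1 : IsCompact (T ×ˢ closedBall (0 : ℂ) ρ) := hT.prod (isCompact_closedBall _ _)
  have h2 : ContinuousOn F (T ×ˢ closedBall (0 : ℂ) ρ) :=
    B.hF.continuousOn.mono fun p hp => B.sub ⟨hTΔ hp.1, hp.2⟩
  have h3 := h2.preimage_isClosed_of_isClosed h1.isClosed (isClosed_singleton (x := (0 : ℂ)))
  exact h1.of_isClosed_subset h3 inter_subset_left

variable [MeasurableSpace Y] [BorelSpace Y] [SecondCountableTopology Y]

/-- uniform bound of the remainders on compact sets -/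
theorem WBox.bound (B : WBox F Ω Δ ρ w d D) (μ : Measure Y) [μ.IsAddHaarMeasure] {q : ℝ}
    (hq : 0 < q) {M : ℝ≥0∞} (hM : M ≠ ∞) {A : Set Y} (hA : IsCompact A) (hAΔ : A ⊆ Δ) :
    ∃ r₀ > 0, ∃ C : ℝ, ∀ r > 0, r ≤ r₀ → ∀ G : Y × ℂ → ℂ, AnalyticOnNhd ℂ G Ω →
      tube μ F Ω r (fun p => ‖G p‖ₑ ^ q) ≤ M * volume (ball (0 : ℂ) r) →
      ∀ y ∈ A, ∀ z ∈ closedBall (0 : ℂ) ρ, ‖Rf w d ρ G y z‖ ≤ C := by
  obtain ⟨T, hT, hTΔ, hTD, hmax⟩ := max_off B.hΔ B.conn B.hD B.Dne hA hAΔ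
  set K : Set (Y × ℂ) := {p : Y × ℂ | p ∈ T ×ˢ closedBall (0 : ℂ) ρ ∧ F p = 0} with hK
  have hKc : IsCompact K := B.compact_zero hT hTΔ
  have hKΩ : K ⊆ Ω := fun p hp => B.sub ⟨hTΔ hp.1.1, hp.1.2⟩
  have hreg : ∀ p ∈ K, F p = 0 → vd F p ≠ 0 := fun p hp h0 =>
    B.vd_ne (hTΔ hp.1.1) (hTD _ hp.1.1) hp.1.2 h0
  obtain ⟨r₀, hr₀, C₁, hC₁, h1⟩ := sup_le μ B.hΩ B.hF hKc hKΩ hreg hq
  -- lower bound of the derivative of the polynomial on the zero set
  have hder : ∃ η > 0, ∀ p ∈ K, η ≤ ‖(Wp w d p.1).derivative.eval p.2‖ := by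
    have hc : ContinuousOn (fun p : Y × ℂ => ‖(Wp w d p.1).derivative.eval p.2‖) K := by
      refine ContinuousOn.norm ?_
      have h2 : (fun p : Y × ℂ => (Wp w d p.1).derivative.eval p.2) = fun p =>
          ∑ j ∈ Finset.range (d + 1), w j p.1 * (j * p.2 ^ (j - 1)) := by
        funext p
        unfold Wp
        rw [derivative_sum, eval_finsetSum]
        refine Finset.sum_congr rfl fun j _ => ?_
        rw [derivative_C_mul, derivative_X_pow]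
        simp
      rw [h2]
      refine continuousOn_finsetSum _ fun j _ => ContinuousOn.mul ?_ (by fun_prop)
      exact ((B.hw j).continuousOn).comp continuous_fst.continuousOn fun p hp => hTΔ hp.1.1
    rcases K.eq_empty_or_nonempty with hKe | hKn
    · exact ⟨1, one_pos, by simp [hKe]⟩
    · obtain ⟨p₀, hp₀, hmin⟩ := hKc.exists_isMinOn hKn hc
      refine ⟨_, ?_, fun p hp => hmin hp⟩
      have h3 := hreg p₀ hp₀ hp₀.2
      have h4 : Wf w d p₀.1 p₀.2 = 0 := (B.zeros _ (hTΔ hp₀.1.1) _ hp₀.1.2).1 hp₀.2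
      rw [← Prod.mk.eta (p := p₀), B.simple _ (hTΔ hp₀.1.1) _
        (B.roots_in _ (hTΔ hp₀.1.1) _ h4) h4] at h3
      exact norm_pos_iff.2 h3
  obtain ⟨η, hη, hder⟩ := hder
  set M' : ℝ := ((C₁ * M) ^ (1 / q)).toReal with hM'
  have hCM : C₁ * M ≠ ∞ := ENNReal.mul_ne_top hC₁ hM
  set C : ℝ := d * (M' * ((2 * ρ) ^ (d - 1) / η)) with hC
  refine ⟨r₀, hr₀, C, fun r hr hrr G hG htube y hy z hz => ?_⟩
  have hvol0 : volume (ball (0 : ℂ) r) ≠ 0 := (measure_ball_pos _ _ hr).ne'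
  have hvolt : volume (ball (0 : ℂ) r) ≠ ∞ := measure_ball_lt_top.ne
  have hGK : ∀ p ∈ K, ‖G p‖ ≤ M' := by
    intro p hp
    have h2 := h1 r hr hrr G hG p hp hp.2
    have h3 : ‖G p‖ₑ ^ q * volume (ball (0 : ℂ) r) ≤ (C₁ * M) * volume (ball (0 : ℂ) r) := by
      refine h2.trans ?_
      rw [mul_assoc]
      exact mul_le_mul' le_rfl htube
    have h4 := (ENNReal.mul_le_mul_iff_left hvol0 hvolt).1 h3
    have h5 : ‖G p‖ₑ ≤ (C₁ * M) ^ (1 / q) := by
      rw [one_div]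
      exact (ENNReal.le_rpow_inv_iff hq).2 h4
    rw [hM', ← toReal_enorm]
    exact ENNReal.toReal_mono (ENNReal.rpow_ne_top_of_nonneg (by positivity) hCM) h5
  have hM'0 : 0 ≤ M' := ENNReal.toReal_nonneg
  have hsubG : DifferentiableOn ℂ G Ω := hG.differentiableOn
  have hT1 : ∀ y ∈ T, ‖Rf w d ρ G y z‖ ≤ C := by
    intro y hyT
    have hyΔ := hTΔ hyT
    have hmon := B.monicWp hyΔ
    have hnd := B.natDegree hyΔ
    have h6 := lagr_bound (W := Wp w d y) (P := Rp w d ρ G y) hmon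
      (by rw [hnd]; exact degree_Rp_lt w d ρ G y) (B.sep y hyΔ (hTD y hyT)) (ρ := ρ) (η := η)
      (M := M') ?_ hη ?_ hM'0 ?_ (z := z) (by simpa using hz)
    · rw [eval_Rp, hnd] at h6
      exact h6
    · intro ξ hξ
      simpa using ((B.mem_roots hyΔ).1 hξ).1
    · intro ξ hξ
      obtain ⟨h7, h8⟩ := (B.mem_roots hyΔ).1 hξ
      exact hder (y, ξ) ⟨⟨hyT, h7⟩, h8⟩
    · intro ξ hξ
      obtain ⟨h7, h8⟩ := (B.mem_roots hyΔ).1 hξ
      have h9 : Wf w d y ξ = 0 := (B.zeros y hyΔ ξ h7).1 h8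
      rw [eval_Rp, Rf_eq B.hρ ?_ (B.ne_sphere y hyΔ) (B.roots_in y hyΔ ξ h9) h9]
      · exact hGK (y, ξ) ⟨⟨hyT, h7⟩, h8⟩
      · exact (diff_slice hG y).mono fun z hz => B.sub ⟨hyΔ, hz⟩
  refine hmax (fun y => Rf w d ρ G y z) ?_ C hT1 y hy
  have h10 := Rf_analytic B.hρ B.hΔ B.sub hsubG B.hw B.ne_sphere
  have h11 : DifferentiableOn ℂ (fun y : Y => (y, z)) Δ :=
    (differentiable_id.prodMk (differentiable_const _)).differentiableOn
  exact DifferentiableOn.comp (g := fun p : Y × ℂ => Rf w d ρ G p.1 p.2) (f := fun y => (y, z))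
    h10.differentiableOn h11 fun y hy => ⟨hy, mem_univ _⟩

/-- the limit of the remainders -/
theorem WBox.limit (B : WBox F Ω Δ ρ w d D) (μ : Measure Y) [μ.IsAddHaarMeasure] {q : ℝ}
    (hq : 0 < q) {M : ℝ≥0∞} (hM : M ≠ ∞) {r : ℕ → ℝ} (hr : ∀ n, 0 < r n)
    (hr0 : Tendsto r atTop (𝓝 0)) {G : ℕ → Y × ℂ → ℂ} (hG : ∀ n, AnalyticOnNhd ℂ (G n) Ω)
    (htube : ∀ n, tube μ F Ω (r n) (fun p => ‖G n p‖ₑ ^ q) ≤ M * volume (ball (0 : ℂ) (r n))) :
    ∃ φ : ℕ → ℕ, StrictMono φ ∧ ∃ g : Y × ℂ → ℂ, AnalyticOnNhd ℂ g (Δ ×ˢ ball (0 : ℂ) ρ) ∧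
      ∀ y ∈ Δ, ∀ z ∈ ball (0 : ℂ) ρ, F (y, z) = 0 →
        Tendsto (fun n => G (φ n) (y, z)) atTop (𝓝 (g (y, z))) := by
  have hUo : IsOpen (Δ ×ˢ ball (0 : ℂ) ρ) := B.hΔ.prod isOpen_ball
  have hRd : ∀ n, DifferentiableOn ℂ (fun p : Y × ℂ => Rf w d ρ (G n) p.1 p.2)
      (Δ ×ˢ ball (0 : ℂ) ρ) := fun n =>
    (Rf_analytic B.hρ B.hΔ B.sub (hG n).differentiableOn B.hw B.ne_sphere).differentiableOn.mono
      fun p hp => ⟨hp.1, mem_univ _⟩
  have hbd : ∀ K ⊆ Δ ×ˢ ball (0 : ℂ) ρ, IsCompact K → ∃ C : ℝ, ∀ᶠ n in atTop, ∀ p ∈ K,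
      ‖Rf w d ρ (G n) p.1 p.2‖ ≤ C := by
    intro K hK hKc
    have hA : IsCompact (Prod.fst '' K) := hKc.image continuous_fst
    have hAΔ : Prod.fst '' K ⊆ Δ := by
      rintro _ ⟨p, hp, rfl⟩
      exact (hK hp).1
    obtain ⟨r₀, hr₀, C, hC⟩ := B.bound μ hq hM hA hAΔ
    refine ⟨C, ?_⟩
    filter_upwards [hr0.eventually (gt_mem_nhds hr₀)] with n hn p hp
    exact hC (r n) (hr n) hn.le (G n) (hG n) (htube n) p.1 ⟨p, hp, rfl⟩ p.2
      (ball_subset_closedBall (hK hp).2)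
  obtain ⟨φ, hφ, g, hg, hlim⟩ := R102.Limits151.montel_exh1 hUo
    (f := fun n (p : Y × ℂ) => Rf w d ρ (G n) p.1 p.2) (D := fun _ => Δ ×ˢ ball (0 : ℂ) ρ) hRd
    (fun K hK _ => Eventually.of_forall fun _ => hK) hbd
  refine ⟨φ, hφ, g, R266.SCV.analyticOnNhd_of_differentiableOn hUo hg, ?_⟩
  intro y hy z hz h0
  have h1 := hlim.tendsto_at (show (y, z) ∈ Δ ×ˢ ball (0 : ℂ) ρ from ⟨hy, hz⟩)
  refine h1.congr fun n => ?_
  have h2 : Wf w d y z = 0 := (B.zeros y hy z (ball_subset_closedBall hz)).1 h0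
  exact Rf_eq B.hρ ((diff_slice (hG (φ n)) y).mono fun z hz => B.sub ⟨hy, hz⟩)
    (B.ne_sphere y hy) hz h2

end

end Crest.Agent.R257.Sh_297
end

-- ▼ part R257/Sh8_297
section

/-!
# Row 257, leaf D-SH (helper297), part 8: measurability of sheet sums, Fatou, the sheet integral of
the limit
-/

set_option autoImplicit false
set_option linter.unusedSectionVars false

open MeasureTheory Set Metric Topology Filter Polynomial
open scoped ENNReal Real

namespace Crest.Agent.R257.Sh_297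

noncomputable section

variable {Y : Type*} [NormedAddCommGroup Y] [NormedSpace ℂ Y] [FiniteDimensional ℂ Y]

/-- the sheet sum over `{F = 0} ∩ K` at `y` -/
def shSum (F : Y × ℂ → ℂ) (K : Set (Y × ℂ)) (φ : Y × ℂ → ℝ≥0∞) (y : Y) : ℝ≥0∞ :=
  ∑' z : {z : ℂ | (y, z) ∈ K ∧ F (y, z) = 0 ∧ vd F (y, z) ≠ 0},
    φ (y, z) / ‖vd F (y, z)‖ₑ ^ 2

/-- the sheet sum over an open set is lower semicontinuous -/
theorem lsc_shSum {K : Set (Y × ℂ)} (hK : IsOpen K) {F : Y × ℂ → ℂ} (hF : AnalyticOnNhd ℂ F K)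
    {φ : Y × ℂ → ℝ≥0∞} (hφ : ContinuousOn φ K) : LowerSemicontinuous (shSum F K φ) := by
  have : CompleteSpace Y := FiniteDimensional.complete ℂ Y
  intro y₀ c hc
  unfold shSum at hc
  rw [ENNReal.tsum_eq_iSup_sum, gt_iff_lt, lt_iSup_iff] at hc
  obtain ⟨s, hs⟩ := hc
  have hloc : ∀ z : {z : ℂ | (y₀, z) ∈ K ∧ F (y₀, z) = 0 ∧ vd F (y₀, z) ≠ 0},
      ∃ ξ : Y → ℂ, ContinuousAt ξ y₀ ∧ ξ y₀ = z ∧
        ∀ᶠ y in 𝓝 y₀, (y, ξ y) ∈ K ∧ F (y, ξ y) = 0 ∧ vd F (y, ξ y) ≠ 0 := by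
    rintro ⟨z, hz, h0, h1⟩
    obtain ⟨δ, hδ, ρ, hρ, B, U, hU, ξ, hξ, h2, h3⟩ := local_data hK hF hz h0 h1
    refine ⟨ξ, (hξ.differentiableAt (ball_mem_nhds _ hδ)).continuousAt, ?_, ?_⟩
    · exact ((h3 _ (mem_of_mem_nhds hU)).2 h0).symm
    · filter_upwards [ball_mem_nhds y₀ hδ] with y hy
      obtain ⟨h4, h5, -, ⟨S⟩⟩ := h2 y hy
      refine ⟨h4, h5, ?_⟩
      have := S.deriv_mul (isOpen_slice hK y) (diff_slice hF y) (mem_ball_self hρ)
      rw [S.zero] at this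
      exact left_ne_zero_of_mul_eq_one this
  choose ξ hξc hξ0 hξe using hloc
  have hvdc : ContinuousOn (vd F) K := (vd_analytic hK hF).continuousOn
  have hterm : ∀ z : {z : ℂ | (y₀, z) ∈ K ∧ F (y₀, z) = 0 ∧ vd F (y₀, z) ≠ 0},
      Tendsto (fun y => φ (y, ξ z y) / ‖vd F (y, ξ z y)‖ₑ ^ 2) (𝓝 y₀)
        (𝓝 (φ (y₀, z) / ‖vd F (y₀, z)‖ₑ ^ 2)) := by
    intro z
    have h1 : Tendsto (fun y => (y, ξ z y)) (𝓝 y₀) (𝓝 (y₀, (z : ℂ))) := by
      have := (continuousAt_id (x := y₀)).prodMk (hξc z)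
      rw [ContinuousAt, id, hξ0 z] at this
      exact this
    have h2 : Tendsto (fun y => φ (y, ξ z y)) (𝓝 y₀) (𝓝 (φ (y₀, z))) :=
      (hφ.continuousAt (hK.mem_nhds z.2.1)).tendsto.comp h1
    have h3 : Tendsto (fun y => ‖vd F (y, ξ z y)‖ₑ ^ 2) (𝓝 y₀) (𝓝 (‖vd F (y₀, z)‖ₑ ^ 2)) :=
      ((ENNReal.continuous_pow 2).tendsto _).comp
        ((continuous_enorm.tendsto _).comp ((hvdc.continuousAt (hK.mem_nhds z.2.1)).tendsto.comp h1))
    refine ENNReal.Tendsto.div h2 (Or.inr ?_) h3 (Or.inl ?_)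
    · simpa using z.2.2.2
    · exact ENNReal.pow_ne_top enorm_ne_top
  have hsum := tendsto_finsetSum s fun z _ => hterm z
  have hev1 : ∀ᶠ y in 𝓝 y₀, c < ∑ z ∈ s, φ (y, ξ z y) / ‖vd F (y, ξ z y)‖ₑ ^ 2 :=
    hsum.eventually (lt_mem_nhds hs)
  have hev2 : ∀ᶠ y in 𝓝 y₀, ∀ z ∈ s, (y, ξ z y) ∈ K ∧ F (y, ξ z y) = 0 ∧ vd F (y, ξ z y) ≠ 0 :=
    (Finset.eventually_all s).2 fun z _ => hξe z
  have hev3 : ∀ᶠ y in 𝓝 y₀, ∀ z ∈ s, ∀ z' ∈ s, z ≠ z' → ξ z y ≠ ξ z' y := by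
    refine (Finset.eventually_all s).2 fun z _ => (Finset.eventually_all s).2 fun z' _ => ?_
    by_cases hzz : z = z'
    · exact Eventually.of_forall fun y h => absurd hzz h
    · have h1 : ξ z y₀ ≠ ξ z' y₀ := by
        rw [hξ0, hξ0]; exact fun h => hzz (Subtype.ext h)
      filter_upwards [((hξc z).ne_iff_eventually_ne (hξc z')).1 h1] with y hy _ using hy
  filter_upwards [hev1, hev2, hev3] with y h1 h2 h3
  refine h1.trans_le ?_
  unfold shSum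
  rw [← Finset.sum_coe_sort]
  set e : s → {z : ℂ | (y, z) ∈ K ∧ F (y, z) = 0 ∧ vd F (y, z) ≠ 0} :=
    fun z => ⟨ξ z y, h2 z z.2⟩ with he
  have hei : Function.Injective e := by
    intro a b hab
    by_contra hne
    refine h3 a a.2 b b.2 (fun h => hne (Subtype.ext h)) ?_
    exact congrArg Subtype.val hab
  have h4 := ENNReal.tsum_comp_le_tsum_of_injective hei
    (fun z => φ (y, z) / ‖vd F (y, z)‖ₑ ^ 2)
  rw [tsum_fintype] at h4
  exact h4

/-- Fatou for the sheet sums -/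
theorem shSum_liminf {K : Set (Y × ℂ)} {F : Y × ℂ → ℂ} {φ : ℕ → Y × ℂ → ℝ≥0∞}
    {ψ : Y × ℂ → ℝ≥0∞} {y : Y}
    (h : ∀ z, (y, z) ∈ K → F (y, z) = 0 → Tendsto (fun n => φ n (y, z)) atTop (𝓝 (ψ (y, z)))) :
    shSum F K ψ y ≤ liminf (fun n => shSum F K (φ n) y) atTop := by
  unfold shSum
  rw [ENNReal.tsum_eq_iSup_sum]
  refine iSup_le fun s => ?_
  have h1 : Tendsto (fun n => ∑ z ∈ s, φ n (y, z) / ‖vd F (y, z)‖ₑ ^ 2) atTop
      (𝓝 (∑ z ∈ s, ψ (y, z) / ‖vd F (y, z)‖ₑ ^ 2)) := by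
    refine tendsto_finsetSum s fun z _ => ?_
    refine ENNReal.Tendsto.div_const (h z z.2.1 z.2.2.1) (Or.inr ?_)
    simpa using z.2.2.2
  rw [← h1.liminf_eq]
  exact liminf_le_liminf (Eventually.of_forall fun n => ENNReal.sum_le_tsum s)

/-- restriction of the sheet integral to a part of the base -/
lemma shInt_restrict [MeasurableSpace Y] [BorelSpace Y] (μ : Measure Y) (F : Y × ℂ → ℂ)
    {T Δ : Set Y} (hT : MeasurableSet T) (hTΔ : T ⊆ Δ) (V : Set ℂ) (φ : Y × ℂ → ℝ≥0∞) :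
    shInt μ F (T ×ˢ V) φ = ∫⁻ y in T, shSum F (Δ ×ˢ V) φ y ∂μ := by
  rw [← lintegral_indicator hT]
  unfold shInt
  refine lintegral_congr fun y => ?_
  by_cases hy : y ∈ T
  · rw [indicator_of_mem hy]
    unfold shSum
    refine tsum_congr_set_coe (fun z : ℂ => φ (y, z) / ‖vd F (y, z)‖ₑ ^ 2) ?_
    ext z
    constructor
    · rintro ⟨⟨h1, h2⟩, h3⟩
      exact ⟨⟨hTΔ h1, h2⟩, h3⟩
    · rintro ⟨⟨h1, h2⟩, h3⟩
      exact ⟨⟨hy, h2⟩, h3⟩
  · rw [indicator_of_notMem hy]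
    have : IsEmpty {z : ℂ | (y, z) ∈ T ×ˢ V ∧ F (y, z) = 0 ∧ vd F (y, z) ≠ 0} :=
      ⟨fun z => hy z.2.1.1⟩
    exact tsum_empty

variable {F : Y × ℂ → ℂ} {Ω : Set (Y × ℂ)} {Δ : Set Y} {ρ : ℝ} {w : ℕ → Y → ℂ} {d : ℕ} {D : Y → ℂ}

variable [MeasurableSpace Y] [BorelSpace Y] [SecondCountableTopology Y]

/-- the discriminant locus is null -/
lemma WBox.null (B : WBox F Ω Δ ρ w d D) (μ : Measure Y) [μ.IsAddHaarMeasure] :
    μ {y | y ∈ Δ ∧ D y = 0} = 0 := by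
  refine measure_null_of_locally_null _ ?_
  rintro y ⟨hy, -⟩
  have h1 := R266.SCV.dense_ne_zero B.hΔ B.conn B.hD B.Dne y hy
  obtain ⟨r, hr, h2⟩ := R271.Local821.eventually_null_zero μ (B.hD y hy)
    (h1.mono fun z hz => hz.2)
  refine ⟨{z | z ∈ ball y r ∧ D z = 0}, ?_, ?_⟩
  · filter_upwards [self_mem_nhdsWithin, mem_nhdsWithin_of_mem_nhds (ball_mem_nhds y hr)] with z
      h3 h4 using ⟨h4, h3.2⟩
  · rw [ae_restrict_iff' measurableSet_ball, ae_iff] at h2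
    refine measure_mono_null ?_ h2
    rintro z ⟨h3, h4⟩ h5
    exact h5 h3 h4

/-- the sheet integral of the limit -/
theorem WBox.sheet_le (B : WBox F Ω Δ ρ w d D) (μ : Measure Y) [μ.IsAddHaarMeasure] {q : ℝ}
    (hq : 0 < q) {M : ℝ≥0∞} {r : ℕ → ℝ} (hr : ∀ n, 0 < r n)
    (hr0 : Tendsto r atTop (𝓝 0)) {G : ℕ → Y × ℂ → ℂ} (hG : ∀ n, AnalyticOnNhd ℂ (G n) Ω)
    (htube : ∀ n, tube μ F Ω (r n) (fun p => ‖G n p‖ₑ ^ q) ≤ M * volume (ball (0 : ℂ) (r n)))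
    {g : Y × ℂ → ℂ}
    (hlim : ∀ y ∈ Δ, ∀ z ∈ ball (0 : ℂ) ρ, F (y, z) = 0 →
        Tendsto (fun n => G n (y, z)) atTop (𝓝 (g (y, z)))) :
    ∫⁻ y in Δ, shSum F (Δ ×ˢ ball (0 : ℂ) ρ) (fun p => ‖g p‖ₑ ^ q) y ∂μ ≤ M := by
  have : FiniteDimensional ℝ Y := FiniteDimensional.complexToReal Y
  have : ProperSpace Y := FiniteDimensional.proper ℝ Y
  set N : Y → ℝ≥0∞ := shSum F (Δ ×ˢ ball (0 : ℂ) ρ) (fun p => ‖g p‖ₑ ^ q) with hN
  set U : Set Y := Δ ∩ D ⁻¹' {w | w ≠ 0} with hU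
  have hUo : IsOpen U := B.hD.continuousOn.isOpen_inter_preimage B.hΔ isOpen_ne
  have hopen : IsOpen (Δ ×ˢ ball (0 : ℂ) ρ) := B.hΔ.prod isOpen_ball
  have hsubΩ : Δ ×ˢ ball (0 : ℂ) ρ ⊆ Ω := fun p hp => B.sub ⟨hp.1, ball_subset_closedBall hp.2⟩
  -- compact sets
  have hcomp : ∀ T : Set Y, IsCompact T → T ⊆ U → ∫⁻ y in T, N y ∂μ ≤ M := by
    intro T hT hTU
    have hTΔ : T ⊆ Δ := fun y hy => (hTU hy).1
    have hKc : IsCompact (T ×ˢ closedBall (0 : ℂ) ρ) := hT.prod (isCompact_closedBall _ _)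
    obtain ⟨r₀, hr₀, hsec⟩ := exists_sec_radius B.hΩ B.hF hKc
      (fun p hp => B.sub ⟨hTΔ hp.1, hp.2⟩)
      (fun p hp h0 => B.vd_ne (hTΔ hp.1) (hTU hp.1).2 hp.2 h0)
    have h1 : ∀ᶠ n in atTop, ∫⁻ y in T, shSum F (Δ ×ˢ ball (0 : ℂ) ρ)
        (fun p => ‖G n p‖ₑ ^ q) y ∂μ ≤ M := by
      filter_upwards [hr0.eventually (gt_mem_nhds hr₀)] with n hn
      rw [← shInt_restrict μ F hT.measurableSet hTΔ]
      have h2 := shInt_le μ B.hΩ B.hF (hG n) (hr n) (K := T ×ˢ ball (0 : ℂ) ρ) (fun p hp h0 _ =>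
        ⟨(hsec p ⟨hp.1, ball_subset_closedBall hp.2⟩ h0).some.restr hn.le⟩) hq
      have h3 := h2.trans (htube n)
      have hvol0 : volume (ball (0 : ℂ) (r n)) ≠ 0 := (measure_ball_pos _ _ (hr n)).ne'
      have hvolt : volume (ball (0 : ℂ) (r n)) ≠ ∞ := measure_ball_lt_top.ne
      exact (ENNReal.mul_le_mul_iff_left hvol0 hvolt).1 h3
    have h4 : ∀ y ∈ T, N y ≤ liminf (fun n => shSum F (Δ ×ˢ ball (0 : ℂ) ρ)
        (fun p => ‖G n p‖ₑ ^ q) y) atTop := by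
      intro y hy
      refine shSum_liminf fun z hz h0 => ?_
      exact ((ENNReal.continuous_rpow_const (y := q)).tendsto _).comp
        ((continuous_enorm.tendsto _).comp (hlim y hz.1 z hz.2 h0))
    have h5 : ∀ n, Measurable (shSum F (Δ ×ˢ ball (0 : ℂ) ρ) (fun p => ‖G n p‖ₑ ^ q)) := fun n =>
      (lsc_shSum hopen (B.hF.mono hsubΩ)
        ((ENNReal.continuous_rpow_const).comp_continuousOn
        (continuous_enorm.comp_continuousOn ((hG n).continuousOn.mono hsubΩ)))).measurable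
    calc ∫⁻ y in T, N y ∂μ ≤ ∫⁻ y in T, liminf (fun n => shSum F (Δ ×ˢ ball (0 : ℂ) ρ)
          (fun p => ‖G n p‖ₑ ^ q) y) atTop ∂μ := setLIntegral_mono' hT.measurableSet h4
      _ ≤ liminf (fun n => ∫⁻ y in T, shSum F (Δ ×ˢ ball (0 : ℂ) ρ)
          (fun p => ‖G n p‖ₑ ^ q) y ∂μ) atTop := lintegral_liminf_le h5
      _ ≤ liminf (fun _ : ℕ => M) atTop := liminf_le_liminf h1
      _ = M := liminf_const M
  -- exhaustion
  have hUint : ∫⁻ y in U, N y ∂μ ≤ M := by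
    obtain ⟨E, hEc, hEU, hEun, hEm⟩ := hUo.exists_iUnion_isClosed
    set E' : ℕ → Set Y := fun n => E n ∩ closedBall 0 n with hE'
    have hE'm : Monotone E' := fun m n hmn => inter_subset_inter (hEm hmn)
      (closedBall_subset_closedBall (by exact_mod_cast hmn))
    have hE'u : ⋃ n, E' n = U := by
      refine subset_antisymm (iUnion_subset fun n => inter_subset_left.trans (hEU n)) ?_
      intro y hy
      rw [← hEun] at hy
      obtain ⟨n, hn⟩ := mem_iUnion.1 hy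
      obtain ⟨m, hm⟩ := exists_nat_ge ‖y‖
      refine mem_iUnion.2 ⟨max n m, hEm (le_max_left _ _) hn, ?_⟩
      rw [mem_closedBall, dist_zero_right]
      exact hm.trans (by exact_mod_cast le_max_right _ _)
    rw [← hE'u, setLIntegral_iUnion_of_directed _ hE'm.directed_le]
    refine iSup_le fun n => hcomp _ ?_ (inter_subset_left.trans (hEU n))
    exact (isCompact_closedBall _ _).inter_left (hEc n)
  calc ∫⁻ y in Δ, N y ∂μ ≤ ∫⁻ y in U ∪ {y | y ∈ Δ ∧ D y = 0}, N y ∂μ := by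
        refine lintegral_mono_set fun y hy => ?_
        by_cases h : D y = 0
        · exact Or.inr ⟨hy, h⟩
        · exact Or.inl ⟨hy, h⟩
    _ ≤ (∫⁻ y in U, N y ∂μ) + ∫⁻ y in {y | y ∈ Δ ∧ D y = 0}, N y ∂μ := lintegral_union_le _ _ _
    _ = ∫⁻ y in U, N y ∂μ := by
        rw [setLIntegral_measure_zero _ _ (B.null μ), add_zero]
    _ ≤ M := hUint

end

end Crest.Agent.R257.Sh_297
end

-- ▼ part R257/Sh9_297

/-!
# Row 257, leaf D-SH (helper297), part 9: existence of Weierstrass boxes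
-/

set_option autoImplicit false
set_option linter.unusedSectionVars false

open MeasureTheory Set Metric Topology Filter Polynomial
open scoped ENNReal Real

namespace Crest.Agent.R257.Sh_297

noncomputable section

open Crest.Agent.R275.Loc2879

universe u

section WP

variable {Y : Type u} [NormedAddCommGroup Y] [NormedSpace ℂ Y] [FiniteDimensional ℂ Y]

lemma gm_sum {E : Type*} [NormedAddCommGroup E] [NormedSpace ℂ E] {p : E} {ι : Type*} (s : Finset ι)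
    (f : ι → E → ℂ) (hf : ∀ i, AnalyticAt ℂ (f i) p) :
    ∑ i ∈ s, gm (f i) (hf i) = gm (fun x => ∑ i ∈ s, f i x)
      (Finset.analyticAt_fun_sum _ fun i _ => hf i) := by
  classical
  induction s using Finset.induction_on with
  | empty =>
    rw [Finset.sum_empty]
    rw [gm_zero, gm_eq_gm]
    exact Eventually.of_forall fun x => by simp
  | insert a s ha ih =>
    rw [Finset.sum_insert ha, ih, gm_add, gm_eq_gm]
    exact Eventually.of_forall fun x => by simp [Finset.sum_insert ha]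

/-- Weierstrass preparation for functions -/
theorem exists_wpoly {F : Y × ℂ → ℂ} {y₀ : Y} (hF : AnalyticAt ℂ F (y₀, 0)) {d : ℕ}
    (hord : analyticOrderAt (fun z => F (y₀, z)) 0 = d) :
    ∃ (w : ℕ → Y → ℂ) (v : Y × ℂ → ℂ), (∀ j, AnalyticAt ℂ (w j) y₀) ∧ (∀ y, w d y = 1) ∧
      (∀ j < d, w j y₀ = 0) ∧ (∀ j, d < j → w j = 0) ∧ AnalyticAt ℂ v (y₀, 0) ∧ v (y₀, 0) ≠ 0 ∧
      ∀ᶠ p in 𝓝 ((y₀, (0 : ℂ)) : Y × ℂ), F p = v p * Wf w d p.1 p.2 := by
  obtain ⟨P, v, hm, hn, hfu, h0⟩ := wprep (reg_iff_order (hF := hF) |>.2 hord)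
  obtain ⟨V, hV, hVe⟩ := exists_gm (v : OO ((y₀, (0 : ℂ)) : Y × ℂ))
  choose w' hw' hw'e using fun j => exists_gm (P.coeff j)
  set w : ℕ → Y → ℂ := fun j => if j < d then w' j else if j = d then 1 else 0 with hw
  have hwa : ∀ j, AnalyticAt ℂ (w j) y₀ := by
    intro j
    simp only [hw]
    split_ifs with h1 h2
    · exact hw' j
    · exact analyticAt_const
    · exact analyticAt_const
  have hwe : ∀ j ∈ Finset.range (d + 1), gm (w j) (hwa j) = P.coeff j := by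
    intro j hj
    rw [Finset.mem_range] at hj
    rcases lt_or_eq_of_le (Nat.lt_succ_iff.1 hj) with h | h
    · rw [← hw'e j, gm_eq_gm]
      refine Eventually.of_forall fun y => ?_
      simp only [hw, if_pos h]
    · have h1 : P.coeff j = 1 := by rw [h, ← hn]; exact hm
      rw [h1, gm_one, gm_eq_gm]
      refine Eventually.of_forall fun y => ?_
      simp only [hw, h, lt_irrefl, if_false, if_true]
  refine ⟨w, V, hwa, ?_, ?_, ?_, hV, ?_, ?_⟩
  · intro y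
    simp only [hw, lt_irrefl, if_false, if_true]
    rfl
  · intro j hj
    have h1 := h0 j hj
    rw [← hw'e j, evp_gm] at h1
    simp only [hw, if_pos hj]
    exact h1
  · intro j hj
    simp only [hw]
    rw [if_neg (by omega), if_neg (by omega)]
  · rw [← isUnit_gm (hf := hV), hVe]
    exact v.isUnit
  · have hfst : ∀ j, AnalyticAt ℂ (fun p : Y × ℂ => w j p.1) (y₀, 0) := fun j =>
      AnalyticAt.comp (g := w j) (f := Prod.fst) (hwa j) analyticAt_fst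
    have hterm : ∀ j, AnalyticAt ℂ (fun p : Y × ℂ => w j p.1 * p.2 ^ j) (y₀, 0) := fun j =>
      (hfst j).mul (analyticAt_snd.pow j)
    have hWa : AnalyticAt ℂ (fun p : Y × ℂ => Wf w d p.1 p.2) (y₀, 0) := by
      exact Finset.analyticAt_fun_sum (f := fun j (p : Y × ℂ) => w j p.1 * p.2 ^ j)
        (Finset.range (d + 1)) fun j _ => hterm j
    have hev : ev y₀ P = gm (p := ((y₀, (0 : ℂ)) : Y × ℂ)) (fun p : Y × ℂ => Wf w d p.1 p.2) hWa := by
      conv_lhs => rw [P.as_sum_range_C_mul_X_pow, hn]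
      rw [map_sum]
      have h1 : ∀ j ∈ Finset.range (d + 1), ev y₀ (C (P.coeff j) * X ^ j) =
          gm (fun p : Y × ℂ => w j p.1 * p.2 ^ j) (hterm j) := by
        intro j hj
        rw [map_mul, map_pow, ev_C, ev_X, ← hwe j hj, iot, pull_gm, Wv, gm_pow, gm_mul, gm_eq_gm]
        exact Eventually.of_forall fun p => by simp
      rw [Finset.sum_congr rfl h1, gm_sum, gm_eq_gm]
      exact Eventually.of_forall fun p => rfl
    rw [hev, ← hVe, gm_mul, gm_eq_gm] at hfu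
    exact hfu

lemma hasDerivAt_Wf (w : ℕ → Y → ℂ) (d : ℕ) (y : Y) (z : ℂ) :
    HasDerivAt (fun z => Wf w d y z) ((Wp w d y).derivative.eval z) z := by
  have h1 := (Wp w d y).hasDerivAt z
  refine h1.congr_of_eventuallyEq (Eventually.of_forall fun z => ?_)
  exact (eval_Wp w d y z).symm

/-- the discriminant -/
def Dsc (w : ℕ → Y → ℂ) (d : ℕ) (y : Y) : ℂ :=
  resultant (Wp w d y) (Wp w d y).derivative d d

lemma Dsc_analytic {w : ℕ → Y → ℂ} {d : ℕ} {y : Y} (hw : ∀ j, AnalyticAt ℂ (w j) y) :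
    AnalyticAt ℂ (Dsc w d) y := by
  have hc : ∀ k, AnalyticAt ℂ (fun y => (Wp w d y).coeff k) y := by
    intro k
    simp_rw [coeff_Wp]
    split_ifs
    · exact hw k
    · exact analyticAt_const
  have hc' : ∀ k, AnalyticAt ℂ (fun y => (Wp w d y).derivative.coeff k) y := by
    intro k
    simp_rw [coeff_derivative]
    exact (hc _).mul analyticAt_const
  have hent : ∀ i j, AnalyticAt ℂ (fun y =>
      sylvester (Wp w d y) (Wp w d y).derivative d d i j) y := by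
    intro i j
    refine Fin.addCases (fun j₁ => ?_) (fun j₁ => ?_) j
    · simp only [sylvester, Matrix.of_apply, Fin.addCases_left]
      split_ifs
      · exact hc' _
      · exact analyticAt_const
    · simp only [sylvester, Matrix.of_apply, Fin.addCases_right]
      split_ifs
      · exact hc _
      · exact analyticAt_const
  unfold Dsc resultant
  simp_rw [Matrix.det_apply']
  refine Finset.analyticAt_fun_sum _ fun σ _ => ?_
  refine analyticAt_const.fun_mul ?_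
  exact Finset.analyticAt_fun_prod _ fun i _ => hent _ _

lemma Dsc_ne_zero_iff {w : ℕ → Y → ℂ} {d : ℕ} {y : Y} (hw : w d y = 1) :
    Dsc w d y ≠ 0 ↔ ∀ z, Wf w d y z = 0 → (Wp w d y).derivative.eval z ≠ 0 := by
  have hm : (Wp w d y).Monic := by
    refine monic_of_natDegree_le_of_coeff_eq_one d (degree_Wp_le w d y) ?_
    rw [coeff_Wp, if_pos (Nat.lt_succ_self d), hw]
  have hn : (Wp w d y).natDegree = d := by
    refine le_antisymm (degree_Wp_le w d y) (le_natDegree_of_ne_zero ?_)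
    rw [coeff_Wp, if_pos (Nat.lt_succ_self d), hw]
    exact one_ne_zero
  have h1 := resultant_eq_prod_eval (Wp w d y) (Wp w d y).derivative d
    ((natDegree_derivative_le _).trans (by omega)) (IsAlgClosed.splits _)
  rw [hn, hm.leadingCoeff, one_pow, one_mul] at h1
  unfold Dsc
  rw [h1, ne_eq, Multiset.prod_eq_zero_iff, Multiset.mem_map]
  constructor
  · intro h z hz hz'
    refine h ⟨z, ?_, hz'⟩
    rw [Polynomial.mem_roots hm.ne_zero, IsRoot, eval_Wp]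
    exact hz
  · rintro h ⟨z, hz, hz'⟩
    rw [Polynomial.mem_roots hm.ne_zero, IsRoot, eval_Wp] at hz
    exact h z hz hz'

lemma nodup_of_Dsc {w : ℕ → Y → ℂ} {d : ℕ} {y : Y} (hw : w d y = 1) (h : Dsc w d y ≠ 0) :
    (Wp w d y).roots.Nodup := by
  have hm : (Wp w d y).Monic := by
    refine monic_of_natDegree_le_of_coeff_eq_one d (degree_Wp_le w d y) ?_
    rw [coeff_Wp, if_pos (Nat.lt_succ_self d), hw]
  rw [Dsc_ne_zero_iff hw] at h
  rw [Multiset.nodup_iff_count_le_one]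
  intro z
  rw [count_roots]
  by_contra hc
  rw [not_le, one_lt_rootMultiplicity_iff_isRoot hm.ne_zero] at hc
  exact h z (by rw [← eval_Wp]; exact hc.1) hc.2

lemma root_bound {w : ℕ → Y → ℂ} {d : ℕ} {y : Y} (hw1 : w d y = 1) {ρ : ℝ} (hρ : 0 < ρ)
    (hb : ∀ j < d, ‖w j y‖ < ρ ^ (d - j) / (d + 1)) {z : ℂ} (hz : Wf w d y z = 0) : ‖z‖ < ρ := by
  by_contra hcon
  push Not at hcon
  have hz0 : 0 < ‖z‖ := hρ.trans_le hcon
  have h1 : z ^ d = - ∑ j ∈ Finset.range d, w j y * z ^ j := by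
    unfold Wf at hz
    rw [Finset.sum_range_succ, hw1, one_mul] at hz
    linear_combination hz
  have h2 : ‖z‖ ^ d ≤ d * (‖z‖ ^ d / (d + 1)) := by
    calc ‖z‖ ^ d = ‖∑ j ∈ Finset.range d, w j y * z ^ j‖ := by rw [← norm_pow, h1, norm_neg]
      _ ≤ ∑ j ∈ Finset.range d, ‖w j y * z ^ j‖ := norm_sum_le _ _
      _ ≤ ∑ j ∈ Finset.range d, ‖z‖ ^ d / (d + 1) := by
        refine Finset.sum_le_sum fun j hj => ?_
        rw [Finset.mem_range] at hj
        rw [norm_mul, norm_pow]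
        calc ‖w j y‖ * ‖z‖ ^ j ≤ (ρ ^ (d - j) / (d + 1)) * ‖z‖ ^ j := by
              gcongr
              exact (hb j hj).le
          _ ≤ (‖z‖ ^ (d - j) / (d + 1)) * ‖z‖ ^ j := by gcongr
          _ = ‖z‖ ^ d / (d + 1) := by
              rw [div_mul_eq_mul_div, ← pow_add, Nat.sub_add_cancel hj.le]
      _ = _ := by rw [Finset.sum_const, Finset.card_range, nsmul_eq_mul]
  have h3 : 0 < ‖z‖ ^ d := by positivity
  have h4 : d * (‖z‖ ^ d / (d + 1)) < ‖z‖ ^ d := by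
    rw [← mul_div_assoc, div_lt_iff₀ (by positivity)]
    nlinarith
  linarith

/-- existence of Weierstrass boxes -/
theorem exists_wbox {F : Y × ℂ → ℂ} {Ω : Set (Y × ℂ)} (hΩ : IsOpen Ω)
    (h0 : ((0 : Y), (0 : ℂ)) ∈ Ω) (hF : AnalyticOnNhd ℂ F Ω) {d : ℕ}
    (hord : analyticOrderAt (fun z => F (0, z)) 0 = d) {δ' : ℝ} (hδ' : 0 < δ')
    (hs : ∃ᶠ y in 𝓝 (0 : Y), ∀ z ∈ ball (0 : ℂ) δ', F (y, z) = 0 → vd F (y, z) ≠ 0) :
    ∃ ρ > 0, ρ ≤ δ' ∧ ∃ (w : ℕ → Y → ℂ) (D : Y → ℂ), ∃ δ₀ > 0, ∀ δ > 0, δ ≤ δ₀ →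
      WBox F Ω (ball 0 δ) ρ w d D := by
  obtain ⟨w, v, hwa, hw1, hw0, hwz, hv, hv0, hFe⟩ := exists_wpoly (hF _ h0) hord
  have hev : ∀ᶠ p in 𝓝 (((0 : Y), (0 : ℂ)) : Y × ℂ), p ∈ Ω ∧ AnalyticAt ℂ v p ∧ v p ≠ 0 ∧
      F p = v p * Wf w d p.1 p.2 := by
    filter_upwards [hΩ.mem_nhds h0, hv.eventually_analyticAt, hv.continuousAt.eventually_ne hv0,
      hFe] with p h1 h2 h3 h4 using ⟨h1, h2, h3, h4⟩
  obtain ⟨ε, hε, hεb⟩ := Metric.eventually_nhds_iff_ball.1 hev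
  set ρ : ℝ := min (ε / 2) δ' with hρdef
  have hρ : 0 < ρ := lt_min (by positivity) hδ'
  have hρε : ρ < ε := (min_le_left _ _).trans_lt (by linarith)
  have hw2 : ∀ᶠ y in 𝓝 (0 : Y), ∀ j ∈ Finset.range d, ‖w j y‖ < ρ ^ (d - j) / (d + 1) := by
    refine (Finset.eventually_all _).2 fun j hj => ?_
    rw [Finset.mem_range] at hj
    refine (hwa j).continuousAt.norm.tendsto.eventually (gt_mem_nhds ?_)
    rw [hw0 j hj, norm_zero]
    positivity
  have hw3 : ∀ᶠ y in 𝓝 (0 : Y), ∀ j ∈ Finset.range (d + 1), AnalyticAt ℂ (w j) y :=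
    (Finset.eventually_all _).2 fun j _ => (hwa j).eventually_analyticAt
  obtain ⟨δ₁, hδ₁, hδ₁b⟩ := Metric.eventually_nhds_iff_ball.1 (hw2.and hw3)
  have han : ∀ y ∈ ball (0 : Y) δ₁, ∀ j, AnalyticAt ℂ (w j) y := by
    intro y hy j
    rcases lt_or_ge d j with h | h
    · rw [hwz j h]; exact analyticAt_const
    · exact (hδ₁b y hy).2 j (Finset.mem_range.2 (by omega))
  refine ⟨ρ, hρ, min_le_right _ _, w, Dsc w d, min δ₁ (ε / 2), lt_min hδ₁ (by positivity),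
    fun δ hδ hδle => ?_⟩
  have hδ1 : ∀ y ∈ ball (0 : Y) δ, y ∈ ball (0 : Y) δ₁ := fun y hy =>
    ball_subset_ball (hδle.trans (min_le_left _ _)) hy
  have hmem : ∀ y ∈ ball (0 : Y) δ, ∀ z ∈ closedBall (0 : ℂ) ρ,
      (y, z) ∈ ball (((0 : Y), (0 : ℂ)) : Y × ℂ) ε := by
    intro y hy z hz
    rw [mem_ball, Prod.dist_eq, max_lt_iff]
    have h1 : dist y 0 < δ := hy
    have h2 : dist z 0 ≤ ρ := hz
    have h3 : δ ≤ ε / 2 := hδle.trans (min_le_right _ _)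
    constructor
    · simpa using h1.trans_le (by linarith)
    · simpa using h2.trans_lt hρε
  have hroots : ∀ y ∈ ball (0 : Y) δ, ∀ z, Wf w d y z = 0 → z ∈ ball (0 : ℂ) ρ := by
    intro y hy z hz
    rw [mem_ball, dist_zero_right]
    exact root_bound (hw1 y) hρ (fun j hj => (hδ₁b y (hδ1 y hy)).1 j (Finset.mem_range.2 hj)) hz
  have hzer : ∀ y ∈ ball (0 : Y) δ, ∀ z ∈ closedBall (0 : ℂ) ρ,
      (F (y, z) = 0 ↔ Wf w d y z = 0) := by
    intro y hy z hz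
    obtain ⟨-, -, h3, h4⟩ := hεb _ (hmem y hy z hz)
    rw [h4, mul_eq_zero, or_iff_right h3]
  have hsim : ∀ y ∈ ball (0 : Y) δ, ∀ z ∈ ball (0 : ℂ) ρ, Wf w d y z = 0 →
      (vd F (y, z) ≠ 0 ↔ (Wp w d y).derivative.eval z ≠ 0) := by
    intro y hy z hz hW
    have hm := hmem y hy z (ball_subset_closedBall hz)
    obtain ⟨-, h2, h3, -⟩ := hεb _ hm
    have h5 : HasDerivAt (fun z => v (y, z)) (deriv (fun z => v (y, z)) z) z := by
      have h6 : DifferentiableAt ℂ (fun z : ℂ => ((y, z) : Y × ℂ)) z :=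
        (differentiableAt_const y).prodMk differentiableAt_id
      exact (h2.differentiableAt.comp z h6).hasDerivAt
    have h7 := h5.mul (hasDerivAt_Wf w d y z)
    rw [hW, mul_zero, zero_add] at h7
    have h8 : (fun z => F (y, z)) =ᶠ[𝓝 z] fun z => v (y, z) * Wf w d y z := by
      have h9 : ∀ᶠ z' in 𝓝 z, (y, z') ∈ ball (((0 : Y), (0 : ℂ)) : Y × ℂ) ε :=
        (isOpen_ball.preimage (by fun_prop : Continuous fun z' : ℂ => ((y, z') : Y × ℂ))).mem_nhds hm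
      filter_upwards [h9] with z' hz'
      exact (hεb _ hz').2.2.2
    have h10 : vd F (y, z) = v (y, z) * (Wp w d y).derivative.eval z :=
      (h7.congr_of_eventuallyEq h8).deriv
    rw [h10, mul_ne_zero_iff, and_iff_right h3]
  refine ⟨hΩ, isOpen_ball, (convex_ball (0 : Y) δ).isPreconnected, hρ, ?_, hF, ?_, fun y _ => hw1 y,
    hzer, hroots, hsim, ?_, ?_, ?_⟩
  · rintro ⟨y, z⟩ ⟨hy, hz⟩
    exact (hεb _ (hmem y hy z hz)).1
  · exact fun j y hy => han y (hδ1 y hy) j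
  · exact fun y hy => Dsc_analytic (han y (hδ1 y hy))
  · obtain ⟨y, hy, hyδ⟩ := (hs.and_eventually (ball_mem_nhds (0 : Y) hδ)).exists
    refine ⟨y, hyδ, (Dsc_ne_zero_iff (hw1 y)).2 fun z hz => ?_⟩
    have h1 := hroots y hyδ z hz
    rw [← hsim y hyδ z h1 hz]
    exact hy z (ball_subset_ball (min_le_right _ _) h1)
      ((hzer y hyδ z (ball_subset_closedBall h1)).2 hz)
  · exact fun y _ hy => nodup_of_Dsc (hw1 y) hy

end WP

end

end Crest.Agent.R257.Sh_297
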