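import Crest.Agent.R257.OrdC_578
import Crest.Agent.R257.IrrB_331
import Crest.Agent.R257.Sh9_297
import Crest.Agent.R257.T0_387
import Crest.Agent.R257.T7_387

-- ▼ part R257/OrdD_578
section

/-!
# Row 257, part C, `OrdStmt` (helper578), part D: the degree formula for the components of `II U`

`raw1`, `raw2` : the branches ending at the special points, and at infinity, as `Raw`;
`deg_E`        : the degree formula.
-/

set_option autoImplicit false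
set_option linter.unusedSectionVars false

open Polynomial Set Filter Topology Metric
open Crest.AlgGeometry.Germ Crest.Agent.R257.AJ387

noncomputable section

namespace Crest.Agent.R257.OrdA_578

open Crest.Agent.R257.T387 Crest.Agent.R257.OrdL_578 Crest.Agent.R257.Deg_578
open Crest.Agent.R257.OrdT_578 Crest.Agent.R257.BP_258 Crest.Agent.R257.Br_578
open Crest.Agent.R257.Gr1_157
open Crest.Agent.R257.Frm_547 (Z2 Sh1 Step Cmp cl fib Att LocBr Eqv)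

variable {f : (Fin 3 → ℂ) → ℂ} {T : TB f} {U : Tub T} {S : Sh T}
variable (L : Lab U S) {hS : T.SheetsStmt} {hR : RetStmt U} {g : (Fin 3 → ℂ) → ℂ} {vo : II U → ℕ}

variable (T) in
/-- ramification of the branch `α = 0` -/
def ll : Ch T.m → ℕ
  | .edge _ k k' => T.M * (k' - k)
  | .leg _ => T.M
  | .vert _ _ _ => 1

/-- `1` for edges, `0` for legs -/
def ep' {m : ℕ} : Ch m → ℕ
  | .edge _ _ _ => 1
  | .leg _ => 0
  | .vert _ _ _ => 0

theorem ev_small {r : ℝ} (hr : 0 < r) : ∀ᶠ β in 𝓝[≠] (0 : ℂ), ‖β‖ < r := by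
  refine nhdsWithin_le_nhds ?_
  filter_upwards [ball_mem_nhds (0 : ℂ) hr] with t ht
  simpa using ht

theorem SC.ll_pos {v : Vtx} {c₀ : ℂ} {c : Ch T.m} (h : SC S v c₀ c) : 0 < ll T c := by
  rcases v1_cases h.ok h.v1 with ⟨l, k, k', rfl, h0, rfl, hcons⟩ | ⟨l, rfl, rfl⟩ |
    ⟨l, k, w, rfl, rfl, hk, hw⟩
  · have := hcons.2.2.1
    exact Nat.mul_pos T.M_pos (by omega)
  · exact T.M_pos
  · exact one_pos

theorem SC.Wf {v : Vtx} {c₀ : ℂ} {c : Ch T.m} (h : SC S v c₀ c) (β : ℂ) :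
    Wf T (S.ci v) v.1 c (0, β) = c₀ + β ^ ll T c := by
  obtain ⟨hok, hv1, hnv, hco⟩ := h
  rcases v1_cases hok hv1 with ⟨l, k, k', rfl, h0, rfl, hcons⟩ | ⟨l, rfl, rfl⟩ |
    ⟨l, k, w, rfl, rfl, hk, hw⟩
  · have hkl : k ∈ T.lev l := hcons.1.resolve_left h0
    have he : Eqv T k (S.ci (vx T l k)) l := (Vx_331.ci_eqv S hkl).symm
    have hv : vx T l k ∈ Vs T := (Vx_331.mem_Vs T).2 ⟨l, k, hkl, rfl⟩
    have h1 := shD_ci (S := S) hv (l := l) he
    have h2 : (vx T l k).1 = k := rfl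
    rw [← hco]
    show shD T k (S.ci (vx T l k)) l ((0 * β) ^ T.M) +
      (if k = k then β ^ (T.M * (k' - k)) else _) = BP_258.co T l k + β ^ (T.M * (k' - k))
    rw [if_pos rfl, zero_mul, zero_pow T.M_pos.ne']
    rw [h2] at h1
    rw [h1]
  · have hkl : T.top l ∈ T.lev l := T.top_mem l
    have he : Eqv T (T.top l) (S.ci (vx T l (T.top l))) l := (Vx_331.ci_eqv S hkl).symm
    have hv : vx T l (T.top l) ∈ Vs T := (Vx_331.mem_Vs T).2 ⟨l, _, hkl, rfl⟩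
    have h1 := shD_ci (S := S) hv (l := l) he
    have h2 : (vx T l (T.top l)).1 = T.top l := rfl
    rw [← hco]
    show shD T (T.top l) (S.ci (vx T l (T.top l))) l ((0 : ℂ) ^ T.M) + β ^ T.M =
      BP_258.co T l (T.top l) + β ^ T.M
    rw [zero_pow T.M_pos.ne']
    rw [h2] at h1
    rw [h1]
  · exact absurd trivial hnv

theorem SC.uf {v : Vtx} {c₀ : ℂ} {c : Ch T.m} (h : SC S v c₀ c) (β : ℂ) :
    uf c (0, β) = β ^ ep' c := by
  cases c with
  | edge i k k' => exact (pow_one β).symm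
  | leg i => exact (pow_zero β).symm
  | vert i k w => exact (pow_zero β).symm

/-- the branch of an edge or leg chart ending at a special point -/
theorem raw1 (hS : T.SheetsStmt) (hR : RetStmt U) (E : II U) {c₀ : ℂ} {c : Ch T.m}
    (h : SC S E.1.1 c₀ c) {G : Fin T.d → ℂ × ℂ → ℂ} (hG : ∀ j, PFac L g vo c j 0 (G j)) :
    ∃ B : Raw T (S.ci E.1.1) E.1.1.1,
      B.Ok g (cmpE S hS hR E) (vo E) (fun β => c₀ + β ^ ll T c) ∧
      (∀ j, B.e j = cmpE S hS hR E ↔ L.e1 c j = some E) ∧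
      (∀ j, B.v j = (yn vo (L.e2 c j) : ℤ) - ep' c * vo E) ∧ ∀ j, B.H j 0 = G j 0 := by
  choose E' hE' using fun j => lab1 L h.ok j E.1.2 h.v1
  have he : ∀ j, (cmpEquiv (hyp S hS hR E.1.2) (E' j) = cmpE S hS hR E ↔ L.e1 c j = some E) := by
    intro j
    rw [hE' j]
    constructor
    · intro h1
      have h2 : E' j = E.2 := (cmpEquiv (hyp S hS hR E.1.2)).injective h1
      rw [h2]
    · intro h1
      have h2 : (⟨⟨E.1.1, E.1.2⟩, E' j⟩ : II U) = E := Option.some.inj h1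
      have h3 : (⟨⟨E.1.1, E.1.2⟩, E' j⟩ : II U) = ⟨⟨E.1.1, E.1.2⟩, E.2⟩ := h2
      have h4 : E' j = E.2 := by
        have := (Sigma.mk.inj h3).2
        exact eq_of_heq this
      rw [h4]
      rfl
  refine ⟨⟨T.map c, Wf T (S.ci E.1.1) E.1.1.1 c, uf c, S.ζ c,
    fun j => cmpEquiv (hyp S hS hR E.1.2) (E' j), fun j => (yn vo (L.e2 c j) : ℤ) - ep' c * vo E,
    fun j β => G j (0, β)⟩, ⟨?_, ?_⟩, he, fun j => rfl, fun j => rfl⟩
  · filter_upwards [ev_small (S.pos c), self_mem_nhdsWithin] with β h1 h2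
    have hb2 : ‖β‖ < 2 * S.r c := by have := S.pos c; linarith
    refine ⟨brp1 h.ok h.v1 hb2 (Or.inl h2), h.Wf β, fun j x hx => ?_⟩
    exact label1 L hS hR h.ok (hE' j) h1.le (Or.inl h2) hx
  · intro j hj
    have hj' : L.e1 c j = some E := (he j).1 hj
    refine ⟨an_ax (hG j).an, (hG j).ne1 rfl (by rw [hj']; exact Option.some_ne_none _), ?_⟩
    have heq := (hG j).eq
    rw [hj'] at heq
    have h2 := lc_of_fac (b := 0) (hG j).an heq
    filter_upwards [h2.filter_mono nhdsWithin_le_nhds, self_mem_nhdsWithin] with β h3 h4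
    show lc (gc S g c j) (yn vo (some E)) β = _
    rw [h3]
    show _ = uf c (0, β) ^ vo E * (β ^ ((yn vo (L.e2 c j) : ℤ) - ep' c * vo E) * G j (0, β))
    have h4' : β ≠ 0 := h4
    rw [h.uf β, ← mul_assoc]
    congr 1
    rw [← pow_mul, ← zpow_natCast, ← zpow_natCast, ← zpow_add₀ h4']
    congr 1
    push_cast
    ring

/-- the branch of the parent edge, at infinity -/
theorem raw2 (hS : T.SheetsStmt) (hR : RetStmt U) (E : II U)
    {G : Fin T.d → ℂ × ℂ → ℂ} (hG : ∀ j, PFac L g vo (ec S E.1.1) j 0 (G j)) :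
    ∃ B : Raw T (S.ci E.1.1) E.1.1.1,
      B.Ok g (cmpE S hS hR E) (vo E) (fun β => (β ^ (T.M * (E.1.1.1 - S.kp E.1.1)))⁻¹) ∧
      (∀ j, B.e j = cmpE S hS hR E ↔ L.e2 (ec S E.1.1) j = some E) ∧
      (∀ j, B.v j = (yn vo (L.e1 (ec S E.1.1) j) : ℤ) - vo E) ∧ ∀ j, B.H j 0 = G j 0 := by
  have hok : Ok S (ec S E.1.1) := ok_ec E.1.2
  have hv2 : v2 T (ec S E.1.1) = some E.1.1 := by
    show some (vx T (S.ci E.1.1) E.1.1.1) = _
    rw [Vx_331.ci_vx S E.1.2]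
  choose E' hE' using fun j => lab2 L hok j E.1.2 hv2
  have he : ∀ j, (cmpEquiv (hyp S hS hR E.1.2) (E' j) = cmpE S hS hR E ↔
      L.e2 (ec S E.1.1) j = some E) := by
    intro j
    rw [hE' j]
    constructor
    · intro h1
      have h2 : E' j = E.2 := (cmpEquiv (hyp S hS hR E.1.2)).injective h1
      rw [h2]
    · intro h1
      have h3 : (⟨⟨E.1.1, E.1.2⟩, E' j⟩ : II U) = ⟨⟨E.1.1, E.1.2⟩, E.2⟩ := Option.some.inj h1
      have h4 : E' j = E.2 := eq_of_heq (Sigma.mk.inj h3).2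
      rw [h4]
      rfl
  refine ⟨⟨fun q => T.map (ec S E.1.1) (q.2, q.1),
    fun q => Wf T (S.ci E.1.1) E.1.1.1 (ec S E.1.1) (q.2, q.1), fun q => q.2,
    fun j q => S.ζ (ec S E.1.1) j (q.2, q.1),
    fun j => cmpEquiv (hyp S hS hR E.1.2) (E' j),
    fun j => (yn vo (L.e1 (ec S E.1.1) j) : ℤ) - vo E,
    fun j β => G j (β, 0)⟩, ⟨?_, ?_⟩, he, fun j => rfl, fun j => rfl⟩
  · filter_upwards [ev_small (S.pos (ec S E.1.1)), self_mem_nhdsWithin] with β h1 h2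
    have hb2 : ‖β‖ < 2 * S.r (ec S E.1.1) := by have := S.pos (ec S E.1.1); linarith
    refine ⟨brp2 E.1.2 hb2 h2, ?_, fun j x hx => ?_⟩
    · have hk : E.1.1.1 ≠ S.kp E.1.1 := (S.kp_cons _ E.1.2).2.2.1.ne'
      show shD T E.1.1.1 (S.ci E.1.1) (S.ci E.1.1) ((β * 0) ^ T.M) +
        (if E.1.1.1 = S.kp E.1.1 then _ else (β ^ (T.M * (E.1.1.1 - S.kp E.1.1)))⁻¹) = _
      rw [if_neg hk, shD_self, zero_add]
    · exact label2 L hS hR hok (hE' j) h1.le h2 hx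
  · intro j hj
    have hj' : L.e2 (ec S E.1.1) j = some E := (he j).1 hj
    have hGs : AnalyticAt ℂ (sw (G j)) (0, 0) := sw_an' (hG j).an
    refine ⟨an_ax hGs, (hG j).ne2 rfl (by rw [hj']; exact Option.some_ne_none _), ?_⟩
    have heq : ∀ᶠ p in 𝓝 ((0 : ℂ), (0 : ℂ)), sw (gc S g (ec S E.1.1) j) p =
        p.1 ^ vo E * p.2 ^ yn vo (L.e1 (ec S E.1.1) j) * sw (G j) p := by
      have h3 := (sw_tendsto ((0 : ℂ), (0 : ℂ))).eventually (hG j).eq
      rw [hj'] at h3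
      filter_upwards [h3] with p hp
      show gc S g (ec S E.1.1) j (p.2, p.1) = _
      rw [hp]
      show p.2 ^ _ * p.1 ^ vo E * _ = _
      rw [mul_comm (p.2 ^ _)]
      rfl
    have h2 := lc_of_fac hGs heq
    filter_upwards [h2.filter_mono nhdsWithin_le_nhds, self_mem_nhdsWithin] with β h3 h4
    show lc (sw (gc S g (ec S E.1.1) j)) (vo E) β = _
    rw [h3]
    show β ^ _ * G j (β, 0) = β ^ vo E *
      (β ^ ((yn vo (L.e1 (ec S E.1.1) j) : ℤ) - vo E) * G j (β, 0))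
    have h4' : β ≠ 0 := h4
    rw [← mul_assoc]
    congr 1
    rw [← zpow_natCast, ← zpow_natCast, ← zpow_add₀ h4']
    congr 1
    ring

theorem yo_yn (o : Option (II U)) : yo (fun i => (vo i : ℝ)) o = (yn vo o : ℝ) := by
  cases o with
  | none => simp [yo, yn]
  | some a => rfl

open Classical in
/-- **the degree formula for the components of `II U`** -/
theorem deg_E [Fintype (II U)] (hg : AnalyticAt ℂ g 0) (hvo : IsVo S hS hR g vo) (E : II U)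
    {G : Ch T.m → Fin T.d → ℂ × ℂ → ℂ}
    (hG : ∀ c, Ok S c → ∀ j, (L.e1 c j ≠ none ∨ L.e2 c j ≠ none) → PFac L g vo c j 0 (G c j)) :
    dg (Mx L) (fun i => (vo i : ℝ)) E ≤ 0 ∧ (dg (Mx L) (fun i => (vo i : ℝ)) E = 0 →
      (∀ x : Frm_547.X T (S.ci E.1.1) E.1.1.1, cl T x = cmpE S hS hR E →
        Lw T g (S.ci E.1.1) E.1.1.1 (vo E) x.1.1 x.1.2 ≠ 0) ∧
      (∀ c, Ok S c → ¬ IsV c → ∀ j, L.e1 c j = some E → G c j 0 ≠ 0) ∧
      ∀ c, Ok S c → ∀ j, L.e2 c j = some E → G c j 0 ≠ 0) := by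
  set v : Vtx := E.1.1 with hvdef
  have hv : v ∈ Vs T := E.1.2
  have hlab1 : ∀ c, Ok S c → v1 T c = some v → ∀ j, L.e1 c j ≠ none := by
    intro c hc h1 j
    obtain ⟨E', hE'⟩ := lab1 L hc j hv h1
    rw [hE']
    exact Option.some_ne_none _
  have hokv : Ok S (ec S v) := ok_ec hv
  have hv2 : v2 T (ec S v) = some v := by
    show some (vx T (S.ci v) v.1) = _
    rw [Vx_331.ci_vx S hv]
  have hlab2 : ∀ j, L.e2 (ec S v) j ≠ none := by
    intro j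
    obtain ⟨E', hE'⟩ := lab2 L hokv j hv hv2
    rw [hE']
    exact Option.some_ne_none _
  -- the charts at the special points
  have hex : ∀ c₀ : ℂ, ∃ c : Ch T.m, c₀ ∈ T.Sp (S.ci v) v.1 → SC S v c₀ c := by
    intro c₀
    by_cases h : c₀ ∈ T.Sp (S.ci v) v.1
    · obtain ⟨c, hc⟩ := exists_SC S ((Vx_331.ci_mem_sp S hv).2 h) hv
      exact ⟨c, fun _ => hc⟩
    · exact ⟨.leg ⟨0, T.m_pos⟩, fun h' => absurd h' h⟩
  choose ch hch using hex
  have hex2 : ∀ c₀ : ℂ, ∃ B : Raw T (S.ci v) v.1, c₀ ∈ T.Sp (S.ci v) v.1 →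
      B.Ok g (cmpE S hS hR E) (vo E) (fun β => c₀ + β ^ ll T (ch c₀)) ∧
      (∀ j, B.e j = cmpE S hS hR E ↔ L.e1 (ch c₀) j = some E) ∧
      (∀ j, B.v j = (yn vo (L.e2 (ch c₀) j) : ℤ) - ep' (ch c₀) * vo E) ∧
      ∀ j, B.H j 0 = G (ch c₀) j 0 := by
    intro c₀
    by_cases h : c₀ ∈ T.Sp (S.ci v) v.1
    · have hc := hch c₀ h
      obtain ⟨B, hB⟩ := raw1 L hS hR E hc (G := G (ch c₀))
        (fun j => hG _ hc.ok j (Or.inl (hlab1 _ hc.ok hc.v1 j)))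
      exact ⟨B, fun _ => hB⟩
    · exact ⟨⟨fun _ => 0, fun _ => 0, fun _ => 0, fun _ _ => 0, fun _ => cmpE S hS hR E, fun _ => 0,
        fun _ _ => 0⟩, fun h' => absurd h' h⟩
  choose B hB using hex2
  obtain ⟨B', hB'⟩ := raw2 L hS hR E (G := G (ec S v)) (fun j => hG _ hokv j (Or.inr (hlab2 j)))
  have hcons := S.kp_cons v hv
  have hl' : 0 < T.M * (v.1 - S.kp v) := by
    have := hcons.2.2.1
    exact Nat.mul_pos T.M_pos (by omega)
  have key := deg_vertex hS hg (Vx_331.ci_lev S hv) (hvo E) (B := B) (B' := B')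
    (l := fun c₀ => ll T (ch c₀)) (fun c₀ hc₀ => (hch c₀ hc₀).ll_pos) hl'
    (fun c₀ hc₀ => (hB c₀ hc₀).1) hB'.1
  -- identification of the sums
  set F : Ch T.m → ℝ := fun c => ∑ j, (if L.e1 c j = some E then
    ((yn vo (L.e2 c j) : ℝ) - ep' c * vo E) / ll T c else 0) with hF
  have s1 : ∑ c₀ ∈ T.Sp (S.ci v) v.1, ∑ j, (if (B c₀).e j = cmpE S hS hR E then
      ((B c₀).v j : ℝ) / ll T (ch c₀) else 0) = ∑ c₀ ∈ T.Sp (S.ci v) v.1, F (ch c₀) := by
    refine Finset.sum_congr rfl fun c₀ hc₀ => Finset.sum_congr rfl fun j _ => ?_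
    obtain ⟨-, h1, h2, -⟩ := hB c₀ hc₀
    simp only [h1 j, h2 j]
    push_cast
    rfl
  have hleg : ∀ l, F (.leg l) = 0 := by
    intro l
    refine Finset.sum_eq_zero fun j _ => ?_
    have h1 : L.e2 (.leg l) j = none := by
      have := L.v_e2 (.leg l) ⟨trivial, trivial⟩ j
      exact Option.map_eq_none_iff.1 this
    rw [h1]
    simp [yn, ep']
  have s2 := sum_sp hv hch F hleg
  have s3 : ∑ ε ∈ Vs T, (if v1 T (ec S ε) = some v then F (ec S ε) else 0) =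
      ∑ ε ∈ Vs T, ∑ j, cd S ε * (if L.e1 (ec S ε) j = some E then
        yo (fun i => (vo i : ℝ)) (L.e2 (ec S ε) j) - vo E else 0) := by
    refine Finset.sum_congr rfl fun ε hε => ?_
    by_cases h1 : v1 T (ec S ε) = some v
    · rw [if_pos h1]
      refine Finset.sum_congr rfl fun j _ => ?_
      by_cases h2 : L.e1 (ec S ε) j = some E
      · rw [if_pos h2, if_pos h2, yo_yn]
        show ((yn vo _ : ℝ) - ((1 : ℕ) : ℝ) * vo E) / ((T.M * (ε.1 - S.kp ε) : ℕ) : ℝ) =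
          1 / (T.M * (ε.1 - S.kp ε : ℕ) : ℝ) * _
        push_cast
        ring
      · rw [if_neg h2, if_neg h2, mul_zero]
    · rw [if_neg h1]
      symm
      refine Finset.sum_eq_zero fun j _ => ?_
      have h2 : L.e1 (ec S ε) j ≠ some E := fun h3 => h1 (v1_of L (ok_ec hε) h3)
      rw [if_neg h2, mul_zero]
  have s4 : ∑ j, (if B'.e j = cmpE S hS hR E then
      (B'.v j : ℝ) / (T.M * (v.1 - S.kp v) : ℕ) else 0) =
      ∑ ε ∈ Vs T, ∑ j, cd S ε * (if L.e2 (ec S ε) j = some E then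
        yo (fun i => (vo i : ℝ)) (L.e1 (ec S ε) j) - vo E else 0) := by
    rw [Finset.sum_eq_single v]
    · refine Finset.sum_congr rfl fun j _ => ?_
      obtain ⟨-, h1, h2, -⟩ := hB'
      by_cases h3 : L.e2 (ec S v) j = some E
      · rw [if_pos ((h1 j).2 h3), if_pos h3, yo_yn, h2 j]
        show _ = 1 / (T.M * (v.1 - S.kp v : ℕ) : ℝ) * _
        push_cast
        ring
      · rw [if_neg (fun h => h3 ((h1 j).1 h)), if_neg h3, mul_zero]
    · intro ε hε hne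
      refine Finset.sum_eq_zero fun j _ => ?_
      have h2 : L.e2 (ec S ε) j ≠ some E := by
        intro h3
        have h4 := v2_of L (ok_ec hε) h3
        have h5 : v2 T (ec S ε) = some ε := by
          show some (vx T (S.ci ε) ε.1) = _
          rw [Vx_331.ci_vx S hε]
        rw [h5] at h4
        exact hne (Option.some.inj h4)
      rw [if_neg h2, mul_zero]
    · intro h
      exact absurd hv h
  have stot : dg (Mx L) (fun i => (vo i : ℝ)) E =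
      ∑ c₀ ∈ T.Sp (S.ci v) v.1, ∑ j, (if (B c₀).e j = cmpE S hS hR E then
        ((B c₀).v j : ℝ) / ll T (ch c₀) else 0) +
      ∑ j, (if B'.e j = cmpE S hS hR E then
        (B'.v j : ℝ) / (T.M * (v.1 - S.kp v) : ℕ) else 0) := by
    rw [s1, s2, s3, s4, dg_Mx, ← Finset.sum_add_distrib]
    refine Finset.sum_congr rfl fun ε _ => ?_
    rw [← Finset.sum_add_distrib]
    refine Finset.sum_congr rfl fun j _ => ?_
    rw [mul_add]
  rw [stot]
  refine ⟨key.1, fun h0 => ?_⟩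
  obtain ⟨k1, k2, k3⟩ := key.2 h0
  refine ⟨k1, ?_, ?_⟩
  · intro c hc hnv j hj
    have hSC : SC S v (co T (cen c) v.1) c := ⟨hc, v1_of L hc hj, hnv, rfl⟩
    have hm : co T (cen c) v.1 ∈ T.Sp (S.ci v) v.1 := (Vx_331.ci_mem_sp S hv).1 hSC.mem
    have h1 := (hch _ hm).unique hSC
    obtain ⟨-, b1, -, b3⟩ := hB _ hm
    have h2 := k2 _ hm j ((b1 j).2 (by rw [h1]; exact hj))
    rw [b3 j, h1] at h2
    exact h2
  · intro c hc j hj
    obtain ⟨-, rfl⟩ := v2_cases hc (v2_of L hc hj)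
    obtain ⟨-, b1, -, b3⟩ := hB'
    have h2 := k3 j ((b1 j).2 hj)
    rw [b3 j] at h2
    exact h2

end Crest.Agent.R257.OrdA_578
end
private theorem rz_22de2cc6d9 : type_of% @_root_.Crest.Agent.R257.OrdA_578.ep'.eq_1 := @_root_.Crest.Agent.R257.OrdA_578.ep'.eq_1 -- L36
end

-- ▼ part R257/OrdE_578
section

/-!
# Row 257, part C, `OrdStmt` (helper578), part E: **`OrdStmt L`** from the non-vanishing statement
-/

set_option autoImplicit false
set_option linter.unusedSectionVars false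

open Polynomial Set Filter Topology Metric
open Crest.AlgGeometry.Germ Crest.Agent.R257.AJ387

noncomputable section

namespace Crest.Agent.R257.OrdA_578

open Crest.Agent.R257.T387 Crest.Agent.R257.OrdL_578 Crest.Agent.R257.Deg_578
open Crest.Agent.R257.OrdT_578 Crest.Agent.R257.BP_258 Crest.Agent.R257.Br_578
open Crest.Agent.R257.Gr1_157
open Crest.Agent.R257.Frm_547 (Z2 Sh1 Step Cmp cl fib Att LocBr Eqv)

variable {f : (Fin 3 → ℂ) → ℂ} {T : TB f} {U : Tub T} {S : Sh T}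

variable (T) in
/-- `g` does not vanish identically on any sheet -/
def NV (g : (Fin 3 → ℂ) → ℂ) : Prop := ∀ (c : Ch T.m) (r : ℝ) (ζ : Fin T.d → ℂ × ℂ → ℂ),
  T.Valid c → T.Sheets c r ζ → ∀ p₀ ∈ BD r r, T.map c p₀ = 0 → ∀ j,
    ¬ ∀ᶠ p in 𝓝 p₀, g (T.th c (ζ j) p) = 0

theorem exists_Oc (hS : T.SheetsStmt) {g : (Fin 3 → ℂ) → ℂ} (hg : AnalyticAt ℂ g 0) (hnv : NV T g)
    {i : Fin T.m} {k : ℕ} (hk : k ∈ T.lev i) (E : Cmp T i k) : ∃ n, Oc g E n := by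
  obtain ⟨x, rfl⟩ := Quot.exists_rep E
  obtain ⟨r, σ, hσ, hsp⟩ := Frm_547.exists_sheets_vert hS hk x.2.1
  obtain ⟨hx1, r', ξ, hξ, hx2⟩ := x.2
  obtain ⟨l, hl⟩ := Frm_547.sh1_eq hσ hξ
  have h0 : ((0 : ℂ), (0 : ℂ)) ∈ BD r r := ⟨by simpa using hσ.r_pos, by simpa using hσ.r_pos⟩
  have hmap : T.map (.vert i k x.1.1) ((0 : ℂ), (0 : ℂ)) = 0 := OrdT_578.map_vert (T.lev_pos hk) _ _
  have h1 := hnv (.vert i k x.1.1) r σ ⟨hk, hx1⟩ hσ _ h0 hmap l
  have han : AnalyticAt ℂ (gm T g (T.map (.vert i k x.1.1)) (σ l)) (0, 0) :=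
    gth_an hg hσ h0 hmap l
  obtain ⟨n, hn⟩ := exists_ord han h1
  exact ⟨n, x, rfl, σ l, hx2.trans (Germ.coe_eq.2 hl), hn⟩

theorem exists_vo (hS : T.SheetsStmt) (hR : RetStmt U) {g : (Fin 3 → ℂ) → ℂ}
    (hg : AnalyticAt ℂ g 0) (hnv : NV T g) : ∃ vo : II U → ℕ, IsVo S hS hR g vo := by
  choose vo hvo using fun E : II U => exists_Oc hS hg hnv (Vx_331.ci_lev S E.1.2) (cmpE S hS hR E)
  exact ⟨vo, hvo⟩

/-- **orders of functions and the degree formula** -/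
theorem ordStmt_of_nv [Fintype (II U)] (hS : T.SheetsStmt) (hR : RetStmt U)
    (hnv : ∀ g : (Fin 3 → ℂ) → ℂ, AnalyticAt ℂ g 0 →
      (∃ᶠ x in 𝓝 (0 : Fin 3 → ℂ), f x = 0 ∧ g x ≠ 0) → NV T g) (L : Lab U S) : OrdStmt L := by
  classical
  intro g hg hne
  obtain ⟨vo, hvo⟩ := exists_vo (S := S) hS hR hg (hnv g hg hne)
  have hex : ∀ c j, ∃ G : ℂ × ℂ → ℂ, Ok S c → (L.e1 c j ≠ none ∨ L.e2 c j ≠ none) →
      PFac L g vo c j 0 G := by
    intro c j
    by_cases h : Ok S c ∧ (L.e1 c j ≠ none ∨ L.e2 c j ≠ none)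
    · have hr : ‖(0 : ℂ)‖ < 2 * S.r c := by
        rw [norm_zero]
        have := S.pos c
        linarith
      obtain ⟨G, hG⟩ := exists_pfac L hg hvo h.1 j (p₀ := 0) hr hr
        (h.2.imp (fun h => ⟨h, rfl⟩) fun h => ⟨h, rfl⟩)
      exact ⟨G, fun _ _ => hG⟩
    · exact ⟨fun _ => 0, fun h1 h2 => absurd ⟨h1, h2⟩ h⟩
  choose G₀ hG₀ using hex
  have hdeg := fun E : II U => deg_E L hg hvo E (G := G₀) (fun c hc j h => hG₀ c j hc h)
  refine ⟨vo, fun E => (hdeg E).1, ?_⟩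
  intro c hc j p₀ hp1 hp2 hcase
  have hpos := S.pos c
  obtain ⟨G, hG⟩ := exists_pfac L hg hvo hc j (p₀ := p₀) (by linarith) (by linarith) hcase
  refine ⟨G, hG.an, hG.eq, ?_, ?_⟩
  · intro h0 E hE
    refine ⟨hG.ne1 h0 (by rw [hE]; exact Option.some_ne_none _), fun hd => ?_⟩
    obtain ⟨d1, d2, d3⟩ := (hdeg E).2 hd
    obtain ⟨a, b⟩ := p₀
    simp only at h0 hp1 hp2
    subst h0
    by_cases hb : b ≠ 0 ∨ IsV c
    · exact nv1 L hg hvo hc hE hp2 hb hG d1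
    · push Not at hb
      obtain ⟨rfl, hV⟩ := hb
      have h2 := hG.val L (hG₀ c j hc (Or.inl (by rw [hE]; exact Option.some_ne_none _)))
      rw [h2]
      exact d2 c hc hV j hE
  · intro h0 E hE
    refine ⟨hG.ne2 h0 (by rw [hE]; exact Option.some_ne_none _), fun hd => ?_⟩
    obtain ⟨d1, d2, d3⟩ := (hdeg E).2 hd
    obtain ⟨a, b⟩ := p₀
    simp only at h0 hp1 hp2
    subst h0
    by_cases ha : a = 0
    · subst ha
      have h2 := hG.val L (hG₀ c j hc (Or.inr (by rw [hE]; exact Option.some_ne_none _)))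
      rw [h2]
      exact d3 c hc j hE
    · exact nv2 L hg hvo hc hE hp1 ha hG d1

end Crest.Agent.R257.OrdA_578
end
end

-- ▼ part R257/NV1_287
section

/-!
R257 / NV1_287 (leaf NVS of C-ORDS): the discriminant family of the Weierstrass polynomial of `TB f`.

* `Dc T`     : the discriminant of `T.P`;  `Dc_iff` : `Dc T q ≠ 0 ↔ (T.P q).roots.Nodup`
* `monFam`   : `MonFam (BD R' R') T.d T.P (Dc T)`
* `hreg`     : the hypersurface is regular off the origin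
* `root_near`, `graph`, `ident` : continuity of the roots, local graph, identity theorem
-/

set_option autoImplicit false
set_option linter.unusedSectionVars false

open Polynomial Set Filter Topology Metric
open Crest.AlgGeometry.Germ Crest.Agent.R257.AJ387 Crest.Agent.R257.T387 Crest.Agent.R257.Sh_297
open Crest.Agent.R257.Irr_547 Crest.Agent.R257.Defs_219

noncomputable section

namespace Crest.Agent.R257.NV_287

/-- roots depend continuously on the parameter (existence near a given root) -/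
theorem root_near {Δ : Set (ℂ × ℂ)} {d : ℕ} {P : ℂ × ℂ → ℂ[X]} {D : ℂ × ℂ → ℂ}
    (F : MonFam Δ d P D) {q₀ : ℂ × ℂ} {z₀ : ℂ} (hq : q₀ ∈ Δ)
    (hz : (P q₀).eval z₀ = 0) {η : ℝ} (hη : 0 < η) :
    ∀ᶠ q in 𝓝 q₀, ∃ z, ‖z - z₀‖ < η ∧ (P q).eval z = 0 := by
  have hΔ : ∀ᶠ q in 𝓝 q₀, q ∈ Δ := F.op.mem_nhds hq
  have hcont : ContinuousAt (fun q => ∑ i ∈ Finset.range (d + 1), (P q).coeff i * z₀ ^ i) q₀ := by
    refine tendsto_finsetSum _ fun i _ => ?_
    exact ((F.an i q₀ hq).continuousAt.mul continuousAt_const)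
  have hev : ∀ q ∈ Δ, (P q).eval z₀ = ∑ i ∈ Finset.range (d + 1), (P q).coeff i * z₀ ^ i := by
    intro q hq
    rw [eval_eq_sum_range' (n := d + 1) (by rw [F.deg q hq]; omega)]
  have h1 : ∀ᶠ q in 𝓝 q₀, ‖(P q).eval z₀‖ < η ^ d := by
    have h2 := hcont.norm.tendsto
    rw [← hev q₀ hq, hz, norm_zero] at h2
    filter_upwards [h2.eventually (gt_mem_nhds (pow_pos hη d)), hΔ] with q h3 h4
    rw [hev q h4]
    exact h3
  filter_upwards [h1, hΔ] with q h2 h3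
  by_contra hcon
  push Not at hcon
  have h4 := (IsAlgClosed.splits (P q)).eval_eq_prod_roots_of_monic (F.monic q h3) z₀
  have h5 : η ^ (Multiset.card (P q).roots) ≤ ‖((P q).roots.map (fun a => z₀ - a)).prod‖ := by
    have h6 : ∀ s : Multiset ℂ, (∀ z ∈ s, (P q).eval z = 0) →
        η ^ (Multiset.card s) ≤ ‖(s.map (fun a => z₀ - a)).prod‖ := by
      intro s
      induction s using Multiset.induction_on with
      | empty => intro _; simp
      | cons a s ih =>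
        intro hs
        rw [Multiset.card_cons, Multiset.map_cons, Multiset.prod_cons, norm_mul, pow_succ, mul_comm]
        refine mul_le_mul ?_ (ih fun z hz => hs z (Multiset.mem_cons_of_mem hz)) (by positivity)
          (norm_nonneg _)
        have h7 : (P q).eval a = 0 := hs a (Multiset.mem_cons_self a s)
        by_contra h8
        push Not at h8
        rw [← norm_neg, neg_sub] at h8
        exact hcon a h8 h7
    exact h6 _ fun z hz => (mem_roots (F.monic q h3).ne_zero).1 hz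
  have h6 : Multiset.card (P q).roots = d := by
    rw [← F.deg q h3]
    exact ((IsAlgClosed.splits (P q)).natDegree_eq_card_roots).symm
  rw [← h4, h6] at h5
  exact absurd h2 (not_lt.2 h5)

variable {f : (Fin 3 → ℂ) → ℂ} (T : TB f)

/-- the discriminant of the Weierstrass polynomial -/
def Dc (q : ℂ × ℂ) : ℂ := Dsc (fun j q => (T.P q).coeff j) T.d q

theorem Wp_eq {q : ℂ × ℂ} (hq : q ∈ BD T.R T.R) :
    Wp (fun j q => (T.P q).coeff j) T.d q = T.P q := by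
  ext n
  rw [coeff_Wp]
  split_ifs with h
  · rfl
  · symm
    apply coeff_eq_zero_of_natDegree_lt
    rw [T.deg q hq]
    omega

theorem coeff_d {q : ℂ × ℂ} (hq : q ∈ BD T.R T.R) : (T.P q).coeff T.d = 1 := by
  have := (T.monic q hq).coeff_natDegree
  rwa [T.deg q hq] at this

theorem Dc_iff {q : ℂ × ℂ} (hq : q ∈ BD T.R T.R) : Dc T q ≠ 0 ↔ (T.P q).roots.Nodup := by
  constructor
  · intro h
    have := nodup_of_Dsc (w := fun j q => (T.P q).coeff j) (d := T.d) (y := q) (coeff_d T hq) h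
    rwa [Wp_eq T hq] at this
  · intro h
    refine (Dsc_ne_zero_iff (w := fun j q => (T.P q).coeff j) (d := T.d) (y := q)
      (coeff_d T hq)).2 fun z hz => ?_
    rw [← eval_Wp, Wp_eq T hq] at hz
    rw [Wp_eq T hq]
    exact derivative_ne_of_nodup (T.monic q hq).ne_zero h hz

theorem BD_conn (r : ℝ) : IsPreconnected (BD r r) := by
  have : BD r r = ball (0 : ℂ) r ×ˢ ball (0 : ℂ) r := by
    ext p; simp [BD]
  rw [this]
  exact ((convex_ball _ _).prod (convex_ball _ _)).isPreconnected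

theorem BD_le {r r' : ℝ} (h : r ≤ r') {q : ℂ × ℂ} (hq : q ∈ BD r r) : q ∈ BD r' r' :=
  ⟨hq.1.trans_le h, hq.2.trans_le h⟩

theorem monFam {R' : ℝ} (h0 : 0 < R') (hle : R' ≤ T.R) :
    MonFam (BD R' R') T.d T.P (Dc T) where
  op := isOpen_BD _ _
  conn := BD_conn R'
  monic q hq := T.monic q (BD_le hle hq)
  deg q hq := T.deg q (BD_le hle hq)
  an k q hq := T.coeff_an k q (BD_le hle hq)
  hD q hq := Dsc_analytic fun j => T.coeff_an j q (BD_le hle hq)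
  Dne := by
    have h1 : ((R' / 2 : ℝ) : ℂ) ∈ ball (0 : ℂ) R' := by
      rw [mem_ball, dist_zero_right, Complex.norm_real, Real.norm_of_nonneg (by linarith)]
      linarith
    have h2 : ((R' / 2 : ℝ) : ℂ) ≠ 0 := by
      rw [Complex.ofReal_ne_zero]; linarith
    have h3 := T.nodup 0 (mem_ball_self T.ρ_pos) _ (ball_subset_ball hle h1)
      (fun i => by rw [T.φ_zero]; exact h2)
    rw [zero_pow T.N₀_pos.ne'] at h3
    have h4 : ((0 : ℂ), ((R' / 2 : ℝ) : ℂ)) ∈ BD R' R' := ⟨by simpa using h0, by simpa using h1⟩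
    exact ⟨_, h4, (Dc_iff T (BD_le hle h4)).2 h3⟩
  nodup q hq h := (Dc_iff T (BD_le hle hq)).1 h

/-- `(q, z) ↦ pt z (A q)` -/
def LL : (ℂ × ℂ) × ℂ →L[ℂ] (Fin 3 → ℂ) :=
  T0_387.ptL.comp ((T.A.toContinuousLinearMap.comp (ContinuousLinearMap.fst ℂ (ℂ × ℂ) ℂ)).prod
    (ContinuousLinearMap.snd ℂ (ℂ × ℂ) ℂ))

theorem LL_apply (x : (ℂ × ℂ) × ℂ) : LL T x = pt x.2 (T.A x.1) := by
  show T0_387.ptL (T.A x.1, x.2) = _
  rw [T0_387.ptL_apply]

theorem LL_surj (e : Fin 3 → ℂ) : LL T (T.A.symm (e 1, e 2), e 0) = e := by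
  rw [LL_apply]
  show pt (e 0) (T.A (T.A.symm (e 1, e 2))) = e
  rw [ContinuousLinearEquiv.apply_symm_apply]
  funext i
  fin_cases i <;> rfl

theorem LL_inj {x y : (ℂ × ℂ) × ℂ} (h : LL T x = LL T y) : x = y := by
  rw [LL_apply, LL_apply] at h
  have h0 : x.2 = y.2 := congrFun h 0
  have h1 : (T.A x.1).1 = (T.A y.1).1 := congrFun h 1
  have h2 : (T.A x.1).2 = (T.A y.1).2 := congrFun h 2
  exact Prod.ext (T.A.injective (Prod.ext h1 h2)) h0

theorem near_dom : ∀ᶠ x in 𝓝 (((0 : ℂ), (0 : ℂ)), (0 : ℂ)), x.1 ∈ BD T.R T.R ∧ ‖x.2‖ ≤ T.rz := by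
  have h1 : ∀ᶠ x in 𝓝 (((0 : ℂ), (0 : ℂ)), (0 : ℂ)), x.1 ∈ BD T.R T.R :=
    continuous_fst.continuousAt.eventually ((isOpen_BD T.R T.R).mem_nhds
      ⟨by simpa using T.R_pos, by simpa using T.R_pos⟩)
  have h2 : ∀ᶠ x in 𝓝 (((0 : ℂ), (0 : ℂ)), (0 : ℂ)), ‖x.2‖ < T.rz := by
    have : Continuous fun x : (ℂ × ℂ) × ℂ => ‖x.2‖ := by fun_prop
    exact this.continuousAt.eventually (gt_mem_nhds (by simpa using T.rz_pos))
  filter_upwards [h1, h2] with x a b using ⟨a, b.le⟩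

theorem eval_an {x : (ℂ × ℂ) × ℂ} (hx : x.1 ∈ BD T.R T.R) :
    AnalyticAt ℂ (fun q : (ℂ × ℂ) × ℂ => (T.P q.1).eval q.2) x := by
  have h1 : AnalyticAt ℂ (fun q : (ℂ × ℂ) × ℂ =>
      ∑ i ∈ Finset.range (T.d + 1), (T.P q.1).coeff i * q.2 ^ i) x := by
    refine Finset.analyticAt_fun_sum _ fun i _ => ?_
    refine AnalyticAt.mul ?_ (analyticAt_snd.pow i)
    exact AnalyticAt.comp (g := fun p => (T.P p).coeff i) (f := fun q : (ℂ × ℂ) × ℂ => q.1)
      (T.coeff_an i _ hx) analyticAt_fst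
  refine h1.congr ?_
  filter_upwards [continuous_fst.continuousAt.eventually ((isOpen_BD T.R T.R).mem_nhds hx)]
    with q hq
  rw [eval_eq_sum_range' (n := T.d + 1) (by rw [T.deg _ hq]; omega)]

/-- regularity off the origin -/
theorem hreg (hf : Iso f) : ∀ᶠ x in 𝓝 (((0 : ℂ), (0 : ℂ)), (0 : ℂ)),
    (T.P x.1).eval x.2 = 0 → x ≠ 0 →
      fderiv ℂ (fun q : (ℂ × ℂ) × ℂ => (T.P q.1).eval q.2) x ≠ 0 := by
  have hL0 : Tendsto (LL T) (𝓝 (((0 : ℂ), (0 : ℂ)), (0 : ℂ))) (𝓝 0) := by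
    have := (LL T).continuous.tendsto (((0 : ℂ), (0 : ℂ)), (0 : ℂ))
    have h0 : LL T (((0 : ℂ), (0 : ℂ)), (0 : ℂ)) = 0 := map_zero (LL T)
    rwa [h0] at this
  filter_upwards [(near_dom T).eventually_nhds, hL0.eventually (T0_387.isolated hf.an hf.fin),
    near_dom T] with x h1 h2 h3 hx hx0 hcon
  obtain ⟨h3a, h3b⟩ := h3
  apply hx0
  have hv : AnalyticAt ℂ T.v x := T.v_an x.1 h3a x.2 h3b
  have hP := eval_an T h3a
  have hfx : AnalyticAt ℂ f (LL T x) := by rw [LL_apply]; exact T.f_an x.1 h3a x.2 h3b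
  have e1 : (fun y => f (LL T y)) =ᶠ[𝓝 x] fun y => T.v y * (T.P y.1).eval y.2 := by
    filter_upwards [h1] with y hy
    rw [LL_apply, T.f_eq y.1 hy.1 y.2 hy.2]
  have e2 : HasFDerivAt (fun y => T.v y * (T.P y.1).eval y.2)
      (T.v x • fderiv ℂ (fun q : (ℂ × ℂ) × ℂ => (T.P q.1).eval q.2) x +
        (T.P x.1).eval x.2 • fderiv ℂ T.v x) x :=
    hv.differentiableAt.hasFDerivAt.mul hP.differentiableAt.hasFDerivAt
  have e2' : T.v x • fderiv ℂ (fun q : (ℂ × ℂ) × ℂ => (T.P q.1).eval q.2) x +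
      (T.P x.1).eval x.2 • fderiv ℂ T.v x = 0 := by
    rw [hcon, hx]
    ext <;> simp
  rw [e2'] at e2
  have e3 : HasFDerivAt (fun y => f (LL T y)) ((fderiv ℂ f (LL T x)).comp (LL T)) x :=
    hfx.differentiableAt.hasFDerivAt.comp x (LL T).hasFDerivAt
  have e4 : (fderiv ℂ f (LL T x)).comp (LL T) = 0 :=
    e3.unique (e2.congr_of_eventuallyEq e1)
  have e5 : ∀ j, coordDeriv f j (LL T x) = 0 := by
    intro j
    have h5 := congrArg (fun l => l (T.A.symm ((Pi.single j 1 : Fin 3 → ℂ) 1,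
      (Pi.single j 1 : Fin 3 → ℂ) 2), (Pi.single j 1 : Fin 3 → ℂ) 0)) e4
    simp only [ContinuousLinearMap.comp_apply, LL_surj] at h5
    exact h5
  have h6 := h2 e5
  exact LL_inj T (h6.trans (map_zero (LL T)).symm)

variable {Δ : Set (ℂ × ℂ)} {d : ℕ} {P : ℂ × ℂ → ℂ[X]} {D : ℂ × ℂ → ℂ}

/-- local graph of the regular part -/
theorem graph (F : MonFam Δ d P D) {x : (ℂ × ℂ) × ℂ} (hx : x ∈ IrrB_331.Vo Δ P D) :
    ∃ ψ : ℂ × ℂ → ℂ, AnalyticAt ℂ ψ x.1 ∧ ψ x.1 = x.2 ∧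
      (∀ᶠ p in 𝓝 x.1, (p, ψ p) ∈ IrrB_331.Vo Δ P D) ∧
      ∀ᶠ y in 𝓝 x, y ∈ IrrB_331.Vo Δ P D → y.2 = ψ y.1 := by
  classical
  obtain ⟨hx1, hx2, hx3⟩ := hx
  obtain ⟨φ, hφ, hev⟩ := F.loc hx1 hx2
  have hne0 := (F.monic _ hx1).ne_zero
  have hx2r : x.2 ∈ (P x.1).roots.toFinset := Multiset.mem_toFinset.2 ((mem_roots hne0).2 hx3)
  have hΔ1 : ∀ᶠ p in 𝓝 x.1, p ∈ Δ := F.op.mem_nhds hx1
  have hΔ : ∀ᶠ p in 𝓝 x.1, p ∈ Δ ∧ D p ≠ 0 :=
    hΔ1.and ((F.hD _ hx1).continuousAt.eventually_ne hx2)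
  refine ⟨φ x.2, (hφ _ hx2r).1, (hφ _ hx2r).2, ?_, ?_⟩
  · filter_upwards [hΔ, hev] with p h1 h2
    refine ⟨h1.1, h1.2, ?_⟩
    have h3 : φ x.2 p ∈ (P p).roots.toFinset := by
      rw [h2.1]; exact Finset.mem_image_of_mem _ hx2r
    exact (mem_roots (F.monic p h1.1).ne_zero).1 (Multiset.mem_toFinset.1 h3)
  · have h4 : ∀ z ∈ (P x.1).roots.toFinset, z ≠ x.2 →
        ∀ᶠ y : (ℂ × ℂ) × ℂ in 𝓝 x, φ z y.1 ≠ y.2 := by
      intro z hz hzx
      have h5 : Tendsto (fun y : (ℂ × ℂ) × ℂ => φ z y.1 - y.2) (𝓝 x) (𝓝 (z - x.2)) := by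
        have h6 : ContinuousAt (fun y : (ℂ × ℂ) × ℂ => φ z y.1) x :=
          ContinuousAt.comp (f := fun y : (ℂ × ℂ) × ℂ => y.1) (g := φ z)
            (hφ z hz).1.continuousAt continuousAt_fst
        have h7 : Tendsto (fun y : (ℂ × ℂ) × ℂ => φ z y.1 - y.2) (𝓝 x) (𝓝 (φ z x.1 - x.2)) :=
          (h6.sub continuousAt_snd).tendsto
        rwa [(hφ z hz).2] at h7
      filter_upwards [h5.eventually_ne (sub_ne_zero.2 hzx)] with y hy h8
      exact hy (sub_eq_zero.2 h8)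
    have h5 : ∀ᶠ y : (ℂ × ℂ) × ℂ in 𝓝 x, ∀ z ∈ (P x.1).roots.toFinset, z ≠ x.2 → φ z y.1 ≠ y.2 := by
      refine (Finset.eventually_all _).2 fun z hz => ?_
      by_cases h : z = x.2
      · exact Eventually.of_forall fun y h' => absurd h h'
      · filter_upwards [h4 z hz h] with y hy _ using hy
    filter_upwards [h5, continuous_fst.continuousAt.eventually hev] with y h6 h7 h8
    have h9 : y.2 ∈ (P y.1).roots.toFinset :=
      Multiset.mem_toFinset.2 ((mem_roots (F.monic _ h8.1).ne_zero).2 h8.2.2)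
    rw [h7.1] at h9
    obtain ⟨z, hz, hzy⟩ := Finset.mem_image.1 h9
    by_cases h : z = x.2
    · rw [← hzy, h]
    · exact absurd hzy (h6 z hz h)

/-- **identity theorem on the irreducible hypersurface** -/
theorem ident (F : MonFam Δ d P D) (h0 : ((0 : ℂ), (0 : ℂ)) ∈ Δ) (hP : P (0, 0) = X ^ d)
    (hreg : ∀ᶠ x in 𝓝 (((0 : ℂ), (0 : ℂ)), (0 : ℂ)), (P x.1).eval x.2 = 0 → x ≠ 0 →
      fderiv ℂ (fun q : (ℂ × ℂ) × ℂ => (P q.1).eval q.2) x ≠ 0)
    {G : (ℂ × ℂ) × ℂ → ℂ} (hG : ∀ x ∈ IrrB_331.Vo Δ P D, AnalyticAt ℂ G x)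
    {x : (ℂ × ℂ) × ℂ} (hx : x ∈ IrrB_331.Vo Δ P D)
    (hz : ∀ᶠ y in 𝓝 x, y ∈ IrrB_331.Vo Δ P D → G y = 0) :
    ∀ y ∈ IrrB_331.Vo Δ P D, G y = 0 := by
  set A : Set ((ℂ × ℂ) × ℂ) := {x | x ∈ IrrB_331.Vo Δ P D ∧
    ∀ᶠ y in 𝓝 x, y ∈ IrrB_331.Vo Δ P D → G y = 0} with hA
  have h1 := IrrB_331.irr F h0 hP hreg A (fun x hx => hx.1) ?_ ?_ ⟨x, hx, hz⟩
  · intro y hy
    have h2 : y ∈ A := by rw [h1]; exact hy
    exact h2.2.self_of_nhds hy
  · rintro x ⟨hxV, hxe⟩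
    filter_upwards [hxe.eventually_nhds] with y hy hyV
    exact ⟨hyV, hy⟩
  · intro x hxV hxA
    by_contra hcon
    have hfr : ∃ᶠ y in 𝓝 x, y ∈ A := by
      intro h
      exact hcon h
    apply hxA
    refine ⟨hxV, ?_⟩
    obtain ⟨ψ, hψ, hψx, hψV, hgr⟩ := graph F hxV
    -- `G` on the graph
    have hg : AnalyticAt ℂ (fun p => G (p, ψ p)) x.1 := by
      have h3 : AnalyticAt ℂ G (x.1, ψ x.1) := by rw [hψx]; exact hG x hxV
      exact AnalyticAt.comp (g := G) (f := fun p => (p, ψ p)) h3 (analyticAt_id.prod hψ)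
    obtain ⟨r, hr, hball⟩ := Metric.eventually_nhds_iff_ball.1
      (hg.eventually_analyticAt.and (hψV.eventually_nhds.and hψ.eventually_analyticAt))
    have hxn : ∀ᶠ y : (ℂ × ℂ) × ℂ in 𝓝 x, y.1 ∈ ball x.1 r :=
      continuous_fst.continuousAt.eventually (ball_mem_nhds _ hr)
    obtain ⟨y, hyA, hyb, hyg⟩ := (hfr.and_eventually (hxn.and hgr)).exists
    have hy2 : y.2 = ψ y.1 := hyg hyA.1
    have h4 : ∀ᶠ p in 𝓝 y.1, G (p, ψ p) = 0 := by
      have hc : Tendsto (fun p => (p, ψ p)) (𝓝 y.1) (𝓝 y) := by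
        have h5 : ContinuousAt (fun p => (p, ψ p)) y.1 :=
          continuousAt_id.prodMk (hball _ hyb).2.2.continuousAt
        have h6 := h5.tendsto
        rwa [← hy2] at h6
      filter_upwards [hc.eventually hyA.2, (hball _ hyb).2.1] with p h5 h6
      exact h5 h6
    have h5 : EqOn (fun p => G (p, ψ p)) 0 (ball x.1 r) := by
      have han : AnalyticOnNhd ℂ (fun p => G (p, ψ p)) (ball x.1 r) := fun p hp => (hball p hp).1
      exact han.eqOn_zero_of_preconnected_of_eventuallyEq_zero (convex_ball _ _).isPreconnected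
        hyb h4
    filter_upwards [hxn, hgr] with y' h6 h7 h8
    have h9 := h5 h6
    simp only [Pi.zero_apply] at h9
    have h10 : y' = (y'.1, ψ y'.1) := Prod.ext rfl (h7 h8)
    rw [h10]
    exact h9

end Crest.Agent.R257.NV_287
end
end

-- ▼ part R257/NV2_287
section

/-!
R257 / NV2_287 (leaf NVS of C-ORDS): a germ which does not vanish identically on the surface does not
vanish identically on any sheet of any chart.

* `qm_open` : the chart map to the `(x', y')`-plane is open at generic points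
* `nvs`     : nonvanishing on every sheet
-/

set_option autoImplicit false
set_option linter.unusedSectionVars false

open Polynomial Set Filter Topology Metric
open Crest.AlgGeometry.Germ Crest.Agent.R257.AJ387 Crest.Agent.R257.T387
open Crest.Agent.R257.Irr_547 Crest.Agent.R257.Defs_219
open Crest.Agent.R257.Fr_808 (jac2)

noncomputable section

namespace Crest.Agent.R257.NV_287

variable {f : (Fin 3 → ℂ) → ℂ} (T : TB f)

/-- the map `p ↦ (x', y')` of a chart -/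
def qm (c : Ch T.m) (p : ℂ × ℂ) : ℂ × ℂ := ((T.map c p).1 ^ T.N, (T.map c p).2)

theorem th_eq (c : Ch T.m) (z : ℂ × ℂ → ℂ) (p : ℂ × ℂ) : T.th c z p = LL T (qm T c p, z p) := by
  rw [LL_apply]; rfl

theorem qm_an {c : Ch T.m} {p : ℂ × ℂ} (hp : ‖(T.map c p).1‖ ^ T.M < T.ρ) :
    AnalyticAt ℂ (qm T c) p := by
  have h := TB.map_an T c hp
  have h1 : AnalyticAt ℂ (fun p => (T.map c p).1) p :=
    AnalyticAt.comp (g := Prod.fst) (f := T.map c) analyticAt_fst h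
  have h2 : AnalyticAt ℂ (fun p => (T.map c p).2) p :=
    AnalyticAt.comp (g := Prod.snd) (f := T.map c) analyticAt_snd h
  exact (h1.pow T.N).prod h2

/-- the chart map to the `(x', y')`-plane is open at generic points -/
theorem qm_open {c : Ch T.m} (hc : T.Valid c) {p : ℂ × ℂ} (hp : ‖(T.map c p).1‖ ^ T.M < T.ρ)
    (h1 : p.1 ≠ 0) (h2 : p.2 ≠ 0) : Filter.map (qm T c) (𝓝 p) = 𝓝 (qm T c p) := by
  set F : ℂ × ℂ → ℂ × ℂ := fun p => T.A (qm T c p) with hF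
  have hFan : AnalyticAt ℂ F p :=
    AnalyticAt.comp (g := fun q => T.A q) (f := qm T c) (T.A.toContinuousLinearMap.analyticAt _)
      (qm_an T hp)
  have hjac := TB.jac_chart T (z := fun _ => 0) hc hp (differentiableAt_const 0)
  have hne : jac2 (T.th c (fun _ => 0)) p ≠ 0 := by
    rw [hjac]
    exact mul_ne_zero (mul_ne_zero (TB.jk_ne T hc) (pow_ne_zero _ h1)) (pow_ne_zero _ h2)
  have hth : T.th c (fun _ => 0) = fun p => T0_387.ptL (F p, 0) := by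
    funext p
    rw [T0_387.ptL_apply]
    rfl
  have hFd := hFan.differentiableAt.hasFDerivAt
  set F' := fderiv ℂ F p with hF'
  have hthd : HasFDerivAt (T.th c (fun _ => 0))
      (T0_387.ptL.comp (F'.prod (0 : ℂ × ℂ →L[ℂ] ℂ))) p := by
    rw [hth]
    exact T0_387.ptL.hasFDerivAt.comp p (hFd.prodMk (hasFDerivAt_const (0 : ℂ) p))
  have hcomp : ∀ v : ℂ × ℂ, (T0_387.ptL.comp (F'.prod (0 : ℂ × ℂ →L[ℂ] ℂ))) v = pt 0 (F' v) := by
    intro v
    show T0_387.ptL (F' v, 0) = _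
    rw [T0_387.ptL_apply]
  rw [jac2, hthd.fderiv, hcomp, hcomp] at hne
  have hdet : (F' (1, 0)).1 * (F' (0, 1)).2 - (F' (1, 0)).2 * (F' (0, 1)).1 ≠ 0 := hne
  have hsurj : (F' : ℂ × ℂ →ₗ[ℂ] ℂ × ℂ).range = ⊤ := by
    rw [LinearMap.range_eq_top]
    intro w
    set a := F' (1, 0) with ha
    set b := F' (0, 1) with hb
    set δ := a.1 * b.2 - a.2 * b.1 with hδ
    refine ⟨((w.1 * b.2 - w.2 * b.1) / δ, (a.1 * w.2 - a.2 * w.1) / δ), ?_⟩
    have e1 : (((w.1 * b.2 - w.2 * b.1) / δ, (a.1 * w.2 - a.2 * w.1) / δ) : ℂ × ℂ) =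
        ((w.1 * b.2 - w.2 * b.1) / δ) • ((1, 0) : ℂ × ℂ) +
          ((a.1 * w.2 - a.2 * w.1) / δ) • ((0, 1) : ℂ × ℂ) := by
      ext <;> simp
    show F' _ = w
    rw [e1, map_add, map_smul, map_smul, ← ha, ← hb]
    ext
    · simp only [Prod.fst_add, Prod.smul_fst, smul_eq_mul]
      field_simp
      rw [hδ]; ring
    · simp only [Prod.snd_add, Prod.smul_snd, smul_eq_mul]
      field_simp
      rw [hδ]; ring
  have hmap : Filter.map F (𝓝 p) = 𝓝 (F p) :=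
    (hFan.hasStrictFDerivAt).map_nhds_eq_of_surj hsurj
  have hA : Filter.map (fun q => T.A.symm q) (𝓝 (F p)) = 𝓝 (T.A.symm (F p)) :=
    T.A.symm.map_nhds_eq _
  have e2 : qm T c = (fun q => T.A.symm q) ∘ F := by
    funext p
    simp [hF]
  rw [e2, ← Filter.map_map, hmap, hA]
  rfl

/-- the roots of a product of linear factors -/
theorem nodup_prod {d : ℕ} {z : Fin d → ℂ} (hz : Function.Injective z) :
    (∏ j, (X - C (z j))).roots.Nodup := by
  have h1 : (∏ j, (X - C (z j))) = ((Multiset.map z Finset.univ.val).map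
      fun a => (X - C a : ℂ[X])).prod := by
    rw [Multiset.map_map]; rfl
  rw [h1, roots_multiset_prod_X_sub_C]
  exact (Finset.univ.nodup).map hz

/-- generic points are dense -/
theorem exists_gen {p₀ : ℂ × ℂ} {Q : ℂ × ℂ → Prop} (h : ∀ᶠ p in 𝓝 p₀, Q p) :
    ∃ p : ℂ × ℂ, p.1 ≠ 0 ∧ p.2 ≠ 0 ∧ Q p := by
  have h1 : 𝓝[≠] p₀.1 ×ˢ 𝓝[≠] p₀.2 ≤ 𝓝 p₀ := by
    rw [nhds_prod_eq (x := p₀.1) (y := p₀.2) |> fun h => (by simpa using h : 𝓝 p₀ = _)]
    exact Filter.prod_mono nhdsWithin_le_nhds nhdsWithin_le_nhds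
  have h3 : ∀ a : ℂ, ∀ᶠ z in 𝓝[≠] a, z ≠ 0 := by
    intro a
    by_cases ha : a = 0
    · subst ha; exact self_mem_nhdsWithin
    · exact nhdsWithin_le_nhds (isOpen_ne.mem_nhds ha)
  have h2 : ∀ᶠ p in 𝓝[≠] p₀.1 ×ˢ 𝓝[≠] p₀.2, p.1 ≠ 0 ∧ p.2 ≠ 0 :=
    (h3 p₀.1).prod_mk (h3 p₀.2)
  obtain ⟨p, ⟨h4, h5⟩, h6⟩ := (h2.and (h1 h)).exists
  exact ⟨p, h4, h5, h6⟩

/-- **nonvanishing on every sheet** -/
theorem nvs (hf : Iso f) {g : (Fin 3 → ℂ) → ℂ} (hg : AnalyticAt ℂ g 0)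
    (hne : ∃ᶠ x in 𝓝 (0 : Fin 3 → ℂ), f x = 0 ∧ g x ≠ 0) {c : Ch T.m} (hc : T.Valid c) {r : ℝ}
    {ζ : Fin T.d → ℂ × ℂ → ℂ} (hS : T.Sheets c r ζ) {p₀ : ℂ × ℂ} (hp₀ : p₀ ∈ BD r r)
    (h0 : T.map c p₀ = 0) (j : Fin T.d) : ¬ ∀ᶠ p in 𝓝 p₀, g (T.th c (ζ j) p) = 0 := by
  intro hcon
  set G : (ℂ × ℂ) × ℂ → ℂ := fun x => g (LL T x) with hGdef
  have hL0 : Tendsto (LL T) (𝓝 (0 : (ℂ × ℂ) × ℂ)) (𝓝 0) := by
    have := (LL T).continuous.tendsto (0 : (ℂ × ℂ) × ℂ)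
    rwa [map_zero (LL T)] at this
  have hGan : ∀ᶠ x in 𝓝 (0 : (ℂ × ℂ) × ℂ), AnalyticAt ℂ G x := by
    filter_upwards [hL0.eventually hg.eventually_analyticAt] with x hx
    exact AnalyticAt.comp (g := g) (f := LL T) hx ((LL T).analyticAt x)
  obtain ⟨ε, hε, hball⟩ := Metric.eventually_nhds_iff_ball.1 (hGan.and (near_dom T))
  have hP0 : T.P (0, 0) = X ^ T.d := T.P_zero
  have hrs := IrrB_331.roots_small (monFam T T.R_pos le_rfl)
    ⟨by simpa using T.R_pos, by simpa using T.R_pos⟩ hP0 hε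
  obtain ⟨δ, hδ, hδb⟩ := Metric.eventually_nhds_iff_ball.1 hrs
  set R' : ℝ := min (min δ ε) T.R with hR'
  have hR'0 : 0 < R' := lt_min (lt_min hδ hε) T.R_pos
  have hR'le : R' ≤ T.R := min_le_right _ _
  have hBD : ∀ q ∈ BD R' R', ∀ z, (T.P q).eval z = 0 → ((q, z) : (ℂ × ℂ) × ℂ) ∈ ball 0 ε := by
    intro q hq z hz
    have h1 : ‖q.1‖ < δ := hq.1.trans_le ((min_le_left _ _).trans (min_le_left _ _))
    have h2 : ‖q.2‖ < δ := hq.2.trans_le ((min_le_left _ _).trans (min_le_left _ _))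
    have h3 : ‖q.1‖ < ε := hq.1.trans_le ((min_le_left _ _).trans (min_le_right _ _))
    have h4 : ‖q.2‖ < ε := hq.2.trans_le ((min_le_left _ _).trans (min_le_right _ _))
    have h5 : q ∈ ball ((0 : ℂ), (0 : ℂ)) δ := by
      rw [mem_ball, Prod.dist_eq, max_lt_iff]
      exact ⟨by simpa using h1, by simpa using h2⟩
    have h6 := hδb q h5 z hz
    rw [mem_ball, Prod.dist_eq, max_lt_iff, Prod.dist_eq, max_lt_iff]
    exact ⟨⟨by simpa using h3, by simpa using h4⟩, by simpa using h6⟩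
  have F := monFam T hR'0 hR'le
  have h00 : ((0 : ℂ), (0 : ℂ)) ∈ BD R' R' := ⟨by simpa using hR'0, by simpa using hR'0⟩
  have hGV : ∀ x ∈ IrrB_331.Vo (BD R' R') T.P (Dc T), AnalyticAt ℂ G x := by
    rintro ⟨q, z⟩ ⟨hq, -, hz⟩
    exact (hball _ (hBD q hq z hz)).1
  -- it suffices to vanish near one point
  have key : ∀ x ∈ IrrB_331.Vo (BD R' R') T.P (Dc T),
      ¬ ∀ᶠ y in 𝓝 x, y ∈ IrrB_331.Vo (BD R' R') T.P (Dc T) → G y = 0 := by
    intro x hx hxe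
    have hall := ident F h00 hP0 (hreg T hf) hGV hx hxe
    have hLi : Tendsto (fun x : Fin 3 → ℂ => ((T.A.symm (x 1, x 2), x 0) : (ℂ × ℂ) × ℂ)) (𝓝 0)
        (𝓝 0) := by
      have hc : Continuous (fun x : Fin 3 → ℂ => ((T.A.symm (x 1, x 2), x 0) : (ℂ × ℂ) × ℂ)) := by
        fun_prop
      refine hc.tendsto' _ _ ?_
      have : T.A.symm ((0 : Fin 3 → ℂ) 1, (0 : Fin 3 → ℂ) 2) = 0 := map_zero T.A.symm
      rw [this]; rfl
    have hnb : ∀ᶠ y in 𝓝 (0 : (ℂ × ℂ) × ℂ), y.1 ∈ BD R' R' ∧ y ∈ ball 0 ε := by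
      refine Filter.Eventually.and ?_ (ball_mem_nhds _ hε)
      exact continuous_fst.continuousAt.eventually ((isOpen_BD R' R').mem_nhds h00)
    obtain ⟨e, ⟨hfe, hge⟩, hy1, hy2⟩ := (hne.and_eventually (hLi.eventually hnb)).exists
    set y₀ : (ℂ × ℂ) × ℂ := (T.A.symm (e 1, e 2), e 0) with hy₀
    have hLy : LL T y₀ = e := LL_surj T e
    have hroot : (T.P y₀.1).eval y₀.2 = 0 := by
      obtain ⟨-, h1, h2⟩ := hball y₀ hy2
      have h3 := T.f_eq y₀.1 h1 y₀.2 h2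
      rw [← LL_apply, hLy, hfe] at h3
      have h4 := T.v_ne y₀.1 h1 y₀.2 h2
      exact (mul_eq_zero.1 h3.symm).resolve_left h4
    have hG0 : G y₀ ≠ 0 := by
      show g (LL T y₀) ≠ 0
      rw [hLy]; exact hge
    obtain ⟨η, hη, hηb⟩ := Metric.eventually_nhds_iff_ball.1
      ((hball y₀ hy2).1.continuousAt.eventually_ne hG0)
    have h1 : ∃ᶠ q in 𝓝 y₀.1, Dc T q ≠ 0 := F.freq hy1
    have e1 : ∀ᶠ q in 𝓝 y₀.1, q ∈ ball y₀.1 η := ball_mem_nhds y₀.1 hη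
    have e2 : ∀ᶠ q in 𝓝 y₀.1, q ∈ BD R' R' := F.op.mem_nhds hy1
    obtain ⟨q, hqD, ⟨z, hz, hqz⟩, hqb, hqΔ⟩ := (h1.and_eventually
      ((root_near F hy1 hroot hη).and (e1.and e2))).exists
    have h2 : ((q, z) : (ℂ × ℂ) × ℂ) ∈ ball y₀ η := by
      rw [mem_ball, Prod.dist_eq, max_lt_iff]
      exact ⟨hqb, by rw [dist_eq_norm]; exact hz⟩
    exact hηb _ h2 (hall (q, z) ⟨hqΔ, hqD, hqz⟩)
  -- a generic point near `p₀`
  have hmp := TB.map_an T c (hS.mem p₀ hp₀).2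
  have hq0 : qm T c p₀ = 0 := by
    show ((T.map c p₀).1 ^ T.N, (T.map c p₀).2) = 0
    rw [h0]
    show (((0 : ℂ) ^ T.N, (0 : ℂ)) : ℂ × ℂ) = 0
    rw [zero_pow T.N_pos.ne']; rfl
  have hqΔ : ∀ᶠ p in 𝓝 p₀, qm T c p ∈ BD R' R' := by
    refine (qm_an T (hS.mem p₀ hp₀).2).continuousAt.eventually ((isOpen_BD R' R').mem_nhds ?_)
    rw [hq0]; exact h00
  have hrΔ : ∀ᶠ p in 𝓝 p₀, p ∈ BD r r := (isOpen_BD r r).mem_nhds hp₀
  obtain ⟨p₁, hp1, hp2, hp3, hp4, hp5⟩ := exists_gen (hcon.eventually_nhds.and (hqΔ.and hrΔ))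
  have hgen : T.Gen c p₁ := by
    cases c with
    | edge i k k' => exact ⟨hp1, hp2⟩
    | leg i => exact ⟨hp1, hp2⟩
    | vert i k w₀ => exact hp1
  have hspl : ∀ p ∈ BD r r, T.P (qm T c p) = ∏ l, (X - C (ζ l p)) := fun p hp => hS.split p hp
  have hD1 : Dc T (qm T c p₁) ≠ 0 := by
    rw [Dc_iff T (BD_le hR'le hp4), hspl p₁ hp5]
    exact nodup_prod (hS.inj p₁ hp5 hgen)
  have hx1 : ((qm T c p₁, ζ j p₁) : (ℂ × ℂ) × ℂ) ∈ IrrB_331.Vo (BD R' R') T.P (Dc T) := by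
    refine ⟨hp4, hD1, ?_⟩
    show (T.P (qm T c p₁)).eval (ζ j p₁) = 0
    rw [hspl p₁ hp5, eval_prod]
    exact Finset.prod_eq_zero (Finset.mem_univ j) (by simp)
  refine key _ hx1 ?_
  have hnh : 𝓝 ((qm T c p₁, ζ j p₁) : (ℂ × ℂ) × ℂ) =
      Filter.map (Prod.map (qm T c) id) (𝓝 p₁ ×ˢ 𝓝 (ζ j p₁)) := by
    rw [nhds_prod_eq, ← qm_open T hc (hS.mem p₁ hp5).2 hp1 hp2, ← Filter.prod_map_map_eq',
      Filter.map_id]
  rw [hnh, Filter.eventually_map]
  have hsep : ∀ᶠ y : (ℂ × ℂ) × ℂ in 𝓝 p₁ ×ˢ 𝓝 (ζ j p₁), ∀ l, l ≠ j → ζ l y.1 ≠ y.2 := by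
    refine Filter.eventually_all.2 fun l => ?_
    by_cases hl : l = j
    · exact Eventually.of_forall fun y h => absurd hl h
    · have h1 : Tendsto (fun y : (ℂ × ℂ) × ℂ => ζ l y.1 - y.2) (𝓝 p₁ ×ˢ 𝓝 (ζ j p₁))
          (𝓝 (ζ l p₁ - ζ j p₁)) := by
        exact ((hS.an l p₁ hp5).continuousAt.tendsto.comp tendsto_fst).sub tendsto_snd
      have h2 : ζ l p₁ - ζ j p₁ ≠ 0 := sub_ne_zero.2 fun h => hl (hS.inj p₁ hp5 hgen h)
      filter_upwards [h1.eventually_ne h2] with y hy _ h3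
      exact hy (sub_eq_zero.2 h3)
  have hgood : ∀ᶠ y : (ℂ × ℂ) × ℂ in 𝓝 p₁ ×ˢ 𝓝 (ζ j p₁), g (T.th c (ζ j) y.1) = 0 ∧
      y.1 ∈ BD r r :=
    tendsto_fst.eventually (hp3.and ((isOpen_BD r r).mem_nhds hp5))
  filter_upwards [hsep, hgood] with y h1 h2 h3
  obtain ⟨h4, h5⟩ := h2
  have h6 : (T.P (qm T c y.1)).eval y.2 = 0 := h3.2.2
  rw [hspl _ h5, eval_prod, Finset.prod_eq_zero_iff] at h6
  obtain ⟨l, -, hl⟩ := h6
  have h7 : y.2 = ζ l y.1 := by
    simpa [sub_eq_zero] using hl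
  have h8 : l = j := by
    by_contra hlj
    exact h1 l hlj h7.symm
  subst h8
  show g (LL T (qm T c y.1, y.2)) = 0
  rw [h7, ← th_eq]
  exact h4

end Crest.Agent.R257.NV_287
end
end

-- ▼ part R257/OrdF_578

/-!
# Row 257, part C (helper578): **`OrdStmt L`**
-/

set_option autoImplicit false

open Crest.AlgGeometry.Germ Crest.Agent.R257.T387 Crest.Agent.R257.BP_258 Crest.Agent.R257.Defs_219

noncomputable section

namespace Crest.Agent.R257.OrdA_578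

variable {f : (Fin 3 → ℂ) → ℂ} {T : TB f} {U : Tub T} {S : Sh T}

/-- **orders of functions and the degree formula on all components** -/
theorem ordStmt [Fintype (II U)] (hf : Iso f) (hR : RetStmt U) (L : Lab U S) : OrdStmt L :=
  ordStmt_of_nv T.sheets hR (fun _ hg hne _ _ _ hc hs _ hp h0 j =>
    NV_287.nvs T hf hg hne hc hs hp h0 j) L

end Crest.Agent.R257.OrdA_578
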