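import Crest.Agent.R257.KB1_82
import Crest.Agent.R257.CDataC_250
import Crest.Agent.R257.KiD_121
import Crest.Agent.R257.WtF_258
import Crest.Agent.R257.OrdF_578

-- ▼ part R257/KB2_82
section

/-!
# Row 257 (S0395), part C, task (K1) KILL-BP (helper82), file 2: the Hörmander step with kill data

* `WTF`       : the weights with kills (direction `(a, b)`), the consumed form;
* `kill_core` : weights + data + Hörmander step.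
-/

set_option autoImplicit false
set_option linter.unusedSectionVars false

noncomputable section

open Set Filter Topology MeasureTheory
open scoped ENNReal

namespace Crest.Agent.R257.KB_82

open Crest.AlgGeometry.Germ
open Crest.Agent.R257.T387 Crest.Agent.R257.BP_258 Crest.Agent.R257.OrdK_82
open Crest.Agent.R257.HoT_843 Crest.Agent.R257.AJ387
open Crest.Agent.R257.HoB_843 Crest.Agent.R257.CDataB_250 Crest.Agent.R257.CDataC_250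
open Polynomial (nthRootsFinset)

variable {f : (Fin 3 → ℂ) → ℂ} {T : TB f} {U : Tub T} {S : Sh T}

/-- the weight with kills -/
structure WTF (L : Lab U S) (y : II U → ℝ) (F : Finset (Ch T.m)) (κ : Set (Ch T.m × Fin T.d))
    (t : Ch T.m × Fin T.d → ℝ) (a b : Ch T.m × Fin T.d → ℕ) (τ₀ τ₁ : ℝ)
    (Φ : (Fin 3 → ℂ) → ℝ) (ρ₀ C c₀ : ℝ) : Prop where
  ρ_pos : 0 < ρ₀
  c_pos : 0 < c₀
  sm : ∀ c ∈ F, ∀ j, ∀ p ∈ Og (S := S) c ρ₀, ContDiffAt ℝ (⊤ : ℕ∞) (Φ ∘ wc S c j) p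
  psh : ∀ c ∈ F, ∀ j, ∀ p ∈ Og (S := S) c ρ₀, ∀ w, 0 ≤ lvE (Φ ∘ wc S c j) p w
  le : ∀ c ∈ F, ∀ j, ∀ p ∈ Og (S := S) c ρ₀, Φ (wc S c j p) ≤ C
  up : ∀ c ∈ F, ∀ j, ∀ p ∈ Og (S := S) c ρ₀, Φ (wc S c j p) ≤
    yo y (L.e1 c j) * Real.log (‖p.1‖ ^ 2) + yo y (L.e2 c j) * Real.log (‖p.2‖ ^ 2) + C
  kl : ∀ c ∈ F, ∀ j, (c, j) ∈ κ → ∀ p ∈ Og (S := S) c ρ₀, p ∈ BD τ₁ τ₁ →
    |Φ (wc S c j p) - yo y (L.e1 c j) * Real.log (‖p.1‖ ^ 2) -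
      yo y (L.e2 c j) * Real.log (‖p.2‖ ^ 2) -
      t (c, j) * Real.log (‖p.1‖ ^ (2 * b (c, j)) + ‖p.2‖ ^ (2 * a (c, j)))| ≤ C
  st1 : ∀ c ∈ F, ∀ j, (c, j) ∈ κ → ∀ p ∈ Og (S := S) c ρ₀, p ∈ BD τ₁ τ₁ → L.e1 c j ≠ none →
    τ₀ ≤ ‖p.2‖ → ∀ w, c₀ * (‖w.1‖ ^ 2 + ‖w.2‖ ^ 2) ≤ lvE (Φ ∘ wc S c j) p w
  st2 : ∀ c ∈ F, ∀ j, (c, j) ∈ κ → ∀ p ∈ Og (S := S) c ρ₀, p ∈ BD τ₁ τ₁ → L.e2 c j ≠ none →
    τ₀ ≤ ‖p.1‖ → ∀ w, c₀ * (‖w.1‖ ^ 2 + ‖w.2‖ ^ 2) ≤ lvE (Φ ∘ wc S c j) p w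

/-- the kink is bounded below away from the origin -/
theorem kink_low {t τ₀ : ℝ} (ht : 0 ≤ t) (h0 : 0 < τ₀) (h1 : τ₀ ≤ 1) (a b : ℕ) {x y : ℝ}
    (hx : 0 ≤ x) (hy : 0 ≤ y) (h : τ₀ ≤ x ∨ τ₀ ≤ y) :
    t * Real.log (τ₀ ^ (2 * b + 2 * a)) ≤ t * Real.log (x ^ (2 * b) + y ^ (2 * a)) := by
  refine mul_le_mul_of_nonneg_left (Real.log_le_log (by positivity) ?_) ht
  rcases h with h | h
  · calc τ₀ ^ (2 * b + 2 * a) ≤ τ₀ ^ (2 * b) :=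
        pow_le_pow_of_le_one h0.le h1 (Nat.le_add_right _ _)
      _ ≤ x ^ (2 * b) := pow_le_pow_left₀ h0.le h _
      _ ≤ x ^ (2 * b) + y ^ (2 * a) := le_add_of_nonneg_right (by positivity)
  · calc τ₀ ^ (2 * b + 2 * a) ≤ τ₀ ^ (2 * a) :=
        pow_le_pow_of_le_one h0.le h1 (Nat.le_add_left _ _)
      _ ≤ y ^ (2 * a) := pow_le_pow_left₀ h0.le h _
      _ ≤ x ^ (2 * b) + y ^ (2 * a) := le_add_of_nonneg_left (by positivity)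

theorem WTF.wtk {L : Lab U S} {y : II U → ℝ} {F : Finset (Ch T.m)} {κ : Set (Ch T.m × Fin T.d)}
    {t : Ch T.m × Fin T.d → ℝ} {a b : Ch T.m × Fin T.d → ℕ} {τ₀ τ₁ : ℝ}
    {Φ : (Fin 3 → ℂ) → ℝ} {ρ₀ C c₀ : ℝ} (h : WTF L y F κ t a b τ₀ τ₁ Φ ρ₀ C c₀)
    (ht : ∀ q ∈ κ, 0 ≤ t q) (h0 : 0 < τ₀) (h1 : τ₀ ≤ 1) :
    ∃ C', WTk L y F κ τ₀ τ₁ Φ ρ₀ C' c₀ := by
  classical
  set B : Finset (Ch T.m × Fin T.d) := F ×ˢ Finset.univ with hB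
  obtain ⟨M, hM⟩ := (B.image fun q => -(t q * Real.log (τ₀ ^ (2 * b q + 2 * a q)))).bddAbove
  refine ⟨C + M, h.ρ_pos, h.c_pos, h.psh, fun c hc j hk p hp hp' hor => ?_, h.st1, h.st2⟩
  have e1 := (abs_le.1 (h.kl c hc j hk p hp hp')).1
  have e2 := kink_low (ht _ hk) h0 h1 (a (c, j)) (b (c, j)) (norm_nonneg p.1) (norm_nonneg p.2) hor
  have e3 : -(t (c, j) * Real.log (τ₀ ^ (2 * b (c, j) + 2 * a (c, j)))) ≤ M :=
    hM (Finset.mem_coe.2 (Finset.mem_image.2 ⟨(c, j), Finset.mem_product.2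
      ⟨hc, Finset.mem_univ _⟩, rfl⟩))
  linarith

/-- **weights + data + Hörmander step** -/
theorem kill_core (hC : Clo T) (L : Lab U S) {nu : II U → ℤ}
    {n1 n2 : Ch T.m → Fin T.d → ℤ} (J : Jac L nu n1 n2) {y : II U → ℝ}
    {F : Finset (Ch T.m)} (hF : ∀ c ∈ F, Ok S c)
    (hcov : ∃ ε > 0, ∀ s y : ℂ, ‖s‖ < ε → ‖y‖ < ε → (s, y) ≠ 0 → ∃ c ∈ F, ∃ p : ℂ × ℂ,
      ‖p.1‖ < S.r c ∧ ‖p.2‖ < S.r c ∧ T.map c p = (s, y))
    {κs : Set (Ch T.m × Fin T.d)} (hκF : ∀ q ∈ κs, q.1 ∈ F)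
    (hex₀ : ∃ r > 0, ∀ q ∈ κs, ∀ q' ∈ κs, ∀ p p', p ∈ BD r r → p' ∈ BD r r → T.Gen q.1 p →
      T.Gen q'.1 p' → wc S q.1 q.2 p = wc S q'.1 q'.2 p' → q'.1 = q.1)
    {m₁ m₂ : ℕ} (hd : ∀ q ∈ κs, Dv T q.1 m₁ m₂)
    (hn1 : ∀ q ∈ κs, n1 q.1 q.2 < m₁) (hn2 : ∀ q ∈ κs, n2 q.1 q.2 < m₂)
    (hy1 : ∀ q ∈ κs, L.e1 q.1 q.2 ≠ none → yo y (L.e1 q.1 q.2) + n1 q.1 q.2 < m₁)
    (hy2 : ∀ q ∈ κs, L.e2 q.1 q.2 ≠ none → yo y (L.e2 q.1 q.2) + n2 q.1 q.2 < m₂)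
    {t : Ch T.m × Fin T.d → ℝ} (ht : ∀ q ∈ κs, 0 ≤ t q) {a b : Ch T.m × Fin T.d → ℕ}
    {r₀ : ℝ} (hr₀ : 0 < r₀) {τ₁ : ℝ} (hτ₁ : 0 < τ₁)
    (hW : ∀ τ₀ > 0, τ₀ < τ₁ → ∃ Φ ρ₀ C c₀, WTF L y F κs t a b τ₀ τ₁ Φ ρ₀ C c₀) :
    ∃ (g V D : (Fin 3 → ℂ) → ℂ) (Φ : (Fin 3 → ℂ) → ℝ) (ρ₀ ρ₁ C τ : ℝ), 0 < τ ∧ 0 < ρ₀ ∧
      HT S g V D Φ ρ₁ ∧
      (∀ c ∈ F, ∀ j, ∀ p ∈ Og (S := S) c ρ₀, Φ (wc S c j p) ≤
        yo y (L.e1 c j) * Real.log (‖p.1‖ ^ 2) + yo y (L.e2 c j) * Real.log (‖p.2‖ ^ 2) + C) ∧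
      (∀ c ∈ F, ∀ j, (c, j) ∈ κs → ∀ p ∈ Og (S := S) c ρ₀, p ∈ BD τ τ →
        Φ (wc S c j p) ≤ yo y (L.e1 c j) * Real.log (‖p.1‖ ^ 2) +
          yo y (L.e2 c j) * Real.log (‖p.2‖ ^ 2) +
          t (c, j) * Real.log (‖p.1‖ ^ (2 * b (c, j)) + ‖p.2‖ ^ (2 * a (c, j))) + C) ∧
      (∀ q ∈ κs, ∀ p ∈ BD τ τ, T.Gen q.1 p → D (wc S q.1 q.2 p) = p.1 ^ m₁ * p.2 ^ m₂) ∧
      (∀ x, D x ≠ 0 → ∃ q ∈ κs, ∃ p ∈ BD r₀ r₀, T.Gen q.1 p ∧ x = wc S q.1 q.2 p) := by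
  -- `τ₁' ≤ 1`
  set τ₂ : ℝ := min τ₁ 1 with hτ₂
  have hτ₂0 : 0 < τ₂ := lt_min hτ₁ one_pos
  obtain ⟨τ, hτ0, hτ1, hdat⟩ := kill_data L J hF κs hκF hex₀ (fun _ => m₁) (fun _ => m₂) hd hn1 hn2
    hy1 hy2 hr₀ hτ₂0
  have hττ₁ : τ < τ₁ := hτ1.trans_le (min_le_left _ _)
  have hτ1' : τ ≤ 1 := hτ1.le.trans (min_le_right _ _)
  obtain ⟨Φ, ρ₀, C, c₀, hw⟩ := hW τ hτ0 hττ₁
  obtain ⟨C', hk⟩ := hw.wtk ht hτ0 hτ1'
  have hk2 : WTk L y F κs τ τ₂ Φ ρ₀ C' c₀ := by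
    have hsub : ∀ p : ℂ × ℂ, p ∈ BD τ₂ τ₂ → p ∈ BD τ₁ τ₁ := fun p hp =>
      ⟨hp.1.trans_le (min_le_left _ _), hp.2.trans_le (min_le_left _ _)⟩
    exact ⟨hk.ρ_pos, hk.c_pos, hk.psh, fun c hc j hj p hp hp' => hk.lo c hc j hj p hp (hsub p hp'),
      fun c hc j hj p hp hp' => hk.st1 c hc j hj p hp (hsub p hp'),
      fun c hc j hj p hp hp' => hk.st2 c hc j hj p hp (hsub p hp')⟩
  obtain ⟨ρ, hρ0, hρ, D, O, κ, hA, hD1, hD2⟩ := hdat Φ ρ₀ C' c₀ hk2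
  have hO : ∀ c ∈ F, ∀ j, O c j ⊆ Og (S := S) c ρ := fun c hc j p hp => (hA.sub c hc j p hp).1
  have hOg : ∀ c : Ch T.m, Og (S := S) c ρ ⊆ Og (S := S) c ρ₀ := fun c p hp =>
    ⟨hp.1, hp.2.1, hp.2.2.1, hp.2.2.2.trans_le hρ⟩
  have hv : ∀ c ∈ F, T.Valid c := fun c hc => (hF c hc).1
  obtain ⟨g, V, ρ₁, h1, h2⟩ := HT.of_hoT (hoT S hv hρ0 hC.gal hA.op hO
    (cov_of S hv hρ0 hcov hA.cov) (Φ := Φ) (D := D) (κ := κ)
    (fun c hc j p hp => hw.sm c hc j p (hOg c (hO c hc j hp))) hA.sm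
    (fun c hc j p hp w => hw.psh c hc j p (hOg c (hO c hc j hp)) w)
    (fun c hc j p => hA.nn c j p) (fun c hc j => hA.me c j) hA.db
    (fun c hc j p hp => hw.le c hc j p (hOg c (hO c hc j hp))) hA.iK hA.iD)
  refine ⟨g, V, D, Φ, ρ₀, ρ₁, C, τ, hτ0, hw.ρ_pos, h2, hw.up, fun c hc j hj p hp hp' => ?_,
    hD1, hD2⟩
  have := (abs_le.1 (hw.kl c hc j hj p hp ⟨hp'.1.trans hττ₁, hp'.2.trans hττ₁⟩)).2
  linarith

end Crest.Agent.R257.KB_82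
end
end

-- ▼ part R257/KB3_82

/-!
# Row 257 (S0395), part C, task (K1) KILL-BP (helper82), file 3: `KillBPStmt` from the weights
-/

set_option autoImplicit false
set_option linter.unusedSectionVars false

noncomputable section

open Set Filter Topology MeasureTheory
open scoped ENNReal

namespace Crest.Agent.R257.KB_82

open Crest.AlgGeometry.Germ Crest.Agent.R257.Defs_219
open Crest.Agent.R257.T387 Crest.Agent.R257.BP_258 Crest.Agent.R257.OrdK_82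
open Crest.Agent.R257.HoT_843 Crest.Agent.R257.AJ387 Crest.Agent.R257.Gr1_157
open Crest.Agent.R257.Rot1_558 Crest.Agent.R257.Vt1_558 Crest.Agent.R257.Vt3_558
open Crest.Agent.R257.Vt4_558 Crest.Agent.R257.Wt_258 Crest.Agent.R257.KiD_121
open Polynomial (nthRootsFinset)

variable {f : (Fin 3 → ℂ) → ℂ} {T : TB f} {U : Tub T} {S : Sh T}

/-- the divisor of an edge divides `Dv T` -/
theorem edge_dvd {i : Fin T.m} {k k' : ℕ} (hc : T.Valid (.edge i k k')) :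
    T.M * (k' - k) ∣ KiD_121.Dv T := by
  have hk : k < k' := hc.2.2.1
  refine Dvd.dvd.mul_left (Nat.mul_dvd_mul_left _ ?_) _
  refine Nat.dvd_factorial (by omega) ?_
  have h1 : k' ≤ T.top i := (T.lev i).le_max' k' hc.2.1
  have h2 : T.top i ≤ Finset.univ.sup T.top := Finset.le_sup (f := T.top) (Finset.mem_univ i)
  omega

theorem m_dvd : T.M ∣ KiD_121.Dv T :=
  Dvd.dvd.mul_left (Dvd.intro _ rfl) _


theorem dv_of {c : Ch T.m} (hc : T.Valid c) {m₁ m₂ : ℕ} (h1 : KiD_121.Dv T ∣ m₁)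
    (h2 : KiD_121.Dv T ∣ m₂) : CDataB_250.Dv T c m₁ m₂ := by
  cases c with
  | edge i k k' => exact ⟨(edge_dvd hc).trans h1, (edge_dvd hc).trans h2⟩
  | leg i => exact m_dvd.trans h2
  | vert i k w => trivial

theorem yn_dvd {m : II U → ℕ} (h : ∀ E, KiD_121.Dv T ∣ m E) (e : Option (II U)) :
    KiD_121.Dv T ∣ yn m e := by
  cases e with
  | none => exact dvd_zero _
  | some E => exact h E

theorem yn_map {m : II U → ℕ} {π : II U → II U} (h : ∀ E, m (π E) = m E) (e : Option (II U)) :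
    yn m (e.map π) = yn m e := by
  cases e with
  | none => rfl
  | some E => exact h E

theorem yo_map {y : II U → ℝ} {π : II U → II U} (h : ∀ E, y (π E) = y E) (e : Option (II U)) :
    yo y (e.map π) = yo y e := by
  cases e with
  | none => rfl
  | some E => exact h E

theorem exo_nonneg (hG : GalPt T) (hR : RetStmt U) (e : Option (II U)) (E : II U) :
    0 ≤ exo hG hR e E := by
  unfold exo
  split_ifs <;> norm_num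

/-- the cover by canonical charts (554's `coverP`) -/
def CovP (S : Sh T) : Prop := ∀ r : Ch T.m → ℝ, (∀ c, 0 < r c) →
    ∃ F : Finset (Ch T.m), (∀ c ∈ F, Ok S c) ∧ ∃ ε > 0, ∀ s y : ℂ, ‖s‖ < ε → ‖y‖ < ε →
      (s, y) ≠ 0 → ∃ c ∈ F, ∃ p : ℂ × ℂ, ‖p.1‖ ≤ r c ∧ ‖p.2‖ ≤ r c ∧ T.map c p = (s, y)

/-- the weights in the consumed form -/
theorem wtf_of [Fintype (II U)] {L : Lab U S} (hW : WTDStmt L) {y : II U → ℝ}
    {F : Finset (Ch T.m)} (K : DKill S F) (hF : ∀ c ∈ F, Ok S c) (hK : ∀ E, DSup L y K E) :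
    ∃ τ₁ > 0, ∀ τ₀ > 0, τ₀ < τ₁ → ∃ Φ ρ₀ C c₀, WTF L y F K.κ K.t K.a K.b τ₀ τ₁ Φ ρ₀ C c₀ := by
  obtain ⟨τ₁, hτ₁, h⟩ := hW y F K hF hK
  refine ⟨τ₁, hτ₁, fun τ₀ h0 h1 => ?_⟩
  obtain ⟨Φ, ρ₀, C, c₀, hρ, hc, h2⟩ := h τ₀ h0 h1
  refine ⟨Φ, ρ₀, C, c₀, hρ, hc, ?_, ?_, ?_, ?_, ?_, ?_, ?_⟩
  · exact fun c hcF j p hp => ((h2 c hcF j).1 p hp).1
  · exact fun c hcF j p hp w => ((h2 c hcF j).1 p hp).2.1 w
  · exact fun c hcF j p hp => ((h2 c hcF j).1 p hp).2.2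
  · exact fun c hcF j p hp => (h2 c hcF j).2.1 p hp
  · exact fun c hcF j hk p hp hp' => (h2 c hcF j).2.2.2.1 hk p hp hp'.1 hp'.2
  · exact fun c hcF j hk p hp hp' he ht w =>
      ((h2 c hcF j).2.2.2.2.2 hk p hp hp'.1 hp'.2).1 he ht w
  · exact fun c hcF j hk p hp hp' he ht w =>
      ((h2 c hcF j).2.2.2.2.2 hk p hp hp'.1 hp'.2).2 he ht w

theorem e2_none (L : Lab U S) {c : Ch T.m} (hc : Ok S c) (hV : IsV c) (j : Fin T.d) :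
    L.e2 c j = none := by
  have := L.v_e2 c hc j
  have hv2 : v2 T c = none := by
    cases c with
    | edge i k k' => exact absurd hV id
    | leg i => rfl
    | vert i k w => rfl
  rw [hv2] at this
  simpa using this

/-- **(K1)** -/
theorem killBP [Fintype (II U)] (hf : Iso f) (hC : Clo T) (hG : GalPt T) (hR : RetStmt U)
    {S : Sh T} (hmono : ∀ c, T.Valid c → T.MonoC c (S.r c)) (hcovP : CovP S) (L : Lab U S)
    {nu : II U → ℤ} {n1 n2 : Ch T.m → Fin T.d → ℤ} (J : Jac L nu n1 n2) (hsumK : KSumStmt U)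
    (hW : WTDStmt L) : KillBPStmt hG hR L nu n1 n2 := by
  classical
  intro c₀ hc₀ j₀ κ hO a b ha hb _ m y hDv hmi hyi hlt t ht hineq hsup
  have hform := Lab_931.iform L hR
  have hnd : (0 : ℝ) ≤ (T.N * T.d : ℕ) * t := by positivity
  -- `y ≥ 0`
  have hdgy : ∀ E, dg (Mx L) y E < 0 := fun E => by
    have h1 := hsup E
    have h2 : 0 ≤ (a : ℝ) * exo hG hR (L.e1 c₀ j₀) E + b * exo hG hR (L.e2 c₀ j₀) E :=
      add_nonneg (mul_nonneg (Nat.cast_nonneg _) (exo_nonneg _ _ _ _))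
        (mul_nonneg (Nat.cast_nonneg _) (exo_nonneg _ _ _ _))
    have := mul_nonneg hnd h2
    linarith
  have hy0 : ∀ E, 0 ≤ y E := nonneg_of hform (S := Set.univ) (fun E _ => (hdgy E).le)
    (fun E hE => absurd (Set.mem_univ E) hE)
  -- the charts
  set Fκ : Finset (Ch T.m) := κ.image Prod.fst with hFκ
  have hFκ_ok : ∀ c ∈ Fκ, Ok S c := by
    intro c hc
    obtain ⟨x, hx, rfl⟩ := Finset.mem_image.1 hc
    exact hO.ok x hx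
  obtain ⟨Fc, hFc_ok, ε, hε, hcov⟩ := hcovP (fun c => S.r c / 2) (fun c => half_pos (S.pos c))
  choose cT jT hcT_ok hcT_V hcT_e hcT_B using fun E => exists_test hR L E Fκ
  set Ft : Finset (Ch T.m) := Finset.univ.biUnion fun E =>
    (nthRootsFinset T.N (1 : ℂ)).image fun ξ => rc T ξ (cT E) with hFt
  have hFt_ok : ∀ c ∈ Ft, Ok S c := by
    intro c hc
    obtain ⟨E, -, hE⟩ := Finset.mem_biUnion.1 hc
    obtain ⟨ξ, hξ, rfl⟩ := Finset.mem_image.1 hE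
    exact ok_rc S hG ((Polynomial.mem_nthRootsFinset T.N_pos (1 : ℂ)).1 hξ) (hcT_ok E)
  set F : Finset (Ch T.m) := Fκ ∪ (Fc ∪ Ft) with hFdef
  have hF : ∀ c ∈ F, Ok S c := by
    intro c hc
    rcases Finset.mem_union.1 hc with h | h
    · exact hFκ_ok c h
    · rcases Finset.mem_union.1 h with h | h
      · exact hFc_ok c h
      · exact hFt_ok c h
  have hκF : ∀ x ∈ κ, x.1 ∈ F := fun x hx =>
    Finset.mem_union_left _ (Finset.mem_image_of_mem _ hx)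
  have hcov' : ∃ ε > 0, ∀ s y : ℂ, ‖s‖ < ε → ‖y‖ < ε → (s, y) ≠ 0 → ∃ c ∈ F, ∃ p : ℂ × ℂ,
      ‖p.1‖ < S.r c ∧ ‖p.2‖ < S.r c ∧ T.map c p = (s, y) := by
    refine ⟨ε, hε, fun s y h1 h2 h3 => ?_⟩
    obtain ⟨c, hc, p, hp1, hp2, hp3⟩ := hcov s y h1 h2 h3
    have := S.pos c
    exact ⟨c, Finset.mem_union_right _ (Finset.mem_union_left _ hc), p, by linarith, by linarith,
      hp3⟩
  have hrcF : ∀ E, ∀ ξ : ℂ, ξ ^ T.N = 1 → rc T ξ (cT E) ∈ F := fun E ξ hξ =>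
    Finset.mem_union_right _ (Finset.mem_union_right _ (Finset.mem_biUnion.2 ⟨E,
      Finset.mem_univ _, Finset.mem_image.2 ⟨ξ,
        (Polynomial.mem_nthRootsFinset T.N_pos (1 : ℂ)).2 hξ, rfl⟩⟩))
  -- the kills
  obtain ⟨rx, hrx, hex⟩ := hO.ex
  set K : DKill S F :=
    { κ := ↑κ
      t := fun _ => t
      a := fun _ => a
      b := fun _ => b
      t_pos := fun _ _ => ht
      ab_pos := fun _ _ => ⟨ha, hb⟩
      mem := fun x hx => hκF x hx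
      ex := ⟨rx, hrx, fun x hx c hc j p p' hp hp' hg hg' he => by
        obtain ⟨e1, e2⟩ := hex x hx c hc j p p' hp hp' hg hg' he
        exact ⟨e1, e2, rfl, rfl, rfl⟩⟩ } with hK
  have hsupK : ∀ E, DSup L y K E := fun E => by
    have h1 := hsumK hG hR S L c₀ j₀ κ hO F t a b ht.le (Nat.cast_nonneg _) (Nat.cast_nonneg _) E
    have h2 := hsup E
    refine lt_of_le_of_lt (add_le_add_right ?_ _) h2
    refine le_trans (le_of_eq ?_) h1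
    refine Finset.sum_congr rfl fun c _ => Finset.sum_congr rfl fun j _ => ?_
    simp only [hK, Finset.mem_coe]
  obtain ⟨τ₁, hτ₁, hW'⟩ := wtf_of hW K hF hsupK
  -- radii for the vanishing near the test charts
  choose rT hrT hvan using fun E => vanish_near (S := S) hG (hcT_ok E) (jT E) hFκ_ok (hcT_B E)
  obtain ⟨r₀, hr₀, hr₀le⟩ : ∃ r₀ > 0, ∀ E, r₀ ≤ rT E := by
    by_cases hne : Nonempty (II U)
    · obtain ⟨E, hE⟩ := Finite.exists_min rT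
      exact ⟨rT E, hrT E, hE⟩
    · exact ⟨1, one_pos, fun E => absurd ⟨E⟩ hne⟩
  -- the data
  set m₁ : ℕ := yn m (L.e1 c₀ j₀) with hm₁
  set m₂ : ℕ := yn m (L.e2 c₀ j₀) with hm₂
  have hdm₁ : KiD_121.Dv T ∣ m₁ := yn_dvd hDv _
  have hdm₂ : KiD_121.Dv T ∣ m₂ := yn_dvd hDv _
  have hlab : ∀ x ∈ κ, yn m (L.e1 x.1 x.2) = m₁ ∧ yn m (L.e2 x.1 x.2) = m₂ ∧
      yo y (L.e1 x.1 x.2) = yo y (L.e1 c₀ j₀) ∧ yo y (L.e2 x.1 x.2) = yo y (L.e2 c₀ j₀) := by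
    intro x hx
    obtain ⟨ξ, hξ, -, e1, e2⟩ := hO.lab x hx
    rw [e1, e2]
    exact ⟨yn_map (hmi ξ hξ) _, yn_map (hmi ξ hξ) _, yo_map (hyi ξ hξ) _, yo_map (hyi ξ hξ) _⟩
  have hn1 : ∀ q ∈ κ, n1 q.1 q.2 < m₁ := by
    intro q hq
    rw [← (hlab q hq).1]
    rcases he : L.e1 q.1 q.2 with _ | E
    · have := J.none1 q.1 (hO.ok q hq) q.2 he
      show n1 q.1 q.2 < ((yn m none : ℕ) : ℤ)
      simp only [yn, Option.elim_none, Nat.cast_zero]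
      omega
    · rw [J.some1 q.1 (hO.ok q hq) q.2 E he]
      have h1 := hlt E
      have h2 := hy0 E
      have h3 : (nu E : ℝ) < m E := by linarith
      show nu E < ((m E : ℕ) : ℤ)
      exact_mod_cast h3
  have hn2 : ∀ q ∈ κ, n2 q.1 q.2 < m₂ := by
    intro q hq
    rw [← (hlab q hq).2.1]
    rcases he : L.e2 q.1 q.2 with _ | E
    · have := J.none2 q.1 (hO.ok q hq) q.2 he
      show n2 q.1 q.2 < ((yn m none : ℕ) : ℤ)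
      simp only [yn, Option.elim_none, Nat.cast_zero]
      omega
    · rw [J.some2 q.1 (hO.ok q hq) q.2 E he]
      have h1 := hlt E
      have h2 := hy0 E
      have h3 : (nu E : ℝ) < m E := by linarith
      show nu E < ((m E : ℕ) : ℤ)
      exact_mod_cast h3
  have hy1 : ∀ q ∈ κ, L.e1 q.1 q.2 ≠ none → yo y (L.e1 q.1 q.2) + n1 q.1 q.2 < m₁ := by
    intro q hq hne
    rw [← (hlab q hq).1]
    obtain ⟨E, he⟩ := Option.ne_none_iff_exists'.1 hne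
    rw [J.some1 q.1 (hO.ok q hq) q.2 E he, he]
    exact hlt E
  have hy2 : ∀ q ∈ κ, L.e2 q.1 q.2 ≠ none → yo y (L.e2 q.1 q.2) + n2 q.1 q.2 < m₂ := by
    intro q hq hne
    rw [← (hlab q hq).2.1]
    obtain ⟨E, he⟩ := Option.ne_none_iff_exists'.1 hne
    rw [J.some2 q.1 (hO.ok q hq) q.2 E he, he]
    exact hlt E
  obtain ⟨g, V, D, Φ, ρ₀, ρ₁, C, τ, hτ, hρ₀, hHT, hup, hkl, hD1, hD2⟩ := kill_core hC L J hF hcov'
    (κs := (κ : Set (Ch T.m × Fin T.d))) hκF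
    ⟨rx, hrx, fun q hq q' hq' p p' hp hp' hg hg' he =>
      (hex q hq q'.1 (Or.inr ⟨q'.2, hq'⟩) q'.2 p p' hp hp' hg hg' he).1⟩
    (m₁ := m₁) (m₂ := m₂) (fun q hq => dv_of (hO.ok q hq).1 hdm₁ hdm₂) hn1 hn2 hy1 hy2
    (t := fun _ => t) (fun _ _ => ht.le) (a := fun _ => a) (b := fun _ => b) hr₀ hτ₁ hW'
  -- the kill
  have hkill : ∀ H : ℂ × ℂ → ℂ, ContinuousAt H (0, 0) →
      (∀ᶠ p in 𝓝 ((0 : ℂ), (0 : ℂ)), g (T.th c₀ (S.ζ c₀ j₀) p) =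
        p.1 ^ m₁ * p.2 ^ m₂ * H p) → H (0, 0) = 1 := by
    intro H hH hu
    refine hHT.kill_rot J hc₀ j₀ (off_of_mono (hmono c₀ hc₀.1) ρ₁) ha hb
      (y₁ := yo y (L.e1 c₀ j₀)) (y₂ := yo y (L.e2 c₀ j₀)) (t := t) (C := C) ht.le hρ₀ hτ
      (fun ξ hξ => ?_) hineq hH (hu.mono fun p hp _ _ => hp)
    obtain ⟨j', a', b', hmem, hrotC, ha', hb'⟩ := hO.rot (c₀, j₀) hO.mem₀ ξ hξ
    refine ⟨rc T ξ c₀, j', a', b', (hO.ok _ hmem).1, hrotC, ?_, ?_, ?_⟩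
    · obtain ⟨k₁, hk₁⟩ := hdm₁
      obtain ⟨k₂, hk₂⟩ := hdm₂
      rw [hk₁, hk₂, pow_mul, pow_mul, ha', hb', one_pow, one_pow, one_mul]
    · have e1 : ∀ᶠ p : ℂ × ℂ in 𝓝 ((0 : ℂ), (0 : ℂ)), p ∈ BD τ τ :=
        (isOpen_BD _ _).mem_nhds ⟨by simpa using hτ, by simpa using hτ⟩
      filter_upwards [e1] with p hp hg using hD1 _ hmem p hp hg
    · intro p hp h1 h2
      have h3 := hkl (rc T ξ c₀) (hκF _ hmem) j' hmem p hp ⟨h1, h2⟩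
      rw [(hlab _ hmem).2.2.1, (hlab _ hmem).2.2.2] at h3
      exact h3
  -- `g` is not zero on `{f = 0}`
  have hfreq : ∃ᶠ x in 𝓝 (0 : Fin 3 → ℂ), f x = 0 ∧ g x ≠ 0 := by
    by_contra hcon
    rw [not_frequently] at hcon
    have hr := S.pos c₀
    have hb0 : ((0 : ℂ), (0 : ℂ)) ∈ AJ387.BD (2 * S.r c₀) (2 * S.r c₀) :=
      ⟨by simpa using hr, by simpa using hr⟩
    have h0 : T.map c₀ (0, 0) = 0 := by
      rw [T.map_eq_zero hc₀.1]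
      cases c₀ with
      | edge i k k' => right; rfl
      | leg i => rfl
      | vert i k w₀ => rfl
    have hth0 : T.th c₀ (S.ζ c₀ j₀) (0, 0) = 0 := by
      rw [(S.sheets c₀ hc₀.1).th_zero hc₀.1 j₀ hb0, ← T.map_eq_zero hc₀.1]
      exact h0
    have htend : Tendsto (T.th c₀ (S.ζ c₀ j₀)) (𝓝 ((0 : ℂ), (0 : ℂ))) (𝓝 0) := by
      have := ((S.sheets c₀ hc₀.1).th_an j₀ hb0).continuousAt.tendsto
      rwa [hth0] at this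
    have hz : ∀ᶠ p in 𝓝 ((0 : ℂ), (0 : ℂ)), g (T.th c₀ (S.ζ c₀ j₀) p) =
        p.1 ^ m₁ * p.2 ^ m₂ * (fun _ : ℂ × ℂ => (0 : ℂ)) p := by
      have e1 : ∀ᶠ p : ℂ × ℂ in 𝓝 ((0 : ℂ), (0 : ℂ)), p ∈ AJ387.BD (2 * S.r c₀) (2 * S.r c₀) :=
        (isOpen_BD _ _).mem_nhds hb0
      filter_upwards [e1, htend.eventually hcon] with p hp hp'
      have hfp : f (T.th c₀ (S.ζ c₀ j₀) p) = 0 := (S.sheets c₀ hc₀.1).th_V j₀ hp
      rw [mul_zero]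
      by_contra hne
      exact hp' ⟨hfp, hne⟩
    exact zero_ne_one (hkill (fun _ => 0) continuousAt_const hz)
  obtain ⟨v, -, hv⟩ := OrdA_578.ordStmt hf hR L g hHT.an hfreq
  -- the orders
  have hord : ∀ E, y E + nu E < v E := by
    intro E
    have hc := hcT_ok E
    obtain ⟨G, hGa, hGe, hG1, -⟩ := hv (cT E) hc (jT E) (0, 0) (by simpa using (S.pos _).le)
      (by simpa using (S.pos _).le) (Or.inl ⟨by rw [hcT_e E]; simp, rfl⟩)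
    refine lo_all hG hR L J hyi hHT hc (hcT_V E) (hcT_e E) (off_of_mono (hmono _ hc.1) ρ₁)
      (fun ξ hξ => ?_) hρ₀ (C := C) (fun ξ hξ j p hp => hup _ (hrcF E ξ hξ) j p hp) hGa hGe
      (hG1 rfl E (hcT_e E)).1
    refine hvan E (fun x hx => ?_) ξ hξ
    obtain ⟨q, hq, p, hp, hg, he⟩ := hD2 x hx
    exact ⟨q.1, Finset.mem_image_of_mem _ hq, q.2, p, ⟨hp.1.trans_le (hr₀le E),
      hp.2.trans_le (hr₀le E)⟩, hg, he⟩
  refine ⟨g, hHT.an, fun c hc hV j E hE z hz => ?_, fun H hH hu => ?_⟩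
  · obtain ⟨G, hGa, hGe, -⟩ := hv c hc j (0, z) (by simpa using (S.pos _).le) hz.le
      (Or.inl ⟨by rw [hE]; simp, rfl⟩)
    refine ⟨v E, G, hord E, hGa, ?_⟩
    filter_upwards [hGe] with p hp
    rw [hp, hE, e2_none L hc hV j]
    simp [yn]
  · rw [hkill H hH hu]
    exact one_ne_zero

end Crest.Agent.R257.KB_82
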