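import Crest.Agent.R257.HoB_843
import Crest.Agent.R276.SMax_137

/-!
Row 257 (S0395), C-WT, file 1 (helper258): calculus of the Levi form `lvE` on a complex normed space:
sums, scalar functions, smooth maximum, `log |F|²`.
-/

set_option autoImplicit false
set_option linter.unusedSectionVars false
set_option linter.deprecated false

open Set Filter Topology Metric
open Crest.Agent.R257.HoB_843 Crest.Agent.R276.NL_137

noncomputable section

namespace Crest.Agent.R257.Wt_258

section cal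

variable {E : Type*} [NormedAddCommGroup E] [NormedSpace ℂ E] [NormedSpace ℝ E]
  [IsScalarTower ℝ ℂ E]

lemma d2_add {u v : E → ℝ} {z : E} (hu : ContDiffAt ℝ 2 u z) (hv : ContDiffAt ℝ 2 v z) (a b : E) :
    fderiv ℝ (fderiv ℝ (fun x => u x + v x)) z a b =
      fderiv ℝ (fderiv ℝ u) z a b + fderiv ℝ (fderiv ℝ v) z a b := by
  have h1 : fderiv ℝ (fun x => u x + v x) =ᶠ[𝓝 z] fun x => fderiv ℝ u x + fderiv ℝ v x := by
    have e1 : ∀ᶠ x in 𝓝 z, DifferentiableAt ℝ u x :=
      (hu.eventually (by simp)).mono fun x hx => hx.differentiableAt (by norm_num)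
    have e2 : ∀ᶠ x in 𝓝 z, DifferentiableAt ℝ v x :=
      (hv.eventually (by simp)).mono fun x hx => hx.differentiableAt (by norm_num)
    filter_upwards [e1, e2] with x hx hx'
    exact fderiv_add hx hx'
  have d1 : DifferentiableAt ℝ (fderiv ℝ u) z :=
    (hu.fderiv_right (m := 1) (by norm_num)).differentiableAt (by norm_num)
  have d2 : DifferentiableAt ℝ (fderiv ℝ v) z :=
    (hv.fderiv_right (m := 1) (by norm_num)).differentiableAt (by norm_num)
  rw [h1.fderiv_eq, fderiv_fun_add d1 d2]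
  rfl

lemma lvE_add {u v : E → ℝ} {z : E} (hu : ContDiffAt ℝ 2 u z) (hv : ContDiffAt ℝ 2 v z) (w : E) :
    lvE (fun x => u x + v x) z w = lvE u z w + lvE v z w := by
  unfold lvE
  rw [d2_add hu hv, d2_add hu hv]
  ring

lemma lvE_const (c : ℝ) (z w : E) : lvE (fun _ : E => c) z w = 0 := by
  have h : fderiv ℝ (fun _ : E => c) = fun _ => 0 := by
    funext x; exact fderiv_const_apply c
  unfold lvE
  rw [h]
  simp

/-- second derivative of `φ ∘ g` -/
lemma d2_scal {φ : ℝ → ℝ} {g : E → ℝ} {z : E} (hφ : ContDiffAt ℝ 2 φ (g z))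
    (hg : ContDiffAt ℝ 2 g z) (a b : E) :
    fderiv ℝ (fderiv ℝ (fun x => φ (g x))) z a b =
      deriv φ (g z) * fderiv ℝ (fderiv ℝ g) z a b +
        deriv (deriv φ) (g z) * (fderiv ℝ g z a * fderiv ℝ g z b) := by
  have hg1 : ∀ᶠ x in 𝓝 z, DifferentiableAt ℝ g x :=
    (hg.eventually (by simp)).mono fun x hx => hx.differentiableAt (by norm_num)
  have hφ1 : ∀ᶠ x in 𝓝 z, DifferentiableAt ℝ φ (g x) :=
    hg.continuousAt.eventually ((hφ.eventually (by simp)).mono fun x hx =>
      hx.differentiableAt (by norm_num))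
  have h1 : fderiv ℝ (fun x => φ (g x)) =ᶠ[𝓝 z] fun x => deriv φ (g x) • fderiv ℝ g x := by
    filter_upwards [hg1, hφ1] with x hx hx'
    have := (hx'.hasDerivAt.comp_hasFDerivAt x hx.hasFDerivAt).fderiv
    exact this
  have hdφ : DifferentiableAt ℝ (deriv φ) (g z) := by
    have h2 : ContDiffAt ℝ 1 (fderiv ℝ φ) (g z) := hφ.fderiv_right (m := 1) (by norm_num)
    have h3 : DifferentiableAt ℝ (fun x => fderiv ℝ φ x 1) (g z) :=
      (h2.differentiableAt (by norm_num)).clm_apply (differentiableAt_const _)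
    exact h3.congr_of_eventuallyEq (Eventually.of_forall fun x => (fderiv_apply_one_eq_deriv).symm)
  have hA : HasFDerivAt (fun x => deriv φ (g x)) (deriv (deriv φ) (g z) • fderiv ℝ g z) z :=
    hdφ.hasDerivAt.comp_hasFDerivAt z (hg.differentiableAt (by norm_num)).hasFDerivAt
  have hB : HasFDerivAt (fderiv ℝ g) (fderiv ℝ (fderiv ℝ g) z) z :=
    ((hg.fderiv_right (m := 1) (by norm_num)).differentiableAt (by norm_num)).hasFDerivAt
  have hC : HasFDerivAt (fun x => deriv φ (g x) • fderiv ℝ g x)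
      (deriv φ (g z) • fderiv ℝ (fderiv ℝ g) z +
        (deriv (deriv φ) (g z) • fderiv ℝ g z).smulRight (fderiv ℝ g z)) z := hA.smul hB
  rw [h1.fderiv_eq, hC.fderiv]
  simp only [ContinuousLinearMap.add_apply, ContinuousLinearMap.smul_apply,
    ContinuousLinearMap.smulRight_apply, smul_eq_mul]
  ring

lemma lvE_scal {φ : ℝ → ℝ} {g : E → ℝ} {z : E} (hφ : ContDiffAt ℝ 2 φ (g z))
    (hg : ContDiffAt ℝ 2 g z) (w : E) :
    lvE (fun x => φ (g x)) z w = deriv φ (g z) * lvE g z w +
      (1 / 4) * deriv (deriv φ) (g z) *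
        (fderiv ℝ g z w ^ 2 + fderiv ℝ g z (Complex.I • w) ^ 2) := by
  unfold lvE
  rw [d2_scal hφ hg, d2_scal hφ hg]
  ring

lemma lvE_const_mul {u : E → ℝ} {z : E} (hu : ContDiffAt ℝ 2 u z) (c : ℝ) (w : E) :
    lvE (fun x => c * u x) z w = c * lvE u z w := by
  have h := lvE_scal (φ := fun t => c * t) (g := u) (z := z) (by fun_prop) hu w
  have h1 : deriv (fun t : ℝ => c * t) = fun _ => c := by
    funext t; simp
  rw [h1] at h
  simpa using h

/-- the smooth maximum `b + SM (a - b)` -/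
def smx (a b : ℝ) : ℝ := b + SM (a - b)

lemma smx_left {a b : ℝ} (h : b + 1 ≤ a) : smx a b = a := by
  unfold smx; rw [SM_id (by linarith)]; ring

lemma smx_right {a b : ℝ} (h : a + 1 ≤ b) : smx a b = b := by
  unfold smx; rw [SM_zero (by linarith)]; ring


lemma le_smx_left (a b : ℝ) : a ≤ smx a b := by
  unfold smx
  have h : a - b ≤ SM (a - b) := by
    rcases le_or_gt 1 (a - b) with h | h
    · rw [SM_id h]
    · -- `SM t - t` is antitone
      have h1 : AntitoneOn (fun t => SM t - t) (Set.univ) := by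
        apply antitoneOn_of_deriv_nonpos convex_univ
        · exact (SM_contDiff.continuous.sub continuous_id).continuousOn
        · intro t _
          have hd : HasDerivAt (fun t => SM t - t) (ss t - 1) t :=
            (SM_hasDerivAt t).sub (hasDerivAt_id t)
          exact hd.differentiableAt.differentiableWithinAt
        · intro t _
          have hd : HasDerivAt (fun t => SM t - t) (ss t - 1) t :=
            (SM_hasDerivAt t).sub (hasDerivAt_id t)
          rw [hd.deriv]
          have := ss_le_one t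
          linarith
      have h2 := h1 (mem_univ (a - b)) (mem_univ (1 : ℝ)) h.le
      simp only [SM_one, sub_self] at h2
      linarith
  linarith

lemma smx_le (a b : ℝ) : smx a b ≤ max a b + 1 := by
  unfold smx
  have := SM_le (a - b)
  have h : b + max (a - b) 0 = max a b := by
    rcases le_total a b with h | h
    · rw [max_eq_right h, max_eq_right (by linarith)]; ring
    · rw [max_eq_left h, max_eq_left (by linarith)]; ring
  linarith

lemma smx_contDiffAt {a b : E → ℝ} {z : E} {n : WithTop ℕ∞} (hn : n ≤ (⊤ : ℕ∞)) (ha : ContDiffAt ℝ n a z)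
    (hb : ContDiffAt ℝ n b z) : ContDiffAt ℝ n (fun x => smx (a x) (b x)) z := by
  unfold smx
  exact hb.add ((SM_contDiff.of_le hn).contDiffAt.comp z (ha.sub hb))

/-- the Levi form of the smooth maximum is a convex combination plus a non-negative term -/
theorem lvE_smx {a b : E → ℝ} {z : E} (ha : ContDiffAt ℝ 2 a z) (hb : ContDiffAt ℝ 2 b z) (w : E) :
    ss (a z - b z) * lvE a z w + (1 - ss (a z - b z)) * lvE b z w ≤
      lvE (fun x => smx (a x) (b x)) z w := by
  have hSM : ContDiffAt ℝ 2 SM (a z - b z) := (SM_contDiff.of_le (by norm_cast)).contDiffAt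
  have hc : ContDiffAt ℝ 2 (fun x => a x - b x) z := ha.sub hb
  have hb' : ContDiffAt ℝ 2 (fun x => (-1 : ℝ) * b x) z := contDiffAt_const.mul hb
  have e1 : lvE (fun x => smx (a x) (b x)) z w = lvE b z w + lvE (fun x => SM (a x - b x)) z w := by
    unfold smx
    exact lvE_add hb (hSM.comp z hc) w
  have e2 := lvE_scal (φ := SM) (g := fun x => a x - b x) (z := z) hSM hc w
  have e3 : lvE (fun x => a x - b x) z w = lvE a z w - lvE b z w := by
    have h1 : (fun x => a x - b x) = fun x => a x + (-1 : ℝ) * b x := by funext x; ring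
    rw [h1, lvE_add ha hb', lvE_const_mul hb]
    ring
  rw [deriv_SM] at e2
  have h4 : 0 ≤ deriv ss (a z - b z) := deriv_ss_nonneg _
  rw [e1, e2, e3]
  have h5 : 0 ≤ (1 / 4) * deriv ss (a z - b z) *
      (fderiv ℝ (fun x => a x - b x) z w ^ 2 +
        fderiv ℝ (fun x => a x - b x) z (Complex.I • w) ^ 2) := by positivity
  nlinarith [h5]

lemma lvE_smx_nonneg {a b : E → ℝ} {z : E} (ha : ContDiffAt ℝ 2 a z) (hb : ContDiffAt ℝ 2 b z)
    (w : E) (h1 : 0 ≤ lvE a z w) (h2 : 0 ≤ lvE b z w) : 0 ≤ lvE (fun x => smx (a x) (b x)) z w := by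
  refine le_trans ?_ (lvE_smx ha hb w)
  have h3 := ss_nonneg (a z - b z)
  have h4 := ss_le_one (a z - b z)
  have := mul_nonneg h3 h1
  have := mul_nonneg (sub_nonneg.2 h4) h2
  linarith

/-! ### `log |F|²` -/

lemma lvE_re {F : E → ℂ} {z : E} (hF : ContDiffAt ℂ 2 F z) (w : E) :
    lvE (fun x => (F x).re) z w = 0 := by
  have h1 : (fun x => (F x).re) = (fun t : ℂ => t.re) ∘ F := rfl
  have hre : ContDiff ℝ 2 (fun t : ℂ => t.re) := Complex.reCLM.contDiff
  rw [h1, lvE_comp hF hre.contDiffAt]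
  have h2 : fderiv ℝ (fun t : ℂ => t.re) = fun _ => Complex.reCLM := by
    funext x; exact Complex.reCLM.fderiv
  unfold lvE
  rw [h2]
  simp

lemma log_eq {F : E → ℂ} {z : E} (hF : ContinuousAt F z) (h0 : F z ≠ 0) :
    (fun x => Real.log (‖F x‖ ^ 2)) =ᶠ[𝓝 z]
      fun x => Real.log (‖F z‖ ^ 2) + 2 * (Complex.log (F x / F z)).re := by
  have h1 : ∀ᶠ x in 𝓝 z, F x ≠ 0 := hF.eventually_ne h0
  filter_upwards [h1] with x hx
  have h2 : (Complex.log (F x / F z)).re = Real.log ‖F x‖ - Real.log ‖F z‖ := by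
    rw [Complex.log_re, norm_div, Real.log_div (norm_ne_zero_iff.2 hx) (norm_ne_zero_iff.2 h0)]
  rw [h2, Real.log_pow, Real.log_pow]
  push_cast
  ring

lemma log_an {F : E → ℂ} {z : E} {n : WithTop ℕ∞} (hF : ContDiffAt ℂ n F z) (h0 : F z ≠ 0) :
    ContDiffAt ℂ n (fun x => Complex.log (F x / F z)) z := by
  have h1 : F z / F z ∈ Complex.slitPlane := by rw [div_self h0]; exact Complex.one_mem_slitPlane
  exact (Complex.contDiffAt_log h1).comp z (hF.div_const _)

lemma cd_log {F : E → ℂ} {z : E} (hF : ContDiffAt ℂ (⊤ : ℕ∞) F z) (h0 : F z ≠ 0) :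
    ContDiffAt ℝ (⊤ : ℕ∞) (fun x => Real.log (‖F x‖ ^ 2)) z := by
  refine ContDiffAt.congr_of_eventuallyEq ?_ (log_eq hF.continuousAt h0)
  have h1 : ContDiffAt ℝ (⊤ : ℕ∞) (fun x => Complex.log (F x / F z)) z :=
    (log_an hF h0).restrict_scalars ℝ
  have h2 : ContDiffAt ℝ (⊤ : ℕ∞) (fun x => (Complex.log (F x / F z)).re) z :=
    Complex.reCLM.contDiff.contDiffAt.comp z h1
  exact contDiffAt_const.add (contDiffAt_const.mul h2)

lemma lvE_log {F : E → ℂ} {z : E} (hF : ContDiffAt ℂ (⊤ : ℕ∞) F z) (h0 : F z ≠ 0) (w : E) :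
    lvE (fun x => Real.log (‖F x‖ ^ 2)) z w = 0 := by
  rw [lvE_congr (log_eq hF.continuousAt h0)]
  have h1 : ContDiffAt ℂ 2 (fun x => Complex.log (F x / F z)) z :=
    (log_an hF h0).of_le (by norm_cast)
  have h1' : ContDiffAt ℝ 2 (fun x => (Complex.log (F x / F z)).re) z :=
    Complex.reCLM.contDiff.contDiffAt.comp z (h1.restrict_scalars ℝ)
  rw [lvE_add contDiffAt_const (contDiffAt_const.mul h1'), lvE_const, lvE_const_mul h1', lvE_re h1]
  ring

lemma lvE_normSq {F : E → ℂ} {z : E} (hF : ContDiffAt ℂ 2 F z) (w : E) :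
    lvE (fun x => ‖F x‖ ^ 2) z w = ‖fderiv ℂ F z w‖ ^ 2 := by
  have h1 : (fun x => ‖F x‖ ^ 2) = (fun t : ℂ => ‖t‖ ^ 2) ∘ F := rfl
  have hn : ContDiff ℝ 2 (fun t : ℂ => ‖t‖ ^ 2) := contDiff_norm_sq ℝ
  rw [h1, lvE_comp hF hn.contDiffAt]
  generalize fderiv ℂ F z w = v
  generalize F z = a
  -- `‖t‖² = re² + im²`
  have e : (fun t : ℂ => ‖t‖ ^ 2) = fun t => Complex.reCLM t ^ 2 + Complex.imCLM t ^ 2 := by
    funext t
    rw [Complex.sq_norm, Complex.normSq_apply]
    simp [sq]
  have d1 : fderiv ℝ (fun t : ℂ => ‖t‖ ^ 2) = fun t => (2 * Complex.reCLM t) • Complex.reCLM +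
      (2 * Complex.imCLM t) • Complex.imCLM := by
    funext t
    rw [e]
    have h2 : HasFDerivAt (fun t : ℂ => Complex.reCLM t ^ 2 + Complex.imCLM t ^ 2)
        ((2 • Complex.reCLM t ^ (2 - 1)) • Complex.reCLM +
          (2 • Complex.imCLM t ^ (2 - 1)) • Complex.imCLM) t :=
      ((Complex.reCLM.hasFDerivAt (x := t)).pow 2).add ((Complex.imCLM.hasFDerivAt (x := t)).pow 2)
    rw [h2.fderiv]
    simp
  have d2 : fderiv ℝ (fderiv ℝ (fun t : ℂ => ‖t‖ ^ 2)) a =
      (((2 : ℝ) • Complex.reCLM).smulRight Complex.reCLM +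
      ((2 : ℝ) • Complex.imCLM).smulRight Complex.imCLM) := by
    rw [d1]
    have h3 : HasFDerivAt (fun t : ℂ => (2 * Complex.reCLM t) • Complex.reCLM +
      (2 * Complex.imCLM t) • Complex.imCLM) (((2 : ℝ) • Complex.reCLM).smulRight Complex.reCLM +
      ((2 : ℝ) • Complex.imCLM).smulRight Complex.imCLM) a := by
      have g1 : HasFDerivAt (fun t : ℂ => 2 * Complex.reCLM t) ((2 : ℝ) • Complex.reCLM) a :=
        Complex.reCLM.hasFDerivAt.const_mul 2
      have g2 : HasFDerivAt (fun t : ℂ => 2 * Complex.imCLM t) ((2 : ℝ) • Complex.imCLM) a :=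
        Complex.imCLM.hasFDerivAt.const_mul 2
      exact (g1.smul_const Complex.reCLM).add (g2.smul_const Complex.imCLM)
    exact h3.fderiv
  unfold lvE
  rw [d2]
  simp only [ContinuousLinearMap.add_apply, ContinuousLinearMap.smulRight_apply,
    ContinuousLinearMap.smul_apply, smul_eq_mul, Complex.reCLM_apply, Complex.imCLM_apply,
    Complex.mul_re, Complex.mul_im, Complex.I_re, Complex.I_im]
  rw [Complex.sq_norm, Complex.normSq_apply]
  ring

end cal

end Crest.Agent.R257.Wt_258
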