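import Crest.Agent.R257.ExH_82_Mg
import Crest.Agent.R257.KB3_82
import Crest.Agent.R257.ExI_121
import Crest.Agent.R257.K2_121
import Mathlib
import Crest.Agent.R257.CDataH_250
import Crest.Agent.R257.HoT_843
import Crest.Agent.R257.Wt1_258
import Crest.Agent.R257.Ta2_980
import Crest.Agent.R257.V2_808
import Crest.Agent.R257.RsnD_843
import Crest.Agent.R257.CDataB_250
import Crest.Agent.R257.ExND_843
import Crest.Agent.R257.EndB_636

-- ▼ part R257/FrBP10_808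
section

/-!
R257 / FrBP10_808: `ExAllStmt` from the statements at the level of `BPDefs_258`.
-/

set_option autoImplicit false
set_option linter.unusedSectionVars false

open Polynomial Set Filter Topology Metric
open Crest.AlgGeometry.Germ

noncomputable section

namespace Crest.Agent.R257.FrBP_808

open Crest.Agent.R257.Defs_219 Crest.Agent.R257.AJ387 Crest.Agent.R257.T387
open Crest.Agent.R257.BP_258 Crest.Agent.R257.FrmF_547
open Crest.Agent.R257.Gr1_157 Crest.Agent.R257.GrH_547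
open Crest.Agent.R257.Fr_808 Crest.Agent.R257.Rot1_558
open Crest.Agent.R257.KiD_121

/-- the weights (258) -/
def WTAll : Prop := ∀ (f : E3 → ℂ) (_ : Iso f) (T : TB f) (hC : Clo T) (S : Sh T)
  (L : Lab (Tb_941.tub T hC) S), Wt_258.WTDStmt L

/-- kill orbits (558) -/
def KAll : Prop := ∀ (f : E3 → ℂ) (_ : Iso f) (T : TB f) (hC : Clo T),
  KOrbStmt (Tb_941.tub T hC) ∧ KSumStmt (Tb_941.tub T hC)

/-- null orbits and invariant holomorphic forms (843, 176, 250) -/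
def NTAll : Prop := ∀ (f : E3 → ℂ) (_ : Iso f) (T : TB f) (hC : Clo T) (hG : GalPt T) (S : Sh T)
  (L : Lab (Tb_941.tub T hC) S) (nu : II (Tb_941.tub T hC) → ℤ) (n1 n2 : Ch T.m → Fin T.d → ℤ),
  (∀ c, T.Valid c → T.MonoC c (S.r c)) → Jac L nu n1 n2 →
  Exf_843.ExNBPStmt hG L nu ∧ Exf_843.ExTBPStmt hG L nu

/-- kills at the level of the frame (121) -/
def PEAll : Prop := ∀ (f : E3 → ℂ) (_ : Iso f) (T : TB f) (hC : Clo T) (hG : GalPt T) (S : Sh T)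
  (L : Lab (Tb_941.tub T hC) S) (nu : II (Tb_941.tub T hC) → ℤ) (n1 n2 : Ch T.m → Fin T.d → ℤ),
  KillBPStmt hG (Tb_941.retStmt (Tb_941.tub T hC)) L nu n1 n2 → KOrbStmt (Tb_941.tub T hC) →
  ∀ D : FrIn L nu n1 n2, ∃ B : ℝ, Ex_121.ExP D.fr (ExF_121.GG D hG) B (Dv T) ∧
    Ex_121.ExE D.fr (ExF_121.GG D hG) B (Dv T)

theorem exAll_of (hPE : PEAll) (hW : WTAll) (hK : KAll) (hNT : NTAll) : ExAllStmt := by
  intro f hf _ T hC hG S L nu n1 n2 hM D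
  have hR := Tb_941.retStmt (Tb_941.tub T hC)
  obtain ⟨hKO, hKS⟩ := hK f hf T hC
  obtain ⟨hN, hT⟩ := hNT f hf T hC hG S L nu n1 n2 hM D.jac
  have hkill : KillBPStmt hG hR L nu n1 n2 :=
    KB_82.killBP hf hC hG hR hM (BPC_554.coverP S) L D.jac hKS (hW f hf T hC S L)
  exact ⟨hPE f hf T hC hG S L nu n1 n2 hkill hKO D,
    ⟨ExH_82.Th D hG, ExH_82.exN_of D hG hN, ExH_82.exT_of D hG hT⟩⟩

/-- **Row 257 from the open statements** -/
theorem top_of (hPE : PEAll) (hW : WTAll) (hK : KAll) (hNT : NTAll) : CLog_68.CLogStmt :=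
  clog_of_exAll (exAll_of hPE hW hK hNT)

end Crest.Agent.R257.FrBP_808
end
end

-- ▼ part R257/FrBP11_808
section

/-!
R257 / FrBP11_808: `PEAll` (from 121's `exP`, `exE`).
-/

set_option autoImplicit false
set_option linter.unusedSectionVars false

noncomputable section

namespace Crest.Agent.R257.FrBP_808

/-- **kills at the level of the frame** -/
theorem peAll : PEAll := by
  intro f hf T hC hG S L nu n1 n2 hK hO D
  exact ⟨_, ExI_121.exP hK hO, ExI_121.exE hK hO⟩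

/-- **Row 257 from the open statements** -/
theorem top_of' (hW : WTAll) (hK : KAll) (hNT : NTAll) : CLog_68.CLogStmt :=
  top_of peAll hW hK hNT

end Crest.Agent.R257.FrBP_808
end
end

-- ▼ part R257/K3_121
section

/-!
R257 / K3_121: `KAll`; row 257 from `WTAll` and `NTAll`.
-/

set_option autoImplicit false
set_option linter.unusedSectionVars false

noncomputable section

namespace Crest.Agent.R257.FrBP_808

/-- **kill orbits** -/
theorem kAll : KAll := fun _ _ _ _ => ⟨K2_121.kOrb _, K2_121.kSum _⟩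

/-- **Row 257 from the weights and the null orbits** -/
theorem top_of_wn (hW : WTAll) (hNT : NTAll) : CLog_68.CLogStmt := top_of' hW kAll hNT

end Crest.Agent.R257.FrBP_808
end
end

-- ▼ part R257/CDataI_250
section

/-!
Row 257, part C, task C-DATA (helper250), file I: generic points lie off the branches (`offB`); the
context `Cx` of the null data, the function `Th`, its local forms.
-/

set_option autoImplicit false
set_option linter.unusedSectionVars false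

noncomputable section

open Set Filter Topology MeasureTheory Metric
open scoped ENNReal

namespace Crest.Agent.R257.CDataI_250

open Crest.AlgGeometry.Germ Crest.Agent.R257.AJ387 Crest.Agent.R257.T387
open Crest.Agent.R257.Gr1_157 Crest.Agent.R257.HoB_843 Crest.Agent.R257.BP_258
open Crest.Agent.R257.CDataA_250 Crest.Agent.R257.CDataB_250 Crest.Agent.R257.CDataE_250
open Crest.Agent.R257.CDataG_250 Crest.Agent.R257.CDataH_250
open Crest.Agent.R257.Wt_258 Crest.Agent.R257.Rsn_843 Crest.Agent.R257.Vt2_558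
open Crest.Agent.R257.FrmE_547 (CB)
open Crest.Agent.R257.FrmF_547 Crest.Agent.R257.Sep_547
open Crest.Agent.R257.Typ_201 (TV TL TN)

variable {f : (Fin 3 → ℂ) → ℂ} {T : TB f} {U : Tub T} {S : Sh T}

lemma offB1 {c : Ch T.m} (hc : Ok S c) (i : Fin T.m) : ∃ ε > 0, ∀ p ∈ CB (S.r c), T.Gen c p →
    ‖(T.map c p).1‖ < ε → (T.map c p).2 ≠ T.φ i ((T.map c p).1 ^ T.M) := by
  by_contra hcon
  push Not at hcon
  have h1 : ∀ n : ℕ, ∃ p ∈ CB (S.r c), T.Gen c p ∧ ‖(T.map c p).1‖ < 1 / ((n : ℝ) + 1) ∧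
      (T.map c p).2 = T.φ i ((T.map c p).1 ^ T.M) := fun n => hcon _ (by positivity)
  choose p hpC hpG hps hpe using h1
  obtain ⟨p₀, hp₀, φ, hφ, l1⟩ := (isCompact_CB (S.r c)).tendsto_subseq hpC
  have hε : Tendsto (fun n : ℕ => 1 / ((φ n : ℝ) + 1)) atTop (𝓝 0) :=
    tendsto_one_div_add_atTop_nhds_zero_nat.comp hφ.tendsto_atTop
  have lm : Tendsto (fun n => T.map c (p (φ n))) atTop (𝓝 (T.map c p₀)) :=
    ((S.sheets c hc.1).map_an (mem2 hp₀.1 hp₀.2)).continuousAt.tendsto.comp l1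
  have ls : Tendsto (fun n => (T.map c (p (φ n))).1) atTop (𝓝 0) := by
    rw [tendsto_zero_iff_norm_tendsto_zero]
    exact squeeze_zero (fun n => norm_nonneg _) (fun n => (hps (φ n)).le) hε
  have ls' : Tendsto (fun n => (T.map c (p (φ n))).1 ^ T.M) atTop (𝓝 0) := by
    have := ls.pow T.M
    rwa [zero_pow T.M_pos.ne'] at this
  have ly : Tendsto (fun n => (T.map c (p (φ n))).2) atTop (𝓝 0) := by
    have h2 := (T.φ_an i 0 (mem_ball_self T.ρ_pos)).continuousAt.tendsto.comp ls'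
    rw [T.φ_zero] at h2
    exact h2.congr fun n => (hpe (φ n)).symm
  have hmap0 : T.map c p₀ = 0 := tendsto_nhds_unique lm (ls.prodMk_nhds ly)
  set m : Filter (ℂ × ℂ) := map (fun n => p (φ n)) atTop with hm
  have hmle : m ≤ 𝓝 p₀ := l1
  have hgm : ∀ᶠ q in m, T.Gen c q := by
    rw [hm, eventually_map]; exact Eventually.of_forall fun n => hpG _
  set l : Filter (ℂ × ℂ) := map (T.map c) m with hl
  have hlne : l.NeBot := by rw [hl, hm]; infer_instance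
  have hl0 : Tendsto (Prod.fst : ℂ × ℂ → ℂ) l (𝓝 0) := by
    rw [hl, hm, tendsto_map'_iff, tendsto_map'_iff]
    exact ls
  have hl1 : ∀ᶠ q in l, q.1 ≠ 0 := by
    rw [hl, eventually_map]
    exact hgm.mono fun q hq => sc_ne hq
  have hTL : TL T l i := by
    refine tendsto_const_nhds.congr' ?_
    rw [hl, hm]
    refine (eventually_map.2 (eventually_map.2 (Eventually.of_forall fun n => ?_)))
    unfold Typ_201.wc
    rw [hpe (φ n), sub_self, zero_div]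
  rcases place hc hp₀ hmle hgm hmap0 with ⟨i', k, w, h3, h4⟩ | ⟨h3, h4⟩
  · exact Typ_201.TV_TL hl0 hl1 h3 hTL
  · cases c with
    | vert i' k w => exact h3 trivial
    | leg i' =>
      have h5 := Typ_201.TL_TL hl0 hl1 h4 hTL
      subst h5
      have h6 := hpe 0
      have h7 : (T.map (.leg i') (p 0)).2 = T.φ i' ((p 0).1 ^ T.M) +
          (p 0).1 ^ (T.M * T.top i') * (p 0).2 ^ T.M := rfl
      have h8 : (T.map (.leg i') (p 0)).1 = (p 0).1 := rfl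
      rw [h7, h8] at h6
      have h9 : (p 0).1 ^ (T.M * T.top i') * (p 0).2 ^ T.M = 0 := add_eq_left.1 h6
      exact mul_ne_zero (pow_ne_zero _ (hpG 0).1) (pow_ne_zero _ (hpG 0).2) h9
    | edge i' k k' => exact Typ_201.TL_TN hl0 hl1 hTL h4

/-- **generic points lie off the branches** -/
theorem offB {F : Finset (Ch T.m)} (hF : ∀ c ∈ F, Ok S c) : ∃ ε > 0, ∀ c ∈ F,
    ∀ p ∈ CB (S.r c), T.Gen c p → ‖(T.map c p).1‖ < ε →
      ∀ i, (T.map c p).2 ≠ T.φ i ((T.map c p).1 ^ T.M) := by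
  obtain ⟨ε, hε, h⟩ := fin_min (F ×ˢ (Finset.univ : Finset (Fin T.m)))
    (P := fun a ε => ∀ p ∈ CB (S.r a.1), T.Gen a.1 p → ‖(T.map a.1 p).1‖ < ε →
      (T.map a.1 p).2 ≠ T.φ a.2 ((T.map a.1 p).1 ^ T.M))
    (fun a ε ε' _ hle h p hp hg hs => h p hp hg (hs.trans_le hle)) (by
      rintro ⟨c, i⟩ hci
      rw [Finset.mem_product] at hci
      exact offB1 (hF c hci.1) i)
  exact ⟨ε, hε, fun c hc p hp hg hs i => h (c, i) (Finset.mem_product.2 ⟨hc, Finset.mem_univ _⟩)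
    p hp hg hs⟩

/-- the sheet over a point of another chart -/
lemma sheet_of {c c' : Ch T.m} (hc : T.Valid c) (hc' : T.Valid c') {j : Fin T.d} {p p' : ℂ × ℂ}
    (hp : p ∈ BD (2 * S.r c) (2 * S.r c)) (hp' : p' ∈ BD (2 * S.r c') (2 * S.r c'))
    (h : T.map c' p' = T.map c p) : ∃ j', wc S c' j' p' = wc S c j p := by
  have h1 := HoT_843.root S hc hp.1 hp.2 j
  rw [← h, HoT_843.root_iff S hc' hp'.1 hp'.2] at h1
  obtain ⟨j', hj'⟩ := h1
  exact ⟨j', by unfold wc; rw [← hj', h]⟩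

/-! ### the context -/

/-- the fixed data -/
structure Cx (L : Lab U S) (e₀ : II U) (f₀ : XV U e₀.1.1 → ℂ)
    (γ : Bool → Ch T.m → Fin T.d → ℂ → XV U e₀.1.1) (G F₀ : Finset (Ch T.m)) (τ b b₁ : ℝ) : Prop where
  hR : RetStmt U
  hf : HolX (pV U e₀.1.1) f₀
  f0 : ∀ q : XV U e₀.1.1, (q : ConnectedComponents _) ≠ e₀.2 → f₀ q = 0
  hγ : ∀ o c, Ok S c → ¬ IsV c → vO T o c = some e₀.1.1 → EndO U S o c e₀.1.1 (γ o c)
  τ_pos : 0 < τ
  τ_b : τ < b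
  b_b₁ : b < b₁
  b₁1 : b₁ ≤ 1
  b₁r : ∀ c ∈ Ends S, b₁ < S.r c
  ok : ∀ c ∈ F₀, Ok S c
  ends : Ends S ⊆ G
  sub : G ⊆ F₀
  sep : ∀ c ∈ G, ∀ c' ∈ Ends S, c ≠ c' → ∀ p ∈ CB (S.r c), ∀ p' ∈ CB b₁, T.Gen c p →
    T.Gen c' p' → T.map c p ≠ T.map c' p'

/-- smallness -/
structure Sm (L : Lab U S) (F F₀ : Finset (Ch T.m)) (b₁ ε : ℝ) : Prop where
  pos : 0 < ε
  sub : F₀ ⊆ F
  ok : ∀ c ∈ F, Ok S c
  vv : ∀ c ∈ F, ∀ c' ∈ F, IsV c' → ∀ j j' p p', p ∈ CB (S.r c) → T.Gen c p →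
      ‖(T.map c p).1‖ < ε → p' ∈ CB (S.r c') → T.Gen c' p' → wc S c j p = wc S c' j' p' →
      ∃ o, ∃ E : II U, L.e1 c' j' = some E ∧ eO L o c j = some E ∧
        (o = true ∧ IsV c ∨ ε ≤ ‖cB o p‖) ∧ InT U E.1.1 (wc S c j p) ∧
        ∀ q, IsRet U E.1.1 (wc S c j p) q → (q : ConnectedComponents _) = E.2
  off : ∀ c ∈ F, ∀ p ∈ CB (S.r c), T.Gen c p → ‖(T.map c p).1‖ < ε →
      ∀ i, (T.map c p).2 ≠ T.φ i ((T.map c p).1 ^ T.M)
  cov : ∀ s y : ℂ, ‖s‖ < ε → ‖y‖ < ε → (s, y) ≠ 0 → ∃ c ∈ F₀, ∃ p : ℂ × ℂ,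
      (¬ IsV c → p ∈ CB b₁) ∧ (IsV c → p ∈ CB (S.r c / 2)) ∧ T.map c p = (s, y)

lemma exists_Sm (hR : RetStmt U) (L : Lab U S) {F F₀ : Finset (Ch T.m)} {b₁ : ℝ} (hsub : F₀ ⊆ F)
    (hF : ∀ c ∈ F, Ok S c)
    (hcov : ∃ ε > 0, ∀ s y : ℂ, ‖s‖ < ε → ‖y‖ < ε → (s, y) ≠ 0 → ∃ c ∈ F₀, ∃ p : ℂ × ℂ,
      (¬ IsV c → p ∈ CB b₁) ∧ (IsV c → p ∈ CB (S.r c / 2)) ∧ T.map c p = (s, y)) :
    ∃ ε, Sm L F F₀ b₁ ε := by
  obtain ⟨ε₁, h1, hvv⟩ := VV hR L hF
  obtain ⟨ε₂, h2, hoff⟩ := offB hF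
  obtain ⟨ε₃, h3, hcov⟩ := hcov
  have h12 : 0 < min ε₁ ε₂ := lt_min h1 h2
  refine ⟨min (min ε₁ ε₂) ε₃, lt_min h12 h3, hsub, hF, ?_, ?_, ?_⟩
  · intro c hc c' hc' hV j j' p p' a1 a2 a3 a4 a5 a6
    have hle : min (min ε₁ ε₂) ε₃ ≤ ε₁ := (min_le_left _ _).trans (min_le_left _ _)
    obtain ⟨o, E, b1, b2, b3, b4⟩ := hvv c hc c' hc' hV j j' p p' a1 a2 (a3.trans_le hle) a4 a5 a6
    exact ⟨o, E, b1, b2, b3.imp_right fun h => hle.trans h, b4⟩
  · intro c hc p hp hg hs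
    exact hoff c hc p hp hg (hs.trans_le ((min_le_left _ _).trans (min_le_right _ _)))
  · intro s y hs hy
    exact hcov s y (hs.trans_le (min_le_right _ _)) (hy.trans_le (min_le_right _ _))

/-! ### the function -/

/-- the value of the function in the chart of an end -/
def th (U : Tub T) (S : Sh T) {v : Vtx} (f₀ : XV U v → ℂ)
    (γ : Bool → Ch T.m → Fin T.d → ℂ → XV U v) (τ b : ℝ) (o : Bool) (c : Ch T.m) (j : Fin T.d)
    (p : ℂ × ℂ) : ℂ :=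
  ((ct τ b (cB o p) : ℂ) * f₀ (γ o c j (cB o p)) +
    (1 - (ct τ b (cB o p) : ℂ)) * GG U v f₀ (wc S c j p)) * (ct τ b (cA o p) : ℂ)

/-- representation in the chart of an end -/
def RE (L : Lab U S) (e₀ : II U) (b₁ : ℝ) (x : Fin 3 → ℂ)
    (q : (Bool × Ch T.m × Fin T.d) × (ℂ × ℂ)) : Prop :=
  q.1.2.1 ∈ Ends S ∧ eO L q.1.1 q.1.2.1 q.1.2.2 = some e₀ ∧ q.2 ∈ CB b₁ ∧ T.Gen q.1.2.1 q.2 ∧
    wc S q.1.2.1 q.1.2.2 q.2 = x

/-- representation in a vertex chart -/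
def RV (L : Lab U S) (e₀ : II U) (F₀ : Finset (Ch T.m)) (x : Fin 3 → ℂ) : Prop :=
  ∃ c ∈ F₀, IsV c ∧ ∃ j p, L.e1 c j = some e₀ ∧ p ∈ CB (S.r c / 2) ∧ T.Gen c p ∧ wc S c j p = x

open Classical in
/-- the function -/
def Th (L : Lab U S) (e₀ : II U) (f₀ : XV U e₀.1.1 → ℂ)
    (γ : Bool → Ch T.m → Fin T.d → ℂ → XV U e₀.1.1) (F₀ : Finset (Ch T.m)) (τ b b₁ : ℝ)
    (x : Fin 3 → ℂ) : ℂ :=
  if h : ∃ q, RE L e₀ b₁ x q then
    th U S f₀ γ τ b h.choose.1.1 h.choose.1.2.1 h.choose.1.2.2 h.choose.2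
  else if RV L e₀ F₀ x then GG U e₀.1.1 f₀ x else 0

/-- the closed set -/
def ZE (L : Lab U S) (e₀ : II U) (b₁ : ℝ) : Set (Fin 3 → ℂ) :=
  ⋃ a ∈ {a : Bool × Ch T.m × Fin T.d | a.2.1 ∈ Ends S ∧ eO L a.1 a.2.1 a.2.2 = some e₀},
    wc S a.2.1 a.2.2 '' CB b₁

lemma isClosed_ZE (L : Lab U S) (e₀ : II U) {b₁ : ℝ} (hb : ∀ c ∈ Ends S, b₁ < S.r c) :
    IsClosed (ZE L e₀ b₁) := by
  classical
  have hfin : {a : Bool × Ch T.m × Fin T.d |
      a.2.1 ∈ Ends S ∧ eO L a.1 a.2.1 a.2.2 = some e₀}.Finite := by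
    refine (((Finset.univ : Finset Bool) ×ˢ (Ends S ×ˢ (Finset.univ : Finset (Fin T.d)))
      ).finite_toSet).subset fun a ha => ?_
    simp [ha.1]
  refine hfin.isClosed_biUnion fun a ha => ?_
  refine IsCompact.isClosed ((isCompact_CB b₁).image_of_continuousOn fun p hp => ?_)
  have h2 : p ∈ BD (2 * S.r a.2.1) (2 * S.r a.2.1) :=
    mem2 (hp.1.trans (hb _ ha.1).le) (hp.2.trans (hb _ ha.1).le)
  exact (wc_an (ends_ok ha.1).1 a.2.2 h2).continuousAt.continuousWithinAt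

lemma RE_ZE {L : Lab U S} {e₀ : II U} {b₁ : ℝ} {x : Fin 3 → ℂ} (h : ∃ q, RE L e₀ b₁ x q) :
    x ∈ ZE L e₀ b₁ := by
  obtain ⟨q, h1, h2, h3, h4, h5⟩ := h
  simp only [ZE, mem_iUnion]
  exact ⟨q.1, ⟨h1, h2⟩, q.2, h3, h5⟩

section
variable {L : Lab U S} {e₀ : II U} {f₀ : XV U e₀.1.1 → ℂ}
  {γ : Bool → Ch T.m → Fin T.d → ℂ → XV U e₀.1.1} {G F F₀ : Finset (Ch T.m)} {τ b b₁ ε ρ : ℝ}

lemma CB_mem2 {c : Ch T.m} {p : ℂ × ℂ} (hp : p ∈ CB (S.r c)) :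
    p ∈ BD (2 * S.r c) (2 * S.r c) := mem2 hp.1 hp.2

lemma CB_mono {r r' : ℝ} (h : r ≤ r') {p : ℂ × ℂ} (hp : p ∈ CB r) : p ∈ CB r' :=
  ⟨hp.1.trans h, hp.2.trans h⟩

/-- the norms of equal points of one chart -/
lemma norm_eq {c : Ch T.m} (hc : T.Valid c) {p p' : ℂ × ℂ} (hp : T.Gen c p) (hp' : T.Gen c p')
    (h : T.map c p = T.map c p') : ‖p'.1‖ = ‖p.1‖ ∧ ‖p'.2‖ = ‖p.2‖ := by
  have h1 : Dv T c 0 0 := by
    cases c with
    | edge i k k' => exact ⟨dvd_zero _, dvd_zero _⟩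
    | leg i => exact dvd_zero _
    | vert i k w => trivial
  exact (mono_eq hc hp hp' h h1).2

lemma norm_cB {o : Bool} {p p' : ℂ × ℂ} (h : ‖p'.1‖ = ‖p.1‖ ∧ ‖p'.2‖ = ‖p.2‖) :
    ‖cB o p'‖ = ‖cB o p‖ ∧ ‖cA o p'‖ = ‖cA o p‖ := by
  cases o
  · exact ⟨h.1, h.2⟩
  · exact ⟨h.2, h.1⟩

lemma cB_pos {o : Bool} {c : Ch T.m} (hV : ¬ IsV c) {p : ℂ × ℂ}
    (h : T.Gen c p) : 0 < ‖cB o p‖ := by
  rw [norm_pos_iff]
  cases c with
  | edge i k k' =>
    cases o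
    · exact h.1
    · exact h.2
  | leg i =>
    cases o
    · exact h.1
    · exact h.2
  | vert i k w => exact (hV trivial).elim

namespace Cx

variable (C : Cx L e₀ f₀ γ G F₀ τ b b₁)
include C

/-- (2) representations in the charts of the ends -/
lemma RE_inv {c : Ch T.m} (hc : c ∈ G) {j : Fin T.d} {p : ℂ × ℂ} (hp : p ∈ CB (S.r c))
    (hg : T.Gen c p) {q : (Bool × Ch T.m × Fin T.d) × (ℂ × ℂ)}
    (h : RE L e₀ b₁ (wc S c j p) q) :
    q.1.2.1 = c ∧ p ∈ CB b₁ ∧ eO L q.1.1 c j = some e₀ ∧ T.Gen c q.2 ∧ T.map c p = T.map c q.2 ∧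
      wc S c q.1.2.2 q.2 = wc S c j p := by
  obtain ⟨⟨o', c', j'⟩, p'⟩ := q
  obtain ⟨h1, h2, h3, h4, h5⟩ := h
  simp only at h1 h2 h3 h4 h5 ⊢
  have hm : T.map c' p' = T.map c p := map_wc h5
  have hcc : c = c' := by
    by_contra hne
    exact C.sep c hc c' h1 hne p hp p' h3 hg h4 hm.symm
  subst hcc
  have hn := norm_eq (C.ok c (C.sub hc)).1 h4 hg hm
  refine ⟨rfl, ⟨hn.1.trans_le h3.1, hn.2.trans_le h3.2⟩, ?_, h4, hm.symm, h5⟩
  have hl := LwD_89.labWD L c (C.ok c (C.sub hc)) j' j p' p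
    (mem2 (h3.1.trans (C.b₁r c h1).le) (h3.2.trans (C.b₁r c h1).le)) (CB_mem2 hp) h4 hg h5
  cases o'
  · exact hl.2.symm.trans h2
  · exact hl.1.symm.trans h2

/-- (1) the value in the small bidiscs -/
lemma Th_E {o : Bool} {c : Ch T.m} (hc : c ∈ Ends S) {j : Fin T.d} (hl : eO L o c j = some e₀)
    {p : ℂ × ℂ} (hp : p ∈ CB b₁) (hg : T.Gen c p) :
    Th L e₀ f₀ γ F₀ τ b b₁ (wc S c j p) = th U S f₀ γ τ b o c j p := by
  have h : ∃ q, RE L e₀ b₁ (wc S c j p) q := ⟨((o, c, j), p), hc, hl, hp, hg, rfl⟩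
  unfold Th
  rw [dif_pos h]
  have hpr : p ∈ CB (S.r c) := CB_mono (C.b₁r c hc).le hp
  have h0 := h.choose_spec
  have h1 := C.RE_inv (C.ends hc) hpr hg h0
  generalize h.choose = q at h0 h1
  obtain ⟨⟨o', c', j'⟩, p'⟩ := q
  obtain ⟨h2, -, h3, h4, h5, h6⟩ := h1
  simp only at h2 h3 h4 h5 h6 ⊢
  subst h2
  have ho : o' = o := eO_inj L (ends_ok hc) h3 hl
  subst ho
  have hok := ends_ok hc
  have hnV := ends_nV hc
  have hE := C.hγ o' c' hok hnV (eO_vO L hok hl)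
  have hPD : cB o' p ∈ PDc S c' := by
    refine ⟨cB_pos hnV hg, ?_⟩
    have := cB_le (o := o') hpr
    have := S.pos c'
    linarith
  have hγe := γ_twist C.hR hE hok.1 (CB_mem2 hpr) hg h4 hPD h6.symm
  have hn := norm_cB (o := o') (norm_eq hok.1 hg h4 h5)
  unfold th
  rw [ct_congr (a := τ) (b := b) hn.1, ct_congr (a := τ) (b := b) hn.2, h6, hγe]

end Cx

namespace Sm

variable (M : Sm L F F₀ b₁ ε)
include M

/-- (4) -/
lemma cover (hb : ∀ c ∈ Ends S, b₁ < S.r c) {c : Ch T.m} (hc : c ∈ F) {j : Fin T.d} {p : ℂ × ℂ} (hp : p ∈ CB (S.r c))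
    (hg : T.Gen c p) (hs : ‖(T.map c p).1‖ < ε) (hy : ‖(T.map c p).2‖ < ε) :
    ∃ c' ∈ F₀, ∃ j' p', (¬ IsV c' → p' ∈ CB b₁) ∧ (IsV c' → p' ∈ CB (S.r c' / 2)) ∧
      p' ∈ CB (S.r c') ∧ T.Gen c' p' ∧ wc S c' j' p' = wc S c j p := by
  obtain ⟨c', hc', p', h1, h2, h3⟩ := M.cov (T.map c p).1 (T.map c p).2 hs hy
    (fun h => sc_ne hg (congrArg Prod.fst h))
  have h3' : T.map c' p' = T.map c p := h3
  have hok' := M.ok c' (M.sub hc')
  have hp' : p' ∈ CB (S.r c') := by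
    by_cases hV : IsV c'
    · exact CB_mono (half_le_self (S.pos c').le) (h2 hV)
    · exact CB_mono (hb c' (mem_ends hok' hV)).le (h1 hV)
  have hg' : T.Gen c' p' := CDataC_250.gen_of hg h3' (M.off c hc p hp hg hs)
  obtain ⟨j', hj'⟩ := sheet_of (M.ok c hc).1 hok'.1 (j := j) (CB_mem2 hp) (CB_mem2 hp') h3'
  exact ⟨c', hc', j', p', h1, h2, hp', hg', hj'⟩

/-- (3) -/
lemma RV_inv {c : Ch T.m} (hc : c ∈ F) {j : Fin T.d} {p : ℂ × ℂ} (hp : p ∈ CB (S.r c))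
    (hg : T.Gen c p) (hs : ‖(T.map c p).1‖ < ε) (h : RV L e₀ F₀ (wc S c j p)) :
    ∃ o, eO L o c j = some e₀ ∧ (o = true ∧ IsV c ∨ ε ≤ ‖cB o p‖) := by
  obtain ⟨c', hc', hV, j', p', h1, h2, h3, h4⟩ := h
  obtain ⟨o, E, a1, a2, a3, -⟩ := M.vv c hc c' (M.sub hc') hV j j' p p' hp hg hs
    (CB_mono (half_le_self (S.pos c').le) h2) h3 h4.symm
  rw [h1] at a1
  obtain rfl := Option.some.inj a1
  exact ⟨o, a2, a3⟩

end Sm

end

end Crest.Agent.R257.CDataI_250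
end
end

-- ▼ part R257/CDataJ_250
section

/-!
Row 257, part C, task C-DATA (helper250), file J: the function `Th` in all charts.
-/

set_option autoImplicit false
set_option linter.unusedSectionVars false

noncomputable section

open Set Filter Topology MeasureTheory Metric
open scoped ENNReal

namespace Crest.Agent.R257.CDataI_250

open Crest.AlgGeometry.Germ Crest.Agent.R257.AJ387 Crest.Agent.R257.T387
open Crest.Agent.R257.Gr1_157 Crest.Agent.R257.HoB_843 Crest.Agent.R257.BP_258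
open Crest.Agent.R257.CDataA_250 Crest.Agent.R257.CDataB_250 Crest.Agent.R257.CDataE_250
open Crest.Agent.R257.CDataG_250 Crest.Agent.R257.CDataH_250
open Crest.Agent.R257.Wt_258 Crest.Agent.R257.Rsn_843 Crest.Agent.R257.Vt2_558
open Crest.Agent.R257.FrmE_547 (CB)
open Crest.Agent.R257.FrmF_547

variable {f : (Fin 3 → ℂ) → ℂ} {T : TB f} {U : Tub T} {S : Sh T}
variable {L : Lab U S} {e₀ : II U} {f₀ : XV U e₀.1.1 → ℂ}
  {γ : Bool → Ch T.m → Fin T.d → ℂ → XV U e₀.1.1} {G F F₀ : Finset (Ch T.m)} {τ b b₁ ε ρ : ℝ}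

lemma Th_of_not {x : Fin 3 → ℂ} (hx : ¬ ∃ q, RE L e₀ b₁ x q) (h : RV L e₀ F₀ x) :
    Th L e₀ f₀ γ F₀ τ b b₁ x = GG U e₀.1.1 f₀ x := by
  unfold Th
  rw [dif_neg hx, if_pos h]

lemma Th_of_not' {x : Fin 3 → ℂ} (hx : ¬ ∃ q, RE L e₀ b₁ x q) (h : ¬ RV L e₀ F₀ x) :
    Th L e₀ f₀ γ F₀ τ b b₁ x = 0 := by
  unfold Th
  rw [dif_neg hx, if_neg h]

/-- (V) labelled vertex charts -/
theorem formV (hb : ∀ c ∈ Ends S, b₁ < S.r c) (M : Sm L F F₀ b₁ ε) {c : Ch T.m} (hc : c ∈ F)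
    (hV : IsV c) {j : Fin T.d} (hl : L.e1 c j = some e₀) {p : ℂ × ℂ} (hp : p ∈ CB (S.r c))
    (hg : T.Gen c p) (hs : ‖(T.map c p).1‖ < ε) (hy : ‖(T.map c p).2‖ < ε)
    (hx : ¬ ∃ q, RE L e₀ b₁ (wc S c j p) q) :
    Th L e₀ f₀ γ F₀ τ b b₁ (wc S c j p) = GG U e₀.1.1 f₀ (wc S c j p) := by
  obtain ⟨c', hc', j', p', h1, h2, h3, h4, h5⟩ := M.cover hb hc (j := j) hp hg hs hy
  have hm : T.map c' p' = T.map c p := map_wc h5
  by_cases hV' : IsV c'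
  · refine Th_of_not hx ⟨c', hc', hV', j', p', ?_, h2 hV', h4, h5⟩
    obtain ⟨o, E, a1, a2, -, -⟩ := M.vv c hc c' (M.sub hc') hV' j j' p p' hp hg hs h3 h4 h5.symm
    have ho : o = true := eO_V L (M.ok c hc) hV a2
    subst ho
    have a2' : L.e1 c j = some E := a2
    rw [hl] at a2'
    rw [a1, a2']
  · exfalso
    apply hx
    obtain ⟨o, E, a1, a2, -, -⟩ := M.vv c' (M.sub hc') c hc hV j' j p' p h3 h4
      (by rw [hm]; exact hs) hp hg h5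
    rw [hl] at a1
    obtain rfl := Option.some.inj a1
    exact ⟨((o, c', j'), p'), mem_ends (M.ok c' (M.sub hc')) hV', a2, h1 hV', h4, h5⟩

/-- (Z) unlabelled charts -/
theorem formZ (M : Sm L F F₀ b₁ ε) {c : Ch T.m} (hc : c ∈ F) {j : Fin T.d}
    (hl : ∀ o, eO L o c j ≠ some e₀) {p : ℂ × ℂ} (hp : p ∈ CB (S.r c))
    (hg : T.Gen c p) (hs : ‖(T.map c p).1‖ < ε)
    (hx : ¬ ∃ q, RE L e₀ b₁ (wc S c j p) q) :
    Th L e₀ f₀ γ F₀ τ b b₁ (wc S c j p) = 0 := by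
  refine Th_of_not' hx fun h => ?_
  obtain ⟨o, h1, -⟩ := M.RV_inv hc hp hg hs h
  exact hl o h1

lemma Cx.noREV (C : Cx L e₀ f₀ γ G F₀ τ b b₁) {c : Ch T.m} (hc : c ∈ G) (hV : IsV c) {j : Fin T.d}
    {p : ℂ × ℂ} (hp : p ∈ CB (S.r c)) (hg : T.Gen c p) :
    ¬ ∃ q, RE L e₀ b₁ (wc S c j p) q := by
  rintro ⟨q, hq⟩
  obtain ⟨h1, -⟩ := C.RE_inv hc hp hg hq
  exact ends_nV hq.1 (h1 ▸ hV)

lemma Cx.noREU (C : Cx L e₀ f₀ γ G F₀ τ b b₁) {c : Ch T.m} (hc : c ∈ G) {j : Fin T.d}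
    (hl : ∀ o, eO L o c j ≠ some e₀) {p : ℂ × ℂ} (hp : p ∈ CB (S.r c)) (hg : T.Gen c p) :
    ¬ ∃ q, RE L e₀ b₁ (wc S c j p) q := by
  rintro ⟨q, hq⟩
  obtain ⟨-, -, h1, -⟩ := C.RE_inv hc hp hg hq
  exact hl _ h1

/-- (E) labelled ends -/
theorem formE (C : Cx L e₀ f₀ γ G F₀ τ b b₁) (M : Sm L F F₀ b₁ ε) (hρ : ρ ≤ b₁ * min ε τ)
    {o : Bool} {c : Ch T.m} (hc : c ∈ Ends S) {j : Fin T.d} (hl : eO L o c j = some e₀)
    {p : ℂ × ℂ} (hp : p ∈ CB (S.r c)) (hg : T.Gen c p) (hs : ‖(T.map c p).1‖ < ρ)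
    (hy : ‖(T.map c p).2‖ < ρ) :
    Th L e₀ f₀ γ F₀ τ b b₁ (wc S c j p) = th U S f₀ γ τ b o c j p := by
  by_cases hpb : p ∈ CB b₁
  · exact C.Th_E hc hl hpb hg
  have hτ := C.τ_pos
  have hb0 : 0 < b := hτ.trans C.τ_b
  have hb₁ : 0 < b₁ := hb0.trans C.b_b₁
  have hε := M.pos
  have hmin : 0 < min ε τ := lt_min hε hτ
  have hρε : ρ ≤ ε := hρ.trans ((mul_le_of_le_one_left hmin.le C.b₁1).trans (min_le_left _ _))
  have hnV := ends_nV hc
  have hcF₀ := C.ends hc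
  have hcF := M.sub (C.sub hcF₀)
  have hok := ends_ok hc
  have hnoRE : ¬ ∃ q, RE L e₀ b₁ (wc S c j p) q := by
    rintro ⟨q, hq⟩
    exact hpb (C.RE_inv hcF₀ hp hg hq).2.1
  have hvO := eO_vO L hok hl
  have hcase : b₁ < ‖cA o p‖ ∨ (‖cA o p‖ ≤ b₁ ∧ b₁ < ‖cB o p‖) := by
    rcases lt_or_ge b₁ ‖cA o p‖ with h | h
    · exact Or.inl h
    · refine Or.inr ⟨h, not_le.1 fun h2 => hpb ?_⟩
      cases o
      · exact ⟨h2, h⟩
      · exact ⟨h, h2⟩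
  rcases hcase with hA | ⟨hA, hB⟩
  · have h1 : th U S f₀ γ τ b o c j p = 0 := by
      unfold th
      rw [ct_zero hτ C.τ_b (C.b_b₁.trans hA).le]
      simp
    rw [h1]
    refine Th_of_not' hnoRE fun h => ?_
    obtain ⟨o', h2, h3⟩ := M.RV_inv hcF hp hg (hs.trans_le hρε) h
    have ho : o' = o := eO_inj L hok h2 hl
    subst ho
    have h4 : ε ≤ ‖cB o' p‖ := h3.resolve_left fun h => hnV h.2
    have h5 : ‖cA o' p‖ * min ε 1 ≤ ‖(T.map c p).1‖ :=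
      cA_le hvO (min_le_right _ _) (Or.inr ((min_le_left _ _).trans h4))
    have hε1 : 0 < min ε 1 := lt_min hε one_pos
    have h6 : min ε τ ≤ min ε 1 := min_le_min_left _
      ((C.τ_b.trans C.b_b₁).le.trans C.b₁1)
    have h7 : b₁ * min ε τ ≤ ‖cA o' p‖ * min ε 1 := mul_le_mul hA.le h6 hmin.le (norm_nonneg _)
    linarith
  · have hAτ : ‖cA o p‖ < min ε τ := by
      have h5 : ‖cA o p‖ * b₁ ≤ ‖(T.map c p).1‖ := cA_le hvO C.b₁1 (Or.inr hB.le)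
      by_contra h6
      push Not at h6
      have h7 : min ε τ * b₁ ≤ ‖cA o p‖ * b₁ := mul_le_mul_of_nonneg_right h6 hb₁.le
      linarith [mul_comm b₁ (min ε τ)]
    have h1 : th U S f₀ γ τ b o c j p = GG U e₀.1.1 f₀ (wc S c j p) := by
      unfold th
      rw [ct_zero hτ C.τ_b (C.b_b₁.trans hB).le, ct_one hτ C.τ_b (hAτ.le.trans (min_le_right _ _))]
      simp
    rw [h1]
    refine Th_of_not hnoRE ?_
    obtain ⟨c', hc', j', p', h1, h2, h3, h4, h5⟩ := M.cover C.b₁r hcF (j := j) hp hg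
      (hs.trans_le hρε) (hy.trans_le hρε)
    have hm : T.map c' p' = T.map c p := map_wc h5
    by_cases hV' : IsV c'
    · obtain ⟨o', E, a1, a2, a3, -⟩ := M.vv c hcF c' (M.sub hc') hV' j j' p p' hp hg
        (hs.trans_le hρε) h3 h4 h5.symm
      have h6 : ε ≤ ‖cB o' p‖ := a3.resolve_left fun h => hnV h.2
      have ho : o' = o := by
        by_contra hne
        have h7 : cB o' p = cA o p := by
          cases o <;> cases o'
          · exact absurd rfl hne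
          · rfl
          · rfl
          · exact absurd rfl hne
        rw [h7] at h6
        exact absurd (hAτ.trans_le (min_le_left _ _)) (not_lt.2 h6)
      subst ho
      rw [hl] at a2
      exact ⟨c', hc', hV', j', p', by rw [a1, ← a2], h2 hV', h4, h5⟩
    · exfalso
      have hp'b := h1 hV'
      by_cases hcc : c = c'
      · subst hcc
        have hn := norm_eq hok.1 h4 hg hm
        exact hpb ⟨hn.1.trans_le hp'b.1, hn.2.trans_le hp'b.2⟩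
      · exact C.sep c hcF₀ c' (mem_ends (M.ok c' (M.sub hc')) hV') hcc p hp p' hp'b hg h4 hm.symm

end Crest.Agent.R257.CDataI_250
end
end

-- ▼ part R257/CDataK_250
section

/-!
Row 257, part C, task C-DATA (helper250), file K: estimates of the function `th` in the chart of an end.
-/

set_option autoImplicit false
set_option linter.unusedSectionVars false

noncomputable section

open Set Filter Topology MeasureTheory Metric
open scoped ENNReal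

namespace Crest.Agent.R257.CDataI_250

open Crest.AlgGeometry.Germ Crest.Agent.R257.AJ387 Crest.Agent.R257.T387
open Crest.Agent.R257.Gr1_157 Crest.Agent.R257.HoB_843 Crest.Agent.R257.BP_258
open Crest.Agent.R257.CDataA_250 Crest.Agent.R257.CDataB_250 Crest.Agent.R257.CDataE_250
open Crest.Agent.R257.CDataG_250 Crest.Agent.R257.CDataH_250
open Crest.Agent.R257.Wt_258 Crest.Agent.R257.Rsn_843 Crest.Agent.R257.Vt2_558
open Crest.Agent.R257.FrmE_547 (CB)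
open Crest.Agent.R257.FrmF_547

variable {f : (Fin 3 → ℂ) → ℂ} {T : TB f} {U : Tub T} {S : Sh T}
variable {L : Lab U S} {e₀ : II U} {f₀ : XV U e₀.1.1 → ℂ}
  {γ : Bool → Ch T.m → Fin T.d → ℂ → XV U e₀.1.1} {G F F₀ : Finset (Ch T.m)} {τ b b₁ ε ρ : ℝ}

/-- an annulus -/
def An (a r : ℝ) : Set ℂ := {z | a ≤ ‖z‖ ∧ ‖z‖ ≤ r}

lemma isCompact_An (a r : ℝ) : IsCompact (An a r) := by
  have h1 : An a r = {z : ℂ | a ≤ ‖z‖} ∩ closedBall (0 : ℂ) r := by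
    ext z
    simp [An]
  rw [h1]
  exact (isCompact_closedBall _ _).inter_left (isClosed_le continuous_const continuous_norm)

lemma An_sub {c : Ch T.m} {a : ℝ} (ha : 0 < a) : An a (S.r c) ⊆ PDc S c := fun z hz =>
  ⟨ha.trans_le hz.1, hz.2.trans_lt (by have := S.pos c; linarith)⟩

/-- `1 ≤ C |b|^e` away from `0` -/
lemma one_le_rpow {a : ℝ} (ha : 0 < a) (e : ℝ) {u : ℝ} (hu : a ≤ u) (hu1 : u ≤ 1) :
    1 ≤ a ^ (-|-e|) * u ^ e := by
  have hu0 : 0 < u := ha.trans_le hu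
  have h1 := rpow_le_of (x := -e) ha hu hu1
  have h2 : u ^ (-e) * u ^ e = 1 := by rw [← Real.rpow_add hu0]; simp
  calc (1 : ℝ) = u ^ (-e) * u ^ e := h2.symm
    _ ≤ _ := mul_le_mul_of_nonneg_right h1 (Real.rpow_nonneg hu0.le _)

/-- growth on the whole punctured disc -/
lemma growth (hR : RetStmt U) {o : Bool} {c : Ch T.m} {v : Vtx} (hvV : v ∈ Vs T)
    {γ : Fin T.d → ℂ → XV U v} (h : EndO U S o c v γ)
    {f₀ : XV U v → ℂ} (hf : HolX (pV U v) f₀) (j : Fin T.d) {e : ℝ}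
    (hg : ∃ C r : ℝ, 0 < r ∧ ∀ b : ℂ, 0 < ‖b‖ → ‖b‖ < r → ‖f₀ (γ j b)‖ ≤ C * ‖b‖ ^ e) :
    ∃ C : ℝ, 0 < C ∧ ∀ b : ℂ, 0 < ‖b‖ → ‖b‖ ≤ S.r c → ‖f₀ (γ j b)‖ ≤ C * ‖b‖ ^ e := by
  obtain ⟨C, r, hr, h1⟩ := hg
  have hcont : ContinuousOn (fun b => f₀ (γ j b)) (An r (S.r c)) := fun b hb =>
    (h.an_f hR hvV hf j (An_sub hr hb)).continuousAt.continuousWithinAt
  obtain ⟨M, hM⟩ := (isCompact_An r (S.r c)).exists_bound_of_continuousOn hcont
  refine ⟨max C 1 + max M 1 * r ^ (-|-e|), by positivity, fun b hb hbr => ?_⟩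
  rcases lt_or_ge ‖b‖ r with h2 | h2
  · refine (h1 b hb h2).trans (mul_le_mul_of_nonneg_right ?_ (Real.rpow_nonneg (norm_nonneg _) _))
    have : 0 < max M 1 * r ^ (-|-e|) := by positivity
    linarith [le_max_left C 1]
  · refine (hM b ⟨h2, hbr⟩).trans ?_
    have h3 := one_le_rpow hr e h2 (hbr.trans ((S.le c).trans (by norm_num)))
    have h4 : 0 < ‖b‖ ^ e := Real.rpow_pos_of_pos hb _
    calc M ≤ max M 1 := le_max_left _ _
      _ ≤ max M 1 * (r ^ (-|-e|) * ‖b‖ ^ e) := le_mul_of_one_le_right (by positivity) h3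
      _ = max M 1 * r ^ (-|-e|) * ‖b‖ ^ e := by ring
      _ ≤ _ := mul_le_mul_of_nonneg_right (by linarith [le_max_right C 1]) h4.le

/-- `|α|` is small if `s` is small -/
lemma small_A {o : Bool} {c : Ch T.m} {v : Vtx} (hv : vO T o c = some v) {τ a : ℝ} (hτ : 0 < τ)
    (ha : 0 < a) : ∃ ε > 0, ∀ p : ℂ × ℂ, ‖(T.map c p).1‖ < ε →
      (o = true ∧ IsV c ∨ τ ≤ ‖cB o p‖) → ‖cA o p‖ < a := by
  have hτ' : 0 < min τ 1 := lt_min hτ one_pos
  refine ⟨a * min τ 1, mul_pos ha hτ', fun p hs h => ?_⟩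
  have h3 := cA_le (δ := min τ 1) hv (min_le_right _ _) (h.imp_right fun h => (min_le_left _ _).trans h)
  exact lt_of_mul_lt_mul_right (h3.trans_lt hs) hτ'.le

/-- the size of `∂̄ th` -/
def kz (τ : ℝ) (e : ℝ) (o : Bool) (p : ℂ × ℂ) : ℝ :=
  if τ ≤ ‖cB o p‖ then ‖cA o p‖ else if τ ≤ ‖cA o p‖ then ‖cB o p‖ ^ e else 0

/-- cut-off functions of one coordinate -/
lemma ctc_smooth {a b : ℝ} {π : ℂ × ℂ → ℂ} (hπ : ContDiff ℝ (⊤ : ℕ∞) π) :
    ContDiff ℝ (⊤ : ℕ∞) fun p => ct a b (π p) := ct_smooth.comp hπ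

lemma cA_smooth (o : Bool) : ContDiff ℝ (⊤ : ℕ∞) (cA o) := by
  cases o
  · exact contDiff_snd
  · exact contDiff_fst

lemma cB_smooth (o : Bool) : ContDiff ℝ (⊤ : ℕ∞) (cB o) := by
  cases o
  · exact contDiff_fst
  · exact contDiff_snd

lemma cB_an (o : Bool) (p : ℂ × ℂ) : AnalyticAt ℂ (cB o) p := by
  cases o
  · exact analyticAt_fst
  · exact analyticAt_snd

lemma ctA_fderiv (a b : ℝ) (o : Bool) (p : ℂ × ℂ) : ‖fderiv ℝ (fun p => ct a b (cA o p)) p‖ ≤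
    ‖fderiv ℝ (ct a b) (cA o p)‖ := by
  have hd : HasFDerivAt (ct a b) (fderiv ℝ (ct a b) (cA o p)) (cA o p) :=
    (ct_smooth.differentiable (by simp)).differentiableAt.hasFDerivAt
  cases o
  · have h1 : HasFDerivAt (fun p : ℂ × ℂ => ct a b (cA false p))
      ((fderiv ℝ (ct a b) (cA false p)).comp (ContinuousLinearMap.snd ℝ ℂ ℂ)) p :=
      hd.comp p hasFDerivAt_snd
    rw [h1.fderiv]
    refine (ContinuousLinearMap.opNorm_comp_le _ _).trans ?_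
    exact mul_le_of_le_one_right (norm_nonneg _) (ContinuousLinearMap.norm_snd_le _ _ _)
  · have h1 : HasFDerivAt (fun p : ℂ × ℂ => ct a b (cA true p))
      ((fderiv ℝ (ct a b) (cA true p)).comp (ContinuousLinearMap.fst ℝ ℂ ℂ)) p :=
      hd.comp p hasFDerivAt_fst
    rw [h1.fderiv]
    refine (ContinuousLinearMap.opNorm_comp_le _ _).trans ?_
    exact mul_le_of_le_one_right (norm_nonneg _) (ContinuousLinearMap.norm_fst_le _ _ _)

lemma ctB_fderiv (a b : ℝ) (o : Bool) (p : ℂ × ℂ) : ‖fderiv ℝ (fun p => ct a b (cB o p)) p‖ ≤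
    ‖fderiv ℝ (ct a b) (cB o p)‖ := by
  cases o
  · exact ctA_fderiv a b true p
  · exact ctA_fderiv a b false p

/-- the list of estimates of `th` in the chart of an end -/
structure EF (U : Tub T) (S : Sh T) {v : Vtx} (f₀ : XV U v → ℂ)
    (γ : Bool → Ch T.m → Fin T.d → ℂ → XV U v) (τ b e : ℝ) (o : Bool) (c : Ch T.m) (j : Fin T.d)
    (K ε : ℝ) : Prop where
  sm : ∀ p ∈ Og (S := S) c ε, ContDiffAt ℝ (⊤ : ℕ∞) (th U S f₀ γ τ b o c j) p
  bd : ∀ p ∈ Og (S := S) c ε, ‖th U S f₀ γ τ b o c j p‖ ≤ K * ‖cB o p‖ ^ e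
  db : ∀ p ∈ Og (S := S) c ε, ∀ F₁ : ℂ × ℂ → ℂ, DifferentiableAt ℂ F₁ p → ∀ w : ℂ × ℂ,
    ‖dbE (fun q => F₁ q * th U S f₀ γ τ b o c j q) p w‖ ^ 2 ≤
      (‖F₁ p‖ * (K * kz τ e o p)) ^ 2 * (‖w.1‖ ^ 2 + ‖w.2‖ ^ 2)

lemma EF.mono {v : Vtx} {f₀ : XV U v → ℂ} {γ : Bool → Ch T.m → Fin T.d → ℂ → XV U v}
    {τ b e : ℝ} {o : Bool} {c : Ch T.m} {j : Fin T.d} {K ε K' ε' : ℝ}
    (h : EF U S f₀ γ τ b e o c j K ε) (hK : 0 ≤ K) (hKK : K ≤ K') (hε : ε' ≤ ε) :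
    EF U S f₀ γ τ b e o c j K' ε' := by
  have hkz : ∀ p, 0 ≤ kz τ e o p := fun p => by
    unfold kz
    split_ifs
    · exact norm_nonneg _
    · exact Real.rpow_nonneg (norm_nonneg _) _
    · exact le_rfl
  refine ⟨fun p hp => h.sm p (Og_mono hε hp), fun p hp => (h.bd p (Og_mono hε hp)).trans
    (mul_le_mul_of_nonneg_right hKK (Real.rpow_nonneg (norm_nonneg _) _)), fun p hp F₁ hF w =>
    (h.db p (Og_mono hε hp) F₁ hF w).trans ?_⟩
  have := hkz p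
  gcongr

theorem exists_EF (C : Cx L e₀ f₀ γ G F₀ τ b b₁) {o : Bool} {c : Ch T.m} (hc : c ∈ Ends S)
    {j : Fin T.d} (hl : eO L o c j = some e₀) {e : ℝ}
    (hg : ∃ C r : ℝ, 0 < r ∧ ∀ b : ℂ, 0 < ‖b‖ → ‖b‖ < r → ‖f₀ (γ o c j b)‖ ≤ C * ‖b‖ ^ e) :
    ∃ K ε : ℝ, 0 < K ∧ 0 < ε ∧ EF U S f₀ γ τ b e o c j K ε := by
  have hok := ends_ok hc
  have hnV := ends_nV hc
  have hvO := eO_vO L hok hl
  have hvV : e₀.1.1 ∈ Vs T := e₀.1.2
  have hR := C.hR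
  have hτ := C.τ_pos
  have hγ := C.hγ o c hok hnV hvO
  have hr := S.pos c
  obtain ⟨Kg, hKg, hgr⟩ := growth hR hvV hγ C.hf j hg
  obtain ⟨ε₁, h1, hnear⟩ := nearS L hok hl hτ
  obtain ⟨a₁, ha₁, K₁, hest⟩ := hγ.est hR hvV C.hf hok.1 hvO j (isCompact_An τ (S.r c)) (An_sub hτ)
  obtain ⟨a₂, ha₂, K₂, hbd⟩ := GG_bd (S := S) hR hvV C.hf (o := o) hok.1 hvO j
    (isCompact_An τ (S.r c)) (fun b hb => ⟨(An_sub hτ hb).2, Or.inl (norm_pos_iff.1 (An_sub hτ hb).1)⟩)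
  obtain ⟨ε₂, h2, hA⟩ := small_A hvO hτ (lt_min (lt_min ha₁ ha₂) hτ)
  obtain ⟨Cχ, hCχ0, hCχ⟩ := ct_bd hτ C.τ_b
  have hPD : ∀ p ∈ Og (S := S) c (min ε₁ ε₂), cB o p ∈ PDc S c := by
    intro p hp
    have h3 : ‖cB o p‖ ≤ S.r c := cB_le (o := o) ⟨hp.1.le, hp.2.1.le⟩
    exact ⟨cB_pos hnV hp.2.2.1, by linarith⟩
  -- the analytic factor along the axis
  have hga : ∀ p ∈ Og (S := S) c (min ε₁ ε₂), AnalyticAt ℂ (fun q => f₀ (γ o c j (cB o q))) p := by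
    intro p hp
    exact AnalyticAt.comp (g := fun z => f₀ (γ o c j z)) (f := cB o)
      (hγ.an_f hR hvV C.hf j (hPD p hp)) (cB_an o p)
  -- near the axis
  have hGa : ∀ p ∈ Og (S := S) c (min ε₁ ε₂), τ ≤ ‖cB o p‖ →
      AnalyticAt ℂ (fun q => GG U e₀.1.1 f₀ (wc S c j q)) p := by
    intro p hp hB
    obtain ⟨h3, -⟩ := hnear p ⟨hp.1.le, hp.2.1.le⟩ hp.2.2.1 (hp.2.2.2.trans_le (min_le_left _ _))
      (Or.inr hB)
    exact GG_an_wc hR C.hf hok.1 j (Og_mem2 hp) h3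
  have hAsm : ∀ p ∈ Og (S := S) c (min ε₁ ε₂), τ ≤ ‖cB o p‖ → ‖cA o p‖ < min (min a₁ a₂) τ :=
    fun p hp hB => hA p (hp.2.2.2.trans_le (min_le_right _ _)) (Or.inr hB)
  -- local forms
  have hform1 : ∀ p : ℂ × ℂ, ‖cB o p‖ < τ → th U S f₀ γ τ b o c j =ᶠ[𝓝 p]
      fun q => f₀ (γ o c j (cB o q)) * (ct τ b (cA o q) : ℂ) := by
    intro p hp
    filter_upwards [((continuous_cB o).norm.isOpen_preimage _ isOpen_Iio).mem_nhds
      (show ‖cB o p‖ ∈ Iio τ from hp)] with q hq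
    unfold th
    rw [ct_one hτ C.τ_b (le_of_lt hq)]
    simp
  have hform2 : ∀ p : ℂ × ℂ, ‖cA o p‖ < τ → th U S f₀ γ τ b o c j =ᶠ[𝓝 p]
      fun q => GG U e₀.1.1 f₀ (wc S c j q) + (f₀ (γ o c j (cB o q)) - GG U e₀.1.1 f₀ (wc S c j q)) *
        (ct τ b (cB o q) : ℂ) := by
    intro p hp
    filter_upwards [((continuous_cA o).norm.isOpen_preimage _ isOpen_Iio).mem_nhds
      (show ‖cA o p‖ ∈ Iio τ from hp)] with q hq
    unfold th
    rw [ct_one hτ C.τ_b (le_of_lt hq)]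
    push_cast
    ring
  have hcs : ∀ (π : ℂ × ℂ → ℂ), ContDiff ℝ (⊤ : ℕ∞) π → ∀ p,
      ContDiffAt ℝ (⊤ : ℕ∞) (fun q => (ct τ b (π q) : ℂ)) p := fun π hπ p =>
    (Complex.ofRealCLM.contDiff.comp (ctc_smooth hπ)).contDiffAt
  have hrs : ∀ {g : ℂ × ℂ → ℂ} {p : ℂ × ℂ}, AnalyticAt ℂ g p → ContDiffAt ℝ (⊤ : ℕ∞) g p :=
    fun h => h.contDiffAt.restrict_scalars ℝ
  refine ⟨max Kg 1 + max Kg 1 * Cχ + max K₁ 1 * Cχ + max K₂ 1 * τ ^ (-|-e|),
    min ε₁ ε₂, by positivity, lt_min h1 h2, ⟨?_, ?_, ?_⟩⟩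
  · -- smoothness
    intro p hp
    rcases lt_or_ge ‖cB o p‖ τ with hB | hB
    · exact ((hrs (hga p hp)).mul (hcs _ (cA_smooth o) p)).congr_of_eventuallyEq (hform1 p hB)
    · have h3 := hrs (hga p hp)
      have h4 := hrs (hGa p hp hB)
      exact (h4.add ((h3.sub h4).mul (hcs _ (cB_smooth o) p))).congr_of_eventuallyEq
        (hform2 p ((hAsm p hp hB).trans_le (min_le_right _ _)))
  · -- the bound
    intro p hp
    have hBpos : 0 < ‖cB o p‖ := (hPD p hp).1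
    have hBr : ‖cB o p‖ ≤ S.r c := cB_le (o := o) ⟨hp.1.le, hp.2.1.le⟩
    have hrp : 0 < ‖cB o p‖ ^ e := Real.rpow_pos_of_pos hBpos _
    have hg1 := hgr _ hBpos hBr
    have hKmax : ‖f₀ (γ o c j (cB o p))‖ ≤ max Kg 1 * ‖cB o p‖ ^ e :=
      hg1.trans (mul_le_mul_of_nonneg_right (le_max_left _ _) hrp.le)
    have hχA : ‖(ct τ b (cA o p) : ℂ)‖ ≤ 1 := by
      rw [Complex.norm_real, Real.norm_of_nonneg (ct_nonneg _)]; exact ct_le_one _
    have hp1 : 0 < max Kg 1 * Cχ := by positivity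
    have hp2 : 0 < max K₁ 1 * Cχ := by positivity
    have hp3 : 0 < max K₂ 1 * τ ^ (-|-e|) := by positivity
    rcases lt_or_ge ‖cB o p‖ τ with hB | hB
    · rw [(hform1 p hB).self_of_nhds, norm_mul]
      refine (mul_le_of_le_one_right (norm_nonneg _) hχA).trans (hKmax.trans ?_)
      exact mul_le_mul_of_nonneg_right (by linarith) hrp.le
    · have hG : ‖GG U e₀.1.1 f₀ (wc S c j p)‖ ≤ max K₂ 1 * τ ^ (-|-e|) * ‖cB o p‖ ^ e := by
        have h3 := hbd p ⟨hB, hBr⟩ (cA_pos hvO hp.2.2.1)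
          ((hAsm p hp hB).trans_le ((min_le_left _ _).trans (min_le_right _ _)))
        have h4 := one_le_rpow hτ e hB (hBr.trans ((S.le c).trans (by norm_num)))
        calc ‖GG U e₀.1.1 f₀ (wc S c j p)‖ ≤ K₂ := h3
          _ ≤ max K₂ 1 := le_max_left _ _
          _ ≤ max K₂ 1 * (τ ^ (-|-e|) * ‖cB o p‖ ^ e) := le_mul_of_one_le_right (by positivity) h4
          _ = _ := by ring
      have hχB0 : ‖(ct τ b (cB o p) : ℂ)‖ ≤ 1 := by
        rw [Complex.norm_real, Real.norm_of_nonneg (ct_nonneg _)]; exact ct_le_one _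
      have hχB1 : ‖(1 - (ct τ b (cB o p) : ℂ))‖ ≤ 1 := by
        rw [← Complex.ofReal_one, ← Complex.ofReal_sub, Complex.norm_real,
          Real.norm_of_nonneg (sub_nonneg.2 (ct_le_one _))]
        linarith [ct_nonneg (a := τ) (b := b) (cB o p)]
      unfold th
      rw [norm_mul]
      refine (mul_le_of_le_one_right (norm_nonneg _) hχA).trans ?_
      refine (norm_add_le _ _).trans ?_
      rw [norm_mul, norm_mul]
      have e1 := (mul_le_of_le_one_left (norm_nonneg (f₀ (γ o c j (cB o p)))) hχB0).trans hKmax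
      have e2 := (mul_le_of_le_one_left (norm_nonneg (GG U e₀.1.1 f₀ (wc S c j p))) hχB1).trans hG
      calc _ ≤ max Kg 1 * ‖cB o p‖ ^ e + max K₂ 1 * τ ^ (-|-e|) * ‖cB o p‖ ^ e := add_le_add e1 e2
        _ = (max Kg 1 + max K₂ 1 * τ ^ (-|-e|)) * ‖cB o p‖ ^ e := by ring
        _ ≤ _ := mul_le_mul_of_nonneg_right (by linarith) hrp.le
  · -- `∂̄`
    intro p hp F₁ hF₁ w
    have hBpos : 0 < ‖cB o p‖ := (hPD p hp).1
    have hBr : ‖cB o p‖ ≤ S.r c := cB_le (o := o) ⟨hp.1.le, hp.2.1.le⟩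
    have hrp : 0 < ‖cB o p‖ ^ e := Real.rpow_pos_of_pos hBpos _
    have hp0 : 0 < max Kg 1 := by positivity
    have hp1 : 0 < max Kg 1 * Cχ := by positivity
    have hp2 : 0 < max K₁ 1 * Cχ := by positivity
    have hp3 : 0 < max K₂ 1 * τ ^ (-|-e|) := by positivity
    rcases lt_or_ge ‖cB o p‖ τ with hB | hB
    · have h3 : (fun q => F₁ q * th U S f₀ γ τ b o c j q) =ᶠ[𝓝 p]
          fun q => (F₁ q * f₀ (γ o c j (cB o q))) * (ct τ b (cA o q) : ℂ) := by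
        filter_upwards [hform1 p hB] with q hq
        rw [hq, mul_assoc]
      rw [dbE_congr h3]
      have hdF : DifferentiableAt ℂ (fun q => F₁ q * f₀ (γ o c j (cB o q))) p :=
        hF₁.mul (hga p hp).differentiableAt
      rcases lt_or_ge ‖cA o p‖ τ with hAτ | hAτ
      · have h4 := dbE_mul_le hdF (((ctc_smooth (cA_smooth o)).differentiable (by simp)) p)
          (C := 0) (by
            refine (ctA_fderiv τ b o p).trans ?_
            rw [ct_fderiv_zero hτ C.τ_b (Or.inl hAτ), norm_zero]) w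
        refine h4.trans ?_
        simp only [ne_eq, OfNat.ofNat_ne_zero, not_false_eq_true, zero_pow, mul_zero, zero_mul]
        positivity
      · have h4 := dbE_mul_le hdF (((ctc_smooth (cA_smooth o)).differentiable (by simp)) p)
          (C := Cχ) ((ctA_fderiv τ b o p).trans (hCχ _)) w
        refine h4.trans ?_
        rw [norm_mul, ← mul_pow]
        have h5 : kz τ e o p = ‖cB o p‖ ^ e := by
          unfold kz
          rw [if_neg (not_le.2 hB), if_pos hAτ]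
        rw [h5]
        have h6 : ‖F₁ p‖ * ‖f₀ (γ o c j (cB o p))‖ * Cχ ≤
            ‖F₁ p‖ * ((max Kg 1 + max Kg 1 * Cχ + max K₁ 1 * Cχ + max K₂ 1 * τ ^ (-|-e|)) *
              ‖cB o p‖ ^ e) := by
          rw [mul_assoc]
          refine mul_le_mul_of_nonneg_left ?_ (norm_nonneg _)
          calc ‖f₀ (γ o c j (cB o p))‖ * Cχ ≤ (max Kg 1 * ‖cB o p‖ ^ e) * Cχ :=
                mul_le_mul_of_nonneg_right ((hgr _ hBpos hBr).trans
                  (mul_le_mul_of_nonneg_right (le_max_left _ _) hrp.le)) hCχ0.le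
            _ = (max Kg 1 * Cχ) * ‖cB o p‖ ^ e := by ring
            _ ≤ _ := mul_le_mul_of_nonneg_right (by linarith) hrp.le
        exact mul_le_mul_of_nonneg_right (pow_le_pow_left₀ (by positivity) h6 2) (by positivity)
    · have hAs := hAsm p hp hB
      have h3 : (fun q => F₁ q * th U S f₀ γ τ b o c j q) =ᶠ[𝓝 p]
          fun q => F₁ q * GG U e₀.1.1 f₀ (wc S c j q) +
            (F₁ q * (f₀ (γ o c j (cB o q)) - GG U e₀.1.1 f₀ (wc S c j q))) *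
              (ct τ b (cB o q) : ℂ) := by
        filter_upwards [hform2 p (hAs.trans_le (min_le_right _ _))] with q hq
        rw [hq]
        ring
      rw [dbE_congr h3]
      have hG := (hGa p hp hB).differentiableAt
      have hdF : DifferentiableAt ℂ (fun q => F₁ q * (f₀ (γ o c j (cB o q)) -
          GG U e₀.1.1 f₀ (wc S c j q))) p := hF₁.mul ((hga p hp).differentiableAt.sub hG)
      have hdχ : DifferentiableAt ℝ (fun q => ct τ b (cB o q)) p :=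
        ((ctc_smooth (cB_smooth o)).differentiable (by simp)) p
      have hd0 : DifferentiableAt ℂ (fun q => F₁ q * GG U e₀.1.1 f₀ (wc S c j q)) p := hF₁.mul hG
      have hd1 : DifferentiableAt ℝ (fun q => F₁ q * GG U e₀.1.1 f₀ (wc S c j q)) p :=
        hd0.restrictScalars ℝ
      have hd2 : DifferentiableAt ℝ (fun q => (F₁ q * (f₀ (γ o c j (cB o q)) -
          GG U e₀.1.1 f₀ (wc S c j q))) * (ct τ b (cB o q) : ℂ)) p :=
        (hdF.restrictScalars ℝ).mul (Complex.ofRealCLM.differentiableAt.comp p hdχ)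
      rw [dbE_add hd1 hd2, dbE_hol hd0 w, zero_add]
      refine (dbE_mul_le hdF hdχ (C := Cχ) ((ctB_fderiv τ b o p).trans (hCχ _)) w).trans ?_
      rw [norm_mul, ← mul_pow]
      have h5 : kz τ e o p = ‖cA o p‖ := by
        unfold kz
        rw [if_pos hB]
      rw [h5]
      have h7 := hest p ⟨hB, hBr⟩ (cA_pos hvO hp.2.2.1)
        (hAs.trans_le ((min_le_left _ _).trans (min_le_left _ _)))
      rw [norm_sub_rev] at h7
      have h6 : ‖F₁ p‖ * ‖f₀ (γ o c j (cB o p)) - GG U e₀.1.1 f₀ (wc S c j p)‖ * Cχ ≤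
          ‖F₁ p‖ * ((max Kg 1 + max Kg 1 * Cχ + max K₁ 1 * Cχ + max K₂ 1 * τ ^ (-|-e|)) *
            ‖cA o p‖) := by
        rw [mul_assoc]
        refine mul_le_mul_of_nonneg_left ?_ (norm_nonneg _)
        calc ‖f₀ (γ o c j (cB o p)) - GG U e₀.1.1 f₀ (wc S c j p)‖ * Cχ
            ≤ (max K₁ 1 * ‖cA o p‖) * Cχ := mul_le_mul_of_nonneg_right (h7.trans
              (mul_le_mul_of_nonneg_right (le_max_left _ _) (norm_nonneg _))) hCχ0.le
          _ = (max K₁ 1 * Cχ) * ‖cA o p‖ := by ring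
          _ ≤ _ := mul_le_mul_of_nonneg_right (by linarith) (norm_nonneg _)
      exact mul_le_mul_of_nonneg_right (pow_le_pow_left₀ (by positivity) h6 2) (by positivity)

end Crest.Agent.R257.CDataI_250
end
end

-- ▼ part R257/CDataL_250
section

/-!
Row 257, part C, task C-DATA (helper250), file L: estimates with real exponents, the shift of the weight by
`a log |s|²`, the hypotheses `NH` of the null data.
-/

set_option autoImplicit false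
set_option linter.unusedSectionVars false

noncomputable section

open Set Filter Topology MeasureTheory Metric
open scoped ENNReal

namespace Crest.Agent.R257.CDataL_250

open Crest.AlgGeometry.Germ Crest.Agent.R257.AJ387 Crest.Agent.R257.T387
open Crest.Agent.R257.Gr1_157 Crest.Agent.R257.HoB_843 Crest.Agent.R257.BP_258
open Crest.Agent.R257.CDataA_250 Crest.Agent.R257.CDataB_250 Crest.Agent.R257.CDataE_250
open Crest.Agent.R257.CDataG_250 Crest.Agent.R257.CDataH_250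
open Crest.Agent.R257.Wt_258 Crest.Agent.R257.Rsn_843 Crest.Agent.R257.Vt2_558
open Crest.Agent.R257.FrmE_547 (CB)
open Crest.Agent.R257.FrmF_547

variable {f : (Fin 3 → ℂ) → ℂ} {T : TB f} {U : Tub T} {S : Sh T}

/-! ### real exponents -/

lemma pwr {u : ℝ} (hu : 0 < u) (m : ℝ) (n : ℤ) (y : ℝ) :
    (u ^ m) ^ 2 * u ^ (-2 * y) * (u ^ (-n - 1)) ^ 2 = u ^ (2 * (m - y - n) - 2) := by
  rw [← Real.rpow_intCast u (-n - 1), ← Real.rpow_natCast _ 2,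
    ← Real.rpow_natCast _ 2, ← Real.rpow_mul hu.le, ← Real.rpow_mul hu.le, ← Real.rpow_add hu,
    ← Real.rpow_add hu]
  congr 1
  push_cast
  ring

/-- the estimate in the zone `a ≤ |β|` -/
lemma zone1r {m1 m2 : ℝ} {y1 y2 C K a : ℝ} {n1 n2 : ℤ} (ha : 0 < a)
    (u v : ℝ) (hu : 0 < u) (hv : a ≤ v) (hv1 : v ≤ 1) (Φ dn : ℝ)
    (hΦ : y1 * Real.log (u ^ 2) + y2 * Real.log (v ^ 2) - C ≤ Φ)
    (hd : 0 ≤ dn) (hdn : dn ≤ K * (u ^ (-n1 - 1) * v ^ (-n2 - 1))) :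
    (u ^ m1 * v ^ m2) ^ 2 * Real.exp (-Φ) * dn ^ 2 ≤
      (Real.exp C * K ^ 2 * a ^ (-|2 * (m2 - y2 - n2) - 2|)) *
        u ^ (2 * (m1 - y1 - n1) - 2) := by
  have hv0 : 0 < v := ha.trans_le hv
  have h1 : Real.exp (-Φ) ≤ Real.exp C * (u ^ (-2 * y1) * v ^ (-2 * y2)) := by
    have e1 : Real.exp (-Φ) ≤ Real.exp (C + (-(y1 * Real.log (u ^ 2)) + -(y2 * Real.log (v ^ 2)))) :=
      Real.exp_le_exp.2 (by linarith)
    refine e1.trans ?_
    rw [Real.exp_add, Real.exp_add, exp_log_sq hu, exp_log_sq hv0]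
  have h2 : dn ^ 2 ≤ K ^ 2 * ((u ^ (-n1 - 1)) ^ 2 * (v ^ (-n2 - 1)) ^ 2) := by
    calc dn ^ 2 ≤ (K * (u ^ (-n1 - 1) * v ^ (-n2 - 1))) ^ 2 := pow_le_pow_left₀ hd hdn 2
      _ = _ := by ring
  calc (u ^ m1 * v ^ m2) ^ 2 * Real.exp (-Φ) * dn ^ 2
      ≤ (u ^ m1 * v ^ m2) ^ 2 * (Real.exp C * (u ^ (-2 * y1) * v ^ (-2 * y2))) *
        (K ^ 2 * ((u ^ (-n1 - 1)) ^ 2 * (v ^ (-n2 - 1)) ^ 2)) := by gcongr
    _ = (Real.exp C * K ^ 2 *
        ((v ^ m2) ^ 2 * v ^ (-2 * y2) * (v ^ (-n2 - 1)) ^ 2)) *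
        ((u ^ m1) ^ 2 * u ^ (-2 * y1) * (u ^ (-n1 - 1)) ^ 2) := by ring
    _ ≤ _ := by
        rw [pwr hu, pwr hv0]
        have h3 := rpow_le_of (x := 2 * (m2 - y2 - n2) - 2) ha hv hv1
        gcongr

/-- the estimate without weight -/
lemma zone0r {m1 m2 : ℝ} {K : ℝ} {n1 n2 : ℤ} (u v : ℝ) (hu : 0 < u) (hv : 0 < v) (dn : ℝ)
    (hd : 0 ≤ dn) (hdn : dn ≤ K * (u ^ (-n1 - 1) * v ^ (-n2 - 1))) :
    (u ^ m1 * v ^ m2) ^ 2 * dn ^ 2 ≤
      K ^ 2 * (u ^ (2 * (m1 - n1) - 2) * v ^ (2 * (m2 - n2) - 2)) := by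
  have h2 : dn ^ 2 ≤ K ^ 2 * ((u ^ (-n1 - 1)) ^ 2 * (v ^ (-n2 - 1)) ^ 2) := by
    calc dn ^ 2 ≤ (K * (u ^ (-n1 - 1) * v ^ (-n2 - 1))) ^ 2 := pow_le_pow_left₀ hd hdn 2
      _ = _ := by ring
  have e1 := pwr hu m1 n1 0
  have e2 := pwr hv m2 n2 0
  simp only [mul_zero, Real.rpow_zero, mul_one, sub_zero] at e1 e2
  calc (u ^ m1 * v ^ m2) ^ 2 * dn ^ 2
      ≤ (u ^ m1 * v ^ m2) ^ 2 * (K ^ 2 * ((u ^ (-n1 - 1)) ^ 2 * (v ^ (-n2 - 1)) ^ 2)) := by
        gcongr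
    _ = K ^ 2 * (((u ^ m1) ^ 2 * (u ^ (-n1 - 1)) ^ 2) * ((v ^ m2) ^ 2 * (v ^ (-n2 - 1)) ^ 2)) := by
        ring
    _ = _ := by rw [e1, e2]

/-! ### selection by the orientation -/

/-- first or second -/
def sO {α : Type*} (o : Bool) (x y : α) : α := if o then x else y

lemma mono_sO (o : Bool) (p : ℂ × ℂ) (h1 h2 : ℝ) : ‖p.1‖ ^ h1 * ‖p.2‖ ^ h2 =
    ‖cA o p‖ ^ (sO o h1 h2) * ‖cB o p‖ ^ (sO o h2 h1) := by
  cases o
  · exact mul_comm _ _
  · rfl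

lemma zmono_sO (o : Bool) (p : ℂ × ℂ) (h1 h2 : ℤ) : ‖p.1‖ ^ (-h1 - 1) * ‖p.2‖ ^ (-h2 - 1) =
    ‖cA o p‖ ^ (-(sO o h1 h2) - 1) * ‖cB o p‖ ^ (-(sO o h2 h1) - 1) := by
  cases o
  · exact mul_comm _ _
  · rfl

lemma ylog_sO (L : Lab U S) (y : II U → ℝ) (o : Bool) (c : Ch T.m) (j : Fin T.d) (p : ℂ × ℂ) :
    yo y (L.e1 c j) * Real.log (‖p.1‖ ^ 2) + yo y (L.e2 c j) * Real.log (‖p.2‖ ^ 2) =
      yo y (eO L o c j) * Real.log (‖cA o p‖ ^ 2) + yo y (eO L (!o) c j) * Real.log (‖cB o p‖ ^ 2) := by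
  cases o
  · exact add_comm _ _
  · rfl

/-- strict plurisubharmonicity, both axes -/
lemma st_sO {L : Lab U S} {y : II U → ℝ} {F : Finset (Ch T.m)} {τ : ℝ} {Φ : (Fin 3 → ℂ) → ℝ}
    {ρ₀ C c₀ : ℝ} (hW : WTk L y F univ τ 1 Φ ρ₀ C c₀) {c : Ch T.m} (hc : c ∈ F) {j : Fin T.d}
    {p : ℂ × ℂ} (hp : p ∈ Og (S := S) c ρ₀) (o : Bool) (he : eO L o c j ≠ none)
    (h : τ ≤ ‖cB o p‖) (w : ℂ × ℂ) :
    c₀ * (‖w.1‖ ^ 2 + ‖w.2‖ ^ 2) ≤ lvE (Φ ∘ wc S c j) p w := by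
  have hBD : p ∈ BD 1 1 := by
    have := S.le c
    exact ⟨hp.1.trans_le (this.trans (by norm_num)), hp.2.1.trans_le (this.trans (by norm_num))⟩
  cases o
  · exact hW.st2 c hc j (mem_univ _) p hp hBD he h w
  · exact hW.st1 c hc j (mem_univ _) p hp hBD he h w

/-! ### the shift -/

lemma sc_an' {c : Ch T.m} (p : ℂ × ℂ) : AnalyticAt ℂ (fun q => (T.map c q).1) p := by
  have h1 : (fun q => (T.map c q).1) = T.sc c := funext fun q => T.map_fst c q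
  rw [h1]
  exact T.sc_an c p

lemma lvE_shift {Φ : (Fin 3 → ℂ) → ℝ} {c : Ch T.m} {j : Fin T.d} {p : ℂ × ℂ} (hg : T.Gen c p)
    (hΦ : ContDiffAt ℝ (⊤ : ℕ∞) (Φ ∘ wc S c j) p) (a : ℝ) (w : ℂ × ℂ) :
    lvE ((fun x => Φ x + a * Real.log (‖x 1‖ ^ 2)) ∘ wc S c j) p w = lvE (Φ ∘ wc S c j) p w := by
  have h1 : ((fun x => Φ x + a * Real.log (‖x 1‖ ^ 2)) ∘ wc S c j) = fun q =>
      (Φ ∘ wc S c j) q + a * Real.log (‖(T.map c q).1‖ ^ 2) := rfl
  have hs : ContDiffAt ℂ (⊤ : ℕ∞) (fun q => (T.map c q).1) p := (sc_an' p).contDiffAt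
  have h0 : (T.map c p).1 ≠ 0 := sc_ne hg
  have hl : ContDiffAt ℝ 2 (fun q => Real.log (‖(T.map c q).1‖ ^ 2)) p :=
    (cd_log hs h0).of_le (by norm_cast)
  rw [h1, Wt_258.lvE_add (hΦ.of_le (by norm_cast)) (contDiffAt_const.mul hl),
    Wt_258.lvE_const_mul hl, Wt_258.lvE_log hs h0, mul_zero, add_zero]

lemma exp_shift {x t : ℝ} (ht : 0 < t) (a : ℕ) :
    t ^ (2 * a) * Real.exp (-(x + a * Real.log (t ^ 2))) = Real.exp (-x) := by
  have h1 : Real.exp (-(x + a * Real.log (t ^ 2))) = Real.exp (-x) * (t ^ (2 * a))⁻¹ := by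
    rw [neg_add, Real.exp_add]
    congr 1
    rw [Real.exp_neg, ← Real.log_pow, Real.exp_log (by positivity), ← pow_mul]
  rw [h1]
  have : t ^ (2 * a) ≠ 0 := by positivity
  field_simp

/-! ### the hypotheses -/

/-- the hypotheses of the null data -/
structure NH (L : Lab U S) (e₀ : II U) (f₀ : XV U e₀.1.1 → ℂ) (H : (Fin 3 → ℂ) → ℂ)
    (y : II U → ℝ) (n1 n2 : Ch T.m → Fin T.d → ℤ) (h1 h2 e : Ch T.m → Fin T.d → ℝ)
    (a : ℕ) : Prop where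
  hf : HolX (pV U e₀.1.1) f₀
  f0 : ∀ q : XV U e₀.1.1, (q : ConnectedComponents _) ≠ e₀.2 → f₀ q = 0
  gr1 : ∀ c, Ok S c → ¬ IsV c → v1 T c = some e₀.1.1 → ∀ γ, End1 U S c e₀.1.1 γ → ∀ j,
    L.e1 c j = some e₀ → ∃ C r : ℝ, 0 < r ∧ ∀ b : ℂ, 0 < ‖b‖ → ‖b‖ < r →
      ‖f₀ (γ j b)‖ ≤ C * ‖b‖ ^ e c j
  gr2 : ∀ c, Ok S c → ¬ IsV c → v2 T c = some e₀.1.1 → ∀ γ, End2 U S c e₀.1.1 γ → ∀ j,
    L.e2 c j = some e₀ → ∃ C r : ℝ, 0 < r ∧ ∀ b : ℂ, 0 < ‖b‖ → ‖b‖ < r →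
      ‖f₀ (γ j b)‖ ≤ C * ‖b‖ ^ e c j
  hH : ∀ c, Ok S c → ∀ j, (L.e1 c j = some e₀ ∨ L.e2 c j = some e₀) → ∃ C r : ℝ, 0 < r ∧
    ∀ p ∈ Og (S := S) c r, AnalyticAt ℂ (fun p => H (wc S c j p)) p ∧
      ‖H (wc S c j p)‖ ≤ C * (‖p.1‖ ^ h1 c j * ‖p.2‖ ^ h2 c j)
  near1 : ∀ c, Ok S c → ¬ IsV c → ∀ j, L.e1 c j = some e₀ →
    y e₀ + n1 c j < h1 c j + 1 ∧ n1 c j < h1 c j + a
  far1 : ∀ c, Ok S c → ¬ IsV c → ∀ j, L.e1 c j = some e₀ →
    (L.e2 c j ≠ none → yo y (L.e2 c j) + n2 c j < h2 c j + e c j) ∧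
      (IsE c → n2 c j < h2 c j + e c j + a) ∧ (¬ IsE c → n2 c j < h2 c j + e c j)
  near2 : ∀ c, Ok S c → ¬ IsV c → ∀ j, L.e2 c j = some e₀ →
    y e₀ + n2 c j < h2 c j + 1 ∧ n2 c j < h2 c j + a
  far2 : ∀ c, Ok S c → ¬ IsV c → ∀ j, L.e2 c j = some e₀ →
    (L.e1 c j ≠ none → yo y (L.e1 c j) + n1 c j < h1 c j + e c j) ∧ n1 c j < h1 c j + e c j + a
  vert : ∀ c, Ok S c → IsV c → ∀ j, L.e1 c j = some e₀ →
    n1 c j < h1 c j + a ∧ n2 c j < h2 c j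

section
variable {L : Lab U S} {e₀ : II U} {f₀ : XV U e₀.1.1 → ℂ} {H : (Fin 3 → ℂ) → ℂ}
    {y : II U → ℝ} {n1 n2 : Ch T.m → Fin T.d → ℤ} {h1 h2 e : Ch T.m → Fin T.d → ℝ}
    {a : ℕ}

/-- the conditions on the exponents, both axes -/
lemma NH.cond (N : NH L e₀ f₀ H y n1 n2 h1 h2 e a) {o : Bool} {c : Ch T.m} (hc : Ok S c)
    (hV : ¬ IsV c) {j : Fin T.d} (hl : eO L o c j = some e₀) :
    y e₀ + (sO o n1 n2) c j < (sO o h1 h2) c j + 1 ∧
    ((sO o n1 n2) c j : ℝ) < (sO o h1 h2) c j + a ∧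
    (eO L (!o) c j ≠ none → yo y (eO L (!o) c j) + (sO o n2 n1) c j < (sO o h2 h1) c j + e c j) ∧
    ((IsE c → ((sO o n2 n1) c j : ℝ) < (sO o h2 h1) c j + e c j + a) ∧
      (¬ IsE c → ((sO o n2 n1) c j : ℝ) < (sO o h2 h1) c j + e c j)) := by
  cases o
  · refine ⟨(N.near2 c hc hV j hl).1, (N.near2 c hc hV j hl).2, (N.far2 c hc hV j hl).1,
      fun _ => (N.far2 c hc hV j hl).2, fun hE => ?_⟩
    exfalso
    have h3 := eO_vO L hc hl
    cases c with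
    | edge i k k' => exact hE trivial
    | leg i => simp [vO, v2] at h3
    | vert i k w => exact hV trivial
  · exact ⟨(N.near1 c hc hV j hl).1, (N.near1 c hc hV j hl).2, (N.far1 c hc hV j hl).1,
      (N.far1 c hc hV j hl).2.1, (N.far1 c hc hV j hl).2.2⟩

end

/-- `|s|` in the coordinates -/
lemma s_eq {o : Bool} {c : Ch T.m} {v : Vtx} (hv : vO T o c = some v) (p : ℂ × ℂ) :
    (IsE c → ‖(T.map c p).1‖ = ‖cA o p‖ * ‖cB o p‖) ∧ (¬ IsE c → ‖(T.map c p).1‖ = ‖cA o p‖) := by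
  rw [T.map_fst]
  cases c with
  | edge i k k' =>
    refine ⟨fun _ => ?_, fun h => absurd trivial h⟩
    show ‖p.1 * p.2‖ = _
    rw [norm_mul]
    cases o
    · exact mul_comm _ _
    · rfl
  | leg i =>
    refine ⟨fun h => h.elim, fun _ => ?_⟩
    cases o
    · simp [vO, v2] at hv
    · rfl
  | vert i k w =>
    refine ⟨fun h => h.elim, fun _ => ?_⟩
    cases o
    · simp [vO, v2] at hv
    · rfl

lemma kz_nonneg (τ e : ℝ) (o : Bool) (p : ℂ × ℂ) : 0 ≤ CDataI_250.kz τ e o p := by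
  unfold CDataI_250.kz
  split_ifs
  · exact norm_nonneg _
  · exact Real.rpow_nonneg (norm_nonneg _) _
  · exact le_rfl

lemma kz_meas (τ e : ℝ) (o : Bool) : Measurable (CDataI_250.kz τ e o) := by
  unfold CDataI_250.kz
  refine Measurable.ite ?_ (continuous_cA o).norm.measurable (Measurable.ite ?_ ?_ measurable_const)
  · exact (isClosed_le continuous_const (continuous_cB o).norm).measurableSet
  · exact (isClosed_le continuous_const (continuous_cA o).norm).measurableSet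
  · exact (continuous_cB o).norm.measurable.pow_const _

end Crest.Agent.R257.CDataL_250
end
end

-- ▼ part R257/CDataM_250
section

/-!
Row 257, part C, task C-DATA (helper250), file M: the estimates of the null data in the chart of an end.
-/

set_option autoImplicit false
set_option linter.unusedSectionVars false

noncomputable section

open Set Filter Topology MeasureTheory Metric
open scoped ENNReal

namespace Crest.Agent.R257.CDataL_250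

open Crest.AlgGeometry.Germ Crest.Agent.R257.AJ387 Crest.Agent.R257.T387
open Crest.Agent.R257.Gr1_157 Crest.Agent.R257.HoB_843 Crest.Agent.R257.BP_258
open Crest.Agent.R257.CDataA_250 Crest.Agent.R257.CDataB_250 Crest.Agent.R257.CDataE_250
open Crest.Agent.R257.CDataG_250 Crest.Agent.R257.CDataH_250 Crest.Agent.R257.CDataI_250
open Crest.Agent.R257.Wt_258 Crest.Agent.R257.Rsn_843 Crest.Agent.R257.Vt2_558
open Crest.Agent.R257.FrmE_547 (CB)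
open Crest.Agent.R257.FrmF_547

variable {f : (Fin 3 → ℂ) → ℂ} {T : TB f} {U : Tub T} {S : Sh T}

/-- `fin_int` in the coordinates `cA`, `cB` -/
lemma fin_intO {o : Bool} {A : Set (ℂ × ℂ)} (hA : MeasurableSet A) {R : ℝ}
    (hAR : ∀ p ∈ A, ‖p.1‖ < R ∧ ‖p.2‖ < R) {G : ℂ × ℂ → ℝ} {C e e' : ℝ} (he : 0 < e) (he' : 0 < e')
    (hC : 0 ≤ C)
    (hG : ∀ p ∈ A, p.1 ≠ 0 → p.2 ≠ 0 →
      G p ≤ C * (‖cA o p‖ ^ (2 * e - 2) * ‖cB o p‖ ^ (2 * e' - 2))) :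
    ∫⁻ p in A, ENNReal.ofReal (G p) ≠ ∞ := by
  cases o
  · refine fin_int hA hAR he' he hC fun p hp h1 h2 => (hG p hp h1 h2).trans (le_of_eq ?_)
    rw [mul_comm (‖p.1‖ ^ _)]
    rfl
  · exact fin_int hA hAR he he' hC hG

/-- the bound for `∂̄` at the ends -/
def ke (h1 h2 e : Ch T.m → Fin T.d → ℝ) (a : ℕ) (τ Kc : ℝ) (o : Bool) (c : Ch T.m)
    (j : Fin T.d) (p : ℂ × ℂ) : ℝ :=
  ‖(T.map c p).1‖ ^ (2 * a) * (Kc * (‖p.1‖ ^ h1 c j * ‖p.2‖ ^ h2 c j * kz τ (e c j) o p) ^ 2)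

lemma ke_nonneg {h1 h2 e : Ch T.m → Fin T.d → ℝ} {a : ℕ} {τ Kc : ℝ} (hK : 0 ≤ Kc) (o : Bool)
    (c : Ch T.m) (j : Fin T.d) (p : ℂ × ℂ) : 0 ≤ ke h1 h2 e a τ Kc o c j p := by
  unfold ke
  positivity

lemma ke_meas {h1 h2 e : Ch T.m → Fin T.d → ℝ} {a : ℕ} {τ Kc : ℝ} (o : Bool)
    (c : Ch T.m) (j : Fin T.d) : Measurable (ke h1 h2 e a τ Kc o c j) := by
  unfold ke
  refine (((continuous_map1 c).norm.measurable).pow_const _).mul (Measurable.const_mul ?_ _)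
  refine Measurable.pow_const ?_ _
  refine Measurable.mul ?_ (kz_meas _ _ _)
  exact (measurable_fst.norm.pow_const _).mul (measurable_snd.norm.pow_const _)

section
variable {L : Lab U S} {e₀ : II U} {f₀ : XV U e₀.1.1 → ℂ} {H : (Fin 3 → ℂ) → ℂ}
    {y : II U → ℝ} {n1 n2 : Ch T.m → Fin T.d → ℤ} {h1 h2 e : Ch T.m → Fin T.d → ℝ}
    {a : ℕ} {γ : Bool → Ch T.m → Fin T.d → ℂ → XV U e₀.1.1} {G F F₀ : Finset (Ch T.m)}
    {τ b b₁ ρ : ℝ} {nu : II U → ℤ}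

/-- the estimates at a labelled end -/
theorem end_est (N : NH L e₀ f₀ H y n1 n2 h1 h2 e a) (J : Jac L nu n1 n2)
    (hτ : 0 < τ) {o : Bool} {c : Ch T.m}
    (hcE : c ∈ Ends S) (hcF : c ∈ F) {j : Fin T.d} (hl : eO L o c j = some e₀) {K : ℝ} (hK : 0 < K)
    (hEF : EF U S f₀ γ τ b (e c j) o c j K ρ)
    (hH : ∀ p ∈ Og (S := S) c ρ, AnalyticAt ℂ (fun p => H (wc S c j p)) p ∧
      ‖H (wc S c j p)‖ ≤ K * (‖p.1‖ ^ h1 c j * ‖p.2‖ ^ h2 c j))
    {Φ : (Fin 3 → ℂ) → ℝ} {ρ₀ C c₀ : ℝ} (hW : WTk L y F univ τ 1 Φ ρ₀ C c₀) (hρρ : ρ ≤ ρ₀)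
    (hΦs : ∀ p ∈ Og (S := S) c ρ, ContDiffAt ℝ (⊤ : ℕ∞) (Φ ∘ wc S c j) p)
    (hsm : ∀ p ∈ Og (S := S) c ρ, ‖(T.map c p).2‖ < ρ → (τ ≤ ‖p.2‖ → L.e1 c j ≠ none) ∧
      (τ ≤ ‖p.1‖ → L.e2 c j ≠ none)) :
    (∀ p ∈ Og (S := S) c ρ, ‖(T.map c p).2‖ < ρ → ∀ w,
      ‖dbE (fun q => ((T.map c q).1 ^ a * H (wc S c j q)) * th U S f₀ γ τ b o c j q) p w‖ ^ 2 ≤
        ke h1 h2 e a τ ((K * K) ^ 2 / c₀) o c j p *
          lvE ((fun x => Φ x + a * Real.log (‖x 1‖ ^ 2)) ∘ wc S c j) p w) ∧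
    (∀ A : Set (ℂ × ℂ), MeasurableSet A → (∀ p ∈ A, p ∈ Og (S := S) c ρ ∧ ‖(T.map c p).2‖ < ρ) →
      ∫⁻ p in A, ENNReal.ofReal (ke h1 h2 e a τ ((K * K) ^ 2 / c₀) o c j p *
        Real.exp (-(Φ (wc S c j p) + a * Real.log (‖(wc S c j p) 1‖ ^ 2))) * dn S c j p ^ 2) ≠ ∞) ∧
    (∀ A : Set (ℂ × ℂ), MeasurableSet A → (∀ p ∈ A, p ∈ Og (S := S) c ρ ∧ ‖(T.map c p).2‖ < ρ) →
      ∫⁻ p in A, ENNReal.ofReal (‖(T.map c p).1 ^ a * (H (wc S c j p) *
        th U S f₀ γ τ b o c j p)‖ ^ 2 * dn S c j p ^ 2) ≠ ∞) ∧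
    ∀ p ∈ Og (S := S) c ρ, ‖H (wc S c j p) * th U S f₀ γ τ b o c j p‖ ≤
      K * K * (‖p.1‖ ^ h1 c j * ‖p.2‖ ^ h2 c j) * ‖cB o p‖ ^ e c j := by
  have hok := ends_ok hcE
  have hnV := ends_nV hcE
  have hvO := eO_vO L hok hl
  have hc₀ := hW.c_pos
  obtain ⟨cn1, cn2, cf1, cf2, cf3⟩ := N.cond hok hnV hl
  obtain ⟨Kd, hKd, hbd⟩ := J.bd c hok j
  have hdn0 : ∀ p, 0 ≤ dn S c j p := fun p => by unfold dn; positivity
  have hOR : ∀ p ∈ Og (S := S) c ρ, ‖p.1‖ < S.r c ∧ ‖p.2‖ < S.r c := fun p hp => ⟨hp.1, hp.2.1⟩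
  have hApos : ∀ p ∈ Og (S := S) c ρ, 0 < ‖cA o p‖ := fun p hp => cA_pos hvO hp.2.2.1
  have hBpos : ∀ p ∈ Og (S := S) c ρ, 0 < ‖cB o p‖ := fun p hp => cB_pos hnV hp.2.2.1
  have hA1 : ∀ p ∈ Og (S := S) c ρ, ‖cA o p‖ ≤ 1 := fun p hp =>
    (cA_le' (o := o) ⟨hp.1.le, hp.2.1.le⟩).trans ((S.le c).trans (by norm_num))
  have hB1 : ∀ p ∈ Og (S := S) c ρ, ‖cB o p‖ ≤ 1 := fun p hp =>
    (cB_le (o := o) ⟨hp.1.le, hp.2.1.le⟩).trans ((S.le c).trans (by norm_num))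
  have hdnO : ∀ p ∈ Og (S := S) c ρ, dn S c j p ≤ Kd * (‖cA o p‖ ^ (-((sO o n1 n2) c j) - 1) *
      ‖cB o p‖ ^ (-((sO o n2 n1) c j) - 1)) := by
    intro p hp
    have h3 := (hbd p hp.1.le hp.2.1.le hp.2.2.1).2.1
    rw [zmono_sO o] at h3
    cases o <;> exact h3
  have hmono : ∀ p : ℂ × ℂ, ‖p.1‖ ^ h1 c j * ‖p.2‖ ^ h2 c j =
      ‖cA o p‖ ^ ((sO o h1 h2) c j) * ‖cB o p‖ ^ ((sO o h2 h1) c j) := by
    intro p
    rw [mono_sO o]
    cases o <;> rfl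
  have hlo : ∀ p ∈ Og (S := S) c ρ, (τ ≤ ‖cA o p‖ ∨ τ ≤ ‖cB o p‖) →
      yo y (eO L o c j) * Real.log (‖cA o p‖ ^ 2) +
        yo y (eO L (!o) c j) * Real.log (‖cB o p‖ ^ 2) - C ≤ Φ (wc S c j p) := by
    intro p hp h3
    rw [← ylog_sO]
    have hBD : p ∈ BD 1 1 := by
      have := S.le c
      exact ⟨hp.1.trans_le (this.trans (by norm_num)), hp.2.1.trans_le (this.trans (by norm_num))⟩
    refine hW.lo c hcF j (mem_univ _) p (Og_mono hρρ hp) hBD ?_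
    cases o
    · exact h3.symm
    · exact h3
  have hyo : yo y (eO L o c j) = y e₀ := by rw [hl]; rfl
  have hfar : ∀ p ∈ Og (S := S) c ρ, ‖(T.map c p).2‖ < ρ → τ ≤ ‖cA o p‖ → eO L (!o) c j ≠ none := by
    intro p hp hy h3
    cases o
    · exact (hsm p hp hy).1 h3
    · exact (hsm p hp hy).2 h3
  have hs0 : ∀ p ∈ Og (S := S) c ρ, 0 < ‖(T.map c p).1‖ := fun p hp =>
    norm_pos_iff.2 (sc_ne hp.2.2.1)
  refine ⟨?_, ?_, ?_, ?_⟩
  · -- `∂̄`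
    intro p hp hyρ w
    have hF₁ : DifferentiableAt ℂ (fun q => (T.map c q).1 ^ a * H (wc S c j q)) p :=
      ((sc_an' p).pow a).differentiableAt.mul (hH p hp).1.differentiableAt
    refine (hEF.db p hp _ hF₁ w).trans ?_
    rw [lvE_shift hp.2.2.1 (hΦs p hp)]
    have hkz := kz_nonneg τ (e c j) o p
    have hF : ‖(T.map c p).1 ^ a * H (wc S c j p)‖ ≤
        ‖(T.map c p).1‖ ^ a * (K * (‖p.1‖ ^ h1 c j * ‖p.2‖ ^ h2 c j)) := by
      rw [norm_mul, norm_pow]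
      exact mul_le_mul_of_nonneg_left (hH p hp).2 (by positivity)
    have h3 : (‖(T.map c p).1 ^ a * H (wc S c j p)‖ * (K * kz τ (e c j) o p)) ^ 2 ≤
        (‖(T.map c p).1‖ ^ a * (K * (‖p.1‖ ^ h1 c j * ‖p.2‖ ^ h2 c j)) *
          (K * kz τ (e c j) o p)) ^ 2 := by
      gcongr
    have h4 : (‖(T.map c p).1‖ ^ a * (K * (‖p.1‖ ^ h1 c j * ‖p.2‖ ^ h2 c j)) *
          (K * kz τ (e c j) o p)) ^ 2 = ke h1 h2 e a τ ((K * K) ^ 2 / c₀) o c j p * c₀ := by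
      unfold ke
      field_simp
      ring
    by_cases hz : kz τ (e c j) o p = 0
    · have h5 : ke h1 h2 e a τ ((K * K) ^ 2 / c₀) o c j p = 0 := by
        unfold ke; rw [hz]; simp
      rw [hz, h5]
      simp
    · have h5 : c₀ * (‖w.1‖ ^ 2 + ‖w.2‖ ^ 2) ≤ lvE (Φ ∘ wc S c j) p w := by
        by_cases hB : τ ≤ ‖cB o p‖
        · exact st_sO hW hcF (Og_mono hρρ hp) o (by rw [hl]; simp) hB w
        · by_cases hA : τ ≤ ‖cA o p‖
          · refine st_sO hW hcF (Og_mono hρρ hp) (!o) (hfar p hp hyρ hA) ?_ w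
            cases o
            · exact hA
            · exact hA
          · exfalso
            apply hz
            unfold kz
            rw [if_neg hB, if_neg hA]
      calc _ ≤ (ke h1 h2 e a τ ((K * K) ^ 2 / c₀) o c j p * c₀) * (‖w.1‖ ^ 2 + ‖w.2‖ ^ 2) := by
            rw [← h4]
            exact mul_le_mul_of_nonneg_right h3 (by positivity)
        _ = ke h1 h2 e a τ ((K * K) ^ 2 / c₀) o c j p * (c₀ * (‖w.1‖ ^ 2 + ‖w.2‖ ^ 2)) := by ring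
        _ ≤ _ := mul_le_mul_of_nonneg_left h5 (ke_nonneg (by positivity) _ _ _ _)
  · -- the integral of `κ`
    intro A hAm hA
    have hkey : ∀ p ∈ A, ke h1 h2 e a τ ((K * K) ^ 2 / c₀) o c j p *
        Real.exp (-(Φ (wc S c j p) + a * Real.log (‖(wc S c j p) 1‖ ^ 2))) * dn S c j p ^ 2 =
        (K * K) ^ 2 / c₀ * ((‖cA o p‖ ^ ((sO o h1 h2) c j) * ‖cB o p‖ ^ ((sO o h2 h1) c j) *
          kz τ (e c j) o p) ^ 2 * Real.exp (-Φ (wc S c j p)) * dn S c j p ^ 2) := by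
      intro p hp
      have h3 := exp_shift (x := Φ (wc S c j p)) (hs0 p (hA p hp).1) a
      have h4 : (wc S c j p) 1 = (T.map c p).1 := rfl
      unfold ke
      rw [h4, ← h3, hmono]
      ring
    have hZB : MeasurableSet {p : ℂ × ℂ | τ ≤ ‖cB o p‖} :=
      (isClosed_le continuous_const (continuous_cB o).norm).measurableSet
    have hZA : MeasurableSet {p : ℂ × ℂ | τ ≤ ‖cA o p‖} :=
      (isClosed_le continuous_const (continuous_cA o).norm).measurableSet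
    have hsub : A ⊆ (A ∩ {p | τ ≤ ‖cB o p‖}) ∪ ((A ∩ ({p | τ ≤ ‖cB o p‖}ᶜ ∩ {p | τ ≤ ‖cA o p‖})) ∪
        (A ∩ ({p | τ ≤ ‖cB o p‖}ᶜ ∩ {p | τ ≤ ‖cA o p‖}ᶜ))) := by
      intro p hp
      by_cases h3 : τ ≤ ‖cB o p‖
      · exact Or.inl ⟨hp, h3⟩
      · by_cases h4 : τ ≤ ‖cA o p‖
        · exact Or.inr (Or.inl ⟨hp, h3, h4⟩)
        · exact Or.inr (Or.inr ⟨hp, h3, h4⟩)
    refine ne_top_of_le_ne_top ?_ ((lintegral_mono_set hsub).trans ((lintegral_union_le _ _ _).trans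
      (add_le_add le_rfl (lintegral_union_le _ _ _))))
    refine ENNReal.add_ne_top.2 ⟨?_, ENNReal.add_ne_top.2 ⟨?_, ?_⟩⟩
    · -- `τ ≤ |cB|`
      refine fin_intO (o := o) (hAm.inter hZB) (fun p hp => hOR p (hA p hp.1).1)
        (e := (sO o h1 h2) c j + 1 - y e₀ - (sO o n1 n2) c j) (e' := 1)
        (C := (K * K) ^ 2 / c₀ * (Real.exp C * Kd ^ 2 *
          τ ^ (-|2 * ((sO o h2 h1) c j - yo y (eO L (!o) c j) - (sO o n2 n1) c j) - 2|)))
        (by linarith) one_pos (by positivity) fun p hp _ _ => ?_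
      obtain ⟨hpO, hpy⟩ := hA p hp.1
      have hB : τ ≤ ‖cB o p‖ := hp.2
      rw [hkey p hp.1]
      have h5 := zone1r (m1 := (sO o h1 h2) c j + 1) (m2 := (sO o h2 h1) c j)
        (y1 := yo y (eO L o c j)) (y2 := yo y (eO L (!o) c j)) (C := C) (K := Kd) (a := τ)
        (n1 := (sO o n1 n2) c j) (n2 := (sO o n2 n1) c j) hτ ‖cA o p‖ ‖cB o p‖ (hApos p hpO) hB
        (hB1 p hpO) (Φ (wc S c j p)) (dn S c j p) (hlo p hpO (Or.inr hB)) (hdn0 p) (hdnO p hpO)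
      have h6 : kz τ (e c j) o p = ‖cA o p‖ := by unfold kz; rw [if_pos hB]
      have h7 : ‖cA o p‖ ^ ((sO o h1 h2) c j) * ‖cB o p‖ ^ ((sO o h2 h1) c j) * ‖cA o p‖ =
          ‖cA o p‖ ^ ((sO o h1 h2) c j + 1) * ‖cB o p‖ ^ ((sO o h2 h1) c j) := by
        rw [Real.rpow_add (hApos p hpO), Real.rpow_one]
        ring
      have h8 : ‖cB o p‖ ^ (2 * (1 : ℝ) - 2) = 1 := by
        rw [show 2 * (1 : ℝ) - 2 = 0 by norm_num, Real.rpow_zero]
      rw [h6, h7, h8, mul_one]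
      rw [hyo] at h5
      calc _ ≤ (K * K) ^ 2 / c₀ * _ := mul_le_mul_of_nonneg_left h5 (by positivity)
        _ = _ := by ring
    · -- `|cB| < τ ≤ |cA|`
      by_cases he : eO L (!o) c j = none
      · refine fin_intO (o := o) (hAm.inter (hZB.compl.inter hZA)) (fun p hp => hOR p (hA p hp.1).1)
          (e := 1) (e' := 1) (C := 0) one_pos one_pos le_rfl fun p hp _ _ => ?_
        exact absurd he (hfar p (hA p hp.1).1 (hA p hp.1).2 hp.2.2)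
      · have cf := cf1 he
        refine fin_intO (o := o) (hAm.inter (hZB.compl.inter hZA)) (fun p hp => hOR p (hA p hp.1).1)
          (e := 1) (e' := (sO o h2 h1) c j + e c j - yo y (eO L (!o) c j) - (sO o n2 n1) c j)
          (C := (K * K) ^ 2 / c₀ * (Real.exp C * Kd ^ 2 *
            τ ^ (-|2 * ((sO o h1 h2) c j - yo y (eO L o c j) - (sO o n1 n2) c j) - 2|)))
          one_pos (by linarith) (by positivity) fun p hp _ _ => ?_
        obtain ⟨hpO, hpy⟩ := hA p hp.1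
        have hB : ¬ τ ≤ ‖cB o p‖ := hp.2.1
        have hAA : τ ≤ ‖cA o p‖ := hp.2.2
        rw [hkey p hp.1]
        have h5 := zone1r (m1 := (sO o h2 h1) c j + e c j) (m2 := (sO o h1 h2) c j)
          (y1 := yo y (eO L (!o) c j)) (y2 := yo y (eO L o c j)) (C := C) (K := Kd) (a := τ)
          (n1 := (sO o n2 n1) c j) (n2 := (sO o n1 n2) c j) hτ ‖cB o p‖ ‖cA o p‖ (hBpos p hpO) hAA
          (hA1 p hpO) (Φ (wc S c j p)) (dn S c j p)
          (by rw [add_comm (yo y (eO L (!o) c j) * _)]; exact hlo p hpO (Or.inl hAA)) (hdn0 p)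
          ((hdnO p hpO).trans (le_of_eq (by ring)))
        have h6 : kz τ (e c j) o p = ‖cB o p‖ ^ e c j := by
          unfold kz; rw [if_neg hB, if_pos hAA]
        have h7 : ‖cA o p‖ ^ ((sO o h1 h2) c j) * ‖cB o p‖ ^ ((sO o h2 h1) c j) * ‖cB o p‖ ^ e c j =
            ‖cB o p‖ ^ ((sO o h2 h1) c j + e c j) * ‖cA o p‖ ^ ((sO o h1 h2) c j) := by
          rw [Real.rpow_add (hBpos p hpO)]
          ring
        have h8 : ‖cA o p‖ ^ (2 * (1 : ℝ) - 2) = 1 := by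
          rw [show 2 * (1 : ℝ) - 2 = 0 by norm_num, Real.rpow_zero]
        rw [h6, h7, h8, one_mul]
        calc _ ≤ (K * K) ^ 2 / c₀ * _ := mul_le_mul_of_nonneg_left h5 (by positivity)
          _ = _ := by ring
    · refine fin_intO (o := o) (hAm.inter (hZB.compl.inter hZA.compl))
        (fun p hp => hOR p (hA p hp.1).1)
        (e := 1) (e' := 1) (C := 0) one_pos one_pos le_rfl fun p hp _ _ => ?_
      rw [hkey p hp.1]
      have h6 : kz τ (e c j) o p = 0 := by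
        unfold kz
        rw [if_neg (show ¬ τ ≤ ‖cB o p‖ from hp.2.1), if_neg (show ¬ τ ≤ ‖cA o p‖ from hp.2.2)]
      rw [h6]
      simp
  · -- the integral of `|D|²`
    intro A hAm hA
    obtain ⟨aB, haB, hsa⟩ : ∃ aB : ℝ, ((sO o n2 n1) c j : ℝ) < (sO o h2 h1) c j + e c j + aB ∧
        ∀ p ∈ Og (S := S) c ρ, ‖(T.map c p).1‖ ^ a = ‖cA o p‖ ^ (a : ℝ) * ‖cB o p‖ ^ aB := by
      by_cases hIE : IsE c
      · refine ⟨a, cf2 hIE, fun p hp => ?_⟩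
        rw [(s_eq hvO p).1 hIE, mul_pow, Real.rpow_natCast, Real.rpow_natCast]
      · refine ⟨0, by rw [add_zero]; exact cf3 hIE, fun p hp => ?_⟩
        rw [(s_eq hvO p).2 hIE, Real.rpow_zero, Real.rpow_natCast, mul_one]
    refine fin_intO (o := o) hAm (fun p hp => hOR p (hA p hp).1)
      (e := (sO o h1 h2) c j + a - (sO o n1 n2) c j)
      (e' := (sO o h2 h1) c j + e c j + aB - (sO o n2 n1) c j)
      (C := (K * K) ^ 2 * Kd ^ 2) (by linarith) (by linarith) (by positivity) fun p hp _ _ => ?_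
    obtain ⟨hpO, hpy⟩ := hA p hp
    have h5 := zone0r (m1 := (sO o h1 h2) c j + a) (m2 := (sO o h2 h1) c j + e c j + aB) (K := Kd)
      (n1 := (sO o n1 n2) c j) (n2 := (sO o n2 n1) c j) ‖cA o p‖ ‖cB o p‖ (hApos p hpO)
      (hBpos p hpO) (dn S c j p) (hdn0 p) (hdnO p hpO)
    have h6 : ‖(T.map c p).1 ^ a * (H (wc S c j p) * th U S f₀ γ τ b o c j p)‖ ≤
        (K * K) * (‖cA o p‖ ^ ((sO o h1 h2) c j + a) * ‖cB o p‖ ^ ((sO o h2 h1) c j + e c j + aB)) := by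
      rw [norm_mul, norm_mul, norm_pow, hsa p hpO]
      have e1 := (hH p hpO).2
      have e2 := hEF.bd p hpO
      rw [hmono] at e1
      have hA0 := hApos p hpO
      have hB0 := hBpos p hpO
      calc ‖cA o p‖ ^ (a : ℝ) * ‖cB o p‖ ^ aB * (‖H (wc S c j p)‖ * ‖th U S f₀ γ τ b o c j p‖)
          ≤ ‖cA o p‖ ^ (a : ℝ) * ‖cB o p‖ ^ aB * ((K * (‖cA o p‖ ^ ((sO o h1 h2) c j) *
            ‖cB o p‖ ^ ((sO o h2 h1) c j))) * (K * ‖cB o p‖ ^ e c j)) := by gcongr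
        _ = (K * K) * ((‖cA o p‖ ^ ((sO o h1 h2) c j) * ‖cA o p‖ ^ (a : ℝ)) *
            (‖cB o p‖ ^ ((sO o h2 h1) c j) * ‖cB o p‖ ^ e c j * ‖cB o p‖ ^ aB)) := by ring
        _ = _ := by
            rw [← Real.rpow_add hA0, ← Real.rpow_add hB0, ← Real.rpow_add hB0]
    calc _ ≤ ((K * K) * (‖cA o p‖ ^ ((sO o h1 h2) c j + a) *
          ‖cB o p‖ ^ ((sO o h2 h1) c j + e c j + aB))) ^ 2 * dn S c j p ^ 2 := by
          have := hdn0 p
          gcongr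
      _ = (K * K) ^ 2 * ((‖cA o p‖ ^ ((sO o h1 h2) c j + a) *
          ‖cB o p‖ ^ ((sO o h2 h1) c j + e c j + aB)) ^ 2 * dn S c j p ^ 2) := by ring
      _ ≤ (K * K) ^ 2 * _ := mul_le_mul_of_nonneg_left h5 (by positivity)
      _ = _ := by ring
  · intro p hp
    rw [norm_mul]
    calc ‖H (wc S c j p)‖ * ‖th U S f₀ γ τ b o c j p‖
        ≤ (K * (‖p.1‖ ^ h1 c j * ‖p.2‖ ^ h2 c j)) * (K * ‖cB o p‖ ^ e c j) :=
          mul_le_mul (hH p hp).2 (hEF.bd p hp) (norm_nonneg _) (by positivity)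
      _ = _ := by ring

end

end Crest.Agent.R257.CDataL_250
end
end

-- ▼ part R257/CDataN_250
section

/-!
Row 257, part C, task C-DATA (helper250), file N: **the null data** (`null_data`): `D = H · f₀ (ret)` near one
component, `0` elsewhere.
-/

set_option autoImplicit false
set_option linter.unusedSectionVars false

noncomputable section

open Set Filter Topology MeasureTheory Metric
open scoped ENNReal

namespace Crest.Agent.R257.CDataL_250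

open Crest.AlgGeometry.Germ Crest.Agent.R257.AJ387 Crest.Agent.R257.T387
open Crest.Agent.R257.Gr1_157 Crest.Agent.R257.HoB_843 Crest.Agent.R257.BP_258
open Crest.Agent.R257.CDataA_250 Crest.Agent.R257.CDataB_250 Crest.Agent.R257.CDataE_250
open Crest.Agent.R257.CDataG_250 Crest.Agent.R257.CDataH_250 Crest.Agent.R257.CDataI_250
open Crest.Agent.R257.Wt_258 Crest.Agent.R257.Rsn_843 Crest.Agent.R257.Vt2_558
open Crest.Agent.R257.FrmE_547 (CB)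
open Crest.Agent.R257.FrmF_547

variable {f : (Fin 3 → ℂ) → ℂ} {T : TB f} {U : Tub T} {S : Sh T}

section
variable {L : Lab U S} {e₀ : II U} {f₀ : XV U e₀.1.1 → ℂ} {H : (Fin 3 → ℂ) → ℂ}
    {y : II U → ℝ} {n1 n2 : Ch T.m → Fin T.d → ℤ} {h1 h2 e : Ch T.m → Fin T.d → ℝ}
    {a : ℕ} {nu : II U → ℤ}

/-- growth at the ends, both axes -/
def GR (L : Lab U S) (e₀ : II U) (f₀ : XV U e₀.1.1 → ℂ) (e : Ch T.m → Fin T.d → ℝ)
    (γ : Bool → Ch T.m → Fin T.d → ℂ → XV U e₀.1.1) : Prop :=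
  ∀ o c, Ok S c → ¬ IsV c → ∀ j, eO L o c j = some e₀ → ∃ C r : ℝ, 0 < r ∧
    ∀ b : ℂ, 0 < ‖b‖ → ‖b‖ < r → ‖f₀ (γ o c j b)‖ ≤ C * ‖b‖ ^ e c j

open Classical in
/-- the context exists -/
theorem exists_Cx (hR : RetStmt U) (hE : EndStmt L) (N : NH L e₀ f₀ H y n1 n2 h1 h2 e a)
    (F' : Finset (Ch T.m)) (hF' : ∀ c ∈ F', Ok S c) :
    ∃ (γ : Bool → Ch T.m → Fin T.d → ℂ → XV U e₀.1.1) (F₀ : Finset (Ch T.m)) (τ b b₁ : ℝ),
      Cx L e₀ f₀ γ (F' ∪ Ends S) F₀ τ b b₁ ∧ GR L e₀ f₀ e γ ∧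
      ∃ ε > 0, ∀ s y : ℂ, ‖s‖ < ε → ‖y‖ < ε → (s, y) ≠ 0 → ∃ c ∈ F₀, ∃ p : ℂ × ℂ,
        (¬ IsV c → p ∈ CB b₁) ∧ (IsV c → p ∈ CB (S.r c / 2)) ∧ T.map c p = (s, y) := by
  obtain ⟨x₀, -⟩ := ConnectedComponents.surjective_coe e₀.2
  have hγ : ∀ o : Bool, ∀ c : Ch T.m, ∃ γ : Fin T.d → ℂ → XV U e₀.1.1, Ok S c → ¬ IsV c →
      vO T o c = some e₀.1.1 → EndO U S o c e₀.1.1 γ ∧ ∀ j, eO L o c j = some e₀ →
        ∃ C r : ℝ, 0 < r ∧ ∀ b : ℂ, 0 < ‖b‖ → ‖b‖ < r → ‖f₀ (γ j b)‖ ≤ C * ‖b‖ ^ e c j := by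
    intro o c
    by_cases h : Ok S c ∧ ¬ IsV c ∧ vO T o c = some e₀.1.1
    · obtain ⟨hc, hV, hv⟩ := h
      cases o
      · obtain ⟨γ, hγ, -⟩ := (hE c hc e₀.1).2 hv
        exact ⟨γ, fun _ _ _ => ⟨endO_of_end2 hγ, fun j hj => N.gr2 c hc hV hv γ hγ j hj⟩⟩
      · obtain ⟨γ, hγ, -⟩ := (hE c hc e₀.1).1 hv
        exact ⟨γ, fun _ _ _ => ⟨endO_of_end1 hγ, fun j hj => N.gr1 c hc hV hv γ hγ j hj⟩⟩
    · exact ⟨fun _ _ => x₀, fun h1 h2 h3 => absurd ⟨h1, h2, h3⟩ h⟩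
  choose γ hγ using hγ
  have hGok : ∀ c ∈ F' ∪ Ends S, Ok S c := fun c hc =>
    (Finset.mem_union.1 hc).elim (hF' c) ends_ok
  obtain ⟨b', hb', hbr, hsep⟩ := sep_ends hGok
  set b₁ : ℝ := min b' 1 with hb₁
  have hb0 : 0 < b₁ := lt_min hb' one_pos
  obtain ⟨Fc, hFc, hcov⟩ := BPC_554.coverP S (fun c => if IsV c then S.r c / 2 else b₁) (fun c => by
    split_ifs
    · exact half_pos (S.pos c)
    · exact hb0)
  obtain ⟨ε, hε, hcov⟩ := hcov
  refine ⟨γ, (F' ∪ Ends S) ∪ Fc, b₁ / 3, b₁ / 2, b₁, ⟨hR, N.hf, N.f0, ?_, by positivity,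
    by linarith, by linarith, min_le_right _ _, fun c hc => (min_le_left _ _).trans_lt (hbr c hc),
    ?_, Finset.subset_union_right, Finset.subset_union_left, ?_⟩, ?_, ε, hε, ?_⟩
  · exact fun o c hc hV hv => (hγ o c hc hV hv).1
  · intro c hc
    rcases Finset.mem_union.1 hc with hc | hc
    · exact hGok c hc
    · exact hFc c hc
  · intro c hc c' hc' hne p hp p' hp'
    exact hsep c hc c' hc' hne p hp p' (CB_mono (min_le_left _ _) hp')
  · intro o c hc hV j hj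
    exact (hγ o c hc hV (eO_vO L hc hj)).2 j hj
  · intro s y hs hy hne
    obtain ⟨c, hc, p, q1, q2, q3⟩ := hcov s y hs hy hne
    refine ⟨c, Finset.mem_union_right _ hc, p, fun hV => ?_, fun hV => ?_, q3⟩
    · rw [if_neg hV] at q1 q2
      exact ⟨q1, q2⟩
    · rw [if_pos hV] at q1 q2
      exact ⟨q1, q2⟩

variable {γ : Bool → Ch T.m → Fin T.d → ℂ → XV U e₀.1.1} {G F F₀ : Finset (Ch T.m)}
  {τ b b₁ : ℝ}

/-- the local facts at one sheet of one chart -/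
def LF (L : Lab U S) (e₀ : II U) (f₀ : XV U e₀.1.1 → ℂ) (H : (Fin 3 → ℂ) → ℂ)
    (h1 h2 e : Ch T.m → Fin T.d → ℝ) (γ : Bool → Ch T.m → Fin T.d → ℂ → XV U e₀.1.1)
    (τ b : ℝ) (K : ℝ) (q : Ch T.m × Fin T.d) (ε : ℝ) : Prop :=
  (q.1 ∈ Ends S → ∀ o, eO L o q.1 q.2 = some e₀ → EF U S f₀ γ τ b (e q.1 q.2) o q.1 q.2 K ε) ∧
  ((∃ o, eO L o q.1 q.2 = some e₀) → ∀ p ∈ Og (S := S) q.1 ε,
    AnalyticAt ℂ (fun p => H (wc S q.1 q.2 p)) p ∧
      ‖H (wc S q.1 q.2 p)‖ ≤ K * (‖p.1‖ ^ h1 q.1 q.2 * ‖p.2‖ ^ h2 q.1 q.2)) ∧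
  (IsV q.1 → L.e1 q.1 q.2 = some e₀ → ∀ p ∈ Og (S := S) q.1 ε,
    AnalyticAt ℂ (fun p => GG U e₀.1.1 f₀ (wc S q.1 q.2 p)) p ∧
      ‖GG U e₀.1.1 f₀ (wc S q.1 q.2 p)‖ ≤ K)

lemma exists_LF (C : Cx L e₀ f₀ γ G F₀ τ b b₁) (N : NH L e₀ f₀ H y n1 n2 h1 h2 e a)
    (hgr : GR L e₀ f₀ e γ) {q : Ch T.m × Fin T.d} (hc : Ok S q.1) :
    ∃ K > 0, ∃ ε > 0, LF L e₀ f₀ H h1 h2 e γ τ b K q ε := by
  obtain ⟨c, j⟩ := q
  simp only at hc
  have p1 : ∃ K > 0, ∃ ε > 0, (c ∈ Ends S → ∀ o, eO L o c j = some e₀ →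
      EF U S f₀ γ τ b (e c j) o c j K ε) := by
    by_cases h : ∃ o, c ∈ Ends S ∧ eO L o c j = some e₀
    · obtain ⟨o, hcE, hl⟩ := h
      obtain ⟨K, ε, hK, hε, h3⟩ := exists_EF C hcE hl (hgr o c hc (ends_nV hcE) j hl)
      refine ⟨K, hK, ε, hε, fun _ o' hl' => ?_⟩
      have ho : o' = o := eO_inj L hc hl' hl
      subst ho
      exact h3
    · exact ⟨1, one_pos, 1, one_pos, fun h1 o h2 => absurd ⟨o, h1, h2⟩ h⟩
  have p2 : ∃ K > 0, ∃ ε > 0, ((∃ o, eO L o c j = some e₀) → ∀ p ∈ Og (S := S) c ε,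
      AnalyticAt ℂ (fun p => H (wc S c j p)) p ∧
        ‖H (wc S c j p)‖ ≤ K * (‖p.1‖ ^ h1 c j * ‖p.2‖ ^ h2 c j)) := by
    by_cases h : ∃ o, eO L o c j = some e₀
    · obtain ⟨K, r, hr, h3⟩ := N.hH c hc j (by
        obtain ⟨o, ho⟩ := h
        cases o
        · exact Or.inr ho
        · exact Or.inl ho)
      refine ⟨max K 1, by positivity, r, hr, fun _ p hp => ⟨(h3 p hp).1, (h3 p hp).2.trans ?_⟩⟩
      exact mul_le_mul_of_nonneg_right (le_max_left _ _) (by positivity)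
    · exact ⟨1, one_pos, 1, one_pos, fun h1 => absurd h1 h⟩
  have p3 : ∃ K > 0, ∃ ε > 0, (IsV c → L.e1 c j = some e₀ → ∀ p ∈ Og (S := S) c ε,
      AnalyticAt ℂ (fun p => GG U e₀.1.1 f₀ (wc S c j p)) p ∧
        ‖GG U e₀.1.1 f₀ (wc S c j p)‖ ≤ K) := by
    by_cases h : IsV c ∧ L.e1 c j = some e₀
    · obtain ⟨hV, hl⟩ := h
      have hl' : eO L true c j = some e₀ := hl
      have hvO := eO_vO L hc hl'
      have hr := S.pos c
      obtain ⟨ε₁, q1, hnear⟩ := nearS L hc hl' one_pos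
      obtain ⟨a₂, ha₂, K₂, hbd⟩ := GG_bd (S := S) C.hR e₀.1.2 C.hf (o := true) hc.1 hvO j
        (isCompact_closedBall (0 : ℂ) (S.r c)) (fun b hb => ⟨by
          rw [mem_closedBall_zero_iff] at hb; linarith, Or.inr ⟨rfl, hV⟩⟩)
      obtain ⟨ε₂, q2, hA⟩ := small_A hvO one_pos ha₂
      refine ⟨max K₂ 1, by positivity, min ε₁ ε₂, lt_min q1 q2, fun _ _ p hp => ⟨?_, ?_⟩⟩
      · obtain ⟨h3, -⟩ := hnear p ⟨hp.1.le, hp.2.1.le⟩ hp.2.2.1
          (hp.2.2.2.trans_le (min_le_left _ _)) (Or.inl ⟨rfl, hV⟩)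
        exact GG_an_wc C.hR C.hf hc.1 j (Og_mem2 hp) h3
      · refine (hbd p (by rw [mem_closedBall_zero_iff]; exact hp.2.1.le)
          (cA_pos hvO hp.2.2.1) (hA p (hp.2.2.2.trans_le (min_le_right _ _))
            (Or.inl ⟨rfl, hV⟩))).trans (le_max_left _ _)
    · exact ⟨1, one_pos, 1, one_pos, fun h1 h2 => absurd ⟨h1, h2⟩ h⟩
  obtain ⟨K₁, k1, ε₁, q1, f1⟩ := p1
  obtain ⟨K₂, k2, ε₂, q2, f2⟩ := p2
  obtain ⟨K₃, k3, ε₃, q3, f3⟩ := p3
  have e1 : min (min ε₁ ε₂) ε₃ ≤ ε₁ := (min_le_left _ _).trans (min_le_left _ _)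
  have e2 : min (min ε₁ ε₂) ε₃ ≤ ε₂ := (min_le_left _ _).trans (min_le_right _ _)
  have e3 : min (min ε₁ ε₂) ε₃ ≤ ε₃ := min_le_right _ _
  have m1 : K₁ ≤ max (max K₁ K₂) K₃ := (le_max_left _ _).trans (le_max_left _ _)
  have m2 : K₂ ≤ max (max K₁ K₂) K₃ := (le_max_right _ _).trans (le_max_left _ _)
  have m3 : K₃ ≤ max (max K₁ K₂) K₃ := le_max_right _ _
  refine ⟨max (max K₁ K₂) K₃, k1.trans_le m1, min (min ε₁ ε₂) ε₃, lt_min (lt_min q1 q2) q3,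
    fun h o ho => (f1 h o ho).mono k1.le m1 e1, fun h p hp => ?_, fun h h' p hp => ?_⟩
  · obtain ⟨a1, a2⟩ := f2 h p (Og_mono e2 hp)
    exact ⟨a1, a2.trans (mul_le_mul_of_nonneg_right m2 (by positivity))⟩
  · obtain ⟨a1, a2⟩ := f3 h h' p (Og_mono e3 hp)
    exact ⟨a1, a2.trans m3⟩

lemma EF.mono' {v : Vtx} {f₀ : XV U v → ℂ} {γ : Bool → Ch T.m → Fin T.d → ℂ → XV U v}
    {τ b e : ℝ} {o : Bool} {c : Ch T.m} {j : Fin T.d} {K ε ε' : ℝ}
    (h : EF U S f₀ γ τ b e o c j K ε) (hε : ε' ≤ ε) :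
    EF U S f₀ γ τ b e o c j K ε' :=
  ⟨fun p hp => h.sm p (Og_mono hε hp), fun p hp => h.bd p (Og_mono hε hp),
    fun p hp => h.db p (Og_mono hε hp)⟩

lemma LF.mono {K : ℝ} {q : Ch T.m × Fin T.d} {ε ε' : ℝ} (h : LF L e₀ f₀ H h1 h2 e γ τ b K q ε)
    (hε : ε' ≤ ε) : LF L e₀ f₀ H h1 h2 e γ τ b K q ε' :=
  ⟨fun a1 o a2 => EF.mono' (h.1 a1 o a2) hε, fun a1 p hp => h.2.1 a1 p (Og_mono hε hp),
    fun a1 a2 p hp => h.2.2 a1 a2 p (Og_mono hε hp)⟩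

end

end Crest.Agent.R257.CDataL_250
end
end

-- ▼ part R257/CDataP_250
section

/-!
Row 257, part C, task C-DATA (helper250), file P: **the null data** (`null_data`): `D = H · f₀ (ret)` near one
component, `0` elsewhere.
-/

set_option autoImplicit false
set_option linter.unusedSectionVars false

noncomputable section

open Set Filter Topology MeasureTheory Metric
open scoped ENNReal

namespace Crest.Agent.R257.CDataL_250

open Crest.AlgGeometry.Germ Crest.Agent.R257.AJ387 Crest.Agent.R257.T387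
open Crest.Agent.R257.Gr1_157 Crest.Agent.R257.HoB_843 Crest.Agent.R257.BP_258
open Crest.Agent.R257.CDataA_250 Crest.Agent.R257.CDataB_250 Crest.Agent.R257.CDataE_250
open Crest.Agent.R257.CDataG_250 Crest.Agent.R257.CDataH_250 Crest.Agent.R257.CDataI_250
open Crest.Agent.R257.Wt_258 Crest.Agent.R257.Rsn_843 Crest.Agent.R257.Vt2_558
open Crest.Agent.R257.FrmE_547 (CB)
open Crest.Agent.R257.FrmF_547

variable {f : (Fin 3 → ℂ) → ℂ} {T : TB f} {U : Tub T} {S : Sh T}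

section
variable {L : Lab U S} {e₀ : II U} {f₀ : XV U e₀.1.1 → ℂ} {H : (Fin 3 → ℂ) → ℂ}
    {y : II U → ℝ} {n1 n2 : Ch T.m → Fin T.d → ℤ} {h1 h2 e : Ch T.m → Fin T.d → ℝ}
    {a : ℕ} {nu : II U → ℤ}

open Classical in
/-- **THE NULL DATA** -/
theorem null_data (hR : RetStmt U) (hE : EndStmt L) (J : Jac L nu n1 n2)
    (N : NH L e₀ f₀ H y n1 n2 h1 h2 e a) (F' : Finset (Ch T.m)) (hF' : ∀ c ∈ F', Ok S c) :
    ∃ τ > 0, ∃ F₀ : Finset (Ch T.m), F' ⊆ F₀ ∧ (∀ c ∈ F₀, Ok S c) ∧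
      ∀ F, F₀ ⊆ F → (∀ c ∈ F, Ok S c) → ∀ (Φ : (Fin 3 → ℂ) → ℝ) (ρ₀ C c₀ : ℝ),
      WTk L y F univ τ 1 Φ ρ₀ C c₀ →
      (∀ c ∈ F, ∀ j, ∀ p ∈ Og (S := S) c ρ₀, ContDiffAt ℝ (⊤ : ℕ∞) (Φ ∘ wc S c j) p) →
      ∃ ρ > 0, ρ ≤ ρ₀ ∧ ∃ (D : (Fin 3 → ℂ) → ℂ) (O : Ch T.m → Fin T.d → Set (ℂ × ℂ))
        (κ : Ch T.m → Fin T.d → ℂ × ℂ → ℝ),
        Adm S F (fun x => Φ x + a * Real.log (‖x 1‖ ^ 2)) ρ (fun x => x 1 ^ a * D x) O κ ∧
        -- test charts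
        (∀ c ∈ F', IsV c → ∀ j, L.e1 c j = some e₀ → ∀ p ∈ Og (S := S) c ρ,
          ‖(T.map c p).2‖ < ρ → ∀ q, IsRet U e₀.1.1 (wc S c j p) q →
            D (wc S c j p) = H (wc S c j p) * f₀ q) ∧
        (∀ c ∈ F', ∀ j, L.e1 c j ≠ some e₀ → L.e2 c j ≠ some e₀ → ∀ p ∈ Og (S := S) c ρ,
          D (wc S c j p) = 0) ∧
        -- top edges
        (∀ c ∈ F, ∀ j, L.e1 c j = none →
          (L.e2 c j = some e₀ → ∃ C', ∀ p ∈ Og (S := S) c ρ, ‖(T.map c p).2‖ < ρ →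
            ContinuousAt (D ∘ wc S c j) p ∧
            ‖D (wc S c j p)‖ ≤ C' * (‖p.1‖ ^ (h1 c j + e c j) * ‖p.2‖ ^ h2 c j)) ∧
          (L.e2 c j ≠ some e₀ → ∀ p ∈ Og (S := S) c ρ, D (wc S c j p) = 0)) := by
  obtain ⟨γ, F₀, τ, b, b₁, C, hgr, hcov⟩ := exists_Cx hR hE N F' hF'
  have hτ := C.τ_pos
  refine ⟨τ, hτ, F₀, Finset.subset_union_left.trans C.sub, C.ok,
    fun F hsub hF Φ ρ₀ CΦ c₀ hW hΦs => ?_⟩
  obtain ⟨ε, M⟩ := exists_Sm hR L hsub hF hcov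
  obtain ⟨δ, hδ, hδF⟩ := small_F hF L hτ
  -- the local facts
  have hloc : ∀ q : Ch T.m × Fin T.d, ∃ K > 0, q.1 ∈ F → ∃ ε > 0,
      LF L e₀ f₀ H h1 h2 e γ τ b K q ε := by
    intro q
    by_cases hq : q.1 ∈ F
    · obtain ⟨K, hK, ε, hε, h⟩ := exists_LF C N hgr (hF _ hq)
      exact ⟨K, hK, fun _ => ⟨ε, hε, h⟩⟩
    · exact ⟨1, one_pos, fun h => absurd h hq⟩
  choose Kf hKf hKloc using hloc
  obtain ⟨ε', hε', hLF⟩ := fin_min (F ×ˢ (Finset.univ : Finset (Fin T.d)))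
    (P := fun q ε => LF L e₀ f₀ H h1 h2 e γ τ b (Kf q) q ε)
    (fun q ε ε' _ hle h => h.mono hle)
    (fun q hq => hKloc q (Finset.mem_product.1 hq).1)
  have hρ₀ := hW.ρ_pos
  have hc₀ := hW.c_pos
  have hb₁ : 0 < b₁ := (hτ.trans C.τ_b).trans C.b_b₁
  have hminε : 0 < min ε τ := lt_min M.pos hτ
  set ρ : ℝ := min (min (b₁ * min ε τ) ε') (min ρ₀ δ) with hρ
  have hρ0 : 0 < ρ := lt_min (lt_min (mul_pos hb₁ hminε) hε') (lt_min hρ₀ hδ)
  have hρ1 : ρ ≤ b₁ * min ε τ := (min_le_left _ _).trans (min_le_left _ _)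
  have hρε' : ρ ≤ ε' := (min_le_left _ _).trans (min_le_right _ _)
  have hρρ : ρ ≤ ρ₀ := (min_le_right _ _).trans (min_le_left _ _)
  have hρδ : ρ ≤ δ := (min_le_right _ _).trans (min_le_right _ _)
  have hρε : ρ ≤ ε := hρ1.trans ((mul_le_of_le_one_left hminε.le C.b₁1).trans (min_le_left _ _))
  have hLFρ : ∀ c ∈ F, ∀ j, LF L e₀ f₀ H h1 h2 e γ τ b (Kf (c, j)) (c, j) ρ := fun c hc j =>
    (hLF (c, j) (Finset.mem_product.2 ⟨hc, Finset.mem_univ _⟩)).mono hρε'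
  have hCB : ∀ {c : Ch T.m} {p : ℂ × ℂ}, p ∈ Og (S := S) c ρ → p ∈ CB (S.r c) := fun hp =>
    ⟨hp.1.le, hp.2.1.le⟩
  -- the data
  set Z : Set (Fin 3 → ℂ) := ZE L e₀ b₁ with hZ
  have hZc : IsClosed Z := isClosed_ZE L e₀ C.b₁r
  set D : (Fin 3 → ℂ) → ℂ := fun x => H x * Th L e₀ f₀ γ F₀ τ b b₁ x with hD
  set O : Ch T.m → Fin T.d → Set (ℂ × ℂ) := fun c j => {p | p ∈ Og (S := S) c ρ ∧
    ‖(T.map c p).2‖ < ρ ∧ ((c ∈ Ends S ∧ ∃ o, eO L o c j = some e₀) ∨ wc S c j p ∉ Z)} with hO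
  set oz : Ch T.m → Fin T.d → Bool := fun c j => decide (L.e1 c j = some e₀) with hoz
  have hozE : ∀ {o c j}, Ok S c → eO L o c j = some e₀ → oz c j = o := by
    intro o c j hc hl
    by_cases h : L.e1 c j = some e₀
    · have h3 : oz c j = true := decide_eq_true h
      rw [h3]
      exact (eO_inj L hc hl (show eO L true c j = some e₀ from h)).symm
    · have h3 : oz c j = false := decide_eq_false h
      rw [h3]
      cases o
      · rfl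
      · exact absurd hl h
  set κ : Ch T.m → Fin T.d → ℂ × ℂ → ℝ := fun c j p =>
    if c ∈ Ends S ∧ ∃ o, eO L o c j = some e₀ then
      ke h1 h2 e a τ ((Kf (c, j) * Kf (c, j)) ^ 2 / c₀) (oz c j) c j p else 0 with hκ
  -- trichotomy
  have htri : ∀ c ∈ F, ∀ j, (∃ o, c ∈ Ends S ∧ eO L o c j = some e₀) ∨
      (IsV c ∧ L.e1 c j = some e₀) ∨ (∀ o, eO L o c j ≠ some e₀) := by
    intro c hc j
    by_cases h : ∃ o, eO L o c j = some e₀
    · obtain ⟨o, ho⟩ := h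
      by_cases hV : IsV c
      · have h3 := eO_V L (hF c hc) hV ho
        subst h3
        exact Or.inr (Or.inl ⟨hV, ho⟩)
      · exact Or.inl ⟨o, mem_ends (hF c hc) hV, ho⟩
    · exact Or.inr (Or.inr fun o ho => h ⟨o, ho⟩)
  -- openness
  have hcont : ∀ c ∈ F, ∀ j, ContinuousOn (wc S c j) (Og (S := S) c ρ) := fun c hc j p hp =>
    (wc_an (hF c hc).1 j (Og_mem2 hp)).continuousAt.continuousWithinAt
  have hopen : ∀ c ∈ F, ∀ j, IsOpen (O c j) := by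
    intro c hc j
    have hA1 : IsOpen (Og (S := S) c ρ ∩ wc S c j ⁻¹' {x | ‖x 2‖ < ρ}) :=
      (hcont c hc j).isOpen_inter_preimage (isOpen_Og c ρ)
        (isOpen_lt (continuous_apply 2).norm continuous_const)
    have hA2 : IsOpen (Og (S := S) c ρ ∩ wc S c j ⁻¹' Zᶜ) :=
      (hcont c hc j).isOpen_inter_preimage (isOpen_Og c ρ) hZc.isOpen_compl
    have h3 : O c j = (Og (S := S) c ρ ∩ wc S c j ⁻¹' {x | ‖x 2‖ < ρ}) ∩
        ({p | c ∈ Ends S ∧ ∃ o, eO L o c j = some e₀} ∪ (Og (S := S) c ρ ∩ wc S c j ⁻¹' Zᶜ)) := by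
      ext p
      constructor
      · rintro ⟨h1, h2, h3⟩
        refine ⟨⟨h1, h2⟩, ?_⟩
        rcases h3 with h3 | h3
        · exact Or.inl h3
        · exact Or.inr ⟨h1, h3⟩
      · rintro ⟨⟨h1, h2⟩, h3⟩
        refine ⟨h1, h2, ?_⟩
        rcases h3 with h3 | h3
        · exact Or.inl h3
        · exact Or.inr h3.2
    rw [h3]
    exact hA1.inter (isOpen_const.union hA2)
  -- pointwise formulas
  have hfE : ∀ c ∈ F, ∀ j o, c ∈ Ends S → eO L o c j = some e₀ → ∀ p ∈ Og (S := S) c ρ,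
      ‖(T.map c p).2‖ < ρ →
      D (wc S c j p) = H (wc S c j p) * th U S f₀ γ τ b o c j p := by
    intro c hc j o hcE hl p hp hy
    show H _ * _ = _
    rw [formE C M hρ1 hcE hl (hCB hp) hp.2.2.1 hp.2.2.2 hy]
  have hfV : ∀ c ∈ F, ∀ j, IsV c → L.e1 c j = some e₀ → ∀ p ∈ Og (S := S) c ρ,
      ‖(T.map c p).2‖ < ρ → (¬ ∃ q, RE L e₀ b₁ (wc S c j p) q) →
      D (wc S c j p) = H (wc S c j p) * GG U e₀.1.1 f₀ (wc S c j p) := by
    intro c hc j hV hl p hp hy hx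
    show H _ * _ = _
    rw [formV C.b₁r M hc hV hl (hCB hp) hp.2.2.1 (hp.2.2.2.trans_le hρε) (hy.trans_le hρε) hx]
  have hfZ : ∀ c ∈ F, ∀ j, (∀ o, eO L o c j ≠ some e₀) → ∀ p ∈ Og (S := S) c ρ,
      (¬ ∃ q, RE L e₀ b₁ (wc S c j p) q) → D (wc S c j p) = 0 := by
    intro c hc j hl p hp hx
    show H _ * _ = _
    rw [formZ M hc hl (hCB hp) hp.2.2.1 (hp.2.2.2.trans_le hρε) hx, mul_zero]
  have hRE : ∀ x, x ∉ Z → ¬ ∃ q, RE L e₀ b₁ x q := fun x hx h => hx (RE_ZE h)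
  -- local forms of the shifted data
  have hlE : ∀ c ∈ F, ∀ j o, c ∈ Ends S → eO L o c j = some e₀ → ∀ p ∈ O c j,
      (fun x => x 1 ^ a * D x) ∘ wc S c j =ᶠ[𝓝 p]
        fun q => ((T.map c q).1 ^ a * H (wc S c j q)) * th U S f₀ γ τ b o c j q := by
    intro c hc j o hcE hl p hp
    filter_upwards [(hopen c hc j).mem_nhds hp] with q hq
    show (T.map c q).1 ^ a * D (wc S c j q) = _
    rw [hfE c hc j o hcE hl q hq.1 hq.2.1]
    ring
  have hnE : ∀ c ∈ F, ∀ j, ¬ (c ∈ Ends S ∧ ∃ o, eO L o c j = some e₀) → ∀ p ∈ O c j,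
      ¬ ∃ q, RE L e₀ b₁ (wc S c j p) q := by
    intro c hc j h p hp
    exact hRE _ (hp.2.2.resolve_left h)
  have hVE : ∀ c, IsV c → ∀ j, ¬ (c ∈ Ends S ∧ ∃ o, eO L o c j = some e₀) := fun c hV j h =>
    ends_nV h.1 hV
  have hlV : ∀ c ∈ F, ∀ j, IsV c → L.e1 c j = some e₀ → ∀ p ∈ O c j,
      (fun x => x 1 ^ a * D x) ∘ wc S c j =ᶠ[𝓝 p]
        fun q => ((T.map c q).1 ^ a * H (wc S c j q)) * GG U e₀.1.1 f₀ (wc S c j q) := by
    intro c hc j hV hl p hp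
    filter_upwards [(hopen c hc j).mem_nhds hp] with q hq
    show (T.map c q).1 ^ a * D (wc S c j q) = _
    rw [hfV c hc j hV hl q hq.1 hq.2.1 (hnE c hc j (hVE c hV j) q hq)]
    ring
  have hlZ : ∀ c ∈ F, ∀ j, (∀ o, eO L o c j ≠ some e₀) → ∀ p ∈ O c j,
      (fun x => x 1 ^ a * D x) ∘ wc S c j =ᶠ[𝓝 p] fun _ => (0 : ℂ) := by
    intro c hc j hl p hp
    filter_upwards [(hopen c hc j).mem_nhds hp] with q hq
    show (T.map c q).1 ^ a * D (wc S c j q) = _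
    rw [hfZ c hc j hl q hq.1 (hnE c hc j (fun h => h.2.elim hl) q hq), mul_zero]
  -- the estimates at the ends
  have hest : ∀ c ∈ F, ∀ j o, c ∈ Ends S → eO L o c j = some e₀ → _ := fun c hc j o hcE hl =>
    end_est N J hτ hcE hc hl (hKf (c, j)) ((hLFρ c hc j).1 hcE o hl)
      ((hLFρ c hc j).2.1 ⟨o, hl⟩) hW hρρ (fun p hp => hΦs c hc j p (Og_mono hρρ hp))
      (fun p hp hy => hδF c hc j p hp.1.le hp.2.1.le (hp.2.2.2.trans_le hρδ) (hy.trans_le hρδ))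
  have hκE : ∀ c j o, c ∈ Ends S → eO L o c j = some e₀ → ∀ p, κ c j p =
      ke h1 h2 e a τ ((Kf (c, j) * Kf (c, j)) ^ 2 / c₀) o c j p := by
    intro c j o hcE hl p
    simp only [hκ]
    rw [if_pos ⟨hcE, o, hl⟩, hozE (ends_ok hcE) hl]
  have hκ0 : ∀ c j, ¬ (c ∈ Ends S ∧ ∃ o, eO L o c j = some e₀) → ∀ p, κ c j p = 0 := by
    intro c j h p
    simp only [hκ]
    rw [if_neg h]
  have hKc : ∀ q : Ch T.m × Fin T.d, 0 ≤ (Kf q * Kf q) ^ 2 / c₀ := fun q => by positivity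
  have hsub' : ∀ c ∈ F, ∀ j, ∀ p ∈ O c j, p ∈ Og (S := S) c ρ ∧ ‖(T.map c p).2‖ < ρ :=
    fun c hc j p hp => ⟨hp.1, hp.2.1⟩
  have hOR : ∀ c ∈ F, ∀ j, ∀ p ∈ O c j, ‖p.1‖ < S.r c ∧ ‖p.2‖ < S.r c := fun c hc j p hp =>
    ⟨hp.1.1, hp.1.2.1⟩
  refine ⟨ρ, hρ0, hρρ, D, O, κ, ⟨hopen, hsub', ?_, ?_, ?_, ?_, ?_, ?_, ?_⟩, ?_, ?_, ?_⟩
  · -- cov
    intro c hc j p hp hy hoff
    by_cases hz : wc S c j p ∈ Z
    · have hz' := hz
      rw [hZ] at hz'
      simp only [ZE, mem_iUnion] at hz'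
      obtain ⟨q, ⟨hq, hql⟩, p', hp', hpp⟩ := hz'
      have hqF : q.2.1 ∈ F := M.sub (C.sub (C.ends hq))
      have hm : T.map q.2.1 p' = T.map c p := map_wc hpp
      have hr := C.b₁r _ hq
      refine ⟨q.2.1, hqF, q.2.2, p', ⟨⟨hp'.1.trans_lt hr, hp'.2.trans_lt hr,
        CDataC_250.gen_of hp.2.2.1 hm hoff, ?_⟩, ?_, Or.inl ⟨hq, q.1, hql⟩⟩, hpp⟩
      · rw [hm]; exact hp.2.2.2
      · rw [hm]; exact hy
    · exact ⟨c, hc, j, p, ⟨hp, hy, Or.inr hz⟩, rfl⟩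
  · -- smooth
    intro c hc j p hp
    have hsa : AnalyticAt ℂ (fun q : ℂ × ℂ => (T.map c q).1 ^ a) p := (sc_an' p).pow a
    have hrs : ∀ {g : ℂ × ℂ → ℂ} {p : ℂ × ℂ}, AnalyticAt ℂ g p → ContDiffAt ℝ (⊤ : ℕ∞) g p :=
      fun h => h.contDiffAt.restrict_scalars ℝ
    rcases htri c hc j with ⟨o, hcE, hl⟩ | ⟨hV, hl⟩ | hl
    · have h3 := ((hLFρ c hc j).2.1 ⟨o, hl⟩ p hp.1).1
      have h4 := ((hLFρ c hc j).1 hcE o hl).sm p hp.1
      exact ((hrs (hsa.mul h3)).mul h4).congr_of_eventuallyEq (hlE c hc j o hcE hl p hp)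
    · have h3 := ((hLFρ c hc j).2.1 ⟨true, hl⟩ p hp.1).1
      have h4 := ((hLFρ c hc j).2.2 hV hl p hp.1).1
      exact (hrs ((hsa.mul h3).mul h4)).congr_of_eventuallyEq (hlV c hc j hV hl p hp)
    · exact contDiffAt_const.congr_of_eventuallyEq (hlZ c hc j hl p hp)
  · -- nonneg
    intro c j p
    simp only [hκ]
    split_ifs
    · exact ke_nonneg (hKc _) _ _ _ _
    · exact le_rfl
  · -- measurable
    intro c j
    simp only [hκ]
    split_ifs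
    · exact ke_meas _ _ _
    · exact measurable_const
  · -- the bound of `∂̄ D`
    intro c hc j p hp w
    rcases htri c hc j with ⟨o, hcE, hl⟩ | ⟨hV, hl⟩ | hl
    · rw [dbE_congr (hlE c hc j o hcE hl p hp), hκE c j o hcE hl p]
      exact (hest c hc j o hcE hl).1 p hp.1 hp.2.1 w
    · have h3 := ((hLFρ c hc j).2.1 ⟨true, hl⟩ p hp.1).1
      have h4 := ((hLFρ c hc j).2.2 hV hl p hp.1).1
      have h5 : DifferentiableAt ℂ (fun q => ((T.map c q).1 ^ a * H (wc S c j q)) *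
          GG U e₀.1.1 f₀ (wc S c j q)) p :=
        ((((sc_an' p).pow a).mul h3).mul h4).differentiableAt
      rw [dbE_congr (hlV c hc j hV hl p hp), dbE_hol h5 w, hκ0 c j (hVE c hV j)]
      simp
    · rw [dbE_congr (hlZ c hc j hl p hp), dbE_hol (differentiableAt_const _) w,
        hκ0 c j (fun h => h.2.elim hl)]
      simp
  · -- the integral of `κ`
    intro c hc j
    by_cases h : c ∈ Ends S ∧ ∃ o, eO L o c j = some e₀
    · obtain ⟨hcE, o, hl⟩ := h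
      have h3 := (hest c hc j o hcE hl).2.1 (O c j) (hopen c hc j).measurableSet (hsub' c hc j)
      simp only [hκE c j o hcE hl]
      exact h3
    · refine fin_int (hopen c hc j).measurableSet (hOR c hc j) (e := 1) (e' := 1) (C := 0) one_pos
        one_pos le_rfl fun p hp _ _ => ?_
      rw [hκ0 c j h]
      simp
  · -- the integral of `|D|²`
    intro c hc j
    have hOm := (hopen c hc j).measurableSet
    rcases htri c hc j with ⟨o, hcE, hl⟩ | ⟨hV, hl⟩ | hl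
    · have h3 := (hest c hc j o hcE hl).2.2.1 (O c j) hOm (hsub' c hc j)
      refine ne_top_of_le_ne_top h3 (le_of_eq ?_)
      refine setLIntegral_congr_fun hOm fun p hp => ?_
      show ENNReal.ofReal (‖(T.map c p).1 ^ a * D (wc S c j p)‖ ^ 2 * dn S c j p ^ 2) = _
      rw [hfE c hc j o hcE hl p hp.1 hp.2.1]
    · obtain ⟨Kd, hKd, hbd⟩ := J.bd c (hF c hc) j
      obtain ⟨v1', v2'⟩ := N.vert c (hF c hc) hV j hl
      have hl' : eO L true c j = some e₀ := hl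
      have hvO := eO_vO L (hF c hc) hl'
      have hnIE : ¬ IsE c := by
        cases c with
        | edge i k k' => exact hV.elim
        | leg i => exact hV.elim
        | vert i k w => exact fun h => h
      refine fin_int hOm (hOR c hc j) (e := h1 c j + a - n1 c j) (e' := h2 c j - n2 c j)
        (C := (Kf (c, j) * Kf (c, j)) ^ 2 * Kd ^ 2) (by linarith) (by linarith) (by positivity)
        fun p hp q1 q2 => ?_
      have hdn0 : 0 ≤ dn S c j p := by unfold dn; positivity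
      have h5 := zone0r (m1 := h1 c j + a) (m2 := h2 c j) (K := Kd) (n1 := n1 c j) (n2 := n2 c j)
        ‖p.1‖ ‖p.2‖ (norm_pos_iff.2 q1) (norm_pos_iff.2 q2) (dn S c j p) hdn0
        (hbd p hp.1.1.le hp.1.2.1.le hp.1.2.2.1).2.1
      have h3 := ((hLFρ c hc j).2.1 ⟨true, hl⟩ p hp.1).2
      have h4 := ((hLFρ c hc j).2.2 hV hl p hp.1).2
      have hK0 := hKf (c, j)
      have h6 : ‖(T.map c p).1 ^ a * D (wc S c j p)‖ ≤
          (Kf (c, j) * Kf (c, j)) * (‖p.1‖ ^ (h1 c j + a) * ‖p.2‖ ^ h2 c j) := by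
        rw [hfV c hc j hV hl p hp.1 hp.2.1 (hnE c hc j (hVE c hV j) p hp), norm_mul, norm_mul,
          norm_pow, (s_eq hvO p).2 hnIE]
        show ‖p.1‖ ^ a * _ ≤ _
        calc ‖p.1‖ ^ a * (‖H (wc S c j p)‖ * ‖GG U e₀.1.1 f₀ (wc S c j p)‖)
            ≤ ‖p.1‖ ^ a * ((Kf (c, j) * (‖p.1‖ ^ h1 c j * ‖p.2‖ ^ h2 c j)) * Kf (c, j)) := by
              gcongr
          _ = (Kf (c, j) * Kf (c, j)) * ((‖p.1‖ ^ h1 c j * ‖p.1‖ ^ (a : ℝ)) * ‖p.2‖ ^ h2 c j) := by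
              rw [Real.rpow_natCast]; ring
          _ = _ := by rw [← Real.rpow_add (norm_pos_iff.2 q1)]
      show ‖(T.map c p).1 ^ a * D (wc S c j p)‖ ^ 2 * dn S c j p ^ 2 ≤ _
      calc _ ≤ ((Kf (c, j) * Kf (c, j)) * (‖p.1‖ ^ (h1 c j + a) * ‖p.2‖ ^ h2 c j)) ^ 2 *
            dn S c j p ^ 2 := by gcongr
        _ = (Kf (c, j) * Kf (c, j)) ^ 2 * ((‖p.1‖ ^ (h1 c j + a) * ‖p.2‖ ^ h2 c j) ^ 2 *
            dn S c j p ^ 2) := by ring
        _ ≤ (Kf (c, j) * Kf (c, j)) ^ 2 * _ := mul_le_mul_of_nonneg_left h5 (by positivity)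
        _ = _ := by ring
    · refine fin_int hOm (hOR c hc j) (e := 1) (e' := 1) (C := 0) one_pos
        one_pos le_rfl fun p hp _ _ => ?_
      show ‖(T.map c p).1 ^ a * D (wc S c j p)‖ ^ 2 * dn S c j p ^ 2 ≤ _
      rw [hfZ c hc j hl p hp.1 (hnE c hc j (fun h => h.2.elim hl) p hp)]
      simp
  · -- labelled test charts
    intro c hc hV j hl p hp hy q hq
    have hcG : c ∈ F' ∪ Ends S := Finset.mem_union_left _ hc
    have hcF : c ∈ F := M.sub (C.sub hcG)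
    rw [hfV c hcF j hV hl p hp hy (C.noREV hcG hV (hCB hp) hp.2.2.1), GG_eq hR hq]
  · -- unlabelled test charts
    intro c hc j hl1 hl2 p hp
    have hcG : c ∈ F' ∪ Ends S := Finset.mem_union_left _ hc
    have hcF : c ∈ F := M.sub (C.sub hcG)
    have hl : ∀ o, eO L o c j ≠ some e₀ := fun o => by
      cases o
      · exact hl2
      · exact hl1
    exact hfZ c hcF j hl p hp (C.noREU hcG hl (hCB hp) hp.2.2.1)
  · -- top edges
    intro c hc j hn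
    have hv1 := v1_none (hF c hc) hn
    have hnV : ¬ IsV c := by
      intro hV
      cases c with
      | edge i k k' => exact hV
      | leg i => exact hV
      | vert i k w => simp [v1] at hv1
    have hcE : c ∈ Ends S := mem_ends (hF c hc) hnV
    refine ⟨fun hl => ?_, fun hl p hp => ?_⟩
    · have hl' : eO L false c j = some e₀ := hl
      have h3 := (hest c hc j false hcE hl').2.2.2
      refine ⟨Kf (c, j) * Kf (c, j), fun p hp hy => ⟨?_, ?_⟩⟩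
      · have hA1 : IsOpen (Og (S := S) c ρ ∩ wc S c j ⁻¹' {x | ‖x 2‖ < ρ}) :=
          (hcont c hc j).isOpen_inter_preimage (isOpen_Og c ρ)
            (isOpen_lt (continuous_apply 2).norm continuous_const)
        have h4 : D ∘ wc S c j =ᶠ[𝓝 p]
            fun q => H (wc S c j q) * th U S f₀ γ τ b false c j q := by
          filter_upwards [hA1.mem_nhds ⟨hp, hy⟩] with q hq
          exact hfE c hc j false hcE hl' q hq.1 hq.2
        have h5 := ((hLFρ c hc j).2.1 ⟨false, hl'⟩ p hp).1.continuousAt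
        have h6 := (((hLFρ c hc j).1 hcE false hl').sm p hp).continuousAt
        exact (h5.mul h6).congr h4.symm
      · rw [hfE c hc j false hcE hl' p hp hy]
        refine (h3 p hp).trans (le_of_eq ?_)
        have h4 : 0 < ‖p.1‖ := norm_pos_iff.2 (CDataB_250.gen_fst hp.2.2.1)
        show _ * ‖p.1‖ ^ e c j = _
        rw [Real.rpow_add h4]
        ring
    · have hl' : ∀ o, eO L o c j ≠ some e₀ := fun o => by
        cases o
        · exact hl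
        · intro h
          rw [show eO L true c j = L.e1 c j from rfl, hn] at h
          simp at h
      have hcG : c ∈ F' ∪ Ends S := Finset.mem_union_right _ hcE
      exact hfZ c hc j hl' p hp (C.noREU hcG hl' (hCB hp) hp.2.2.1)

end

end Crest.Agent.R257.CDataL_250
end
end

-- ▼ part R257/Nd1_980
section

/-!
# Row 257 (S0395), NULL DATA (helper980), file 1: retractions and ends

* `tr1`, `tr2`   : transfer to the tube chart, with the retraction;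
* `ret_vert`, `ret_ax2` : in canonical vertex charts, and on the second axis, the retraction is
  exactly `γ j β` resp. `γ j α`;
* `diff1`        : on the first axis `fX (ret) - fX (γ j β) = O(α)`, both holomorphic;
* `gam1_eq`, `gam2_eq` : `γ j β` depends only on the point of `W`.
-/

set_option autoImplicit false
set_option linter.unusedSectionVars false
set_option linter.unusedVariables false

open Polynomial Set Filter Topology Metric
open Crest.AlgGeometry.Germ Crest.Agent.R257.AJ387 Crest.Agent.R257.T387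
open Crest.Agent.R257.Gr1_157 Crest.Agent.R257.HoB_843 Crest.Agent.R257.BP_258
open Crest.Agent.R257.Frm_547 Crest.Agent.R257.Lab_931 Crest.Agent.R257.Wt_258
open Crest.Agent.R257.V1_82 Crest.Agent.R257.End_636 Crest.Agent.R257.Ta2_980
open Crest.Agent.R257.Rsn_843

noncomputable section

namespace Crest.Agent.R257.Nd_980

variable {f : (Fin 3 → ℂ) → ℂ} {T : TB f} {U : Tub T} {S : Sh T}

lemma PDv_open (c : Ch T.m) : IsOpen (PDv S c) := by
  by_cases h : IsV c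
  · have : PDv S c = {b | ‖b‖ < 2 * S.r c} := by
      ext b; simp [PDv, h]
    rw [this]
    exact isOpen_lt continuous_norm continuous_const
  · have : PDv S c = {b | 0 < ‖b‖} ∩ {b | ‖b‖ < 2 * S.r c} := by
      ext b; simp [PDv, h]
    rw [this]
    exact (isOpen_lt continuous_const continuous_norm).inter
      (isOpen_lt continuous_norm continuous_const)


/-- the section of a tube chart at the points of an end -/
theorem sec_end (hR : RetStmt U) {v : Vtx} {g : ℂ → XV U v} {b : ℂ} (hg : ContinuousAt g b)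
    (D : TC U v (g b)) : ∀ᶠ β in 𝓝 b, D.σ (pV U v (g β)) = g β :=
  hg.tendsto.eventually (D.near hR)

/-- **transfer on the first axis** -/
theorem tr1 (hR : RetStmt U) {c : Ch T.m} (hc : Ok S c) {v : Vtx} (hv : v1 T c = some v)
    {γ : Fin T.d → ℂ → XV U v} (hγ : End1 U S c v γ) {b : ℂ} (hb : b ∈ PDv S c)
    (j : Fin T.d) (D : TC U v (γ j b)) :
    ∀ᶠ p in 𝓝 ((0 : ℂ), b), T.Gen c p → wc S c j p = D.X ((T.map c p).1, W1 c p) ∧
      W1 c p ∈ ball (pV U v (γ j b)) D.r ∧ IsRet U v (wc S c j p) (D.σ (W1 c p)) := by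
  obtain ⟨l1, l2⟩ := hγ.lim j b hb
  have h := D.ident hR (l := 𝓝[{p : ℂ × ℂ | p.1 ≠ 0}] ((0 : ℂ), b)) (X := wc S c j)
    (by rw [eventually_nhdsWithin_iff]; exact l1)
    (fun O hO => by rw [eventually_nhdsWithin_iff]; exact l2 O hO)
  rw [eventually_nhdsWithin_iff] at h
  filter_upwards [h] with p hp hg
  have h1 := hp (gen_fst hg)
  have h2 : wv T v (wc S c j p 1, wc S c j p 2) = W1 c p := W1_eq hc.1 hv hg
  rw [h2] at h1
  exact h1


/-- `w` in a canonical vertex chart -/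
lemma W1_vert {c : Ch T.m} (hc : Ok S c) (hV : IsV c) {p : ℂ × ℂ} (hp : ‖p.1‖ ^ T.M < T.ρ) :
    W1 c p = cx T c + p.2 := by
  obtain ⟨hc1, hc2⟩ := hc
  cases c with
  | edge i k k' => exact absurd hV (by simp [IsV])
  | leg i => exact absurd hV (by simp [IsV])
  | vert i k w₀ =>
    obtain ⟨v, hv, rfl, rfl, hw⟩ := hc2
    simp only [W1, cx]
    rw [hk_ci S hv (mem_ball_zero_iff.2 (by rw [norm_pow]; exact hp)), zero_add]


lemma small_pow {X : Type*} {l : Filter X} {g : X → ℂ} (hg : Tendsto g l (𝓝 0)) :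
    ∀ᶠ x in l, ‖g x‖ ^ T.M < T.ρ := by
  have h1 : Tendsto (fun x => ‖g x‖ ^ T.M) l (𝓝 (‖(0 : ℂ)‖ ^ T.M)) := hg.norm.pow _
  rw [norm_zero, zero_pow T.M_pos.ne'] at h1
  exact h1.eventually (gt_mem_nhds T.ρ_pos)

lemma lx_V {c : Ch T.m} (hV : IsV c) : lx T c = 1 := by
  cases c with
  | edge i k k' => exact absurd hV (by simp [IsV])
  | leg i => exact absurd hV (by simp [IsV])
  | vert i k w₀ => rfl

lemma gen_V {c : Ch T.m} (hV : IsV c) {p : ℂ × ℂ} (h : p.1 ≠ 0) : T.Gen c p := by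
  cases c with
  | edge i k k' => exact absurd hV (by simp [IsV])
  | leg i => exact absurd hV (by simp [IsV])
  | vert i k w₀ => exact h

/-- **the retraction in a canonical vertex chart** -/
theorem ret_vert (hR : RetStmt U) {c : Ch T.m} (hc : Ok S c) (hV : IsV c) {v : Vtx}
    (hv : v1 T c = some v) {γ : Fin T.d → ℂ → XV U v} (hγ : End1 U S c v γ) {b : ℂ}
    (hb : b ∈ PDv S c) (j : Fin T.d) :
    ∀ᶠ p in 𝓝 ((0 : ℂ), b), p.1 ≠ 0 → IsRet U v (wc S c j p) (γ j p.2) := by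
  obtain ⟨D⟩ := exists_TC hR (v1_mem hc.1 hv) (γ j b)
  have hcont : ContinuousAt (γ j) b := (hγ.cont j).continuousAt ((PDv_open c).mem_nhds hb)
  have h2 : Tendsto (fun p : ℂ × ℂ => p.2) (𝓝 ((0 : ℂ), b)) (𝓝 b) := continuous_snd.tendsto _
  have h1 : Tendsto (fun p : ℂ × ℂ => p.1) (𝓝 ((0 : ℂ), b)) (𝓝 0) := continuous_fst.tendsto _
  filter_upwards [tr1 hR hc hv hγ hb j D, h2.eventually (sec_end hR hcont D),
    h2.eventually ((PDv_open c).mem_nhds hb), small_pow (T := T) h1] with p e1 e2 e3 e4 h0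
  have e5 := (e1 (gen_V hV h0)).2.2
  have e6 : W1 c p = pV U v (γ j p.2) := by
    rw [W1_vert hc hV e4, hγ.pr j p.2 e3, lx_V hV, pow_one]
  rw [e6, e2] at e5
  exact e5










end Crest.Agent.R257.Nd_980
end
end

-- ▼ part R257/CDataQ_250

/-!
Row 257, part C, task C-DATA (helper250), file Q: **`nullStmt`**: the literal statement
`ExND_843.NullStmt` from `null_data`.
-/

set_option autoImplicit false
set_option linter.unusedSectionVars false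

noncomputable section

open Set Filter Topology MeasureTheory Metric
open scoped ENNReal

namespace Crest.Agent.R257.CDataQ_250

open Crest.AlgGeometry.Germ Crest.Agent.R257.AJ387 Crest.Agent.R257.T387
open Crest.Agent.R257.Gr1_157 Crest.Agent.R257.HoB_843 Crest.Agent.R257.BP_258
open Crest.Agent.R257.CDataA_250 Crest.Agent.R257.CDataB_250 Crest.Agent.R257.CDataE_250
open Crest.Agent.R257.CDataL_250 Crest.Agent.R257.CDataI_250
open Crest.Agent.R257.Wt_258 Crest.Agent.R257.Rsn_843 Crest.Agent.R257.Exf_843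
open Crest.Agent.R257.FrmE_547 (CB)
open Crest.Agent.R257.FrmF_547

variable {f : (Fin 3 → ℂ) → ℂ} {T : TB f} {U : Tub T} {S : Sh T}

lemma nh_of_nDat {L : Lab U S} {nu : II U → ℤ} {n1 n2 : Ch T.m → Fin T.d → ℤ}
    (J : Jac L nu n1 n2) {E₀ : II U} {y : II U → ℝ} {a : ℕ} {fX : XV U E₀.1.1 → ℂ}
    {H : (Fin 3 → ℂ) → ℂ} {h1 h2 e : Ch T.m → Fin T.d → ℝ}
    (N : NDat L n1 n2 E₀ y a fX H h1 h2 e) : NH L E₀ fX H y n1 n2 h1 h2 e a := by
  refine ⟨N.hol, N.off, ?_, ?_, ?_, ?_, ?_, ?_, ?_, ?_⟩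
  · intro c hc hV hv γ hγ j hj
    obtain ⟨C, r, -, hr, h⟩ := N.f1 c hc hV hv γ hγ j hj
    exact ⟨C, r, hr, h⟩
  · intro c hc hV hv γ hγ j hj
    obtain ⟨C, r, -, hr, h⟩ := N.f2 c hc hv γ hγ j hj
    exact ⟨C, r, hr, h⟩
  · intro c hc j hj
    obtain ⟨C, -, h⟩ := N.Hbd c hc j hj
    refine ⟨C, 1, one_pos, fun p hp => ⟨?_, h p hp.1.le hp.2.1.le hp.2.2.1⟩⟩
    have hr := S.pos c
    exact N.Han c hc j p (by linarith [hp.1]) (by linarith [hp.2.1]) hp.2.2.1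
  · exact fun c hc hV j hj => ⟨N.near1 c hc j hj, N.nearD1 c hc j hj⟩
  · intro c hc hV j hj
    refine ⟨fun hne => ?_, fun hE => ?_, fun hE => ?_⟩
    · cases hE : L.e2 c j with
      | none => exact absurd hE hne
      | some E => exact (N.far2 c hc j hj E hE).1
    · cases hE2 : L.e2 c j with
      | none =>
        exfalso
        have h3 := v2_none hc hE2
        cases c with
        | edge i k k' => simp [v2] at h3
        | leg i => exact hE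
        | vert i k w => exact hE
      | some E => exact (N.far2 c hc j hj E hE2).2
    · refine N.leg c hc hV j hj ?_
      refine e2_none L hc j ?_
      cases c with
      | edge i k k' => exact absurd trivial hE
      | leg i => rfl
      | vert i k w => rfl
  · exact fun c hc hV j hj => ⟨N.near2 c hc j hj, N.nearD2 c hc j hj⟩
  · intro c hc hV j hj
    refine ⟨fun hne => ?_, ?_⟩
    · cases hE : L.e1 c j with
      | none => exact absurd hE hne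
      | some E => exact (N.far1 c hc j hj E hE).1
    · cases hE : L.e1 c j with
      | none =>
        have h3 := N.top c hc j hj hE
        have h4 : (0 : ℝ) ≤ a := Nat.cast_nonneg a
        linarith
      | some E => exact (N.far1 c hc j hj E hE).2
  · intro c hc hV j hj
    refine ⟨N.nearD1 c hc j hj, ?_⟩
    rw [N.h2V c hc hV j, J.vert c hc hV j]
    norm_num

lemma wtk_of_wt0 {L : Lab U S} {y : II U → ℝ} {F : Finset (Ch T.m)} {τ₀ τ : ℝ}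
    {Φ : (Fin 3 → ℂ) → ℝ} {ρ₀ C c₀ : ℝ} (h : WT0 L y F τ₀ Φ ρ₀ C c₀) (hτ : τ₀ ≤ τ) :
    WTk L y F univ τ 1 Φ ρ₀ C c₀ :=
  ⟨h.ρ_pos, h.c_pos, h.psh, fun c hc j _ p hp _ _ => h.lo c hc j p hp,
    fun c hc j _ p hp _ he h3 => h.st1 c hc j p hp he (Or.inr (hτ.trans h3)),
    fun c hc j _ p hp _ he h3 => h.st2 c hc j p hp he (hτ.trans h3)⟩

/-- the origin of a chart -/
lemma map_zero' {c : Ch T.m} (hc : T.Valid c) : T.map c (0 : ℂ × ℂ) = 0 := by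
  rw [T.map_eq_zero hc]
  cases c with
  | edge i k k' => exact Or.inr rfl
  | leg i => rfl
  | vert i k w => rfl

/-- near the origin -/
lemma ev_Og {c : Ch T.m} (hc : T.Valid c) {ρ : ℝ} (hρ : 0 < ρ) :
    ∀ᶠ p : ℂ × ℂ in 𝓝 (0 : ℂ × ℂ), T.Gen c p →
      p ∈ Og (S := S) c ρ ∧ ‖(T.map c p).2‖ < ρ := by
  have hr := S.pos c
  have h0 : (0 : ℂ × ℂ) ∈ BD (2 * S.r c) (2 * S.r c) :=
    mem2 (by simpa using hr.le) (by simpa using hr.le)
  have hcm : ContinuousAt (T.map c) 0 := ((S.sheets c hc).map_an h0).continuousAt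
  have e1 : ∀ᶠ p : ℂ × ℂ in 𝓝 (0 : ℂ × ℂ), ‖T.map c p‖ < ρ :=
    hcm.norm.eventually (gt_mem_nhds (by
      show ‖T.map c 0‖ < ρ
      rw [map_zero' hc, norm_zero]; exact hρ))
  have e2 : ∀ᶠ p : ℂ × ℂ in 𝓝 (0 : ℂ × ℂ), ‖p‖ < S.r c :=
    continuousAt_id.norm.eventually (gt_mem_nhds (by simpa using hr))
  filter_upwards [e1, e2] with p h1 h2 hg
  exact ⟨⟨(norm_fst_le p).trans_lt h2, (norm_snd_le p).trans_lt h2, hg,
    (norm_fst_le _).trans_lt h1⟩, (norm_snd_le _).trans_lt h1⟩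

/-- **THE NULL DATA**, the literal statement -/
theorem nullStmt (L : Lab U S) {nu : II U → ℤ} {n1 n2 : Ch T.m → Fin T.d → ℤ}
    (J : Jac L nu n1 n2) : NullStmt L n1 n2 := by
  intro E₀ y a fX H h1 h2 e N F' hF'
  have hR : RetStmt U := Tb_941.retStmt U
  have hE : EndStmt L := End_636.endStmt L
  obtain ⟨τ, hτ, F₀, hsub₀, hok₀, hmain⟩ := null_data hR hE J (nh_of_nDat J N) F' hF'
  refine ⟨F₀, hok₀, hsub₀, fun F hsub hF τ₁ hτ₁ => ⟨min τ (τ₁ / 2), lt_min hτ (half_pos hτ₁),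
    (min_le_right _ _).trans_lt (half_lt_self hτ₁), fun Φ ρ₀ C c₀ hW => ?_⟩⟩
  obtain ⟨ρ, hρ, hρρ, D, O, κ, hAdm, ht1, ht2, ht3⟩ := hmain F hsub hF Φ ρ₀ C c₀
    (wtk_of_wt0 hW (min_le_left _ _)) hW.sm
  refine ⟨ρ, D, O, κ, hρ, hρρ, hAdm, ?_, ?_, ?_⟩
  · intro c hc hV j hl γ hγ
    have hok := hF' c hc
    have hv := v1_of_some L hok hl
    have hr := S.pos c
    have hb : (0 : ℂ) ∈ PDv S c := ⟨Or.inl hV, by simpa using hr⟩
    filter_upwards [ev_Og (S := S) hok.1 hρ, Nd_980.ret_vert hR hok hV hv hγ hb j] with p q1 q2 hg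
    obtain ⟨q3, q4⟩ := q1 hg
    exact ht1 c hc hV j hl p q3 q4 _ (q2 (CDataB_250.gen_fst hg))
  · intro c hc hV j hl
    have hok := hF' c hc
    filter_upwards [ev_Og (S := S) hok.1 hρ] with p q1 hg
    refine ht2 c hc j hl ?_ p (q1 hg).1
    intro h3
    have h4 := v2_of_some L hok h3
    cases c with
    | edge i k k' => exact hV
    | leg i => exact hV
    | vert i k w => simp [v2] at h4
  · intro c hc hv j
    have hok := hF' c hc
    have hcF : c ∈ F := hsub (hsub₀ hc)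
    obtain ⟨g1, g2⟩ := ht3 c hcF j (e1_none L hok j hv)
    obtain ⟨r, hr, hball⟩ := Metric.eventually_nhds_iff.1 (ev_Og (S := S) hok.1 hρ)
    have hBD : ∀ p ∈ BD r r, T.Gen c p → p ∈ Og (S := S) c ρ ∧ ‖(T.map c p).2‖ < ρ := by
      intro p hp hg
      refine hball ?_ hg
      rw [dist_zero_right, Prod.norm_def]
      exact max_lt hp.1 hp.2
    refine ⟨fun hl => ?_, fun hl => ⟨r, hr, fun p hp hg => g2 hl p (hBD p hp hg).1⟩⟩
    obtain ⟨C', h3⟩ := g1 hl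
    exact ⟨r, hr, C', fun p hp hg => h3 p (hBD p hp hg).1 (hBD p hp hg).2⟩

end Crest.Agent.R257.CDataQ_250
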