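import Crest.Agent.R273.YauC3_812
import Crest.Agent.R266.Osgood
import Crest.Agent.R273.YauMax_635
import Crest.Agent.R273.C2e_793
import Crest.Agent.R273.FS_333

-- ▼ part R257/CLA_39
section

/-!
# Row 257 (S0395), leaf E-CL (helper39), part A: the Chern-Lu identity in jets

`G = u_{i j̄}`, `H = G⁻¹`, `f = log det G`, holomorphic one-forms `β k`, `γ k = conj (β k)`,
`S = ∑ H b a * β k a * γ k b = ∑ |β k|²_g`.  At a point with `G = 1`:

`Δ S = ∑ |∇β|² - ∑ f_{b ā} β_a γ_b`,  `∂_p S = ∑ (∇_p β)_b γ_b`.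
-/

set_option autoImplicit false

namespace Crest.Agent.R257.CLA_39

open Finset Matrix Crest.Agent.R273.YJet_812

variable {n : ℕ} {R : Type*} [CommRing R] [Algebra ℂ R] (J : Jet n R)


variable {J}

theorem ev_H {u : R} {H : Matrix (Fin n) (Fin n) R} (hH : J.Gm u * H = 1)
    (hG : mE J.ev (J.Gm u) = 1) (x y : Fin n) : J.ev (H x y) = if x = y then 1 else 0 := by
  have := congrFun (congrFun (ev_inv hH hG) x) y
  simpa [mE, Matrix.one_apply] using this

theorem ev_dH {u : R} {H : Matrix (Fin n) (Fin n) R} (hH : J.Gm u * H = 1)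
    (hG : mE J.ev (J.Gm u) = 1) (d : Derivation ℂ R R) (x y : Fin n) :
    J.ev (d (H x y)) = - J.ev (d (J.Gm u x y)) := by
  have := congrFun (congrFun (ev_mD_inv d hH hG) x) y
  simpa [mE, mD] using this

/-- the traced curvature of the cotangent bundle -/
theorem curv {u f : R} {H : Matrix (Fin n) (Fin n) R} (hH : J.Gm u * H = 1)
    (hG : mE J.ev (J.Gm u) = 1) (hf : ∀ p, J.B p f = trace (H * mD (J.B p) (J.Gm u)))
    (a b : Fin n) :
    ∑ p, J.ev (J.D p (J.B p (H b a))) = - J.ev (J.D b (J.B a f))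
      + ∑ p, ∑ c, J.ev (J.B p (J.Gm u b c)) * J.ev (J.D p (J.Gm u c a)) := by
  have h1 : ∀ p, J.ev (J.D p (J.B p (H b a))) =
      ∑ c, J.ev (J.D p (J.Gm u b c)) * J.ev (J.B p (J.Gm u c a))
      - J.ev (J.D p (J.B p (J.Gm u b a)))
      + ∑ c, J.ev (J.B p (J.Gm u b c)) * J.ev (J.D p (J.Gm u c a)) := by
    intro p
    have := congrFun (congrFun (ev_mD2_inv (J.B p) (J.D p) hH hG) b) a
    simpa [mE, mD, Matrix.mul_apply] using this
  have h2 := ev_log2 (J.D b) (J.B a) hH hG (hf a)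
  have h3 : trace (mE J.ev (mD (J.D b) (mD (J.B a) (J.Gm u))))
      = ∑ p, J.ev (J.D p (J.B p (J.Gm u b a))) := by
    simp only [trace, Matrix.diag, mE, mD, Matrix.map_apply]
    refine Finset.sum_congr rfl fun q _ => ?_
    simp only [J.Gm_apply, ← J.DB]
    rw [J.DD q b, J.BB q a]
  have h4 : trace (mE J.ev (mD (J.D b) (J.Gm u)) * mE J.ev (mD (J.B a) (J.Gm u)))
      = ∑ p, ∑ c, J.ev (J.D p (J.Gm u b c)) * J.ev (J.B p (J.Gm u c a)) := by
    simp only [trace, Matrix.diag, mE, mD, Matrix.map_apply, Matrix.mul_apply]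
    refine Finset.sum_congr rfl fun q _ => Finset.sum_congr rfl fun x _ => ?_
    simp only [J.Gm_apply, ← J.DB]
    rw [J.DD q b, J.BB q a]
  rw [h2, h3, h4]
  simp only [h1, Finset.sum_add_distrib, Finset.sum_sub_distrib]
  ring

section forms

variable {ι : Type*} [Fintype ι] {u f : R} {H : Matrix (Fin n) (Fin n) R} (hH : J.Gm u * H = 1)
  (hG : mE J.ev (J.Gm u) = 1) (hf : ∀ p, J.B p f = trace (H * mD (J.B p) (J.Gm u)))
  (β γ : ι → Fin n → R) (hβ : ∀ q k a, J.B q (β k a) = 0) (hγ : ∀ q k a, J.D q (γ k a) = 0)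

/-- `∑ |β k|²_g` -/
def Sf (H : Matrix (Fin n) (Fin n) R) (β γ : ι → Fin n → R) : R :=
  ∑ k, ∑ a, ∑ b, H b a * (β k a * γ k b)

/-- `(∇_p β_k)_b` -/
def Ef (J : Jet n R) (u : R) (β : ι → Fin n → R) (k : ι) (p b : Fin n) : ℂ :=
  J.ev (J.D p (β k b)) - ∑ a, J.ev (β k a) * J.ev (J.D p (J.Gm u b a))

/-- `(∇̄_p γ_k)_b` -/
def Ff (J : Jet n R) (u : R) (γ : ι → Fin n → R) (k : ι) (p b : Fin n) : ℂ :=
  J.ev (J.B p (γ k b)) - ∑ a, J.ev (J.B p (J.Gm u a b)) * J.ev (γ k a)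

include hH hG in
theorem ev_Sf : J.ev (Sf H β γ) = ∑ k, ∑ b, J.ev (β k b) * J.ev (γ k b) := by
  simp only [Sf, map_sum, map_mul, ev_H hH hG, ite_mul, one_mul, zero_mul, Finset.sum_ite_eq',
    Finset.mem_univ, if_true]

include hH hG hγ in
theorem D_Sf (p : Fin n) :
    J.ev (J.D p (Sf H β γ)) = ∑ k, ∑ b, Ef J u β k p b * J.ev (γ k b) := by
  have h1 : ∀ k a b, J.ev (J.D p (H b a * (β k a * γ k b))) =
      (if b = a then 1 else 0) * (J.ev (J.D p (β k a)) * J.ev (γ k b))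
      - J.ev (J.D p (J.Gm u b a)) * (J.ev (β k a) * J.ev (γ k b)) := by
    intro k a b
    simp only [Derivation.leibniz, smul_eq_mul, hγ, mul_zero, zero_add, map_add, map_mul,
      ev_H hH hG, ev_dH hH hG]
    ring
  simp only [Sf, map_sum, h1, Finset.sum_sub_distrib, ite_mul, one_mul, zero_mul,
    Finset.sum_ite_eq', Finset.mem_univ, if_true]
  rw [← Finset.sum_sub_distrib]
  refine Finset.sum_congr rfl fun k _ => ?_
  rw [Finset.sum_comm (s := univ) (t := univ)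
    (f := fun a b => J.ev (J.D p (J.Gm u b a)) * (J.ev (β k a) * J.ev (γ k b))),
    ← Finset.sum_sub_distrib]
  refine Finset.sum_congr rfl fun b _ => ?_
  rw [Ef, sub_mul, Finset.sum_mul]
  congr 1
  refine Finset.sum_congr rfl fun a _ => ?_
  ring


include hH hG hf hβ hγ in
/-- **Bochner formula** -/
theorem lap_Sf :
    ∑ p, J.ev (J.D p (J.B p (Sf H β γ))) =
      ∑ k, ∑ p, ∑ b, Ef J u β k p b * Ff J u γ k p b
      - ∑ k, ∑ a, ∑ b, J.ev (J.D b (J.B a f)) * (J.ev (β k a) * J.ev (γ k b)) := by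
  have h1 : ∀ p k a b, J.ev (J.D p (J.B p (H b a * (β k a * γ k b)))) =
      J.ev (J.D p (J.B p (H b a))) * (J.ev (β k a) * J.ev (γ k b))
      - J.ev (J.B p (J.Gm u b a)) * (J.ev (J.D p (β k a)) * J.ev (γ k b))
      - J.ev (J.D p (J.Gm u b a)) * (J.ev (β k a) * J.ev (J.B p (γ k b)))
      + (if b = a then 1 else 0) * (J.ev (J.D p (β k a)) * J.ev (J.B p (γ k b))) := by
    intro p k a b
    rw [J.DB_prod p (hβ p k a) (hγ p k b)]
    simp only [map_add, map_mul, ev_H hH hG, ev_dH hH hG]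
    ring
  have h2 : ∀ k, ∑ p, ∑ a, ∑ b, J.ev (J.D p (J.B p (H b a * (β k a * γ k b)))) =
      ∑ p, ∑ b, Ef J u β k p b * Ff J u γ k p b
      - ∑ a, ∑ b, J.ev (J.D b (J.B a f)) * (J.ev (β k a) * J.ev (γ k b)) := by
    intro k
    simp only [h1, Finset.sum_add_distrib, Finset.sum_sub_distrib, ite_mul, one_mul, zero_mul,
      Finset.sum_ite_eq', Finset.mem_univ, if_true]
    -- the curvature term
    have e1 : ∑ p, ∑ a, ∑ b, J.ev (J.D p (J.B p (H b a))) * (J.ev (β k a) * J.ev (γ k b))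
        = - (∑ a, ∑ b, J.ev (J.D b (J.B a f)) * (J.ev (β k a) * J.ev (γ k b)))
          + ∑ p, ∑ a, ∑ b, ∑ c, J.ev (J.B p (J.Gm u b c)) * J.ev (J.D p (J.Gm u c a))
            * (J.ev (β k a) * J.ev (γ k b)) := by
      rw [Finset.sum_comm (s := univ) (t := univ)
        (f := fun p a => ∑ b, J.ev (J.D p (J.B p (H b a))) * (J.ev (β k a) * J.ev (γ k b))),
        Finset.sum_comm (s := univ) (t := univ)
        (f := fun p a => ∑ b, ∑ c, J.ev (J.B p (J.Gm u b c)) * J.ev (J.D p (J.Gm u c a))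
            * (J.ev (β k a) * J.ev (γ k b))), ← Finset.sum_neg_distrib, ← Finset.sum_add_distrib]
      refine Finset.sum_congr rfl fun a _ => ?_
      rw [Finset.sum_comm (s := univ) (t := univ)
        (f := fun p b => J.ev (J.D p (J.B p (H b a))) * (J.ev (β k a) * J.ev (γ k b))),
        Finset.sum_comm (s := univ) (t := univ)
        (f := fun p b => ∑ c, J.ev (J.B p (J.Gm u b c)) * J.ev (J.D p (J.Gm u c a))
            * (J.ev (β k a) * J.ev (γ k b))), ← Finset.sum_neg_distrib, ← Finset.sum_add_distrib]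
      refine Finset.sum_congr rfl fun b _ => ?_
      rw [← Finset.sum_mul, curv hH hG hf]
      rw [add_mul, neg_mul, Finset.sum_mul]
      congr 1
      refine Finset.sum_congr rfl fun p _ => ?_
      rw [Finset.sum_mul]
    have e2 : ∀ p, ∑ b, Ef J u β k p b * Ff J u γ k p b
        = ∑ b, J.ev (J.D p (β k b)) * J.ev (J.B p (γ k b))
          - ∑ a, ∑ b, J.ev (J.B p (J.Gm u b a)) * (J.ev (J.D p (β k a)) * J.ev (γ k b))
          - ∑ a, ∑ b, J.ev (J.D p (J.Gm u b a)) * (J.ev (β k a) * J.ev (J.B p (γ k b)))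
          + ∑ a, ∑ b, ∑ c, J.ev (J.B p (J.Gm u b c)) * J.ev (J.D p (J.Gm u c a))
            * (J.ev (β k a) * J.ev (γ k b)) := by
      intro p
      have e3 : ∑ a, ∑ b, J.ev (J.D p (J.Gm u b a)) * (J.ev (β k a) * J.ev (J.B p (γ k b)))
          = ∑ b, (∑ a, J.ev (β k a) * J.ev (J.D p (J.Gm u b a))) * J.ev (J.B p (γ k b)) := by
        rw [Finset.sum_comm]
        refine Finset.sum_congr rfl fun b _ => ?_
        rw [Finset.sum_mul]
        exact Finset.sum_congr rfl fun a _ => by ring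
      have e4 : ∑ a, ∑ b, J.ev (J.B p (J.Gm u b a)) * (J.ev (J.D p (β k a)) * J.ev (γ k b))
          = ∑ b, J.ev (J.D p (β k b)) * ∑ a, J.ev (J.B p (J.Gm u a b)) * J.ev (γ k a) := by
        refine Finset.sum_congr rfl fun b _ => ?_
        rw [Finset.mul_sum]
        exact Finset.sum_congr rfl fun a _ => by ring
      have e5 : ∑ a, ∑ b, ∑ c, J.ev (J.B p (J.Gm u b c)) * J.ev (J.D p (J.Gm u c a))
            * (J.ev (β k a) * J.ev (γ k b))
          = ∑ c, (∑ a, J.ev (β k a) * J.ev (J.D p (J.Gm u c a)))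
            * ∑ b, J.ev (J.B p (J.Gm u b c)) * J.ev (γ k b) := by
        have : ∀ c, (∑ a, J.ev (β k a) * J.ev (J.D p (J.Gm u c a)))
            * ∑ b, J.ev (J.B p (J.Gm u b c)) * J.ev (γ k b)
            = ∑ a, ∑ b, J.ev (J.B p (J.Gm u b c)) * J.ev (J.D p (J.Gm u c a))
            * (J.ev (β k a) * J.ev (γ k b)) := by
          intro c
          rw [Finset.sum_mul_sum]
          exact Finset.sum_congr rfl fun a _ => Finset.sum_congr rfl fun b _ => by ring
        simp only [this]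
        rw [Finset.sum_comm (s := univ) (t := univ)
          (f := fun c a => ∑ b, J.ev (J.B p (J.Gm u b c)) * J.ev (J.D p (J.Gm u c a))
            * (J.ev (β k a) * J.ev (γ k b)))]
        refine Finset.sum_congr rfl fun a _ => ?_
        rw [Finset.sum_comm]
      rw [e3, e4, e5, ← Finset.sum_sub_distrib, ← Finset.sum_sub_distrib, ← Finset.sum_add_distrib]
      refine Finset.sum_congr rfl fun b _ => ?_
      rw [Ef, Ff]
      ring
    rw [e1]
    simp only [e2, Finset.sum_add_distrib, Finset.sum_sub_distrib]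
    ring
  have h3 : ∑ p, J.ev (J.D p (J.B p (Sf H β γ)))
      = ∑ k, ∑ p, ∑ a, ∑ b, J.ev (J.D p (J.B p (H b a * (β k a * γ k b)))) := by
    rw [Finset.sum_comm]
    refine Finset.sum_congr rfl fun p _ => ?_
    simp only [Sf, map_sum]
  rw [h3]
  simp only [h2, Finset.sum_sub_distrib]

end forms

end Crest.Agent.R257.CLA_39
end

-- ▼ part R257/CLB_39
section

/-!
# Row 257 (S0395), leaf E-CL (helper39), part B: the Chern-Lu inequality at a point, in the algebra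
of smooth functions

`core` : if `det u_{i j̄} = c₀ e^f`, `∂∂̄ f ≤ K ∂∂̄ u` and `e^L = ∑ |β_k|²_g` with holomorphic one-forms
`β_k`, then `Δ_g L ≥ -K`.
-/

set_option autoImplicit false
set_option linter.unusedSectionVars false

open Set Filter Topology Complex
open scoped ContDiff ComplexConjugate

namespace Crest.Agent.R257.CLB_39

open Crest.Agent.R273.YSm_812 Crest.Agent.R273.YJet_812 Crest.Agent.R273.YC3_812
open Crest.Agent.R257.CLA_39

variable {n : ℕ} {ι : Type*} [Fintype ι] {V : Type*} [NormedAddCommGroup V] [NormedSpace ℂ V] {Ω : Set V}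

theorem DAB_exp (hΩ : IsOpen Ω) {S L : Sm Ω} (h : ∀ z : Ω, S.1 z = exp (L.1 z)) (a b : ℂ)
    (ξ : V) : DAB hΩ a b ξ S = S * DAB hΩ a b ξ L := by
  refine Sm.ext' fun z => ?_
  show dab a b ξ (ex S.1) z = S.1 z * dab a b ξ (ex L.1) z
  have e : ∀ ζ : V, dr ζ (ex S.1) z = S.1 z * dr ζ (ex L.1) z := by
    intro ζ
    have h1 := dr_exp hΩ L 1 ζ z
    rw [one_mul] at h1
    rw [h z, ← h1]
    exact dr_congr hΩ (fun w hw => by
      rw [ex_of_mem _ hw, ex_of_mem _ hw, one_mul]; exact h ⟨w, hw⟩) z.2 ζ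
  simp only [dab, e]
  ring

theorem D_exp (hΩ : IsOpen Ω) {S L : Sm Ω} (h : ∀ z : Ω, S.1 z = exp (L.1 z)) (ξ : V) :
    D hΩ ξ S = S * D hΩ ξ L := DAB_exp hΩ h _ _ _

theorem B_exp (hΩ : IsOpen Ω) {S L : Sm Ω} (h : ∀ z : Ω, S.1 z = exp (L.1 z)) (ξ : V) :
    B hΩ ξ S = S * B hΩ ξ L := DAB_exp hΩ h _ _ _

variable [FiniteDimensional ℂ V]

/-- the entries of the forms in a frame -/
abbrev bt (β : ι → V →ₗ[ℂ] Sm Ω) (w : Fin n → V) : ι → Fin n → Sm Ω :=
  fun k a => β k (w a)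

abbrev ct (β : ι → V →ₗ[ℂ] Sm Ω) (w : Fin n → V) : ι → Fin n → Sm Ω :=
  fun k a => cj (β k (w a))

theorem Ff_eq (hΩ : IsOpen Ω) {u : Sm Ω} (hu : cj u = u) (w : Fin n → V) (O : Ω)
    (β : ι → V →ₗ[ℂ] Sm Ω) (k : ι) (p b : Fin n) :
    Ff (jet hΩ w O) u (ct β w) k p b = conj (Ef (jet hΩ w O) u (bt β w) k p b) := by
  have h1 : ∀ a b, (jet hΩ w O).ev ((jet hΩ w O).B p ((jet hΩ w O).Gm u a b)) =
      conj ((jet hΩ w O).ev ((jet hΩ w O).D p ((jet hΩ w O).Gm u b a))) := by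
    intro a b
    show (B hΩ (w p) (U2 hΩ u (w a) (w b))).1 O = (cj (D hΩ (w p) (U2 hΩ u (w b) (w a)))).1 O
    rw [← B_cj, cj_U2 hΩ hu]
  have h2 : ∀ b, (jet hΩ w O).ev ((jet hΩ w O).B p (ct β w k b)) =
      conj ((jet hΩ w O).ev ((jet hΩ w O).D p (bt β w k b))) := by
    intro b
    show (B hΩ (w p) (cj (β k (w b)))).1 O = (cj (D hΩ (w p) (β k (w b)))).1 O
    rw [← B_cj]
  rw [Ff, Ef, map_sub, map_sum, h2]
  congr 1
  refine Finset.sum_congr rfl fun a _ => ?_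
  rw [map_mul, h1, mul_comm]
  rfl

theorem core (hΩ : IsOpen Ω) {u f : Sm Ω} (hu : cj u = u)
    (e w : Module.Basis (Fin n) ℂ V) (O : Ω)
    (hw : ∀ a b, (U2 hΩ u (w a) (w b)).1 O = if a = b then 1 else 0)
    {c0 : ℂ} (hc0 : c0 ≠ 0)
    (hdet : ∀ z : Ω, ((Matrix.of fun i j => U2 hΩ u (e i) (e j)).det).1 z = c0 * exp (f.1 z))
    {K : ℝ} (hf : ∀ ξ : V, ((U2 hΩ f ξ ξ).1 O).re ≤ K * ((U2 hΩ u ξ ξ).1 O).re)
    (β : ι → V →ₗ[ℂ] Sm Ω) (hβ : ∀ k ξ η, B hΩ η (β k ξ) = 0)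
    {L : Sm Ω} (hL : cj L = L) {H : Matrix (Fin n) (Fin n) (Sm Ω)}
    (hH : (jet hΩ w O).Gm u * H = 1)
    (hS : ∀ z : Ω, (Sf H (bt β w) (ct β w)).1 z = exp (L.1 z)) :
    -K ≤ ∑ p, ((U2 hΩ L (w p) (w p)).1 O).re := by
  classical
  set J := jet hΩ w O with hJ
  -- `log det` in the frame
  obtain ⟨c, hc, hdet'⟩ := det_frame hΩ e w u
  have hdw : ∀ z : Ω, ((J.Gm u).det).1 z = (c * c0) * exp (f.1 z) := by
    intro z
    have h2 := hdet' z
    rw [hdet z] at h2
    rw [mul_assoc]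
    exact h2
  have hlog : ∀ p, J.B p f = Matrix.trace (H * mD (J.B p) (J.Gm u)) := fun p =>
    dlog hΩ hH (mul_ne_zero hc hc0) f hdw _ _ _
  have hG : mE J.ev (J.Gm u) = 1 := by
    ext a b
    show (U2 hΩ u (w a) (w b)).1 O = _
    rw [hw, Matrix.one_apply]
  have hβ' : ∀ q k a, J.B q (bt β w k a) = 0 := fun q k a => hβ k _ _
  have hγ' : ∀ q k a, J.D q (ct β w k a) = 0 := by
    intro q k a
    show D hΩ (w q) (cj (β k (w a))) = 0
    rw [D_cj, hβ]
    exact Sm.ext' fun z => by simp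
  set S : Sm Ω := Sf H (bt β w) (ct β w) with hSdef
  -- values
  set s : ℝ := ∑ k, ∑ b, ‖(β k (w b)).1 O‖ ^ 2 with hs
  have hnorm : ∀ x : ℂ, x * conj x = ((‖x‖ ^ 2 : ℝ) : ℂ) := fun x => by
    rw [mul_conj, normSq_eq_norm_sq]
  have hSO : S.1 O = (s : ℂ) := by
    have h1 := ev_Sf (J := J) hH hG (bt β w) (ct β w)
    rw [hs]
    push_cast
    refine Eq.trans h1 ?_
    refine Finset.sum_congr rfl fun k _ => Finset.sum_congr rfl fun b _ => ?_
    have := hnorm ((β k (w b)).1 O)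
    push_cast at this
    exact this
  have hspos : 0 < s := by
    have h1 := hS O
    rw [hSO, re_eq hL O, ← ofReal_exp] at h1
    have h2 : s = Real.exp (L.1 O).re := by exact_mod_cast h1
    rw [h2]; exact Real.exp_pos _
  set x : Fin n → ℂ := fun p => (D hΩ (w p) L).1 O with hx
  have hxB : ∀ p, (B hΩ (w p) L).1 O = conj (x p) := by
    intro p
    have : B hΩ (w p) L = cj (D hΩ (w p) L) := by rw [← B_cj, hL]
    rw [this]; rfl
  set l : Fin n → ℂ := fun p => (U2 hΩ L (w p) (w p)).1 O with hl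
  have hDS : ∀ p, J.ev (J.D p S) = s * x p := by
    intro p
    show (D hΩ (w p) S).1 O = _
    rw [D_exp hΩ hS]
    show S.1 O * (D hΩ (w p) L).1 O = _
    rw [hSO]
  have hDBS : ∀ p, J.ev (J.D p (J.B p S)) = s * (l p + x p * conj (x p)) := by
    intro p
    show (D hΩ (w p) (B hΩ (w p) S)).1 O = _
    rw [B_exp hΩ hS, Derivation.leibniz, D_exp hΩ hS]
    show S.1 O * (D hΩ (w p) (B hΩ (w p) L)).1 O + (B hΩ (w p) L).1 O * (S.1 O * (D hΩ (w p) L).1 O)
      = _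
    rw [hSO, hxB]
    show (s : ℂ) * l p + conj (x p) * (s * x p) = _
    ring
  -- the identities
  set E : ι → Fin n → Fin n → ℂ := Ef J u (bt β w) with hE
  have hF : ∀ k p b, Ff J u (ct β w) k p b = conj (E k p b) := fun k p b =>
    Ff_eq hΩ hu w O β k p b
  have hlap := lap_Sf (J := J) hH hG hlog (bt β w) (ct β w) hβ' hγ'
  have hdS : ∀ p, (s : ℂ) * x p = ∑ k, ∑ b, E k p b * conj ((β k (w b)).1 O) := by
    intro p
    rw [← hDS p]
    exact D_Sf (J := J) hH hG (bt β w) (ct β w) hγ' p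
  -- the Ricci term
  set ξ : ι → V := fun k => ∑ b, conj ((β k (w b)).1 O) • w b with hξ
  have hric : ∑ k, ∑ a, ∑ b, J.ev (J.D b (J.B a f)) * (J.ev (bt β w k a) * J.ev (ct β w k b))
      = ∑ k, (U2 hΩ f (ξ k) (ξ k)).1 O := by
    refine Finset.sum_congr rfl fun k _ => ?_
    rw [hξ]
    simp only
    rw [U2_expand, Finset.sum_comm]
    refine Finset.sum_congr rfl fun b _ => Finset.sum_congr rfl fun a _ => ?_
    rw [conj_conj]
    show (U2 hΩ f (w b) (w a)).1 O * ((β k (w a)).1 O * conj ((β k (w b)).1 O)) = _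
    ring
  have hricle : (∑ k, (U2 hΩ f (ξ k) (ξ k)).1 O).re ≤ K * s := by
    rw [re_sum, hs, Finset.mul_sum]
    refine Finset.sum_le_sum fun k _ => ?_
    refine (hf (ξ k)).trans (le_of_eq ?_)
    congr 1
    have h1 : (U2 hΩ u (ξ k) (ξ k)).1 O = ((∑ b, ‖(β k (w b)).1 O‖ ^ 2 : ℝ) : ℂ) := by
      rw [hξ]
      simp only
      rw [U2_expand]
      simp only [hw, mul_ite, mul_one, mul_zero, Finset.sum_ite_eq, Finset.mem_univ, if_true]
      push_cast
      refine Finset.sum_congr rfl fun b _ => ?_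
      rw [conj_conj, mul_comm]
      have := hnorm ((β k (w b)).1 O)
      push_cast at this
      exact this
    rw [h1, ofReal_re]
  -- Cauchy-Schwarz
  have hcs : ∀ p, s * ‖x p‖ ^ 2 ≤ ∑ k, ∑ b, ‖E k p b‖ ^ 2 := by
    intro p
    have h1 : ‖(s : ℂ) * x p‖ ^ 2 ≤ (∑ k, ∑ b, ‖E k p b‖ ^ 2) * s := by
      rw [hdS p, ← Finset.sum_product', ← Finset.sum_product' (f := fun k b => ‖E k p b‖ ^ 2), hs,
        ← Finset.sum_product' (f := fun k b => ‖(β k (w b)).1 O‖ ^ 2)]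
      refine (cs _ (fun i : ι × Fin n => E i.1 p i.2)
        (fun i => conj ((β i.1 (w i.2)).1 O))).trans (le_of_eq ?_)
      simp only [norm_conj]
    rw [norm_mul, norm_real, Real.norm_eq_abs, mul_pow, sq_abs] at h1
    have h2 : s * (s * ‖x p‖ ^ 2) ≤ s * ∑ k, ∑ b, ‖E k p b‖ ^ 2 := by nlinarith [h1]
    exact le_of_mul_le_mul_left h2 hspos
  -- real part of the Bochner formula
  have hre : s * (∑ p, ((l p).re + ‖x p‖ ^ 2)) = ∑ k, ∑ p, ∑ b, ‖E k p b‖ ^ 2
      - (∑ k, (U2 hΩ f (ξ k) (ξ k)).1 O).re := by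
    have h1 : ∑ p, J.ev (J.D p (J.B p S)) = ((s * ∑ p, ((l p).re + ‖x p‖ ^ 2) : ℝ) : ℂ) := by
      simp only [hDBS]
      push_cast
      rw [Finset.mul_sum]
      refine Finset.sum_congr rfl fun p _ => ?_
      have h2 : l p = ((l p).re : ℂ) := re_eq (cj_U2 hΩ hL (w p) (w p)) O
      have h3 := hnorm (x p)
      push_cast at h3
      rw [h3]
      conv_lhs => rw [h2]
    rw [h1, hric] at hlap
    have h4 : ∑ k, ∑ p, ∑ b, Ef J u (bt β w) k p b * Ff J u (ct β w) k p b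
        = ((∑ k, ∑ p, ∑ b, ‖E k p b‖ ^ 2 : ℝ) : ℂ) := by
      push_cast
      refine Finset.sum_congr rfl fun k _ => Finset.sum_congr rfl fun p _ =>
        Finset.sum_congr rfl fun b _ => ?_
      rw [hF]
      have := hnorm (E k p b)
      push_cast at this
      exact this
    rw [h4] at hlap
    have h5 := congrArg Complex.re hlap
    rw [ofReal_re, sub_re, ofReal_re] at h5
    exact h5
  have hsum : ∑ p, s * ‖x p‖ ^ 2 ≤ ∑ k, ∑ p, ∑ b, ‖E k p b‖ ^ 2 := by
    rw [Finset.sum_comm]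
    exact Finset.sum_le_sum fun p _ => hcs p
  have hfin : s * (-K) ≤ s * ∑ p, (l p).re := by
    have h1 : s * (∑ p, ((l p).re + ‖x p‖ ^ 2)) = s * (∑ p, (l p).re) + ∑ p, s * ‖x p‖ ^ 2 := by
      rw [Finset.sum_add_distrib, mul_add, Finset.mul_sum (f := fun p => ‖x p‖ ^ 2)]
    linarith [hre, hricle, hsum, h1]
  exact le_of_mul_le_mul_left hfin hspos

end Crest.Agent.R257.CLB_39
end

-- ▼ part R257/CLC_39
section

/-!
# Row 257 (S0395), leaf E-CL (helper39), part C: the Chern-Lu inequality for real functions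

`trH u p z = tr ((∂∂̄u)⁻¹ ∂∂̄p)` (`= Δ_ω p`, `ω = i∂∂̄u`).  If `det ∂∂̄u = e^f`, `∂∂̄f ≤ K ∂∂̄u` and
`∂∂̄p = e^{-om} ∑ β_k β_k^*` with holomorphic `β_k`, then `Δ log Δp ≥ -K - Δ om` where `Δ p > 0`.
-/

set_option autoImplicit false
set_option linter.unusedSectionVars false

open Set Filter Topology Complex
open scoped ContDiff ComplexConjugate Matrix

namespace Crest.Agent.R257.CLC_39

open Crest.Agent.R273.YSm_812 Crest.Agent.R273.YJet_812 Crest.Agent.R273.YC3_812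
open Crest.Agent.R273.YauC3_812 Crest.Agent.R273.Defs_333 Crest.Agent.R273.YauDefs_635
open Crest.Agent.R257.CLA_39 Crest.Agent.R257.CLB_39

variable {n : ℕ} {ι : Type*} [Fintype ι]

/-- `Δ_ω p` for `ω = i∂∂̄u` -/
noncomputable def trH (u p : W n → ℝ) (z : W n) : ℝ := (((cH u z)⁻¹ * cH p z).trace).re

/-! ### linear algebra -/

theorem trace_congr_frame (C G P : Matrix (Fin n) (Fin n) ℂ) (hC : IsUnit C.det) :
    ((C * G * Cᴴ)⁻¹ * (C * P * Cᴴ)).trace = (G⁻¹ * P).trace := by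
  have hCH : IsUnit (Cᴴ).det := by
    rw [Matrix.det_conjTranspose]
    exact hC.star
  rw [Matrix.mul_inv_rev, Matrix.mul_inv_rev]
  have h1 : (Cᴴ)⁻¹ * (G⁻¹ * C⁻¹) * (C * P * Cᴴ) = (Cᴴ)⁻¹ * (G⁻¹ * P * Cᴴ) := by
    calc (Cᴴ)⁻¹ * (G⁻¹ * C⁻¹) * (C * P * Cᴴ) = (Cᴴ)⁻¹ * (G⁻¹ * ((C⁻¹ * C) * P) * Cᴴ) := by
          simp only [Matrix.mul_assoc]
      _ = _ := by rw [Matrix.nonsing_inv_mul C hC, Matrix.one_mul]
  rw [h1, Matrix.trace_mul_comm, Matrix.mul_assoc, Matrix.mul_nonsing_inv _ hCH, Matrix.mul_one]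

theorem trace_real {G P : Matrix (Fin n) (Fin n) ℂ} (hG : G.IsHermitian) (hP : P.IsHermitian) :
    ((G⁻¹ * P).trace).im = 0 := by
  have h1 : (starRingEnd ℂ) ((G⁻¹ * P).trace) = (G⁻¹ * P).trace := by
    have h2 := Matrix.trace_conjTranspose (G⁻¹ * P)
    rw [Matrix.conjTranspose_mul, hP.eq, hG.inv.eq, Matrix.trace_mul_comm] at h2
    exact h2.symm
  exact Complex.conj_eq_iff_im.1 h1

/-! ### the algebra and real functions -/

theorem hermitian_cH {U : Set (W n)} (hU : IsOpen U) {u : W n → ℝ} (hu : ContDiffOn ℝ ∞ u U)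
    {z : W n} (hz : z ∈ U) : (cH u z).IsHermitian := by
  ext a b
  rw [Matrix.conjTranspose_apply, cH_eq hU hu ⟨z, hz⟩, cH_eq hU hu ⟨z, hz⟩]
  exact conj_U2 hU (cj_rl u hu) _ _ _

/-- the matrix of `∂∂̄u` in a frame -/
noncomputable def fm {Ω : Set (W n)} (hΩ : IsOpen Ω) (u : Sm Ω) (w : Fin n → W n) (z : Ω) :
    Matrix (Fin n) (Fin n) ℂ := Matrix.of fun i j => (U2 hΩ u (w i) (w j)).1 z

theorem fm_eb {Ω : Set (W n)} (hΩ : IsOpen Ω) {u : W n → ℝ} (hu : ContDiffOn ℝ ∞ u Ω) (z : Ω) :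
    fm hΩ (rl u hu) (eb n) z = cH u z := by
  ext a b
  rw [cH_eq hΩ hu z]
  rfl

theorem fm_frame {Ω : Set (W n)} (hΩ : IsOpen Ω) (w : Module.Basis (Fin n) ℂ (W n)) :
    ∃ C : Matrix (Fin n) (Fin n) ℂ, IsUnit C.det ∧ ∀ (u : Sm Ω) (z : Ω),
      fm hΩ u w z = C * fm hΩ u (eb n) z * Cᴴ := by
  let C : Matrix (Fin n) (Fin n) ℂ := ((eb n).toMatrix w).transpose
  have hC : C.det ≠ 0 := by
    rw [Matrix.det_transpose]
    have : Invertible ((eb n).toMatrix w) := (eb n).invertibleToMatrix w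
    exact (Matrix.isUnit_det_of_invertible ((eb n).toMatrix w)).ne_zero
  refine ⟨C, isUnit_iff_ne_zero.2 hC, fun u z => ?_⟩
  have hw : ∀ a, w a = ∑ i, C a i • eb n i := fun a => by
    have := (eb n).sum_toMatrix_smul_self w a
    rw [← this]
    rfl
  ext a b
  rw [fm, Matrix.of_apply, hw a, hw b, U2_expand]
  simp only [fm, Matrix.mul_apply, Matrix.conjTranspose_apply, Matrix.of_apply, Finset.sum_mul]
  rw [Finset.sum_comm]
  refine Finset.sum_congr rfl fun i _ => Finset.sum_congr rfl fun j _ => ?_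
  simp only [RCLike.star_def]
  ring

/-- a holomorphic function in the algebra -/
theorem contDiffOn_of_hol {Ω : Set (W n)} (hΩ : IsOpen Ω) {g : W n → ℂ}
    (hg : DifferentiableOn ℂ g Ω) : ContDiffOn ℝ ∞ g Ω := by
  have h1 : AnalyticOnNhd ℂ g Ω := Crest.Agent.R266.SCV.analyticOnNhd_of_differentiableOn hΩ hg
  have h2 : ContDiffOn ℂ ∞ g Ω := h1.contDiffOn hΩ.uniqueDiffOn
  exact h2.restrict_scalars ℝ

theorem B_hol {Ω : Set (W n)} (hΩ : IsOpen Ω) {g : W n → ℂ} (hg : DifferentiableOn ℂ g Ω)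
    (η : W n) : B hΩ η (mk g (contDiffOn_of_hol hΩ hg)) = 0 := by
  rw [B_mk]
  refine Sm.ext' fun z => ?_
  show db η g z = 0
  have h1 : HasFDerivAt g ((fderiv ℂ g z).restrictScalars ℝ) (z : W n) :=
    ((hg.differentiableAt (hΩ.mem_nhds z.2)).hasFDerivAt).restrictScalars ℝ
  rw [db, h1.fderiv]
  show (fderiv ℂ g z η + I * fderiv ℂ g z (I • η)) / 2 = 0
  rw [map_smul, smul_eq_mul, ← mul_assoc, I_mul_I]
  ring

/-- the one-form with the components `b a` -/
noncomputable def form {Ω : Set (W n)} (b : Fin n → Sm Ω) : W n →ₗ[ℂ] Sm Ω :=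
  ∑ a, ((eb n).coord a).smulRight (b a)

theorem form_apply {Ω : Set (W n)} (b : Fin n → Sm Ω) (ξ : W n) (z : Ω) :
    (form b ξ).1 z = ∑ a, ξ a * (b a).1 z := by
  have h1 : form b ξ = ∑ a, ξ a • b a := by
    simp only [form, LinearMap.sum_apply, LinearMap.smulRight_apply, Module.Basis.coord_apply,
      eb_repr]
  rw [h1]
  show (ev z) _ = _
  simp only [map_sum, map_smul, smul_eq_mul, ev_apply]

theorem B_form {Ω : Set (W n)} (hΩ : IsOpen Ω) (b : Fin n → Sm Ω)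
    (hb : ∀ a η, B hΩ η (b a) = 0) (ξ η : W n) : B hΩ η (form b ξ) = 0 := by
  have h1 : form b ξ = ∑ a, ξ a • b a := by
    simp only [form, LinearMap.sum_apply, LinearMap.smulRight_apply, Module.Basis.coord_apply,
      eb_repr]
  rw [h1, map_sum]
  simp only [Derivation.map_smul, hb, smul_zero, Finset.sum_const_zero]

section main

variable {U : Set (W n)} (hU : IsOpen U) {u f p om : W n → ℝ} (hu : ContDiffOn ℝ ∞ u U)
  (hf : ContDiffOn ℝ ∞ f U) (hp : ContDiffOn ℝ ∞ p U) (hom : ContDiffOn ℝ ∞ om U)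
  (hdet : ∀ z ∈ U, (cH u z).det = (Real.exp (f z) : ℂ))

include hU hu hp hdet in
theorem contDiffOn_trH : ContDiffOn ℝ ∞ (trH u p) U := by
  let G : Matrix (Fin n) (Fin n) (Sm U) := Matrix.of fun i j => U2 hU (rl u hu) (eb n i) (eb n j)
  let P : Matrix (Fin n) (Fin n) (Sm U) := Matrix.of fun i j => U2 hU (rl p hp) (eb n i) (eb n j)
  have hdG : ∀ z : U, (G.det).1 z ≠ 0 := by
    intro z
    rw [det_eq hU hu z, hdet z z.2]
    exact_mod_cast (Real.exp_pos _).ne'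
  obtain ⟨H, hH⟩ := exists_inv G hdG
  have h1 : ∀ z : U, ((H * P).trace).1 z = ((cH u z)⁻¹ * cH p z).trace := by
    intro z
    show ev z (H * P).trace = _
    rw [trace_mE, mE_mul]
    have hG : mE (ev z) G = cH u z := by
      ext a b
      rw [cH_eq hU hu z]; rfl
    have hP : mE (ev z) P = cH p z := by
      ext a b
      rw [cH_eq hU hp z]; rfl
    have hHz : mE (ev z) H = (cH u z)⁻¹ := by
      symm
      apply Matrix.inv_eq_right_inv
      rw [← hG, ← mE_mul, hH]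
      ext i j
      by_cases h : i = j
      · subst h; simp [mE]
      · simp [mE, Matrix.one_apply_ne h]
    rw [hP, hHz]
  have h2 : ContDiffOn ℝ ∞ (fun z => (ex ((H * P).trace).1 z).re) U :=
    reCLM.contDiff.comp_contDiffOn ((H * P).trace).2
  refine h2.congr fun z hz => ?_
  rw [ex_of_mem _ hz, h1 ⟨z, hz⟩]
  rfl

include hU hu hf hp hom hdet in
/-- **Chern-Lu inequality.** -/
theorem chern_lu (hpos : ∀ z ∈ U, ∀ v : W n, v ≠ 0 → 0 < lev u z v) {K : ℝ}
    (hK : ∀ z ∈ U, ∀ v : W n, lev f z v ≤ K * lev u z v)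
    (β : ι → Fin n → W n → ℂ) (hβ : ∀ k a, DifferentiableOn ℂ (β k a) U)
    (hcH : ∀ z ∈ U, ∀ a b, cH p z a b
      = (Real.exp (-(om z)) : ℂ) * ∑ k, β k a z * conj (β k b z))
    {z₀ : W n} (hz₀ : z₀ ∈ U) (hT : 0 < trH u p z₀) :
    -K ≤ trH u (fun z => Real.log (trH u p z) + om z) z₀ := by
  classical
  have hTs := contDiffOn_trH hU hu hp hdet
  -- the open set where the trace is positive
  set Ω : Set (W n) := U ∩ (trH u p) ⁻¹' (Ioi 0) with hΩdef
  have hΩ : IsOpen Ω := hTs.continuousOn.isOpen_inter_preimage hU isOpen_Ioi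
  have hsub : Ω ⊆ U := inter_subset_left
  have hTpos : ∀ z ∈ Ω, 0 < trH u p z := fun z hz => hz.2
  set O : Ω := ⟨z₀, hz₀, hT⟩ with hO
  have hu' := hu.mono hsub
  have hf' := hf.mono hsub
  have hp' := hp.mono hsub
  have hom' := hom.mono hsub
  have hL' : ContDiffOn ℝ ∞ (fun z => Real.log (trH u p z) + om z) Ω :=
    ((hTs.mono hsub).log fun z hz => (hTpos z hz).ne').add hom'
  set uS : Sm Ω := rl u hu' with huS
  set fS : Sm Ω := rl f hf' with hfS
  set pS : Sm Ω := rl p hp' with hpS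
  set LS : Sm Ω := rl _ hL' with hLS
  have hbs : ∀ k a, DifferentiableOn ℂ (β k a) Ω := fun k a => (hβ k a).mono hsub
  set bS : ι → Fin n → Sm Ω := fun k a => mk (β k a) (contDiffOn_of_hol hΩ (hbs k a)) with hbS
  set βS : ι → W n →ₗ[ℂ] Sm Ω := fun k => form (bS k) with hβS
  have hposU : ∀ (z : Ω) (ξ : W n), ξ ≠ 0 → 0 < ((U2 hΩ uS ξ ξ).1 z).re := by
    intro z ξ hξ
    have h1 := hpos z (hsub z.2) ξ hξ
    rw [lev_eq4 hΩ hu' z ξ] at h1
    linarith
  obtain ⟨w, hw⟩ := exists_frame hΩ (cj_rl u hu') (eb n) O (hposU O)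
  obtain ⟨C, hC, hfr⟩ := fm_frame hΩ w
  have hdetU : ∀ z : Ω, IsUnit (cH u z).det := fun z => by
    rw [hdet z (hsub z.2)]
    exact isUnit_iff_ne_zero.2 (by exact_mod_cast (Real.exp_pos _).ne')
  have hdet1 : ∀ z : Ω, ((Matrix.of fun i j => U2 hΩ uS (eb n i) (eb n j)).det).1 z
      = 1 * exp (fS.1 z) := by
    intro z
    rw [huS, det_eq hΩ hu' z, hdet z (hsub z.2), hfS, rl_apply, one_mul]
    push_cast
    rfl
  -- inverse matrix in the frame
  have hevG : ∀ z : Ω, mE (ev z) ((jet hΩ w O).Gm uS) = fm hΩ uS w z := fun z => rfl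
  have hfmdet : ∀ z : Ω, IsUnit (fm hΩ uS w z).det := by
    intro z
    rw [hfr, Matrix.det_mul, Matrix.det_mul, huS, fm_eb hΩ hu' z, Matrix.det_conjTranspose]
    exact (hC.mul (hdetU z)).mul hC.star
  obtain ⟨H, hH⟩ := exists_inv ((jet hΩ w O).Gm uS) (fun z => by
    have h1 : (((jet hΩ w O).Gm uS).det).1 z = (fm hΩ uS w z).det := by
      show (ev z) _ = _
      rw [AlgHom.map_det]
      rfl
    rw [h1]
    exact (hfmdet z).ne_zero)
  have hHz : ∀ z : Ω, mE (ev z) H = (fm hΩ uS w z)⁻¹ := by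
    intro z
    symm
    apply Matrix.inv_eq_right_inv
    rw [← hevG z, ← mE_mul, hH]
    ext i j
    by_cases h : i = j
    · subst h; simp [mE]
    · simp [mE, Matrix.one_apply_ne h]
  -- the traces
  have htr : ∀ (q : W n → ℝ) (hq : ContDiffOn ℝ ∞ q Ω) (z : Ω),
      ((fm hΩ uS w z)⁻¹ * fm hΩ (rl q hq) w z).trace = (trH u q z : ℂ) := by
    intro q hq z
    rw [hfr, hfr, fm_eb hΩ hq z, huS, fm_eb hΩ hu' z, trace_congr_frame _ _ _ hC]
    apply Complex.ext
    · rw [ofReal_re]; rfl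
    · rw [ofReal_im]
      exact trace_real (hermitian_cH hΩ hu' z.2) (hermitian_cH hΩ hq z.2)
  -- `p` in the frame
  have hpform : ∀ (z : Ω) (ξ η : W n), (∑ k, (βS k ξ).1 z * conj ((βS k η).1 z))
      = (Real.exp (om z) : ℂ) * (U2 hΩ pS ξ η).1 z := by
    intro z ξ η
    have h1 : (U2 hΩ pS ξ η).1 z = ∑ i, ∑ j, ξ i * conj (η j) * cH p z i j := by
      conv_lhs => rw [← sum_eb ξ, ← sum_eb η]
      rw [U2_expand]
      refine Finset.sum_congr rfl fun i _ => Finset.sum_congr rfl fun j _ => ?_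
      rw [cH_eq hΩ hp' z]
    rw [h1]
    have h2 : (Real.exp (om z) : ℂ) * (Real.exp (-(om z)) : ℂ) = 1 := by
      rw [← ofReal_mul, ← Real.exp_add]; simp
    have h3 : ∀ i j, cH p z i j = (Real.exp (-(om z)) : ℂ) * ∑ k, β k i z * conj (β k j z) :=
      fun i j => hcH z (hsub z.2) i j
    simp only [h3]
    have h4 : ∀ k, (βS k ξ).1 z * conj ((βS k η).1 z)
        = ∑ i, ∑ j, ξ i * conj (η j) * (β k i z * conj (β k j z)) := by
      intro k
      rw [hβS]
      simp only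
      rw [form_apply, form_apply, map_sum, Finset.sum_mul_sum]
      refine Finset.sum_congr rfl fun i _ => Finset.sum_congr rfl fun j _ => ?_
      rw [map_mul]
      show ξ i * β k i z * (conj (η j) * conj (β k j z)) = _
      ring
    simp only [h4]
    rw [Finset.sum_comm, Finset.mul_sum]
    refine Finset.sum_congr rfl fun i _ => ?_
    rw [Finset.sum_comm, Finset.mul_sum]
    refine Finset.sum_congr rfl fun j _ => ?_
    rw [← Finset.mul_sum]
    calc ξ i * conj (η j) * ∑ k, β k i z * conj (β k j z)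
        = ((Real.exp (om z) : ℂ) * (Real.exp (-(om z)) : ℂ))
          * (ξ i * conj (η j) * ∑ k, β k i z * conj (β k j z)) := by rw [h2, one_mul]
      _ = _ := by ring
  have hS : ∀ z : Ω, (Sf H (bt βS w) (ct βS w)).1 z = exp (LS.1 z) := by
    intro z
    have h1 : (Sf H (bt βS w) (ct βS w)).1 z
        = ∑ a, ∑ b, (mE (ev z) H) b a * ∑ k, (βS k (w a)).1 z * conj ((βS k (w b)).1 z) := by
      show (ev z) _ = _
      simp only [Sf, map_sum, map_mul, Finset.mul_sum]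
      rw [Finset.sum_comm]
      refine Finset.sum_congr rfl fun a _ => ?_
      rw [Finset.sum_comm]
      rfl
    have h2 : (Sf H (bt βS w) (ct βS w)).1 z
        = (Real.exp (om z) : ℂ) * ((fm hΩ uS w z)⁻¹ * fm hΩ pS w z).trace := by
      rw [h1, hHz, Matrix.trace, Finset.mul_sum]
      simp only [Matrix.diag, Matrix.mul_apply, hpform]
      rw [Finset.sum_comm]
      refine Finset.sum_congr rfl fun b _ => ?_
      rw [Finset.mul_sum]
      refine Finset.sum_congr rfl fun a _ => ?_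
      show _ = (Real.exp (om z) : ℂ) * ((fm hΩ uS w z)⁻¹ b a * (U2 hΩ pS (w a) (w b)).1 z)
      ring
    rw [h2, hpS, htr p hp' z, hLS, rl_apply]
    rw [← ofReal_exp, ← ofReal_mul]
    congr 1
    rw [Real.exp_add, Real.exp_log (hTpos z z.2), mul_comm]
  have hKf : ∀ ξ : W n, ((U2 hΩ fS ξ ξ).1 O).re ≤ K * ((U2 hΩ uS ξ ξ).1 O).re := by
    intro ξ
    have h1 := hK z₀ hz₀ ξ
    have h2 := lev_eq4 hΩ hu' O ξ
    have h3 := lev_eq4 hΩ hf' O ξ
    have h4 : lev f z₀ ξ = 4 * ((U2 hΩ fS ξ ξ).1 O).re := h3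
    have h5 : lev u z₀ ξ = 4 * ((U2 hΩ uS ξ ξ).1 O).re := h2
    rw [h4, h5] at h1
    nlinarith [h1]
  have hmain := core hΩ (u := uS) (f := fS) (cj_rl u hu') (eb n) w O hw one_ne_zero hdet1 hKf
    βS (fun k ξ η => B_form hΩ _ (fun a η => B_hol hΩ (hbs k a) η) ξ η) (L := LS) (cj_rl _ hL')
    hH hS
  refine hmain.trans (le_of_eq ?_)
  -- the trace at `O`
  have hfm1 : fm hΩ uS w O = 1 := by
    ext a b
    show (U2 hΩ uS (w a) (w b)).1 O = _
    rw [hw, Matrix.one_apply]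
  have h1 := htr _ hL' O
  rw [hfm1, inv_one, Matrix.one_mul] at h1
  have h2 := congrArg Complex.re h1
  rw [ofReal_re] at h2
  rw [← h2, Matrix.trace, re_sum]
  rfl

end main

end Crest.Agent.R257.CLC_39
end

-- ▼ part R257/CLD_39

/-!
# Row 257 (S0395), leaf E-CL (helper39), part D: calculus of `trH`, special cases of Chern-Lu

* `trH_add`, `trH_sub`, `trH_const_mul`, `trH_const`, `trH_congr`, `trH_self`
* `trH_nonneg`, `trH_mono`, `trH_nonpos_of_localMax`
* `lev_le_trH` : `lev p z v ≤ trH u p z * lev u z v`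
* `chern_lu_flat`, `chern_lu_fs`
-/

set_option autoImplicit false
set_option linter.unusedSectionVars false

open Set Filter Topology Complex
open scoped ContDiff ComplexConjugate Matrix ComplexOrder MatrixOrder

namespace Crest.Agent.R257.CLD_39

open Crest.Agent.R273.YC3_812
open Crest.Agent.R273.Defs_333 Crest.Agent.R273.YauDefs_635 Crest.Agent.R273.YauMax_635
open Crest.Agent.R273.Hess_333 Crest.Agent.R273.HessB_333 Crest.Agent.R273.FS_333
open Crest.Agent.R273 Crest.Agent.R257.CLC_39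

noncomputable section

variable {n : ℕ}

section mat

theorem exists_congr {G : Matrix (Fin n) (Fin n) ℂ} (hG : G.PosDef) :
    ∃ C : Matrix (Fin n) (Fin n) ℂ, C * G * Cᴴ = 1 ∧ IsUnit C.det := by
  obtain ⟨C, hC⟩ := exists_congr_one G hG
  refine ⟨C, hC, isUnit_iff_ne_zero.2 fun h0 => ?_⟩
  have h1 := congrArg Matrix.det hC
  rw [Matrix.det_mul, Matrix.det_mul, h0, zero_mul, zero_mul, Matrix.det_one] at h1
  exact zero_ne_one h1

theorem trace_re_nonneg {P : Matrix (Fin n) (Fin n) ℂ} (hP : P.PosSemidef) : 0 ≤ P.trace.re := by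
  rw [Matrix.trace, Complex.re_sum]
  exact Finset.sum_nonneg fun i _ => (Complex.nonneg_iff.1 (hP.diag_nonneg (i := i))).1

theorem trace_inv_mul_nonneg {G P : Matrix (Fin n) (Fin n) ℂ} (hG : G.PosDef)
    (hP : P.PosSemidef) : 0 ≤ ((G⁻¹ * P).trace).re := by
  obtain ⟨C, hC, hu⟩ := exists_congr hG
  have h1 := trace_congr_frame C G P hu
  rw [hC, inv_one, Matrix.one_mul] at h1
  rw [← h1]
  exact trace_re_nonneg (hP.mul_mul_conjTranspose_same C)

/-- a positive semidefinite form is bounded by its trace -/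
theorem quad_le_trace {P : Matrix (Fin n) (Fin n) ℂ} (hP : P.PosSemidef) (y : Fin n → ℂ) :
    (star y ⬝ᵥ (P *ᵥ y)).re ≤ P.trace.re * ∑ i, ‖y i‖ ^ 2 := by
  obtain ⟨B, hB⟩ := CStarAlgebra.nonneg_iff_eq_star_mul_self.mp hP.nonneg
  rw [Matrix.star_eq_conjTranspose] at hB
  have h1 : (star y ⬝ᵥ (P *ᵥ y)) = ((∑ i, ‖∑ a, B i a * y a‖ ^ 2 : ℝ) : ℂ) := by
    rw [hB, ← Matrix.mulVec_mulVec, Matrix.dotProduct_mulVec, ← Matrix.star_mulVec]
    simp only [dotProduct, Matrix.mulVec, Pi.star_apply, RCLike.star_def]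
    push_cast
    refine Finset.sum_congr rfl fun i _ => ?_
    rw [mul_comm, Complex.mul_conj']
  have h2 : P.trace = ((∑ a, ∑ i, ‖B i a‖ ^ 2 : ℝ) : ℂ) := by
    rw [hB]
    simp only [Matrix.trace, Matrix.diag, Matrix.mul_apply, Matrix.conjTranspose_apply,
      RCLike.star_def]
    push_cast
    refine Finset.sum_congr rfl fun a _ => Finset.sum_congr rfl fun i _ => ?_
    rw [mul_comm, Complex.mul_conj']
  rw [h1, h2, ofReal_re, ofReal_re, Finset.sum_comm, Finset.sum_mul]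
  refine Finset.sum_le_sum fun i _ => ?_
  exact cs _ _ _

/-- `P ≤ tr(G⁻¹ P) G` -/
theorem quad_le {G P : Matrix (Fin n) (Fin n) ℂ} (hG : G.PosDef) (hP : P.PosSemidef)
    (x : Fin n → ℂ) :
    (star x ⬝ᵥ (P *ᵥ x)).re ≤ ((G⁻¹ * P).trace).re * (star x ⬝ᵥ (G *ᵥ x)).re := by
  obtain ⟨C, hC, hu⟩ := exists_congr hG
  have hCH : IsUnit (Cᴴ).det := by
    rw [Matrix.det_conjTranspose]
    exact hu.star
  have h1 := trace_congr_frame C G P hu
  rw [hC, inv_one, Matrix.one_mul] at h1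
  set y : Fin n → ℂ := (Cᴴ)⁻¹ *ᵥ x with hy
  have hx : x = Cᴴ *ᵥ y := by
    rw [hy, Matrix.mulVec_mulVec, Matrix.mul_nonsing_inv _ hCH, Matrix.one_mulVec]
  have h2 : ∀ Q : Matrix (Fin n) (Fin n) ℂ, star x ⬝ᵥ (Q *ᵥ x) = star y ⬝ᵥ ((C * Q * Cᴴ) *ᵥ y) := by
    intro Q
    rw [hx, Matrix.star_mulVec, Matrix.conjTranspose_conjTranspose, ← Matrix.mulVec_mulVec,
      ← Matrix.mulVec_mulVec, Matrix.dotProduct_mulVec (star y) C]
  have h3 : star y ⬝ᵥ ((C * G * Cᴴ) *ᵥ y) = ((∑ i, ‖y i‖ ^ 2 : ℝ) : ℂ) := by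
    rw [hC, Matrix.one_mulVec]
    simp only [dotProduct, Pi.star_apply, RCLike.star_def]
    push_cast
    refine Finset.sum_congr rfl fun i _ => ?_
    rw [mul_comm, Complex.mul_conj']
  rw [h2 P, h2 G, h3, ofReal_re, ← h1]
  exact quad_le_trace (hP.mul_mul_conjTranspose_same C) y

end mat

section pt

variable {u p q : W n → ℝ} {z : W n}

theorem trH_hess (hu : ContDiffAt ℝ ∞ u z) (hp : ContDiffAt ℝ ∞ p z) :
    trH u p z = (((hess u z)⁻¹ * hess p z).trace).re := by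
  rw [trH, cH_eq_hess hu, cH_eq_hess hp]

theorem trH_add (hu : ContDiffAt ℝ ∞ u z) (hp : ContDiffAt ℝ ∞ p z) (hq : ContDiffAt ℝ ∞ q z) :
    trH u (fun w => p w + q w) z = trH u p z + trH u q z := by
  rw [trH_hess hu hp, trH_hess hu hq, trH_hess hu (hp.add hq), hess_add hp hq, Matrix.mul_add,
    Matrix.trace_add, add_re]

theorem trH_sub (hu : ContDiffAt ℝ ∞ u z) (hp : ContDiffAt ℝ ∞ p z) (hq : ContDiffAt ℝ ∞ q z) :
    trH u (fun w => p w - q w) z = trH u p z - trH u q z := by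
  rw [trH_hess hu hp, trH_hess hu hq, trH_hess hu (hp.sub hq), hess_sub hp hq, Matrix.mul_sub,
    Matrix.trace_sub, sub_re]

theorem trH_const_mul (hu : ContDiffAt ℝ ∞ u z) (hp : ContDiffAt ℝ ∞ p z) (c : ℝ) :
    trH u (fun w => c * p w) z = c * trH u p z := by
  rw [trH_hess hu hp, trH_hess hu (contDiffAt_const.mul hp), hess_const_mul c hp,
    Matrix.mul_smul, Matrix.trace_smul, smul_eq_mul, re_ofReal_mul]

theorem trH_of_hess_zero (hu : ContDiffAt ℝ ∞ u z) (hp : ContDiffAt ℝ ∞ p z)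
    (h : hess p z = 0) : trH u p z = 0 := by
  rw [trH_hess hu hp, h, Matrix.mul_zero, Matrix.trace_zero, zero_re]

theorem hess_const (c : ℝ) : hess (fun _ : W n => c) z = 0 := by
  have h := hess_re_hol (n := n) (z := z) (f := fun _ => (c : ℂ))
    (Eventually.of_forall fun w => differentiableAt_const _)
  simpa using h

theorem trH_add_const (hu : ContDiffAt ℝ ∞ u z) (hp : ContDiffAt ℝ ∞ p z) (c : ℝ) :
    trH u (fun w => p w + c) z = trH u p z := by
  rw [trH_add hu hp contDiffAt_const, trH_of_hess_zero hu contDiffAt_const (hess_const c),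
    add_zero]

theorem trH_congr (hu : ContDiffAt ℝ ∞ u z) (hp : ContDiffAt ℝ ∞ p z) (h : p =ᶠ[𝓝 z] q) :
    trH u p z = trH u q z := by
  rw [trH_hess hu hp, trH_hess hu (hp.congr_of_eventuallyEq h.symm), hess_congr h]

theorem trH_self (hu : ContDiffAt ℝ ∞ u z) (hpos : ∀ v : W n, v ≠ 0 → 0 < lev u z v) :
    trH u u z = n := by
  have hpd := posDef_hess hu hpos
  rw [trH_hess hu hu, Matrix.nonsing_inv_mul _ (isUnit_iff_ne_zero.2 hpd.det_pos.ne'),
    Matrix.trace_one, Fintype.card_fin, natCast_re]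

theorem trH_nonneg (hu : ContDiffAt ℝ ∞ u z) (hpos : ∀ v : W n, v ≠ 0 → 0 < lev u z v)
    (hp : ContDiffAt ℝ ∞ p z) (h : ∀ v, 0 ≤ lev p z v) : 0 ≤ trH u p z := by
  rw [trH_hess hu hp]
  exact trace_inv_mul_nonneg (posDef_hess hu hpos) (posSemidef_hess hp h)

theorem two_le' {u : W n → ℝ} (hu : ContDiffAt ℝ ∞ u z) : ContDiffAt ℝ 2 u z :=
  hu.of_le (WithTop.coe_le_coe.2 le_top)

theorem lev_sub' (hp : ContDiffAt ℝ ∞ p z) (hq : ContDiffAt ℝ ∞ q z) (v : W n) :
    lev (fun w => p w - q w) z v = lev p z v - lev q z v := by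
  rw [lev333_eq_lev145, lev333_eq_lev145, lev333_eq_lev145,
    Levi_145.lev_sub (two_le' hp) (two_le' hq)]
  ring


theorem lev_const_mul' (hp : ContDiffAt ℝ ∞ p z) (c : ℝ) (v : W n) :
    lev (fun w => c * p w) z v = c * lev p z v := by
  rw [lev333_eq_lev145, lev333_eq_lev145, Levi_145.lev_const_mul c (two_le' hp)]
  ring

theorem lev_neg' (hp : ContDiffAt ℝ ∞ p z) (v : W n) :
    lev (fun w => - p w) z v = - lev p z v := by
  rw [lev333_eq_lev145, lev333_eq_lev145, Levi_145.lev_neg (two_le' hp)]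
  ring

theorem lev_zero' (u : W n → ℝ) (z : W n) : lev u z 0 = 0 := by
  rw [lev333_eq_lev145, Levi_145.lev_zero, mul_zero]

theorem trH_mono (hu : ContDiffAt ℝ ∞ u z) (hpos : ∀ v : W n, v ≠ 0 → 0 < lev u z v)
    (hp : ContDiffAt ℝ ∞ p z) (hq : ContDiffAt ℝ ∞ q z) (h : ∀ v, lev p z v ≤ lev q z v) :
    trH u p z ≤ trH u q z := by
  have h1 := trH_nonneg hu hpos (hq.sub hp) fun v => by
    rw [lev_sub' hq hp]
    linarith [h v]
  rw [trH_sub hu hq hp] at h1
  linarith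

theorem trH_nonpos_of_localMax (hu : ContDiffAt ℝ ∞ u z)
    (hpos : ∀ v : W n, v ≠ 0 → 0 < lev u z v) (hp : ContDiffAt ℝ ∞ p z) (h : IsLocalMax p z) :
    trH u p z ≤ 0 := by
  have h1 := trH_mono hu hpos hp (contDiffAt_const (c := (0 : ℝ))) fun v => by
    have h2 := lev_nonneg_of_localMin (two_le' hp).neg h.neg v
    have h3 : lev (fun w => - p w) z v = - lev p z v := lev_neg' hp v
    have h4 : lev (fun _ : W n => (0 : ℝ)) z v = 0 := by
      rw [lev333_eq_lev145, Levi_145.lev_const, mul_zero]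
    rw [h4]
    have h5 : 0 ≤ - lev p z v := by rw [← h3]; exact h2
    linarith
  rwa [trH_of_hess_zero hu contDiffAt_const (hess_const 0)] at h1

/-- the form is bounded by its trace -/
theorem lev_le_trH (hu : ContDiffAt ℝ ∞ u z) (hpos : ∀ v : W n, v ≠ 0 → 0 < lev u z v)
    (hp : ContDiffAt ℝ ∞ p z) (h : ∀ v, 0 ≤ lev p z v) (v : W n) :
    lev p z v ≤ trH u p z * lev u z v := by
  have h1 := quad_le (posDef_hess hu hpos) (posSemidef_hess hp h) (fun a => conj (v a))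
  rw [hq_eq_dot, hq_eq_dot, hq_re hp, hq_re hu, ← trH_hess hu hp] at h1
  have h3 : (WithLp.toLp 2 (fun a => conj (conj (v a))) : W n) = v := by
    simp only [Complex.conj_conj]
  rw [h3] at h1
  linarith

/-- the trace is bounded by `n` times the form -/
theorem trH_le_of_lev (hu : ContDiffAt ℝ ∞ u z) (hpos : ∀ v : W n, v ≠ 0 → 0 < lev u z v)
    (hp : ContDiffAt ℝ ∞ p z) {c : ℝ} (h : ∀ v, lev p z v ≤ c * lev u z v) :
    trH u p z ≤ c * n := by
  have h1 := trH_mono hu hpos hp (contDiffAt_const.mul hu) fun v => by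
    rw [lev_const_mul' hu]
    exact h v
  rwa [trH_const_mul hu hu, trH_self hu hpos] at h1


end pt

section special

variable {N : ℕ} {U : Set (W n)} (hU : IsOpen U) {u f : W n → ℝ} (hu : ContDiffOn ℝ ∞ u U)
  (hf : ContDiffOn ℝ ∞ f U) (hdet : ∀ z ∈ U, (cH u z).det = (Real.exp (f z) : ℂ))
  (hpos : ∀ z ∈ U, ∀ v : W n, v ≠ 0 → 0 < lev u z v) {K : ℝ}
  (hK : ∀ z ∈ U, ∀ v : W n, lev f z v ≤ K * lev u z v)
  {F : W n → Fin N → ℂ} (hF : ∀ k, DifferentiableOn ℂ (fun z => F z k) U)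

include hU hF in
theorem contDiffOn_sq : ContDiffOn ℝ ∞ (sq F) U := by
  refine ContDiffOn.sum fun k _ => ?_
  exact (contDiffOn_of_hol hU (hF k)).norm_sq ℝ

include hU hF in
theorem diffOn_partial (k : Fin N) (a : Fin n) : DifferentiableOn ℂ
    (fun z => fderiv ℂ (fun z => F z k) z (EuclideanSpace.single a 1)) U := by
  have h3 : AnalyticOnNhd ℂ (fderiv ℂ (fun z => F z k)) U :=
    (Crest.Agent.R266.SCV.analyticOnNhd_of_differentiableOn hU (hF k)).fderiv
  exact h3.differentiableOn.clm_apply (differentiableOn_const _)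

include hU hu hf hdet hpos hK hF in
/-- Chern-Lu for a holomorphic map to flat space -/
theorem chern_lu_flat {z₀ : W n} (hz₀ : z₀ ∈ U) (hT : 0 < trH u (sq F) z₀) :
    -K ≤ trH u (fun z => Real.log (trH u (sq F) z)) z₀ := by
  have h := chern_lu hU hu hf (contDiffOn_sq hU hF) (om := fun _ => 0) contDiffOn_const hdet hpos hK
    (fun k a z => fderiv ℂ (fun z => F z k) z (EuclideanSpace.single a 1))
    (fun k a => diffOn_partial hU hF k a) (fun z hz a b => by
      rw [cH_eq_hess ((contDiffOn_sq hU hF).contDiffAt (hU.mem_nhds hz)), hess_sq hU hF hz]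
      simp) hz₀ hT
  simpa only [add_zero] using h

/-- the differential of the Plücker coordinates -/
def pl (F : W n → Fin N → ℂ) (k : Fin N × Fin N) (a : Fin n) (z : W n) : ℂ :=
  F z k.1 * fderiv ℂ (fun z => F z k.2) z (EuclideanSpace.single a 1)
    - F z k.2 * fderiv ℂ (fun z => F z k.1) z (EuclideanSpace.single a 1)

theorem sum_pl (x : Fin N → ℂ) (a b : Fin N → ℂ) :
    ∑ k : Fin N × Fin N, (x k.1 * a k.2 - x k.2 * a k.1) * conj (x k.1 * b k.2 - x k.2 * b k.1)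
      = 2 * ((∑ i, ‖x i‖ ^ 2 : ℝ) * (∑ k, a k * conj (b k))
        - (∑ k, a k * conj (x k)) * ∑ k, x k * conj (b k)) := by
  have h0 : ((∑ i, ‖x i‖ ^ 2 : ℝ) : ℂ) = ∑ i, x i * conj (x i) := by
    push_cast
    exact Finset.sum_congr rfl fun i _ => (Complex.mul_conj' _).symm
  rw [h0, Fintype.sum_prod_type]
  have h1 : ∀ i j, (x i * a j - x j * a i) * conj (x i * b j - x j * b i)
      = (x i * conj (x i)) * (a j * conj (b j)) + (x j * conj (x j)) * (a i * conj (b i))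
        - (x i * conj (b i)) * (a j * conj (x j)) - (x j * conj (b j)) * (a i * conj (x i)) := by
    intro i j
    simp only [map_sub, map_mul]
    ring
  simp only [h1, Finset.sum_add_distrib, Finset.sum_sub_distrib, ← Finset.mul_sum,
    ← Finset.sum_mul]
  ring

include hU hF in
theorem cH_log_sq {z : W n} (hz : z ∈ U) (h0 : F z ≠ 0) (a b : Fin n) :
    cH (fun w => Real.log (sq F w)) z a b
      = (Real.exp (-(2 * Real.log (sq F z) + Real.log 2)) : ℂ)
        * ∑ k, pl F k a z * conj (pl F k b z) := by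
  have hs : ContDiffAt ℝ ∞ (sq F) z := (contDiffOn_sq hU hF).contDiffAt (hU.mem_nhds hz)
  have hp := sq_pos h0
  have hl : ContDiffAt ℝ ∞ (fun w => Real.log (sq F w)) z := hs.log hp.ne'
  rw [cH_eq_hess hl, hess_log hs hp, hess_sq hU hF hz, wd_sq hU hF hz, wd_sq' hU hF hz]
  have h1 := sum_pl (F z) (fun k => fderiv ℂ (fun z => F z k) z (EuclideanSpace.single a 1))
    (fun k => fderiv ℂ (fun z => F z k) z (EuclideanSpace.single b 1))
  have h2 : ∑ k, pl F k a z * conj (pl F k b z) = _ := h1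
  rw [h2]
  have h3 : Real.exp (-(2 * Real.log (sq F z) + Real.log 2)) = (2 * (sq F z) ^ 2)⁻¹ := by
    rw [neg_add, Real.exp_add, Real.exp_neg, Real.exp_neg, Real.exp_log two_pos, two_mul,
      Real.exp_add, Real.exp_log hp]
    ring
  rw [h3]
  have h5 : (sq F z : ℂ) ≠ 0 := by exact_mod_cast hp.ne'
  have h6 : ((∑ i, ‖F z i‖ ^ 2 : ℝ) : ℂ) = (sq F z : ℂ) := rfl
  rw [h6]
  push_cast
  field_simp

include hU hu hf hdet hpos hK hF in
/-- Chern-Lu for a holomorphic map to projective space -/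
theorem chern_lu_fs (hF0 : ∀ z ∈ U, F z ≠ 0) {z₀ : W n} (hz₀ : z₀ ∈ U)
    (hT : 0 < trH u (fun w => Real.log (sq F w)) z₀) :
    -K - 2 * trH u (fun w => Real.log (sq F w)) z₀
      ≤ trH u (fun z => Real.log (trH u (fun w => Real.log (sq F w)) z)) z₀ := by
  have hl : ContDiffOn ℝ ∞ (fun w => Real.log (sq F w)) U :=
    (contDiffOn_sq hU hF).log fun z hz => (sq_pos (hF0 z hz)).ne'
  have hom : ContDiffOn ℝ ∞ (fun w => 2 * Real.log (sq F w) + Real.log 2) U :=
    (contDiffOn_const.mul hl).add contDiffOn_const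
  have h := chern_lu hU hu hf hl hom hdet hpos hK (pl F)
    (fun k a => ((hF k.1).mul (diffOn_partial hU hF k.2 a)).sub
      ((hF k.2).mul (diffOn_partial hU hF k.1 a)))
    (fun z hz a b => cH_log_sq hU hF hz (hF0 z hz) a b) hz₀ hT
  have hn := hU.mem_nhds hz₀
  have hu0 : ContDiffAt ℝ ∞ u z₀ := hu.contDiffAt hn
  have hl0 := hl.contDiffAt hn
  have ht0 : ContDiffAt ℝ ∞ (fun z => Real.log (trH u (fun w => Real.log (sq F w)) z)) z₀ :=
    ((contDiffOn_trH hU hu hl hdet).contDiffAt hn).log hT.ne'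
  rw [trH_add hu0 ht0 (hom.contDiffAt hn), trH_add_const hu0 (contDiffAt_const.mul hl0),
    trH_const_mul hu0 hl0] at h
  linarith

end special

end

end Crest.Agent.R257.CLD_39
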