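import Crest.Agent.R257.Sh10_297
import Crest.Agent.R257.Defs_219
import Crest.Agent.R257.OtKE_331
import Crest.Agent.R257.CNS_939

-- ▼ part R257/Sh11_297
section

/-!
# Row 257, leaf D-SH (helper297), part 11: a function vanishing on the simple zeros is divisible
-/

set_option autoImplicit false
set_option linter.unusedSectionVars false

open MeasureTheory Set Metric Topology Filter Polynomial
open scoped ENNReal

namespace Crest.Agent.R257.Sh_297

noncomputable section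

open Crest.Agent.R275.Loc2879

universe u

variable {Y : Type u} [NormedAddCommGroup Y] [NormedSpace ℂ Y] [FiniteDimensional ℂ Y]

/-- a polynomial of degree `< d` vanishing at the `d` distinct roots of `W` is zero -/
lemma coeff_zero_of_roots {W : ℂ[X]} {d : ℕ} (hn : W.natDegree = d) (hs : W.roots.Nodup)
    (c : Fin d → ℂ) (h : ∀ z ∈ W.roots, ∑ j : Fin d, c j * z ^ (j : ℕ) = 0) : c = 0 := by
  classical
  set p : ℂ[X] := ∑ j : Fin d, C (c j) * X ^ (j : ℕ) with hp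
  have hdeg : p.degree < d := by
    refine (Polynomial.degree_sum_le _ _).trans_lt ?_
    rw [Finset.sup_lt_iff (by exact WithBot.bot_lt_coe d)]
    intro j _
    refine (Polynomial.degree_C_mul_X_pow_le _ _).trans_lt ?_
    exact_mod_cast j.2
  have hcard : W.roots.toFinset.card = d := by
    rw [Multiset.toFinset_card_of_nodup hs, ← hn]
    exact (IsAlgClosed.splits W).natDegree_eq_card_roots.symm
  have hp0 : p = 0 := by
    refine Polynomial.eq_zero_of_degree_lt_of_eval_finset_eq_zero W.roots.toFinset ?_ ?_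
    · rw [hcard]; exact hdeg
    · intro z hz
      have := h z (Multiset.mem_toFinset.1 hz)
      rw [hp, eval_finsetSum]
      simpa using this
  ext j
  have h1 : p.coeff j = c j := by
    rw [hp, finsetSum_coeff]
    simp only [coeff_C_mul, coeff_X_pow]
    rw [Finset.sum_eq_single j]
    · simp
    · intro i _ hij
      rw [if_neg (fun h => hij (Fin.ext h.symm)), mul_zero]
    · intro h; exact absurd (Finset.mem_univ j) h
  rw [← h1, hp0]
  simp

theorem dvd_of_vanish {f h : Y × ℂ → ℂ} (hf : AnalyticAt ℂ f (0, 0)) {d : ℕ}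
    (hord : analyticOrderAt (fun z => f (0, z)) 0 = d) {δ' : ℝ} (hδ' : 0 < δ')
    (hs : ∃ᶠ y in 𝓝 (0 : Y), ∀ z ∈ ball (0 : ℂ) δ', f (y, z) = 0 → vd f (y, z) ≠ 0)
    (hh : AnalyticAt ℂ h (0, 0))
    (hv : ∀ᶠ p in 𝓝 (((0 : Y), (0 : ℂ)) : Y × ℂ), f p = 0 → vd f p ≠ 0 → h p = 0) :
    ∃ a : Y × ℂ → ℂ, AnalyticAt ℂ a (0, 0) ∧
      ∀ᶠ p in 𝓝 (((0 : Y), (0 : ℂ)) : Y × ℂ), h p = a p * f p := by
  obtain ⟨q, c, hq, hc, hdiv⟩ := wdiv hf hord hh
  refine ⟨q, hq, ?_⟩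
  have hcev : ∀ᶠ p in 𝓝 (((0 : Y), (0 : ℂ)) : Y × ℂ), ∀ j, AnalyticAt ℂ (c j) p.1 := by
    have h1 : ∀ᶠ y in 𝓝 (0 : Y), ∀ j, AnalyticAt ℂ (c j) y :=
      eventually_all.2 fun j => (hc j).eventually_analyticAt
    exact (continuous_fst.tendsto (((0 : Y), (0 : ℂ)) : Y × ℂ)).eventually h1
  obtain ⟨ε, hε, hεb⟩ := Metric.eventually_nhds_iff_ball.1
    (hf.eventually_analyticAt.and (hv.and (hdiv.and hcev)))
  obtain ⟨ρ, hρ, -, w, D, δ₀, hδ₀, hB⟩ := exists_wbox (F := f)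
    (Ω := ball (((0 : Y), (0 : ℂ)) : Y × ℂ) ε) isOpen_ball (mem_ball_self hε)
    (fun p hp => (hεb p hp).1) hord hδ' hs
  set δ := min δ₀ ε with hδ
  have hδ0 : 0 < δ := lt_min hδ₀ hε
  have B := hB δ hδ0 (min_le_left _ _)
  -- the coefficients vanish off the discriminant
  have h1 : ∀ y ∈ ball (0 : Y) δ, D y ≠ 0 → ∀ j, c j y = 0 := by
    intro y hy hDy
    have h2 := coeff_zero_of_roots (B.natDegree hy) (B.sep y hy hDy) (fun j => c j y) ?_
    · exact fun j => congrFun h2 j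
    · intro z hz
      obtain ⟨hz1, hz2⟩ := (B.mem_roots hy).1 hz
      have hm : (y, z) ∈ ball (((0 : Y), (0 : ℂ)) : Y × ℂ) ε := B.sub ⟨hy, hz1⟩
      obtain ⟨-, h3, h4, -⟩ := hεb _ hm
      have h5 := h3 hz2 (B.vd_ne hy hDy hz1 hz2)
      rw [h4, hz2, mul_zero, zero_add] at h5
      exact h5
  have h2 : ∀ y ∈ ball (0 : Y) δ, ∀ j, c j y = 0 := by
    intro y hy j
    by_contra hne
    have hyε : (y, (0 : ℂ)) ∈ ball (((0 : Y), (0 : ℂ)) : Y × ℂ) ε := by
      rw [mem_ball, Prod.dist_eq, max_lt_iff]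
      refine ⟨(mem_ball.1 hy).trans_le (min_le_right _ _), by simpa using hε⟩
    have h3 : AnalyticAt ℂ (c j) y := (hεb _ hyε).2.2.2 j
    have h4 := h3.continuousAt.eventually_ne hne
    have h5 := R266.SCV.dense_ne_zero B.hΔ B.conn B.hD B.Dne y hy
    obtain ⟨y', ⟨h6, h7⟩, h8⟩ := (h5.and_eventually h4).exists
    exact h8 (h1 y' h6 h7 j)
  have h3 : ∀ᶠ p in 𝓝 (((0 : Y), (0 : ℂ)) : Y × ℂ), p.1 ∈ ball (0 : Y) δ :=
    (continuous_fst.tendsto (((0 : Y), (0 : ℂ)) : Y × ℂ)).eventually (ball_mem_nhds 0 hδ0)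
  filter_upwards [hdiv, h3] with p h4 h5
  rw [h4]
  simp [h2 p.1 h5]

end

end Crest.Agent.R257.Sh_297
end

-- ▼ part R257/Sh12_297
section

/-!
# Row 257, leaf D-SH (helper297), part 12: change of coordinates, the structure `Out1`
-/

set_option autoImplicit false
set_option linter.unusedSectionVars false

open MeasureTheory Set Metric Topology Filter
open scoped ENNReal
open Crest.AlgGeometry.Germ Crest.Agent.R257.Defs_219

namespace Crest.Agent.R257.Sh_297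

noncomputable section

variable {n : ℕ}

/-- sheet integral, all dimensions (helper328) -/
def JintN (p : ℝ) (r : ℝ) (f g : (Fin (n + 1) → ℂ) → ℂ) : ℝ≥0∞ :=
  ∫⁻ x' : Fin n → ℂ in {x' | ∀ i, ‖x' i‖ < r},
    ∑' z : {z : ℂ // ‖z‖ < r ∧ f (Fin.cons z x') = 0 ∧ coordDeriv f 0 (Fin.cons z x') ≠ 0},
      ENNReal.ofReal (‖g (Fin.cons z.1 x')‖ ^ (2 / p) / ‖coordDeriv f 0 (Fin.cons z.1 x')‖ ^ 2)

/-- `g ∈ J_p(f)` -/
def InJN (p : ℝ) (f g : (Fin (n + 1) → ℂ) → ℂ) : Prop := ∃ r : ℝ, 0 < r ∧ JintN p r f g < ∞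

/-- the swap of the coordinate `0` and the last one -/
def kap (p : (Fin (n + 1) → ℂ) × ℂ) : (Fin (n + 1) → ℂ) × ℂ :=
  (Fin.cons p.2 (Fin.tail p.1), p.1 0)

@[simp] lemma kap_kap (p : (Fin (n + 1) → ℂ) × ℂ) : kap (kap p) = p := by
  unfold kap
  ext i
  · simp only [Fin.tail_cons]
    rw [Fin.cons_self_tail]
  · simp

/-- `kap` as a linear map -/
def kapL : (Fin (n + 1) → ℂ) × ℂ →L[ℂ] (Fin (n + 1) → ℂ) × ℂ :=
  (ContinuousLinearMap.pi (Fin.cons (ContinuousLinearMap.snd ℂ (Fin (n + 1) → ℂ) ℂ)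
    (fun j : Fin n => (ContinuousLinearMap.proj (R := ℂ) (φ := fun _ : Fin (n + 1) => ℂ)
      j.succ).comp (ContinuousLinearMap.fst ℂ (Fin (n + 1) → ℂ) ℂ)))).prod
    ((ContinuousLinearMap.proj (R := ℂ) (φ := fun _ : Fin (n + 1) => ℂ) 0).comp
      (ContinuousLinearMap.fst ℂ (Fin (n + 1) → ℂ) ℂ))

lemma kapL_apply (p : (Fin (n + 1) → ℂ) × ℂ) : kapL p = kap p := by
  unfold kapL kap
  rw [ContinuousLinearMap.prod_apply, Prod.mk.injEq]
  refine ⟨?_, rfl⟩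
  ext i
  refine Fin.cases ?_ (fun j => ?_) i
  · simp
  · simp [Fin.tail]

lemma kap_eq : (kap : (Fin (n + 1) → ℂ) × ℂ → _) = kapL := funext fun p => (kapL_apply p).symm

lemma kap_analytic (p : (Fin (n + 1) → ℂ) × ℂ) : AnalyticAt ℂ kap p := by
  rw [kap_eq]; exact kapL.analyticAt p

lemma kap_cont : Continuous (kap : (Fin (n + 1) → ℂ) × ℂ → _) := by
  rw [kap_eq]; exact kapL.continuous

lemma kap_zero : kap (0 : (Fin (n + 1) → ℂ) × ℂ) = 0 := by
  rw [kap_eq]; exact map_zero kapL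

/-- `kap` as a measurable equivalence -/
def kapE : (Fin (n + 1) → ℂ) × ℂ ≃ᵐ (Fin (n + 1) → ℂ) × ℂ where
  toFun := kap
  invFun := kap
  left_inv := kap_kap
  right_inv := kap_kap
  measurable_toFun := kap_cont.measurable
  measurable_invFun := kap_cont.measurable

lemma kap_mp : MeasurePreserving (kap : (Fin (n + 1) → ℂ) × ℂ → _) volume volume := by
  have h1 := volume_preserving_piFinSuccAbove (fun _ : Fin (n + 1) => ℂ) 0
  have h2 : MeasurePreserving (Prod.map (MeasurableEquiv.piFinSuccAbove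
      (fun _ : Fin (n + 1) => ℂ) 0) (id : ℂ → ℂ))
      (volume : Measure ((Fin (n + 1) → ℂ) × ℂ)) volume := h1.prod (MeasurePreserving.id _)
  have h2' : MeasurePreserving (Prod.map (MeasurableEquiv.piFinSuccAbove
      (fun _ : Fin (n + 1) => ℂ) 0).symm (id : ℂ → ℂ)) volume
      (volume : Measure ((Fin (n + 1) → ℂ) × ℂ)) :=
    (h1.symm (MeasurableEquiv.piFinSuccAbove (fun _ : Fin (n + 1) => ℂ) 0)).prod
      (MeasurePreserving.id _)
  have h3 : MeasurePreserving (fun p : (ℂ × (Fin n → ℂ)) × ℂ => ((p.2, p.1.2), p.1.1))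
      volume volume := by
    have e1 : MeasurePreserving (MeasurableEquiv.prodAssoc :
        (ℂ × (Fin n → ℂ)) × ℂ ≃ᵐ ℂ × ((Fin n → ℂ) × ℂ)) volume volume :=
      measurePreserving_prodAssoc volume volume volume
    have e2 : MeasurePreserving (Prod.swap : ℂ × ((Fin n → ℂ) × ℂ) → _) volume volume :=
      Measure.measurePreserving_swap
    have e3 : MeasurePreserving (Prod.map (Prod.swap : (Fin n → ℂ) × ℂ → _) (id : ℂ → ℂ))
        volume volume :=
      (Measure.measurePreserving_swap (μ := (volume : Measure (Fin n → ℂ)))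
        (ν := (volume : Measure ℂ))).prod (MeasurePreserving.id volume)
    exact e3.comp (e2.comp e1)
  have h4 := h2'.comp (h3.comp h2)
  have h5 : (Prod.map (MeasurableEquiv.piFinSuccAbove (fun _ : Fin (n + 1) => ℂ) 0).symm
      (id : ℂ → ℂ)) ∘ ((fun p : (ℂ × (Fin n → ℂ)) × ℂ => ((p.2, p.1.2), p.1.1)) ∘
      (Prod.map (MeasurableEquiv.piFinSuccAbove (fun _ : Fin (n + 1) => ℂ) 0) (id : ℂ → ℂ))) =
      kap := by
    funext p
    unfold kap
    simp only [Function.comp_apply, Prod.map_apply, id, Prod.mk.injEq]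
    refine ⟨?_, rfl⟩
    ext i
    refine Fin.cases ?_ (fun j => ?_) i
    · rfl
    · rfl
  rw [h5] at h4
  exact h4

/-- the box -/
def Bx (n : ℕ) (R T : ℝ) : Set ((Fin (n + 1) → ℂ) × ℂ) := {p | (∀ i, ‖p.1 i‖ < R) ∧ ‖p.2‖ < T}

lemma isOpen_Bx (R T : ℝ) : IsOpen (Bx n R T) := by
  have : Bx n R T = (⋂ i, {p : (Fin (n + 1) → ℂ) × ℂ | ‖p.1 i‖ < R}) ∩ {p | ‖p.2‖ < T} := by
    ext p; simp [Bx]
  rw [this]
  refine (isOpen_iInter_of_finite fun i => isOpen_lt ?_ continuous_const).inter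
    (isOpen_lt (by fun_prop) continuous_const)
  fun_prop

/-- (1-OUT): the output of the `L^{2/p}` extension at the scales `1 / (k + 1)` -/
structure Out1 (F : (Fin (n + 1) → ℂ) × ℂ → ℂ) (g : (Fin (n + 1) → ℂ) → ℂ) (q R T C : ℝ)
    (G : ℕ → (Fin (n + 1) → ℂ) × ℂ → ℂ) : Prop where
  hR : 0 < R
  hT : 0 < T
  hF : AnalyticOnNhd ℂ F (Bx n R T)
  hG : ∀ k, AnalyticOnNhd ℂ (G k) (Bx n R T)
  ext : ∀ k x, (∀ i, ‖x i‖ < R) → F (x, 0) = 0 → coordDeriv (sl F 0) 0 x ≠ 0 → G k (x, 0) = g x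
  int : ∀ k : ℕ, ∫⁻ p in {p | p ∈ Bx n R T ∧ ‖F p‖ < 1 / ((k : ℝ) + 1)}, ‖G k p‖ₑ ^ q ≤
    ENNReal.ofReal (C / ((k : ℝ) + 1) ^ 2)

/-- the vertical derivative in the coordinates -/
lemma hasDerivAt_cons (x' : Fin n → ℂ) (z : ℂ) :
    HasDerivAt (fun z : ℂ => (Fin.cons z x' : Fin (n + 1) → ℂ)) (Pi.single 0 1) z := by
  rw [hasDerivAt_pi]
  intro i
  refine Fin.cases ?_ (fun j => ?_) i
  · rw [Pi.single_eq_same]
    exact hasDerivAt_id z
  · rw [Pi.single_eq_of_ne (Fin.succ_ne_zero j)]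
    exact hasDerivAt_const z (x' j)

lemma deriv_cons {f : (Fin (n + 1) → ℂ) → ℂ} {x' : Fin n → ℂ} {z : ℂ}
    (hf : DifferentiableAt ℂ f (Fin.cons z x')) :
    deriv (fun z : ℂ => f (Fin.cons z x')) z = coordDeriv f 0 (Fin.cons z x') :=
  (hf.hasFDerivAt.comp_hasDerivAt z (hasDerivAt_cons x' z)).deriv

end

end Crest.Agent.R257.Sh_297
end

-- ▼ part R257/Sh13_297
section

/-!
# Row 257, leaf D-SH (helper297), part 13: (1-OUT) implies the extension in germ form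
-/

set_option autoImplicit false
set_option linter.unusedSectionVars false

open MeasureTheory Set Metric Topology Filter
open scoped ENNReal
open Crest.AlgGeometry.Germ Crest.Agent.R257.Defs_219

namespace Crest.Agent.R257.Sh_297

noncomputable section

variable {n : ℕ}

/-- `(x', z) ↦ (z, x')` -/
def consL : (Fin n → ℂ) × ℂ →L[ℂ] (Fin (n + 1) → ℂ) :=
  ContinuousLinearMap.pi (Fin.cons (ContinuousLinearMap.snd ℂ (Fin n → ℂ) ℂ)
    (fun j : Fin n => (ContinuousLinearMap.proj (R := ℂ) (φ := fun _ : Fin n => ℂ)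
      j).comp (ContinuousLinearMap.fst ℂ (Fin n → ℂ) ℂ)))

lemma consL_apply (p : (Fin n → ℂ) × ℂ) : consL p = (Fin.cons p.2 p.1 : Fin (n + 1) → ℂ) := by
  unfold consL
  ext i
  refine Fin.cases ?_ (fun j => ?_) i
  · simp
  · simp

lemma ae_frequently {Y : Type*} [TopologicalSpace Y] [MeasurableSpace Y] {μ : Measure Y}
    [μ.IsOpenPosMeasure] {P : Y → Prop} (h : ∀ᵐ y ∂μ, P y) (a : Y) : ∃ᶠ y in 𝓝 a, P y := by
  intro hcon
  have h1 : 0 < μ {y | ¬ P y} := Measure.measure_pos_of_mem_nhds μ hcon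
  rw [ae_iff] at h
  exact h1.ne' h

/-- generic simplicity at `t = 0` -/
lemma generic_simple (hn : 1 ≤ n) {f : (Fin (n + 1) → ℂ) → ℂ} (hf : AnalyticAt ℂ f 0)
    (hiso : ∀ᶠ x in 𝓝 (0 : Fin (n + 1) → ℂ), x ≠ 0 → f x = 0 → ∃ i, coordDeriv f i x ≠ 0) :
    ∃ δ' > 0, ∃ᶠ x' in 𝓝 (0 : Fin n → ℂ), ∀ z ∈ ball (0 : ℂ) δ',
      f (Fin.cons z x') = 0 → deriv (fun z : ℂ => f (Fin.cons z x')) z ≠ 0 := by
  have : Nonempty (Fin n) := ⟨⟨0, hn⟩⟩
  have : Nontrivial (Fin n → ℂ) := inferInstance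
  set h : (Fin n → ℂ) × ℂ → ℂ := fun p => f (consL p) with hh
  have hc0 : consL (0 : (Fin n → ℂ) × ℂ) = 0 := map_zero _
  have hev : ∀ᶠ p in 𝓝 (0 : (Fin n → ℂ) × ℂ), AnalyticAt ℂ f (consL p) ∧
      (consL p ≠ 0 → f (consL p) = 0 → ∃ i, coordDeriv f i (consL p) ≠ 0) := by
    have h1 : Tendsto (consL : (Fin n → ℂ) × ℂ → _) (𝓝 0) (𝓝 0) := by
      have := (consL (n := n)).continuous.tendsto 0
      rwa [hc0] at this
    exact h1.eventually (hf.eventually_analyticAt.and hiso)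
  obtain ⟨ε, hε, hεb⟩ := Metric.eventually_nhds_iff_ball.1 hev
  have hinj : ∀ p : (Fin n → ℂ) × ℂ, consL p = 0 → p = 0 := by
    intro p hp
    rw [consL_apply] at hp
    have h1 := congrFun hp 0
    ext j
    · have := congrFun hp (Fin.succ j)
      simpa using this
    · simpa using h1
  have hsurj : ∀ x : Fin (n + 1) → ℂ, consL (Fin.tail x, x 0) = x := by
    intro x; rw [consL_apply]; exact Fin.cons_self_tail x
  have hhan : AnalyticOnNhd ℂ h (ball 0 ε) := fun p hp =>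
    AnalyticAt.comp (g := f) (hεb p hp).1 (consL.analyticAt p)
  have h1 := ae_simple (Y := Fin n → ℂ) volume isOpen_ball hhan (by
    intro p hp hp0 hfp hd
    obtain ⟨i, hi⟩ := (hεb p hp).2 (fun h => hp0 (hinj p h)) hfp
    refine hi ?_
    have h2 : fderiv ℂ h p = (fderiv ℂ f (consL p)).comp consL :=
      ((hεb p hp).1.differentiableAt.hasFDerivAt.comp p consL.hasFDerivAt).fderiv
    have h3 : fderiv ℂ f (consL p) (consL (Fin.tail (Pi.single i 1 : Fin (n + 1) → ℂ),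
        (Pi.single i 1 : Fin (n + 1) → ℂ) 0)) = 0 := by
      have := congrArg (fun L => L (Fin.tail (Pi.single i 1 : Fin (n + 1) → ℂ),
        (Pi.single i 1 : Fin (n + 1) → ℂ) 0)) (h2.symm.trans hd)
      exact this
    rw [hsurj] at h3
    exact h3)
  refine ⟨ε, hε, ?_⟩
  refine ((ae_frequently h1 0).and_eventually (ball_mem_nhds 0 hε)).mono ?_
  rintro x' ⟨hx', hx'ε⟩ z hz hfz
  have h2 := hx' z (by
    rw [mem_ball, ← Prod.mk_zero_zero, Prod.dist_eq]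
    exact max_lt hx'ε hz) (by
      show f (consL (x', z)) = 0
      rw [consL_apply]; exact hfz)
  have h3 : (fun z : ℂ => h (x', z)) = fun z : ℂ => f (Fin.cons z x') := by
    funext z
    show f (consL (x', z)) = _
    rw [consL_apply]
  have h4 : vd h (x', z) = deriv (fun z : ℂ => f (Fin.cons z x')) z := by
    unfold vd
    rw [← h3]
  rw [h4] at h2
  exact h2

/-- (1-OUT) implies the extension theorem in germ form -/
theorem final (hn : 1 ≤ n) {F : (Fin (n + 1) → ℂ) × ℂ → ℂ} {g : (Fin (n + 1) → ℂ) → ℂ}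
    {p R T C : ℝ} (hp : 1 ≤ p) {G : ℕ → (Fin (n + 1) → ℂ) × ℂ → ℂ}
    (O : Out1 F g (2 / p) R T C G) (hg : AnalyticAt ℂ g 0)
    (hiso : ∀ᶠ x in 𝓝 (0 : Fin (n + 1) → ℂ), x ≠ 0 → F (x, 0) = 0 →
      ∃ i, coordDeriv (sl F 0) i x ≠ 0)
    (hreg : ∃ᶠ z : ℂ in 𝓝[≠] 0, F (Fin.cons z 0, 0) ≠ 0) :
    ∃ G : (Fin (n + 1) → ℂ) × ℂ → ℂ, AnalyticAt ℂ G (0, 0) ∧
      (∃ a : (Fin (n + 1) → ℂ) → ℂ, AnalyticAt ℂ a 0 ∧
        ∀ᶠ x in 𝓝 (0 : Fin (n + 1) → ℂ), G (x, 0) = g x + a x * F (x, 0)) ∧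
      ∃ δ : ℝ, 0 < δ ∧ ∀ᵐ t : ℂ, ‖t‖ < δ → InJN p (sl F t) (sl G t) := by
  have hq : 0 < 2 / p := by positivity
  have hzero : (0 : (Fin (n + 1) → ℂ) × ℂ) ∈ Bx n R T := by
    refine ⟨fun i => ?_, ?_⟩
    · simpa using O.hR
    · simpa using O.hT
  have hBo : IsOpen (Bx n R T) := isOpen_Bx R T
  set Ω : Set ((Fin (n + 1) → ℂ) × ℂ) := kap ⁻¹' Bx n R T with hΩ
  have hΩo : IsOpen Ω := hBo.preimage kap_cont
  set F' : (Fin (n + 1) → ℂ) × ℂ → ℂ := fun p => F (kap p) with hF'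
  have hF'a : AnalyticOnNhd ℂ F' Ω := fun p hp =>
    AnalyticAt.comp (g := F) (O.hF _ hp) (kap_analytic p)
  have hF'app : ∀ t x' z, F' (Fin.cons t x', z) = F (Fin.cons z x', t) := by
    intro t x' z
    rw [hF']; simp [kap, Fin.tail_cons]
  -- slices of `F`
  have hslan : ∀ t x, (x, t) ∈ Bx n R T → AnalyticAt ℂ (sl F t) x := by
    intro t x hx
    exact AnalyticAt.comp (g := F) (f := fun x => (x, t)) (O.hF _ hx)
      (analyticAt_id.prod analyticAt_const)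
  have hvd : ∀ t x' z, ((Fin.cons z x' : Fin (n + 1) → ℂ), t) ∈ Bx n R T →
      vd F' (Fin.cons t x', z) = coordDeriv (sl F t) 0 (Fin.cons z x') := by
    intro t x' z h
    rw [← deriv_cons (hslan t _ h).differentiableAt]
    unfold vd
    simp only [hF'app]
    rfl
  -- order of vanishing
  obtain ⟨d, hd⟩ : ∃ d : ℕ, analyticOrderAt (fun z : ℂ => F' (0, z)) 0 = d := by
    have h1 : analyticOrderAt (fun z : ℂ => F' (0, z)) 0 ≠ ⊤ := by
      intro htop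
      rw [analyticOrderAt_eq_top] at htop
      obtain ⟨z, hz1, hz2⟩ := (hreg.and_eventually (nhdsWithin_le_nhds htop)).exists
      apply hz1
      have : (0 : Fin (n + 1) → ℂ) = Fin.cons (0 : ℂ) (0 : Fin n → ℂ) := by
        ext i; refine Fin.cases rfl (fun j => rfl) i
      rw [this, hF'app] at hz2
      exact hz2
    obtain ⟨d, hd⟩ := ENat.ne_top_iff_exists.1 h1
    exact ⟨d, hd.symm⟩
  -- generic simplicity
  obtain ⟨δ', hδ', hs0⟩ := generic_simple hn (f := sl F 0) (hslan 0 0 hzero) hiso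
  have hs : ∃ᶠ y in 𝓝 (0 : Fin (n + 1) → ℂ), ∀ z ∈ ball (0 : ℂ) (min δ' R),
      F' (y, z) = 0 → vd F' (y, z) ≠ 0 := by
    have h1 : Tendsto (fun x' : Fin n → ℂ => (Fin.cons (0 : ℂ) x' : Fin (n + 1) → ℂ)) (𝓝 0) (𝓝 0) := by
      have h2 : Continuous (fun x' : Fin n → ℂ => (Fin.cons (0 : ℂ) x' : Fin (n + 1) → ℂ)) := by
        refine continuous_pi fun i => ?_
        refine Fin.cases ?_ (fun j => ?_) i
        · simpa using continuous_const
        · simpa using continuous_apply j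
      have h3 := h2.tendsto 0
      have h4 : (Fin.cons (0 : ℂ) (0 : Fin n → ℂ) : Fin (n + 1) → ℂ) = 0 := by
        ext i; refine Fin.cases rfl (fun j => rfl) i
      rwa [h4] at h3
    refine h1.frequently ((hs0.and_eventually (ball_mem_nhds 0 O.hR)).mono ?_)
    rintro x' ⟨hx', hx'R⟩ z hz hFz
    rw [hF'app] at hFz
    have hzR : ‖z‖ < R := by
      have := mem_ball_zero_iff.1 hz
      exact this.trans_le (min_le_right _ _)
    have hmem : ((Fin.cons z x' : Fin (n + 1) → ℂ), (0 : ℂ)) ∈ Bx n R T := by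
      refine ⟨fun i => ?_, by simpa using O.hT⟩
      refine Fin.cases ?_ (fun j => ?_) i
      · simpa using hzR
      · simp only [Fin.cons_succ]
        exact (norm_le_pi_norm x' j).trans_lt (mem_ball_zero_iff.1 hx'R)
    rw [hvd 0 x' z hmem, ← deriv_cons (hslan 0 _ hmem).differentiableAt]
    exact hx' z (ball_subset_ball (min_le_left _ _) hz) hFz
  -- the box
  have h0Ω : ((0 : Fin (n + 1) → ℂ), (0 : ℂ)) ∈ Ω := by
    show kap 0 ∈ Bx n R T
    rw [kap_zero]; exact hzero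
  obtain ⟨ρ, hρ, hρ', w, D, δ₀, hδ₀, hB⟩ := exists_wbox (F := F') hΩo h0Ω hF'a hd
    (lt_min hδ' O.hR) hs
  have B := hB δ₀ hδ₀ le_rfl
  -- the tube bound
  set r : ℕ → ℝ := fun k => 1 / ((k : ℝ) + 1) with hr
  have hr0 : ∀ k, 0 < r k := fun k => by rw [hr]; positivity
  have hrt : Tendsto r atTop (𝓝 0) := tendsto_one_div_add_atTop_nhds_zero_nat
  set G' : ℕ → (Fin (n + 1) → ℂ) × ℂ → ℂ := fun k p => G k (kap p) with hG'
  have hG'a : ∀ k, AnalyticOnNhd ℂ (G' k) Ω := fun k p hp =>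
    AnalyticAt.comp (g := G k) (O.hG k _ hp) (kap_analytic p)
  set M : ℝ≥0∞ := ENNReal.ofReal (C / Real.pi) with hM
  have htube : ∀ k, tube volume F' Ω (r k) (fun x => ‖G' k x‖ₑ ^ (2 / p)) ≤
      M * volume (ball (0 : ℂ) (r k)) := by
    intro k
    have h1 := kap_mp (n := n) |>.setLIntegral_comp_preimage_emb kapE.measurableEmbedding
      (fun x => ‖G k x‖ₑ ^ (2 / p)) {x | x ∈ Bx n R T ∧ ‖F x‖ < r k}
    have h2 : tube volume F' Ω (r k) (fun x => ‖G' k x‖ₑ ^ (2 / p)) =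
        ∫⁻ x in {x | x ∈ Bx n R T ∧ ‖F x‖ < r k}, ‖G k x‖ₑ ^ (2 / p) := by
      rw [← h1]; rfl
    rw [h2]
    refine (O.int k).trans ?_
    rw [Complex.volume_ball, hM]
    have h3 : ENNReal.ofReal (r k) ^ 2 * (NNReal.pi : ℝ≥0∞) =
        ENNReal.ofReal (Real.pi * r k ^ 2) := by
      rw [ENNReal.ofReal_mul Real.pi_pos.le, ENNReal.ofReal_pow (hr0 k).le, mul_comm]
      congr 1
      rw [← NNReal.coe_real_pi, ENNReal.ofReal_coe_nnreal]
    rw [h3, ← ENNReal.ofReal_mul' (by positivity)]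
    refine ENNReal.ofReal_le_ofReal (le_of_eq ?_)
    rw [hr]
    field_simp
  obtain ⟨φ, hφ, g', hg', hlim⟩ := B.limit volume hq (M := M) ENNReal.ofReal_ne_top hr0 hrt hG'a htube
  have hsheet := B.sheet_le volume hq (M := M) (r := fun k => r (φ k)) (fun k => hr0 _)
    (hrt.comp hφ.tendsto_atTop) (G := fun k => G' (φ k)) (fun k => hG'a _) (fun k => htube _) hlim
  refine ⟨fun x => g' (kap x), ?_, ?_, ?_⟩
  · have h1 : AnalyticAt ℂ g' (kap ((0 : Fin (n + 1) → ℂ), (0 : ℂ))) := by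
      have : kap ((0 : Fin (n + 1) → ℂ), (0 : ℂ)) = (0, 0) := kap_zero
      rw [this]
      exact hg' _ ⟨mem_ball_self hδ₀, mem_ball_self hρ⟩
    exact AnalyticAt.comp (g := g') h1 (kap_analytic _)
  · -- the slice `t = 0`
    set f : (Fin n → ℂ) × ℂ → ℂ := fun y => F (Fin.cons y.2 y.1, 0) with hf
    set h : (Fin n → ℂ) × ℂ → ℂ := fun y => g' (Fin.cons 0 y.1, y.2) - g (Fin.cons y.2 y.1) with hh
    have hconsL : ∀ y : (Fin n → ℂ) × ℂ, (Fin.cons y.2 y.1 : Fin (n + 1) → ℂ) = consL y := fun y =>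
      (consL_apply y).symm
    have hfa : AnalyticAt ℂ f (0, 0) := by
      have h1 : AnalyticAt ℂ (fun y : (Fin n → ℂ) × ℂ => ((consL y : Fin (n + 1) → ℂ), (0 : ℂ)))
          (0, 0) := (consL.analyticAt _).prod analyticAt_const
      have h2 : AnalyticAt ℂ F ((consL ((0 : Fin n → ℂ), (0 : ℂ)) : Fin (n + 1) → ℂ), (0 : ℂ)) := by
        have : (consL ((0 : Fin n → ℂ), (0 : ℂ)) : Fin (n + 1) → ℂ) = 0 := map_zero _
        rw [this]; exact O.hF _ hzero
      have h3 := AnalyticAt.comp (g := F) (f := fun y : (Fin n → ℂ) × ℂ =>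
        ((consL y : Fin (n + 1) → ℂ), (0 : ℂ))) h2 h1
      refine h3.congr (Eventually.of_forall fun y => ?_)
      simp only [hf, Function.comp_apply, hconsL]
    have hcons0 : (Fin.cons (0 : ℂ) (0 : Fin n → ℂ) : Fin (n + 1) → ℂ) = 0 := by
      ext i; refine Fin.cases rfl (fun j => rfl) i
    have hha : AnalyticAt ℂ h (0, 0) := by
      have h1 : AnalyticAt ℂ (fun y : (Fin n → ℂ) × ℂ => kap ((consL y : Fin (n + 1) → ℂ), (0 : ℂ)))
          (0, 0) := AnalyticAt.comp (g := kap) (kap_analytic _)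
          ((consL.analyticAt _).prod analyticAt_const)
      have h2 : AnalyticAt ℂ g' (kap ((consL ((0 : Fin n → ℂ), (0 : ℂ)) : Fin (n + 1) → ℂ),
          (0 : ℂ))) := by
        have h3 : (consL ((0 : Fin n → ℂ), (0 : ℂ)) : Fin (n + 1) → ℂ) = 0 := map_zero _
        have h4 : kap ((0 : Fin (n + 1) → ℂ), (0 : ℂ)) = (0, 0) := kap_zero
        rw [h3, h4]
        exact hg' _ ⟨mem_ball_self hδ₀, mem_ball_self hρ⟩
      have h3 := AnalyticAt.comp (g := g') (f := fun y : (Fin n → ℂ) × ℂ =>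
        kap ((consL y : Fin (n + 1) → ℂ), (0 : ℂ))) h2 h1
      have h4 : AnalyticAt ℂ g (consL ((0 : Fin n → ℂ), (0 : ℂ))) := by
        have : (consL ((0 : Fin n → ℂ), (0 : ℂ)) : Fin (n + 1) → ℂ) = 0 := map_zero _
        rw [this]; exact hg
      have h5 := AnalyticAt.comp (g := g) h4 (consL.analyticAt _)
      refine (h3.sub h5).congr (Eventually.of_forall fun y => ?_)
      simp only [hh, Pi.sub_apply, Function.comp_apply, consL_apply, kap, Fin.tail_cons,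
        Fin.cons_zero]
    have hford : analyticOrderAt (fun z => f (0, z)) 0 = d := by
      rw [← hd]
      have : (fun z => f (0, z)) = fun z => F' (0, z) := by
        funext z
        rw [← hcons0, hF'app]
      rw [this]
    have hfs : ∃ᶠ y in 𝓝 (0 : Fin n → ℂ), ∀ z ∈ ball (0 : ℂ) δ', f (y, z) = 0 → vd f (y, z) ≠ 0 :=
      hs0
    have hfv : ∀ᶠ y in 𝓝 (((0 : Fin n → ℂ), (0 : ℂ)) : (Fin n → ℂ) × ℂ),
        f y = 0 → vd f y ≠ 0 → h y = 0 := by
      have h1 : ∀ᶠ y in 𝓝 (((0 : Fin n → ℂ), (0 : ℂ)) : (Fin n → ℂ) × ℂ),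
          y ∈ ball (((0 : Fin n → ℂ), (0 : ℂ)) : (Fin n → ℂ) × ℂ) (min (min δ₀ ρ) R) :=
        ball_mem_nhds _ (lt_min (lt_min hδ₀ hρ) O.hR)
      filter_upwards [h1] with y hy hfy hvy
      obtain ⟨x', z⟩ := y
      rw [mem_ball, Prod.dist_eq, max_lt_iff] at hy
      simp only [dist_zero_right] at hy
      obtain ⟨hy1, hy2⟩ := hy
      have hz1 : z ∈ ball (0 : ℂ) ρ := by
        rw [mem_ball_zero_iff]
        exact hy2.trans_le ((min_le_left _ _).trans (min_le_right _ _))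
      have hcn : (Fin.cons (0 : ℂ) x' : Fin (n + 1) → ℂ) ∈ ball (0 : Fin (n + 1) → ℂ) δ₀ := by
        rw [mem_ball_zero_iff, pi_norm_lt_iff hδ₀]
        intro i
        refine Fin.cases ?_ (fun j => ?_) i
        · simpa using hδ₀
        · simp only [Fin.cons_succ]
          exact (norm_le_pi_norm x' j).trans_lt
            (hy1.trans_le ((min_le_left _ _).trans (min_le_left _ _)))
      have hmem : ∀ i, ‖(Fin.cons z x' : Fin (n + 1) → ℂ) i‖ < R := by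
        intro i
        refine Fin.cases ?_ (fun j => ?_) i
        · simpa using hy2.trans_le (min_le_right _ _)
        · simp only [Fin.cons_succ]
          exact (norm_le_pi_norm x' j).trans_lt (hy1.trans_le (min_le_right _ _))
      have hmem' : ((Fin.cons z x' : Fin (n + 1) → ℂ), (0 : ℂ)) ∈ Bx n R T :=
        ⟨hmem, by simpa using O.hT⟩
      have hF0 : F (Fin.cons z x', 0) = 0 := hfy
      have hlim' := hlim (Fin.cons 0 x') hcn z hz1 (by rw [hF'app]; exact hF0)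
      have hcd : coordDeriv (sl F 0) 0 (Fin.cons z x') ≠ 0 := by
        rw [← deriv_cons (hslan 0 _ hmem').differentiableAt]
        exact hvy
      have hconst : ∀ k, G' (φ k) (Fin.cons 0 x', z) = g (Fin.cons z x') := by
        intro k
        rw [← O.ext (φ k) (Fin.cons z x') hmem hF0 hcd]
        simp only [hG', kap, Fin.tail_cons, Fin.cons_zero]
      have h2 : Tendsto (fun k => G' (φ k) (Fin.cons 0 x', z)) atTop (𝓝 (g (Fin.cons z x'))) :=
        tendsto_const_nhds.congr fun k => (hconst k).symm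
      have h3 := tendsto_nhds_unique hlim' h2
      simp only [hh]
      rw [h3, sub_self]
    obtain ⟨a, ha, hadiv⟩ := dvd_of_vanish hfa hford hδ' hfs hha hfv
    have htl : Continuous (fun x : Fin (n + 1) → ℂ => ((Fin.tail x : Fin n → ℂ), x 0)) := by
      refine Continuous.prodMk ?_ (continuous_apply 0)
      exact continuous_pi fun j => continuous_apply j.succ
    have htla : AnalyticAt ℂ (fun x : Fin (n + 1) → ℂ => ((Fin.tail x : Fin n → ℂ), x 0)) 0 := by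
      refine AnalyticAt.prod ?_ ?_
      · rw [analyticAt_pi_iff]
        exact fun j => (ContinuousLinearMap.proj (R := ℂ) (φ := fun _ : Fin (n + 1) => ℂ)
          j.succ).analyticAt 0
      · exact (ContinuousLinearMap.proj (R := ℂ) (φ := fun _ : Fin (n + 1) => ℂ) 0).analyticAt 0
    have htl0 : ((Fin.tail (0 : Fin (n + 1) → ℂ) : Fin n → ℂ), (0 : Fin (n + 1) → ℂ) 0) =
        (0, 0) := rfl
    refine ⟨fun x => a (Fin.tail x, x 0), ?_, ?_⟩
    · exact AnalyticAt.comp (g := a) (f := fun x : Fin (n + 1) → ℂ =>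
        ((Fin.tail x : Fin n → ℂ), x 0)) (by rw [htl0]; exact ha) htla
    · have h1 : Tendsto (fun x : Fin (n + 1) → ℂ => ((Fin.tail x : Fin n → ℂ), x 0)) (𝓝 0)
          (𝓝 (0, 0)) := by
        have := htl.tendsto 0
        rwa [htl0] at this
      filter_upwards [h1.eventually hadiv] with x hx
      simp only [hh, hf, Fin.cons_self_tail] at hx
      rw [← hx]
      simp only [kap]
      ring
  · -- almost every `t`
    set N : (Fin (n + 1) → ℂ) → ℝ≥0∞ := shSum F' (ball (0 : Fin (n + 1) → ℂ) δ₀ ×ˢ ball (0 : ℂ) ρ)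
      (fun x => ‖g' x‖ₑ ^ (2 / p)) with hN
    have hopen : IsOpen (ball (0 : Fin (n + 1) → ℂ) δ₀ ×ˢ ball (0 : ℂ) ρ) :=
      isOpen_ball.prod isOpen_ball
    have hsub : ball (0 : Fin (n + 1) → ℂ) δ₀ ×ˢ ball (0 : ℂ) ρ ⊆ Ω := fun x hx =>
      B.sub ⟨hx.1, ball_subset_closedBall hx.2⟩
    have hNm : Measurable N := (lsc_shSum hopen (hF'a.mono hsub)
      ((ENNReal.continuous_rpow_const).comp_continuousOn
        (continuous_enorm.comp_continuousOn hg'.continuousOn))).measurable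
    set e := MeasurableEquiv.piFinSuccAbove (fun _ : Fin (n + 1) => ℂ) 0 with he
    have hcm : Measurable (fun q : ℂ × (Fin n → ℂ) => (Fin.cons q.1 q.2 : Fin (n + 1) → ℂ)) := by
      refine Continuous.measurable (continuous_pi fun i => ?_)
      refine Fin.cases ?_ (fun j => ?_) i
      · simpa using continuous_fst
      · simp only [Fin.cons_succ]
        exact (continuous_apply j).comp continuous_snd
    have hNc : Measurable (fun q : ℂ × (Fin n → ℂ) => N (Fin.cons q.1 q.2)) := hNm.comp hcm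
    have hfub : ∫⁻ t in ball (0 : ℂ) δ₀, ∫⁻ x' in ball (0 : Fin n → ℂ) δ₀, N (Fin.cons t x') ≤ M := by
      have h1 := (volume_preserving_piFinSuccAbove (fun _ : Fin (n + 1) => ℂ)
        0).setLIntegral_comp_preimage_emb e.measurableEmbedding
        (fun q : ℂ × (Fin n → ℂ) => N (Fin.cons q.1 q.2))
        (ball (0 : ℂ) δ₀ ×ˢ ball (0 : Fin n → ℂ) δ₀)
      have h2 : ∫⁻ q in ball (0 : ℂ) δ₀ ×ˢ ball (0 : Fin n → ℂ) δ₀, N (Fin.cons q.1 q.2)
          ∂(volume : Measure (ℂ × (Fin n → ℂ))) =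
          ∫⁻ t in ball (0 : ℂ) δ₀, ∫⁻ x' in ball (0 : Fin n → ℂ) δ₀, N (Fin.cons t x') := by
        rw [Measure.volume_eq_prod, ← Measure.prod_restrict]
        exact lintegral_prod _ hNc.aemeasurable
      rw [← h2, ← h1]
      refine le_trans (le_of_eq ?_) (le_trans (lintegral_mono_set (μ := volume) (f := N)
        (s := e ⁻¹' (ball (0 : ℂ) δ₀ ×ˢ ball (0 : Fin n → ℂ) δ₀))
        (t := ball (0 : Fin (n + 1) → ℂ) δ₀) ?_) hsheet)
      · refine lintegral_congr fun y => ?_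
        congr 1
        exact Fin.cons_self_tail y
      · rintro y ⟨hy1, hy2⟩
        rw [mem_ball_zero_iff, pi_norm_lt_iff hδ₀]
        intro i
        refine Fin.cases ?_ (fun j => ?_) i
        · exact mem_ball_zero_iff.1 hy1
        · exact (norm_le_pi_norm (e y).2 j).trans_lt (mem_ball_zero_iff.1 hy2)
    have hfin : ∀ᵐ t : ℂ, t ∈ ball (0 : ℂ) δ₀ →
        ∫⁻ x' in ball (0 : Fin n → ℂ) δ₀, N (Fin.cons t x') < ∞ := by
      rw [← ae_restrict_iff' measurableSet_ball]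
      refine ae_lt_top ?_ (ne_top_of_le_ne_top ENNReal.ofReal_ne_top hfub)
      exact hNc.lintegral_prod_right'
    refine ⟨δ₀, hδ₀, ?_⟩
    filter_upwards [hfin] with t ht htδ
    set r₁ : ℝ := min δ₀ ρ with hr₁
    have hr₁0 : 0 < r₁ := lt_min hδ₀ hρ
    refine ⟨r₁, hr₁0, lt_of_le_of_lt ?_ (ht (mem_ball_zero_iff.2 htδ))⟩
    have hset : {x' : Fin n → ℂ | ∀ i, ‖x' i‖ < r₁} = ball 0 r₁ := by
      ext x'
      rw [mem_ofPred_eq, mem_ball_zero_iff, pi_norm_lt_iff hr₁0]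
    unfold JintN
    rw [hset]
    refine le_trans (setLIntegral_mono' measurableSet_ball fun x' hx' => ?_)
      (lintegral_mono_set (μ := volume) (f := fun x' : Fin n → ℂ => N (Fin.cons t x'))
        (ball_subset_ball (min_le_left _ _)))
    have hcn : (Fin.cons t x' : Fin (n + 1) → ℂ) ∈ ball (0 : Fin (n + 1) → ℂ) δ₀ := by
      rw [mem_ball_zero_iff, pi_norm_lt_iff hδ₀]
      intro i
      refine Fin.cases ?_ (fun j => ?_) i
      · simpa using htδ
      · simp only [Fin.cons_succ]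
        exact (norm_le_pi_norm x' j).trans_lt
          ((mem_ball_zero_iff.1 hx').trans_le (min_le_left _ _))
    have hbox : ∀ z : ℂ, ‖z‖ < r₁ → ((Fin.cons z x' : Fin (n + 1) → ℂ), t) ∈ Bx n R T := by
      intro z hz
      have h1 : kap ((Fin.cons t x' : Fin (n + 1) → ℂ), z) ∈ Bx n R T :=
        B.sub ⟨hcn, ball_subset_closedBall (mem_ball_zero_iff.2 (hz.trans_le (min_le_right _ _)))⟩
      have h2 : kap ((Fin.cons t x' : Fin (n + 1) → ℂ), z) = (Fin.cons z x', t) := by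
        simp [kap, Fin.tail_cons]
      rwa [h2] at h1
    have hmem : ∀ z : {z : ℂ // ‖z‖ < r₁ ∧ sl F t (Fin.cons z x') = 0 ∧
        coordDeriv (sl F t) 0 (Fin.cons z x') ≠ 0},
        (z : ℂ) ∈ {z : ℂ | ((Fin.cons t x' : Fin (n + 1) → ℂ), z) ∈
          ball (0 : Fin (n + 1) → ℂ) δ₀ ×ˢ ball (0 : ℂ) ρ ∧ F' (Fin.cons t x', z) = 0 ∧
          vd F' (Fin.cons t x', z) ≠ 0} := by
      rintro ⟨z, hz1, hz2, hz3⟩
      refine ⟨⟨hcn, mem_ball_zero_iff.2 (hz1.trans_le (min_le_right _ _))⟩, ?_, ?_⟩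
      · rw [hF'app]; exact hz2
      · rw [hvd t x' z (hbox z hz1)]; exact hz3
    have hinj : Function.Injective (fun z : {z : ℂ // ‖z‖ < r₁ ∧ sl F t (Fin.cons z x') = 0 ∧
        coordDeriv (sl F t) 0 (Fin.cons z x') ≠ 0} => (⟨z, hmem z⟩ : {z : ℂ |
          ((Fin.cons t x' : Fin (n + 1) → ℂ), z) ∈
          ball (0 : Fin (n + 1) → ℂ) δ₀ ×ˢ ball (0 : ℂ) ρ ∧ F' (Fin.cons t x', z) = 0 ∧
          vd F' (Fin.cons t x', z) ≠ 0})) := by
      intro a b hab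
      have hab' := congrArg Subtype.val hab
      exact Subtype.ext hab'
    have hts := ENNReal.tsum_comp_le_tsum_of_injective hinj
      (fun z => ‖g' (Fin.cons t x', (z : ℂ))‖ₑ ^ (2 / p) / ‖vd F' (Fin.cons t x', (z : ℂ))‖ₑ ^ 2)
    refine le_trans (le_of_eq (tsum_congr fun z => ?_)) hts
    have h1 : vd F' (Fin.cons t x', (z : ℂ)) = coordDeriv (sl F t) 0 (Fin.cons z.1 x') :=
      hvd t x' z (hbox z z.2.1)
    simp only
    rw [h1]
    have h2 : sl (fun x => g' (kap x)) t (Fin.cons z.1 x') = g' (Fin.cons t x', (z : ℂ)) := by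
      simp [sl, kap, Fin.tail_cons]
    rw [h2, ENNReal.ofReal_div_of_pos (by have := norm_pos_iff.2 z.2.2.2; positivity),
      ← ENNReal.ofReal_rpow_of_nonneg (norm_nonneg _) hq.le, ofReal_norm,
      ENNReal.ofReal_pow (norm_nonneg _), ofReal_norm]

end

end Crest.Agent.R257.Sh_297
end

-- ▼ part R257/Sh14_297

/-!
# Row 257, leaf D-SH (helper297), part 14: (1-OUT) from helper331's (D4); `OTStmt`
-/

set_option autoImplicit false
set_option linter.unusedSectionVars false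

open MeasureTheory Set Metric Topology Filter
open scoped ENNReal
open Crest.AlgGeometry.Germ Crest.Agent.R257.Defs_219

namespace Crest.Agent.R257.Sh_297

noncomputable section

open Crest.Agent.R257.OtK_331 (Pd Dat dT Sh d0 C0 d4 mem_PdT isOpen_Pd)

variable {n : ℕ}

/-- monotonicity in the radius -/
lemma JintN_mono {p r r' : ℝ} (h : r' ≤ r) (f g : (Fin (n + 1) → ℂ) → ℂ) :
    JintN p r' f g ≤ JintN p r f g := by
  unfold JintN
  refine (lintegral_mono fun x' => ?_).trans (lintegral_mono_set fun x' hx' i => (hx' i).trans_le h)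
  have hinj : Function.Injective (fun z : {z : ℂ // ‖z‖ < r' ∧ f (Fin.cons z x') = 0 ∧
      coordDeriv f 0 (Fin.cons z x') ≠ 0} => (⟨z, z.2.1.trans_le h, z.2.2⟩ :
      {z : ℂ // ‖z‖ < r ∧ f (Fin.cons z x') = 0 ∧ coordDeriv f 0 (Fin.cons z x') ≠ 0})) := by
    intro a b hab
    have hab' := congrArg Subtype.val hab
    exact Subtype.ext hab'
  exact ENNReal.tsum_comp_le_tsum_of_injective hinj
    (fun z => ENNReal.ofReal (‖g (Fin.cons z.1 x')‖ ^ (2 / p) / ‖coordDeriv f 0 (Fin.cons z.1 x')‖ ^ 2))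

/-- `(x, t) ↦ cons t x` -/
def consE (n : ℕ) : (Fin (n + 1) → ℂ) × ℂ ≃ᵐ (Fin (n + 2) → ℂ) :=
  MeasurableEquiv.prodComm.trans (MeasurableEquiv.piFinSuccAbove (fun _ : Fin (n + 2) => ℂ) 0).symm

lemma consE_apply (p : (Fin (n + 1) → ℂ) × ℂ) : consE n p = Fin.cons p.2 p.1 := by
  ext i
  refine Fin.cases ?_ (fun j => ?_) i
  · rfl
  · rfl

lemma consE_mp : MeasurePreserving (consE n) volume volume := by
  have h1 := (volume_preserving_piFinSuccAbove (fun _ : Fin (n + 2) => ℂ) 0).symm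
    (MeasurableEquiv.piFinSuccAbove (fun _ : Fin (n + 2) => ℂ) 0)
  have h2 : MeasurePreserving (Prod.swap : (Fin (n + 1) → ℂ) × ℂ → _) volume volume :=
    Measure.measurePreserving_swap
  exact h1.comp h2

lemma sh_le (d : Dat n) {R p : ℝ} (hR : d.R = fun _ => R) (g : (Fin (n + 1) → ℂ) → ℂ) :
    Sh d (fun x => ENNReal.ofReal (‖g x‖ ^ (2 * (1 / p)) * (‖d0 d.h x‖ ^ 2)⁻¹)) ≤
      JintN p R d.h g := by
  have hset : MeasurableSet {x' : Fin n → ℂ | ∀ i, ‖x' i‖ < R} := (isOpen_Pd fun _ => R).measurableSet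
  unfold Sh JintN
  rw [← lintegral_indicator hset]
  refine lintegral_mono fun x' => ?_
  by_cases hx : x' ∈ {x' : Fin n → ℂ | ∀ i, ‖x' i‖ < R}
  · rw [indicator_of_mem hx]
    have hm : ∀ z : {z : ℂ // (Fin.cons z x' : Fin (n + 1) → ℂ) ∈ d.U ∧ d.h (Fin.cons z x') = 0},
        ‖(z : ℂ)‖ < R ∧ d.h (Fin.cons (z : ℂ) x') = 0 ∧ coordDeriv d.h 0 (Fin.cons (z : ℂ) x') ≠ 0 := by
      rintro ⟨z, ⟨hz1, hz2⟩, hz3⟩
      refine ⟨?_, hz3, hz2⟩
      have := hz1 0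
      rw [hR] at this
      simpa using this
    have hinj : Function.Injective (fun z : {z : ℂ // (Fin.cons z x' : Fin (n + 1) → ℂ) ∈ d.U ∧
        d.h (Fin.cons z x') = 0} => (⟨z, hm z⟩ : {z : ℂ // ‖z‖ < R ∧ d.h (Fin.cons z x') = 0 ∧
          coordDeriv d.h 0 (Fin.cons z x') ≠ 0})) := by
      intro a b hab
      have hab' := congrArg Subtype.val hab
      exact Subtype.ext hab'
    refine le_trans (le_of_eq (tsum_congr fun z => ?_)) (ENNReal.tsum_comp_le_tsum_of_injective hinj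
      (fun z => ENNReal.ofReal (‖g (Fin.cons z.1 x')‖ ^ (2 / p) /
        ‖coordDeriv d.h 0 (Fin.cons z.1 x')‖ ^ 2)))
    have h1 : 2 * (1 / p) = 2 / p := by ring
    simp only
    rw [h1, ← div_eq_mul_inv]
    rfl
  · rw [indicator_of_notMem hx]
    have : IsEmpty {z : ℂ // (Fin.cons z x' : Fin (n + 1) → ℂ) ∈ d.U ∧ d.h (Fin.cons z x') = 0} := by
      refine ⟨?_⟩
      rintro ⟨z, ⟨hz1, hz2⟩, hz3⟩
      refine hx fun i => ?_
      have := hz1 i.succ
      rw [hR] at this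
      simpa using this
    rw [tsum_empty]

/-- (1-OUT) -/
theorem exists_out1 {F : (Fin (n + 1) → ℂ) × ℂ → ℂ} {g : (Fin (n + 1) → ℂ) → ℂ} {p : ℝ}
    (hp : 1 ≤ p) (hF : AnalyticAt ℂ F (0, 0)) (hg : AnalyticAt ℂ g 0)
    (hJ : InJN p (sl F 0) g) : ∃ R T C G, Out1 F g (2 / p) R T C G := by
  obtain ⟨r₀, hr₀, hJ⟩ := hJ
  have hp0 : 0 < p := by linarith
  -- the radius
  have hev1 : ∀ᶠ x in 𝓝 (((0 : Fin (n + 1) → ℂ), (0 : ℂ)) : (Fin (n + 1) → ℂ) × ℂ),
      AnalyticAt ℂ F x ∧ ‖F x‖ < ‖F (0, 0)‖ + 1 :=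
    hF.eventually_analyticAt.and (hF.continuousAt.norm.tendsto.eventually (gt_mem_nhds (by simp)))
  have hev2 : ∀ᶠ x in 𝓝 (0 : Fin (n + 1) → ℂ), AnalyticAt ℂ g x ∧ ‖g x‖ < ‖g 0‖ + 1 :=
    hg.eventually_analyticAt.and (hg.continuousAt.norm.tendsto.eventually (gt_mem_nhds (by simp)))
  obtain ⟨ε₁, hε₁, h1⟩ := Metric.eventually_nhds_iff_ball.1 hev1
  obtain ⟨ε₂, hε₂, h2⟩ := Metric.eventually_nhds_iff_ball.1 hev2
  set R : ℝ := min (min ε₁ ε₂) r₀ with hR
  have hR0 : 0 < R := lt_min (lt_min hε₁ hε₂) hr₀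
  have hR1 : R ≤ ε₁ := (min_le_left _ _).trans (min_le_left _ _)
  have hR2 : R ≤ ε₂ := (min_le_left _ _).trans (min_le_right _ _)
  have hR3 : R ≤ r₀ := min_le_right _ _
  set T : ℝ := ε₁ with hT
  have hbox : ∀ x : Fin (n + 1) → ℂ, ∀ t : ℂ, (∀ i, ‖x i‖ < R) → ‖t‖ < T →
      (x, t) ∈ ball (((0 : Fin (n + 1) → ℂ), (0 : ℂ)) : (Fin (n + 1) → ℂ) × ℂ) ε₁ := by
    intro x t hx ht
    rw [mem_ball, Prod.dist_eq, max_lt_iff]
    simp only [dist_zero_right]
    refine ⟨((pi_norm_lt_iff hR0).2 hx).trans_le hR1, ht⟩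
  have hboxg : ∀ x : Fin (n + 1) → ℂ, (∀ i, ‖x i‖ < R) → x ∈ ball (0 : Fin (n + 1) → ℂ) ε₂ := by
    intro x hx
    rw [mem_ball_zero_iff]
    exact ((pi_norm_lt_iff hR0).2 hx).trans_le hR2
  have hslan : ∀ x : Fin (n + 1) → ℂ, (∀ i, ‖x i‖ < R) → AnalyticAt ℂ (sl F 0) x := by
    intro x hx
    exact AnalyticAt.comp (g := F) (f := fun x => (x, (0 : ℂ)))
      (h1 _ (hbox x 0 hx (by simpa using hε₁))).1 (analyticAt_id.prod analyticAt_const)
  set d : Dat n := ⟨fun _ => R, sl F 0, fun x hx =>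
    (hslan x hx).differentiableAt.differentiableWithinAt⟩ with hd
  set F3 : (Fin (n + 2) → ℂ) → ℂ := fun X => F (Fin.tail X, X 0) with hF3
  have hF3d : DifferentiableOn ℂ F3 (Pd (dT d.R T).R) := by
    intro X hX
    obtain ⟨hX1, hX2⟩ := mem_PdT.1 hX
    have h3 : DifferentiableAt ℂ (fun X : Fin (n + 2) → ℂ => ((Fin.tail X : Fin (n + 1) → ℂ), X 0)) X :=
      (OtK_331.diff_tail X).prodMk (differentiable_apply 0 X)
    exact (DifferentiableAt.comp (g := F) X (h1 _ (hbox _ _ hX2 hX1)).1.differentiableAt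
      h3).differentiableWithinAt
  set K : ℝ≥0∞ := JintN p r₀ (sl F 0) g with hK
  have hKt : K ≠ ∞ := hJ.ne
  have hSh : Sh d (fun x => ENNReal.ofReal (‖g x‖ ^ (2 * (1 / p)) * (‖d0 d.h x‖ ^ 2)⁻¹)) ≤ K :=
    (sh_le d (R := R) rfl g).trans (JintN_mono hR3 _ _)
  have hC0 := OtK_331.C0_nonneg
  set c : ℝ := 4 * T ^ 2 * (C0 * C0) * K.toReal + 1 with hc
  have hc0 : 0 < c := by positivity
  have hmain : ∀ k : ℕ, ∃ G : (Fin (n + 2) → ℂ) → ℂ, DifferentiableOn ℂ G (Pd (dT d.R T).R) ∧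
      (∀ x ∈ d.U, d.h x = 0 → G (Fin.cons 0 x) = g x) ∧
      ∫⁻ X in Pd (dT d.R T).R, ENNReal.ofReal (‖G X‖ ^ (2 * (1 / p)) *
        ((‖F3 X‖ ^ 2 + (1 / ((k : ℝ) + 1)) ^ 2) ^ 2)⁻¹) ≤
        ENNReal.ofReal (c * ((1 / ((k : ℝ) + 1)) ^ 2)⁻¹) := by
    intro k
    have hr : 0 < 1 / ((k : ℝ) + 1) := by positivity
    refine d4 d hε₁ hF3d (fun x hx => ?_) ⟨‖F (0, 0)‖ + 1, fun x hx => ?_⟩ (by positivity)
      (by rw [div_le_one hp0]; exact hp) hr (G0 := g) (fun x hx => ?_)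
      ⟨‖g 0‖ + 1, fun x hx => (h2 x (hboxg x hx)).2.le⟩ hKt hSh ?_
    · simp only [hF3, Fin.tail_cons, Fin.cons_zero]
      rfl
    · exact (h1 _ (hbox x 0 hx (by simpa using hε₁))).2.le
    · exact (h2 x (hboxg x hx)).1.differentiableAt.differentiableWithinAt
    · rw [← ENNReal.ofReal_toReal hKt, ← ENNReal.ofReal_mul (by positivity)]
      rw [ENNReal.ofReal_lt_ofReal_iff (by positivity), hc]
      have h3 : 0 < (((1 / ((k : ℝ) + 1)) ^ 2)⁻¹) := by positivity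
      nlinarith
  choose G3 hG3d hG3e hG3i using hmain
  refine ⟨R, T, 4 * c, fun k x => G3 k (Fin.cons x.2 x.1), hR0, hε₁, ?_, ?_, ?_, ?_⟩
  · exact fun x hx => (h1 _ (hbox x.1 x.2 hx.1 hx.2)).1
  · intro k x hx
    have h3 : (Fin.cons x.2 x.1 : Fin (n + 2) → ℂ) ∈ Pd (dT d.R T).R := by
      rw [mem_PdT]
      simp only [Fin.cons_zero, Fin.tail_cons]
      exact ⟨hx.2, hx.1⟩
    have h4 := Crest.Agent.R266.SCV.analyticOnNhd_of_differentiableOn (isOpen_Pd _) (hG3d k) _ h3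
    have h5 : AnalyticAt ℂ (fun x : (Fin (n + 1) → ℂ) × ℂ => (Fin.cons x.2 x.1 : Fin (n + 2) → ℂ)) x := by
      have : (fun x : (Fin (n + 1) → ℂ) × ℂ => (Fin.cons x.2 x.1 : Fin (n + 2) → ℂ)) =
          consL (n := n + 1) := by
        funext x; exact (consL_apply x).symm
      rw [this]
      exact consL.analyticAt x
    exact AnalyticAt.comp (g := G3 k) (f := fun x : (Fin (n + 1) → ℂ) × ℂ =>
      (Fin.cons x.2 x.1 : Fin (n + 2) → ℂ)) h4 h5
  · intro k x hx hF0 hcd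
    exact hG3e k x ⟨hx, hcd⟩ hF0
  · intro k
    set r : ℝ := 1 / ((k : ℝ) + 1) with hr
    have hr0 : 0 < r := by rw [hr]; positivity
    set S : Set (Fin (n + 2) → ℂ) := {X | X ∈ Pd (dT d.R T).R ∧ ‖F3 X‖ < r} with hS
    have h3 := consE_mp (n := n) |>.setLIntegral_comp_preimage_emb (consE n).measurableEmbedding
      (fun X => ‖G3 k X‖ₑ ^ (2 / p)) S
    have h4 : ∫⁻ x in {x | x ∈ Bx n R T ∧ ‖F x‖ < r}, ‖G3 k (Fin.cons x.2 x.1)‖ₑ ^ (2 / p) =
        ∫⁻ X in S, ‖G3 k X‖ₑ ^ (2 / p) := by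
      rw [← h3]
      have h5 : (consE n) ⁻¹' S = {x | x ∈ Bx n R T ∧ ‖F x‖ < r} := by
        ext x
        rw [mem_preimage, consE_apply, hS, mem_ofPred_eq, mem_PdT, mem_ofPred_eq]
        simp only [hF3, Fin.cons_zero, Fin.tail_cons]
        constructor
        · rintro ⟨⟨h6, h7⟩, h8⟩; exact ⟨⟨h7, h6⟩, h8⟩
        · rintro ⟨⟨h6, h7⟩, h8⟩; exact ⟨⟨h7, h6⟩, h8⟩
      rw [h5]
      refine lintegral_congr fun x => ?_
      rw [consE_apply]
    rw [h4]
    have hSm : MeasurableSet S := by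
      have h5 : S = Pd (dT d.R T).R ∩ F3 ⁻¹' {w | ‖w‖ < r} := rfl
      rw [h5]
      exact (hF3d.continuousOn.isOpen_inter_preimage (isOpen_Pd _)
        (isOpen_lt continuous_norm continuous_const)).measurableSet
    have hpw : ∀ X ∈ S, ‖G3 k X‖ₑ ^ (2 / p) ≤ ENNReal.ofReal (4 * r ^ 4) *
        ENNReal.ofReal (‖G3 k X‖ ^ (2 * (1 / p)) * ((‖F3 X‖ ^ 2 + r ^ 2) ^ 2)⁻¹) := by
      intro X hX
      have h6 : 2 * (1 / p) = 2 / p := by ring
      rw [← ofReal_norm, ENNReal.ofReal_rpow_of_nonneg (norm_nonneg _) (by positivity),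
        ← ENNReal.ofReal_mul (by positivity), h6]
      refine ENNReal.ofReal_le_ofReal ?_
      have h7 : ‖F3 X‖ < r := hX.2
      have h8 : 0 ≤ ‖G3 k X‖ ^ (2 / p) := Real.rpow_nonneg (norm_nonneg _) _
      have h9 : ‖F3 X‖ ^ 2 ≤ r ^ 2 := by gcongr
      have h10 : (‖F3 X‖ ^ 2 + r ^ 2) ^ 2 ≤ (r ^ 2 + r ^ 2) ^ 2 := by gcongr
      have h11 : (r ^ 2 + r ^ 2) ^ 2 = 4 * r ^ 4 := by ring
      rw [h11] at h10
      have h12 : 0 < (‖F3 X‖ ^ 2 + r ^ 2) ^ 2 := by positivity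
      have h13 : 1 ≤ 4 * r ^ 4 * ((‖F3 X‖ ^ 2 + r ^ 2) ^ 2)⁻¹ := by
        rw [← div_eq_mul_inv, one_le_div h12]; exact h10
      calc ‖G3 k X‖ ^ (2 / p) = ‖G3 k X‖ ^ (2 / p) * 1 := (mul_one _).symm
        _ ≤ ‖G3 k X‖ ^ (2 / p) * (4 * r ^ 4 * ((‖F3 X‖ ^ 2 + r ^ 2) ^ 2)⁻¹) :=
          mul_le_mul_of_nonneg_left h13 h8
        _ = _ := by ring
    calc ∫⁻ X in S, ‖G3 k X‖ₑ ^ (2 / p)
        ≤ ∫⁻ X in S, ENNReal.ofReal (4 * r ^ 4) *
          ENNReal.ofReal (‖G3 k X‖ ^ (2 * (1 / p)) * ((‖F3 X‖ ^ 2 + r ^ 2) ^ 2)⁻¹) :=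
          setLIntegral_mono' hSm hpw
      _ ≤ ∫⁻ X in Pd (dT d.R T).R, ENNReal.ofReal (4 * r ^ 4) *
          ENNReal.ofReal (‖G3 k X‖ ^ (2 * (1 / p)) * ((‖F3 X‖ ^ 2 + r ^ 2) ^ 2)⁻¹) :=
          lintegral_mono_set fun X hX => hX.1
      _ = ENNReal.ofReal (4 * r ^ 4) * ∫⁻ X in Pd (dT d.R T).R,
          ENNReal.ofReal (‖G3 k X‖ ^ (2 * (1 / p)) * ((‖F3 X‖ ^ 2 + r ^ 2) ^ 2)⁻¹) :=
          lintegral_const_mul' _ _ ENNReal.ofReal_ne_top
      _ ≤ ENNReal.ofReal (4 * r ^ 4) * ENNReal.ofReal (c * (r ^ 2)⁻¹) :=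
          mul_le_mul' le_rfl (hG3i k)
      _ = ENNReal.ofReal (4 * c / ((k : ℝ) + 1) ^ 2) := by
          rw [← ENNReal.ofReal_mul (by positivity)]
          congr 1
          rw [hr]
          field_simp

/-- finite Milnor number: isolated critical point -/
theorem iso_of_colFin {m : ℕ} {f : (Fin m → ℂ) → ℂ} (hf : AnalyticAt ℂ f 0)
    (hfin : ColFin (par f)) :
    ∀ᶠ x in 𝓝 (0 : Fin m → ℂ), x ≠ 0 → ∃ i, coordDeriv f i x ≠ 0 := by
  have hcd : ∀ i, AnalyticAt ℂ (coordDeriv f i) 0 := fun i =>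
    (ContinuousLinearMap.analyticAt (ContinuousLinearMap.apply ℂ ℂ
      (Pi.single i 1 : Fin m → ℂ)) _).comp hf.fderiv
  have h1 := UI939.cn_col (n := m) (m := m) (fun j q => coordDeriv f j q.1) (fun j => by
    exact AnalyticAt.comp (g := coordDeriv f j) (f := Prod.fst) (x := (0 : (Fin m → ℂ) × ℂ))
      (hcd j) analyticAt_fst) hfin
    (Eventually.of_forall (p := fun t : ℂ => _) fun t => le_rfl).frequently
  have h2 : Tendsto (fun x : Fin m → ℂ => (x, (0 : ℂ))) (𝓝 0) (𝓝 0) := by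
    have : Continuous (fun x : Fin m → ℂ => (x, (0 : ℂ))) := by fun_prop
    exact this.tendsto 0
  filter_upwards [h2.eventually h1] with x hx hx0
  by_contra hcon
  push Not at hcon
  exact hx0 (hx hcon)

/-- **`L^{2/p}` extension from `V_0` to the family `V_t`**, all dimensions `n ≥ 1`
(hypersurfaces in `ℂ^(n+1)`), in germ form -/
theorem otN (hn : 1 ≤ n) {F : (Fin (n + 1) → ℂ) × ℂ → ℂ} {g : (Fin (n + 1) → ℂ) → ℂ} {p : ℝ}
    (hp : 1 ≤ p) (hF : AnalyticAt ℂ F (0, 0)) (hfin : ColFin (par (sl F 0)))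
    (hreg : ∃ᶠ z : ℂ in 𝓝[≠] 0, sl F 0 (Fin.cons z 0) ≠ 0) (hg : AnalyticAt ℂ g 0)
    (hJ : InJN p (sl F 0) g) :
    ∃ G : (Fin (n + 1) → ℂ) × ℂ → ℂ, AnalyticAt ℂ G (0, 0) ∧
      (∃ a : (Fin (n + 1) → ℂ) → ℂ, AnalyticAt ℂ a 0 ∧
        ∀ᶠ x in 𝓝 (0 : Fin (n + 1) → ℂ), G (x, 0) = g x + a x * F (x, 0)) ∧
      ∃ δ : ℝ, 0 < δ ∧ ∀ᵐ t : ℂ, ‖t‖ < δ → InJN p (sl F t) (sl G t) := by
  obtain ⟨R, T, C, G, O⟩ := exists_out1 hp hF hg hJ
  have hsl : AnalyticAt ℂ (sl F 0) 0 :=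
    AnalyticAt.comp (g := F) (f := fun x => (x, (0 : ℂ))) hF (analyticAt_id.prod analyticAt_const)
  refine final hn hp O hg ?_ hreg
  filter_upwards [iso_of_colFin hsl hfin] with x hx hx0 _ using hx hx0

/-- `OTStmt` of `Defs_219` -/
theorem otStmt : OTStmt := by
  intro F g p hp hF _ hI hg hJ
  exact otN (n := 2) (by norm_num) hp hF hI.fin hI.reg hg hJ

end

end Crest.Agent.R257.Sh_297
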