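import Crest.Agent.R257.CLogDefs_68
import Crest.Agent.R257.T0_939
import Crest.Agent.R257.T7_387
import Crest.Agent.R257.Fr7_808

-- ▼ part R257/CLogB_68
section

/-!
R257 / CLogB_68 (C-LOG, helper68): the reduced polynomial of the branches.

* `descend`  : functions invariant under the `N`-th roots of unity are functions of `s ^ N`;
* `RP T s`   : `∏_j (X - φ_j s)`;
* `exists_Dp`: analytic family `Dp x` of monic polynomials with `Dp (s ^ N₀) = RP T s`.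
-/

set_option autoImplicit false
set_option linter.unusedSectionVars false

open Polynomial Set Filter Topology Metric
open Crest.AlgGeometry.Germ Crest.Agent.R257.AJ387 Crest.Agent.R257.T387
open Crest.Agent.R257.T0_939 (GalPt)

noncomputable section

namespace Crest.Agent.R257.CLog_68

open Crest.Agent.R257.Defs_219

/-- **descent** -/
theorem descend {N : ℕ} (hN : 0 < N) {ρ : ℝ} (hρ : 0 < ρ) {h : ℂ → ℂ}
    (hh : AnalyticOnNhd ℂ h (ball 0 ρ))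
    (hinv : ∀ ζ : ℂ, ζ ^ N = 1 → ∀ s ∈ ball (0 : ℂ) ρ, h (ζ * s) = h s) :
    ∃ k : ℂ → ℂ, AnalyticOnNhd ℂ k (ball 0 (ρ ^ N)) ∧ ∀ s ∈ ball (0 : ℂ) ρ, h s = k (s ^ N) := by
  have hN' : N ≠ 0 := hN.ne'
  set k : ℂ → ℂ := fun x => h (x ^ ((N : ℂ)⁻¹)) with hk
  -- values at roots
  have hval : ∀ s ∈ ball (0 : ℂ) ρ, h s = k (s ^ N) := by
    intro s hs
    by_cases h0 : s = 0
    · subst h0
      rw [hk]
      simp only
      rw [zero_pow hN', Complex.zero_cpow]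
      rw [ne_eq, inv_eq_zero]
      exact_mod_cast hN'
    · set r : ℂ := (s ^ N) ^ ((N : ℂ)⁻¹) with hr
      have hrN : r ^ N = s ^ N := Complex.cpow_nat_inv_pow _ hN'
      have hζ : (r / s) ^ N = 1 := by
        rw [div_pow, hrN, div_self (pow_ne_zero _ h0)]
      have h1 := hinv (r / s) hζ s hs
      rw [div_mul_cancel₀ _ h0] at h1
      rw [hk]
      exact h1.symm
  have hroot : ∀ x ∈ ball (0 : ℂ) (ρ ^ N), ∀ b : ℂ, b ^ N = x → b ∈ ball (0 : ℂ) ρ := by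
    intro x hx b hb
    have h1 : ‖b‖ ^ N < ρ ^ N := by
      rw [← norm_pow, hb]; simpa using hx
    have h2 : ‖b‖ < ρ := lt_of_pow_lt_pow_left₀ N hρ.le h1
    simpa using h2
  -- analytic off `0`
  have hoff : ∀ x ∈ ball (0 : ℂ) (ρ ^ N), x ≠ 0 → AnalyticAt ℂ k x := by
    intro x₀ hx₀ h0
    set r₀ : ℂ := x₀ ^ ((N : ℂ)⁻¹) with hr₀
    have hr₀N : r₀ ^ N = x₀ := Complex.cpow_nat_inv_pow _ hN'
    set b : ℂ → ℂ := fun x => r₀ * (x / x₀) ^ ((N : ℂ)⁻¹) with hb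
    have hbN : ∀ x, b x ^ N = x := by
      intro x
      rw [hb]
      simp only
      rw [mul_pow, hr₀N, Complex.cpow_nat_inv_pow _ hN', mul_div_cancel₀ _ h0]
    have hba : AnalyticAt ℂ b x₀ := by
      have h1 : AnalyticAt ℂ (fun x : ℂ => x / x₀) x₀ := analyticAt_id.div_const
      have h2 : x₀ / x₀ ∈ Complex.slitPlane := by
        rw [div_self h0]; exact Complex.one_mem_slitPlane
      exact analyticAt_const.mul (AnalyticAt.cpow h1 analyticAt_const h2)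
    have hbx : b x₀ ∈ ball (0 : ℂ) ρ := hroot x₀ hx₀ _ (hbN x₀)
    have hcomp : AnalyticAt ℂ (fun x => h (b x)) x₀ :=
      AnalyticAt.comp (g := h) (f := b) (hh _ hbx) hba
    refine hcomp.congr ?_
    have hev : ∀ᶠ x in 𝓝 x₀, b x ∈ ball (0 : ℂ) ρ :=
      hba.continuousAt.eventually (isOpen_ball.mem_nhds hbx)
    filter_upwards [hev] with x hx
    rw [hval _ hx, hbN]
  -- continuity at `0`
  have hρN : 0 < ρ ^ N := pow_pos hρ N
  have hcont : ContinuousAt k 0 := by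
    have h1 : k 0 = h 0 := by
      have := hval 0 (mem_ball_self hρ)
      rw [zero_pow hN'] at this
      exact this.symm
    have h2 : ContinuousAt h 0 := (hh 0 (mem_ball_self hρ)).continuousAt
    have h3 : Tendsto (fun x : ℂ => x ^ ((N : ℂ)⁻¹)) (𝓝 0) (𝓝 0) := by
      rw [tendsto_zero_iff_norm_tendsto_zero]
      have h4 : ∀ x : ℂ, ‖x ^ ((N : ℂ)⁻¹)‖ = ‖x‖ ^ ((N : ℝ)⁻¹) := by
        intro x
        exact Complex.norm_cpow_inv_nat x N
      simp only [h4]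
      have h5 : ContinuousAt (fun t : ℝ => t ^ ((N : ℝ)⁻¹)) 0 :=
        Real.continuousAt_rpow_const _ _ (Or.inr (by positivity))
      have h6 : Tendsto (fun x : ℂ => ‖x‖) (𝓝 0) (𝓝 0) := by
        have := (continuous_norm (E := ℂ)).tendsto 0
        rwa [norm_zero] at this
      have h7 := h5.tendsto.comp h6
      rw [Real.zero_rpow (by rw [ne_eq, inv_eq_zero]; exact_mod_cast hN')] at h7
      exact h7
    rw [ContinuousAt, h1]
    exact h2.tendsto.comp h3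
  refine ⟨k, fun x hx => ?_, hval⟩
  by_cases h0 : x = 0
  · subst h0
    refine Complex.analyticAt_of_differentiable_on_punctured_nhds_of_continuousAt ?_ hcont
    rw [eventually_nhdsWithin_iff]
    filter_upwards [isOpen_ball.mem_nhds hx] with y hy hy0
    exact (hoff y hy hy0).differentiableAt
  · exact hoff x hx h0

variable {f : (Fin 3 → ℂ) → ℂ} (T : TB f)

/-- `∏_j (X - φ_j s)` -/
def RP (s : ℂ) : ℂ[X] := ∏ j, (X - C (T.φ j s))


theorem RP_natDegree (s : ℂ) : (RP T s).natDegree = T.m := by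
  unfold RP
  rw [natDegree_prod_of_monic _ _ fun j _ => monic_X_sub_C _]
  simp

theorem phi_inj {s : ℂ} (hs : s ∈ ball (0 : ℂ) T.ρ) (h0 : s ≠ 0) :
    Function.Injective fun i => T.φ i s := by
  intro i j hij
  by_contra hne
  have h1 := T.φ_sub i j hne s hs
  have h2 : T.φ i s - T.φ j s = 0 := sub_eq_zero.2 hij
  rw [h2] at h1
  exact mul_ne_zero (pow_ne_zero _ h0) (T.u_ne i j hne s hs) h1.symm

theorem RP_rot (hG : GalPt T) {ζ : ℂ} (hζ : ζ ^ T.N₀ = 1) {s : ℂ} (hs : s ∈ ball (0 : ℂ) T.ρ) :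
    RP T (ζ * s) = RP T s := by
  by_cases h0 : s = 0
  · rw [h0, mul_zero]
  · have hζn : ‖ζ‖ = 1 := by
      have h1 : ‖ζ‖ ^ T.N₀ = 1 := by rw [← norm_pow, hζ, norm_one]
      exact (pow_eq_one_iff_of_nonneg (norm_nonneg _) T.N₀_pos.ne').1 h1
    have hζ0 : ζ ≠ 0 := by
      intro h; rw [h, norm_zero] at hζn; exact zero_ne_one hζn
    have hs' : ζ * s ∈ ball (0 : ℂ) T.ρ := by
      rw [mem_ball, dist_zero_right, norm_mul, hζn, one_mul]
      simpa using hs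
    choose τ hτ using hG ζ hζ s hs
    have hinj : Function.Injective τ := by
      intro i j hij
      have h1 : T.φ i (ζ * s) = T.φ j (ζ * s) := by rw [hτ, hτ, hij]
      exact phi_inj T hs' (mul_ne_zero hζ0 h0) h1
    have hbij : Function.Bijective τ := Finite.injective_iff_bijective.1 hinj
    unfold RP
    calc ∏ j, (X - C (T.φ j (ζ * s))) = ∏ j, (X - C (T.φ (τ j) s)) := by
          refine Finset.prod_congr rfl fun j _ => ?_
          rw [hτ]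
      _ = _ := Function.Bijective.prod_comp hbij fun j => (X - C (T.φ j s) : ℂ[X])

/-- coefficients of products of analytic families are analytic -/
theorem coeff_prod_an {E : Type*} [NormedAddCommGroup E] [NormedSpace ℂ E] {ι : Type*}
    (t : Finset ι) {P : ι → E → ℂ[X]} {x : E}
    (h : ∀ i ∈ t, ∀ n, AnalyticAt ℂ (fun x => (P i x).coeff n) x) (n : ℕ) :
    AnalyticAt ℂ (fun x => (∏ i ∈ t, P i x).coeff n) x := by
  classical
  induction t using Finset.induction generalizing n with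
  | empty =>
    simp only [Finset.prod_empty]
    exact analyticAt_const
  | insert a t ha ih =>
    have h1 : (fun x => (∏ i ∈ insert a t, P i x).coeff n) =
        fun x => ∑ ij ∈ Finset.HasAntidiagonal.antidiagonal n, (P a x).coeff ij.1 * (∏ i ∈ t, P i x).coeff ij.2 := by
      funext x
      rw [Finset.prod_insert ha, coeff_mul]
    rw [h1]
    refine Finset.analyticAt_fun_sum _ fun ij _ => ?_
    exact (h a (Finset.mem_insert_self _ _) _).mul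
      (ih (fun i hi => h i (Finset.mem_insert_of_mem hi)) _)

theorem coeff_lin_an {E : Type*} [NormedAddCommGroup E] [NormedSpace ℂ E] {c d : E → ℂ} {x : E}
    (hc : AnalyticAt ℂ c x) (hd : AnalyticAt ℂ d x) (n : ℕ) :
    AnalyticAt ℂ (fun x => (C (c x) * X + C (d x) : ℂ[X]).coeff n) x := by
  have h1 : (fun x => (C (c x) * X + C (d x) : ℂ[X]).coeff n) =
      fun x => (if n = 1 then c x else 0) + (if n = 0 then d x else 0) := by
    funext x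
    rw [coeff_add, coeff_C_mul, coeff_X, coeff_C]
    congr 1
    by_cases h : n = 1
    · simp [h]
    · rw [if_neg h, if_neg (fun h' => h h'.symm), mul_zero]
  rw [h1]
  refine AnalyticAt.add ?_ ?_
  · split_ifs
    · exact hc
    · exact analyticAt_const
  · split_ifs
    · exact hd
    · exact analyticAt_const

theorem RP_coeff_an (n : ℕ) : AnalyticOnNhd ℂ (fun s => (RP T s).coeff n) (ball 0 T.ρ) := by
  intro s hs
  unfold RP
  refine coeff_prod_an _ (fun j _ n => ?_) n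
  have h1 := coeff_lin_an (c := fun _ : ℂ => (1 : ℂ)) (d := fun s => - T.φ j s) (x := s)
    analyticAt_const (T.φ_an j s hs).neg n
  refine h1.congr (Eventually.of_forall fun s => ?_)
  simp [sub_eq_add_neg]

/-- **the reduced polynomial over the `x'`-disc** -/
theorem exists_Dp (hG : GalPt T) : ∃ Dp : ℂ → ℂ[X],
    (∀ n, AnalyticOnNhd ℂ (fun x => (Dp x).coeff n) (ball 0 (T.ρ ^ T.N₀))) ∧
    (∀ x, (Dp x).natDegree ≤ T.m) ∧
    ∀ s ∈ ball (0 : ℂ) T.ρ, Dp (s ^ T.N₀) = RP T s := by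
  choose k hk hke using fun n : ℕ => descend T.N₀_pos T.ρ_pos (RP_coeff_an T n)
    (fun ζ hζ s hs => by
      show (RP T (ζ * s)).coeff n = (RP T s).coeff n
      rw [RP_rot T hG hζ hs])
  refine ⟨fun x => ∑ n ∈ Finset.range (T.m + 1), C (k n x) * X ^ n, ?_, ?_, ?_⟩
  · intro n x hx
    have h1 : (fun x => (∑ n ∈ Finset.range (T.m + 1), C (k n x) * X ^ n : ℂ[X]).coeff n) =
        fun x => if n ∈ Finset.range (T.m + 1) then k n x else 0 := by
      funext x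
      rw [finsetSum_coeff]
      simp only [coeff_C_mul, coeff_X_pow]
      by_cases hn : n ∈ Finset.range (T.m + 1)
      · rw [if_pos hn, Finset.sum_eq_single n]
        · simp
        · intro i _ hi; rw [if_neg (Ne.symm hi), mul_zero]
        · intro h; exact absurd hn h
      · rw [if_neg hn]
        refine Finset.sum_eq_zero fun i hi => ?_
        rw [if_neg (by rintro rfl; exact hn hi), mul_zero]
    rw [h1]
    split_ifs
    · exact hk n x hx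
    · exact analyticAt_const
  · intro x
    refine natDegree_sum_le_of_forall_le _ _ fun n hn => ?_
    refine (natDegree_C_mul_X_pow_le _ _).trans ?_
    have := Finset.mem_range.1 hn
    omega
  · intro s hs
    ext n
    rw [finsetSum_coeff]
    simp only [coeff_C_mul, coeff_X_pow]
    by_cases hn : n < T.m + 1
    · rw [Finset.sum_eq_single n]
      · simp only [if_true, mul_one]
        exact (hke n s hs).symm
      · intro i _ hi; rw [if_neg (Ne.symm hi), mul_zero]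
      · intro h; exact absurd (Finset.mem_range.2 hn) h
    · rw [coeff_eq_zero_of_natDegree_lt (by rw [RP_natDegree]; omega)]
      refine Finset.sum_eq_zero fun i hi => ?_
      have := Finset.mem_range.1 hi
      rw [if_neg (by omega), mul_zero]

end Crest.Agent.R257.CLog_68
end
end

-- ▼ part R257/CLogC_68
section

/-!
R257 / CLogC_68 (C-LOG, helper68): the reduced polynomial and its derivatives in the charts.

* `prod_mono`  : `∏_j (y' - φ_j s₀) = a ^ e * b ^ e' * unit`;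
* `RP_comp`, `vert_form` : in a vertex chart the `(n_v - 1)`-st derivative is `s₀ ^ e * H`, with
  `∂_w H ≠ 0` on `s₀ = 0`.
-/

set_option autoImplicit false
set_option linter.unusedSectionVars false

open Polynomial Set Filter Topology Metric
open Crest.AlgGeometry.Germ Crest.Agent.R257.AJ387 Crest.Agent.R257.T387
open Crest.Agent.R257.T0_939 (GalPt)

noncomputable section

namespace Crest.Agent.R257.CLog_68

open Crest.Agent.R257.Defs_219

variable {f : (Fin 3 → ℂ) → ℂ} (T : TB f)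

theorem eval_RP (s y : ℂ) : (RP T s).eval y = ∏ j, (y - T.φ j s) := by
  unfold RP
  rw [eval_prod]
  simp

/-- **monomial formula for the product** -/
theorem prod_mono {c : Ch T.m} (hc : T.Valid c) : ∃ r > 0, r ≤ 1 ∧ ∃ U : ℂ × ℂ → ℂ,
    AnalyticOnNhd ℂ U (BD r r) ∧ (∀ p ∈ BD r r, U p ≠ 0) ∧
    ∀ p ∈ BD r r, (T.map0 c p).1 ∈ ball (0 : ℂ) T.ρ ∧
      (RP T (T.map0 c p).1).eval (T.map0 c p).2 =
        p.1 ^ (∑ j, (T.ex c j).1) * p.2 ^ (∑ j, (T.ex c j).2) * U p := by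
  choose r hr U hUa hU0 hU using fun j => T.mono hc j
  obtain ⟨R, hR, hRle⟩ : ∃ R > 0, R ≤ 1 ∧ ∀ j, R ≤ r j := by
    have hne : (Finset.univ : Finset (Fin T.m)).Nonempty := ⟨⟨0, T.m_pos⟩, Finset.mem_univ _⟩
    refine ⟨min 1 (Finset.univ.inf' hne r), lt_min one_pos ?_, min_le_left _ _, fun j => ?_⟩
    · rw [Finset.lt_inf'_iff]; exact fun j _ => hr j
    · exact (min_le_right _ _).trans (Finset.inf'_le _ (Finset.mem_univ j))
  refine ⟨R, hR, hRle.1, fun p => ∏ j, U j p, ?_, ?_, ?_⟩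
  · intro p hp
    exact Finset.analyticAt_fun_prod _ fun j _ => hUa j p (TB.BD_mono (hRle.2 j) hp)
  · intro p hp
    exact Finset.prod_ne_zero_iff.2 fun j _ => hU0 j p (TB.BD_mono (hRle.2 j) hp)
  · intro p hp
    refine ⟨(hU ⟨0, T.m_pos⟩ p (TB.BD_mono (hRle.2 _) hp)).1, ?_⟩
    rw [eval_RP]
    calc ∏ j, ((T.map0 c p).2 - T.φ j (T.map0 c p).1)
        = ∏ j, (p.1 ^ (T.ex c j).1 * p.2 ^ (T.ex c j).2 * U j p) :=
          Finset.prod_congr rfl fun j _ => (hU j p (TB.BD_mono (hRle.2 j) hp)).2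
      _ = _ := by
          rw [Finset.prod_mul_distrib, Finset.prod_mul_distrib, Finset.prod_pow_eq_pow_sum,
            Finset.prod_pow_eq_pow_sum]

/-! ### iterated derivatives -/

theorem iter_comp (R : ℂ[X]) (c d : ℂ) (l : ℕ) :
    derivative^[l] (R.comp (C c + C d * X)) =
      C (d ^ l) * (derivative^[l] R).comp (C c + C d * X) := by
  induction l with
  | zero => simp
  | succ l ih =>
    rw [Function.iterate_succ_apply', ih, Function.iterate_succ_apply', derivative_mul,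
      derivative_C, zero_mul, zero_add, derivative_comp]
    simp only [derivative_add, derivative_C, derivative_mul, derivative_X, zero_mul, zero_add,
      mul_one]
    rw [pow_succ, C_mul]
    ring

theorem eval_iter_natDegree {p : ℂ[X]} {n : ℕ} (hp : p.natDegree ≤ n) (w : ℂ) :
    (derivative^[n] p).eval w = (n.factorial : ℂ) * p.coeff n := by
  have h1 : (derivative^[n] p).natDegree ≤ 0 := by
    have := natDegree_iterate_derivative p n
    omega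
  rw [eq_C_of_natDegree_le_zero h1, eval_C, coeff_iterate_derivative, zero_add,
    Nat.descFactorial_self, nsmul_eq_mul]

section Vertex

variable (i : Fin T.m) (k : ℕ)

open Classical in
/-- the branches through the vertex -/
def Ai : Finset (Fin T.m) := Finset.univ.filter fun j => j = i ∨ k ≤ T.del i j

theorem mem_Ai {j : Fin T.m} : j ∈ Ai T i k ↔ j = i ∨ k ≤ T.del i j := by
  classical
  simp [Ai]

theorem self_mem_Ai : i ∈ Ai T i k := (mem_Ai T i k).2 (Or.inl rfl)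

theorem card_Ai_pos : 0 < (Ai T i k).card := Finset.card_pos.2 ⟨i, self_mem_Ai T i k⟩

open Classical in
/-- `(φ_i - φ_j) / s ^ k` -/
def shf (j : Fin T.m) (s : ℂ) : ℂ := if j = i then 0 else s ^ (T.del i j - k) * T.u i j s

theorem shf_an {j : Fin T.m} {s : ℂ} (hs : s ∈ ball (0 : ℂ) T.ρ) :
    AnalyticAt ℂ (shf T i k j) s := by
  classical
  unfold shf
  by_cases h : j = i
  · simp only [h, if_true]; exact analyticAt_const
  · simp only [h, if_false]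
    exact (analyticAt_id.pow _).mul (T.u_an i j (fun h' => h h'.symm) s hs)

theorem shf_eq {j : Fin T.m} (hj : j ∈ Ai T i k) {s : ℂ} (hs : s ∈ ball (0 : ℂ) T.ρ) :
    T.φ i s - T.φ j s = s ^ k * shf T i k j s := by
  classical
  unfold shf
  by_cases h : j = i
  · simp [h]
  · rw [if_neg h, ← mul_assoc, ← pow_add,
      Nat.add_sub_cancel' (((mem_Ai T i k).1 hj).resolve_left h)]
    exact T.φ_sub i j (fun h' => h h'.symm) s hs

open Classical in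
/-- the polynomial in `w` -/
def Bp (s : ℂ) : ℂ[X] := (∏ j ∈ Ai T i k, (X + C (shf T i k j s))) *
  ∏ j ∈ (Ai T i k)ᶜ, (C (s ^ (k - T.del i j)) * X + C (T.u i j s))

open Classical in
/-- the exponent -/
def ai : ℕ := k * (Ai T i k).card + ∑ j ∈ (Ai T i k)ᶜ, T.del i j

theorem RP_comp {s : ℂ} (hs : s ∈ ball (0 : ℂ) T.ρ) :
    (RP T s).comp (C (T.φ i s) + C (s ^ k) * X) = C (s ^ ai T i k) * Bp T i k s := by
  classical
  have h1 : (RP T s).comp (C (T.φ i s) + C (s ^ k) * X) =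
      ∏ j, (C (T.φ i s - T.φ j s) + C (s ^ k) * X) := by
    unfold RP
    rw [prod_comp]
    refine Finset.prod_congr rfl fun j _ => ?_
    rw [sub_comp, X_comp, C_comp, C_sub]
    ring
  rw [h1, ← Finset.prod_mul_prod_compl (Ai T i k)]
  have h2 : ∏ j ∈ Ai T i k, (C (T.φ i s - T.φ j s) + C (s ^ k) * X) =
      C (s ^ (k * (Ai T i k).card)) * ∏ j ∈ Ai T i k, (X + C (shf T i k j s)) := by
    rw [pow_mul, C_pow (n := (Ai T i k).card), ← Finset.prod_const, ← Finset.prod_mul_distrib]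
    refine Finset.prod_congr rfl fun j hj => ?_
    rw [shf_eq T i k hj hs, C_mul]
    ring
  have h3 : ∏ j ∈ (Ai T i k)ᶜ, (C (T.φ i s - T.φ j s) + C (s ^ k) * X) =
      C (s ^ (∑ j ∈ (Ai T i k)ᶜ, T.del i j)) *
        ∏ j ∈ (Ai T i k)ᶜ, (C (s ^ (k - T.del i j)) * X + C (T.u i j s)) := by
    rw [← Finset.prod_pow_eq_pow_sum, map_prod, ← Finset.prod_mul_distrib]
    refine Finset.prod_congr rfl fun j hj => ?_
    rw [Finset.mem_compl, mem_Ai, not_or, not_le] at hj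
    rw [T.φ_sub i j (fun h => hj.1 h.symm) s hs, mul_add, ← mul_assoc, ← C_mul, ← C_mul, ← pow_add,
      Nat.add_sub_cancel' hj.2.le]
    ring
  rw [h2, h3, Bp, ai, pow_add, C_mul]
  ring

theorem Bp_coeff_an {s : ℂ} (hs : s ∈ ball (0 : ℂ) T.ρ) (n : ℕ) :
    AnalyticAt ℂ (fun s => (Bp T i k s).coeff n) s := by
  classical
  have h1 : ∀ n, AnalyticAt ℂ (fun s => (∏ j ∈ Ai T i k, (X + C (shf T i k j s))).coeff n) s := by
    intro n
    refine coeff_prod_an _ (fun j _ n => ?_) n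
    have h2 := coeff_lin_an (c := fun _ : ℂ => (1 : ℂ)) (d := shf T i k j) (x := s)
      analyticAt_const (shf_an T i k hs) n
    refine h2.congr (Eventually.of_forall fun s => ?_)
    simp
  have h3 : ∀ n, AnalyticAt ℂ (fun s => (∏ j ∈ (Ai T i k)ᶜ,
      (C (s ^ (k - T.del i j)) * X + C (T.u i j s))).coeff n) s := by
    intro n
    refine coeff_prod_an _ (fun j hj n => ?_) n
    rw [Finset.mem_compl, mem_Ai, not_or, not_le] at hj
    exact coeff_lin_an (analyticAt_id.pow _) (T.u_an i j (fun h => hj.1 h.symm) s hs) n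
  have h4 : (fun s => (Bp T i k s).coeff n) = fun s => ∑ ij ∈ Finset.HasAntidiagonal.antidiagonal n,
      (∏ j ∈ Ai T i k, (X + C (shf T i k j s))).coeff ij.1 * (∏ j ∈ (Ai T i k)ᶜ,
      (C (s ^ (k - T.del i j)) * X + C (T.u i j s))).coeff ij.2 := by
    funext s
    rw [Bp, coeff_mul]
  rw [h4]
  exact Finset.analyticAt_fun_sum _ fun ij _ => (h1 _).mul (h3 _)

theorem Bp_natDegree (s : ℂ) : (Bp T i k s).natDegree ≤ T.m := by
  classical
  have h1 : (∏ j ∈ Ai T i k, (X + C (shf T i k j s))).natDegree ≤ (Ai T i k).card := by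
    refine (natDegree_prod_le _ _).trans ?_
    refine (Finset.sum_le_card_nsmul _ _ 1 fun j _ => ?_).trans (by simp)
    exact (natDegree_X_add_C _).le
  have h2 : (∏ j ∈ (Ai T i k)ᶜ, (C (s ^ (k - T.del i j)) * X + C (T.u i j s))).natDegree ≤
      ((Ai T i k)ᶜ).card := by
    refine (natDegree_prod_le _ _).trans ?_
    refine (Finset.sum_le_card_nsmul _ _ 1 fun j _ => ?_).trans (by simp)
    exact natDegree_linear_le
  have h3 : (Ai T i k).card + ((Ai T i k)ᶜ).card = T.m := by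
    rw [Finset.card_add_card_compl]; simp
  unfold Bp
  refine natDegree_mul_le.trans ?_
  omega

theorem Bp_zero : (Bp T i k 0).natDegree ≤ (Ai T i k).card ∧
    (Bp T i k 0).coeff (Ai T i k).card ≠ 0 := by
  classical
  have h1 : Bp T i k 0 = (∏ j ∈ Ai T i k, (X + C (shf T i k j 0))) *
      C (∏ j ∈ (Ai T i k)ᶜ, T.u i j 0) := by
    unfold Bp
    rw [map_prod]
    congr 1
    refine Finset.prod_congr rfl fun j hj => ?_
    rw [Finset.mem_compl, mem_Ai, not_or, not_le] at hj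
    rw [zero_pow (by omega), C_0, zero_mul, zero_add]
  have hm : (∏ j ∈ Ai T i k, (X + C (shf T i k j 0))).Monic :=
    monic_prod_of_monic _ _ fun j _ => monic_X_add_C _
  have hd : (∏ j ∈ Ai T i k, (X + C (shf T i k j 0))).natDegree = (Ai T i k).card := by
    rw [natDegree_prod_of_monic _ _ fun j _ => monic_X_add_C _]
    simp
  have hu : ∏ j ∈ (Ai T i k)ᶜ, T.u i j 0 ≠ 0 := by
    refine Finset.prod_ne_zero_iff.2 fun j hj => ?_
    rw [Finset.mem_compl, mem_Ai, not_or, not_le] at hj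
    exact T.u_ne i j (fun h => hj.1 h.symm) 0 (mem_ball_self T.ρ_pos)
  rw [h1]
  refine ⟨(natDegree_mul_C_le _ _).trans hd.le, ?_⟩
  rw [coeff_mul_C, ← hd, hm.coeff_natDegree, one_mul]
  exact hu

/-- the function `H` -/
def Hv (p : ℂ × ℂ) : ℂ := (derivative^[(Ai T i k).card - 1] (Bp T i k p.1)).eval p.2

theorem iter_coeff_an {s : ℂ} (hs : s ∈ ball (0 : ℂ) T.ρ) (l n : ℕ) :
    AnalyticAt ℂ (fun s => (derivative^[l] (Bp T i k s)).coeff n) s := by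
  have h1 : (fun s => (derivative^[l] (Bp T i k s)).coeff n) =
      fun s => ((n + l).descFactorial l : ℂ) * (Bp T i k s).coeff (n + l) := by
    funext s
    rw [coeff_iterate_derivative, nsmul_eq_mul]
  rw [h1]
  exact analyticAt_const.mul (Bp_coeff_an T i k hs _)

theorem eval_an {E : Type*} [NormedAddCommGroup E] [NormedSpace ℂ E] {P : E → ℂ[X]} {D : ℕ}
    (hD : ∀ x, (P x).natDegree ≤ D) {g : E → ℂ} {x : E}
    (hc : ∀ n, AnalyticAt ℂ (fun x => (P x).coeff n) x) (hg : AnalyticAt ℂ g x) :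
    AnalyticAt ℂ (fun x => (P x).eval (g x)) x := by
  have h1 : (fun x => (P x).eval (g x)) =
      fun x => ∑ n ∈ Finset.range (D + 1), (P x).coeff n * g x ^ n := by
    funext x
    exact eval_eq_sum_range' (Nat.lt_succ_of_le (hD x)) _
  rw [h1]
  exact Finset.analyticAt_fun_sum _ fun n _ => (hc n).mul (hg.pow n)

theorem iter_an {l : ℕ} {p : ℂ × ℂ} (hp : p.1 ∈ ball (0 : ℂ) T.ρ) :
    AnalyticAt ℂ (fun p : ℂ × ℂ => (derivative^[l] (Bp T i k p.1)).eval p.2) p := by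
  refine eval_an (P := fun p : ℂ × ℂ => derivative^[l] (Bp T i k p.1)) (D := T.m) (fun x => ?_)
    (fun n => ?_) analyticAt_snd
  · exact ((natDegree_iterate_derivative _ _).trans (Nat.sub_le _ _)).trans (Bp_natDegree T i k _)
  · exact AnalyticAt.comp (g := fun s => (derivative^[l] (Bp T i k s)).coeff n)
      (iter_coeff_an T i k hp l n) analyticAt_fst

theorem Hv_fderiv {p : ℂ × ℂ} (hp : p.1 ∈ ball (0 : ℂ) T.ρ) :
    fderiv ℂ (Hv T i k) p (0, 1) = (derivative^[(Ai T i k).card] (Bp T i k p.1)).eval p.2 := by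
  have h1 : HasFDerivAt (Hv T i k) (fderiv ℂ (Hv T i k) p) p :=
    (iter_an T i k hp).differentiableAt.hasFDerivAt
  have h2 : HasDerivAt (fun z : ℂ => ((p.1, z) : ℂ × ℂ)) ((0 : ℂ), (1 : ℂ)) p.2 :=
    (hasDerivAt_const p.2 p.1).prodMk (hasDerivAt_id p.2)
  have h3 : HasDerivAt (fun z : ℂ => Hv T i k (p.1, z)) (fderiv ℂ (Hv T i k) p (0, 1)) p.2 :=
    HasFDerivAt.comp_hasDerivAt (x := p.2) (f := fun z : ℂ => ((p.1, z) : ℂ × ℂ))
      (l := Hv T i k) h1 h2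
  have h4 : HasDerivAt (fun z : ℂ => Hv T i k (p.1, z))
      ((derivative (derivative^[(Ai T i k).card - 1] (Bp T i k p.1))).eval p.2) p.2 :=
    Polynomial.hasDerivAt (derivative^[(Ai T i k).card - 1] (Bp T i k p.1)) p.2
  rw [h3.unique h4, ← Function.iterate_succ_apply' derivative, Nat.succ_eq_add_one,
    Nat.sub_add_cancel (card_Ai_pos T i k)]

theorem Hv_zero (w : ℂ) : fderiv ℂ (Hv T i k) (0, w) (0, 1) ≠ 0 := by
  rw [Hv_fderiv T i k (mem_ball_self T.ρ_pos), eval_iter_natDegree (Bp_zero T i k).1]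
  exact mul_ne_zero (by exact_mod_cast Nat.factorial_ne_zero _) (Bp_zero T i k).2

/-- **vertex formula** -/
theorem vert_form {s : ℂ} (hs : s ∈ ball (0 : ℂ) T.ρ) (h0 : s ≠ 0) (w : ℂ) :
    (derivative^[(Ai T i k).card - 1] (RP T s)).eval (T.φ i s + s ^ k * w) =
      s ^ (ai T i k - k * ((Ai T i k).card - 1)) * Hv T i k (s, w) := by
  set l := (Ai T i k).card - 1 with hl
  have h1 := congrArg (fun p : ℂ[X] => (derivative^[l] p).eval w) (RP_comp T i k hs)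
  rw [iter_comp, iterate_derivative_C_mul, eval_mul, eval_mul, eval_C, eval_C, eval_comp, eval_add,
    eval_mul, eval_C, eval_C, eval_X] at h1
  have h2 : k * l ≤ ai T i k := by
    have h3 : k * l ≤ k * (Ai T i k).card := Nat.mul_le_mul_left _ (by omega)
    unfold ai
    omega
  have h3 : s ^ ai T i k = (s ^ k) ^ l * s ^ (ai T i k - k * l) := by
    rw [← pow_mul, ← pow_add, Nat.add_sub_cancel' h2]
  rw [h3, mul_assoc] at h1
  exact mul_left_cancel₀ (pow_ne_zero _ (pow_ne_zero _ h0)) h1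

end Vertex

end Crest.Agent.R257.CLog_68
end
end

-- ▼ part R257/CLogD_68
section

/-!
R257 / CLogD_68 (C-LOG, helper68): plane functions in the charts.

* `pl T g`     : the function `g (x', y')` on `ℂ³`;  `X1 = pl fst`, `Y1 = pl snd`;
* `WT`, `Tm`   : the sum of squares of a system `{Q, x'^M, y'^M}`, and the quotient
                 `‖Dt f Q Q'‖² / (WT * WT')`;
* `DpD`, `Dl`  : the family `Dp` and its derivatives;
* `locA`       : the lower bound near a point where the chart is `(σ, φ_i + σ^k W)`;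
* `locB`       : the lower bound at the nodes.
-/

set_option autoImplicit false
set_option linter.unusedSectionVars false

open Polynomial Set Filter Topology Metric
open Crest.AlgGeometry.Germ Crest.Agent.R257.AJ387 Crest.Agent.R257.T387
open Crest.Agent.R257.T0_939 (GalPt)

noncomputable section

namespace Crest.Agent.R257.CLog_68

open Crest.Agent.R257.Defs_219
open Crest.Agent.R257.Fr_808 (jc jc_eq jac2)

variable {f : (Fin 3 → ℂ) → ℂ} (T : TB f)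

/-! ### plane functions -/

/-- a function of `(x', y')` on `ℂ³` -/
def pl (g : ℂ × ℂ → ℂ) (x : E3) : ℂ := g (T.A.symm (x 1, x 2))

/-- `x'` -/
def X1 : E3 → ℂ := pl T Prod.fst

/-- `y'` -/
def Y1 : E3 → ℂ := pl T Prod.snd

/-- the chart in the `(x', y')`-plane -/
def pm (c : Ch T.m) (p : ℂ × ℂ) : ℂ × ℂ := ((T.map c p).1 ^ T.N, (T.map c p).2)

theorem pl_th (g : ℂ × ℂ → ℂ) (c : Ch T.m) (z : ℂ × ℂ → ℂ) (p : ℂ × ℂ) :
    pl T g (T.th c z p) = g (pm T c p) := by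
  have h1 : ((T.th c z p) 1, (T.th c z p) 2) = T.A (pm T c p) := rfl
  unfold pl
  rw [h1, ContinuousLinearEquiv.symm_apply_apply]

theorem symm_an (x : E3) : AnalyticAt ℂ (fun x : E3 => T.A.symm (x 1, x 2)) x := by
  have h1 : AnalyticAt ℂ (fun x : E3 => ((x 1, x 2) : ℂ × ℂ)) x :=
    ((ContinuousLinearMap.proj (R := ℂ) (φ := fun _ : Fin 3 => ℂ) 1).analyticAt x).prod
      ((ContinuousLinearMap.proj (R := ℂ) (φ := fun _ : Fin 3 => ℂ) 2).analyticAt x)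
  exact AnalyticAt.comp (g := fun q => T.A.symm q) (f := fun x : E3 => ((x 1, x 2) : ℂ × ℂ))
    (T.A.symm.toContinuousLinearMap.analyticAt _) h1

theorem pl_an {g : ℂ × ℂ → ℂ} {x : E3} (hg : AnalyticAt ℂ g (T.A.symm (x 1, x 2))) :
    AnalyticAt ℂ (pl T g) x :=
  AnalyticAt.comp (g := g) (f := fun x : E3 => T.A.symm (x 1, x 2)) hg (symm_an T x)

theorem symm_zero : T.A.symm ((0 : E3) 1, (0 : E3) 2) = 0 := by
  have : (((0 : E3) 1, (0 : E3) 2) : ℂ × ℂ) = 0 := rfl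
  rw [this, map_zero]

theorem pl_an0 {g : ℂ × ℂ → ℂ} (hg : AnalyticAt ℂ g 0) : AnalyticAt ℂ (pl T g) 0 :=
  pl_an T (by rw [symm_zero]; exact hg)

theorem pl_zero {g : ℂ × ℂ → ℂ} : pl T g 0 = g 0 := by
  unfold pl
  rw [symm_zero]

theorem X1_an (x : E3) : AnalyticAt ℂ (X1 T) x := pl_an T analyticAt_fst

theorem Y1_an (x : E3) : AnalyticAt ℂ (Y1 T) x := pl_an T analyticAt_snd

theorem X1_zero : X1 T 0 = 0 := pl_zero T

theorem Y1_zero : Y1 T 0 = 0 := pl_zero T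

/-- the sum of squares of the system `{Q, x'^M, y'^M}` -/
def WT (M : ℕ) (Q : E3 → ℂ) (x : E3) : ℝ := ‖Q x‖ ^ 2 + ‖X1 T x ^ M‖ ^ 2 + ‖Y1 T x ^ M‖ ^ 2

/-- the term of `J2` -/
def Tm (M : ℕ) (Q : E3 → ℂ) (M' : ℕ) (Q' : E3 → ℂ) (x : E3) : ℝ :=
  ‖Dt f Q Q' x‖ ^ 2 / (WT T M Q x * WT T M' Q' x)

/-- derived families -/
def Dl (Dp : ℂ → ℂ[X]) (l : ℕ) (q : ℂ × ℂ) : ℂ := (derivative^[l] (Dp q.1)).eval q.2

/-- the properties of the family `Dp` -/
structure DpD (Dp : ℂ → ℂ[X]) : Prop where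
  an : ∀ n, AnalyticOnNhd ℂ (fun x => (Dp x).coeff n) (ball 0 (T.ρ ^ T.N₀))
  deg : ∀ x, (Dp x).natDegree ≤ T.m
  eq : ∀ s ∈ ball (0 : ℂ) T.ρ, Dp (s ^ T.N₀) = RP T s

theorem exists_DpD (hG : GalPt T) : ∃ Dp, DpD T Dp := by
  obtain ⟨Dp, h1, h2, h3⟩ := exists_Dp T hG
  exact ⟨Dp, h1, h2, h3⟩

variable {T}

theorem Dl_an {Dp : ℂ → ℂ[X]} (hD : DpD T Dp) (l : ℕ) {q : ℂ × ℂ}
    (hq : q.1 ∈ ball (0 : ℂ) (T.ρ ^ T.N₀)) : AnalyticAt ℂ (Dl Dp l) q := by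
  refine eval_an (P := fun p : ℂ × ℂ => derivative^[l] (Dp p.1)) (D := T.m) (fun x => ?_)
    (fun n => ?_) analyticAt_snd
  · exact ((natDegree_iterate_derivative _ _).trans (Nat.sub_le _ _)).trans (hD.deg _)
  · have h1 : (fun p : ℂ × ℂ => (derivative^[l] (Dp p.1)).coeff n) =
        fun p : ℂ × ℂ => ((n + l).descFactorial l : ℂ) * (Dp p.1).coeff (n + l) := by
      funext p
      rw [coeff_iterate_derivative, nsmul_eq_mul]
    rw [h1]
    exact analyticAt_const.mul (AnalyticAt.comp (g := fun x => (Dp x).coeff (n + l))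
      (hD.an _ _ hq) analyticAt_fst)

theorem Dl_an0 {Dp : ℂ → ℂ[X]} (hD : DpD T Dp) (l : ℕ) : AnalyticAt ℂ (Dl Dp l) 0 :=
  Dl_an hD l (by
    rw [mem_ball, Prod.fst_zero, dist_self]
    exact pow_pos T.ρ_pos _)

theorem Dl_zero {Dp : ℂ → ℂ[X]} (hD : DpD T Dp) {l : ℕ} (hl : l < T.m) : Dl Dp l 0 = 0 := by
  unfold Dl
  have h1 : Dp 0 = X ^ T.m := by
    have := hD.eq 0 (mem_ball_self T.ρ_pos)
    rw [zero_pow T.N₀_pos.ne'] at this
    rw [this, RP]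
    simp only [T.φ_zero, C_0, sub_zero, Finset.prod_const, Finset.card_univ, Fintype.card_fin]
  rw [Prod.fst_zero, Prod.snd_zero, h1, iterate_derivative_X_pow_eq_natCast_mul, eval_mul,
    eval_pow, eval_X, zero_pow (by omega), mul_zero]

/-! ### local computations -/

theorem jc_powl {σ F : ℂ × ℂ → ℂ} {p : ℂ × ℂ} (hσ : DifferentiableAt ℂ σ p) (n : ℕ) :
    jc (fun p => σ p ^ n) F p = n * σ p ^ (n - 1) * jc σ F p := by
  have h1 := hσ.hasFDerivAt.pow n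
  unfold jc
  rw [h1.fderiv]
  simp only [smul_apply, smul_eq_mul, nsmul_eq_mul]
  ring

/-- `jc σ (G(σ, W)) = ∂₂G * jc σ W` -/
theorem jc_comp {σ W : ℂ × ℂ → ℂ} {G : ℂ × ℂ → ℂ} {p : ℂ × ℂ} (hσ : DifferentiableAt ℂ σ p)
    (hW : DifferentiableAt ℂ W p) (hG : DifferentiableAt ℂ G (σ p, W p)) :
    jc σ (fun p => G (σ p, W p)) p = fderiv ℂ G (σ p, W p) (0, 1) * jc σ W p := by
  have h1 : HasFDerivAt (fun p => G (σ p, W p))
      ((fderiv ℂ G (σ p, W p)).comp ((fderiv ℂ σ p).prod (fderiv ℂ W p))) p :=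
    hG.hasFDerivAt.comp p (hσ.hasFDerivAt.prodMk hW.hasFDerivAt)
  have h2 : ∀ v : ℂ × ℂ, fderiv ℂ G (σ p, W p) v =
      v.1 * fderiv ℂ G (σ p, W p) (1, 0) + v.2 * fderiv ℂ G (σ p, W p) (0, 1) := by
    intro v
    have h3 : v = v.1 • ((1 : ℂ), (0 : ℂ)) + v.2 • ((0 : ℂ), (1 : ℂ)) := by
      ext <;> simp
    conv_lhs => rw [h3, map_add, map_smul, map_smul]
    rfl
  unfold jc
  rw [h1.fderiv]
  simp only [ContinuousLinearMap.comp_apply, ContinuousLinearMap.prod_apply]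
  rw [h2 (fderiv ℂ σ p (0, 1), fderiv ℂ W p (0, 1)), h2 (fderiv ℂ σ p (1, 0), fderiv ℂ W p (1, 0))]
  ring

theorem phi_le (i : Fin T.m) : ∃ C : ℝ, 0 ≤ C ∧ ∀ᶠ s in 𝓝 (0 : ℂ), ‖T.φ i s‖ ≤ C * ‖s‖ := by
  have h1 : DifferentiableAt ℂ (T.φ i) 0 := (T.φ_an i 0 (mem_ball_self T.ρ_pos)).differentiableAt
  have h2 := h1.isBigO_sub
  obtain ⟨C, hC⟩ := h2.bound
  refine ⟨max C 0, le_max_right _ _, ?_⟩
  filter_upwards [hC] with s hs
  rw [T.φ_zero, sub_zero, sub_zero] at hs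
  exact hs.trans (mul_le_mul_of_nonneg_right (le_max_left _ _) (norm_nonneg _))

theorem WT_nonneg (M : ℕ) (Q : E3 → ℂ) (x : E3) : 0 ≤ WT T M Q x := by
  unfold WT; positivity

theorem WT_pos {M : ℕ} {Q : E3 → ℂ} {x : E3} (h : X1 T x ≠ 0 ∨ Y1 T x ≠ 0) : 0 < WT T M Q x := by
  unfold WT
  rcases h with h | h
  · have : 0 < ‖X1 T x ^ M‖ ^ 2 := by
      have := norm_pos_iff.2 (pow_ne_zero M h)
      positivity
    positivity
  · have : 0 < ‖Y1 T x ^ M‖ ^ 2 := by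
      have := norm_pos_iff.2 (pow_ne_zero M h)
      positivity
    positivity

theorem WT_le {M : ℕ} {Q : E3 → ℂ} {x : E3} {t C₁ C₂ C₃ : ℝ} (h1 : ‖Q x‖ ≤ C₁ * t)
    (h2 : ‖X1 T x‖ ^ M ≤ C₂ * t) (h3 : ‖Y1 T x‖ ^ M ≤ C₃ * t) :
    WT T M Q x ≤ (C₁ ^ 2 + C₂ ^ 2 + C₃ ^ 2) * t ^ 2 := by
  unfold WT
  rw [norm_pow, norm_pow]
  have e1 := pow_le_pow_left₀ (norm_nonneg _) h1 2
  have e2 := pow_le_pow_left₀ (by positivity) h2 2
  have e3 := pow_le_pow_left₀ (by positivity) h3 2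
  nlinarith [e1, e2, e3]

theorem quot_ge {A a t t' W W' C C' : ℝ} (ha : 0 ≤ a) (ht : 0 < t) (ht' : 0 < t')
    (hA : a * (t * t') ≤ A) (hW : 0 < W) (hW' : 0 < W') (hC : 0 < C) (hC' : 0 < C')
    (h1 : W ≤ C * t ^ 2) (h2 : W' ≤ C' * t' ^ 2) :
    a ^ 2 / (C * C') ≤ A ^ 2 / (W * W') := by
  have h3 : W * W' ≤ (C * C') * (t * t') ^ 2 := by
    calc W * W' ≤ (C * t ^ 2) * (C' * t' ^ 2) := mul_le_mul h1 h2 hW'.le (by positivity)
      _ = _ := by ring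
  have h4 : a ^ 2 * (t * t') ^ 2 ≤ A ^ 2 := by
    rw [← mul_pow]
    exact pow_le_pow_left₀ (by positivity) hA 2
  rw [div_le_div_iff₀ (by positivity) (by positivity)]
  calc a ^ 2 * (W * W') ≤ a ^ 2 * ((C * C') * (t * t') ^ 2) :=
        mul_le_mul_of_nonneg_left h3 (by positivity)
    _ = (a ^ 2 * (t * t') ^ 2) * (C * C') := by ring
    _ ≤ A ^ 2 * (C * C') := mul_le_mul_of_nonneg_right h4 (by positivity)

/-- a continuous function is bounded near a point -/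
theorem bd_near {F : ℂ × ℂ → ℂ} {p₀ : ℂ × ℂ} (h : ContinuousAt F p₀) :
    ∃ C : ℝ, 0 ≤ C ∧ ∀ᶠ p in 𝓝 p₀, ‖F p‖ ≤ C := by
  refine ⟨‖F p₀‖ + 1, by positivity, ?_⟩
  exact (h.norm.eventually_lt continuousAt_const (by simp)).mono fun p hp => hp.le

/-- a continuous function which does not vanish at a point is bounded below -/
theorem low_near {F : ℂ × ℂ → ℂ} {p₀ : ℂ × ℂ} (h : ContinuousAt F p₀) (h0 : F p₀ ≠ 0) :
    ∃ c : ℝ, 0 < c ∧ ∀ᶠ p in 𝓝 p₀, c ≤ ‖F p‖ := by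
  have h1 := norm_pos_iff.2 h0
  refine ⟨‖F p₀‖ / 2, by positivity, ?_⟩
  exact (continuousAt_const.eventually_lt h.norm (by linarith)).mono fun p hp => hp.le

theorem jc_an {u w : ℂ × ℂ → ℂ} {p : ℂ × ℂ} (hu : AnalyticAt ℂ u p) (hw : AnalyticAt ℂ w p) :
    AnalyticAt ℂ (jc u w) p := by
  have hd : ∀ {G : ℂ × ℂ → ℂ} (_ : AnalyticAt ℂ G p) (v : ℂ × ℂ),
      AnalyticAt ℂ (fun p => fderiv ℂ G p v) p := by
    intro G hG v
    have h1 : AnalyticAt ℂ (fderiv ℂ G) p := hG.fderiv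
    have h2 := (ContinuousLinearMap.apply ℂ ℂ v).analyticAt (fderiv ℂ G p)
    exact h2.comp h1
  exact ((hd hu _).mul (hd hw _)).sub ((hd hu _).mul (hd hw _))

theorem jc_congr {u w u' w' : ℂ × ℂ → ℂ} {p : ℂ × ℂ} (hu : u =ᶠ[𝓝 p] u') (hw : w =ᶠ[𝓝 p] w') :
    jc u w p = jc u' w' p := by
  unfold jc
  rw [hu.fderiv_eq, hw.fderiv_eq]

/-- the exponent of the derivative of `D` at the vertex `(i, k)` -/
def eA (T : TB f) (i : Fin T.m) (k : ℕ) : ℕ := ai T i k - k * ((Ai T i k).card - 1)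

theorem le_eA (i : Fin T.m) (k : ℕ) : k ≤ eA T i k := by
  unfold eA ai
  have h1 := card_Ai_pos T i k
  obtain ⟨n, hn⟩ := Nat.exists_eq_add_of_lt h1
  rw [zero_add] at hn
  rw [hn, Nat.add_sub_cancel, Nat.mul_add, mul_one]
  omega

/-- the function used at the vertex `(i, k)` -/
def QA (T : TB f) (Dp : ℂ → ℂ[X]) (i : Fin T.m) (k : ℕ) : E3 → ℂ :=
  pl T (Dl Dp ((Ai T i k).card - 1))

/-- **lower bound near a point where the chart is `(σ, φ_i + σ^k W)`** -/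
theorem locA {Dp : ℂ → ℂ[X]} (hD : DpD T Dp) {c : Ch T.m} {z : ℂ × ℂ → ℂ} {p₀ : ℂ × ℂ}
    {i : Fin T.m} {k : ℕ} (hk : 0 < k) {σ W : ℂ × ℂ → ℂ} (hσ : AnalyticAt ℂ σ p₀)
    (hW : AnalyticAt ℂ W p₀) (hσ0 : σ p₀ = 0)
    (hmap : ∀ᶠ p in 𝓝 p₀, T.map c p = (σ p, T.φ i (σ p ^ T.M) + σ p ^ (T.M * k) * W p))
    (hjc : jc σ W p₀ ≠ 0) : ∃ κ : ℝ, 0 < κ ∧ ∀ᶠ p in 𝓝 p₀, σ p ≠ 0 →
      κ ≤ (‖jc (fun p => X1 T (T.th c z p)) (fun p => QA T Dp i k (T.th c z p)) p‖ * ‖σ p‖) ^ 2 /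
        (WT T T.N₀ (X1 T) (T.th c z p) * WT T (eA T i k) (QA T Dp i k) (T.th c z p)) := by
  set l := (Ai T i k).card - 1 with hl
  set e := eA T i k with he
  have hM := T.M_pos
  have hN := T.N_pos
  have hN₀ := T.N₀_pos
  have he1 : 1 ≤ e := hk.trans_le (le_eA i k)
  -- small `σ`
  have hσt : Tendsto σ (𝓝 p₀) (𝓝 0) := by
    have := hσ.continuousAt.tendsto
    rwa [hσ0] at this
  have hσM : Tendsto (fun p => σ p ^ T.M) (𝓝 p₀) (𝓝 0) := by
    have := hσt.pow T.M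
    rwa [zero_pow hM.ne'] at this
  have hball : ∀ᶠ p in 𝓝 p₀, σ p ^ T.M ∈ ball (0 : ℂ) T.ρ :=
    hσM.eventually (ball_mem_nhds _ T.ρ_pos)
  have hσ1 : ∀ᶠ p in 𝓝 p₀, ‖σ p‖ < 1 := by
    have := hσt.eventually (ball_mem_nhds (0 : ℂ) one_pos)
    simpa using this
  -- the function `G`
  set G : ℂ × ℂ → ℂ := fun q => (q.1 ^ T.M) ^ e * Hv T i k (q.1 ^ T.M, q.2) with hG
  have hGan : ∀ q : ℂ × ℂ, q.1 ^ T.M ∈ ball (0 : ℂ) T.ρ → AnalyticAt ℂ G q := by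
    intro q hq
    refine ((analyticAt_fst.pow _).pow _).mul ?_
    exact AnalyticAt.comp (g := Hv T i k) (f := fun q : ℂ × ℂ => ((q.1 ^ T.M, q.2) : ℂ × ℂ))
      (iter_an T i k hq) ((analyticAt_fst.pow _).prod analyticAt_snd)
  have hG2 : ∀ q : ℂ × ℂ, q.1 ^ T.M ∈ ball (0 : ℂ) T.ρ →
      fderiv ℂ G q (0, 1) = (q.1 ^ T.M) ^ e * fderiv ℂ (Hv T i k) (q.1 ^ T.M, q.2) (0, 1) := by
    intro q hq
    have h2 : HasDerivAt (fun z : ℂ => ((q.1, z) : ℂ × ℂ)) ((0 : ℂ), (1 : ℂ)) q.2 :=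
      (hasDerivAt_const q.2 q.1).prodMk (hasDerivAt_id q.2)
    have h2' : HasDerivAt (fun z : ℂ => ((q.1 ^ T.M, z) : ℂ × ℂ)) ((0 : ℂ), (1 : ℂ)) q.2 :=
      (hasDerivAt_const q.2 (q.1 ^ T.M)).prodMk (hasDerivAt_id q.2)
    have h3 : HasDerivAt (fun z : ℂ => G (q.1, z)) (fderiv ℂ G q (0, 1)) q.2 :=
      HasFDerivAt.comp_hasDerivAt (x := q.2) (f := fun z : ℂ => ((q.1, z) : ℂ × ℂ)) (l := G)
        (hGan q hq).differentiableAt.hasFDerivAt h2
    have h4 : HasDerivAt (fun z : ℂ => Hv T i k (q.1 ^ T.M, z))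
        (fderiv ℂ (Hv T i k) (q.1 ^ T.M, q.2) (0, 1)) q.2 :=
      HasFDerivAt.comp_hasDerivAt (x := q.2) (f := fun z : ℂ => ((q.1 ^ T.M, z) : ℂ × ℂ))
        (l := Hv T i k) (iter_an (l := (Ai T i k).card - 1) T i k
          (p := (q.1 ^ T.M, q.2)) hq).differentiableAt.hasFDerivAt h2'
    exact h3.unique (h4.const_mul ((q.1 ^ T.M) ^ e))
  -- the values of the functions
  have hX : ∀ᶠ p in 𝓝 p₀, X1 T (T.th c z p) = σ p ^ T.N := by
    filter_upwards [hmap] with p hp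
    rw [X1, pl_th, pm, hp]
  have hY : ∀ᶠ p in 𝓝 p₀, Y1 T (T.th c z p) = T.φ i (σ p ^ T.M) + σ p ^ (T.M * k) * W p := by
    filter_upwards [hmap] with p hp
    rw [Y1, pl_th, pm, hp]
  have hQ : ∀ᶠ p in 𝓝 p₀, σ p ≠ 0 → QA T Dp i k (T.th c z p) = G (σ p, W p) := by
    filter_upwards [hmap, hball] with p hp hb h0
    have e1 : σ p ^ T.N = (σ p ^ T.M) ^ T.N₀ := by
      rw [← pow_mul, TB.N, mul_comm]
    rw [QA, pl_th, pm, hp, Dl]
    simp only
    rw [e1, hD.eq _ hb, pow_mul, vert_form T i k hb (pow_ne_zero _ h0)]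
    rfl
  -- the Jacobian
  have hJ : ∀ᶠ p in 𝓝 p₀, σ p ≠ 0 →
      jc (fun p => X1 T (T.th c z p)) (fun p => QA T Dp i k (T.th c z p)) p =
        T.N * σ p ^ (T.N - 1) * ((σ p ^ T.M) ^ e *
          fderiv ℂ (Hv T i k) (σ p ^ T.M, W p) (0, 1) * jc σ W p) := by
    filter_upwards [hX.eventually_nhds, hQ.eventually_nhds, hball, hσ.eventually_analyticAt,
      hW.eventually_analyticAt] with p h1 h2 hb h3 h4 h0
    have h5 : ∀ᶠ p' in 𝓝 p, σ p' ≠ 0 := h3.continuousAt.eventually_ne h0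
    have h6 : (fun p => QA T Dp i k (T.th c z p)) =ᶠ[𝓝 p] fun p => G (σ p, W p) := by
      filter_upwards [h2, h5] with p' a b using a b
    rw [jc_congr (h1 : (fun p => X1 T (T.th c z p)) =ᶠ[𝓝 p] fun p => σ p ^ T.N) h6,
      jc_powl h3.differentiableAt, jc_comp h3.differentiableAt h4.differentiableAt
        (hGan _ hb).differentiableAt, hG2 _ hb]
  -- bounds
  obtain ⟨a, ha, hlow⟩ := low_near (F := fun p =>
      fderiv ℂ (Hv T i k) (σ p ^ T.M, W p) (0, 1) * jc σ W p) (p₀ := p₀) (by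
    refine ContinuousAt.mul ?_ (jc_an hσ hW).continuousAt
    have h1 : ContinuousAt (fun q => fderiv ℂ (Hv T i k) q (0, 1)) (σ p₀ ^ T.M, W p₀) := by
      have h2 : AnalyticAt ℂ (fderiv ℂ (Hv T i k)) (σ p₀ ^ T.M, W p₀) :=
        (iter_an (l := (Ai T i k).card - 1) T i k (p := (σ p₀ ^ T.M, W p₀)) (by
          rw [hσ0]; simp only; rw [zero_pow hM.ne']; exact mem_ball_self T.ρ_pos)).fderiv
      exact ((ContinuousLinearMap.apply ℂ ℂ ((0 : ℂ), (1 : ℂ))).continuous.continuousAt).comp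
        h2.continuousAt
    exact ContinuousAt.comp (g := fun q => fderiv ℂ (Hv T i k) q (0, 1))
      (f := fun p => ((σ p ^ T.M, W p) : ℂ × ℂ)) h1
      ((hσ.continuousAt.pow _).prodMk hW.continuousAt)) (by
    rw [hσ0, zero_pow hM.ne']
    exact mul_ne_zero (Hv_zero T i k _) hjc)
  obtain ⟨Cw, hCw, hWb⟩ := bd_near hW.continuousAt
  obtain ⟨CH, hCH, hHb⟩ := bd_near (F := fun p => Hv T i k (σ p ^ T.M, W p)) (p₀ := p₀) (by
    have h1 : ContinuousAt (Hv T i k) (σ p₀ ^ T.M, W p₀) :=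
      (iter_an (l := (Ai T i k).card - 1) T i k (p := (σ p₀ ^ T.M, W p₀)) (by
          rw [hσ0]; simp only; rw [zero_pow hM.ne']; exact mem_ball_self T.ρ_pos)).continuousAt
    exact ContinuousAt.comp (g := Hv T i k) (f := fun p => ((σ p ^ T.M, W p) : ℂ × ℂ)) h1
      ((hσ.continuousAt.pow _).prodMk hW.continuousAt))
  obtain ⟨Cφ, hCφ, hφ⟩ := phi_le (T := T) i
  have hφ' : ∀ᶠ p in 𝓝 p₀, ‖T.φ i (σ p ^ T.M)‖ ≤ Cφ * ‖σ p ^ T.M‖ := hσM.eventually hφ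
  set CY := Cφ + Cw with hCY
  have hYb : ∀ᶠ p in 𝓝 p₀, ‖Y1 T (T.th c z p)‖ ≤ CY * ‖σ p‖ ^ T.M := by
    filter_upwards [hY, hφ', hWb, hσ1] with p h1 h2 h3 h4
    rw [h1]
    refine (norm_add_le _ _).trans ?_
    rw [norm_mul, norm_pow, pow_mul, hCY, add_mul]
    rw [norm_pow] at h2
    refine add_le_add h2 ?_
    have h5 : (‖σ p‖ ^ T.M) ^ k ≤ ‖σ p‖ ^ T.M := by
      calc (‖σ p‖ ^ T.M) ^ k ≤ (‖σ p‖ ^ T.M) ^ 1 :=
            pow_le_pow_of_le_one (by positivity) (pow_le_one₀ (norm_nonneg _) h4.le) hk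
        _ = _ := pow_one _
    calc (‖σ p‖ ^ T.M) ^ k * ‖W p‖ ≤ ‖σ p‖ ^ T.M * Cw :=
          mul_le_mul h5 h3 (norm_nonneg _) (by positivity)
      _ = _ := mul_comm _ _
  have hCY0 : 0 ≤ CY := by positivity
  refine ⟨(T.N * a) ^ 2 / ((1 ^ 2 + 1 ^ 2 + (CY ^ T.N₀) ^ 2) * (CH ^ 2 + 1 ^ 2 + (CY ^ e) ^ 2)),
    by positivity, ?_⟩
  filter_upwards [hX, hYb, hQ, hJ, hlow, hHb, hσ1] with p h1 h2 h3 h4 h5 h6 h7 h0
  have hn0 : 0 < ‖σ p‖ := norm_pos_iff.2 h0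
  have hXne : X1 T (T.th c z p) ≠ 0 := by rw [h1]; exact pow_ne_zero _ h0
  refine quot_ge (t := ‖σ p‖ ^ T.N) (t' := (‖σ p‖ ^ T.M) ^ e) (by positivity) (by positivity)
    (by positivity) ?_ (WT_pos (Or.inl hXne)) (WT_pos (Or.inl hXne)) (by positivity)
    (by positivity) (WT_le ?_ ?_ ?_) (WT_le ?_ ?_ ?_)
  · rw [h4 h0, norm_mul, norm_mul, norm_mul (( (σ p ^ T.M) ^ e * _)), norm_mul ((σ p ^ T.M) ^ e),
      norm_pow, norm_pow, norm_pow, RCLike.norm_natCast]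
    rw [norm_mul] at h5
    have e1 : ‖σ p‖ ^ T.N = ‖σ p‖ ^ (T.N - 1) * ‖σ p‖ := by
      rw [← pow_succ]; congr 1; omega
    calc (T.N : ℝ) * a * (‖σ p‖ ^ T.N * (‖σ p‖ ^ T.M) ^ e)
        = (T.N : ℝ) * ‖σ p‖ ^ (T.N - 1) * ((‖σ p‖ ^ T.M) ^ e) * ‖σ p‖ * a := by rw [e1]; ring
      _ ≤ (T.N : ℝ) * ‖σ p‖ ^ (T.N - 1) * ((‖σ p‖ ^ T.M) ^ e) * ‖σ p‖ *
          (‖fderiv ℂ (Hv T i k) (σ p ^ T.M, W p) (0, 1)‖ * ‖jc σ W p‖) :=
          mul_le_mul_of_nonneg_left h5 (by positivity)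
      _ = _ := by ring
  · rw [h1, norm_pow, one_mul]
  · rw [h1, norm_pow, one_mul]
    calc (‖σ p‖ ^ T.N) ^ T.N₀ ≤ (‖σ p‖ ^ T.N) ^ 1 :=
          pow_le_pow_of_le_one (by positivity) (pow_le_one₀ (norm_nonneg _) h7.le) hN₀
      _ = _ := pow_one _
  · calc ‖Y1 T (T.th c z p)‖ ^ T.N₀ ≤ (CY * ‖σ p‖ ^ T.M) ^ T.N₀ :=
          pow_le_pow_left₀ (norm_nonneg _) h2 _
      _ = CY ^ T.N₀ * ‖σ p‖ ^ T.N := by rw [mul_pow, ← pow_mul, TB.N, mul_comm T.M]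
  · rw [h3 h0, hG]
    simp only
    rw [norm_mul, norm_pow, norm_pow, mul_comm]
    exact mul_le_mul_of_nonneg_right h6 (by positivity)
  · rw [h1, norm_pow, one_mul]
    have e1 : T.M ≤ T.N := Nat.le_mul_of_pos_left _ hN₀
    exact pow_le_pow_left₀ (by positivity)
      (pow_le_pow_of_le_one (norm_nonneg _) h7.le e1) _
  · calc ‖Y1 T (T.th c z p)‖ ^ e ≤ (CY * ‖σ p‖ ^ T.M) ^ e :=
          pow_le_pow_left₀ (norm_nonneg _) h2 _
      _ = CY ^ e * (‖σ p‖ ^ T.M) ^ e := mul_pow _ _ _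

end Crest.Agent.R257.CLog_68
end
end

-- ▼ part R257/CLogE_68
section

/-!
R257 / CLogE_68 (C-LOG, helper68): nodes and legs, the region where `D_red` is large.

* `QD`     : the function `D_red (x', y')`;
* `node`   : `D_red = α^A β^B unit` near the origin of a chart, `A < B` for edges;
* `locB`   : lower bound at the node of an edge between two exceptional components;
* `locTop` : lower bound at the node of a top edge;
* `locLeg` : lower bound at a leg, in `‖ω‖ ≥ ‖s‖ ^ L`.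
-/

set_option autoImplicit false
set_option linter.unusedSectionVars false

open Polynomial Set Filter Topology Metric
open Crest.AlgGeometry.Germ Crest.Agent.R257.AJ387 Crest.Agent.R257.T387
open Crest.Agent.R257.T0_939 (GalPt)

noncomputable section

namespace Crest.Agent.R257.CLog_68

open Crest.Agent.R257.Defs_219
open Crest.Agent.R257.Fr_808 (jc jc_eq jac2)

variable {f : (Fin 3 → ℂ) → ℂ} {T : TB f}

/-- `D_red (x', y')` -/
def QD (T : TB f) (Dp : ℂ → ℂ[X]) : E3 → ℂ := pl T (Dl Dp 0)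

theorem QD_th {Dp : ℂ → ℂ[X]} (hD : DpD T Dp) (c : Ch T.m) (z : ℂ × ℂ → ℂ) {p : ℂ × ℂ}
    (hp : (T.map c p).1 ^ T.M ∈ ball (0 : ℂ) T.ρ) :
    QD T Dp (T.th c z p) = (RP T ((T.map c p).1 ^ T.M)).eval (T.map c p).2 := by
  have e1 : (T.map c p).1 ^ T.N = ((T.map c p).1 ^ T.M) ^ T.N₀ := by
    rw [← pow_mul, TB.N, mul_comm]
  rw [QD, pl_th, pm, Dl]
  simp only [Function.iterate_zero, id_eq]
  rw [e1, hD.eq _ hp]

/-- **`D_red` near the origin of an edge or leg chart** -/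
theorem node {Dp : ℂ → ℂ[X]} (hD : DpD T Dp) {c : Ch T.m} (hc : T.Valid c)
    (hkap : ∀ p, T.kap c p = (p.1 ^ T.M, p.2 ^ T.M)) (z : ℂ × ℂ → ℂ) :
    ∃ U : ℂ × ℂ → ℂ, AnalyticAt ℂ U 0 ∧ U 0 ≠ 0 ∧ ∀ᶠ p in 𝓝 (0 : ℂ × ℂ),
      QD T Dp (T.th c z p) =
        p.1 ^ (T.M * ∑ j, (T.ex c j).1) * p.2 ^ (T.M * ∑ j, (T.ex c j).2) * U p := by
  obtain ⟨r, hr, hr1, U, hU, hU0, hform⟩ := prod_mono T hc
  have hM := T.M_pos
  have hk : Tendsto (fun p : ℂ × ℂ => ((p.1 ^ T.M, p.2 ^ T.M) : ℂ × ℂ)) (𝓝 0) (𝓝 0) := by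
    have h1 : Continuous fun p : ℂ × ℂ => ((p.1 ^ T.M, p.2 ^ T.M) : ℂ × ℂ) := by fun_prop
    have := h1.tendsto 0
    rwa [Prod.fst_zero, Prod.snd_zero, zero_pow hM.ne', Prod.mk_zero_zero] at this
  have hBD : BD r r ∈ 𝓝 (0 : ℂ × ℂ) := (isOpen_BD r r).mem_nhds ⟨by simpa using hr, by simpa using hr⟩
  have h00 : (0 : ℂ × ℂ) ∈ BD r r := ⟨by simpa using hr, by simpa using hr⟩
  refine ⟨fun p => U (p.1 ^ T.M, p.2 ^ T.M), ?_, ?_, ?_⟩
  · refine AnalyticAt.comp_of_eq (g := U) (f := fun p : ℂ × ℂ => ((p.1 ^ T.M, p.2 ^ T.M) : ℂ × ℂ))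
      (hU 0 h00) ((analyticAt_fst.pow _).prod (analyticAt_snd.pow _)) ?_
    rw [Prod.fst_zero, Prod.snd_zero, zero_pow hM.ne', Prod.mk_zero_zero]
  · simp only
    rw [Prod.fst_zero, Prod.snd_zero, zero_pow hM.ne', Prod.mk_zero_zero]
    exact hU0 0 h00
  · filter_upwards [hk.eventually hBD] with p hp
    obtain ⟨h1, h2⟩ := hform (p.1 ^ T.M, p.2 ^ T.M) hp
    have e1 : (T.map c p).1 ^ T.M = (T.map0 c (p.1 ^ T.M, p.2 ^ T.M)).1 := by
      rw [T.map_fst_pow, hkap]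
    have e2 : (T.map c p).2 = (T.map0 c (p.1 ^ T.M, p.2 ^ T.M)).2 := by
      rw [T.map_snd, hkap]
    rw [QD_th hD c z (by rw [e1]; exact h1), e1, e2, h2, pow_mul, pow_mul]

/-- exponents on edges -/
theorem ex_edge {i : Fin T.m} {k k' : ℕ} (hc : T.Valid (.edge i k k')) :
    ∑ j, (T.ex (.edge i k k') j).1 < ∑ j, (T.ex (.edge i k k') j).2 := by
  have hkk : k < k' := hc.2.2.1
  refine Finset.sum_lt_sum (fun j _ => ?_) ⟨i, Finset.mem_univ _, ?_⟩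
  · simp only [TB.ex]
    split_ifs
    · exact hkk.le
    · exact le_rfl
  · simp only [TB.ex, true_or, if_true]
    exact hkk

theorem ex_top {i : Fin T.m} {k' : ℕ} (hc : T.Valid (.edge i 0 k')) :
    ∑ j, (T.ex (.edge i 0 k') j).1 = 0 := by
  refine Finset.sum_eq_zero fun j _ => ?_
  simp only [TB.ex]
  split_ifs with h
  · rfl
  · exfalso
    rw [not_or, not_le] at h
    obtain ⟨-, -, -, h4⟩ := hc
    rcases h4 _ (T.del_mem_lev h.1) with h5 | h5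
    · have := T.del_pos i j
      omega
    · omega

theorem ex_leg (i : Fin T.m) : ∑ j, (T.ex (.leg i) j).2 = 1 := by
  classical
  have h1 : ∀ j, (T.ex (.leg i) j).2 = if j = i then 1 else 0 := by
    intro j
    simp only [TB.ex]
    split_ifs <;> rfl
  simp only [h1]
  simp

/-! ### derivatives of monomials -/

theorem mon_snd {U : ℂ × ℂ → ℂ} {p : ℂ × ℂ} (hU : DifferentiableAt ℂ U p) (A B : ℕ) :
    p.2 * fderiv ℂ (fun p : ℂ × ℂ => p.1 ^ A * p.2 ^ B * U p) p (0, 1) =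
      p.1 ^ A * p.2 ^ B * (B * U p + p.2 * fderiv ℂ U p (0, 1)) := by
  have h1 : HasFDerivAt (fun p : ℂ × ℂ => p.1 ^ A)
      ((A • p.1 ^ (A - 1)) • (ContinuousLinearMap.fst ℂ ℂ ℂ)) p :=
    (hasFDerivAt_fst (𝕜 := ℂ) (p := p)).pow A
  have h2 : HasFDerivAt (fun p : ℂ × ℂ => p.2 ^ B)
      ((B • p.2 ^ (B - 1)) • (ContinuousLinearMap.snd ℂ ℂ ℂ)) p :=
    (hasFDerivAt_snd (𝕜 := ℂ) (p := p)).pow B
  have h3 : HasFDerivAt (fun p : ℂ × ℂ => p.1 ^ A * p.2 ^ B * U p) _ p :=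
    (h1.mul h2).mul hU.hasFDerivAt
  rw [h3.fderiv]
  simp only [add_apply, smul_apply, smul_eq_mul, nsmul_eq_mul, ContinuousLinearMap.coe_fst',
    ContinuousLinearMap.coe_snd', Pi.mul_apply]
  have e1 : p.2 * (B * p.2 ^ (B - 1)) = (B : ℂ) * p.2 ^ B := by
    rcases Nat.eq_zero_or_pos B with h | h
    · subst h; simp
    · have : p.2 ^ B = p.2 ^ (B - 1) * p.2 := by rw [← pow_succ]; congr 1; omega
      rw [this]; ring
  linear_combination (p.1 ^ A * U p) * e1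

theorem mon_fst {U : ℂ × ℂ → ℂ} {p : ℂ × ℂ} (hU : DifferentiableAt ℂ U p) (A B : ℕ) :
    p.1 * fderiv ℂ (fun p : ℂ × ℂ => p.1 ^ A * p.2 ^ B * U p) p (1, 0) =
      p.1 ^ A * p.2 ^ B * (A * U p + p.1 * fderiv ℂ U p (1, 0)) := by
  have h1 : HasFDerivAt (fun p : ℂ × ℂ => p.1 ^ A)
      ((A • p.1 ^ (A - 1)) • (ContinuousLinearMap.fst ℂ ℂ ℂ)) p :=
    (hasFDerivAt_fst (𝕜 := ℂ) (p := p)).pow A
  have h2 : HasFDerivAt (fun p : ℂ × ℂ => p.2 ^ B)
      ((B • p.2 ^ (B - 1)) • (ContinuousLinearMap.snd ℂ ℂ ℂ)) p :=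
    (hasFDerivAt_snd (𝕜 := ℂ) (p := p)).pow B
  have h3 : HasFDerivAt (fun p : ℂ × ℂ => p.1 ^ A * p.2 ^ B * U p) _ p :=
    (h1.mul h2).mul hU.hasFDerivAt
  rw [h3.fderiv]
  simp only [add_apply, smul_apply, smul_eq_mul, nsmul_eq_mul, ContinuousLinearMap.coe_fst',
    ContinuousLinearMap.coe_snd', Pi.mul_apply]
  have e1 : p.1 * (A * p.1 ^ (A - 1)) = (A : ℂ) * p.1 ^ A := by
    rcases Nat.eq_zero_or_pos A with h | h
    · subst h; simp
    · have : p.1 ^ A = p.1 ^ (A - 1) * p.1 := by rw [← pow_succ]; congr 1; omega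
      rw [this]; ring
  linear_combination (p.2 ^ B * U p) * e1

theorem jc_mul (F : ℂ × ℂ → ℂ) (p : ℂ × ℂ) :
    jc (fun p : ℂ × ℂ => p.1 * p.2) F p =
      p.2 * fderiv ℂ F p (0, 1) - p.1 * fderiv ℂ F p (1, 0) := by
  have h1 : HasFDerivAt (fun p : ℂ × ℂ => p.1 * p.2)
      (p.1 • (ContinuousLinearMap.snd ℂ ℂ ℂ) + p.2 • (ContinuousLinearMap.fst ℂ ℂ ℂ)) p :=
    (hasFDerivAt_fst (𝕜 := ℂ) (p := p)).mul (hasFDerivAt_snd (𝕜 := ℂ) (p := p))
  unfold jc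
  rw [h1.fderiv]
  simp only [add_apply, smul_apply, smul_eq_mul, ContinuousLinearMap.coe_fst',
    ContinuousLinearMap.coe_snd']
  ring

theorem jc_fst (F : ℂ × ℂ → ℂ) (p : ℂ × ℂ) :
    jc (fun p : ℂ × ℂ => p.1) F p = fderiv ℂ F p (0, 1) := by
  have h1 : HasFDerivAt (fun p : ℂ × ℂ => p.1) (ContinuousLinearMap.fst ℂ ℂ ℂ) p :=
    hasFDerivAt_fst (𝕜 := ℂ) (p := p)
  unfold jc
  rw [h1.fderiv]
  simp

/-- the unit in the Jacobian of `(αβ)` and `α^A β^B U` -/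
def un (U : ℂ × ℂ → ℂ) (A B : ℕ) (p : ℂ × ℂ) : ℂ :=
  (B * U p + p.2 * fderiv ℂ U p (0, 1)) - (A * U p + p.1 * fderiv ℂ U p (1, 0))

theorem un_low {U : ℂ × ℂ → ℂ} (hU : AnalyticAt ℂ U 0) (hU0 : U 0 ≠ 0) {A B : ℕ} (h : A < B) :
    ∃ a : ℝ, 0 < a ∧ ∀ᶠ p in 𝓝 (0 : ℂ × ℂ), a ≤ ‖un U A B p‖ := by
  have hd : ∀ v : ℂ × ℂ, ContinuousAt (fun p => fderiv ℂ U p v) 0 := by
    intro v
    have h1 : AnalyticAt ℂ (fderiv ℂ U) 0 := hU.fderiv
    exact ((ContinuousLinearMap.apply ℂ ℂ v).continuous.continuousAt).comp h1.continuousAt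
  refine low_near (F := un U A B) ?_ ?_
  · unfold un
    exact ((continuousAt_const.mul hU.continuousAt).add (continuousAt_snd.mul (hd _))).sub
      ((continuousAt_const.mul hU.continuousAt).add (continuousAt_fst.mul (hd _)))
  · simp only [un, Prod.fst_zero, Prod.snd_zero, zero_mul, add_zero]
    rw [← sub_mul]
    refine mul_ne_zero (sub_ne_zero.2 ?_) hU0
    exact_mod_cast h.ne'

/-- the chart of an edge -/
theorem edge_vals {i : Fin T.m} {k k' : ℕ} (z : ℂ × ℂ → ℂ) :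
    (∀ p, X1 T (T.th (.edge i k k') z p) = (p.1 * p.2) ^ T.N) ∧
    ∃ C : ℝ, 0 ≤ C ∧ ∀ᶠ p in 𝓝 (0 : ℂ × ℂ), ‖Y1 T (T.th (.edge i k k') z p)‖ ≤
      C * ‖p.1 * p.2‖ ^ T.M + (‖p.1‖ ^ T.M) ^ k * (‖p.2‖ ^ T.M) ^ k' := by
  refine ⟨fun p => by rw [X1, pl_th]; rfl, ?_⟩
  obtain ⟨C, hC, h1⟩ := phi_le (T := T) i
  refine ⟨C, hC, ?_⟩
  have h2 : Tendsto (fun p : ℂ × ℂ => (p.1 * p.2) ^ T.M) (𝓝 0) (𝓝 0) := by
    have h3 : Continuous fun p : ℂ × ℂ => (p.1 * p.2) ^ T.M := by fun_prop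
    have := h3.tendsto 0
    rwa [Prod.fst_zero, zero_mul, zero_pow T.M_pos.ne'] at this
  filter_upwards [h2.eventually h1] with p h3
  have e1 : Y1 T (T.th (.edge i k k') z p) =
      T.φ i ((p.1 * p.2) ^ T.M) + p.1 ^ (T.M * k) * p.2 ^ (T.M * k') := by
    rw [Y1, pl_th]; rfl
  rw [e1]
  refine (norm_add_le _ _).trans (add_le_add ?_ ?_)
  · rwa [norm_pow] at h3
  · rw [norm_mul, norm_pow, norm_pow, pow_mul, pow_mul]

theorem small1 : ∀ᶠ p in 𝓝 (0 : ℂ × ℂ), ‖p.1‖ ≤ 1 ∧ ‖p.2‖ ≤ 1 := by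
  have h1 : ∀ᶠ p in 𝓝 (0 : ℂ × ℂ), ‖p.1‖ < 1 := by
    have : ContinuousAt (fun p : ℂ × ℂ => ‖p.1‖) 0 := by fun_prop
    exact this.eventually_lt continuousAt_const (by simp)
  have h2 : ∀ᶠ p in 𝓝 (0 : ℂ × ℂ), ‖p.2‖ < 1 := by
    have : ContinuousAt (fun p : ℂ × ℂ => ‖p.2‖) 0 := by fun_prop
    exact this.eventually_lt continuousAt_const (by simp)
  filter_upwards [h1, h2] with p a b using ⟨a.le, b.le⟩

theorem kap_edge (i : Fin T.m) (k k' : ℕ) (p : ℂ × ℂ) :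
    T.kap (.edge i k k') p = (p.1 ^ T.M, p.2 ^ T.M) := rfl

theorem kap_leg (i : Fin T.m) (p : ℂ × ℂ) : T.kap (.leg i) p = (p.1 ^ T.M, p.2 ^ T.M) := rfl

/-- **nodes** -/
theorem locB {Dp : ℂ → ℂ[X]} (hD : DpD T Dp) {i : Fin T.m} {k k' : ℕ}
    (hc : T.Valid (.edge i k k')) (hk : 0 < k) (z : ℂ × ℂ → ℂ) :
    ∃ (M' : ℕ) (κ : ℝ), 0 < M' ∧ 0 < κ ∧ ∀ᶠ p in 𝓝 (0 : ℂ × ℂ), p.1 ≠ 0 → p.2 ≠ 0 →
      κ ≤ (‖jc (fun p => X1 T (T.th (.edge i k k') z p))
          (fun p => QD T Dp (T.th (.edge i k k') z p)) p‖ * (‖p.1‖ * ‖p.2‖)) ^ 2 /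
        (WT T T.N₀ (X1 T) (T.th (.edge i k k') z p) *
          WT T M' (QD T Dp) (T.th (.edge i k k') z p)) := by
  set c : Ch T.m := .edge i k k' with hcdef
  have hM := T.M_pos
  have hN := T.N_pos
  have hN₀ := T.N₀_pos
  have hkk : k < k' := hc.2.2.1
  obtain ⟨U, hU, hU0, hQ⟩ := node hD hc (kap_edge i k k') z
  set A := T.M * ∑ j, (T.ex c j).1 with hA
  set B := T.M * ∑ j, (T.ex c j).2 with hB
  have hAB : A < B := Nat.mul_lt_mul_of_pos_left (ex_edge hc) hM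
  obtain ⟨hX, C, hC, hY⟩ := edge_vals (T := T) (i := i) (k := k) (k' := k') z
  obtain ⟨a, ha, hlow⟩ := un_low hU hU0 hAB
  obtain ⟨CU, hCU, hUb⟩ := bd_near hU.continuousAt
  have hYb : ∀ᶠ p in 𝓝 (0 : ℂ × ℂ), ‖Y1 T (T.th c z p)‖ ≤ (C + 1) * (‖p.1‖ * ‖p.2‖) ^ T.M := by
    filter_upwards [hY, small1] with p h1 h2
    refine h1.trans ?_
    rw [norm_mul, add_mul, one_mul, mul_pow]
    refine add_le_add le_rfl (mul_le_mul ?_ ?_ (by positivity) (by positivity))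
    · calc (‖p.1‖ ^ T.M) ^ k ≤ (‖p.1‖ ^ T.M) ^ 1 :=
            pow_le_pow_of_le_one (by positivity) (pow_le_one₀ (norm_nonneg _) h2.1) hk
        _ = _ := pow_one _
    · calc (‖p.2‖ ^ T.M) ^ k' ≤ (‖p.2‖ ^ T.M) ^ 1 :=
            pow_le_pow_of_le_one (by positivity) (pow_le_one₀ (norm_nonneg _) h2.2) (by omega)
        _ = _ := pow_one _
  have hJ : ∀ᶠ p in 𝓝 (0 : ℂ × ℂ), jc (fun p => X1 T (T.th c z p))
      (fun p => QD T Dp (T.th c z p)) p =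
        T.N * (p.1 * p.2) ^ (T.N - 1) * (p.1 ^ A * p.2 ^ B * un U A B p) := by
    filter_upwards [hQ.eventually_nhds, hU.eventually_analyticAt] with p h1 h2
    have e1 : (fun p => X1 T (T.th c z p)) =ᶠ[𝓝 p] fun p : ℂ × ℂ => (p.1 * p.2) ^ T.N :=
      Eventually.of_forall hX
    have hd : DifferentiableAt ℂ (fun p : ℂ × ℂ => p.1 * p.2) p := by fun_prop
    rw [jc_congr e1 (h1 : (fun p => QD T Dp (T.th c z p)) =ᶠ[𝓝 p] fun p =>
      p.1 ^ A * p.2 ^ B * U p), jc_powl (σ := fun p : ℂ × ℂ => p.1 * p.2) hd, jc_mul,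
      mon_snd h2.differentiableAt, mon_fst h2.differentiableAt, un]
    ring
  refine ⟨B, (T.N * a) ^ 2 / ((1 ^ 2 + 1 ^ 2 + ((C + 1) ^ T.N₀) ^ 2) *
    (CU ^ 2 + 1 ^ 2 + ((C + 1) ^ B) ^ 2)), by omega, by positivity, ?_⟩
  filter_upwards [hYb, hJ, hlow, hUb, hQ, small1] with p h1 h2 h3 h4 h5 h6 hp1 hp2
  have hn1 : 0 < ‖p.1‖ := norm_pos_iff.2 hp1
  have hn2 : 0 < ‖p.2‖ := norm_pos_iff.2 hp2
  have hXne : X1 T (T.th c z p) ≠ 0 := by
    rw [hX]; exact pow_ne_zero _ (mul_ne_zero hp1 hp2)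
  have hs1 : ‖p.1‖ * ‖p.2‖ ≤ 1 := by nlinarith [h6.1, h6.2]
  refine quot_ge (t := (‖p.1‖ * ‖p.2‖) ^ T.N) (t' := ‖p.1‖ ^ A * ‖p.2‖ ^ B) (by positivity)
    (by positivity) (by positivity) ?_ (WT_pos (Or.inl hXne)) (WT_pos (Or.inl hXne))
    (by positivity) (by positivity) (WT_le ?_ ?_ ?_) (WT_le ?_ ?_ ?_)
  · rw [h2, norm_mul, norm_mul, norm_mul (p.1 ^ A * p.2 ^ B), norm_mul (p.1 ^ A), norm_pow,
      norm_pow, norm_pow, norm_mul, RCLike.norm_natCast]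
    have e1 : (‖p.1‖ * ‖p.2‖) ^ T.N = (‖p.1‖ * ‖p.2‖) ^ (T.N - 1) * (‖p.1‖ * ‖p.2‖) := by
      rw [← pow_succ]; congr 1; omega
    calc (T.N : ℝ) * a * ((‖p.1‖ * ‖p.2‖) ^ T.N * (‖p.1‖ ^ A * ‖p.2‖ ^ B))
        = (T.N : ℝ) * (‖p.1‖ * ‖p.2‖) ^ (T.N - 1) * (‖p.1‖ ^ A * ‖p.2‖ ^ B) *
          (‖p.1‖ * ‖p.2‖) * a := by rw [e1]; ring
      _ ≤ (T.N : ℝ) * (‖p.1‖ * ‖p.2‖) ^ (T.N - 1) * (‖p.1‖ ^ A * ‖p.2‖ ^ B) *
          (‖p.1‖ * ‖p.2‖) * ‖un U A B p‖ := mul_le_mul_of_nonneg_left h3 (by positivity)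
      _ = _ := by ring
  · rw [hX, norm_pow, norm_mul, one_mul]
  · rw [hX, norm_pow, norm_mul, one_mul]
    calc ((‖p.1‖ * ‖p.2‖) ^ T.N) ^ T.N₀ ≤ ((‖p.1‖ * ‖p.2‖) ^ T.N) ^ 1 :=
          pow_le_pow_of_le_one (by positivity) (pow_le_one₀ (by positivity) hs1) hN₀
      _ = _ := pow_one _
  · calc ‖Y1 T (T.th c z p)‖ ^ T.N₀ ≤ ((C + 1) * (‖p.1‖ * ‖p.2‖) ^ T.M) ^ T.N₀ :=
          pow_le_pow_left₀ (norm_nonneg _) h1 _
      _ = (C + 1) ^ T.N₀ * (‖p.1‖ * ‖p.2‖) ^ T.N := by rw [mul_pow, ← pow_mul, TB.N, mul_comm T.M]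
  · rw [h5, norm_mul, norm_mul, norm_pow, norm_pow, mul_comm]
    exact mul_le_mul_of_nonneg_right h4 (by positivity)
  · rw [hX, norm_pow, norm_mul, one_mul, ← pow_mul, mul_pow]
    have e1 : B ≤ T.N * B := Nat.le_mul_of_pos_left _ hN
    exact mul_le_mul (pow_le_pow_of_le_one hn1.le h6.1 (by omega))
      (pow_le_pow_of_le_one hn2.le h6.2 e1) (by positivity) (by positivity)
  · calc ‖Y1 T (T.th c z p)‖ ^ B ≤ ((C + 1) * (‖p.1‖ * ‖p.2‖) ^ T.M) ^ B :=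
          pow_le_pow_left₀ (norm_nonneg _) h1 _
      _ = (C + 1) ^ B * (‖p.1‖ ^ (T.M * B) * ‖p.2‖ ^ (T.M * B)) := by
          rw [mul_pow, ← pow_mul, mul_pow]
      _ ≤ (C + 1) ^ B * (‖p.1‖ ^ A * ‖p.2‖ ^ B) := by
          have e1 : B ≤ T.M * B := Nat.le_mul_of_pos_left _ hM
          refine mul_le_mul_of_nonneg_left ?_ (by positivity)
          exact mul_le_mul (pow_le_pow_of_le_one hn1.le h6.1 (by omega))
            (pow_le_pow_of_le_one hn2.le h6.2 e1) (by positivity) (by positivity)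

/-- **top nodes** -/
theorem locTop {Dp : ℂ → ℂ[X]} (hD : DpD T Dp) {i : Fin T.m} {k' : ℕ}
    (hc : T.Valid (.edge i 0 k')) (z : ℂ × ℂ → ℂ) :
    ∃ (M' : ℕ) (κ : ℝ), 0 < M' ∧ 0 < κ ∧ ∀ᶠ p in 𝓝 (0 : ℂ × ℂ), p.1 ≠ 0 → p.2 ≠ 0 →
      κ * (‖p.1‖ ^ (T.N - 1)) ^ 2 ≤ (‖jc (fun p => X1 T (T.th (.edge i 0 k') z p))
          (fun p => QD T Dp (T.th (.edge i 0 k') z p)) p‖ * ‖p.2‖) ^ 2 /
        (WT T T.N₀ (X1 T) (T.th (.edge i 0 k') z p) *
          WT T M' (QD T Dp) (T.th (.edge i 0 k') z p)) := by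
  set c : Ch T.m := .edge i 0 k' with hcdef
  have hM := T.M_pos
  have hN := T.N_pos
  have hN₀ := T.N₀_pos
  have hkk : 0 < k' := hc.2.2.1
  obtain ⟨U, hU, hU0, hQ⟩ := node hD hc (kap_edge i 0 k') z
  have hex : ∑ j, (T.ex c j).1 = 0 := ex_top hc
  rw [hex, mul_zero] at hQ
  set B := T.M * ∑ j, (T.ex c j).2 with hB
  have hAB : 0 < B := by
    have h1 : ∑ j, (T.ex c j).1 < ∑ j, (T.ex c j).2 := ex_edge hc
    rw [hex] at h1
    exact Nat.mul_pos hM h1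
  obtain ⟨hX, C, hC, hY⟩ := edge_vals (T := T) (i := i) (k := 0) (k' := k') z
  obtain ⟨a, ha, hlow⟩ := un_low hU hU0 hAB
  obtain ⟨CU, hCU, hUb⟩ := bd_near hU.continuousAt
  have hYb : ∀ᶠ p in 𝓝 (0 : ℂ × ℂ), ‖Y1 T (T.th c z p)‖ ≤ (C + 1) * ‖p.2‖ ^ T.M := by
    filter_upwards [hY, small1] with p h1 h2
    refine h1.trans ?_
    rw [norm_mul, add_mul, one_mul, mul_pow, pow_zero, one_mul]
    refine add_le_add (mul_le_mul_of_nonneg_left ?_ hC) ?_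
    · calc ‖p.1‖ ^ T.M * ‖p.2‖ ^ T.M ≤ 1 * ‖p.2‖ ^ T.M :=
            mul_le_mul_of_nonneg_right (pow_le_one₀ (norm_nonneg _) h2.1) (by positivity)
        _ = _ := one_mul _
    · calc (‖p.2‖ ^ T.M) ^ k' ≤ (‖p.2‖ ^ T.M) ^ 1 :=
            pow_le_pow_of_le_one (by positivity) (pow_le_one₀ (norm_nonneg _) h2.2) (by omega)
        _ = _ := pow_one _
  have hJ : ∀ᶠ p in 𝓝 (0 : ℂ × ℂ), jc (fun p => X1 T (T.th c z p))
      (fun p => QD T Dp (T.th c z p)) p =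
        T.N * (p.1 * p.2) ^ (T.N - 1) * (p.1 ^ 0 * p.2 ^ B * un U 0 B p) := by
    filter_upwards [hQ.eventually_nhds, hU.eventually_analyticAt] with p h1 h2
    have e1 : (fun p => X1 T (T.th c z p)) =ᶠ[𝓝 p] fun p : ℂ × ℂ => (p.1 * p.2) ^ T.N :=
      Eventually.of_forall hX
    have hd : DifferentiableAt ℂ (fun p : ℂ × ℂ => p.1 * p.2) p := by fun_prop
    rw [jc_congr e1 (h1 : (fun p => QD T Dp (T.th c z p)) =ᶠ[𝓝 p] fun p =>
      p.1 ^ 0 * p.2 ^ B * U p), jc_powl (σ := fun p : ℂ × ℂ => p.1 * p.2) hd, jc_mul,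
      mon_snd h2.differentiableAt, mon_fst h2.differentiableAt, un]
    ring
  refine ⟨B, (T.N * a) ^ 2 / ((1 ^ 2 + 1 ^ 2 + ((C + 1) ^ T.N₀) ^ 2) *
    (CU ^ 2 + 1 ^ 2 + ((C + 1) ^ B) ^ 2)), by omega, by positivity, ?_⟩
  filter_upwards [hYb, hJ, hlow, hUb, hQ, small1] with p h1 h2 h3 h4 h5 h6 hp1 hp2
  have hn1 : 0 < ‖p.1‖ := norm_pos_iff.2 hp1
  have hn2 : 0 < ‖p.2‖ := norm_pos_iff.2 hp2
  have hXne : X1 T (T.th c z p) ≠ 0 := by
    rw [hX]; exact pow_ne_zero _ (mul_ne_zero hp1 hp2)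
  have hq := quot_ge (t := ‖p.2‖ ^ T.N) (t' := ‖p.2‖ ^ B) (a := T.N * a * ‖p.1‖ ^ (T.N - 1))
    (A := ‖jc (fun p => X1 T (T.th c z p)) (fun p => QD T Dp (T.th c z p)) p‖ * ‖p.2‖)
    (W := WT T T.N₀ (X1 T) (T.th c z p)) (W' := WT T B (QD T Dp) (T.th c z p))
    (C := 1 ^ 2 + 1 ^ 2 + ((C + 1) ^ T.N₀) ^ 2) (C' := CU ^ 2 + 1 ^ 2 + ((C + 1) ^ B) ^ 2)
    (by positivity) (by positivity) (by positivity) ?_ (WT_pos (Or.inl hXne))
    (WT_pos (Or.inl hXne)) (by positivity) (by positivity) (WT_le ?_ ?_ ?_) (WT_le ?_ ?_ ?_)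
  · refine le_trans (le_of_eq ?_) hq
    rw [mul_pow]
    ring
  · rw [h2, norm_mul, norm_mul, norm_mul (p.1 ^ 0 * p.2 ^ B), norm_mul (p.1 ^ 0), norm_pow,
      norm_pow, norm_pow, norm_mul, RCLike.norm_natCast, pow_zero, one_mul]
    have e1 : ‖p.2‖ ^ T.N = ‖p.2‖ ^ (T.N - 1) * ‖p.2‖ := by
      rw [← pow_succ]; congr 1; omega
    calc (T.N : ℝ) * a * ‖p.1‖ ^ (T.N - 1) * (‖p.2‖ ^ T.N * ‖p.2‖ ^ B)
        = (T.N : ℝ) * (‖p.1‖ * ‖p.2‖) ^ (T.N - 1) * ‖p.2‖ ^ B * ‖p.2‖ * a := by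
          rw [e1, mul_pow]; ring
      _ ≤ (T.N : ℝ) * (‖p.1‖ * ‖p.2‖) ^ (T.N - 1) * ‖p.2‖ ^ B * ‖p.2‖ * ‖un U 0 B p‖ :=
          mul_le_mul_of_nonneg_left h3 (by positivity)
      _ = _ := by ring
  · rw [hX, norm_pow, norm_mul, one_mul, mul_pow]
    calc ‖p.1‖ ^ T.N * ‖p.2‖ ^ T.N ≤ 1 * ‖p.2‖ ^ T.N :=
          mul_le_mul_of_nonneg_right (pow_le_one₀ (norm_nonneg _) h6.1) (by positivity)
      _ = _ := one_mul _
  · rw [hX, norm_pow, norm_mul, one_mul]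
    calc ((‖p.1‖ * ‖p.2‖) ^ T.N) ^ T.N₀ ≤ ((1 * ‖p.2‖) ^ T.N) ^ T.N₀ := by
          refine pow_le_pow_left₀ (by positivity) (pow_le_pow_left₀ (by positivity) ?_ _) _
          exact mul_le_mul_of_nonneg_right h6.1 hn2.le
      _ ≤ ((1 * ‖p.2‖) ^ T.N) ^ 1 := by
          rw [one_mul]
          exact pow_le_pow_of_le_one (by positivity) (pow_le_one₀ hn2.le h6.2) hN₀
      _ = _ := by rw [pow_one, one_mul]
  · calc ‖Y1 T (T.th c z p)‖ ^ T.N₀ ≤ ((C + 1) * ‖p.2‖ ^ T.M) ^ T.N₀ :=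
          pow_le_pow_left₀ (norm_nonneg _) h1 _
      _ = (C + 1) ^ T.N₀ * ‖p.2‖ ^ T.N := by rw [mul_pow, ← pow_mul, TB.N, mul_comm T.M]
  · rw [h5, norm_mul, norm_mul, norm_pow, norm_pow, pow_zero, one_mul, mul_comm]
    exact mul_le_mul_of_nonneg_right h4 (by positivity)
  · rw [hX, norm_pow, norm_mul, one_mul, ← pow_mul, mul_pow]
    have e1 : B ≤ T.N * B := Nat.le_mul_of_pos_left _ hN
    calc ‖p.1‖ ^ (T.N * B) * ‖p.2‖ ^ (T.N * B) ≤ 1 * ‖p.2‖ ^ B :=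
          mul_le_mul (pow_le_one₀ hn1.le h6.1) (pow_le_pow_of_le_one hn2.le h6.2 e1)
            (by positivity) zero_le_one
      _ = _ := one_mul _
  · calc ‖Y1 T (T.th c z p)‖ ^ B ≤ ((C + 1) * ‖p.2‖ ^ T.M) ^ B :=
          pow_le_pow_left₀ (norm_nonneg _) h1 _
      _ = (C + 1) ^ B * ‖p.2‖ ^ (T.M * B) := by rw [mul_pow, ← pow_mul]
      _ ≤ (C + 1) ^ B * ‖p.2‖ ^ B := by
          have e1 : B ≤ T.M * B := Nat.le_mul_of_pos_left _ hM
          exact mul_le_mul_of_nonneg_left (pow_le_pow_of_le_one hn2.le h6.2 e1) (by positivity)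

end Crest.Agent.R257.CLog_68
end
end

-- ▼ part R257/CLogF_68
section

/-!
R257 / CLogF_68 (C-LOG, helper68): legs.

* `locLeg` : lower bound at a leg, in `‖ω‖ ≥ ‖s‖ ^ L`;
* `legQ`   : for every sheet over a leg there is a germ `q` which vanishes on the branch
             `γ(s) = th (s, 0)` with `Dt f x' q ≠ 0` on `γ`;
* `legI`   : lower bound at a leg, in `‖ω‖ ≤ ‖s‖ ^ L`.
-/

set_option autoImplicit false
set_option linter.unusedSectionVars false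

open Polynomial Set Filter Topology Metric
open Crest.AlgGeometry.Germ Crest.Agent.R257.AJ387 Crest.Agent.R257.T387
open Crest.Agent.R257.T0_939 (GalPt)
open Crest.Agent.R257.T0_387 (isolated)

noncomputable section

namespace Crest.Agent.R257.CLog_68

open Crest.Agent.R257.Defs_219
open Crest.Agent.R257.Fr_808 (jc jc_eq jac2 dt0_an)
open Crest.Agent.R257.Det_219 (fderiv_sum)

variable {f : (Fin 3 → ℂ) → ℂ} {T : TB f}

/-! ### the region `‖ω‖ ≥ ‖s‖ ^ L` -/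

/-- the chart of a leg -/
theorem leg_vals {i : Fin T.m} (z : ℂ × ℂ → ℂ) :
    (∀ p, X1 T (T.th (.leg i) z p) = p.1 ^ T.N) ∧
    ∃ C : ℝ, 0 ≤ C ∧ ∀ᶠ p in 𝓝 (0 : ℂ × ℂ), ‖Y1 T (T.th (.leg i) z p)‖ ≤ C * ‖p.1‖ ^ T.M := by
  refine ⟨fun p => by rw [X1, pl_th]; rfl, ?_⟩
  obtain ⟨C, hC, h1⟩ := phi_le (T := T) i
  refine ⟨C + 1, by positivity, ?_⟩
  have h2 : Tendsto (fun p : ℂ × ℂ => p.1 ^ T.M) (𝓝 0) (𝓝 0) := by
    have h3 : Continuous fun p : ℂ × ℂ => p.1 ^ T.M := by fun_prop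
    have := h3.tendsto 0
    rwa [Prod.fst_zero, zero_pow T.M_pos.ne'] at this
  have htop : 1 ≤ T.top i := T.lev_pos (Finset.max'_mem _ _)
  filter_upwards [h2.eventually h1, small1] with p h3 h4
  have e1 : Y1 T (T.th (.leg i) z p) =
      T.φ i (p.1 ^ T.M) + p.1 ^ (T.M * T.top i) * p.2 ^ T.M := by
    rw [Y1, pl_th]; rfl
  rw [e1, add_mul, one_mul]
  refine (norm_add_le _ _).trans (add_le_add ?_ ?_)
  · rwa [norm_pow] at h3
  · rw [norm_mul, norm_pow, norm_pow, pow_mul]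
    calc (‖p.1‖ ^ T.M) ^ T.top i * ‖p.2‖ ^ T.M ≤ (‖p.1‖ ^ T.M) ^ 1 * 1 :=
          mul_le_mul (pow_le_pow_of_le_one (by positivity) (pow_le_one₀ (norm_nonneg _) h4.1) htop)
            (pow_le_one₀ (norm_nonneg _) h4.2) (by positivity) (by positivity)
      _ = _ := by rw [mul_one, pow_one]

/-- **legs**, `‖ω‖ ≥ ‖s‖ ^ L` -/
theorem locLeg {Dp : ℂ → ℂ[X]} (hD : DpD T Dp) (i : Fin T.m) (z : ℂ × ℂ → ℂ) (Lx : ℕ) :
    ∃ (M' : ℕ) (κ : ℝ), 0 < M' ∧ 0 < κ ∧ ∀ᶠ p in 𝓝 (0 : ℂ × ℂ), p.1 ≠ 0 → p.2 ≠ 0 →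
      ‖p.1‖ ^ Lx ≤ ‖p.2‖ →
      κ ≤ (‖jc (fun p => X1 T (T.th (.leg i) z p))
          (fun p => QD T Dp (T.th (.leg i) z p)) p‖ * ‖p.1‖) ^ 2 /
        (WT T T.N₀ (X1 T) (T.th (.leg i) z p) *
          WT T M' (QD T Dp) (T.th (.leg i) z p)) := by
  set c : Ch T.m := .leg i with hcdef
  have hM := T.M_pos
  have hN := T.N_pos
  have hN₀ := T.N₀_pos
  obtain ⟨U, hU, hU0, hQ⟩ := node hD (c := c) trivial (kap_leg i) z
  set A := T.M * ∑ j, (T.ex c j).1 with hA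
  have hex : ∑ j, (T.ex c j).2 = 1 := ex_leg i
  rw [hex, mul_one] at hQ
  set B := T.M with hB
  obtain ⟨hX, C, hC, hY⟩ := leg_vals (T := T) (i := i) z
  obtain ⟨a, ha, hlow⟩ : ∃ a : ℝ, 0 < a ∧ ∀ᶠ p in 𝓝 (0 : ℂ × ℂ),
      a ≤ ‖B * U p + p.2 * fderiv ℂ U p (0, 1)‖ := by
    have hd : ContinuousAt (fun p => fderiv ℂ U p ((0 : ℂ), (1 : ℂ))) 0 := by
      have h1 : AnalyticAt ℂ (fderiv ℂ U) 0 := hU.fderiv
      exact ((ContinuousLinearMap.apply ℂ ℂ ((0 : ℂ), (1 : ℂ))).continuous.continuousAt).comp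
        h1.continuousAt
    refine low_near (F := fun p => B * U p + p.2 * fderiv ℂ U p (0, 1)) ?_ ?_
    · exact (continuousAt_const.mul hU.continuousAt).add (continuousAt_snd.mul hd)
    · simp only [Prod.snd_zero, zero_mul, add_zero]
      exact mul_ne_zero (by exact_mod_cast hM.ne') hU0
  obtain ⟨CU, hCU, hUb⟩ := bd_near hU.continuousAt
  have hJ : ∀ᶠ p in 𝓝 (0 : ℂ × ℂ), p.2 * jc (fun p => X1 T (T.th c z p))
      (fun p => QD T Dp (T.th c z p)) p =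
        T.N * p.1 ^ (T.N - 1) * (p.1 ^ A * p.2 ^ B * (B * U p + p.2 * fderiv ℂ U p (0, 1))) := by
    filter_upwards [hQ.eventually_nhds, hU.eventually_analyticAt] with p h1 h2
    have e1 : (fun p => X1 T (T.th c z p)) =ᶠ[𝓝 p] fun p : ℂ × ℂ => p.1 ^ T.N :=
      Eventually.of_forall hX
    have hd : DifferentiableAt ℂ (fun p : ℂ × ℂ => p.1) p := by fun_prop
    rw [jc_congr e1 (h1 : (fun p => QD T Dp (T.th c z p)) =ᶠ[𝓝 p] fun p =>
      p.1 ^ A * p.2 ^ B * U p), jc_powl (σ := fun p : ℂ × ℂ => p.1) hd, jc_fst,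
      ← mon_snd h2.differentiableAt]
    ring
  refine ⟨A + Lx * B + 1, (T.N * a) ^ 2 / ((1 ^ 2 + 1 ^ 2 + (C ^ T.N₀) ^ 2) *
    (CU ^ 2 + 1 ^ 2 + (C ^ (A + Lx * B + 1)) ^ 2)), by omega, by positivity, ?_⟩
  filter_upwards [hY, hJ, hlow, hUb, hQ, small1] with p h1 h2 h3 h4 h5 h6 hp1 hp2 hreg
  have hn1 : 0 < ‖p.1‖ := norm_pos_iff.2 hp1
  have hn2 : 0 < ‖p.2‖ := norm_pos_iff.2 hp2
  have hXne : X1 T (T.th c z p) ≠ 0 := by
    rw [hX]; exact pow_ne_zero _ hp1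
  have ht' : ‖p.1‖ ^ (A + Lx * B) ≤ ‖p.1‖ ^ A * ‖p.2‖ ^ B := by
    rw [pow_add, pow_mul ‖p.1‖ Lx B]
    exact mul_le_mul_of_nonneg_left (pow_le_pow_left₀ (by positivity) hreg _) (by positivity)
  refine quot_ge (t := ‖p.1‖ ^ T.N) (t' := ‖p.1‖ ^ A * ‖p.2‖ ^ B) (by positivity)
    (by positivity) (by positivity) ?_ (WT_pos (Or.inl hXne)) (WT_pos (Or.inl hXne))
    (by positivity) (by positivity) (WT_le ?_ ?_ ?_) (WT_le ?_ ?_ ?_)
  · set J := jc (fun p => X1 T (T.th c z p)) (fun p => QD T Dp (T.th c z p)) p with hJdef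
    have h7 : ‖p.2‖ * ‖J‖ = T.N * ‖p.1‖ ^ (T.N - 1) * (‖p.1‖ ^ A * ‖p.2‖ ^ B *
        ‖B * U p + p.2 * fderiv ℂ U p (0, 1)‖) := by
      rw [← norm_mul, h2, norm_mul, norm_mul, norm_mul (p.1 ^ A * p.2 ^ B), norm_mul (p.1 ^ A),
        norm_pow, norm_pow, norm_pow, RCLike.norm_natCast]
    have e1 : ‖p.1‖ ^ T.N = ‖p.1‖ ^ (T.N - 1) * ‖p.1‖ := by
      rw [← pow_succ]; congr 1; omega
    calc (T.N : ℝ) * a * (‖p.1‖ ^ T.N * (‖p.1‖ ^ A * ‖p.2‖ ^ B))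
        = (T.N : ℝ) * ‖p.1‖ ^ (T.N - 1) * (‖p.1‖ ^ A * ‖p.2‖ ^ B * a) * ‖p.1‖ := by
          rw [e1]; ring
      _ ≤ (T.N : ℝ) * ‖p.1‖ ^ (T.N - 1) * (‖p.1‖ ^ A * ‖p.2‖ ^ B *
          ‖B * U p + p.2 * fderiv ℂ U p (0, 1)‖) * ‖p.1‖ := by
          refine mul_le_mul_of_nonneg_right (mul_le_mul_of_nonneg_left
            (mul_le_mul_of_nonneg_left h3 (by positivity)) (by positivity)) hn1.le
      _ = ‖p.2‖ * ‖J‖ * ‖p.1‖ := by rw [h7]
      _ ≤ 1 * ‖J‖ * ‖p.1‖ := mul_le_mul_of_nonneg_right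
          (mul_le_mul_of_nonneg_right h6.2 (norm_nonneg _)) hn1.le
      _ = _ := by rw [one_mul]
  · rw [hX, norm_pow, one_mul]
  · rw [hX, norm_pow, one_mul]
    calc (‖p.1‖ ^ T.N) ^ T.N₀ ≤ (‖p.1‖ ^ T.N) ^ 1 :=
          pow_le_pow_of_le_one (by positivity) (pow_le_one₀ (by positivity) h6.1) hN₀
      _ = _ := pow_one _
  · calc ‖Y1 T (T.th c z p)‖ ^ T.N₀ ≤ (C * ‖p.1‖ ^ T.M) ^ T.N₀ :=
          pow_le_pow_left₀ (norm_nonneg _) h1 _
      _ = C ^ T.N₀ * ‖p.1‖ ^ T.N := by rw [mul_pow, ← pow_mul, TB.N, mul_comm T.M]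
  · rw [h5, norm_mul, norm_mul, norm_pow, norm_pow, mul_comm]
    exact mul_le_mul_of_nonneg_right h4 (by positivity)
  · rw [hX, norm_pow, one_mul, ← pow_mul]
    refine le_trans (pow_le_pow_of_le_one hn1.le h6.1 ?_) ht'
    exact (Nat.le_succ _).trans (Nat.le_mul_of_pos_left _ hN)
  · calc ‖Y1 T (T.th c z p)‖ ^ (A + Lx * B + 1) ≤ (C * ‖p.1‖ ^ T.M) ^ (A + Lx * B + 1) :=
          pow_le_pow_left₀ (norm_nonneg _) h1 _
      _ = C ^ (A + Lx * B + 1) * ‖p.1‖ ^ (T.M * (A + Lx * B + 1)) := by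
          rw [mul_pow, ← pow_mul]
      _ ≤ C ^ (A + Lx * B + 1) * (‖p.1‖ ^ A * ‖p.2‖ ^ B) := by
          refine mul_le_mul_of_nonneg_left ?_ (by positivity)
          refine le_trans (pow_le_pow_of_le_one hn1.le h6.1 ?_) ht'
          exact (Nat.le_succ _).trans (Nat.le_mul_of_pos_left _ hM)

/-! ### linear algebra -/

theorem Dt_ne {f g h : E3 → ℂ} {x u v w : E3}
    (h1 : fderiv ℂ f x v = 0) (h2 : fderiv ℂ g x u = 0) (h3 : fderiv ℂ g x w = 0)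
    (h4 : fderiv ℂ h x v = 0)
    (hd : fderiv ℂ g x v * (fderiv ℂ f x u * fderiv ℂ h x w - fderiv ℂ f x w * fderiv ℂ h x u) ≠ 0) :
    Dt f g h x ≠ 0 := by
  intro h0
  apply hd
  have e1 : Matrix.of ![gr f x, gr g x, gr h x] * (Matrix.of ![u, v, w]).transpose =
      !![fderiv ℂ f x u, fderiv ℂ f x v, fderiv ℂ f x w;
        fderiv ℂ g x u, fderiv ℂ g x v, fderiv ℂ g x w;
        fderiv ℂ h x u, fderiv ℂ h x v, fderiv ℂ h x w] := by
    ext a b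
    rw [Matrix.mul_apply]
    fin_cases a <;> fin_cases b <;>
      simp [Fin.sum_univ_three, fderiv_sum, gr, mul_comm]
  have e2 := congrArg Matrix.det e1
  rw [Matrix.det_mul] at e2
  have e3 : (Matrix.of ![gr f x, gr g x, gr h x]).det = 0 := h0
  rw [e3, zero_mul, Matrix.det_fin_three] at e2
  simp only [Matrix.of_apply, Matrix.cons_val_zero, Matrix.cons_val_one, Matrix.cons_val,
    Matrix.cons_val', Matrix.empty_val', Matrix.cons_val_fin_one] at e2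
  rw [h1, h2, h3, h4] at e2
  linear_combination -e2

/-! ### directions -/

/-- the projection to the `(x', y')`-plane -/
def SL (T : TB f) : E3 →L[ℂ] ℂ × ℂ :=
  T.A.symm.toContinuousLinearMap.comp
    ((ContinuousLinearMap.proj (R := ℂ) (φ := fun _ : Fin 3 => ℂ) 1).prod
      (ContinuousLinearMap.proj (R := ℂ) (φ := fun _ : Fin 3 => ℂ) 2))

theorem SL_apply (x : E3) : SL T x = T.A.symm (x 1, x 2) := rfl

theorem pl_eq (g : ℂ × ℂ → ℂ) : pl T g = fun x => g (SL T x) := rfl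

theorem pl_fderiv {g : ℂ × ℂ → ℂ} {x : E3} (hg : DifferentiableAt ℂ g (SL T x)) (v : E3) :
    fderiv ℂ (pl T g) x v = fderiv ℂ g (SL T x) (SL T v) := by
  have h1 : HasFDerivAt (fun x => g (SL T x)) ((fderiv ℂ g (SL T x)).comp (SL T)) x :=
    hg.hasFDerivAt.comp x (SL T).hasFDerivAt
  rw [pl_eq, h1.fderiv]
  rfl

theorem SL_e0 : SL T (pt 1 0) = 0 := by
  rw [SL_apply]
  have : (((pt 1 0 : Fin 3 → ℂ) 1, (pt 1 0 : Fin 3 → ℂ) 2) : ℂ × ℂ) = 0 := rfl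
  rw [this, map_zero]

theorem SL_pt (z : ℂ) (q : ℂ × ℂ) : SL T (pt z (T.A q)) = q := by
  rw [SL_apply]
  have : (((pt z (T.A q)) 1, (pt z (T.A q)) 2) : ℂ × ℂ) = T.A q := rfl
  rw [this, ContinuousLinearEquiv.symm_apply_apply]

theorem SL_ker {v : E3} (h : SL T v = 0) (h0 : v 0 = 0) : v = 0 := by
  rw [SL_apply] at h
  have h1 : ((v 1, v 2) : ℂ × ℂ) = 0 := by
    have := congrArg T.A h
    rwa [ContinuousLinearEquiv.apply_symm_apply, map_zero] at this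
  rw [Prod.mk_eq_zero] at h1
  funext i
  fin_cases i
  · exact h0
  · exact h1.1
  · exact h1.2

/-- derivative along a line -/
theorem fderiv_line {E : Type*} [NormedAddCommGroup E] [NormedSpace ℂ E] {F : E → ℂ} {x v : E}
    {a : ℂ} (hF : DifferentiableAt ℂ F x) (h : HasDerivAt (fun t : ℂ => F (x + t • v)) a 0) :
    fderiv ℂ F x v = a := by
  have h1 : HasDerivAt (fun t : ℂ => x + t • v) v 0 := by
    have := ((hasDerivAt_id (0 : ℂ)).smul_const v).const_add x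
    simpa using this
  have h2 : HasDerivAt (fun t : ℂ => F (x + t • v)) (fderiv ℂ F x v) 0 := by
    have h3 : HasFDerivAt F (fderiv ℂ F x) (x + (0 : ℂ) • v) := by
      rw [zero_smul, add_zero]; exact hF.hasFDerivAt
    exact HasFDerivAt.comp_hasDerivAt (x := (0 : ℂ)) (f := fun t : ℂ => x + t • v) (l := F) h3 h1
  exact h2.unique h

/-- the derivatives of the Weierstrass polynomial, as functions on `ℂ³` -/
def PT (T : TB f) (l : ℕ) (x : E3) : ℂ := (derivative^[l] (T.P (SL T x))).eval (x 0)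

theorem PT_an {l : ℕ} {x : E3} (hx : SL T x ∈ BD T.R T.R) : AnalyticAt ℂ (PT T l) x := by
  classical
  have h0 : ∀ᶠ x' in 𝓝 x, SL T x' ∈ BD T.R T.R :=
    (SL T).continuous.continuousAt.eventually ((isOpen_BD _ _).mem_nhds hx)
  set P' : E3 → ℂ[X] := fun x' => if SL T x' ∈ BD T.R T.R then derivative^[l] (T.P (SL T x')) else 0
    with hP'
  have h1 : AnalyticAt ℂ (fun x' => (P' x').eval (x' 0)) x := by
    refine eval_an (P := P') (D := T.d) (fun x' => ?_) (fun n => ?_)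
      ((ContinuousLinearMap.proj (R := ℂ) (φ := fun _ : Fin 3 => ℂ) 0).analyticAt x)
    · rw [hP']
      simp only
      split_ifs with h
      · exact ((natDegree_iterate_derivative _ _).trans (Nat.sub_le _ _)).trans (T.deg _ h).le
      · simp
    · have h2 : AnalyticAt ℂ (fun x' : E3 => ((n + l).descFactorial l : ℂ) *
          (T.P (SL T x')).coeff (n + l)) x := by
        refine analyticAt_const.mul ?_
        exact AnalyticAt.comp (g := fun q => (T.P q).coeff (n + l)) (f := fun x' : E3 => SL T x')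
          (T.coeff_an _ _ hx) ((SL T).analyticAt x)
      refine h2.congr ?_
      filter_upwards [h0] with x' hx'
      rw [hP']
      simp only
      rw [if_pos hx', coeff_iterate_derivative, nsmul_eq_mul]
  refine h1.congr ?_
  filter_upwards [h0] with x' hx'
  rw [hP']
  simp only
  rw [if_pos hx']
  rfl

theorem PT_zero {l : ℕ} (hl : l < T.d) : PT T l 0 = 0 := by
  unfold PT
  rw [map_zero, T.P_zero, iterate_derivative_X_pow_eq_natCast_mul, eval_mul, eval_pow, eval_X]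
  show _ * (0 : ℂ) ^ (T.d - l) = 0
  rw [zero_pow (by omega), mul_zero]

theorem PT_e0 {l : ℕ} {x : E3} (hx : SL T x ∈ BD T.R T.R) :
    fderiv ℂ (PT T l) x (pt 1 0) = PT T (l + 1) x := by
  refine fderiv_line (PT_an hx).differentiableAt ?_
  have h1 : (fun t : ℂ => PT T l (x + t • (pt 1 0 : Fin 3 → ℂ))) =
      fun t : ℂ => (derivative^[l] (T.P (SL T x))).eval (x 0 + t) := by
    funext t
    unfold PT
    rw [map_add, map_smul, SL_e0, smul_zero, add_zero]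
    congr 1
    show x 0 + t * 1 = _
    rw [mul_one]
  rw [h1]
  have h2 := (derivative^[l] (T.P (SL T x))).hasDerivAt (x 0 + 0)
  have h3 : HasDerivAt (fun t : ℂ => x 0 + t) 1 0 := (hasDerivAt_id (0 : ℂ)).const_add (x 0)
  have h4 := HasDerivAt.comp (0 : ℂ) h2 h3
  rw [mul_one, add_zero] at h4
  unfold PT
  rw [Function.iterate_succ_apply']
  exact h4

end Crest.Agent.R257.CLog_68
end
end

-- ▼ part R257/CLogG_68

/-!
R257 / CLogG_68 (C-LOG, helper68): the germ `q` of a sheet over a leg, and the region near the branch.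
-/

set_option autoImplicit false
set_option linter.unusedSectionVars false

open Polynomial Set Filter Topology Metric
open Crest.AlgGeometry.Germ Crest.Agent.R257.AJ387 Crest.Agent.R257.T387
open Crest.Agent.R257.T0_939 (GalPt)
open Crest.Agent.R257.T0_387 (isolated)

noncomputable section

namespace Crest.Agent.R257.CLog_68

open Crest.Agent.R257.Defs_219
open Crest.Agent.R257.Fr_808 (jc jc_eq jac2 dt0_an)
open Crest.Agent.R257.Det_219 (fderiv_sum)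

variable {f : (Fin 3 → ℂ) → ℂ} {T : TB f}

theorem SL_th (c : Ch T.m) (z : ℂ × ℂ → ℂ) (p : ℂ × ℂ) : SL T (T.th c z p) = pm T c p := SL_pt _ _

theorem e0_eq : (pt 1 0 : E3) = Pi.single 0 1 := by
  funext i
  fin_cases i <;> rfl

theorem fderiv_e0 (F : E3 → ℂ) (x : E3) : fderiv ℂ F x (pt 1 0) = coordDeriv F 0 x := by
  rw [e0_eq]; rfl

/-- `∂f/∂z = v * P'` on a sheet -/
theorem cd_PT {c : Ch T.m} {r : ℝ} {ζ : Fin T.d → ℂ × ℂ → ℂ} (hS : T.Sheets c r ζ) (j : Fin T.d)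
    {p : ℂ × ℂ} (hp : p ∈ BD r r) :
    coordDeriv f 0 (T.th c (ζ j) p) =
      T.v ((((T.map c p).1 ^ T.N, (T.map c p).2) : ℂ × ℂ), ζ j p) *
        PT T 1 (T.th c (ζ j) p) := by
  rw [hS.cd0 j hp]
  congr 1
  unfold PT
  rw [SL_th]
  have h1 : T.P (pm T c p) = ∏ j, (X - C (ζ j p)) := hS.split p hp
  rw [h1, Function.iterate_one]
  exact (eval_deriv_prod (fun j => ζ j p) j).symm

theorem v_ne' {c : Ch T.m} {r : ℝ} {ζ : Fin T.d → ℂ × ℂ → ℂ} (hS : T.Sheets c r ζ) (j : Fin T.d)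
    {p : ℂ × ℂ} (hp : p ∈ BD r r) :
    T.v ((((T.map c p).1 ^ T.N, (T.map c p).2) : ℂ × ℂ), ζ j p) ≠ 0 :=
  T.v_ne _ (hS.mem_R hp) _ (hS.norm_lt j hp).le

/-- the derivative along a curve -/
theorem fderiv_curve {γ : ℂ → E3} {s : ℂ} (hγ : DifferentiableAt ℂ γ s) {F : E3 → ℂ}
    (hF : DifferentiableAt ℂ F (γ s)) {G : ℂ → ℂ} {a : ℂ} (hG : HasDerivAt G a s)
    (h : ∀ᶠ s' in 𝓝 s, F (γ s') = G s') : fderiv ℂ F (γ s) (deriv γ s) = a := by
  have h1 : HasDerivAt (fun s => F (γ s)) (fderiv ℂ F (γ s) (deriv γ s)) s :=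
    HasFDerivAt.comp_hasDerivAt (x := s) (f := γ) (l := F) hF.hasFDerivAt hγ.hasDerivAt
  exact h1.unique (hG.congr_of_eventuallyEq h)

/-- `D_red` in the direction `y'` -/
theorem QD_e2 {Dp : ℂ → ℂ[X]} (hD : DpD T Dp) {x : E3}
    (hx : (SL T x).1 ∈ ball (0 : ℂ) (T.ρ ^ T.N₀)) :
    fderiv ℂ (QD T Dp) x (pt 0 (T.A (0, 1))) =
      (derivative (Dp (SL T x).1)).eval (SL T x).2 := by
  have h1 : DifferentiableAt ℂ (Dl Dp 0) (SL T x) := (Dl_an hD 0 hx).differentiableAt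
  rw [QD, pl_fderiv h1, SL_pt]
  refine fderiv_line h1 ?_
  have h2 : (fun t : ℂ => Dl Dp 0 (SL T x + t • ((0 : ℂ), (1 : ℂ)))) =
      fun t : ℂ => (Dp (SL T x).1).eval ((SL T x).2 + t) := by
    funext t
    unfold Dl
    simp
  rw [h2]
  have h3 := (Dp (SL T x).1).hasDerivAt ((SL T x).2 + 0)
  have h4 : HasDerivAt (fun t : ℂ => (SL T x).2 + t) 1 0 :=
    (hasDerivAt_id (0 : ℂ)).const_add (SL T x).2
  have h5 := HasDerivAt.comp (0 : ℂ) h3 h4
  rw [mul_one, add_zero] at h5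
  exact h5

theorem QD_e0 {Dp : ℂ → ℂ[X]} (hD : DpD T Dp) {x : E3}
    (hx : (SL T x).1 ∈ ball (0 : ℂ) (T.ρ ^ T.N₀)) :
    fderiv ℂ (QD T Dp) x (pt 1 0) = 0 := by
  have h1 : DifferentiableAt ℂ (Dl Dp 0) (SL T x) := (Dl_an hD 0 hx).differentiableAt
  rw [QD, pl_fderiv h1, SL_e0, map_zero]

theorem X1_dir (x v : E3) : fderiv ℂ (X1 T) x v = (SL T v).1 := by
  have h1 : DifferentiableAt ℂ (Prod.fst : ℂ × ℂ → ℂ) (SL T x) := differentiableAt_fst
  rw [X1, pl_fderiv h1, fderiv_fst]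
  rfl

/-- the gradient of `f` in the direction `y'` -/
theorem f_e2_ne {x w : E3} (hw : (SL T w).1 ≠ 0) (h0 : fderiv ℂ f x (pt 1 0) = 0)
    (h1 : fderiv ℂ f x w = 0) (hne : ∃ j, coordDeriv f j x ≠ 0) :
    fderiv ℂ f x (pt 0 (T.A (0, 1))) ≠ 0 := by
  intro h2
  obtain ⟨j, hj⟩ := hne
  apply hj
  have key : ∀ v : E3, fderiv ℂ f x v = 0 := by
    intro v
    set b : ℂ := (SL T v).1 / (SL T w).1 with hb
    set e : ℂ := (SL T v).2 - b * (SL T w).2 with he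
    set a : ℂ := v 0 - b * w 0 with ha
    have h3 : v - (a • (pt 1 0 : E3) + b • w + e • (pt 0 (T.A (0, 1)) : E3)) = 0 := by
      refine SL_ker (T := T) ?_ ?_
      · rw [map_sub, map_add, map_add, map_smul, map_smul, map_smul, SL_e0, SL_pt]
        refine Prod.ext ?_ ?_
        · simp only [Prod.fst_sub, Prod.fst_add, Prod.smul_fst, smul_eq_mul, Prod.fst_zero,
            mul_zero, zero_add, add_zero]
          rw [hb, div_mul_cancel₀ _ hw, sub_self]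
        · simp only [Prod.snd_sub, Prod.snd_add, Prod.smul_snd, smul_eq_mul, Prod.snd_zero,
            mul_zero, zero_add, mul_one]
          rw [he]; ring
      · show v 0 - (a * 1 + b * w 0 + e * 0) = 0
        rw [ha]; ring
    rw [sub_eq_zero.1 h3, map_add, map_add, map_smul, map_smul, map_smul, h0, h1, h2]
    simp
  exact key _

/-- **the germ of a sheet over a leg** -/
theorem legQ (hf : Iso f) {Dp : ℂ → ℂ[X]} (hD : DpD T Dp) {i : Fin T.m} {r : ℝ}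
    {ζ : Fin T.d → ℂ × ℂ → ℂ} (hS : T.Sheets (.leg i) r ζ) (j : Fin T.d) :
    ∃ q : E3 → ℂ, AnalyticAt ℂ q 0 ∧ q 0 = 0 ∧
      (∀ᶠ s in 𝓝 (0 : ℂ), q (T.th (.leg i) (ζ j) (s, 0)) = 0) ∧
      ∀ᶠ s in 𝓝[≠] (0 : ℂ), Dt f (X1 T) q (T.th (.leg i) (ζ j) (s, 0)) ≠ 0 := by
  classical
  set c : Ch T.m := .leg i with hcdef
  have hc : T.Valid c := trivial
  have hM := T.M_pos
  have hN := T.N_pos
  have hr := hS.r_pos
  set γ : ℂ → E3 := fun s => T.th c (ζ j) (s, 0) with hγ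
  have hbd : ∀ {s : ℂ}, s ∈ ball (0 : ℂ) r → ((s, (0 : ℂ)) : ℂ × ℂ) ∈ BD r r := by
    intro s hs
    exact ⟨by simpa using hs, by simpa using hr⟩
  have hball : ∀ᶠ s in 𝓝 (0 : ℂ), s ∈ ball (0 : ℂ) r := ball_mem_nhds _ hr
  have hmap : ∀ s : ℂ, T.map c (s, 0) = (s, T.φ i (s ^ T.M)) := by
    intro s
    show ((s, T.φ i (s ^ T.M) + s ^ (T.M * T.top i) * (0 : ℂ) ^ T.M) : ℂ × ℂ) = _
    rw [zero_pow hM.ne', mul_zero, add_zero]
  have hpm : ∀ s : ℂ, pm T c (s, 0) = (s ^ T.N, T.φ i (s ^ T.M)) := by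
    intro s
    rw [pm, hmap]
  have hSLγ : ∀ s : ℂ, SL T (γ s) = (s ^ T.N, T.φ i (s ^ T.M)) := fun s => by
    rw [hγ]; simp only; rw [SL_th, hpm]
  have hγ0 : γ 0 = 0 := (hS.th_zero hc j (hbd (mem_ball_self hr))).2 rfl
  have hγan : ∀ s ∈ ball (0 : ℂ) r, AnalyticAt ℂ γ s := by
    intro s hs
    exact AnalyticAt.comp (g := T.th c (ζ j)) (f := fun s : ℂ => ((s, 0) : ℂ × ℂ))
      (hS.th_an j (hbd hs)) (analyticAt_id.prod analyticAt_const)
  have hγt : Tendsto γ (𝓝 0) (𝓝 0) := by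
    have := (hγan 0 (mem_ball_self hr)).continuousAt.tendsto
    rwa [hγ0] at this
  have hBR : ∀ {s : ℂ}, s ∈ ball (0 : ℂ) r → SL T (γ s) ∈ BD T.R T.R := by
    intro s hs
    have := hS.mem_R (hbd hs)
    rw [hSLγ]
    rw [hmap] at this
    exact this
  have hMρ : ∀ {s : ℂ}, s ∈ ball (0 : ℂ) r → s ^ T.M ∈ ball (0 : ℂ) T.ρ := by
    intro s hs
    have := (hS.mem _ (hbd hs)).2
    rw [hmap] at this
    rwa [mem_ball_zero_iff, norm_pow]
  have hNρ : ∀ {s : ℂ}, s ∈ ball (0 : ℂ) r → s ^ T.N ∈ ball (0 : ℂ) (T.ρ ^ T.N₀) := by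
    intro s hs
    have h1 := hMρ hs
    rw [mem_ball_zero_iff] at h1 ⊢
    rw [TB.N, mul_comm, pow_mul, norm_pow]
    exact pow_lt_pow_left₀ h1 (norm_nonneg _) T.N₀_pos.ne'
  -- the coefficients
  set cc : ℕ → ℂ → ℂ := fun l s => PT T l (γ s) with hcc
  have hcan : ∀ l, AnalyticAt ℂ (cc l) 0 := by
    intro l
    refine AnalyticAt.comp (g := PT T l) (f := γ) ?_ (hγan 0 (mem_ball_self hr))
    exact PT_an (hBR (mem_ball_self hr))
  have hc0 : ∀ᶠ s in 𝓝 (0 : ℂ), cc 0 s = 0 := by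
    filter_upwards [hball] with s hs
    have h1 := hS.root j (hbd hs)
    show (T.P (SL T (γ s))).eval (ζ j (s, 0)) = 0
    rw [hSLγ]
    rw [hmap] at h1
    exact h1
  have hcd : ∀ᶠ s in 𝓝 (0 : ℂ), cc T.d s ≠ 0 := by
    filter_upwards [hball] with s hs
    have h1 := hBR hs
    show (derivative^[T.d] (T.P (SL T (γ s)))).eval (γ s 0) ≠ 0
    have h2 : derivative^[T.d] (T.P (SL T (γ s))) = C ((T.d.factorial : ℕ) : ℂ) := by
      rw [eq_C_of_natDegree_eq_zero (p := derivative^[T.d] (T.P (SL T (γ s)))) (by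
        have := natDegree_iterate_derivative (T.P (SL T (γ s))) T.d
        rw [T.deg _ h1] at this
        omega), coeff_iterate_derivative, zero_add, Nat.descFactorial_self]
      have h3 : (T.P (SL T (γ s))).coeff T.d = 1 := by
        have := T.monic _ h1
        rw [Monic, leadingCoeff, T.deg _ h1] at this
        exact this
      rw [h3, nsmul_eq_mul, mul_one]
    rw [h2, eval_C]
    exact_mod_cast T.d.factorial_ne_zero
  have hex : ∃ l, ¬ ∀ᶠ s in 𝓝 (0 : ℂ), cc l s = 0 := by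
    refine ⟨T.d, fun h => ?_⟩
    obtain ⟨s, h1, h2⟩ := (h.and hcd).exists
    exact h2 h1
  set n := Nat.find hex with hn
  have hn1 : ¬ ∀ᶠ s in 𝓝 (0 : ℂ), cc n s = 0 := Nat.find_spec hex
  have hn2 : ∀ l, l < n → ∀ᶠ s in 𝓝 (0 : ℂ), cc l s = 0 := fun l hl =>
    not_not.1 (Nat.find_min hex hl)
  have hn0 : n ≠ 0 := fun h => hn1 (by rw [h]; exact hc0)
  have hnd : n ≤ T.d := Nat.find_min' hex fun h => by
    obtain ⟨s, h1, h2⟩ := (h.and hcd).exists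
    exact h2 h1
  have hn3 : ∀ᶠ s in 𝓝[≠] (0 : ℂ), cc n s ≠ 0 :=
    (hcan n).eventually_eq_zero_or_eventually_ne_zero.resolve_left hn1
  -- facts near `0`
  have hV : ∀ᶠ s in 𝓝 (0 : ℂ), f (γ s) = 0 := by
    filter_upwards [hball] with s hs using hS.th_V j (hbd hs)
  have hiso : ∀ᶠ s in 𝓝 (0 : ℂ), (∀ l, coordDeriv f l (γ s) = 0) → γ s = 0 :=
    hγt.eventually (isolated hf.an hf.fin)
  have hfan : ∀ {s : ℂ}, s ∈ ball (0 : ℂ) r → DifferentiableAt ℂ f (γ s) := fun hs =>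
    (hS.f_an j (hbd hs)).differentiableAt
  have hX : ∀ s : ℂ, X1 T (γ s) = s ^ T.N := by
    intro s
    show (SL T (γ s)).1 = _
    rw [hSLγ]
  have hdX : ∀ {s : ℂ}, s ∈ ball (0 : ℂ) r → fderiv ℂ (X1 T) (γ s) (deriv γ s) =
      T.N * s ^ (T.N - 1) := by
    intro s hs
    exact fderiv_curve (hγan s hs).differentiableAt (X1_an T _).differentiableAt
      (hasDerivAt_pow T.N s) (Eventually.of_forall hX)
  have hSLd : ∀ {s : ℂ}, s ∈ ball (0 : ℂ) r → s ≠ 0 → (SL T (deriv γ s)).1 ≠ 0 := by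
    intro s hs h0
    rw [← X1_dir (γ s), hdX hs]
    exact mul_ne_zero (by exact_mod_cast hN.ne') (pow_ne_zero _ h0)
  have hdf : ∀ᶠ s in 𝓝 (0 : ℂ), fderiv ℂ f (γ s) (deriv γ s) = 0 := by
    filter_upwards [hV.eventually_nhds, hball] with s h1 h2
    exact fderiv_curve (G := fun _ => (0 : ℂ)) (hγan s h2).differentiableAt (hfan h2)
      (hasDerivAt_const s (0 : ℂ)) h1
  have hXe0 : ∀ s, fderiv ℂ (X1 T) (γ s) (pt 1 0) = 0 := by
    intro s
    rw [X1_dir, SL_e0]; rfl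
  have hXe2 : ∀ s, fderiv ℂ (X1 T) (γ s) (pt 0 (T.A (0, 1))) = 0 := by
    intro s
    rw [X1_dir, SL_pt]
  rcases Nat.lt_or_ge 1 n with h2n | h2n
  · -- `n ≥ 2`
    refine ⟨PT T (n - 1), ?_, PT_zero (by omega), hn2 _ (by omega), ?_⟩
    · have h1 := PT_an (T := T) (l := n - 1) (hBR (mem_ball_self hr))
      rwa [hγ0] at h1
    · filter_upwards [hn3, self_mem_nhdsWithin, eventually_nhdsWithin_of_eventually_nhds hball,
        eventually_nhdsWithin_of_eventually_nhds hiso, eventually_nhdsWithin_of_eventually_nhds hdf,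
        eventually_nhdsWithin_of_eventually_nhds (hn2 1 h2n),
        eventually_nhdsWithin_of_eventually_nhds (hn2 (n - 1) (by omega)).eventually_nhds]
        with s h1 h2 h3 h4 h5 h6 h7
      have h2' : s ≠ 0 := h2
      have hγne : γ s ≠ 0 := by
        intro h
        have h8 := hX s
        rw [h, X1_zero] at h8
        exact pow_ne_zero _ h2' h8.symm
      have hj : ∃ l, coordDeriv f l (γ s) ≠ 0 := by
        by_contra hcon
        push Not at hcon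
        exact hγne (h4 hcon)
      have hfe0 : fderiv ℂ f (γ s) (pt 1 0) = 0 := by
        rw [fderiv_e0]
        have := cd_PT hS j (hbd h3)
        have h8 : PT T 1 (T.th c (ζ j) (s, 0)) = 0 := h6
        rw [h8, mul_zero] at this
        exact this
      refine Dt_ne (u := pt 1 0) (v := deriv γ s) (w := pt 0 (T.A (0, 1))) h5 (hXe0 s) (hXe2 s)
        ?_ ?_
      · exact fderiv_curve (G := fun _ => (0 : ℂ)) (hγan s h3).differentiableAt
          (PT_an (hBR h3)).differentiableAt (hasDerivAt_const s (0 : ℂ)) h7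
      · have h8 : fderiv ℂ (PT T (n - 1)) (γ s) (pt 1 0) = cc n s := by
          have := PT_e0 (T := T) (l := n - 1) (hBR h3)
          rw [Nat.sub_add_cancel (by omega)] at this
          exact this
        have h9 := f_e2_ne (T := T) (hSLd h3 h2') hfe0 h5 hj
        have h10 : fderiv ℂ f (T.th c (ζ j) (s, 0)) (pt 1 0) = 0 := hfe0
        have h11 : fderiv ℂ (PT T (n - 1)) (T.th c (ζ j) (s, 0)) (pt 1 0) = cc n s := h8
        have h12 : fderiv ℂ (X1 T) (T.th c (ζ j) (s, 0)) (deriv γ s) = T.N * s ^ (T.N - 1) := hdX h3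
        rw [h10, h11, h12, zero_mul, zero_sub]
        exact mul_ne_zero (mul_ne_zero (by exact_mod_cast hN.ne') (pow_ne_zero _ h2'))
          (neg_ne_zero.2 (mul_ne_zero h9 h1))
  · -- `n = 1`
    have hn1' : n = 1 := by omega
    have hQ0 : ∀ s ∈ ball (0 : ℂ) r, QD T Dp (γ s) = 0 := by
      intro s hs
      have h1 := QD_th hD c (ζ j) (p := (s, 0)) (by rw [hmap]; exact hMρ hs)
      rw [hmap] at h1
      show QD T Dp (T.th c (ζ j) (s, 0)) = 0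
      rw [h1, RP, eval_prod]
      exact Finset.prod_eq_zero (Finset.mem_univ i) (by simp)
    refine ⟨QD T Dp, pl_an0 T (Dl_an0 hD 0), ?_, ?_, ?_⟩
    · rw [QD, pl_zero]
      exact Dl_zero hD T.m_pos
    · filter_upwards [hball] with s hs using hQ0 s hs
    · filter_upwards [hn3, self_mem_nhdsWithin, eventually_nhdsWithin_of_eventually_nhds hball,
        eventually_nhdsWithin_of_eventually_nhds hdf,
        eventually_nhdsWithin_of_eventually_nhds hball.eventually_nhds]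
        with s h1 h2 h3 h5 h7
      have h2' : s ≠ 0 := h2
      have hNs : (SL T (γ s)).1 ∈ ball (0 : ℂ) (T.ρ ^ T.N₀) := by
        rw [hSLγ]; exact hNρ h3
      have hQan : DifferentiableAt ℂ (QD T Dp) (γ s) :=
        (pl_an T (Dl_an hD 0 (by exact hNs))).differentiableAt
      refine Dt_ne (u := pt 1 0) (v := deriv γ s) (w := pt 0 (T.A (0, 1))) h5 (hXe0 s) (hXe2 s)
        ?_ ?_
      · refine fderiv_curve (G := fun _ => (0 : ℂ)) (hγan s h3).differentiableAt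
          hQan (hasDerivAt_const s (0 : ℂ)) ?_
        filter_upwards [h7] with s' hs' using hQ0 s' hs'
      · have e1 : fderiv ℂ (X1 T) (T.th c (ζ j) (s, 0)) (deriv γ s) = T.N * s ^ (T.N - 1) := hdX h3
        have e2 : fderiv ℂ (QD T Dp) (T.th c (ζ j) (s, 0)) (pt 1 0) = 0 := QD_e0 hD hNs
        have e3 : fderiv ℂ (QD T Dp) (T.th c (ζ j) (s, 0)) (pt 0 (T.A (0, 1))) =
            ∏ l ∈ Finset.univ.erase i, (T.φ i (s ^ T.M) - T.φ l (s ^ T.M)) := by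
          have h8 := QD_e2 hD hNs
          rw [hSLγ] at h8
          have h9 : s ^ T.N = (s ^ T.M) ^ T.N₀ := by rw [← pow_mul, TB.N, mul_comm]
          have h10 : (((s ^ T.N, T.φ i (s ^ T.M)) : ℂ × ℂ)).1 = (s ^ T.M) ^ T.N₀ := h9
          rw [h10, hD.eq _ (hMρ h3), RP] at h8
          exact h8.trans (eval_deriv_prod (fun l => T.φ l (s ^ T.M)) i)
        have e4 : fderiv ℂ f (T.th c (ζ j) (s, 0)) (pt 1 0) ≠ 0 := by
          rw [fderiv_e0, cd_PT hS j (hbd h3)]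
          refine mul_ne_zero (v_ne' hS j (hbd h3)) ?_
          rw [hn1'] at h1
          exact h1
        have e5 : ∏ l ∈ Finset.univ.erase i, (T.φ i (s ^ T.M) - T.φ l (s ^ T.M)) ≠ 0 := by
          refine Finset.prod_ne_zero_iff.2 fun l hl => ?_
          have hne : i ≠ l := (Finset.ne_of_mem_erase hl).symm
          rw [T.φ_sub i l hne _ (hMρ h3)]
          exact mul_ne_zero (pow_ne_zero _ (pow_ne_zero _ h2')) (T.u_ne i l hne _ (hMρ h3))
        rw [e1, e2, e3, mul_zero, sub_zero]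
        exact mul_ne_zero (mul_ne_zero (by exact_mod_cast hN.ne') (pow_ne_zero _ h2'))
          (mul_ne_zero e4 e5)

/-- Lipschitz bound in the second variable -/
theorem lipS {G : ℂ × ℂ → ℂ} (hG : AnalyticAt ℂ G 0) : ∃ C : ℝ, 0 ≤ C ∧
    ∀ᶠ p in 𝓝 (0 : ℂ × ℂ), ‖G p - G (p.1, 0)‖ ≤ C * ‖p.2‖ := by
  obtain ⟨K, t, ht, hK⟩ := (hG.contDiffAt (n := 1)).exists_lipschitzOnWith
  refine ⟨K, K.2, ?_⟩
  have h1 : Tendsto (fun p : ℂ × ℂ => ((p.1, 0) : ℂ × ℂ)) (𝓝 0) (𝓝 0) := by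
    have h2 : Continuous fun p : ℂ × ℂ => ((p.1, 0) : ℂ × ℂ) := by fun_prop
    exact h2.tendsto 0
  filter_upwards [ht, h1.eventually ht] with p h2 h3
  have h4 := hK.dist_le_mul p h2 (p.1, 0) h3
  rw [dist_eq_norm] at h4
  refine h4.trans (le_of_eq ?_)
  rw [dist_eq_norm]
  congr 1
  rw [Prod.norm_def]
  simp

/-- **legs**, `‖ω‖ ≤ ‖s‖ ^ L` -/
theorem legI (hf : Iso f) {i : Fin T.m} {r : ℝ}
    {ζ : Fin T.d → ℂ × ℂ → ℂ} (hS : T.Sheets (.leg i) r ζ) (j : Fin T.d) {q : E3 → ℂ}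
    (hq : AnalyticAt ℂ q 0)
    (hq1 : ∀ᶠ s in 𝓝 (0 : ℂ), q (T.th (.leg i) (ζ j) (s, 0)) = 0)
    (hq2 : ∀ᶠ s in 𝓝[≠] (0 : ℂ), Dt f (X1 T) q (T.th (.leg i) (ζ j) (s, 0)) ≠ 0) (E : ℕ) :
    ∃ (M₁ Lx : ℕ) (κ : ℝ), 0 < M₁ ∧ 0 < κ ∧ ∀ᶠ p in 𝓝 (0 : ℂ × ℂ), p.1 ≠ 0 →
      ‖p.2‖ ≤ ‖p.1‖ ^ Lx →
      κ ≤ (‖Dt f (X1 T) q (T.th (.leg i) (ζ j) p)‖ * ‖p.1‖ ^ E) ^ 2 /
        (WT T T.N₀ (X1 T) (T.th (.leg i) (ζ j) p) * WT T M₁ q (T.th (.leg i) (ζ j) p)) := by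
  set c : Ch T.m := .leg i with hcdef
  have hc : T.Valid c := trivial
  have hM := T.M_pos
  have hN := T.N_pos
  have hN₀ := T.N₀_pos
  have hr := hS.r_pos
  have h00 : (0 : ℂ × ℂ) ∈ BD r r := hS.zero_mem
  have hth := hS.th_an j h00
  have hth0 : T.th c (ζ j) 0 = 0 := (hS.th_zero hc j h00).2 rfl
  -- the two functions
  have hF : AnalyticAt ℂ (fun p => Dt f (X1 T) q (T.th c (ζ j) p)) 0 := by
    refine AnalyticAt.comp (g := Dt f (X1 T) q) (f := T.th c (ζ j)) ?_ hth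
    rw [hth0]
    exact dt0_an hf.an (X1_an T 0) hq
  have hG : AnalyticAt ℂ (fun p => q (T.th c (ζ j) p)) 0 := by
    refine AnalyticAt.comp (g := q) (f := T.th c (ζ j)) ?_ hth
    rwa [hth0]
  obtain ⟨CF, hCF, hFl⟩ := lipS hF
  obtain ⟨CG, hCG, hGl⟩ := lipS hG
  -- the order on the branch
  have hF1 : AnalyticAt ℂ (fun s : ℂ => Dt f (X1 T) q (T.th c (ζ j) (s, 0))) 0 :=
    AnalyticAt.comp (g := fun p => Dt f (X1 T) q (T.th c (ζ j) p))
      (f := fun s : ℂ => ((s, 0) : ℂ × ℂ)) hF (analyticAt_id.prod analyticAt_const)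
  obtain ⟨n, g, hg, hg0, hgn⟩ := hF1.exists_eventuallyEq_pow_smul_nonzero_iff.2 (by
    intro h
    obtain ⟨s, h1, h2⟩ := ((eventually_nhdsWithin_of_eventually_nhds h).and hq2).exists
    exact h2 h1)
  have hgl : ∀ᶠ s in 𝓝 (0 : ℂ), ‖g 0‖ / 2 ≤ ‖g s‖ := by
    have h1 := norm_pos_iff.2 hg0
    exact (continuousAt_const.eventually_lt hg.continuousAt.norm (by linarith)).mono
      fun p hp => hp.le
  have hfst : Tendsto (fun p : ℂ × ℂ => p.1) (𝓝 0) (𝓝 0) := continuous_fst.tendsto 0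
  obtain ⟨hX, C, hC, hY⟩ := leg_vals (T := T) (i := i) (ζ j)
  set κ₀ : ℝ := ‖g 0‖ / 2 with hκ₀
  have hκ₀p : 0 < κ₀ := by positivity
  set M₁ := n + E + 1 with hM₁
  set Lx := n + 1 + T.M * M₁ with hLx
  have hsm : ∀ᶠ p in 𝓝 (0 : ℂ × ℂ), CF * ‖p.1‖ ≤ κ₀ / 2 := by
    have h1 : ContinuousAt (fun p : ℂ × ℂ => CF * ‖p.1‖) 0 := by fun_prop
    exact (h1.eventually_lt continuousAt_const (by simpa using by positivity)).mono
      fun p hp => hp.le
  refine ⟨M₁, Lx, (κ₀ / 2) ^ 2 / ((1 ^ 2 + 1 ^ 2 + (C ^ T.N₀) ^ 2) * (CG ^ 2 + 1 ^ 2 + (C ^ M₁) ^ 2)),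
    by omega, by positivity, ?_⟩
  filter_upwards [hFl, hGl, hfst.eventually hgn, hfst.eventually hgl, hY, hsm, small1,
    hfst.eventually hq1] with p h1 h2 h3 h4 h5 h6 h7 h8 hp1 hreg
  have hn1 : 0 < ‖p.1‖ := norm_pos_iff.2 hp1
  have hXne : X1 T (T.th c (ζ j) p) ≠ 0 := by
    rw [hX]; exact pow_ne_zero _ hp1
  have hFlow : κ₀ / 2 * ‖p.1‖ ^ n ≤ ‖Dt f (X1 T) q (T.th c (ζ j) p)‖ := by
    have e1 : κ₀ * ‖p.1‖ ^ n ≤ ‖Dt f (X1 T) q (T.th c (ζ j) (p.1, 0))‖ := by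
      rw [h3, sub_zero, smul_eq_mul, norm_mul, norm_pow, mul_comm]
      exact mul_le_mul_of_nonneg_left h4 (by positivity)
    have e2 : CF * ‖p.2‖ ≤ κ₀ / 2 * ‖p.1‖ ^ n := by
      calc CF * ‖p.2‖ ≤ CF * ‖p.1‖ ^ Lx := mul_le_mul_of_nonneg_left hreg hCF
        _ ≤ CF * ‖p.1‖ ^ (n + 1) := mul_le_mul_of_nonneg_left
            (pow_le_pow_of_le_one hn1.le h7.1 (by omega)) hCF
        _ = (CF * ‖p.1‖) * ‖p.1‖ ^ n := by ring
        _ ≤ _ := mul_le_mul_of_nonneg_right h6 (by positivity)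
    have e3 : ‖Dt f (X1 T) q (T.th c (ζ j) (p.1, 0))‖ ≤
        ‖Dt f (X1 T) q (T.th c (ζ j) p)‖ + CF * ‖p.2‖ := by
      have e4 : Dt f (X1 T) q (T.th c (ζ j) (p.1, 0)) = Dt f (X1 T) q (T.th c (ζ j) p) -
          (Dt f (X1 T) q (T.th c (ζ j) p) - Dt f (X1 T) q (T.th c (ζ j) (p.1, 0))) := by ring
      calc _ = ‖Dt f (X1 T) q (T.th c (ζ j) p) -
          (Dt f (X1 T) q (T.th c (ζ j) p) - Dt f (X1 T) q (T.th c (ζ j) (p.1, 0)))‖ := by
            rw [← e4]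
        _ ≤ _ := (norm_sub_le _ _).trans (add_le_add le_rfl h1)
    nlinarith [e1, e2, e3]
  refine quot_ge (t := ‖p.1‖ ^ T.N) (t' := ‖p.1‖ ^ (T.M * M₁)) (by positivity)
    (by positivity) (by positivity) ?_ (WT_pos (Or.inl hXne)) (WT_pos (Or.inl hXne))
    (by positivity) (by positivity) (WT_le ?_ ?_ ?_) (WT_le ?_ ?_ ?_)
  · calc κ₀ / 2 * (‖p.1‖ ^ T.N * ‖p.1‖ ^ (T.M * M₁)) = κ₀ / 2 * ‖p.1‖ ^ (T.N + T.M * M₁) := by
          rw [pow_add]
      _ ≤ κ₀ / 2 * ‖p.1‖ ^ (n + E) := by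
          refine mul_le_mul_of_nonneg_left (pow_le_pow_of_le_one hn1.le h7.1 ?_) (by positivity)
          have : M₁ ≤ T.M * M₁ := Nat.le_mul_of_pos_left _ hM
          omega
      _ = κ₀ / 2 * ‖p.1‖ ^ n * ‖p.1‖ ^ E := by rw [pow_add]; ring
      _ ≤ _ := mul_le_mul_of_nonneg_right hFlow (by positivity)
  · rw [hX, norm_pow, one_mul]
  · rw [hX, norm_pow, one_mul]
    calc (‖p.1‖ ^ T.N) ^ T.N₀ ≤ (‖p.1‖ ^ T.N) ^ 1 :=
          pow_le_pow_of_le_one (by positivity) (pow_le_one₀ (by positivity) h7.1) hN₀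
      _ = _ := pow_one _
  · calc ‖Y1 T (T.th c (ζ j) p)‖ ^ T.N₀ ≤ (C * ‖p.1‖ ^ T.M) ^ T.N₀ :=
          pow_le_pow_left₀ (norm_nonneg _) h5 _
      _ = C ^ T.N₀ * ‖p.1‖ ^ T.N := by rw [mul_pow, ← pow_mul, TB.N, mul_comm T.M]
  · rw [h8, sub_zero] at h2
    refine h2.trans (mul_le_mul_of_nonneg_left (hreg.trans ?_) hCG)
    exact pow_le_pow_of_le_one hn1.le h7.1 (by omega)
  · rw [hX, norm_pow, one_mul, ← pow_mul]
    have e1 : T.M * M₁ ≤ T.N * M₁ := by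
      rw [TB.N]
      exact Nat.mul_le_mul_right _ (Nat.le_mul_of_pos_left _ hN₀)
    exact pow_le_pow_of_le_one hn1.le h7.1 e1
  · calc ‖Y1 T (T.th c (ζ j) p)‖ ^ M₁ ≤ (C * ‖p.1‖ ^ T.M) ^ M₁ :=
          pow_le_pow_left₀ (norm_nonneg _) h5 _
      _ = _ := by rw [mul_pow, ← pow_mul]

end Crest.Agent.R257.CLog_68
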