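import Mathlib
import Crest.Agent.R257.UI4_939
import Crest.Agent.R257.Uni3_554

-- ▼ part R257/CM1_812
section

/-!
Row 257 (S0395), leaf CN-SUM (helper812), part 1: the Cohen-Macaulay property in elementary form.
`R` a Noetherian local algebra over an infinite field `k` with a regular sequence of length `n` in
its maximal ideal, `a : Fin n → R` with `m ^ K ≤ (a)`.  Then every syzygy of `a` is an
antisymmetric combination of `a` (Koszul), and `a i` is a non zero divisor modulo the others.
-/

set_option autoImplicit false

open IsLocalRing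

namespace Crest.Agent.R257.CM_812

universe u

variable {R : Type u} [CommRing R]

/-- non zero divisor modulo `I` -/
def Nz (I : Ideal R) (a : R) : Prop := ∀ b, a * b ∈ I → b ∈ I

/-- regular sequence modulo `I` -/
def RS : Ideal R → List R → Prop
  | _, [] => True
  | I, a :: L => Nz I a ∧ RS (I ⊔ Ideal.span {a}) L

/-- the ideal generated by a list -/
def LI (L : List R) : Ideal R := Ideal.span {x | x ∈ L}

lemma LI_nil : LI ([] : List R) = ⊥ := by simp [LI]

lemma LI_cons (a : R) (L : List R) : LI (a :: L) = Ideal.span {a} ⊔ LI L := by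
  unfold LI
  rw [← Ideal.span_union]
  congr 1
  ext x
  simp


lemma RS_append (L L' : List R) : ∀ I : Ideal R, RS I (L ++ L') ↔ RS I L ∧ RS (I ⊔ LI L) L' := by
  induction L with
  | nil => intro I; simp [RS, LI_nil]
  | cons a L ih =>
    intro I
    rw [List.cons_append, RS, RS, ih, LI_cons, sup_assoc, and_assoc]

section Local

variable [IsLocalRing R] [IsNoetherianRing R]

lemma RS_swap {a b : R} {L : List R} {I : Ideal R} (ha : a ∈ maximalIdeal R)
    (h : RS I (a :: b :: L)) : RS I (b :: a :: L) := by
  obtain ⟨h1, h2, h3⟩ := h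
  refine ⟨?_, ?_, ?_⟩
  · -- Nakayama
    set K : Ideal R := { carrier := {c | b * c ∈ I}
                         add_mem' := fun {x y} hx hy => by
                           simp only [Set.mem_ofPred_eq] at *
                           rw [mul_add]; exact I.add_mem hx hy
                         zero_mem' := by simp
                         smul_mem' := fun r x hx => by
                           simp only [Set.mem_ofPred_eq, smul_eq_mul] at *
                           rw [mul_left_comm]; exact I.mul_mem_left _ hx } with hK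
    have hK1 : K ≤ I ⊔ Ideal.span {a} • K := by
      intro c hc
      have hc' : b * c ∈ I := hc
      have hc1 : c ∈ I ⊔ Ideal.span {a} := h2 c (Ideal.mem_sup_left hc')
      obtain ⟨i, hi, y, hy, rfl⟩ := Submodule.mem_sup.1 hc1
      obtain ⟨c', rfl⟩ := Ideal.mem_span_singleton'.1 hy
      refine Submodule.add_mem_sup hi ?_
      have : a * (b * c') ∈ I := by
        have e : a * (b * c') = b * (i + c' * a) - b * i := by ring
        rw [e]
        exact I.sub_mem hc' (I.mul_mem_left _ hi)
      have h5 : c' ∈ K := h1 _ this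
      rw [mul_comm]
      exact Submodule.smul_mem_smul (Ideal.mem_span_singleton_self a) h5
    have hK2 : K ≤ I := by
      refine Submodule.le_of_le_smul_of_le_jacobson_bot (IsNoetherian.noetherian K) ?_ hK1
      rw [IsLocalRing.jacobson_eq_maximalIdeal ⊥ bot_ne_top, Ideal.span_singleton_le_iff_mem]
      exact ha
    intro c hc
    exact hK2 hc
  · intro c hc
    obtain ⟨i, hi, y, hy, h4⟩ := Submodule.mem_sup.1 hc
    obtain ⟨d, rfl⟩ := Ideal.mem_span_singleton'.1 hy
    have h5 : b * d ∈ I ⊔ Ideal.span {a} := by
      have : b * d = a * c - i := by rw [← h4]; ring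
      rw [this]
      exact Submodule.sub_mem _ (Ideal.mem_sup_right (Ideal.mul_mem_right _ _
        (Ideal.mem_span_singleton_self a))) (Ideal.mem_sup_left hi)
    obtain ⟨i', hi', y', hy', h6⟩ := Submodule.mem_sup.1 (h2 d h5)
    obtain ⟨d', rfl⟩ := Ideal.mem_span_singleton'.1 hy'
    have h7 : a * (c - b * d') ∈ I := by
      have : a * (c - b * d') = i + b * i' := by
        have e : a * c = i + d * b := h4.symm
        have e2 : d = i' + d' * a := h6.symm
        rw [mul_sub, e, e2]; ring
      rw [this]
      exact I.add_mem hi (I.mul_mem_left _ hi')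
    have h8 := h1 _ h7
    have : c = (c - b * d') + d' * b := by ring
    rw [this]
    exact Submodule.add_mem_sup h8 (Ideal.mul_mem_left _ _ (Ideal.mem_span_singleton_self b))
  · have : I ⊔ Ideal.span {b} ⊔ Ideal.span {a} = I ⊔ Ideal.span {a} ⊔ Ideal.span {b} := by
      rw [sup_right_comm]
    rw [this]
    exact h3

lemma RS_perm {L L' : List R} (h : L.Perm L') : ∀ I : Ideal R, (∀ x ∈ L, x ∈ maximalIdeal R) →
    RS I L → RS I L' := by
  induction h with
  | nil => intro I _ h; exact h
  | cons x _ ih =>
    intro I hm h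
    exact ⟨h.1, ih _ (fun y hy => hm y (List.mem_cons_of_mem _ hy)) h.2⟩
  | swap x y L =>
    intro I hm h
    exact RS_swap (hm y (by simp)) h
  | trans h1 _ ih1 ih2 =>
    intro I hm h
    exact ih2 I (fun y hy => hm y (h1.mem_iff.2 hy)) (ih1 I hm h)

variable {k : Type*} [Field k] [Infinite k] [Algebra k R]

/-- generic combinations are non zero divisors -/
lemma exists_nz (J : Ideal R) (e : R) (he : e ∈ maximalIdeal R) (hJe : Nz J e) {n : ℕ}
    (a : Fin n → R) (K : ℕ) (ha : maximalIdeal R ^ K ≤ Ideal.span (Set.range a) ⊔ J)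
    (W : Submodule k (Fin n → k)) (hW : W ≠ ⊤) :
    ∃ c : Fin n → k, c ∉ W ∧ Nz J (∑ i, c i • a i) := by
  classical
  set comb : (Fin n → k) →ₗ[k] R := Fintype.linearCombination k a with hcomb
  set V : Ideal R → Submodule k (Fin n → k) :=
    fun P => (P.restrictScalars k).comap comb with hV
  have hfin : (associatedPrimes R (R ⧸ J)).Finite := associatedPrimes.finite R (R ⧸ J)
  set S : Finset (Subspace k (Fin n → k)) := insert W (hfin.toFinset.image V) with hS
  have htop : (⊤ : Subspace k (Fin n → k)) ∉ S := by
    rw [hS, Finset.mem_insert, not_or]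
    refine ⟨fun h => hW h.symm, ?_⟩
    rw [Finset.mem_image]
    rintro ⟨P, hP, hPV⟩
    rw [Set.Finite.mem_toFinset] at hP
    have hPp : P.IsPrime := hP.isPrime
    obtain ⟨-, x, hx⟩ := (isAssociatedPrime_iff).1 hP
    have hxm : ∀ r, r ∈ P ↔ r • x = 0 := by
      intro r
      rw [hx, Submodule.mem_colon_singleton, Submodule.mem_bot]
    obtain ⟨z, rfl⟩ := Ideal.Quotient.mk_surjective x
    have hxz : ∀ r, r ∈ P ↔ r * z ∈ J := by
      intro r
      rw [hxm, ← Ideal.Quotient.eq_zero_iff_mem, map_mul]
      rfl
    have h1 : ∀ i, a i ∈ P := by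
      intro i
      have : (Pi.single i 1 : Fin n → k) ∈ V P := by rw [hPV]; trivial
      have h2 : comb (Pi.single i 1) ∈ P := this
      rwa [hcomb, Fintype.linearCombination_apply_single, one_smul] at h2
    have h2 : Ideal.span (Set.range a) ⊔ J ≤ P := by
      refine sup_le (Ideal.span_le.2 ?_) ?_
      · rintro _ ⟨i, rfl⟩; exact h1 i
      · intro r hr
        rw [hxz]
        exact J.mul_mem_right _ hr
    have h3 : maximalIdeal R ≤ P := hPp.le_of_pow_le (ha.trans h2)
    have h4 : e * z ∈ J := (hxz e).1 (h3 he)
    have h5 : z ∈ J := hJe _ h4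
    have h6 : (1 : R) ∈ P := by rw [hxz, one_mul]; exact h5
    exact hPp.ne_top ((Ideal.eq_top_iff_one _).2 h6)
  have hne := Subspace.biUnion_ne_univ_of_top_notMem htop
  rw [Set.ne_univ_iff_exists_notMem] at hne
  obtain ⟨c, hc⟩ := hne
  simp only [Set.mem_iUnion, not_exists] at hc
  refine ⟨c, hc W (Finset.mem_insert_self _ _), ?_⟩
  have hr : IsSMulRegular (R ⧸ J) (comb c) := by
    by_contra hcon
    have : comb c ∈ ⋃ p ∈ associatedPrimes R (R ⧸ J), (p : Set R) := by
      rw [biUnion_associatedPrimes_eq_compl_regular]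
      exact hcon
    simp only [Set.mem_iUnion] at this
    obtain ⟨P, hP, hcP⟩ := this
    exact hc (V P) (Finset.mem_insert_of_mem (Finset.mem_image_of_mem _
      ((Set.Finite.mem_toFinset _).2 hP))) hcP
  intro b hb
  have e1 : (∑ i, c i • a i) = comb c := by rw [hcomb, Fintype.linearCombination_apply]
  rw [e1] at hb
  have h2 : comb c • (Ideal.Quotient.mk J b) = comb c • (0 : R ⧸ J) := by
    rw [smul_zero]
    have : comb c • (Ideal.Quotient.mk J b) = Ideal.Quotient.mk J (comb c * b) := by
      rw [map_mul]; rfl
    rw [this, Ideal.Quotient.eq_zero_iff_mem]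
    exact hb
  exact Ideal.Quotient.eq_zero_iff_mem.1 (hr h2)

/-- exchange: replace a regular sequence by generic combinations of `a` -/
theorem exists_comb {n : ℕ} (a : Fin n → R) (ham : ∀ i, a i ∈ maximalIdeal R) (K : ℕ)
    (ha : maximalIdeal R ^ K ≤ Ideal.span (Set.range a)) :
    ∀ (xs : List R) (us : List (Fin n → k)), xs.length + us.length = n →
      (∀ x ∈ xs, x ∈ maximalIdeal R) → LinearIndependent k us.get →
      RS ⊥ (xs ++ us.map fun c => ∑ i, c i • a i) →
      ∃ vs : List (Fin n → k), vs.length = n ∧ LinearIndependent k vs.get ∧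
        RS ⊥ (vs.map fun c => ∑ i, c i • a i) := by
  classical
  intro xs
  induction xs with
  | nil =>
    intro us hlen _ hli h
    exact ⟨us, by simpa using hlen, hli, by simpa using h⟩
  | cons x xs ih =>
    intro us hlen hxm hli h
    have hcm : ∀ c : Fin n → k, (∑ i, c i • a i) ∈ maximalIdeal R := fun c =>
      Submodule.sum_mem _ fun i _ => by
        rw [Algebra.smul_def]; exact Ideal.mul_mem_left _ _ (ham i)
    set f : (Fin n → k) → R := fun c => ∑ i, c i • a i with hf
    have hp : (x :: xs ++ us.map f).Perm ((xs ++ us.map f) ++ [x]) := by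
      rw [List.cons_append]
      exact (List.perm_append_singleton x (xs ++ us.map f)).symm
    have h2 : RS ⊥ ((xs ++ us.map f) ++ [x]) := RS_perm hp ⊥ (by
      intro y hy
      rw [List.cons_append, List.mem_cons, List.mem_append] at hy
      rcases hy with rfl | hy | hy
      · exact hxm _ (by simp)
      · exact hxm _ (List.mem_cons_of_mem _ hy)
      · obtain ⟨c, -, rfl⟩ := List.mem_map.1 hy
        exact hcm c) h
    rw [RS_append] at h2
    obtain ⟨h3, h4, -⟩ := h2
    rw [bot_sup_eq] at h4
    have hW : Submodule.span k (Set.range us.get) ≠ ⊤ := by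
      intro htop
      have h5 : Module.finrank k (Submodule.span k (Set.range us.get)) = us.length := by
        rw [finrank_span_eq_card hli, Fintype.card_fin]
      rw [htop, finrank_top, Module.finrank_fin_fun] at h5
      simp only [List.length_cons] at hlen
      omega
    obtain ⟨c, hc1, hc2⟩ := exists_nz (k := k) (LI (xs ++ us.map f)) x (hxm x (by simp)) h4 a K
      (ha.trans le_sup_left) _ hW
    refine ih (us ++ [c]) (by simp only [List.length_cons, List.length_append] at *; simp; omega)
      (fun y hy => hxm y (List.mem_cons_of_mem _ hy)) ?_ ?_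
    · -- linear independence of the extended list
      have h6 : LinearIndependent k (Fin.snoc (α := fun _ => Fin n → k) us.get c) := by
        rw [linearIndependent_finSnoc]
        exact ⟨hli, hc1⟩
      have hlen' : (us ++ [c]).length = us.length + 1 := by simp
      have h7 : (us ++ [c]).get = (Fin.snoc (α := fun _ => Fin n → k) us.get c) ∘ (Fin.cast hlen') := by
        funext i
        simp only [Function.comp_apply, List.get_eq_getElem, Fin.snoc, Fin.val_cast]
        split_ifs with hi
        · simp [List.getElem_append_left hi]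
        · have : (i : ℕ) = us.length := by have := i.2; simp at this; omega
          simp [this]
      rw [h7]
      exact h6.comp _ (Fin.cast_injective _)
    · rw [List.map_append, ← List.append_assoc, RS_append]
      refine ⟨h3, ?_⟩
      rw [bot_sup_eq]
      exact ⟨hc2, trivial⟩

end Local

/-- all syzygies are antisymmetric combinations -/
def KS {n : ℕ} (a : Fin n → R) : Prop := ∀ c : Fin n → R, ∑ i, c i * a i = 0 →
  ∃ S : Matrix (Fin n) (Fin n) R, (∀ i, S i i = 0) ∧ (∀ i j, S j i = - S i j) ∧
    ∀ i, c i = ∑ j, S i j * a j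

lemma LI_ofFn {n : ℕ} (a : Fin n → R) : LI (List.ofFn a) = Ideal.span (Set.range a) := by
  unfold LI
  congr 1
  ext x
  simp [List.mem_ofFn]

theorem KS_of_RS : ∀ {n : ℕ} (a : Fin n → R), RS ⊥ (List.ofFn a) → KS a := by
  intro n
  induction n with
  | zero => intro a _ c _; exact ⟨0, fun i => i.elim0, fun i => i.elim0, fun i => i.elim0⟩
  | succ n ih =>
    intro a h c hc
    rw [List.ofFn_succ', List.concat_eq_append, RS_append, bot_sup_eq, LI_ofFn] at h
    obtain ⟨h1, h2, -⟩ := h
    rw [Fin.sum_univ_castSucc] at hc
    have h3 : a (Fin.last n) * c (Fin.last n) ∈ Ideal.span (Set.range fun i => a (Fin.castSucc i)) := by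
      have : a (Fin.last n) * c (Fin.last n) = - ∑ i : Fin n, c (Fin.castSucc i) * a (Fin.castSucc i) := by
        linear_combination hc
      rw [this]
      exact Submodule.neg_mem _ (Submodule.sum_mem _ fun i _ => Ideal.mul_mem_left _ _
        (Ideal.subset_span ⟨i, rfl⟩))
    obtain ⟨s, hs⟩ := Ideal.mem_span_range_iff_exists_fun.1 (h2 _ h3)
    have h4 : ∑ i : Fin n, (c (Fin.castSucc i) + s i * a (Fin.last n)) * a (Fin.castSucc i) = 0 := by
      have : ∑ i : Fin n, (c (Fin.castSucc i) + s i * a (Fin.last n)) * a (Fin.castSucc i) =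
          ∑ i : Fin n, c (Fin.castSucc i) * a (Fin.castSucc i) +
            a (Fin.last n) * ∑ i : Fin n, s i * a (Fin.castSucc i) := by
        rw [Finset.mul_sum, ← Finset.sum_add_distrib]
        exact Finset.sum_congr rfl fun i _ => by ring
      rw [this, hs]
      linear_combination hc
    obtain ⟨S, hS1, hS2, hS3⟩ := ih (fun i => a (Fin.castSucc i)) h1 _ h4
    refine ⟨Matrix.of fun i j => Fin.lastCases (motive := fun _ => R)
      (Fin.lastCases (motive := fun _ => R) 0 (fun j' => s j') j)
      (fun i' => Fin.lastCases (motive := fun _ => R) (- s i') (fun j' => S i' j') j) i, ?_, ?_, ?_⟩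
    · intro i
      refine Fin.lastCases ?_ (fun i' => ?_) i
      · simp
      · simp [hS1 i']
    · intro i j
      refine Fin.lastCases ?_ (fun i' => ?_) i <;> refine Fin.lastCases ?_ (fun j' => ?_) j
      · simp
      · simp
      · simp
      · simp [hS2 i' j']
    · intro i
      rw [Fin.sum_univ_castSucc]
      refine Fin.lastCases ?_ (fun i' => ?_) i
      · simp [hs]
      · have := hS3 i'
        simp only [Matrix.of_apply, Fin.lastCases_castSucc, Fin.lastCases_last]
        linear_combination this

theorem KS_transport {k : Type*} [Field k] [CharZero k] [Algebra k R] {n : ℕ} (a b : Fin n → R)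
    (U : Matrix (Fin n) (Fin n) k) (hU : IsUnit U) (hb : ∀ i, b i = ∑ j, U i j • a j)
    (h : KS b) : KS a := by
  classical
  obtain ⟨V, hV1, hV2⟩ : ∃ V : Matrix (Fin n) (Fin n) k, U * V = 1 ∧ V * U = 1 := by
    obtain ⟨u, rfl⟩ := hU
    exact ⟨((u⁻¹ : (Matrix (Fin n) (Fin n) k)ˣ) : Matrix (Fin n) (Fin n) k), u.mul_inv, u.inv_mul⟩
  -- matrices over `R`
  set U' : Matrix (Fin n) (Fin n) R := U.map (algebraMap k R) with hU'
  set V' : Matrix (Fin n) (Fin n) R := V.map (algebraMap k R) with hV'
  have hVU : V' * U' = 1 := by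
    rw [hU', hV', ← Matrix.map_mul, hV2, Matrix.map_one _ (map_zero _) (map_one _)]
  have hb' : b = U'.mulVec a := by
    funext i
    rw [hb i, Matrix.mulVec, dotProduct]
    exact Finset.sum_congr rfl fun j _ => by rw [hU', Matrix.map_apply, Algebra.smul_def]
  have ha' : a = V'.mulVec b := by
    rw [hb', Matrix.mulVec_mulVec, hVU, Matrix.one_mulVec]
  intro c hc
  have hc' : c ⬝ᵥ a = 0 := hc
  set c' : Fin n → R := Matrix.vecMul c V' with hc'd
  have h1 : ∑ i, c' i * b i = 0 := by
    have : c' ⬝ᵥ b = 0 := by
      rw [hc'd, ← Matrix.dotProduct_mulVec, ← ha', hc']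
    exact this
  obtain ⟨S, hS1, hS2, hS3⟩ := h c' h1
  have hS3' : c' = S.mulVec b := by
    funext i; exact hS3 i
  have hc2 : c = Matrix.vecMul c' U' := by
    rw [hc'd, Matrix.vecMul_vecMul, hVU, Matrix.vecMul_one]
  have hST : S.transpose = -S := by
    ext i j
    rw [Matrix.transpose_apply, Matrix.neg_apply, hS2 i j]
  set T : Matrix (Fin n) (Fin n) R := U'.transpose * S * U' with hT
  have hTT : T.transpose = -T := by
    rw [hT, Matrix.transpose_mul, Matrix.transpose_mul, Matrix.transpose_transpose, hST]
    simp [Matrix.mul_assoc]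
  refine ⟨T, ?_, ?_, ?_⟩
  · intro i
    have h2 : T i i = - T i i := by
      have := congrFun (congrFun hTT i) i
      simpa using this
    have h3 : (2 : R) * T i i = 0 := by linear_combination h2
    have h4 : (2 : k) • T i i = 0 := by
      rw [Algebra.smul_def, map_ofNat]; exact h3
    have h5 : T i i = (2⁻¹ : k) • ((2 : k) • T i i) := by
      rw [smul_smul, inv_mul_cancel₀ (two_ne_zero), one_smul]
    rw [h5, h4, smul_zero]
  · intro i j
    have := congrFun (congrFun hTT i) j
    simpa using this
  · intro i
    have h6 : c = T.mulVec a := by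
      rw [hc2, hS3', hb', Matrix.mulVec_mulVec, hT, ← Matrix.mulVec_transpose, Matrix.mulVec_mulVec,
        Matrix.mul_assoc]
    exact congrFun h6 i


/-- **Cohen-Macaulay property**: all syzygies of a system of parameters are Koszul. -/
theorem koszul [IsLocalRing R] [IsNoetherianRing R] {k : Type*} [Field k] [CharZero k]
    [Algebra k R] {n : ℕ} (x : List R) (hx : x.length = n) (hxm : ∀ y ∈ x, y ∈ maximalIdeal R)
    (hxr : RS ⊥ x) (a : Fin n → R) (ham : ∀ i, a i ∈ maximalIdeal R) (K : ℕ)
    (ha : maximalIdeal R ^ K ≤ Ideal.span (Set.range a)) : KS a := by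
  classical
  obtain ⟨vs, hlen, hli, hRS⟩ := exists_comb (k := k) a ham K ha x [] (by simpa using hx) hxm
    (by
      have : IsEmpty (Fin ([] : List (Fin n → k)).length) := by simpa using Fin.isEmpty'
      exact linearIndependent_empty_type) (by simpa using hxr)
  set U : Matrix (Fin n) (Fin n) k := Matrix.of fun i j => vs.get (Fin.cast hlen.symm i) j with hU
  have hUu : IsUnit U := by
    rw [← Matrix.linearIndependent_rows_iff_isUnit]
    exact hli.comp _ (Fin.cast_injective hlen.symm)
  refine KS_transport a (fun i => ∑ j, U i j • a j) U hUu (fun i => rfl) (KS_of_RS _ ?_)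
  have e : (List.ofFn fun i => ∑ j, U i j • a j) = vs.map fun c => ∑ i, c i • a i := by
    apply List.ext_get
    · simp [hlen]
    · intro i h1 h2
      simp [hU]
  rw [e]
  exact hRS

end Crest.Agent.R257.CM_812
private theorem rz_3388c0dd5d : type_of% @_root_.Crest.Agent.R257.CM_812.RS.eq_def := @_root_.Crest.Agent.R257.CM_812.RS.eq_def -- L24
private theorem rz_dc04598f26 : type_of% @_root_.Crest.Agent.R257.CM_812.RS.eq_1 := @_root_.Crest.Agent.R257.CM_812.RS.eq_1 -- L24
end

-- ▼ part R257/CM2_812

/-!
Row 257 (S0395), leaf CN-SUM (helper812), part 2: the coordinates are a regular sequence in rings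
of germs; Koszul syzygies for germs; `t` is a non zero divisor modulo a complete intersection.
-/

set_option autoImplicit false
set_option linter.unusedSectionVars false

open Set Filter Topology Metric Complex IsLocalRing
open Crest.Agent.R275.Loc2879 hiding AA
open Crest.Agent.R257.UI939

noncomputable section

namespace Crest.Agent.R257.CM_812

universe u v

section Surj

variable {R : Type u} {R' : Type v} [CommRing R] [CommRing R']


end Surj

section Kill

variable {n : ℕ}

lemma an_kill (s : Finset (Fin n)) (p : Fin n → ℂ) :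
    AnalyticAt ℂ (fun x : Fin n → ℂ => fun i => if i ∈ s then (0 : ℂ) else x i) p := by
  refine AnalyticAt.pi fun i => ?_
  by_cases h : i ∈ s
  · simpa [h] using analyticAt_const
  · simpa [h] using an_coord i p

lemma kill_zero (s : Finset (Fin n)) :
    (fun x : Fin n → ℂ => fun i => if i ∈ s then (0 : ℂ) else x i) 0 = 0 := by
  funext i; simp

/-- put the coordinates in `s` equal to `0` -/
def kill (s : Finset (Fin n)) : BB n →+* BB n := pull _ (an_kill s 0) (kill_zero s)

lemma kill_gm (s : Finset (Fin n)) {f : (Fin n → ℂ) → ℂ} (hf : AnalyticAt ℂ f 0)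
    (h : AnalyticAt ℂ (fun x : Fin n → ℂ => f (fun i => if i ∈ s then (0 : ℂ) else x i)) 0) :
    kill s (gm f hf) = gm _ h := rfl

lemma sub_kill_mem (s : Finset (Fin n)) (g : BB n) :
    g - kill s g ∈ Ideal.span (xB '' (s : Set (Fin n))) := by
  classical
  induction s using Finset.induction_on with
  | empty =>
    have : kill ∅ g = g := by
      obtain ⟨f, hf, rfl⟩ := exists_gm g
      rw [kill_gm _ _ (by simpa using hf), gm_eq_gm]
      exact Eventually.of_forall fun x => by simp
    rw [this, sub_self]
    exact Ideal.zero_mem _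
  | insert k s hk ih =>
    have h1 : kill s g - kill (insert k s) g ∈ Ideal.span {xB k} := by
      obtain ⟨f, hf, rfl⟩ := exists_gm g
      have hs : AnalyticAt ℂ (fun x : Fin n → ℂ => f (fun i => if i ∈ s then (0 : ℂ) else x i)) 0 := by
        refine AnalyticAt.comp (g := f) ?_ (an_kill s 0)
        have := kill_zero s
        simp only at this
        rw [this]; exact hf
      have hks : AnalyticAt ℂ (fun x : Fin n → ℂ =>
          f (fun i => if i ∈ insert k s then (0 : ℂ) else x i)) 0 := by
        refine AnalyticAt.comp (g := f) ?_ (an_kill (insert k s) 0)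
        have := kill_zero (insert k s)
        simp only at this
        rw [this]; exact hf
      obtain ⟨q, hq, hqe⟩ := hadamard_coord hs k
      rw [kill_gm s hf hs, kill_gm (insert k s) hf hks]
      have e : gm _ hs = gm _ hks + xB k * gm q hq := by
        rw [xB, gm_mul, gm_add, gm_eq_gm]
        filter_upwards [hqe] with x hx
        rw [hx]
        have e2 : (fun i => if i ∈ s then (0 : ℂ) else Function.update x k 0 i) =
            fun i => if i ∈ insert k s then (0 : ℂ) else x i := by
          funext i
          by_cases h : i = k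
          · subst h; simp [hk]
          · simp [Finset.mem_insert, h]
        rw [e2]
        rfl
      rw [e, add_sub_cancel_left]
      exact Ideal.mul_mem_right _ _ (Ideal.mem_span_singleton_self _)
    have e : g - kill (insert k s) g = (g - kill s g) + (kill s g - kill (insert k s) g) := by ring
    rw [e]
    refine Ideal.add_mem _ ?_ ?_
    · exact Ideal.span_mono (Set.image_mono (by simp)) ih
    · refine Ideal.span_mono ?_ h1
      rw [Set.singleton_subset_iff]
      exact ⟨k, by simp, rfl⟩

lemma kill_xB_mem (s : Finset (Fin n)) {k : Fin n} (hk : k ∈ s) : kill s (xB k) = 0 := by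
  rw [xB, kill_gm _ _ (by simpa [hk] using analyticAt_const), gm_eq_zero]
  exact Eventually.of_forall fun x => by simp [hk]

lemma kill_xB_not_mem (s : Finset (Fin n)) {k : Fin n} (hk : k ∉ s) : kill s (xB k) = xB k := by
  rw [xB, kill_gm _ _ (by simpa [hk] using an_coord k 0), gm_eq_gm]
  exact Eventually.of_forall fun x => by simp [hk]

lemma mem_span_iff_kill (s : Finset (Fin n)) (g : BB n) :
    g ∈ Ideal.span (xB '' (s : Set (Fin n))) ↔ kill s g = 0 := by
  constructor
  · intro h
    have : Ideal.span (xB '' (s : Set (Fin n))) ≤ RingHom.ker (kill s) := by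
      rw [Ideal.span_le]
      rintro _ ⟨k, hk, rfl⟩
      exact kill_xB_mem s hk
    exact this h
  · intro h
    have := sub_kill_mem s g
    rwa [h, sub_zero] at this

lemma xB_ne_zero (k : Fin n) : xB k ≠ 0 := by
  intro h
  rw [xB, gm_eq_zero] at h
  have h1 : Tendsto (fun c : ℂ => (Pi.single k c : Fin n → ℂ)) (𝓝[≠] 0) (𝓝 0) := by
    have : Continuous (fun c : ℂ => (Pi.single k c : Fin n → ℂ)) :=
      continuous_pi fun i => by
        by_cases h : i = k
        · subst h; simpa using continuous_id'
        · simpa [Pi.single_eq_of_ne h] using continuous_const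
    have h2 := this.tendsto 0
    have h4 : (Pi.single k (0 : ℂ) : Fin n → ℂ) = 0 := by simp
    rw [h4] at h2
    exact h2.mono_left nhdsWithin_le_nhds
  have h2 := h1.eventually h
  have h3 : ∀ᶠ c : ℂ in 𝓝[≠] 0, c ≠ 0 := self_mem_nhdsWithin
  obtain ⟨c, hc1, hc2⟩ := (h2.and h3).exists
  simp at hc1
  exact hc2 hc1

lemma nz_xB (s : Finset (Fin n)) {k : Fin n} (hk : k ∉ s) :
    Nz (Ideal.span (xB '' (s : Set (Fin n)))) (xB k) := by
  intro b hb
  rw [mem_span_iff_kill, map_mul, kill_xB_not_mem s hk] at hb
  rw [mem_span_iff_kill]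
  exact (mul_eq_zero.1 hb).resolve_left (xB_ne_zero k)

lemma RS_xB (l : List (Fin n)) : ∀ s : Finset (Fin n), (∀ i ∈ l, i ∉ s) → l.Nodup →
    RS (Ideal.span (xB '' (s : Set (Fin n)))) (l.map xB) := by
  classical
  induction l with
  | nil => intro s _ _; trivial
  | cons k l ih =>
    intro s hs hl
    rw [List.nodup_cons] at hl
    refine ⟨nz_xB s (hs k (by simp)), ?_⟩
    have e : Ideal.span (xB '' (s : Set (Fin n))) ⊔ Ideal.span {xB k} =
        Ideal.span (xB '' ((insert k s : Finset (Fin n)) : Set (Fin n))) := by
      rw [Finset.coe_insert, Set.image_insert_eq, ← Ideal.span_union, Set.union_comm,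
        Set.singleton_union]
    rw [e]
    refine ih (insert k s) ?_ hl.2
    intro i hi
    rw [Finset.mem_insert, not_or]
    exact ⟨fun h => hl.1 (h ▸ hi), hs i (List.mem_cons_of_mem _ hi)⟩

/-- the coordinates are a regular sequence in `O_n` -/
theorem RS_coord : RS (⊥ : Ideal (BB n)) ((List.finRange n).map xB) := by
  have := RS_xB (List.finRange n) ∅ (by simp) (List.nodup_finRange n)
  simpa using this

lemma xB_mem_max (k : Fin n) : xB k ∈ maximalIdeal (BB n) := by
  rw [mem_maximalIdeal, mem_nonunits_iff]
  exact xB_not_unit k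

/-- **Koszul syzygies in `O_n`** -/
theorem koszul_BB (a : Fin n → BB n) (ham : ∀ i, a i ∈ maximalIdeal (BB n))
    (hfin : Module.Finite ℂ (BB n ⧸ Ideal.span (Set.range a))) : KS a :=
  koszul (k := ℂ) ((List.finRange n).map xB) (by simp)
    (by
      intro y hy
      obtain ⟨i, -, rfl⟩ := List.mem_map.1 hy
      exact xB_mem_max i) RS_coord a ham _ (Uni554.pow_le _ hfin rfl)

end Kill

section Line

variable {n : ℕ}









end Line

end Crest.Agent.R257.CM_812
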