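import Mathlib
import Crest.Agent.R257.Defs_219
import Crest.Agent.R257.CNS_939
import Crest.Agent.R257.Sh10_297

-- ▼ part R257/KlA_540
section

/-!
R257 / KlA_540: K5' of the KLT leaf, part 1 (integration by parts in `ℂⁿ`).

`P L v` : the `ℂ`-linear part of a real-linear functional `L : ℂⁿ → ℂ`;
`gen`   : if `∑ k_j ∂_j f = θ f` and `Re ∑ ∂_j k_j ≥ (1+c) θ - B`, with everything compactly
supported, then `(c+s) ∫ θ (|f|²+ε²)^(s-1) ≤ ∫ B (|f|²+ε²)^(s-1)`.
-/

set_option autoImplicit false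

open Topology Filter MeasureTheory Set
open scoped ENNReal

noncomputable section

namespace Crest.Agent.R257.KlA_540

variable {n : ℕ}

abbrev En (n : ℕ) : Type := Fin n → ℂ

/-- the `ℂ`-linear part of a real-linear functional -/
def P (L : En n →L[ℝ] ℂ) (v : En n) : ℂ := (L v - Complex.I * L (Complex.I • v)) / 2

theorem P_add (L M : En n →L[ℝ] ℂ) (v : En n) : P (L + M) v = P L v + P M v := by
  simp only [P, add_apply]; ring

theorem P_smul (c : ℂ) (L : En n →L[ℝ] ℂ) (v : En n) : P (c • L) v = c * P L v := by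
  simp only [P, smul_apply, smul_eq_mul]; ring

theorem P_restrict (L : En n →L[ℂ] ℂ) (v : En n) : P (L.restrictScalars ℝ) v = L v := by
  simp only [P, ContinuousLinearMap.coe_restrictScalars', map_smul, smul_eq_mul]
  have h : Complex.I * (Complex.I * L v) = - L v := by
    rw [← mul_assoc, Complex.I_mul_I]; ring
  rw [h]; ring

/-- the real functional `v ↦ 2 Re (conj w * L v)` has complex linear part `conj w * L v` -/
theorem P_re (w : ℂ) (L : En n →L[ℂ] ℂ) (v : En n) (M : En n →L[ℝ] ℝ)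
    (hM : ∀ v, M v = 2 * (starRingEnd ℂ w * L v).re) :
    P (Complex.ofRealCLM.comp M) v = starRingEnd ℂ w * L v := by
  simp only [P, ContinuousLinearMap.comp_apply, Complex.ofRealCLM_apply, hM, map_smul, smul_eq_mul]
  apply Complex.ext
  · simp
  · simp
    ring

/-- the derivative of `‖f‖²` -/
theorem hasFDerivAt_normSq {f : En n → ℂ} {x : En n} {L : En n →L[ℂ] ℂ} (hf : HasFDerivAt f L x) :
    ∃ M : En n →L[ℝ] ℝ, HasFDerivAt (fun y => ‖f y‖ ^ 2) M x ∧
      ∀ v, M v = 2 * (starRingEnd ℂ (f x) * L v).re := by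
  have h1 : HasFDerivAt f (L.restrictScalars ℝ) x := hf.restrictScalars ℝ
  have h2 := h1.norm_sq
  refine ⟨_, h2, fun v => ?_⟩
  simp [Complex.inner, mul_comm]
  ring

/-- the derivative of `(‖f‖²+ε²)^q` -/
theorem hasFDerivAt_G {f : En n → ℂ} {x : En n} {L : En n →L[ℂ] ℂ} (hf : HasFDerivAt f L x)
    (q : ℝ) {ε : ℝ} (hε : 0 < ε) :
    ∃ M : En n →L[ℝ] ℂ, HasFDerivAt (fun y => (((‖f y‖ ^ 2 + ε ^ 2) ^ q : ℝ) : ℂ)) M x ∧
      ∀ v, P M v = (q * (‖f x‖ ^ 2 + ε ^ 2) ^ (q - 1) : ℝ) * (starRingEnd ℂ (f x) * L v) := by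
  obtain ⟨M, hM, hMv⟩ := hasFDerivAt_normSq hf
  have hpos : (0 : ℝ) < ‖f x‖ ^ 2 + ε ^ 2 := by positivity
  have h1 : HasFDerivAt (fun y => ‖f y‖ ^ 2 + ε ^ 2) M x := hM.add_const _
  have h2 := h1.rpow_const (p := q) (Or.inl hpos.ne')
  have h3 := Complex.ofRealCLM.hasFDerivAt.comp x h2
  refine ⟨_, h3, fun v => ?_⟩
  have h4 : Complex.ofRealCLM.comp ((q * (‖f x‖ ^ 2 + ε ^ 2) ^ (q - 1)) • M) =
      ((q * (‖f x‖ ^ 2 + ε ^ 2) ^ (q - 1) : ℝ) : ℂ) • (Complex.ofRealCLM.comp M) := by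
    ext v
    simp
  rw [h4, P_smul, P_re (f x) L v M hMv]

/-- integral of a derivative of a compactly supported function -/
theorem integral_fderiv_zero {u : En n → ℂ} (hu : ContDiff ℝ 1 u) (hc : HasCompactSupport u)
    (v : En n) : ∫ x, fderiv ℝ u x v = 0 := by
  have hd : Continuous (fun x => fderiv ℝ u x v) :=
    (hu.continuous_fderiv one_ne_zero).clm_apply continuous_const
  have hdc : HasCompactSupport (fun x => fderiv ℝ u x v) := by
    have := hc.fderiv (𝕜 := ℝ)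
    exact this.comp_left (g := fun L : En n →L[ℝ] ℂ => L v) (by simp)
  have h := integral_mul_fderiv_eq_neg_fderiv_mul_of_integrable (μ := (volume : Measure (En n)))
    (f := fun _ : En n => (1 : ℂ)) (g := u) (v := v) (𝕜 := ℂ)
    (by simp) (by simpa using hd.integrable_of_hasCompactSupport hdc)
    (by simpa using hu.continuous.integrable_of_hasCompactSupport hc)
    (fun x _ => differentiableAt_const _)
    (fun x _ => (hu.differentiable one_ne_zero) x)
  simpa using h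

theorem integral_P_zero {u : En n → ℂ} (hu : ContDiff ℝ 1 u) (hc : HasCompactSupport u)
    (v : En n) : Integrable (fun x => P (fderiv ℝ u x) v) ∧ ∫ x, P (fderiv ℝ u x) v = 0 := by
  have hi : ∀ w : En n, Integrable (fun x => fderiv ℝ u x w) := by
    intro w
    have hd : Continuous (fun x => fderiv ℝ u x w) :=
      (hu.continuous_fderiv one_ne_zero).clm_apply continuous_const
    have hdc : HasCompactSupport (fun x => fderiv ℝ u x w) := by
      have := hc.fderiv (𝕜 := ℝ)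
      exact this.comp_left (g := fun L : En n →L[ℝ] ℂ => L w) (by simp)
    exact hd.integrable_of_hasCompactSupport hdc
  have h1 := hi v
  have h2 := (hi (Complex.I • v)).const_mul Complex.I
  constructor
  · exact (h1.sub h2).div_const 2
  · simp only [P]
    rw [integral_div, integral_sub h1 h2, integral_const_mul, integral_fderiv_zero hu hc,
      integral_fderiv_zero hu hc]
    simp

theorem contDiff_mul {k g : En n → ℂ} (hk : ContDiff ℝ 1 k)
    (hg : ∀ x ∈ tsupport k, ContDiffAt ℝ 1 g x) : ContDiff ℝ 1 (fun x => k x * g x) := by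
  rw [contDiff_iff_contDiffAt]
  intro x
  by_cases hx : x ∈ tsupport k
  · exact hk.contDiffAt.mul (hg x hx)
  · have h0 : k =ᶠ[𝓝 x] 0 := notMem_tsupport_iff_eventuallyEq.1 hx
    have h1 : (fun x => k x * g x) =ᶠ[𝓝 x] fun _ => 0 := by
      filter_upwards [h0] with y hy
      simp [hy]
    exact contDiffAt_const.congr_of_eventuallyEq h1

theorem continuous_mul_of {θ g : En n → ℝ} {U : Set (En n)} (hU : IsOpen U) (hθ : Continuous θ)
    (hθU : tsupport θ ⊆ U) (hg : ContinuousOn g U) : Continuous (fun x => θ x * g x) := by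
  rw [continuous_iff_continuousAt]
  intro x
  by_cases hx : x ∈ tsupport θ
  · exact hθ.continuousAt.mul (hg.continuousAt (hU.mem_nhds (hθU hx)))
  · have h0 : θ =ᶠ[𝓝 x] 0 := notMem_tsupport_iff_eventuallyEq.1 hx
    have h1 : (fun x => θ x * g x) =ᶠ[𝓝 x] fun _ => 0 := by
      filter_upwards [h0] with y hy
      simp [hy]
    exact continuousAt_const.congr h1.symm

/-- the weight -/
def G (f : En n → ℂ) (s ε : ℝ) (x : En n) : ℝ := (‖f x‖ ^ 2 + ε ^ 2) ^ (s - 1)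

theorem G_nonneg (f : En n → ℂ) (s ε : ℝ) (x : En n) : 0 ≤ G f s ε x := by
  unfold G; positivity

theorem contDiffAt_G {f : En n → ℂ} {x : En n} (hf : AnalyticAt ℂ f x) (s : ℝ) {ε : ℝ}
    (hε : 0 < ε) : ContDiffAt ℝ 1 (G f s ε) x := by
  have h1 : ContDiffAt ℝ 1 f x := (hf.contDiffAt (n := 1)).restrict_scalars ℝ
  have h2 : ContDiffAt ℝ 1 (fun y => ‖f y‖ ^ 2 + ε ^ 2) x := (h1.norm_sq ℝ).add contDiffAt_const
  exact h2.rpow_const_of_ne (by positivity)

theorem continuousOn_G {f : En n → ℂ} {U : Set (En n)} (hf : AnalyticOnNhd ℂ f U) (s : ℝ) {ε : ℝ}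
    (hε : 0 < ε) : ContinuousOn (G f s ε) U := fun x hx =>
  (contDiffAt_G (hf x hx) s hε).continuousAt.continuousWithinAt

/-- the basic inequality -/
theorem gen {U : Set (En n)} (hU : IsOpen U) {f : En n → ℂ} (hf : AnalyticOnNhd ℂ f U)
    {k : Fin n → En n → ℂ} (hk : ∀ j, ContDiff ℝ 1 (k j)) (hkU : ∀ j, tsupport (k j) ⊆ U)
    (hkc : ∀ j, HasCompactSupport (k j)) {θ B : En n → ℝ} (hθ : Continuous θ)
    (hθ0 : ∀ x, 0 ≤ θ x) (hθc : HasCompactSupport θ) (hθU : tsupport θ ⊆ U)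
    (hB : Continuous B) (hBc : HasCompactSupport B) (hBU : tsupport B ⊆ U)
    (h1 : ∀ x ∈ U, ∑ j, k j x * fderiv ℂ f x (Pi.single j 1) = θ x * f x) {c : ℝ}
    (h2 : ∀ x ∈ U, (1 + c) * θ x - B x ≤ (∑ j, P (fderiv ℝ (k j) x) (Pi.single j 1)).re)
    {s ε : ℝ} (hs1 : s ≤ 1) (hε : 0 < ε) :
    (c + s) * ∫ x, θ x * G f s ε x ≤ ∫ x, B x * G f s ε x := by
  have hGc := continuousOn_G hf s hε
  set u : Fin n → En n → ℂ := fun j x => k j x * (G f s ε x : ℂ) with hu
  have huC : ∀ j, ContDiff ℝ 1 (u j) := fun j => contDiff_mul (hk j) fun x hx =>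
    Complex.ofRealCLM.contDiff.contDiffAt.comp x (contDiffAt_G (hf x (hkU j hx)) s hε)
  have huc : ∀ j, HasCompactSupport (u j) := fun j => (hkc j).mul_right
  have hint : Integrable (fun x => (∑ j, P (fderiv ℝ (u j) x) (Pi.single j 1))) :=
    integrable_finsetSum _ fun j _ => (integral_P_zero (huC j) (huc j) _).1
  have hzero : ∫ x, (∑ j, P (fderiv ℝ (u j) x) (Pi.single j 1)).re = 0 := by
    have h3 : ∫ x, (∑ j, P (fderiv ℝ (u j) x) (Pi.single j 1)) = 0 := by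
      rw [integral_finsetSum _ fun j _ => (integral_P_zero (huC j) (huc j) _).1]
      exact Finset.sum_eq_zero fun j _ => (integral_P_zero (huC j) (huc j) _).2
    have h4 := integral_re hint
    simp only [RCLike.re_to_complex] at h4
    rw [h4, h3]; simp
  have hθi : Integrable (fun x => θ x * G f s ε x) :=
    (continuous_mul_of hU hθ hθU hGc).integrable_of_hasCompactSupport hθc.mul_right
  have hBi : Integrable (fun x => B x * G f s ε x) :=
    (continuous_mul_of hU hB hBU hGc).integrable_of_hasCompactSupport hBc.mul_right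
  have hpt : ∀ x, (c + s) * (θ x * G f s ε x) - B x * G f s ε x ≤
      (∑ j, P (fderiv ℝ (u j) x) (Pi.single j 1)).re := by
    intro x
    by_cases hx : x ∈ U
    · obtain ⟨M, hM, hMv⟩ := hasFDerivAt_G (hf x hx).differentiableAt.hasFDerivAt (s - 1) hε
      have hj : ∀ j, P (fderiv ℝ (u j) x) (Pi.single j 1) =
          k j x * (((s - 1) * (‖f x‖ ^ 2 + ε ^ 2) ^ (s - 1 - 1) : ℝ) *
            (starRingEnd ℂ (f x) * fderiv ℂ f x (Pi.single j 1))) +
          G f s ε x * P (fderiv ℝ (k j) x) (Pi.single j 1) := by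
        intro j
        have hd : HasFDerivAt (k j) (fderiv ℝ (k j) x) x :=
          ((hk j).differentiable one_ne_zero x).hasFDerivAt
        have := (hd.mul hM).fderiv
        rw [show fderiv ℝ (u j) x = _ from this, P_add, P_smul, P_smul, hMv]
        rfl
      have hsum : (∑ j, P (fderiv ℝ (u j) x) (Pi.single j 1)) =
          ((s - 1) * (‖f x‖ ^ 2 + ε ^ 2) ^ (s - 1 - 1) : ℝ) * (starRingEnd ℂ (f x) *
            (∑ j, k j x * fderiv ℂ f x (Pi.single j 1))) +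
          G f s ε x * ∑ j, P (fderiv ℝ (k j) x) (Pi.single j 1) := by
        rw [Finset.sum_congr rfl fun j _ => hj j, Finset.sum_add_distrib, Finset.mul_sum,
          Finset.mul_sum, Finset.mul_sum]
        congr 1
        refine Finset.sum_congr rfl fun j _ => by ring
      have hconj : starRingEnd ℂ (f x) * (θ x * f x) = ((θ x * ‖f x‖ ^ 2 : ℝ) : ℂ) := by
        have : starRingEnd ℂ (f x) * f x = ((‖f x‖ ^ 2 : ℝ) : ℂ) := by
          rw [mul_comm, Complex.mul_conj, Complex.normSq_eq_norm_sq]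
        rw [Complex.ofReal_mul, ← this]; ring
      rw [hsum, h1 x hx, hconj, ← Complex.ofReal_mul, Complex.add_re, Complex.ofReal_re,
        Complex.re_ofReal_mul]
      have hpos : (0 : ℝ) < ‖f x‖ ^ 2 + ε ^ 2 := by positivity
      have hle : ‖f x‖ ^ 2 * (‖f x‖ ^ 2 + ε ^ 2) ^ (s - 1 - 1) ≤ G f s ε x := by
        have e1 : G f s ε x = (‖f x‖ ^ 2 + ε ^ 2) * (‖f x‖ ^ 2 + ε ^ 2) ^ (s - 1 - 1) := by
          unfold G
          rw [mul_comm, ← Real.rpow_add_one hpos.ne']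
          congr 1; ring
        rw [e1]
        have : 0 ≤ (‖f x‖ ^ 2 + ε ^ 2) ^ (s - 1 - 1) := by positivity
        nlinarith [sq_nonneg ε]
      have h3 := mul_le_mul_of_nonneg_left (h2 x hx) (G_nonneg f s ε x)
      have h4 : (1 - s) * (θ x * (‖f x‖ ^ 2 * (‖f x‖ ^ 2 + ε ^ 2) ^ (s - 1 - 1))) ≤
          (1 - s) * (θ x * G f s ε x) :=
        mul_le_mul_of_nonneg_left (mul_le_mul_of_nonneg_left hle (hθ0 x)) (by linarith)
      nlinarith
    · have e1 : θ x = 0 := image_eq_zero_of_notMem_tsupport fun h => hx (hθU h)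
      have e2 : B x = 0 := image_eq_zero_of_notMem_tsupport fun h => hx (hBU h)
      have e3 : ∀ j, fderiv ℝ (u j) x = 0 := by
        intro j
        have : x ∉ tsupport (u j) := fun h => hx (hkU j (tsupport_mul_subset_left h))
        have h0 : u j =ᶠ[𝓝 x] 0 := notMem_tsupport_iff_eventuallyEq.1 this
        rw [h0.fderiv_eq]
        simp
      simp [e1, e2, e3, P]
  have hmono : ∫ x, ((c + s) * (θ x * G f s ε x) - B x * G f s ε x) ≤
      ∫ x, (∑ j, P (fderiv ℝ (u j) x) (Pi.single j 1)).re :=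
    integral_mono ((hθi.const_mul _).sub hBi) hint.re hpt
  rw [hzero, integral_sub (hθi.const_mul _) hBi, integral_const_mul] at hmono
  linarith

end Crest.Agent.R257.KlA_540
end
end

-- ▼ part R257/KlB_540
section

/-!
R257 / KlB_540: K5' of the KLT leaf, part 2.  `tube`: if `χ f = f`, `Re div χ > 1` near `0` and
`0` is an isolated critical point of `f`, then `s ∫_{ball} (|f|²+ε²)^(s-1)` is bounded uniformly in
`0 < s ≤ 1/2`, `0 < ε ≤ 1`.
-/

set_option autoImplicit false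

open Topology Filter MeasureTheory Set
open scoped ENNReal ContDiff Manifold

noncomputable section

namespace Crest.Agent.R257.KlB_540

open Crest.Agent.R257.KlA_540

variable {n : ℕ}

/-- cut-off functions -/
theorem cutoff {K V : Set (En n)} (hK : IsCompact K) (hV : IsOpen V) (hKV : K ⊆ V) :
    ∃ ρ : En n → ℝ, ContDiff ℝ ∞ ρ ∧ HasCompactSupport ρ ∧ tsupport ρ ⊆ V ∧ (∀ x ∈ K, ρ x = 1) ∧
      ∀ x, 0 ≤ ρ x ∧ ρ x ≤ 1 := by
  obtain ⟨L, hL, hKL, hLV⟩ := exists_compact_between hK hV hKV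
  obtain ⟨f, h1, h0, h01⟩ := exists_contMDiffMap_one_nhds_of_subset_interior (n := (⊤ : ℕ∞))
    𝓘(ℝ, En n) hK.isClosed hKL
  have hsub : tsupport (f : En n → ℝ) ⊆ L :=
    closure_minimal (fun x hx => by by_contra h; exact hx (h0 x h)) hL.isClosed
  refine ⟨f, contMDiff_iff_contDiff.1 f.contMDiff, ?_, hsub.trans hLV, fun x hx => ?_,
    fun x => h01 x⟩
  · exact hL.of_isClosed_subset (isClosed_tsupport _) hsub
  · exact h1.self_of_nhdsSet x hx

theorem P_cont {k : En n → ℂ} (hk : ContDiff ℝ 1 k) (v : En n) :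
    Continuous (fun x => P (fderiv ℝ k x) v) := by
  have h : ∀ w : En n, Continuous (fun x => fderiv ℝ k x w) := fun w =>
    (hk.continuous_fderiv one_ne_zero).clm_apply continuous_const
  unfold P
  exact ((h v).sub (continuous_const.mul (h _))).div_const 2

/-- the shell inequality -/
theorem shell {V : Set (En n)} (hV : IsOpen V) {f : En n → ℂ} (hf : AnalyticOnNhd ℂ f V)
    (hcr : ∀ x ∈ V, ∃ j : Fin n, fderiv ℂ f x (Pi.single j 1) ≠ 0) {ρ : En n → ℝ}
    (hρ : ContDiff ℝ ∞ ρ) (hρc : HasCompactSupport ρ) (hρV : tsupport ρ ⊆ V)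
    (hρ0 : ∀ x, 0 ≤ ρ x) :
    ∃ Λ : En n → ℝ, Continuous Λ ∧ HasCompactSupport Λ ∧ tsupport Λ ⊆ V ∧ (∀ x, 0 ≤ Λ x) ∧
      ∀ s ε : ℝ, s ≤ 1 → 0 < ε →
        s * ∫ x, ρ x * G f s ε x ≤ ∫ x, (Λ x * ‖f x‖) * G f s ε x := by
  set D : Fin n → En n → ℂ := fun j x => fderiv ℂ f x (Pi.single j 1) with hD
  have hDan : ∀ j, AnalyticOnNhd ℂ (D j) V := fun j x hx =>
    ((ContinuousLinearMap.apply ℂ ℂ (Pi.single j 1 : En n)).analyticAt _).comp
      (hf.fderiv x hx)
  set N : En n → ℝ := fun x => ∑ i, ‖D i x‖ ^ 2 with hN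
  have hNpos : ∀ x ∈ V, 0 < N x := by
    intro x hx
    obtain ⟨j, hj⟩ := hcr x hx
    exact lt_of_lt_of_le (by have := norm_pos_iff.2 hj; positivity : 0 < ‖D j x‖ ^ 2)
      (Finset.single_le_sum (f := fun i => ‖D i x‖ ^ 2) (fun i _ => by positivity)
        (Finset.mem_univ j))
  have hDr : ∀ j, ∀ x ∈ V, ContDiffAt ℝ 1 (D j) x := fun j x hx =>
    ((hDan j x hx).contDiffAt (n := 1)).restrict_scalars ℝ
  have hNr : ∀ x ∈ V, ContDiffAt ℝ 1 N x := fun x hx =>
    ContDiffAt.sum fun i _ => (hDr i x hx).norm_sq ℝ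
  set b : Fin n → En n → ℂ := fun j x => starRingEnd ℂ (D j x) * ((N x)⁻¹ : ℝ) with hb
  have hbr : ∀ j, ∀ x ∈ V, ContDiffAt ℝ 1 (b j) x := by
    intro j x hx
    refine ContDiffAt.mul ?_ ?_
    · exact Complex.conjCLE.contDiff.contDiffAt.comp x (hDr j x hx)
    · exact Complex.ofRealCLM.contDiff.contDiffAt.comp x ((hNr x hx).inv (hNpos x hx).ne')
  have hbD : ∀ x ∈ V, ∑ j, b j x * D j x = 1 := by
    intro x hx
    have h1 : ∀ j, b j x * D j x = ((‖D j x‖ ^ 2 * (N x)⁻¹ : ℝ) : ℂ) := by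
      intro j
      have : starRingEnd ℂ (D j x) * D j x = ((‖D j x‖ ^ 2 : ℝ) : ℂ) := by
        rw [mul_comm, Complex.mul_conj, Complex.normSq_eq_norm_sq]
      rw [Complex.ofReal_mul, ← this, hb]; ring
    rw [Finset.sum_congr rfl fun j _ => h1 j, ← Complex.ofReal_sum, ← Finset.sum_mul]
    rw [show (∑ i, ‖D i x‖ ^ 2) = N x from rfl, mul_inv_cancel₀ (hNpos x hx).ne']
    simp
  -- the vector field `ρ b`
  set q : Fin n → En n → ℂ := fun j x => (ρ x : ℂ) * b j x with hq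
  have hρC : ContDiff ℝ 1 (fun x => (ρ x : ℂ)) :=
    Complex.ofRealCLM.contDiff.comp (hρ.of_le (by exact_mod_cast le_top))
  have hsuppC : tsupport (fun x => (ρ x : ℂ)) ⊆ tsupport ρ :=
    closure_mono fun x hx => by
      intro h; exact hx (by simp [h])
  have hqC : ∀ j, ContDiff ℝ 1 (q j) := fun j => contDiff_mul hρC fun x hx =>
    hbr j x (hρV (hsuppC hx))
  have hqs : ∀ j, tsupport (q j) ⊆ tsupport ρ := fun j =>
    (tsupport_mul_subset_left).trans hsuppC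
  set L : En n → ℂ := fun x => ∑ j, P (fderiv ℝ (q j) x) (Pi.single j 1) with hL
  have hLcont : Continuous L := continuous_finsetSum _ fun j _ => P_cont (hqC j) _
  have hLs : tsupport L ⊆ tsupport ρ := by
    refine closure_minimal (fun x hx => ?_) (isClosed_tsupport _)
    by_contra h
    apply hx
    refine Finset.sum_eq_zero fun j _ => ?_
    have h0 : q j =ᶠ[𝓝 x] 0 := notMem_tsupport_iff_eventuallyEq.1 fun h' => h (hqs j h')
    rw [h0.fderiv_eq]
    simp [P]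
  have hΛs : tsupport (fun x => ‖L x‖) ⊆ tsupport ρ :=
    (closure_mono fun x hx => by
      intro h; exact hx (by simp [h])).trans hLs
  refine ⟨fun x => ‖L x‖, hLcont.norm, hρc.of_isClosed_subset (isClosed_tsupport _) hΛs,
    hΛs.trans hρV, fun x => norm_nonneg _, fun s ε hs hε => ?_⟩
  set k : Fin n → En n → ℂ := fun j x => q j x * f x with hk
  have hfr : ∀ x ∈ V, ContDiffAt ℝ 1 f x := fun x hx =>
    ((hf x hx).contDiffAt (n := 1)).restrict_scalars ℝ
  have hkC : ∀ j, ContDiff ℝ 1 (k j) := fun j => contDiff_mul (hqC j) fun x hx =>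
    hfr x (hρV (hqs j hx))
  have hks : ∀ j, tsupport (k j) ⊆ tsupport ρ := fun j => tsupport_mul_subset_left.trans (hqs j)
  have hres := gen hV hf (k := k) hkC (fun j => (hks j).trans hρV)
    (fun j => hρc.of_isClosed_subset (isClosed_tsupport _) (hks j))
    (θ := ρ) (B := fun x => ‖L x‖ * ‖f x‖) hρ.continuous hρ0 hρc hρV
    (continuous_mul_of hV hLcont.norm (hΛs.trans hρV) hf.continuousOn.norm)
    (hρc.of_isClosed_subset (isClosed_tsupport _) (tsupport_mul_subset_left.trans hΛs))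
    ((tsupport_mul_subset_left.trans hΛs).trans hρV)
    (fun x hx => ?_) (c := 0) (fun x hx => ?_) (s := s) (ε := ε) hs hε
  · simpa using hres
  · have : ∀ j, k j x * fderiv ℂ f x (Pi.single j 1) = (ρ x * f x) * (b j x * D j x) := by
      intro j; simp only [hk, hq, hD]; ring
    rw [Finset.sum_congr rfl fun j _ => this j, ← Finset.mul_sum, hbD x hx, mul_one]
  · have hj : ∀ j, P (fderiv ℝ (k j) x) (Pi.single j 1) =
        (ρ x : ℂ) * (b j x * D j x) + f x * P (fderiv ℝ (q j) x) (Pi.single j 1) := by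
      intro j
      have hd : HasFDerivAt (q j) (fderiv ℝ (q j) x) x :=
        ((hqC j).differentiable one_ne_zero x).hasFDerivAt
      have hf' : HasFDerivAt f ((fderiv ℂ f x).restrictScalars ℝ) x :=
        (hf x hx).differentiableAt.hasFDerivAt.restrictScalars ℝ
      rw [show fderiv ℝ (k j) x = _ from (hd.mul hf').fderiv, P_add, P_smul, P_smul, P_restrict]
      simp only [hq, hD]; ring
    rw [Finset.sum_congr rfl fun j _ => hj j, Finset.sum_add_distrib, ← Finset.mul_sum,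
      ← Finset.mul_sum, hbD x hx, mul_one, Complex.add_re, Complex.ofReal_re]
    have h3 : -(‖L x‖ * ‖f x‖) ≤ (f x * L x).re := by
      have := Complex.abs_re_le_norm (f x * L x)
      rw [norm_mul] at this
      have := neg_abs_le (f x * L x).re
      linarith
    have h4 : (f x * ∑ j, P (fderiv ℝ (q j) x) (Pi.single j 1)).re = (f x * L x).re := rfl
    rw [h4]
    linarith

/-- the shell bound -/
theorem shell_bound {V : Set (En n)} (hV : IsOpen V) {f : En n → ℂ} (hf : AnalyticOnNhd ℂ f V)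
    (hcr : ∀ x ∈ V, ∃ j : Fin n, fderiv ℂ f x (Pi.single j 1) ≠ 0) {B : En n → ℝ}
    (hB : Continuous B) (hBc : HasCompactSupport B) (hBV : tsupport B ⊆ V) (hB0 : ∀ x, 0 ≤ B x) :
    ∃ C : ℝ, 0 ≤ C ∧ ∀ s ε : ℝ, 0 < s → s ≤ 1 / 2 → 0 < ε → ε ≤ 1 →
      s * ∫ x, B x * G f s ε x ≤ C := by
  -- integrability
  have hint : ∀ (θ : En n → ℝ), Continuous θ → HasCompactSupport θ → tsupport θ ⊆ V →
      ∀ s ε : ℝ, 0 < ε → Integrable (fun x => θ x * G f s ε x) := fun θ h1 h2 h3 s ε hε =>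
    (continuous_mul_of hV h1 h3 (continuousOn_G hf s hε)).integrable_of_hasCompactSupport
      h2.mul_right
  -- domination by a cut-off
  have dom : ∀ (θ : En n → ℝ), Continuous θ → HasCompactSupport θ → tsupport θ ⊆ V →
      (∀ x, 0 ≤ θ x) → ∃ (ρ : En n → ℝ) (C : ℝ), 0 ≤ C ∧ ContDiff ℝ ∞ ρ ∧ HasCompactSupport ρ ∧
        tsupport ρ ⊆ V ∧ (∀ x, 0 ≤ ρ x) ∧ ∀ x, θ x ≤ C * ρ x := by
    intro θ h1 h2 h3 h4
    obtain ⟨ρ, hρ, hρc, hρV, hρ1, hρ01⟩ := cutoff h2 hV h3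
    obtain ⟨C, hC⟩ := h1.bounded_above_of_compact_support h2
    refine ⟨ρ, C, (norm_nonneg _).trans (hC 0), hρ, hρc, hρV, fun x => (hρ01 x).1, fun x => ?_⟩
    by_cases hx : x ∈ tsupport θ
    · rw [hρ1 x hx, mul_one]; exact (le_abs_self _).trans (hC x)
    · rw [image_eq_zero_of_notMem_tsupport hx]
      exact mul_nonneg ((norm_nonneg _).trans (hC 0)) (hρ01 x).1
  obtain ⟨ρ, C₁, hC₁, hρ, hρc, hρV, hρ0, hBρ⟩ := dom B hB hBc hBV hB0
  obtain ⟨Λ, hΛ, hΛc, hΛV, hΛ0, hΛi⟩ := shell hV hf hcr hρ hρc hρV hρ0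
  obtain ⟨ρ', C₂, hC₂, hρ', hρc', hρV', hρ0', hΛρ⟩ := dom Λ hΛ hΛc hΛV hΛ0
  obtain ⟨Λ', hΛ', hΛc', hΛV', hΛ0', hΛi'⟩ := shell hV hf hcr hρ' hρc' hρV' hρ0'
  -- a bound of `f` on the support of `Λ`
  obtain ⟨M, hM⟩ : ∃ M : ℝ, ∀ x ∈ tsupport Λ, ‖f x‖ ≤ M :=
    hΛc.isCompact.exists_bound_of_continuousOn (hf.continuousOn.mono hΛV)
  set I' : ℝ := ∫ x, Λ' x with hI'
  have hI'0 : 0 ≤ I' := integral_nonneg hΛ0'
  refine ⟨C₁ * ((M ^ 2 + 1) * (C₂ * (2 * I'))), by positivity, fun s ε hs hs2 hε hε1 => ?_⟩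
  have e1 : ∫ x, B x * G f s ε x ≤ C₁ * ∫ x, ρ x * G f s ε x := by
    rw [← integral_const_mul]
    refine integral_mono (hint B hB hBc hBV s ε hε) ((hint ρ hρ.continuous hρc hρV s ε hε).const_mul _)
      fun x => ?_
    have := mul_le_mul_of_nonneg_right (hBρ x) (G_nonneg f s ε x)
    simpa [mul_assoc] using this
  have e2 := hΛi s ε (by linarith) hε
  have hΛf : Continuous (fun x => Λ x * ‖f x‖) := continuous_mul_of hV hΛ hΛV hf.continuousOn.norm
  have hΛfs : tsupport (fun x => Λ x * ‖f x‖) ⊆ tsupport Λ := tsupport_mul_subset_left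
  have hΛ'f : Continuous (fun x => Λ' x * ‖f x‖) :=
    continuous_mul_of hV hΛ' hΛV' hf.continuousOn.norm
  have hΛ'fs : tsupport (fun x => Λ' x * ‖f x‖) ⊆ tsupport Λ' := tsupport_mul_subset_left
  have e3 : ∫ x, (Λ x * ‖f x‖) * G f s ε x ≤ (M ^ 2 + 1) * ∫ x, Λ x * G f (1 / 2) ε x := by
    rw [← integral_const_mul]
    refine integral_mono (hint _ hΛf (hΛc.mul_right) (hΛfs.trans hΛV) s ε hε)
      ((hint Λ hΛ hΛc hΛV (1 / 2) ε hε).const_mul _) fun x => ?_
    by_cases hx : x ∈ tsupport Λ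
    · have hpos : (0 : ℝ) < ‖f x‖ ^ 2 + ε ^ 2 := by positivity
      have h1 : ‖f x‖ ≤ (‖f x‖ ^ 2 + ε ^ 2) ^ (1 / 2 : ℝ) := by
        rw [← Real.sqrt_eq_rpow]
        exact Real.le_sqrt_of_sq_le (by nlinarith [sq_nonneg ε])
      have h2 : (‖f x‖ ^ 2 + ε ^ 2) ^ s ≤ M ^ 2 + 1 := by
        have hb : ‖f x‖ ^ 2 + ε ^ 2 ≤ M ^ 2 + 1 := by
          have := hM x hx
          have := norm_nonneg (f x)
          nlinarith
        calc (‖f x‖ ^ 2 + ε ^ 2) ^ s ≤ (M ^ 2 + 1) ^ s :=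
              Real.rpow_le_rpow hpos.le hb hs.le
          _ ≤ (M ^ 2 + 1) ^ (1 : ℝ) :=
              Real.rpow_le_rpow_of_exponent_le (by nlinarith [sq_nonneg M]) (by linarith)
          _ = _ := Real.rpow_one _
      have h3 : ‖f x‖ * G f s ε x ≤ (M ^ 2 + 1) * G f (1 / 2) ε x := by
        have hG : G f s ε x = (‖f x‖ ^ 2 + ε ^ 2) ^ s * (‖f x‖ ^ 2 + ε ^ 2) ^ (-1 / 2 : ℝ) *
            (‖f x‖ ^ 2 + ε ^ 2) ^ (-1 / 2 : ℝ) := by
          unfold G
          rw [← Real.rpow_add hpos, ← Real.rpow_add hpos]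
          congr 1; ring
        have hG2 : G f (1 / 2) ε x = (‖f x‖ ^ 2 + ε ^ 2) ^ (-1 / 2 : ℝ) := by
          unfold G; congr 1; ring
        have hi : (‖f x‖ ^ 2 + ε ^ 2) ^ (1 / 2 : ℝ) * (‖f x‖ ^ 2 + ε ^ 2) ^ (-1 / 2 : ℝ) = 1 := by
          rw [← Real.rpow_add hpos]
          norm_num
        have hp1 : 0 ≤ (‖f x‖ ^ 2 + ε ^ 2) ^ (-1 / 2 : ℝ) := by positivity
        have hp2 : 0 ≤ (‖f x‖ ^ 2 + ε ^ 2) ^ s := by positivity
        rw [hG, hG2]
        calc ‖f x‖ * ((‖f x‖ ^ 2 + ε ^ 2) ^ s * (‖f x‖ ^ 2 + ε ^ 2) ^ (-1 / 2 : ℝ) *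
              (‖f x‖ ^ 2 + ε ^ 2) ^ (-1 / 2 : ℝ))
            ≤ (‖f x‖ ^ 2 + ε ^ 2) ^ (1 / 2 : ℝ) * ((‖f x‖ ^ 2 + ε ^ 2) ^ s *
              (‖f x‖ ^ 2 + ε ^ 2) ^ (-1 / 2 : ℝ) * (‖f x‖ ^ 2 + ε ^ 2) ^ (-1 / 2 : ℝ)) :=
              mul_le_mul_of_nonneg_right h1 (by positivity)
          _ = (‖f x‖ ^ 2 + ε ^ 2) ^ s * (‖f x‖ ^ 2 + ε ^ 2) ^ (-1 / 2 : ℝ) *
              ((‖f x‖ ^ 2 + ε ^ 2) ^ (1 / 2 : ℝ) * (‖f x‖ ^ 2 + ε ^ 2) ^ (-1 / 2 : ℝ)) := by ring
          _ = (‖f x‖ ^ 2 + ε ^ 2) ^ s * (‖f x‖ ^ 2 + ε ^ 2) ^ (-1 / 2 : ℝ) := by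
              rw [hi, mul_one]
          _ ≤ _ := mul_le_mul_of_nonneg_right h2 hp1
      have := mul_le_mul_of_nonneg_left h3 (hΛ0 x)
      calc Λ x * ‖f x‖ * G f s ε x = Λ x * (‖f x‖ * G f s ε x) := by ring
        _ ≤ Λ x * ((M ^ 2 + 1) * G f (1 / 2) ε x) := this
        _ = _ := by ring
    · simp [image_eq_zero_of_notMem_tsupport hx]
  have e4 : ∫ x, Λ x * G f (1 / 2) ε x ≤ C₂ * ∫ x, ρ' x * G f (1 / 2) ε x := by
    rw [← integral_const_mul]
    refine integral_mono (hint Λ hΛ hΛc hΛV _ ε hε)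
      ((hint ρ' hρ'.continuous hρc' hρV' _ ε hε).const_mul _) fun x => ?_
    have := mul_le_mul_of_nonneg_right (hΛρ x) (G_nonneg f (1 / 2) ε x)
    simpa [mul_assoc] using this
  have e5 := hΛi' (1 / 2) ε (by norm_num) hε
  have e6 : ∫ x, (Λ' x * ‖f x‖) * G f (1 / 2) ε x ≤ I' := by
    refine integral_mono (hint _ hΛ'f (hΛc'.mul_right) (hΛ'fs.trans hΛV') _ ε hε)
      (hΛ'.integrable_of_hasCompactSupport hΛc') fun x => ?_
    have hpos : (0 : ℝ) < ‖f x‖ ^ 2 + ε ^ 2 := by positivity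
    have h1 : ‖f x‖ ≤ (‖f x‖ ^ 2 + ε ^ 2) ^ (1 / 2 : ℝ) := by
      rw [← Real.sqrt_eq_rpow]
      exact Real.le_sqrt_of_sq_le (by nlinarith [sq_nonneg ε])
    have hi : (‖f x‖ ^ 2 + ε ^ 2) ^ (1 / 2 : ℝ) * G f (1 / 2) ε x = 1 := by
      unfold G
      rw [← Real.rpow_add hpos]
      norm_num
    have h2 : ‖f x‖ * G f (1 / 2) ε x ≤ 1 :=
      (mul_le_mul_of_nonneg_right h1 (G_nonneg f (1 / 2) ε x)).trans hi.le
    calc Λ' x * ‖f x‖ * G f (1 / 2) ε x = Λ' x * (‖f x‖ * G f (1 / 2) ε x) := by ring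
      _ ≤ Λ' x * 1 := mul_le_mul_of_nonneg_left h2 (hΛ0' x)
      _ = _ := mul_one _
  have e7 : ∫ x, ρ' x * G f (1 / 2) ε x ≤ 2 * I' := by linarith
  calc s * ∫ x, B x * G f s ε x ≤ s * (C₁ * ∫ x, ρ x * G f s ε x) :=
        mul_le_mul_of_nonneg_left e1 hs.le
    _ = C₁ * (s * ∫ x, ρ x * G f s ε x) := by ring
    _ ≤ C₁ * ∫ x, (Λ x * ‖f x‖) * G f s ε x := mul_le_mul_of_nonneg_left e2 hC₁
    _ ≤ C₁ * ((M ^ 2 + 1) * ∫ x, Λ x * G f (1 / 2) ε x) := mul_le_mul_of_nonneg_left e3 hC₁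
    _ ≤ C₁ * ((M ^ 2 + 1) * (C₂ * ∫ x, ρ' x * G f (1 / 2) ε x)) :=
        mul_le_mul_of_nonneg_left (mul_le_mul_of_nonneg_left e4 (by positivity)) hC₁
    _ ≤ C₁ * ((M ^ 2 + 1) * (C₂ * (2 * I'))) :=
        mul_le_mul_of_nonneg_left (mul_le_mul_of_nonneg_left
          (mul_le_mul_of_nonneg_left e7 hC₂) (by positivity)) hC₁

theorem continuous_mulC {k g : En n → ℂ} {U : Set (En n)} (hU : IsOpen U) (hk : Continuous k)
    (hkU : tsupport k ⊆ U) (hg : ContinuousOn g U) : Continuous (fun x => k x * g x) := by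
  rw [continuous_iff_continuousAt]
  intro x
  by_cases hx : x ∈ tsupport k
  · exact hk.continuousAt.mul (hg.continuousAt (hU.mem_nhds (hkU hx)))
  · have h0 : k =ᶠ[𝓝 x] 0 := notMem_tsupport_iff_eventuallyEq.1 hx
    have h1 : (fun x => k x * g x) =ᶠ[𝓝 x] fun _ => 0 := by
      filter_upwards [h0] with y hy
      simp [hy]
    exact continuousAt_const.congr h1.symm

/-- K5': the tube bound -/
theorem tube {f : En n → ℂ} {r : ℝ} (hr : 0 < r) (hf : AnalyticOnNhd ℂ f (Metric.ball 0 r))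
    (hcr : ∀ x ∈ Metric.ball (0 : En n) r, x ≠ 0 →
      ∃ j : Fin n, fderiv ℂ f x (Pi.single j 1) ≠ 0)
    {a : Fin n → En n → ℂ} (ha : ∀ j, AnalyticOnNhd ℂ (a j) (Metric.ball 0 r))
    (hχ : ∀ x ∈ Metric.ball (0 : En n) r, ∑ j, a j x * fderiv ℂ f x (Pi.single j 1) = f x)
    {c : ℝ} (hc : 0 < c)
    (hdiv : ∀ x ∈ Metric.ball (0 : En n) r,
      1 + c ≤ (∑ j, fderiv ℂ (a j) x (Pi.single j 1)).re) :
    ∃ C : ℝ, 0 ≤ C ∧ ∀ s ε : ℝ, 0 < s → s ≤ 1 / 2 → 0 < ε → ε ≤ 1 →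
      ∫⁻ x in Metric.ball (0 : En n) (r / 2), ENNReal.ofReal (s * G f s ε x) ≤
        ENNReal.ofReal C := by
  set U : Set (En n) := Metric.ball 0 r with hU
  have hUo : IsOpen U := Metric.isOpen_ball
  obtain ⟨ψ, hψ, hψc, hψU, hψ1, hψ01⟩ := cutoff (isCompact_closedBall (0 : En n) (r / 2)) hUo
    (Metric.closedBall_subset_ball (by linarith))
  have hψC : ContDiff ℝ 1 (fun x => (ψ x : ℂ)) :=
    Complex.ofRealCLM.contDiff.comp (hψ.of_le (by exact_mod_cast le_top))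
  have hsuppC : tsupport (fun x => (ψ x : ℂ)) ⊆ tsupport ψ :=
    closure_mono fun x hx => by
      intro h; exact hx (by simp [h])
  set p : Fin n → En n → ℂ := fun j x => P (fderiv ℝ (fun x => (ψ x : ℂ)) x) (Pi.single j 1)
    with hp
  have hpc : ∀ j, Continuous (p j) := fun j => P_cont hψC _
  -- the support of `p`
  set S : Set (En n) := tsupport ψ \ Metric.ball 0 (r / 2) with hS
  have hSc : IsClosed S := (isClosed_tsupport _).sdiff Metric.isOpen_ball
  have hps : ∀ j, Function.support (p j) ⊆ S := by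
    intro j x hx
    refine ⟨?_, ?_⟩
    · by_contra h
      apply hx
      have h0 : (fun x => (ψ x : ℂ)) =ᶠ[𝓝 x] 0 :=
        notMem_tsupport_iff_eventuallyEq.1 fun h' => h (hsuppC h')
      simp only [hp]
      rw [h0.fderiv_eq]
      simp [P]
    · intro h
      apply hx
      have h0 : (fun x => (ψ x : ℂ)) =ᶠ[𝓝 x] fun _ => 1 := by
        filter_upwards [Metric.isOpen_ball.mem_nhds h] with y hy
        rw [hψ1 y (Metric.ball_subset_closedBall hy)]
        simp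
      simp only [hp]
      rw [h0.fderiv_eq]
      simp [P]
  have hpts : ∀ j, tsupport (p j) ⊆ S := fun j => closure_minimal (hps j) hSc
  set W : En n → ℂ := fun x => ∑ j, p j x * a j x with hW
  have hWc : Continuous W := continuous_finsetSum _ fun j _ =>
    continuous_mulC hUo (hpc j) ((hpts j).trans (sdiff_subset.trans hψU)) (ha j).continuousOn
  have hWs : tsupport (fun x => ‖W x‖) ⊆ S := by
    refine closure_minimal (fun x hx => ?_) hSc
    by_contra h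
    apply hx
    have : ∀ j, p j x = 0 := fun j => by
      by_contra h'; exact h (hps j h')
    simp [hW, this]
  have hBc : HasCompactSupport (fun x => ‖W x‖) :=
    hψc.of_isClosed_subset (isClosed_tsupport _) (hWs.trans sdiff_subset)
  -- the punctured ball
  set V : Set (En n) := U \ {0} with hV
  have hVo : IsOpen V := hUo.sdiff isClosed_singleton
  have hSV : S ⊆ V := fun x hx => ⟨hψU hx.1, fun h => hx.2 (by
    rw [mem_singleton_iff.1 h]; exact Metric.mem_ball_self (by linarith))⟩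
  obtain ⟨C, hC0, hC⟩ := shell_bound hVo (hf.mono sdiff_subset)
    (fun x hx => hcr x hx.1 hx.2) hWc.norm hBc (hWs.trans hSV) (fun x => norm_nonneg _)
  refine ⟨C / c, by positivity, fun s ε hs hs2 hε hε1 => ?_⟩
  -- the main inequality
  set k : Fin n → En n → ℂ := fun j x => (ψ x : ℂ) * a j x with hk
  have har : ∀ j, ∀ x ∈ U, ContDiffAt ℝ 1 (a j) x := fun j x hx =>
    ((ha j x hx).contDiffAt (n := 1)).restrict_scalars ℝ
  have hkC : ∀ j, ContDiff ℝ 1 (k j) := fun j => contDiff_mul hψC fun x hx =>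
    har j x (hψU (hsuppC hx))
  have hks : ∀ j, tsupport (k j) ⊆ tsupport ψ := fun j => tsupport_mul_subset_left.trans hsuppC
  have hmain := gen hUo hf (k := k) hkC (fun j => (hks j).trans hψU)
    (fun j => hψc.of_isClosed_subset (isClosed_tsupport _) (hks j))
    (θ := ψ) (B := fun x => ‖W x‖) hψ.continuous (fun x => (hψ01 x).1) hψc hψU
    hWc.norm hBc (hWs.trans (sdiff_subset.trans hψU))
    (fun x hx => ?_) (c := c) (fun x hx => ?_) (s := s) (ε := ε) (by linarith) hε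
  · have hI0 : 0 ≤ ∫ x, ψ x * G f s ε x :=
      integral_nonneg fun x => mul_nonneg (hψ01 x).1 (G_nonneg _ _ _ _)
    have h1 := hC s ε hs hs2 hε hε1
    have h2 : c * (s * ∫ x, ψ x * G f s ε x) ≤ C := by
      have h3 : c * ∫ x, ψ x * G f s ε x ≤ ∫ x, ‖W x‖ * G f s ε x := by
        have : 0 ≤ s * ∫ x, ψ x * G f s ε x := mul_nonneg hs.le hI0
        linarith [hmain, add_mul c s (∫ x, ψ x * G f s ε x)]
      have h4 := mul_le_mul_of_nonneg_left h3 hs.le
      linarith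
    have h5 : s * ∫ x, ψ x * G f s ε x ≤ C / c := by
      rw [le_div_iff₀ hc]; linarith
    have hψi : Integrable (fun x => ψ x * G f s ε x) :=
      (continuous_mul_of hUo hψ.continuous hψU
        (continuousOn_G hf s hε)).integrable_of_hasCompactSupport hψc.mul_right
    calc ∫⁻ x in Metric.ball (0 : En n) (r / 2), ENNReal.ofReal (s * G f s ε x)
        ≤ ∫⁻ x in Metric.ball (0 : En n) (r / 2),
            ENNReal.ofReal (s * (ψ x * G f s ε x)) := by
          refine lintegral_mono_ae ?_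
          filter_upwards [ae_restrict_mem Metric.isOpen_ball.measurableSet] with x hx
          rw [hψ1 x (Metric.ball_subset_closedBall hx), one_mul]
      _ ≤ ∫⁻ x, ENNReal.ofReal (s * (ψ x * G f s ε x)) := setLIntegral_le_lintegral _ _
      _ = ENNReal.ofReal (∫ x, s * (ψ x * G f s ε x)) := by
          rw [ofReal_integral_eq_lintegral_ofReal (hψi.const_mul s)]
          exact Eventually.of_forall fun x =>
            mul_nonneg hs.le (mul_nonneg (hψ01 x).1 (G_nonneg _ _ _ _))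
      _ ≤ ENNReal.ofReal (C / c) := by
          rw [integral_const_mul]
          exact ENNReal.ofReal_le_ofReal h5
  · have : ∀ j, k j x * fderiv ℂ f x (Pi.single j 1) =
        ψ x * (a j x * fderiv ℂ f x (Pi.single j 1)) := by
      intro j; simp only [hk]; ring
    rw [Finset.sum_congr rfl fun j _ => this j, ← Finset.mul_sum, hχ x hx]
  · have hj : ∀ j, P (fderiv ℝ (k j) x) (Pi.single j 1) =
        (ψ x : ℂ) * fderiv ℂ (a j) x (Pi.single j 1) + p j x * a j x := by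
      intro j
      have hd : HasFDerivAt (fun x => (ψ x : ℂ)) (fderiv ℝ (fun x => (ψ x : ℂ)) x) x :=
        (hψC.differentiable one_ne_zero x).hasFDerivAt
      have hf' : HasFDerivAt (a j) ((fderiv ℂ (a j) x).restrictScalars ℝ) x :=
        (ha j x hx).differentiableAt.hasFDerivAt.restrictScalars ℝ
      rw [show fderiv ℝ (k j) x = _ from (hd.mul hf').fderiv, P_add, P_smul, P_smul, P_restrict]
      simp only [hp]; ring
    rw [Finset.sum_congr rfl fun j _ => hj j, Finset.sum_add_distrib, ← Finset.mul_sum,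
      Complex.add_re, Complex.re_ofReal_mul]
    have h3 : -‖W x‖ ≤ (W x).re := by
      have := Complex.abs_re_le_norm (W x)
      have := neg_abs_le (W x).re
      linarith
    have h4 : (∑ j, p j x * a j x).re = (W x).re := rfl
    have h5 := mul_le_mul_of_nonneg_left (hdiv x hx) (hψ01 x).1
    rw [h4]
    linarith

end Crest.Agent.R257.KlB_540
end
end

-- ▼ part R257/KlC_540
section

/-!
R257 / KlC_540: K5' of the KLT leaf, part 3 (Fatou on the discs in the special direction).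
`sheet_le`: a bound of `s ∫_{ball} (|f|²+ε²)^(s-1)` uniform in `s, ε` bounds the sheet integral of
`|η|²`.
-/

set_option autoImplicit false

open Topology Filter MeasureTheory Set
open scoped ENNReal ContDiff Real

noncomputable section

namespace Crest.Agent.R257.KlC_540

open Crest.Agent.R257.KlA_540

theorem disc_int {A δ ε s : ℝ} (hA : 0 < A) (hδ : 0 < δ) (hε : 0 < ε) (hs : 0 < s) :
    ∫⁻ w in Metric.ball (0 : ℂ) δ, ENNReal.ofReal (s * (A ^ 2 * ‖w‖ ^ 2 + ε ^ 2) ^ (s - 1)) =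
      ENNReal.ofReal (π / A ^ 2 * ((A ^ 2 * δ ^ 2 + ε ^ 2) ^ s - (ε ^ 2) ^ s)) := by
  set g : ℝ → ℝ := fun y => s * (A ^ 2 * y ^ 2 + ε ^ 2) ^ (s - 1) with hg
  have hpos : ∀ y : ℝ, 0 < A ^ 2 * y ^ 2 + ε ^ 2 := fun y => by positivity
  have hgc : Continuous g := continuous_const.mul
    (Continuous.rpow_const (by fun_prop) fun y => Or.inl (hpos y).ne')
  have hg0 : ∀ y, 0 ≤ g y := fun y => by have := hpos y; simp only [hg]; positivity
  have hint : IntegrableOn (fun w : ℂ => g ‖w‖) (Metric.ball (0 : ℂ) δ) := by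
    refine IntegrableOn.mono_set ?_ Metric.ball_subset_closedBall
    exact (hgc.comp continuous_norm).continuousOn.integrableOn_compact
      (isCompact_closedBall (0 : ℂ) δ)
  have h1 : ∫⁻ w in Metric.ball (0 : ℂ) δ, ENNReal.ofReal (g ‖w‖) =
      ENNReal.ofReal (∫ w in Metric.ball (0 : ℂ) δ, g ‖w‖) :=
    (ofReal_integral_eq_lintegral_ofReal hint (Eventually.of_forall fun w => hg0 _)).symm
  rw [show (fun w : ℂ => ENNReal.ofReal (s * (A ^ 2 * ‖w‖ ^ 2 + ε ^ 2) ^ (s - 1))) =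
    fun w : ℂ => ENNReal.ofReal (g ‖w‖) from rfl, h1]
  congr 1
  have h2 : ∫ w in Metric.ball (0 : ℂ) δ, g ‖w‖ = ∫ w : ℂ, (Iio δ).indicator g ‖w‖ := by
    rw [← integral_indicator Metric.isOpen_ball.measurableSet]
    congr 1
    funext w
    by_cases hw : ‖w‖ < δ
    · rw [indicator_of_mem (by simpa using hw), indicator_of_mem (by simpa using hw)]
    · rw [indicator_of_notMem (by simpa using hw), indicator_of_notMem (by simpa using hw)]
  have h3 := integral_fun_norm_addHaar (volume : Measure ℂ) ((Iio δ).indicator g)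
  rw [h2, h3]
  have h4 : (volume : Measure ℂ).real (Metric.ball 0 1) = π := by
    rw [Measure.real, Complex.volume_ball]
    simp
  have h5 : ∫ y in Ioi (0 : ℝ), y ^ (Module.finrank ℝ ℂ - 1) • (Iio δ).indicator g y =
      ∫ y in (0 : ℝ)..δ, y * g y := by
    rw [intervalIntegral.integral_of_le hδ.le, integral_Ioc_eq_integral_Ioo,
      ← integral_indicator measurableSet_Ioi, ← integral_indicator measurableSet_Ioo]
    congr 1
    funext y
    simp only [Complex.finrank_real_complex, indicator, mem_Ioi, mem_Iio, mem_Ioo, smul_eq_mul]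
    by_cases h0 : 0 < y <;> by_cases h1 : y < δ <;> simp [h0, h1]
  have h6 : ∫ y in (0 : ℝ)..δ, y * g y =
      (A ^ 2 * δ ^ 2 + ε ^ 2) ^ s / (2 * A ^ 2) - (A ^ 2 * 0 ^ 2 + ε ^ 2) ^ s / (2 * A ^ 2) := by
    refine intervalIntegral.integral_eq_sub_of_hasDerivAt
      (f := fun y => (A ^ 2 * y ^ 2 + ε ^ 2) ^ s / (2 * A ^ 2)) (fun y _ => ?_)
      ((continuous_id.mul hgc).intervalIntegrable _ _)
    have h7 : HasDerivAt (fun y : ℝ => A ^ 2 * y ^ 2 + ε ^ 2) (A ^ 2 * (2 * y)) y := by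
      simpa using ((hasDerivAt_pow 2 y).const_mul (A ^ 2)).add_const (ε ^ 2)
    have h8 := (h7.rpow_const (p := s) (Or.inl (hpos y).ne')).div_const (2 * A ^ 2)
    refine h8.congr_deriv ?_
    change _ = y * (s * (A ^ 2 * y ^ 2 + ε ^ 2) ^ (s - 1))
    field_simp
  rw [h5, h6, h4, Complex.finrank_real_complex]
  simp only [nsmul_eq_mul, smul_eq_mul]
  field_simp
  norm_num

/-- the sequences `s_m → 0`, `ε_m → 0` very fast -/
def sm (m : ℕ) : ℝ := 1 / ((m : ℝ) + 2)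

def em (m : ℕ) : ℝ := Real.exp (-((m : ℝ) + 2) ^ 2)

theorem sm_pos (m : ℕ) : 0 < sm m := by unfold sm; positivity

theorem sm_le (m : ℕ) : sm m ≤ 1 / 2 := by
  unfold sm
  apply one_div_le_one_div_of_le (by norm_num)
  have : (0 : ℝ) ≤ m := Nat.cast_nonneg m
  linarith

theorem em_pos (m : ℕ) : 0 < em m := Real.exp_pos _

theorem em_le (m : ℕ) : em m ≤ 1 := Real.exp_le_one_iff.2 (by nlinarith [sq_nonneg ((m : ℝ) + 2)])

theorem tendsto_sm : Tendsto sm atTop (𝓝 0) := by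
  have h : Tendsto (fun m : ℕ => (m : ℝ) + 2) atTop atTop :=
    tendsto_atTop_add_const_right _ _ tendsto_natCast_atTop_atTop
  exact tendsto_const_nhds.div_atTop h

theorem em_pow (m : ℕ) : (em m ^ 2) ^ (sm m) = Real.exp (-2 * ((m : ℝ) + 2)) := by
  have h0 : (0 : ℝ) ≤ m := Nat.cast_nonneg m
  unfold em sm
  rw [← Real.exp_nat_mul, ← Real.exp_mul]
  congr 1
  push_cast
  field_simp

theorem tendsto_em_pow : Tendsto (fun m => (em m ^ 2) ^ (sm m)) atTop (𝓝 0) := by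
  simp only [em_pow]
  have h : Tendsto (fun m : ℕ => (m : ℝ) + 2) atTop atTop :=
    tendsto_atTop_add_const_right _ _ tendsto_natCast_atTop_atTop
  exact Real.tendsto_exp_atBot.comp (h.const_mul_atTop_of_neg (by norm_num))

/-- a lower bound for the disc integrals -/
def lb (A δ : ℝ) (m : ℕ) : ℝ := π / A ^ 2 * ((A ^ 2 * δ ^ 2) ^ (sm m) - (em m ^ 2) ^ (sm m))

theorem tendsto_lb {A δ : ℝ} (hA : 0 < A) (hδ : 0 < δ) :
    Tendsto (lb A δ) atTop (𝓝 (π / A ^ 2)) := by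
  have h1 : Tendsto (fun m => (A ^ 2 * δ ^ 2) ^ (sm m)) atTop (𝓝 ((A ^ 2 * δ ^ 2) ^ (0 : ℝ))) :=
    (Real.continuousAt_const_rpow (by positivity : A ^ 2 * δ ^ 2 ≠ 0)).tendsto.comp tendsto_sm
  rw [Real.rpow_zero] at h1
  have h2 := (h1.sub tendsto_em_pow).const_mul (π / A ^ 2)
  rw [sub_zero, mul_one] at h2
  exact h2

theorem lb_le {A δ : ℝ} (hA : 0 < A) (hδ : 0 < δ) (m : ℕ) :
    ENNReal.ofReal (lb A δ m) ≤
      ∫⁻ w in Metric.ball (0 : ℂ) δ,
        ENNReal.ofReal (sm m * (A ^ 2 * ‖w‖ ^ 2 + em m ^ 2) ^ (sm m - 1)) := by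
  rw [disc_int hA hδ (em_pos m) (sm_pos m)]
  apply ENNReal.ofReal_le_ofReal
  unfold lb
  have h1 : (A ^ 2 * δ ^ 2) ^ (sm m) ≤ (A ^ 2 * δ ^ 2 + em m ^ 2) ^ (sm m) :=
    Real.rpow_le_rpow (by positivity) (by nlinarith [sq_nonneg (em m)]) (sm_pos m).le
  exact mul_le_mul_of_nonneg_left (by linarith) (by positivity)

/-- near a simple zero -/
theorem near_zero {h : ℂ → ℂ} {ξ d : ℂ} (hd : HasDerivAt h d ξ) (h0 : h ξ = 0) {A : ℝ}
    (hA : ‖d‖ < A) {D : Set ℂ} (hD : D ∈ 𝓝 ξ) {δ₀ : ℝ} (hδ₀ : 0 < δ₀) :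
    ∃ δ : ℝ, 0 < δ ∧ δ ≤ δ₀ ∧ Metric.ball ξ δ ⊆ D ∧ ∀ m : ℕ, ENNReal.ofReal (lb A δ m) ≤
      ∫⁻ z in Metric.ball ξ δ,
        ENNReal.ofReal (sm m * (‖h z‖ ^ 2 + em m ^ 2) ^ (sm m - 1)) := by
  have hA0 : 0 < A := (norm_nonneg _).trans_lt hA
  have h1 : ∀ᶠ z in 𝓝 ξ, ‖h z‖ ≤ A * ‖z - ξ‖ := by
    have h2 := hd.isLittleO.def (c := A - ‖d‖) (by linarith)
    filter_upwards [h2] with z hz
    rw [h0, sub_zero, smul_eq_mul] at hz
    calc ‖h z‖ = ‖(h z - (z - ξ) * d) + (z - ξ) * d‖ := by ring_nf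
      _ ≤ ‖h z - (z - ξ) * d‖ + ‖(z - ξ) * d‖ := norm_add_le _ _
      _ ≤ (A - ‖d‖) * ‖z - ξ‖ + ‖z - ξ‖ * ‖d‖ := by
          rw [norm_mul]; exact add_le_add hz le_rfl
      _ = A * ‖z - ξ‖ := by ring
  obtain ⟨δ₁, hδ₁, hball⟩ := Metric.eventually_nhds_iff_ball.1 (h1.and hD)
  refine ⟨min δ₀ δ₁, lt_min hδ₀ hδ₁, min_le_left _ _, fun z hz => ?_, fun m => ?_⟩
  · exact (hball z (Metric.ball_subset_ball (min_le_right _ _) hz)).2
  · set δ := min δ₀ δ₁ with hδ
    have hδ0 : 0 < δ := lt_min hδ₀ hδ₁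
    refine (lb_le hA0 hδ0 m).trans ?_
    have e1 : ∫⁻ w in Metric.ball (0 : ℂ) δ,
        ENNReal.ofReal (sm m * (A ^ 2 * ‖w‖ ^ 2 + em m ^ 2) ^ (sm m - 1)) =
        ∫⁻ z in Metric.ball ξ δ,
        ENNReal.ofReal (sm m * (A ^ 2 * ‖z - ξ‖ ^ 2 + em m ^ 2) ^ (sm m - 1)) := by
      rw [← lintegral_indicator Metric.isOpen_ball.measurableSet,
        ← lintegral_indicator Metric.isOpen_ball.measurableSet,
        ← lintegral_sub_right_eq_self _ ξ]
      congr 1
      funext z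
      by_cases hz : z ∈ Metric.ball ξ δ
      · rw [indicator_of_mem hz, indicator_of_mem]
        simpa [dist_eq_norm] using hz
      · rw [indicator_of_notMem hz, indicator_of_notMem]
        simpa [dist_eq_norm] using hz
    rw [e1]
    refine lintegral_mono_ae ?_
    filter_upwards [ae_restrict_mem Metric.isOpen_ball.measurableSet] with z hz
    apply ENNReal.ofReal_le_ofReal
    refine mul_le_mul_of_nonneg_left ?_ (sm_pos m).le
    have h3 := (hball z (Metric.ball_subset_ball (min_le_right _ _) hz)).1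
    have hem := em_pos m
    have h4 : ‖h z‖ ^ 2 + em m ^ 2 ≤ A ^ 2 * ‖z - ξ‖ ^ 2 + em m ^ 2 := by
      have : ‖h z‖ ^ 2 ≤ (A * ‖z - ξ‖) ^ 2 := pow_le_pow_left₀ (norm_nonneg _) h3 2
      nlinarith
    exact Real.rpow_le_rpow_of_nonpos (by positivity) h4 (by have := sm_le m; linarith)

/-- the one-variable lower bound -/
theorem sum_le_liminf {h : ℂ → ℂ} {d : ℂ → ℂ} {D : Set ℂ} (hD : IsOpen D) (T : Finset ℂ)
    (hT : ∀ ξ ∈ T, ξ ∈ D ∧ HasDerivAt h (d ξ) ξ ∧ h ξ = 0 ∧ d ξ ≠ 0) :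
    ∑ ξ ∈ T, ENNReal.ofReal (π / ‖d ξ‖ ^ 2) ≤
      liminf (fun m => ∫⁻ z in D, ENNReal.ofReal (sm m * (‖h z‖ ^ 2 + em m ^ 2) ^ (sm m - 1)))
        atTop := by
  set L : ℝ≥0∞ := liminf (fun m => ∫⁻ z in D,
    ENNReal.ofReal (sm m * (‖h z‖ ^ 2 + em m ^ 2) ^ (sm m - 1))) atTop with hL
  -- separation of the points
  obtain ⟨δ₀, hδ₀, hsep⟩ : ∃ δ₀ : ℝ, 0 < δ₀ ∧ ∀ ξ ∈ T, ∀ ζ ∈ T, ξ ≠ ζ → 2 * δ₀ ≤ dist ξ ζ := by
    classical
    have : ∀ T : Finset ℂ, ∃ δ₀ : ℝ, 0 < δ₀ ∧ ∀ ξ ∈ T, ∀ ζ ∈ T, ξ ≠ ζ → 2 * δ₀ ≤ dist ξ ζ := by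
      intro T
      by_cases hne : (T.offDiag).Nonempty
      · obtain ⟨p, hp, hmin⟩ := T.offDiag.exists_min_image (fun p => dist p.1 p.2) hne
        rw [Finset.mem_offDiag] at hp
        have hpd : 0 < dist p.1 p.2 := dist_pos.2 hp.2.2
        refine ⟨dist p.1 p.2 / 2, by linarith, fun ξ hξ ζ hζ hne => ?_⟩
        have := hmin (ξ, ζ) (Finset.mem_offDiag.2 ⟨hξ, hζ, hne⟩)
        simp only at this
        linarith
      · refine ⟨1, one_pos, fun ξ hξ ζ hζ hneq => ?_⟩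
        exact absurd ⟨(ξ, ζ), Finset.mem_offDiag.2 ⟨hξ, hζ, hneq⟩⟩ hne
    exact this T
  -- for each `η > 0`
  have key : ∀ η : ℝ, 0 < η → ∑ ξ ∈ T, ENNReal.ofReal (π / (‖d ξ‖ * (1 + η)) ^ 2) ≤ L := by
    intro η hη
    have hch : ∀ ξ : ℂ, ξ ∈ T → ∃ δ : ℝ, 0 < δ ∧ δ ≤ δ₀ ∧ Metric.ball ξ δ ⊆ D ∧
        ∀ m : ℕ, ENNReal.ofReal (lb (‖d ξ‖ * (1 + η)) δ m) ≤ ∫⁻ z in Metric.ball ξ δ,
          ENNReal.ofReal (sm m * (‖h z‖ ^ 2 + em m ^ 2) ^ (sm m - 1)) := by
      intro ξ hξ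
      obtain ⟨h1, h2, h3, h4⟩ := hT ξ hξ
      have : 0 < ‖d ξ‖ := norm_pos_iff.2 h4
      exact near_zero h2 h3 (by nlinarith) (hD.mem_nhds h1) hδ₀
    choose! δ hδ0 hδle hδD hδi using hch
    have hlim : Tendsto (fun m => ∑ ξ ∈ T, ENNReal.ofReal (lb (‖d ξ‖ * (1 + η)) (δ ξ) m)) atTop
        (𝓝 (∑ ξ ∈ T, ENNReal.ofReal (π / (‖d ξ‖ * (1 + η)) ^ 2))) := by
      refine tendsto_finsetSum _ fun ξ hξ => ?_
      have : 0 < ‖d ξ‖ := norm_pos_iff.2 (hT ξ hξ).2.2.2
      exact ENNReal.tendsto_ofReal (tendsto_lb (by positivity) (hδ0 ξ hξ))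
    have hdisj : (T : Set ℂ).PairwiseDisjoint (fun ξ => Metric.ball ξ (δ ξ)) := by
      intro ξ hξ ζ hζ hne
      refine Metric.ball_disjoint_ball ?_
      have := hsep ξ hξ ζ hζ hne
      have h1 := hδle ξ hξ
      have h2 := hδle ζ hζ
      linarith
    rw [← hlim.liminf_eq]
    refine liminf_le_liminf (Eventually.of_forall fun m => ?_)
    calc ∑ ξ ∈ T, ENNReal.ofReal (lb (‖d ξ‖ * (1 + η)) (δ ξ) m)
        ≤ ∑ ξ ∈ T, ∫⁻ z in Metric.ball ξ (δ ξ),
            ENNReal.ofReal (sm m * (‖h z‖ ^ 2 + em m ^ 2) ^ (sm m - 1)) :=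
          Finset.sum_le_sum fun ξ hξ => hδi ξ hξ m
      _ = ∫⁻ z in ⋃ ξ ∈ T, Metric.ball ξ (δ ξ),
            ENNReal.ofReal (sm m * (‖h z‖ ^ 2 + em m ^ 2) ^ (sm m - 1)) :=
          (lintegral_biUnion_finset hdisj (fun ξ _ => Metric.isOpen_ball.measurableSet) _).symm
      _ ≤ _ := lintegral_mono_set (iUnion₂_subset fun ξ hξ => hδD ξ hξ)
  -- let `η → 0`
  have hlim2 : Tendsto (fun k : ℕ => ∑ ξ ∈ T,
      ENNReal.ofReal (π / (‖d ξ‖ * (1 + 1 / ((k : ℝ) + 1))) ^ 2)) atTop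
      (𝓝 (∑ ξ ∈ T, ENNReal.ofReal (π / ‖d ξ‖ ^ 2))) := by
    refine tendsto_finsetSum _ fun ξ hξ => ?_
    have hdp : 0 < ‖d ξ‖ := norm_pos_iff.2 (hT ξ hξ).2.2.2
    refine ENNReal.tendsto_ofReal ?_
    have h1 : Tendsto (fun k : ℕ => ‖d ξ‖ * (1 + 1 / ((k : ℝ) + 1))) atTop
        (𝓝 (‖d ξ‖ * (1 + 0))) :=
      (tendsto_const_nhds.add tendsto_one_div_add_atTop_nhds_zero_nat).const_mul _
    have h2 := (h1.pow 2)
    rw [add_zero, mul_one] at h2
    exact tendsto_const_nhds.div h2 (by positivity)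
  exact le_of_tendsto' hlim2 fun k => key _ (by positivity)

variable {n : ℕ}

theorem ball_eq {r : ℝ} (hr : 0 < r) (z : ℂ) (x' : Fin n → ℂ) :
    (Fin.cons z x' : Fin (n + 1) → ℂ) ∈ Metric.ball (0 : Fin (n + 1) → ℂ) r ↔
      ‖z‖ < r ∧ ∀ i, ‖x' i‖ < r := by
  rw [mem_ball_zero_iff, pi_norm_lt_iff hr, Fin.forall_fin_succ]
  simp

theorem hasDerivAt_cons (z : ℂ) (x' : Fin n → ℂ) :
    HasDerivAt (fun z : ℂ => (Fin.cons z x' : Fin (n + 1) → ℂ)) (Pi.single 0 1) z := by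
  rw [hasDerivAt_pi]
  intro i
  refine Fin.cases ?_ (fun j => ?_) i
  · change HasDerivAt (fun z : ℂ => z) ((Pi.single 0 1 : Fin (n + 1) → ℂ) 0) z
    rw [Pi.single_eq_same]
    exact hasDerivAt_id' z
  · change HasDerivAt (fun _ : ℂ => x' j) ((Pi.single 0 1 : Fin (n + 1) → ℂ) j.succ) z
    rw [Pi.single_eq_of_ne (Fin.succ_ne_zero j)]
    exact hasDerivAt_const z _

theorem piSucc_symm (z : ℂ) (x' : Fin n → ℂ) :
    (MeasurableEquiv.piFinSuccAbove (fun _ : Fin (n + 1) => ℂ) 0).symm (z, x') =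
      (Fin.cons z x' : Fin (n + 1) → ℂ) := by
  funext i
  refine Fin.cases ?_ (fun j => ?_) i
  · rfl
  · rfl

/-- the sheet bound -/
theorem sheet_le {f : (Fin (n + 1) → ℂ) → ℂ} {r : ℝ} (hr : 0 < r)
    (hf : AnalyticOnNhd ℂ f (Metric.ball 0 r)) {C : ℝ}
    (hC : ∀ s ε : ℝ, 0 < s → s ≤ 1 / 2 → 0 < ε → ε ≤ 1 →
      ∫⁻ x in Metric.ball (0 : Fin (n + 1) → ℂ) r, ENNReal.ofReal (s * G f s ε x) ≤
        ENNReal.ofReal C) :
    ∫⁻ x' : Fin n → ℂ in {x' | ∀ i, ‖x' i‖ < r},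
      ∑' z : {z : ℂ // ‖z‖ < r ∧ f (Fin.cons z x') = 0 ∧
        fderiv ℂ f (Fin.cons z x') (Pi.single 0 1) ≠ 0},
      ENNReal.ofReal (π / ‖fderiv ℂ f (Fin.cons z.1 x') (Pi.single 0 1)‖ ^ 2) ≤
        ENNReal.ofReal C := by
  classical
  set F : ℕ → (Fin (n + 1) → ℂ) → ℝ≥0∞ := fun m => (Metric.ball 0 r).indicator fun x =>
    ENNReal.ofReal (sm m * G f (sm m) (em m) x) with hF
  have hFm : ∀ m, Measurable (F m) := by
    intro m
    have h1 : ContinuousOn (fun x => ENNReal.ofReal (sm m * G f (sm m) (em m) x))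
        (Metric.ball 0 r) :=
      ENNReal.continuous_ofReal.comp_continuousOn
        (continuousOn_const.mul (continuousOn_G hf _ (em_pos m)))
    have h2 := h1.measurable_piecewise (g := 0) continuousOn_const
      Metric.isOpen_ball.measurableSet
    rwa [Set.piecewise_eq_indicator] at h2
  have hFc : ∀ m, Measurable (fun p : ℂ × (Fin n → ℂ) => F m (Fin.cons p.1 p.2)) := by
    intro m
    have h1 := (hFm m).comp
      (MeasurableEquiv.piFinSuccAbove (fun _ : Fin (n + 1) => ℂ) 0).symm.measurable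
    have h2 : (F m ∘ (MeasurableEquiv.piFinSuccAbove (fun _ : Fin (n + 1) => ℂ) 0).symm) =
        fun p : ℂ × (Fin n → ℂ) => F m (Fin.cons p.1 p.2) := by
      funext p
      exact congrArg (F m) (piSucc_symm p.1 p.2)
    rw [← h2]
    exact h1
  have hFub : ∀ m, ∫⁻ x' : Fin n → ℂ, ∫⁻ z : ℂ, F m (Fin.cons z x') ≤ ENNReal.ofReal C := by
    intro m
    have h1 := hC (sm m) (em m) (sm_pos m) (sm_le m) (em_pos m) (em_le m)
    rw [← lintegral_indicator Metric.isOpen_ball.measurableSet] at h1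
    refine le_trans (le_of_eq ?_) h1
    have mp := (volume_preserving_piFinSuccAbove (fun _ : Fin (n + 1) => ℂ) 0).symm
    change _ = ∫⁻ x, F m x
    rw [← mp.lintegral_comp_emb (MeasurableEquiv.measurableEmbedding _)]
    have h2 : ∀ p : ℂ × (Fin n → ℂ),
        F m ((MeasurableEquiv.piFinSuccAbove (fun _ : Fin (n + 1) => ℂ) 0).symm p) =
        F m (Fin.cons p.1 p.2) := fun p => congrArg (F m) (piSucc_symm p.1 p.2)
    have h3 : (∫⁻ p : ℂ × (Fin n → ℂ),
        F m ((MeasurableEquiv.piFinSuccAbove (fun _ : Fin (n + 1) => ℂ) 0).symm p)) =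
        ∫⁻ p : ℂ × (Fin n → ℂ), F m (Fin.cons p.1 p.2) := lintegral_congr h2
    refine Eq.trans ?_ h3.symm
    rw [Measure.volume_eq_prod, lintegral_prod_symm' _ (hFc m)]
  have hΦm : ∀ m, Measurable (fun x' : Fin n → ℂ => ∫⁻ z : ℂ, F m (Fin.cons z x')) := fun m =>
    (hFc m).lintegral_prod_left'
  have hbox : MeasurableSet {x' : Fin n → ℂ | ∀ i, ‖x' i‖ < r} := by
    have : {x' : Fin n → ℂ | ∀ i, ‖x' i‖ < r} = Metric.ball 0 r := by
      ext x'
      rw [mem_ball_zero_iff, pi_norm_lt_iff hr]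
      rfl
    rw [this]
    exact Metric.isOpen_ball.measurableSet
  have hpt : ∀ x' ∈ {x' : Fin n → ℂ | ∀ i, ‖x' i‖ < r},
      ∑' z : {z : ℂ // ‖z‖ < r ∧ f (Fin.cons z x') = 0 ∧
        fderiv ℂ f (Fin.cons z x') (Pi.single 0 1) ≠ 0},
      ENNReal.ofReal (π / ‖fderiv ℂ f (Fin.cons z.1 x') (Pi.single 0 1)‖ ^ 2) ≤
      liminf (fun m => ∫⁻ z : ℂ, F m (Fin.cons z x')) atTop := by
    intro x' hx'
    set h : ℂ → ℂ := fun z => f (Fin.cons z x') with hh
    set d : ℂ → ℂ := fun z => fderiv ℂ f (Fin.cons z x') (Pi.single 0 1) with hd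
    have hder : ∀ z, ‖z‖ < r → HasDerivAt h (d z) z := by
      intro z hz
      have h1 : HasFDerivAt f (fderiv ℂ f (Fin.cons z x')) (Fin.cons z x') :=
        (hf _ ((ball_eq hr z x').2 ⟨hz, hx'⟩)).differentiableAt.hasFDerivAt
      exact h1.comp_hasDerivAt z (hasDerivAt_cons z x')
    have hFe : ∀ m, ∫⁻ z : ℂ, F m (Fin.cons z x') = ∫⁻ z in Metric.ball (0 : ℂ) r,
        ENNReal.ofReal (sm m * (‖h z‖ ^ 2 + em m ^ 2) ^ (sm m - 1)) := by
      intro m
      rw [← lintegral_indicator Metric.isOpen_ball.measurableSet]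
      congr 1
      funext z
      by_cases hz : ‖z‖ < r
      · rw [indicator_of_mem (by simpa using hz)]
        simp only [hF]
        rw [indicator_of_mem ((ball_eq hr z x').2 ⟨hz, hx'⟩)]
        rfl
      · rw [indicator_of_notMem (by simpa using hz)]
        simp only [hF]
        rw [indicator_of_notMem]
        exact fun h' => hz ((ball_eq hr z x').1 h').1
    simp only [hFe]
    rw [ENNReal.tsum_eq_iSup_sum]
    refine iSup_le fun S => ?_
    have key := sum_le_liminf (h := h) (d := d) (D := Metric.ball (0 : ℂ) r) Metric.isOpen_ball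
      (S.map (Function.Embedding.subtype _)) (fun ξ hξ => by
        rw [Finset.mem_map] at hξ
        obtain ⟨z, -, rfl⟩ := hξ
        exact ⟨by simpa using z.2.1, hder _ z.2.1, z.2.2.1, z.2.2.2⟩)
    rw [Finset.sum_map] at key
    exact key
  calc _ ≤ ∫⁻ x' : Fin n → ℂ in {x' | ∀ i, ‖x' i‖ < r},
        liminf (fun m => ∫⁻ z : ℂ, F m (Fin.cons z x')) atTop := by
        refine lintegral_mono_ae ?_
        filter_upwards [ae_restrict_mem hbox] with x' hx'
        exact hpt x' hx'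
    _ ≤ ∫⁻ x' : Fin n → ℂ, liminf (fun m => ∫⁻ z : ℂ, F m (Fin.cons z x')) atTop :=
        setLIntegral_le_lintegral _ _
    _ ≤ liminf (fun m => ∫⁻ x' : Fin n → ℂ, ∫⁻ z : ℂ, F m (Fin.cons z x')) atTop :=
        lintegral_liminf_le hΦm
    _ ≤ ENNReal.ofReal C := by
        refine liminf_le_of_le (by isBoundedDefault) fun b hb => ?_
        obtain ⟨m, hm⟩ := hb.exists
        exact hm.trans (hFub m)

end Crest.Agent.R257.KlC_540
end
end

-- ▼ part R257/KlD_540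
section

/-!
R257 / KlD_540: K5' at the level of germs in the notation of `Defs_219`:
a germ with an isolated critical point and a holomorphic vector field `χ` with `χ f = f` and
`Re div χ (0) > 1` is klt: `1 ∈ J_1(f)`.
-/

set_option autoImplicit false

open Topology Filter MeasureTheory Set
open scoped ENNReal ContDiff Real
open Crest.AlgGeometry.Germ

noncomputable section

namespace Crest.Agent.R257.KlD_540

open Crest.Agent.R257.KlA_540 Crest.Agent.R257.KlB_540 Crest.Agent.R257.KlC_540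
open Crest.Agent.R257.Defs_219

/-- `1 ∈ J_1(f)` -/
def Klt (f : E3 → ℂ) : Prop := InJ 1 f (fun _ => 1)

/-- K5' -/
theorem klt_of_field {f : E3 → ℂ} (hf : AnalyticAt ℂ f 0)
    (hiso : ∀ᶠ x in 𝓝[≠] (0 : E3), ∃ j, coordDeriv f j x ≠ 0)
    {a : Fin 3 → E3 → ℂ} (ha : ∀ j, AnalyticAt ℂ (a j) 0)
    (hχ : ∀ᶠ x in 𝓝 (0 : E3), f x = ∑ j, a j x * coordDeriv f j x)
    (hdiv : 1 < (∑ j, coordDeriv (a j) j 0).re) : Klt f := by
  set c : ℝ := ((∑ j, coordDeriv (a j) j 0).re - 1) / 2 with hc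
  have hc0 : 0 < c := by rw [hc]; linarith
  have hcont : ContinuousAt (fun x => (∑ j, coordDeriv (a j) j x).re) 0 := by
    have h1 : ∀ j, ContinuousAt (fun x => coordDeriv (a j) j x) 0 := fun j =>
      (((ContinuousLinearMap.apply ℂ ℂ (Pi.single j 1 : E3)).analyticAt _).comp
        (ha j).fderiv).continuousAt
    have h2 : ContinuousAt (fun x => ∑ j, coordDeriv (a j) j x) 0 :=
      tendsto_finsetSum _ fun j _ => h1 j
    exact Complex.continuous_re.continuousAt.comp h2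
  have e1 : ∀ᶠ x in 𝓝 (0 : E3), 1 + c ≤ (∑ j, coordDeriv (a j) j x).re := by
    have : 1 + c < (∑ j, coordDeriv (a j) j (0 : E3)).re := by rw [hc]; linarith
    exact (hcont.eventually (lt_mem_nhds this)).mono fun x hx => hx.le
  have e2 : ∀ᶠ x in 𝓝 (0 : E3), x ≠ 0 → ∃ j, coordDeriv f j x ≠ 0 :=
    eventually_nhdsWithin_iff.1 hiso
  have e3 : ∀ᶠ x in 𝓝 (0 : E3), AnalyticAt ℂ f x := hf.eventually_analyticAt
  have e4 : ∀ᶠ x in 𝓝 (0 : E3), ∀ j, AnalyticAt ℂ (a j) x :=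
    eventually_all.2 fun j => (ha j).eventually_analyticAt
  obtain ⟨r, hr, hball⟩ := Metric.eventually_nhds_iff_ball.1
    ((((e1.and e2).and e3).and e4).and hχ)
  obtain ⟨C, -, hC⟩ := tube hr (f := f) (a := a) (c := c)
    (fun x hx => (hball x hx).1.1.2) (fun x hx h0 => (hball x hx).1.1.1.2 h0)
    (fun j x hx => (hball x hx).1.2 j) (fun x hx => (hball x hx).2.symm) hc0
    (fun x hx => (hball x hx).1.1.1.1)
  refine ⟨r / 2, by linarith, ?_⟩
  have hr2 : 0 < r / 2 := by linarith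
  have key := sheet_le hr2 (f := f) (fun x hx =>
    (hball x (Metric.ball_subset_ball (by linarith) hx)).1.1.2) (C := C) hC
  refine lt_of_le_of_lt ?_ (lt_of_le_of_lt key ENNReal.ofReal_lt_top)
  unfold Jint
  refine lintegral_mono fun x' => ?_
  refine ENNReal.tsum_le_tsum fun z => ?_
  apply ENNReal.ofReal_le_ofReal
  have h1 : ‖(1 : ℂ)‖ ^ ((2 : ℝ) / 1) = 1 := by simp
  change ‖(1 : ℂ)‖ ^ ((2 : ℝ) / 1) / _ ≤ _
  rw [h1]
  have hπ : (1 : ℝ) ≤ π := by linarith [Real.pi_gt_three]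
  exact div_le_div_of_nonneg_right hπ (by positivity)

/-- a klt germ has `mstar = 0` -/
theorem mstar_eq_zero_of_klt {f : E3 → ℂ} (h : Klt f) : mstar f = 0 := by
  have hcol : gens ![f, fun _ => 1, fun _ => 1] = ⊤ := by
    rw [eq_top_iff]
    rintro ⟨g, hg⟩ -
    refine ⟨![0, g, 0], fun i => ?_, ?_⟩
    · fin_cases i
      · exact analyticAt_const
      · exact hg
      · exact analyticAt_const
    · refine Eventually.of_forall fun x => ?_
      simp [Fin.sum_univ_succ]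
  have hsub : Subsingleton (Quo ![f, fun _ => 1, fun _ => 1]) := by
    unfold Quo
    rw [hcol]
    infer_instance
  have hfin : ColFin ![f, fun _ => 1, fun _ => 1] := by
    unfold ColFin
    infer_instance
  have hz : col ![f, fun _ => 1, fun _ => 1] = 0 := Module.finrank_zero_of_subsingleton
  have h1 := mul_mstar_le (f := f) (g := fun _ => 1) (h := fun _ => 1) (a := 1) (b := 1) le_rfl
    le_rfl analyticAt_const analyticAt_const h h hfin
  rw [hz] at h1
  have := mstar_nonneg f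
  simp at h1
  linarith

end Crest.Agent.R257.KlD_540
end
end

-- ▼ part R257/KlE_540

/-!
R257 / KlE_540: for an isolated germ `f`, regular in `x_0`, the points of `{f = 0, ∂_0 f ≠ 0}`
accumulate at `0`.
-/

set_option autoImplicit false

open Topology Filter MeasureTheory Set
open scoped ENNReal ContDiff Real
open Crest.AlgGeometry.Germ

noncomputable section

namespace Crest.Agent.R257.KlE_540

open Crest.Agent.R257.Defs_219 Crest.Agent.R257.KlC_540

theorem an_coordDeriv {n : ℕ} {f : (Fin n → ℂ) → ℂ} {x : Fin n → ℂ} (hf : AnalyticAt ℂ f x)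
    (j : Fin n) : AnalyticAt ℂ (coordDeriv f j) x :=
  ((ContinuousLinearMap.apply ℂ ℂ (Pi.single j 1 : Fin n → ℂ)).analyticAt _).comp hf.fderiv

/-- the critical point of an isolated germ is isolated -/
theorem isolated {f : E3 → ℂ} (hf : AnalyticAt ℂ f 0) (hfin : ColFin (par f)) :
    ∀ᶠ x in 𝓝 (0 : E3), (∀ j, coordDeriv f j x = 0) → x = 0 := by
  have h := UI939.cnStmt 3 (fun j (q : E3 × ℂ) => coordDeriv f j q.1) (fun j => by
      have h1 := an_coordDeriv hf j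
      exact AnalyticAt.comp (g := coordDeriv f j) (f := fun q : E3 × ℂ => q.1)
        (x := ((0, 0) : E3 × ℂ)) h1 ((ContinuousLinearMap.fst ℂ E3 ℂ).analyticAt _))
    hfin (Frequently.of_forall fun t => le_rfl)
  have h2 : Tendsto (fun x : E3 => (x, (0 : ℂ))) (𝓝 0) (𝓝 ((0 : E3), (0 : ℂ))) := by
    have : Continuous (fun x : E3 => (x, (0 : ℂ))) := by fun_prop
    exact this.tendsto' _ _ rfl
  exact h2.eventually h

theorem isolated' {f : E3 → ℂ} (hf : AnalyticAt ℂ f 0) (hfin : ColFin (par f)) :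
    ∀ᶠ x in 𝓝[≠] (0 : E3), ∃ j, coordDeriv f j x ≠ 0 := by
  rw [eventually_nhdsWithin_iff]
  filter_upwards [isolated hf hfin] with x hx h0
  by_contra h
  push Not at h
  exact h0 (hx h)

/-- persistence of zeros (minimum modulus) -/
theorem exists_zero {f : E3 → ℂ} (hf : Iso f) {δ : ℝ} (hδ : 0 < δ) :
    ∀ᶠ y : Fin 2 → ℂ in 𝓝 0, ∃ z : ℂ, ‖z‖ < δ ∧ f (Fin.cons z y) = 0 := by
  obtain ⟨r, hr, hfr⟩ := hf.an.exists_ball_analyticOnNhd
  have hc0 : (Fin.cons 0 0 : E3) = 0 := by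
    funext i; refine Fin.cases ?_ (fun j => ?_) i <;> simp
  -- the slice
  have han : AnalyticAt ℂ (fun z : ℂ => f (Fin.cons z 0)) 0 := by
    have h1 : AnalyticAt ℂ (fun z : ℂ => (Fin.cons z 0 : E3)) 0 := by
      rw [analyticAt_pi_iff]
      intro i
      refine Fin.cases ?_ (fun j => ?_) i
      · exact analyticAt_id
      · exact analyticAt_const
    refine AnalyticAt.fun_comp (g := f) ?_ h1
    rw [hc0]; exact hf.an
  have hne : ∀ᶠ z in 𝓝[≠] (0 : ℂ), f (Fin.cons z 0) ≠ 0 := by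
    rcases han.eventually_eq_zero_or_eventually_ne_zero with h | h
    · exact absurd (h.filter_mono nhdsWithin_le_nhds) (by
        intro h'
        exact hf.reg (h'.mono fun z hz => by simpa using hz))
    · exact h
  obtain ⟨ρ₀, hρ₀, hball⟩ := Metric.eventually_nhds_iff_ball.1 (eventually_nhdsWithin_iff.1 hne)
  set ρ : ℝ := min (min (δ / 2) (r / 2)) (ρ₀ / 2) with hρ
  have hρ0 : 0 < ρ := by positivity
  have hρδ : ρ < δ := (min_le_left _ _).trans_lt ((min_le_left _ _).trans_lt (by linarith))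
  have hρr : ρ < r := (min_le_left _ _).trans_lt ((min_le_right _ _).trans_lt (by linarith))
  have hρρ : ρ < ρ₀ := (min_le_right _ _).trans_lt (by linarith)
  -- continuity on the compact sphere
  have hcons : Continuous (fun p : (Fin 2 → ℂ) × ℂ => (Fin.cons p.2 p.1 : E3)) := by
    refine continuous_pi fun i => ?_
    refine Fin.cases ?_ (fun j => ?_) i
    · exact continuous_snd
    · exact (continuous_apply j).comp continuous_fst
  have hfc : ∀ z : ℂ, ‖z‖ < r → ContinuousAt (fun p : (Fin 2 → ℂ) × ℂ => f (Fin.cons p.2 p.1))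
      (0, z) := by
    intro z hz
    refine ContinuousAt.comp (g := f) ?_ hcons.continuousAt
    refine (hfr _ ?_).continuousAt
    exact (ball_eq hr z 0).2 ⟨hz, fun i => by simpa using hr⟩
  -- lower bound on the sphere at `y = 0`
  have hsph : IsCompact (Metric.sphere (0 : ℂ) ρ) := isCompact_sphere _ _
  obtain ⟨m, hm, hmle⟩ : ∃ m : ℝ, 0 < m ∧ ∀ᶠ y : Fin 2 → ℂ in 𝓝 0,
      ∀ z ∈ Metric.sphere (0 : ℂ) ρ, m ≤ ‖f (Fin.cons z y)‖ := by
    have hne' : ∀ z ∈ Metric.sphere (0 : ℂ) ρ, f (Fin.cons z 0) ≠ 0 := by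
      intro z hz
      have hz' : ‖z‖ = ρ := by simpa using hz
      refine hball z (by simpa using hz' ▸ hρρ) ?_
      rintro rfl
      simp at hz'; linarith
    have hcts : ContinuousOn (fun z : ℂ => ‖f (Fin.cons z 0)‖) (Metric.sphere (0 : ℂ) ρ) := by
      intro z hz
      have hz' : ‖z‖ = ρ := by simpa using hz
      have h1 : ContinuousAt (fun z : ℂ => f (Fin.cons z 0)) z :=
        ContinuousAt.comp (g := fun p : (Fin 2 → ℂ) × ℂ => f (Fin.cons p.2 p.1))
          (f := fun z : ℂ => ((0 : Fin 2 → ℂ), z)) (hfc z (by linarith))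
          (Continuous.prodMk_right 0).continuousAt
      exact h1.norm.continuousWithinAt
    obtain ⟨z₀, hz₀, hmin⟩ := hsph.exists_isMinOn
      (by exact ⟨(ρ : ℂ), by simp [abs_of_pos hρ0]⟩) hcts
    have hm0 : 0 < ‖f (Fin.cons z₀ 0)‖ := norm_pos_iff.2 (hne' z₀ hz₀)
    refine ⟨‖f (Fin.cons z₀ 0)‖ / 2, by linarith, ?_⟩
    refine hsph.eventually_forall_of_forall_eventually fun z hz => ?_
    have hz' : ‖z‖ = ρ := by simpa using hz
    have h1 := (hfc z (by linarith)).norm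
    have h2 : ‖f (Fin.cons z₀ 0)‖ / 2 < ‖f (Fin.cons z 0)‖ := by
      have := hmin hz
      simp only [mem_ofPred_eq] at this
      linarith
    have h3 := h1.eventually (lt_mem_nhds h2)
    exact h3.mono fun p hp => hp.le
  have hsmall : ∀ᶠ y : Fin 2 → ℂ in 𝓝 0, ‖f (Fin.cons 0 y)‖ < m := by
    have h1 : ContinuousAt (fun y : Fin 2 → ℂ => f (Fin.cons 0 y)) 0 :=
      ContinuousAt.comp (g := fun p : (Fin 2 → ℂ) × ℂ => f (Fin.cons p.2 p.1))
        (f := fun y : Fin 2 → ℂ => (y, (0 : ℂ))) (hfc 0 (by simpa using hr))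
        (Continuous.prodMk_left 0).continuousAt
    have h2 : ‖f (Fin.cons 0 (0 : Fin 2 → ℂ))‖ < m := by
      rw [hc0, hf.zero]; simpa using hm
    exact h1.norm.eventually (gt_mem_nhds h2)
  have hyr : ∀ᶠ y : Fin 2 → ℂ in 𝓝 0, ‖y‖ < r :=
    (continuous_norm.tendsto' _ _ norm_zero).eventually (gt_mem_nhds hr)
  filter_upwards [hmle, hsmall, hyr] with y h1 h2 h3
  by_contra hno
  push Not at hno
  have hyi : ∀ i, ‖y i‖ < r := fun i => (norm_le_pi_norm y i).trans_lt h3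
  have hd : ∀ z : ℂ, ‖z‖ < r → DifferentiableAt ℂ (fun z : ℂ => f (Fin.cons z y)) z := by
    intro z hz
    have h4 := (hfr _ ((ball_eq hr z y).2 ⟨hz, hyi⟩)).differentiableAt
    exact h4.comp z (hasDerivAt_cons z y).differentiableAt
  have hnz : ∀ z ∈ Metric.closedBall (0 : ℂ) ρ, f (Fin.cons z y) ≠ 0 := fun z hz =>
    hno z (by have : ‖z‖ ≤ ρ := by simpa using hz
              linarith)
  have hdc : DiffContOnCl ℂ (fun z : ℂ => (f (Fin.cons z y))⁻¹) (Metric.ball 0 ρ) := by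
    refine DifferentiableOn.diffContOnCl fun z hz => ?_
    rw [closure_ball _ hρ0.ne'] at hz
    have hz' : ‖z‖ ≤ ρ := by simpa using hz
    exact ((hd z (by linarith)).inv (hnz z hz)).differentiableWithinAt
  have h5 := Complex.norm_le_of_forall_mem_frontier_norm_le Metric.isBounded_ball hdc
    (C := m⁻¹) (fun z hz => by
      rw [frontier_ball _ hρ0.ne'] at hz
      rw [norm_inv]
      exact inv_anti₀ hm (h1 z hz)) (z := 0)
    (subset_closure (Metric.mem_ball_self hρ0))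
  rw [norm_inv] at h5
  have h6 : 0 < ‖f (Fin.cons 0 y)‖ := norm_pos_iff.2 (hnz 0 (Metric.mem_closedBall_self hρ0.le))
  have h7 : m ≤ ‖f (Fin.cons 0 y)‖ := by
    by_contra h8
    push Not at h8
    have := inv_strictAnti₀ h6 h8
    linarith
  linarith

/-- points of `{f = 0, ∂_0 f ≠ 0}` accumulate at `0` -/
theorem frequently_reg {f : E3 → ℂ} (hf : Iso f) :
    ∃ᶠ x in 𝓝 (0 : E3), f x = 0 ∧ coordDeriv f 0 x ≠ 0 := by
  rw [Filter.frequently_iff]
  intro W hW
  obtain ⟨r, hr, hball⟩ := Metric.eventually_nhds_iff_ball.1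
    ((hf.an.eventually_analyticAt.and (isolated hf.an hf.fin)).and hW)
  set V : Set ((Fin 2 → ℂ) × ℂ) := {p | ‖p.2‖ < r ∧ ∀ i, ‖p.1 i‖ < r} with hV
  have hVo : IsOpen V := by
    refine IsOpen.inter (isOpen_lt continuous_snd.norm continuous_const) ?_
    have : {p : (Fin 2 → ℂ) × ℂ | ∀ i, ‖p.1 i‖ < r} = ⋂ i, {p | ‖p.1 i‖ < r} := by
      ext p; simp
    change IsOpen {p : (Fin 2 → ℂ) × ℂ | ∀ i, ‖p.1 i‖ < r}
    rw [this]
    exact isOpen_iInter_of_finite fun i =>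
      isOpen_lt ((continuous_apply i).comp continuous_fst).norm continuous_const
  -- the linear isomorphism
  set ι : ((Fin 2 → ℂ) × ℂ) →L[ℂ] E3 := ContinuousLinearMap.pi (fun i : Fin 3 =>
    Fin.cases (motive := fun _ => ((Fin 2 → ℂ) × ℂ) →L[ℂ] ℂ) (ContinuousLinearMap.snd ℂ _ _)
      (fun j => (ContinuousLinearMap.proj j).comp (ContinuousLinearMap.fst ℂ _ _)) i) with hι
  have hιe : ∀ p : (Fin 2 → ℂ) × ℂ, ι p = (Fin.cons p.2 p.1 : E3) := by
    intro p
    funext i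
    refine Fin.cases ?_ (fun j => ?_) i <;> simp [hι]
  set F : (Fin 2 → ℂ) × ℂ → ℂ := fun p => f (Fin.cons p.2 p.1) with hF
  have hFι : F = fun p => f (ι p) := by
    funext p; rw [hιe]
  have hmem : ∀ p ∈ V, ι p ∈ Metric.ball (0 : E3) r := by
    intro p hp
    rw [hιe]
    exact (ball_eq hr p.2 p.1).2 hp
  have hFan : AnalyticOnNhd ℂ F V := by
    intro p hp
    rw [hFι]
    exact AnalyticAt.fun_comp (g := f) (f := ι) (hball _ (hmem p hp)).1.1 (ι.analyticAt p)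
  have hiso : ∀ p ∈ V, p ≠ 0 → F p = 0 → fderiv ℂ F p ≠ 0 := by
    intro p hp hp0 _ hd
    have hd1 : fderiv ℂ F p = (fderiv ℂ f (ι p)).comp ι := by
      rw [hFι]
      have h1 : HasFDerivAt f (fderiv ℂ f (ι p)) (ι p) :=
        (hball _ (hmem p hp)).1.1.differentiableAt.hasFDerivAt
      exact (h1.comp p ι.hasFDerivAt).fderiv
    have h2 : ι p = 0 := by
      refine (hball _ (hmem p hp)).1.2 fun j => ?_
      have hsurj : ∃ q : (Fin 2 → ℂ) × ℂ, ι q = Pi.single j 1 := by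
        refine ⟨(Fin.tail (Pi.single j 1 : E3), (Pi.single j 1 : E3) 0), ?_⟩
        rw [hιe]
        exact Fin.cons_self_tail (α := fun _ => ℂ) (Pi.single j 1 : E3)
      obtain ⟨q, hq⟩ := hsurj
      have h3 : fderiv ℂ F p q = 0 := by rw [hd]; rfl
      rw [hd1] at h3
      simp only [ContinuousLinearMap.comp_apply, hq] at h3
      exact h3
    apply hp0
    rw [hιe] at h2
    have h3 : p.2 = 0 := by simpa using congrFun h2 0
    have h4 : p.1 = 0 := by
      funext i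
      simpa using congrFun h2 i.succ
    exact Prod.ext h4 h3
  have hae := Sh_297.ae_simple (volume : Measure (Fin 2 → ℂ)) hVo hFan hiso
  have hz := exists_zero hf (δ := r) hr
  have hyr : ∀ᶠ y : Fin 2 → ℂ in 𝓝 0, ‖y‖ < r :=
    (continuous_norm.tendsto' _ _ norm_zero).eventually (gt_mem_nhds hr)
  have hnull : (volume : Measure (Fin 2 → ℂ)) {y | ¬ (∀ z, (y, z) ∈ V → F (y, z) = 0 →
      Sh_297.vd F (y, z) ≠ 0)} = 0 := hae
  obtain ⟨s, hs, hball2⟩ := Metric.eventually_nhds_iff_ball.1 (hz.and hyr)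
  obtain ⟨y, hys, hy⟩ : ∃ y ∈ Metric.ball (0 : Fin 2 → ℂ) s, ∀ z, (y, z) ∈ V → F (y, z) = 0 →
      Sh_297.vd F (y, z) ≠ 0 := by
    by_contra h
    push Not at h
    have h1 : Metric.ball (0 : Fin 2 → ℂ) s ⊆ {y | ¬ (∀ z, (y, z) ∈ V → F (y, z) = 0 →
      Sh_297.vd F (y, z) ≠ 0)} := by
      intro y hy h2
      obtain ⟨z, h3, h4, h5⟩ := h y hy
      exact h2 z h3 h4 h5
    have h2 := measure_mono_null h1 hnull
    exact (Metric.measure_ball_pos volume (0 : Fin 2 → ℂ) hs).ne' h2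
  obtain ⟨⟨z, hzr, hfz⟩, hyr'⟩ := hball2 y hys
  have hyi : ∀ i, ‖y i‖ < r := fun i => (norm_le_pi_norm y i).trans_lt hyr'
  have hx : (Fin.cons z y : E3) ∈ Metric.ball (0 : E3) r := (ball_eq hr z y).2 ⟨hzr, hyi⟩
  refine ⟨Fin.cons z y, (hball _ hx).2, hfz, ?_⟩
  have h1 := hy z ⟨hzr, hyi⟩ hfz
  have h2 : HasDerivAt (fun z => f (Fin.cons z y)) (coordDeriv f 0 (Fin.cons z y)) z := by
    have h3 : HasFDerivAt f (fderiv ℂ f (Fin.cons z y)) (Fin.cons z y) :=
      (hball _ hx).1.1.differentiableAt.hasFDerivAt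
    exact h3.comp_hasDerivAt z (hasDerivAt_cons z y)
  rw [← h2.deriv]
  exact h1

end Crest.Agent.R257.KlE_540
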