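import Crest.Agent.R257.Kp5_405
import Crest.Agent.R257.Kp6_405
import Crest.Agent.R257.KlE_540
import Crest.Agent.R257.LCc_472

-- ▼ part R257/Cl2A_475
section

/-!
R257 / Cl2A_475: plane germs `q` with `q = O(|w|³)`, smooth zero set off `0`, `q(0,·)` of order 3:
either `q` has an Euler field of trace `1/2 + 1/h`, or, up to a unit and a shear,
`q = y³ + z⁴ b₄(z) y + z⁶ c₆(z)`.  (Classification of Kp5_405 without integrability.)
-/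

set_option autoImplicit false
set_option linter.unusedSectionVars false
set_option linter.deprecated false

open Set Filter Topology Metric MeasureTheory
open scoped ENNReal

noncomputable section

namespace Crest.Agent.R257.Cl2_475

open Crest.Agent.R257.Kp_405

/-- the zero set is smooth off the origin -/
def NS (p : ℂ × ℂ → ℂ) : Prop := ∀ᶠ w in 𝓝 (0 : ℂ × ℂ), w ≠ 0 → p w = 0 → fderiv ℂ p w ≠ 0

lemma NS.congr {p q : ℂ × ℂ → ℂ} (h : NS p) (he : p =ᶠ[𝓝 0] q) : NS q := by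
  unfold NS at *
  filter_upwards [h, he, he.fderiv (𝕜 := ℂ)] with w a b c h0 h1
  rw [← c]
  exact a h0 (by rw [b, h1])

lemma NS.of_unit_mul {p u : ℂ × ℂ → ℂ} (hp : AnalyticAt ℂ p 0) (hu : AnalyticAt ℂ u 0)
    (h : NS (fun w => u w * p w)) : NS p := by
  unfold NS at *
  filter_upwards [h, hp.eventually_analyticAt, hu.eventually_analyticAt] with w a b c h0 h1 h2
  refine a h0 (by simp [h1]) ?_
  have e1 := c.differentiableAt.hasFDerivAt.mul b.differentiableAt.hasFDerivAt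
  have e2 : fderiv ℂ (fun w => u w * p w) w = u w • fderiv ℂ p w + p w • fderiv ℂ u w := e1.fderiv
  rw [e2, h1, h2]
  ext v <;> simp

lemma NS.comp {p : ℂ × ℂ → ℂ} (hp : AnalyticAt ℂ p 0) (h : NS p) {Φ Ψ : ℂ × ℂ → ℂ × ℂ}
    (hL : LB Φ Ψ) : NS (fun w => p (Φ w)) := by
  unfold NS at *
  filter_upwards [hL.tendsto.eventually h, hL.left, hL.fderiv_comp, hL.an.eventually_analyticAt,
    hL.tendsto.eventually hp.eventually_analyticAt] with w a b c d e h0 h1 h2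
  have hne : Φ w ≠ 0 := by
    intro h3
    rw [h3, hL.map0'] at b
    exact h0 b.symm
  refine a hne h1 ?_
  have e1 : HasFDerivAt (fun w => p (Φ w)) ((fderiv ℂ p (Φ w)).comp (fderiv ℂ Φ w)) w :=
    e.differentiableAt.hasFDerivAt.comp w d.differentiableAt.hasFDerivAt
  rw [e1.fderiv] at h2
  ext v
  · have h3 := congrArg (fun T : ℂ × ℂ →L[ℂ] ℂ × ℂ => T (1, 0)) c
    simp only [ContinuousLinearMap.comp_apply, ContinuousLinearMap.id_apply] at h3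
    have h4 := congrArg (fun T : ℂ × ℂ →L[ℂ] ℂ => T (fderiv ℂ Ψ (Φ w) (1, 0))) h2
    simp only [ContinuousLinearMap.comp_apply, ContinuousLinearMap.zero_apply] at h4
    rw [h3] at h4
    simpa using h4
  · have h3 := congrArg (fun T : ℂ × ℂ →L[ℂ] ℂ × ℂ => T (0, 1)) c
    simp only [ContinuousLinearMap.comp_apply, ContinuousLinearMap.id_apply] at h3
    have h4 := congrArg (fun T : ℂ × ℂ →L[ℂ] ℂ => T (fderiv ℂ Ψ (Φ w) (0, 1))) h2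
    simp only [ContinuousLinearMap.comp_apply, ContinuousLinearMap.zero_apply] at h4
    rw [h3] at h4
    simpa using h4

/-- the case D -/
theorem ns_D {B : ℂ → ℂ} (hB : AnalyticAt ℂ B 0) (hB0 : B 0 = 0)
    (hK : NS (fun w : ℂ × ℂ => w.1 * (w.2 ^ 2 + B w.1))) :
    PRes (fun w : ℂ × ℂ => w.1 * (w.2 ^ 2 + B w.1)) := by
  have hne : ¬ ∀ᶠ y in 𝓝 (0 : ℂ), B y = 0 := by
    intro h0
    have h1 : (fun w : ℂ × ℂ => w.1 * (w.2 ^ 2 + B w.1)) =ᶠ[𝓝 0]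
        fun w : ℂ × ℂ => w.1 * w.2 ^ 2 := by
      filter_upwards [ev_fst h0] with w hw
      rw [hw, add_zero]
    have h2 := hK.congr h1
    unfold NS at h2
    have t1 : Tendsto (fun y : ℂ => (y, (0 : ℂ))) (𝓝 0) (𝓝 (0 : ℂ × ℂ)) :=
      (by fun_prop : Continuous (fun y : ℂ => (y, (0 : ℂ)))).tendsto' _ _ rfl
    have h3 : ∀ᶠ y in 𝓝[≠] (0 : ℂ), y ≠ 0 ∧ ((y, (0 : ℂ)) ≠ 0 →
        (fun w : ℂ × ℂ => w.1 * w.2 ^ 2) (y, 0) = 0 →
        fderiv ℂ (fun w : ℂ × ℂ => w.1 * w.2 ^ 2) (y, 0) ≠ 0) :=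
      (eventually_mem_nhdsWithin).and ((t1.eventually h2).filter_mono nhdsWithin_le_nhds)
    obtain ⟨y, hy0, hy⟩ := h3.exists
    refine hy (by simpa using hy0) (by simp) ?_
    have e2 : HasFDerivAt (fun w : ℂ × ℂ => w.2 ^ 2)
        ((2 * (y, (0 : ℂ)).2) • (ContinuousLinearMap.snd ℂ ℂ ℂ)) (y, 0) := by
      have := (hasFDerivAt_snd (𝕜 := ℂ) (E := ℂ) (F := ℂ) (p := (y, (0 : ℂ)))).pow 2
      refine this.congr_fderiv ?_
      ext v <;> simp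
    have e3 : HasFDerivAt (fun w : ℂ × ℂ => w.1 * w.2 ^ 2) _ (y, 0) :=
      (hasFDerivAt_fst (𝕜 := ℂ) (E := ℂ) (F := ℂ) (p := (y, (0 : ℂ)))).mul e2
    rw [e3.fderiv]
    ext v <;> simp
  obtain ⟨n, g, hg, hg0, he⟩ := exists_ord hB hB0 hne
  exact model_D hg hg0 hB he

/-- transfer from the sheared model -/
theorem ns_shear {M : ℂ × ℂ → ℂ} (hM : AnalyticAt ℂ M 0) (hres : NS M → PRes M) {θ : ℂ → ℂ}
    (hθ : AnalyticAt ℂ θ 0) (h0 : θ 0 = 0) (hK : NS (fun w => M (shear θ w))) :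
    PRes (fun w => M (shear θ w)) := by
  have hL := LB_shear hθ h0
  have hMs : AnalyticAt ℂ (fun w => M (shear θ w)) 0 := by
    refine AnalyticAt.comp (g := M) (f := shear θ) ?_ hL.an
    rw [hL.map0]; exact hM
  have h1 : NS (fun w => (fun w => M (shear θ w)) (shear (fun z => - θ z) w)) :=
    hK.comp hMs hL.symm
  have h2 : NS M := h1.congr (by
    filter_upwards [hL.right] with w hw
    simp only [hw])
  exact (hres h2).comp hM hL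

/-- transfer from `F = u M` -/
theorem ns_unit {F M u : ℂ × ℂ → ℂ} (hM : AnalyticAt ℂ M 0) (hres : NS M → PRes M)
    (hu : AnalyticAt ℂ u 0) (hu0 : u 0 ≠ 0) (he : ∀ᶠ w in 𝓝 (0 : ℂ × ℂ), F w = u w * M w)
    (hK : NS F) : PRes F := by
  have h1 : NS (fun w => u w * M w) := hK.congr he
  have h2 : NS M := NS.of_unit_mul hM hu h1
  refine ((hres h2).unit_mul hM hu hu0).congr ?_
  filter_upwards [he] with w hw using hw.symm

theorem ns_simple {b c β γ : ℂ → ℂ} (hβ : AnalyticAt ℂ β 0) (hγ : AnalyticAt ℂ γ 0)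
    (hb : AnalyticAt ℂ b 0) (hc : AnalyticAt ℂ c 0)
    (hbe : ∀ᶠ y in 𝓝 (0 : ℂ), b y = y ^ 2 * β y) (hce : ∀ᶠ y in 𝓝 (0 : ℂ), c y = y ^ 3 * γ y)
    (h : β 0 ≠ 0 ∨ γ 0 ≠ 0) (hK : NS (fun w : ℂ × ℂ => w.2 ^ 3 + b w.1 * w.2 + c w.1)) :
    PRes (fun w : ℂ × ℂ => w.2 ^ 3 + b w.1 * w.2 + c w.1) := by
  obtain ⟨ρ, h1, h2⟩ := exists_simple_root h
  obtain ⟨σ, hσ, hσ0, hσe⟩ := exists_root_fun hβ hγ h1 h2
  set M : ℂ × ℂ → ℂ := fun w => w.2 ^ 3 + b w.1 * w.2 + c w.1 with hM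
  have hMa : AnalyticAt ℂ M 0 :=
    ((analyticAt_snd.pow 3).add ((an_fst hb).mul analyticAt_snd)).add (an_fst hc)
  set θ : ℂ → ℂ := fun y => y * σ y with hθ
  have hθa : AnalyticAt ℂ θ 0 := analyticAt_id.mul hσ
  have hθ0 : θ 0 = 0 := by simp [hθ]
  -- the change of variables
  set R : ℂ × ℂ → ℂ := fun w => w.1 ^ 2 + 3 * θ w.2 * w.1 + (3 * θ w.2 ^ 2 + b w.2) with hR
  have hθs : AnalyticAt ℂ (fun w : ℂ × ℂ => θ w.2) 0 :=
    AnalyticAt.comp (g := θ) (f := Prod.snd) hθa analyticAt_snd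
  have hbs : AnalyticAt ℂ (fun w : ℂ × ℂ => b w.2) 0 :=
    AnalyticAt.comp (g := b) (f := Prod.snd) hb analyticAt_snd
  have hRa : AnalyticAt ℂ R 0 :=
    ((analyticAt_fst.pow 2).add ((analyticAt_const.mul hθs).mul analyticAt_fst)).add
      ((analyticAt_const.mul (hθs.pow 2)).add hbs)
  have hord : analyticOrderAt (fun w : ℂ => R (0, w)) 0 = 2 := by
    have ha : AnalyticAt ℂ (fun w : ℂ => R (0, w)) 0 :=
      AnalyticAt.comp (g := R) (f := fun w : ℂ => ((0 : ℂ), w)) hRa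
        (analyticAt_const.prod analyticAt_id)
    have h3 : analyticOrderAt (fun w : ℂ => R (0, w)) 0 = ((2 : ℕ) : ℕ∞) := by
      rw [ha.analyticOrderAt_eq_natCast]
      refine ⟨fun s => 3 * σ s ^ 2 + β s, (analyticAt_const.mul (hσ.pow 2)).add hβ, ?_, ?_⟩
      · change 3 * σ 0 ^ 2 + β 0 ≠ 0
        rw [hσ0]; exact h2
      · filter_upwards [hbe] with s hs
        simp only [hR, hs, hθ, sub_zero, smul_eq_mul]
        ring
    exact_mod_cast h3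
  -- `M ∘ shear θ ∘ swap = ξ R`
  have hcomp : ∀ᶠ w in 𝓝 (0 : ℂ × ℂ), M (shear θ (Prod.swap w)) = w.1 * R w := by
    have h4 : ∀ᶠ w in 𝓝 (0 : ℂ × ℂ), b w.2 = w.2 ^ 2 * β w.2 ∧ c w.2 = w.2 ^ 3 * γ w.2 ∧
        σ w.2 ^ 3 + β w.2 * σ w.2 + γ w.2 = 0 := by
      have t1 : Tendsto (Prod.snd : ℂ × ℂ → ℂ) (𝓝 0) (𝓝 0) := continuous_snd.tendsto' _ _ rfl
      filter_upwards [t1.eventually hbe, t1.eventually hce, t1.eventually hσe] with w a1 a2 a3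
        using ⟨a1, a2, a3⟩
    filter_upwards [h4] with w hw
    obtain ⟨e1, e2, e3⟩ := hw
    simp only [hM, hR, shear, Prod.swap, hθ, e1, e2]
    linear_combination (w.2 ^ 3) * e3
  have hL1 := LB_shear hθa hθ0
  have hL2 : LB (fun w : ℂ × ℂ => shear θ (Prod.swap w))
      (fun w : ℂ × ℂ => Prod.swap (shear (fun z => - θ z) w)) := hL1.comp LB_swap
  -- it suffices to treat `ξ R`
  have hfin : NS (fun w : ℂ × ℂ => w.1 * R w) → PRes (fun w : ℂ × ℂ => w.1 * R w) := by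
    intro hK'
    obtain ⟨u, a₀, a₁, hu, hu0, ha₀, ha₁, h00, h10, he⟩ := wprep2 hRa hord
    set B : ℂ → ℂ := fun y => a₀ y - a₁ y ^ 2 / 4 with hB
    have hBa : AnalyticAt ℂ B 0 := ha₀.sub ((ha₁.pow 2).div analyticAt_const (by norm_num))
    have hB0 : B 0 = 0 := by simp [hB, h00, h10]
    have hθ' : AnalyticAt ℂ (fun y => a₁ y / 2) 0 := ha₁.div analyticAt_const (by norm_num)
    have hθ0' : a₁ 0 / 2 = 0 := by simp [h10]
    have hN : AnalyticAt ℂ (fun w : ℂ × ℂ => w.1 * (w.2 ^ 2 + B w.1)) 0 :=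
      analyticAt_fst.mul (an_A hBa)
    have hNs : AnalyticAt ℂ (fun w : ℂ × ℂ => (fun v : ℂ × ℂ => v.1 * (v.2 ^ 2 + B v.1))
        (shear (fun y => a₁ y / 2) w)) 0 := by
      refine AnalyticAt.comp (g := fun v : ℂ × ℂ => v.1 * (v.2 ^ 2 + B v.1))
        (f := shear (fun y => a₁ y / 2)) ?_ (LB_shear hθ' hθ0').an
      rw [(LB_shear hθ' hθ0').map0]; exact hN
    refine ns_unit hNs (fun h => ns_shear hN (ns_D hBa hB0) hθ' hθ0' h) hu hu0 ?_ hK'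
    filter_upwards [he] with w hw
    rw [hw]
    simp only [shear, hB]
    ring
  -- transfer
  have hK1 : NS (fun w : ℂ × ℂ => w.1 * R w) := (hK.comp hMa hL2).congr hcomp
  have h5 := hfin hK1
  have h6 : PRes (fun w : ℂ × ℂ => M (shear θ (Prod.swap w))) :=
    h5.congr (by filter_upwards [hcomp] with w hw using hw.symm)
  have hMc : AnalyticAt ℂ (fun w : ℂ × ℂ => M (shear θ (Prod.swap w))) 0 := by
    refine AnalyticAt.comp (g := M) (f := fun w : ℂ × ℂ => shear θ (Prod.swap w)) ?_ hL2.an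
    rw [hL2.map0]; exact hMa
  refine (h6.comp hMc hL2.symm).congr ?_
  filter_upwards [hL2.right] with w hw
  exact congrArg M hw

theorem ns_cubic {b c : ℂ → ℂ} (hb : AnalyticAt ℂ b 0) (hc : AnalyticAt ℂ c 0)
    {β γ : ℂ → ℂ} (hβ : AnalyticAt ℂ β 0) (hγ : AnalyticAt ℂ γ 0)
    (hbe : ∀ᶠ y in 𝓝 (0 : ℂ), b y = y ^ 2 * β y) (hce : ∀ᶠ y in 𝓝 (0 : ℂ), c y = y ^ 3 * γ y)
    (hK : NS (fun w : ℂ × ℂ => w.2 ^ 3 + b w.1 * w.2 + c w.1)) :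
    PRes (fun w : ℂ × ℂ => w.2 ^ 3 + b w.1 * w.2 + c w.1) ∨
    ∃ b₄ c₆ : ℂ → ℂ, AnalyticAt ℂ b₄ 0 ∧ AnalyticAt ℂ c₆ 0 ∧
      (∀ᶠ y in 𝓝 (0 : ℂ), b y = y ^ 4 * b₄ y) ∧ ∀ᶠ y in 𝓝 (0 : ℂ), c y = y ^ 6 * c₆ y := by
  have hMa : AnalyticAt ℂ (fun w : ℂ × ℂ => w.2 ^ 3 + b w.1 * w.2 + c w.1) 0 :=
    ((analyticAt_snd.pow 3).add ((an_fst hb).mul analyticAt_snd)).add (an_fst hc)
  have hc00 : c 0 = 0 := by have := hce.self_of_nhds; simpa using this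
  have hM0 : (fun w : ℂ × ℂ => w.2 ^ 3 + b w.1 * w.2 + c w.1) 0 = 0 := by simp [hc00]
  by_cases h0 : β 0 ≠ 0 ∨ γ 0 ≠ 0
  · exact Or.inl (ns_simple hβ hγ hb hc hbe hce h0 hK)
  push Not at h0
  obtain ⟨b3, hb3, hb3e⟩ := pow_step hβ h0.1 hbe
  obtain ⟨c4, hc4, hc4e⟩ := pow_step hγ h0.2 hce
  by_cases h4 : c4 0 ≠ 0
  · -- E6
    left
    have hδ : (0:ℂ) ^ 1 * b3 0 * ((((1:ℕ):ℂ) + ((0:ℕ):ℂ) + 2) * b3 0) ^ 2 +
      3 * 0 ^ 0 * ((((1:ℕ):ℂ) + 2 * ((0:ℕ):ℂ) + 3) * c4 0) ^ 2 = 48 * c4 0 ^ 2 := by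
      push_cast; ring
    have hν : 2 / 3 * (0:ℂ) ^ 1 * b3 0 ^ 2 * ((((1:ℕ):ℂ) + ((0:ℕ):ℂ) + 2) * b3 0) +
      3 * 0 ^ 0 * c4 0 * ((((1:ℕ):ℂ) + 2 * ((0:ℕ):ℂ) + 3) * c4 0) = 12 * c4 0 ^ 2 := by
      push_cast; ring
    have h5 := cubic_field (i := 1) (j := 0) hb3 hc4 hb hc hb3e hc4e hδ.symm
      (mul_ne_zero (by norm_num) (pow_ne_zero 2 h4)) hν.symm
    refine PRes_of_Eul hMa hM0 (h := 12) (by norm_num) (by norm_num) ?_
    have e1 : (1:ℂ) / 3 + 12 * c4 0 ^ 2 / (48 * c4 0 ^ 2) = 1 / 2 + 1 / ((12:ℕ) : ℂ) := by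
      field_simp
      push_cast
      norm_num
    rw [← e1]
    exact h5
  push Not at h4
  obtain ⟨c5, hc5, hc5e⟩ := pow_step hc4 h4 hc4e
  by_cases h5 : b3 0 ≠ 0
  · -- E7
    left
    have hδ : (0:ℂ) ^ 0 * b3 0 * ((((0:ℕ):ℂ) + ((1:ℕ):ℂ) + 2) * b3 0) ^ 2 +
      3 * 0 ^ 1 * ((((0:ℕ):ℂ) + 2 * ((1:ℕ):ℂ) + 3) * c5 0) ^ 2 = 9 * b3 0 ^ 3 := by
      push_cast; ring
    have hν : 2 / 3 * (0:ℂ) ^ 0 * b3 0 ^ 2 * ((((0:ℕ):ℂ) + ((1:ℕ):ℂ) + 2) * b3 0) +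
      3 * 0 ^ 1 * c5 0 * ((((0:ℕ):ℂ) + 2 * ((1:ℕ):ℂ) + 3) * c5 0) = 2 * b3 0 ^ 3 := by
      push_cast; ring
    have h6 := cubic_field (i := 0) (j := 1) hb3 hc5 hb hc hb3e hc5e hδ.symm
      (mul_ne_zero (by norm_num) (pow_ne_zero 3 h5)) hν.symm
    refine PRes_of_Eul hMa hM0 (h := 18) (by norm_num) (by norm_num) ?_
    have e1 : (1:ℂ) / 3 + 2 * b3 0 ^ 3 / (9 * b3 0 ^ 3) = 1 / 2 + 1 / ((18:ℕ) : ℂ) := by
      field_simp
      push_cast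
      norm_num
    rw [← e1]
    exact h6
  push Not at h5
  obtain ⟨b4, hb4, hb4e⟩ := pow_step hb3 h5 hb3e
  by_cases h6 : c5 0 ≠ 0
  · -- E8
    left
    have hδ : (0:ℂ) ^ 2 * b4 0 * ((((2:ℕ):ℂ) + ((0:ℕ):ℂ) + 2) * b4 0) ^ 2 +
      3 * 0 ^ 0 * ((((2:ℕ):ℂ) + 2 * ((0:ℕ):ℂ) + 3) * c5 0) ^ 2 = 75 * c5 0 ^ 2 := by
      push_cast; ring
    have hν : 2 / 3 * (0:ℂ) ^ 2 * b4 0 ^ 2 * ((((2:ℕ):ℂ) + ((0:ℕ):ℂ) + 2) * b4 0) +
      3 * 0 ^ 0 * c5 0 * ((((2:ℕ):ℂ) + 2 * ((0:ℕ):ℂ) + 3) * c5 0) = 15 * c5 0 ^ 2 := by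
      push_cast; ring
    have h7 := cubic_field (i := 2) (j := 0) hb4 hc5 hb hc hb4e hc5e hδ.symm
      (mul_ne_zero (by norm_num) (pow_ne_zero 2 h6)) hν.symm
    refine PRes_of_Eul hMa hM0 (h := 30) (by norm_num) (by norm_num) ?_
    have e1 : (1:ℂ) / 3 + 15 * c5 0 ^ 2 / (75 * c5 0 ^ 2) = 1 / 2 + 1 / ((30:ℕ) : ℂ) := by
      field_simp
      push_cast
      norm_num
    rw [← e1]
    exact h7
  push Not at h6
  obtain ⟨c6, hc6, hc6e⟩ := pow_step hc5 h6 hc5e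
  exact Or.inr ⟨b4, c6, hb4, hc6, hb4e, hc6e⟩

/-- the result in the remaining case -/
def Bad (q : ℂ × ℂ → ℂ) : Prop :=
  ∃ (u : ℂ × ℂ → ℂ) (θ b₄ c₆ : ℂ → ℂ), AnalyticAt ℂ u 0 ∧ u 0 ≠ 0 ∧ AnalyticAt ℂ θ 0 ∧ θ 0 = 0 ∧
    AnalyticAt ℂ b₄ 0 ∧ AnalyticAt ℂ c₆ 0 ∧ ∀ᶠ w in 𝓝 (0 : ℂ × ℂ),
      q w = u w * ((w.2 + θ w.1) ^ 3 + w.1 ^ 4 * b₄ w.1 * (w.2 + θ w.1) + w.1 ^ 6 * c₆ w.1)

theorem ns_ord3 {q : ℂ × ℂ → ℂ} (hq : AnalyticAt ℂ q 0)
    (hn : analyticOrderAt (fun w : ℂ => q (0, w)) 0 = 3)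
    {C : ℝ} (hC : 0 < C) (hbd : ∀ᶠ w in 𝓝 (0 : ℂ × ℂ), ‖q w‖ ≤ C * ‖w‖ ^ 3) (hK : NS q) :
    PRes q ∨ Bad q := by
  obtain ⟨u, a₀, a₁, a₂, hu, hu0, ha₀, ha₁, ha₂, h00, h10, h20, he⟩ := wprep3 hq hn
  set b : ℂ → ℂ := fun y => a₁ y - a₂ y ^ 2 / 3 with hb
  set c : ℂ → ℂ := fun y => a₀ y - a₁ y * a₂ y / 3 + 2 * a₂ y ^ 3 / 27 with hc
  have hba : AnalyticAt ℂ b 0 := ha₁.sub ((ha₂.pow 2).div analyticAt_const (by norm_num))
  have hca : AnalyticAt ℂ c 0 :=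
    (ha₀.sub ((ha₁.mul ha₂).div analyticAt_const (by norm_num))).add
      ((analyticAt_const.mul (ha₂.pow 3)).div analyticAt_const (by norm_num))
  have hb0 : b 0 = 0 := by simp [hb, h10, h20]
  have hc0 : c 0 = 0 := by simp [hc, h00, h10, h20]
  set M : ℂ × ℂ → ℂ := fun w => w.2 ^ 3 + b w.1 * w.2 + c w.1 with hM
  have hMa : AnalyticAt ℂ M 0 :=
    ((analyticAt_snd.pow 3).add ((an_fst hba).mul analyticAt_snd)).add (an_fst hca)
  set θ : ℂ → ℂ := fun y => a₂ y / 3 with hθ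
  have hθa : AnalyticAt ℂ θ 0 := ha₂.div analyticAt_const (by norm_num)
  have hθ0 : θ 0 = 0 := by simp [hθ, h20]
  have hL := LB_shear hθa hθ0
  have hMs : AnalyticAt ℂ (fun w : ℂ × ℂ => M (shear θ w)) 0 := by
    refine AnalyticAt.comp (g := M) (f := shear θ) ?_ hL.an
    rw [hL.map0]; exact hMa
  have heq : ∀ᶠ w in 𝓝 (0 : ℂ × ℂ), q w = u w * M (shear θ w) := by
    filter_upwards [he] with w hw
    rw [hw]
    simp only [hM, shear, hb, hc, hθ]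
    ring
  -- the bound for `M`
  obtain ⟨C', hC', hMb⟩ : ∃ C' : ℝ, 0 < C' ∧ ∀ᶠ w in 𝓝 (0 : ℂ × ℂ), ‖M w‖ ≤ C' * ‖w‖ ^ 3 := by
    have hO : (fun w => shear (fun z => - θ z) w) =O[𝓝 0] (fun w : ℂ × ℂ => w) := by
      have := hL.an'.differentiableAt.hasFDerivAt.isBigO_sub
      simpa [hL.map0'] using this
    obtain ⟨K, hK0, hK'⟩ := hO.exists_pos
    have huinv : ∀ᶠ w in 𝓝 (0 : ℂ × ℂ), ‖u 0‖ / 2 ≤ ‖u w‖ := by
      have hu0' : 0 < ‖u 0‖ := norm_pos_iff.2 hu0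
      have := (continuousAt_const (y := ‖u 0‖ / 2)).eventually_lt hu.continuousAt.norm (by linarith)
      filter_upwards [this] with w hw using hw.le
    have hu0' : 0 < ‖u 0‖ := norm_pos_iff.2 hu0
    refine ⟨C * K ^ 3 / (‖u 0‖ / 2), by positivity, ?_⟩
    filter_upwards [hK'.bound, hL.symm.tendsto.eventually heq, hL.symm.tendsto.eventually hbd,
      hL.symm.tendsto.eventually huinv, hL.right] with w h1 h2 h3 h4 h5
    rw [h5] at h2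
    rw [div_mul_eq_mul_div, le_div_iff₀ (by positivity)]
    calc ‖M w‖ * (‖u 0‖ / 2) ≤ ‖M w‖ * ‖u (shear (fun z => - θ z) w)‖ := by gcongr
      _ = ‖q (shear (fun z => - θ z) w)‖ := by rw [h2, norm_mul, mul_comm]
      _ ≤ C * ‖shear (fun z => - θ z) w‖ ^ 3 := h3
      _ ≤ C * (K * ‖w‖) ^ 3 := by gcongr
      _ = C * K ^ 3 * ‖w‖ ^ 3 := by ring
  have hcb : ∀ᶠ y in 𝓝 (0 : ℂ), ‖c y‖ ≤ C' * ‖y‖ ^ 3 := by
    have t1 : Tendsto (fun y : ℂ => (y, (0 : ℂ))) (𝓝 0) (𝓝 (0 : ℂ × ℂ)) :=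
      (by fun_prop : Continuous (fun y : ℂ => (y, (0 : ℂ)))).tendsto' _ _ rfl
    filter_upwards [t1.eventually hMb] with y hy
    simpa [hM, Prod.norm_def] using hy
  have hbb : ∀ᶠ y in 𝓝 (0 : ℂ), ‖b y‖ ≤ (C' + 1 + C') * ‖y‖ ^ 2 := by
    have t1 : Tendsto (fun y : ℂ => (y, y)) (𝓝 0) (𝓝 (0 : ℂ × ℂ)) :=
      (by fun_prop : Continuous (fun y : ℂ => (y, y))).tendsto' _ _ rfl
    filter_upwards [t1.eventually hMb, hcb] with y hy hy2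
    rcases eq_or_ne y 0 with rfl | hy0
    · simp [hb0]
    have hyp : 0 < ‖y‖ := norm_pos_iff.2 hy0
    have h1 : ‖M (y, y)‖ ≤ C' * ‖y‖ ^ 3 := by simpa [Prod.norm_def] using hy
    have h2 : b y * y = M (y, y) - y ^ 3 - c y := by simp only [hM]; ring
    have h3 : ‖b y‖ * ‖y‖ ≤ (C' + 1 + C') * ‖y‖ ^ 2 * ‖y‖ := by
      rw [← norm_mul, h2]
      calc ‖M (y, y) - y ^ 3 - c y‖ ≤ ‖M (y, y)‖ + ‖y ^ 3‖ + ‖c y‖ :=
            (norm_sub_le _ _).trans (by gcongr; exact norm_sub_le _ _)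
        _ ≤ C' * ‖y‖ ^ 3 + ‖y‖ ^ 3 + C' * ‖y‖ ^ 3 := by rw [norm_pow]; gcongr
        _ = (C' + 1 + C') * ‖y‖ ^ 2 * ‖y‖ := by ring
    exact le_of_mul_le_mul_right h3 hyp
  obtain ⟨β, hβ, hβe⟩ := exists_pow_mul_of_bound hba hbb
  obtain ⟨γ, hγ, hγe⟩ := exists_pow_mul_of_bound hca hcb
  -- `NS` for the model
  have hNM : NS M := by
    have h1 : NS (fun w => u w * M (shear θ w)) := hK.congr heq
    have h2 : NS (fun w => M (shear θ w)) := NS.of_unit_mul hMs hu h1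
    have h3 : NS (fun w => (fun w => M (shear θ w)) (shear (fun z => - θ z) w)) :=
      h2.comp hMs hL.symm
    exact h3.congr (by
      filter_upwards [hL.right] with w hw
      simp only [hw])
  rcases ns_cubic hba hca hβ hγ hβe hγe hNM with h | ⟨b₄, c₆, hb₄, hc₆, hbe, hce⟩
  · left
    exact ((h.comp hMa hL).unit_mul hMs hu hu0).congr (by
      filter_upwards [heq] with w hw using hw.symm)
  · right
    refine ⟨u, θ, b₄, c₆, hu, hu0, hθa, hθ0, hb₄, hc₆, ?_⟩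
    filter_upwards [heq, ev_fst hbe, ev_fst hce] with w h1 h2 h3
    rw [h1]
    simp only [hM, shear, h2, h3]

end Crest.Agent.R257.Cl2_475
end
end

-- ▼ part R257/Cl2B_475

/-!
R257 / Cl2B_475: germs `f` in three variables with `f ∘ Ψ = φ(z,y) + x² U`, `U 0 ≠ 0`:
smoothness of `{φ = 0}` off the origin, and `Klt f` when `φ` has an Euler field of trace
`1/2 + 1/h`.
-/

set_option autoImplicit false
set_option linter.unusedSectionVars false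
set_option linter.deprecated false

open Set Filter Topology Metric MeasureTheory
open scoped ENNReal
open Crest.AlgGeometry.Germ

noncomputable section

namespace Crest.Agent.R257.Cl2_475

open Crest.Agent.R257.Kp_405 Crest.Agent.R257.Defs_219

/-- `φ` is a reduced plane germ of `f`: in suitable analytic coordinates `f = φ(z,y) + x² U` -/
def Red (f : E3 → ℂ) (φ : ℂ × ℂ → ℂ) : Prop :=
  AnalyticAt ℂ φ 0 ∧ ∃ (Ψ : (ℂ × ℂ) × ℂ → E3) (Ψ' : E3 → (ℂ × ℂ) × ℂ) (U : (ℂ × ℂ) × ℂ → ℂ),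
    LB Ψ Ψ' ∧ AnalyticAt ℂ U 0 ∧ U 0 ≠ 0 ∧
      ∀ᶠ q in 𝓝 (0 : (ℂ × ℂ) × ℂ), f (Ψ q) = φ q.1 + q.2 ^ 2 * U q

lemma an_comp_LB {E F : Type*} [NormedAddCommGroup E] [NormedSpace ℂ E] [FiniteDimensional ℂ E]
    [NormedAddCommGroup F] [NormedSpace ℂ F] [FiniteDimensional ℂ F] {f : F → ℂ}
    (hf : AnalyticAt ℂ f 0) {Φ : E → F} {Ψ : F → E} (h : LB Φ Ψ) :
    AnalyticAt ℂ (fun w => f (Φ w)) 0 :=
  AnalyticAt.comp (g := f) (f := Φ) (by rw [h.map0]; exact hf) h.an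

lemma tendsto_emb : Tendsto (fun w : ℂ × ℂ => (w, (0 : ℂ))) (𝓝 0) (𝓝 (0 : (ℂ × ℂ) × ℂ)) :=
  (by fun_prop : Continuous (fun w : ℂ × ℂ => (w, (0 : ℂ)))).tendsto' _ _ rfl

/-- the zero set of the reduced germ is smooth off the origin -/
theorem Red.ns {f : E3 → ℂ} {φ : ℂ × ℂ → ℂ} (hf : Iso f) (h : Red f φ) : NS φ := by
  obtain ⟨hφ, Ψ, Ψ', U, hL, hU, hU0, he⟩ := h
  have hiso : ∀ᶠ x in 𝓝 (0 : E3), x ≠ 0 → ∃ j, coordDeriv f j x ≠ 0 :=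
    eventually_nhdsWithin_iff.1 (KlE_540.isolated' hf.an hf.fin)
  have t2 := hL.tendsto.comp tendsto_emb
  unfold NS
  filter_upwards [t2.eventually hiso, tendsto_emb.eventually he.eventually_nhds,
    tendsto_emb.eventually hL.left, tendsto_emb.eventually hL.fderiv_comp,
    tendsto_emb.eventually hL.an.eventually_analyticAt, hφ.eventually_analyticAt,
    tendsto_emb.eventually hU.eventually_analyticAt,
    t2.eventually hf.an.eventually_analyticAt] with w a b c d e g k l h0 h1 h2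
  have hne : Ψ (w, 0) ≠ 0 := by
    intro h3
    rw [h3, hL.map0'] at c
    exact h0 (congrArg Prod.fst c).symm
  obtain ⟨j, hj⟩ := a hne
  apply hj
  -- the derivative of the model
  have e1 : HasFDerivAt (fun q : (ℂ × ℂ) × ℂ => φ q.1)
      ((fderiv ℂ φ w).comp (ContinuousLinearMap.fst ℂ (ℂ × ℂ) ℂ)) (w, 0) := by
    have : HasFDerivAt φ (fderiv ℂ φ w) (((w, (0 : ℂ)) : (ℂ × ℂ) × ℂ)).1 :=
      g.differentiableAt.hasFDerivAt
    exact this.comp (w, (0 : ℂ)) hasFDerivAt_fst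
  have e2 : HasFDerivAt (fun q : (ℂ × ℂ) × ℂ => q.2 ^ 2)
      ((2 * (0 : ℂ)) • (ContinuousLinearMap.snd ℂ (ℂ × ℂ) ℂ)) (w, 0) := by
    have := (hasFDerivAt_snd (𝕜 := ℂ) (E := ℂ × ℂ) (F := ℂ) (p := (w, (0 : ℂ)))).pow 2
    refine this.congr_fderiv ?_
    ext v <;> simp
  have e3 := e1.add (e2.mul k.differentiableAt.hasFDerivAt)
  have e4 : HasFDerivAt (fun q => f (Ψ q)) (0 : (ℂ × ℂ) × ℂ →L[ℂ] ℂ) (w, 0) := by
    have e5 := e3.congr_of_eventuallyEq (f₁ := fun q => f (Ψ q)) b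
    refine e5.congr_fderiv ?_
    rw [h2]
    ext v <;> simp
  have e6 : HasFDerivAt (fun q => f (Ψ q)) ((fderiv ℂ f (Ψ (w, 0))).comp (fderiv ℂ Ψ (w, 0)))
      (w, 0) := by
    have : HasFDerivAt f (fderiv ℂ f (Ψ (w, 0))) (Ψ (w, 0)) := l.differentiableAt.hasFDerivAt
    exact this.comp (w, (0 : ℂ)) e.differentiableAt.hasFDerivAt
  have e7 := e6.unique e4
  have e8 : fderiv ℂ f (Ψ (w, 0)) = 0 := by
    have e9 := congrArg (fun T : (ℂ × ℂ) × ℂ →L[ℂ] ℂ => T.comp (fderiv ℂ Ψ' (Ψ (w, 0)))) e7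
    simp only [ContinuousLinearMap.zero_comp, ContinuousLinearMap.comp_assoc, d] at e9
    exact e9
  change fderiv ℂ f (Ψ (w, 0)) (Pi.single j 1) = 0
  rw [e8]
  rfl

/-- Euler fields of the reduced germ -/
theorem Red.eul {f : E3 → ℂ} {φ : ℂ × ℂ → ℂ} (hf : AnalyticAt ℂ f 0) (h : Red f φ) {τ : ℂ}
    (hE : Eul φ τ) : Eul f (τ + 1 / 2) := by
  obtain ⟨hφ, Ψ, Ψ', U, hL, hU, hU0, he⟩ := h
  obtain ⟨r, hr, hr0, hre⟩ := LCc_472.exists_sqrt hU hU0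
  set S : (ℂ × ℂ) × ℂ → (ℂ × ℂ) × ℂ := fun q => (q.1, q.2 * r q) with hS
  have hSa : AnalyticAt ℂ S 0 := analyticAt_fst.prod (analyticAt_snd.mul hr)
  have hS0 : S 0 = 0 := by simp [hS]
  have hSd : HasFDerivAt S ((ContinuousLinearMap.fst ℂ (ℂ × ℂ) ℂ).prod
      (r 0 • ContinuousLinearMap.snd ℂ (ℂ × ℂ) ℂ)) 0 := by
    have e1 := (hasFDerivAt_snd (𝕜 := ℂ) (E := ℂ × ℂ) (F := ℂ) (p := (0 : (ℂ × ℂ) × ℂ))).mul
      hr.differentiableAt.hasFDerivAt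
    have e2 := (hasFDerivAt_fst (𝕜 := ℂ) (E := ℂ × ℂ) (F := ℂ)
      (p := (0 : (ℂ × ℂ) × ℂ))).prodMk e1
    refine e2.congr_fderiv ?_
    ext v <;> simp
  have hSi : Function.Injective (fderiv ℂ S 0) := by
    rw [hSd.fderiv, injective_iff_map_eq_zero]
    rintro ⟨v, s⟩ hv
    have h1 : v = 0 := congrArg Prod.fst hv
    have h2 : r 0 * s = 0 := congrArg Prod.snd hv
    rw [h1, (mul_eq_zero.1 h2).resolve_left hr0]
    rfl
  obtain ⟨T, hT, hT0, hST, hTS⟩ := LCa_472.exists_inv hSa hS0 hSi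
  have hSL : LB S T := ⟨hSa, hT, hS0, hT0, hTS, hST⟩
  set H : (ℂ × ℂ) × ℂ → ℂ := fun w => φ w.1 + w.2 ^ 2 with hH
  have hHa : AnalyticAt ℂ H 0 :=
    (AnalyticAt.comp (g := φ) (f := Prod.fst) hφ analyticAt_fst).add (analyticAt_snd.pow 2)
  have h1 : Eul H (τ + 1 / 2) := hE.add_sq hφ
  have h2 : Eul (fun q => f (Ψ q)) (τ + 1 / 2) := (h1.comp hHa hSL).congr (by
    filter_upwards [he, hre] with q a b
    rw [a, ← b]
    simp only [hH, hS]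
    ring)
  have h3 := h2.comp (an_comp_LB hf hL) hL.symm
  exact h3.congr (by
    filter_upwards [hL.right] with x hx
    simp only [hx])

theorem Red.klt {f : E3 → ℂ} {φ : ℂ × ℂ → ℂ} (hf : Iso f) (h : Red f φ) (hφ : PRes φ) :
    InJ 1 f (fun _ => 1) := by
  obtain ⟨n, k, h1, -, hE, -⟩ := hφ
  obtain ⟨a, ha, -, hae, hat⟩ := eul_coord (h.eul hf.an hE)
  refine KlD_540.klt_of_field hf.an (KlE_540.isolated' hf.an hf.fin) ha hae ?_
  rw [hat]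
  have h3 : ((1 : ℂ) / 2 + 1 / (n : ℂ) + 1 / 2).re = 1 + 1 / (n : ℝ) := by
    have : (1 : ℂ) / 2 + 1 / (n : ℂ) + 1 / 2 = ((1 + 1 / (n : ℝ) : ℝ) : ℂ) := by push_cast; ring
    rw [this, Complex.ofReal_re]
  rw [h3]
  have h4 : (0 : ℝ) < n := by exact_mod_cast h1
  have : 0 < 1 / (n : ℝ) := by positivity
  linarith

/-- reduction at the critical point of the last coordinate -/
theorem red_of_crit {f : E3 → ℂ} (hf : AnalyticAt ℂ f 0) {Λ : (ℂ × ℂ) × ℂ → E3}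
    {Λ' : E3 → (ℂ × ℂ) × ℂ} (hΛ : LB Λ Λ') {X : ℂ × ℂ → ℂ} (hX : AnalyticAt ℂ X 0) (hX0 : X 0 = 0)
    (hcrit : ∀ᶠ w in 𝓝 (0 : ℂ × ℂ),
      fderiv ℂ (fun q : (ℂ × ℂ) × ℂ => f (Λ q)) (w, X w) (0, 1) = 0)
    (hf0 : f 0 = 0) (hord : analyticOrderAt (fun z : ℂ => f (Λ (0, z))) 0 = 2) :
    Red f (fun w => f (Λ (w, X w))) := by
  set g : (ℂ × ℂ) × ℂ → ℂ := fun q => f (Λ q) with hg
  have hga : AnalyticAt ℂ g 0 := an_comp_LB hf hΛ
  -- the shear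
  set S : (ℂ × ℂ) × ℂ → (ℂ × ℂ) × ℂ := shear X with hS
  have hSL := LB_shear hX hX0
  set G : (ℂ × ℂ) × ℂ → ℂ := fun q => g (q.1, q.2 + X q.1) with hG
  have hGa : AnalyticAt ℂ G 0 := an_comp_LB (f := f) hf (hΛ.comp hSL)
  have tX : Tendsto (fun w : ℂ × ℂ => (w, X w)) (𝓝 0) (𝓝 (0 : (ℂ × ℂ) × ℂ)) := by
    have h1 : ContinuousAt (fun w : ℂ × ℂ => (w, X w)) 0 := continuousAt_id.prodMk hX.continuousAt
    have h2 := h1.tendsto
    rw [hX0] at h2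
    exact h2
  have hc : ∀ᶠ w in 𝓝 (0 : ℂ × ℂ), fderiv ℂ G (w, 0) (0, 1) = 0 := by
    filter_upwards [hcrit, tX.eventually hga.eventually_analyticAt, hX.eventually_analyticAt]
      with w h1 h2 h3
    have a1 : HasDerivAt (fun s : ℂ => ((w, s + X w) : (ℂ × ℂ) × ℂ)) (0, 1) 0 :=
      (hasDerivAt_const (0 : ℂ) w).prodMk ((hasDerivAt_id (0 : ℂ)).add_const (X w))
    have a2 : HasDerivAt (fun s : ℂ => g (w, s + X w)) (fderiv ℂ g (w, X w) (0, 1)) 0 := by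
      have : HasFDerivAt g (fderiv ℂ g (w, X w)) ((fun s : ℂ => ((w, s + X w) : (ℂ × ℂ) × ℂ)) 0) := by
        simp only [zero_add]
        exact h2.differentiableAt.hasFDerivAt
      exact this.comp_hasDerivAt 0 a1
    have a3 : DifferentiableAt ℂ G (w, 0) := by
      have b1 : DifferentiableAt ℂ (fun q : (ℂ × ℂ) × ℂ => (q.1, q.2 + X q.1)) (w, (0 : ℂ)) := by
        have : DifferentiableAt ℂ (fun q : (ℂ × ℂ) × ℂ => X q.1) (w, (0 : ℂ)) :=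
          DifferentiableAt.comp (g := X) (w, (0 : ℂ)) h3.differentiableAt differentiableAt_fst
        exact differentiableAt_fst.prodMk (differentiableAt_snd.add this)
      have b2 : DifferentiableAt ℂ g ((fun q : (ℂ × ℂ) × ℂ => (q.1, q.2 + X q.1)) (w, (0 : ℂ))) := by
        simp only [zero_add]
        exact h2.differentiableAt
      exact DifferentiableAt.comp (g := g)
        (f := fun q : (ℂ × ℂ) × ℂ => (q.1, q.2 + X q.1)) (w, (0 : ℂ)) b2 b1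
    have a4 : HasDerivAt (fun s : ℂ => G (w, s)) (fderiv ℂ G (w, 0) (0, 1)) 0 := by
      have b1 : HasDerivAt (fun s : ℂ => ((w, s) : (ℂ × ℂ) × ℂ)) (0, 1) 0 :=
        (hasDerivAt_const (0 : ℂ) w).prodMk (hasDerivAt_id (0 : ℂ))
      exact (show HasFDerivAt G (fderiv ℂ G (w, 0)) ((fun s : ℂ => ((w, s) : (ℂ × ℂ) × ℂ)) 0) from
        a3.hasFDerivAt).comp_hasDerivAt 0 b1
    rw [← a2.unique a4] at *
    exact h1
  obtain ⟨U, hU, hUe⟩ := LCc_472.taylor_two (E := ℂ × ℂ) hGa hc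
  have hφ : AnalyticAt ℂ (fun w => g (w, X w)) 0 := by
    have : AnalyticAt ℂ (fun w : ℂ × ℂ => G (w, 0)) 0 :=
      AnalyticAt.comp (g := G) (f := fun w : ℂ × ℂ => (w, (0 : ℂ))) hGa
        (analyticAt_id.prod analyticAt_const)
    simpa [hG] using this
  refine ⟨hφ, fun q => Λ (S q), fun x => shear (fun z => - X z) (Λ' x), U, hΛ.comp hSL, hU, ?_, ?_⟩
  · intro hU0
    have t1 : Tendsto (fun z : ℂ => ((0 : ℂ × ℂ), z)) (𝓝 0) (𝓝 (0 : (ℂ × ℂ) × ℂ)) :=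
      (by fun_prop : Continuous (fun z : ℂ => ((0 : ℂ × ℂ), z))).tendsto' _ _ rfl
    have h1 : ∀ᶠ z in 𝓝 (0 : ℂ), f (Λ (0, z)) = z ^ 2 * U (0, z) := by
      filter_upwards [t1.eventually hUe] with z hz
      have h2 : G (0, 0) = 0 := by
        simp only [hG, hg, hX0, add_zero]
        change f (Λ 0) = 0
        rw [hΛ.map0, hf0]
      have h3 : G ((0 : ℂ × ℂ), z) = f (Λ (0, z)) := by
        simp only [hG, hg, hX0, add_zero]
      rw [← h3, hz]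
      change G ((0 : ℂ × ℂ), (0 : ℂ)) + z ^ 2 * U (0, z) = _
      rw [h2, zero_add]
    have hUz : AnalyticAt ℂ (fun z : ℂ => U ((0 : ℂ × ℂ), z)) 0 :=
      AnalyticAt.comp (g := U) (f := fun z : ℂ => ((0 : ℂ × ℂ), z)) hU
        (analyticAt_const.prod analyticAt_id)
    have hfz : AnalyticAt ℂ (fun z : ℂ => f (Λ (0, z))) 0 :=
      AnalyticAt.comp (g := g) (f := fun z : ℂ => ((0 : ℂ × ℂ), z)) hga
        (analyticAt_const.prod analyticAt_id)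
    obtain ⟨g', hg', he'⟩ := pow_step hUz hU0 h1
    have h4 : ((3 : ℕ) : ℕ∞) ≤ analyticOrderAt (fun z : ℂ => f (Λ (0, z))) 0 := by
      rw [natCast_le_analyticOrderAt hfz]
      refine ⟨g', hg', ?_⟩
      filter_upwards [he'] with z hz
      rw [hz, sub_zero, smul_eq_mul]
    rw [hord] at h4
    exact absurd h4 (by norm_num)
  · filter_upwards [hUe] with q hq
    have h1 : f (Λ (S q)) = G q := by simp only [hG, hg, hS, shear]
    rw [h1, hq]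
    simp only [hG, hg, zero_add]

end Crest.Agent.R257.Cl2_475
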