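import Crest.Agent.R257.KED_952
import Crest.Agent.R257.SkelD_219

-- ▼ part R257/SkelV1_952
section

/-!
R257 / SkelV1_952: elementary lemmas on `Cv0`, `CtL` and the splitting of the second Chern integral.
-/

set_option autoImplicit false

open Topology Filter MeasureTheory Set
open scoped ENNReal ContDiff Matrix

noncomputable section

namespace Crest.Agent.R257.SkelV_952

open Crest.Agent.R275.Geo
open Crest.Agent.R257.Defs_219 Crest.Agent.R257.KED_952
open Crest.Agent.R273.Defs_333 (lev)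
open Crest.Agent.R273.YauDefs_635 (cH)
open Crest.Agent.R257.PN_835 (nsq)
open Crest.Agent.R257.Aff_835 (eta2a nga)
open Crest.Agent.R257.C2F1_625 (c2)

/-! ### uniform convergence -/

theorem tu_mul {ι α : Type*} {l : Filter ι} {F G : ι → α → ℝ} {f g : α → ℝ} {K : Set α}
    (hF : TendstoUniformlyOn F f l K) (hG : TendstoUniformlyOn G g l K)
    (hf : ∃ C, ∀ x ∈ K, |f x| ≤ C) (hg : ∃ C, ∀ x ∈ K, |g x| ≤ C) :
    TendstoUniformlyOn (fun i x => F i x * G i x) (fun x => f x * g x) l K := by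
  obtain ⟨A, hA⟩ := hf
  obtain ⟨B, hB⟩ := hg
  rw [Metric.tendstoUniformlyOn_iff] at *
  intro ε hε
  set M : ℝ := |A| + |B| + 2 with hM
  have hM0 : 0 < M := by positivity
  have hδ : 0 < min 1 (ε / (2 * M)) := lt_min one_pos (by positivity)
  filter_upwards [hF _ hδ, hG _ hδ] with i h1 h2 x hx
  have a1 := h1 x hx
  have a2 := h2 x hx
  rw [Real.dist_eq] at a1 a2 ⊢
  have b1 : |f x - F i x| < ε / (2 * M) := lt_of_lt_of_le a1 (min_le_right _ _)
  have b2 : |g x - G i x| < ε / (2 * M) := lt_of_lt_of_le a2 (min_le_right _ _)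
  have b3 : |g x - G i x| < 1 := lt_of_lt_of_le a2 (min_le_left _ _)
  have c1 : |f x| ≤ M := (hA x hx).trans ((le_abs_self A).trans (by rw [hM]; linarith [abs_nonneg B]))
  have c2 : |G i x| ≤ M := by
    have h3 : |G i x| ≤ |g x| + |g x - G i x| := by
      have := abs_sub_abs_le_abs_sub (G i x) (g x)
      rw [abs_sub_comm] at this
      linarith
    have h4 : |g x| ≤ |B| := (hB x hx).trans (le_abs_self B)
    rw [hM]
    linarith [abs_nonneg A]
  have e : f x * g x - F i x * G i x = (f x - F i x) * G i x + f x * (g x - G i x) := by ring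
  rw [e]
  calc |(f x - F i x) * G i x + f x * (g x - G i x)|
      ≤ |f x - F i x| * |G i x| + |f x| * |g x - G i x| := by
        refine (abs_add_le _ _).trans ?_
        rw [abs_mul, abs_mul]
    _ ≤ |f x - F i x| * M + M * |g x - G i x| := by gcongr
    _ < ε / (2 * M) * M + M * (ε / (2 * M)) := by
        have := mul_lt_mul_of_pos_right b1 hM0
        have := mul_lt_mul_of_pos_left b2 hM0
        linarith
    _ = ε := by field_simp; ring

theorem tu_exp {ι α : Type*} {l : Filter ι} {F : ι → α → ℝ} {f : α → ℝ} {K : Set α}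
    (hF : TendstoUniformlyOn F f l K) (hf : ∃ C, ∀ x ∈ K, |f x| ≤ C) :
    TendstoUniformlyOn (fun i x => Real.exp (F i x)) (fun x => Real.exp (f x)) l K := by
  obtain ⟨A, hA⟩ := hf
  rw [Metric.tendstoUniformlyOn_iff] at *
  intro ε hε
  have hc : UniformContinuousOn Real.exp (Icc (-(A + 1)) (A + 1)) :=
    isCompact_Icc.uniformContinuousOn_of_continuous Real.continuous_exp.continuousOn
  rw [Metric.uniformContinuousOn_iff] at hc
  obtain ⟨δ, hδ, h⟩ := hc ε hε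
  filter_upwards [hF (min δ 1) (lt_min hδ one_pos)] with i hi x hx
  have a := hi x hx
  have a0 := hA x hx
  have a1 : |f x - F i x| < 1 := by
    rw [← Real.dist_eq]
    exact a.trans_le (min_le_right _ _)
  rw [abs_le] at a0
  rw [abs_lt] at a1
  exact h _ ⟨by linarith, by linarith⟩ _ ⟨by linarith, by linarith⟩ (a.trans_le (min_le_left _ _))

/-- joint continuity gives uniform convergence on compact sets -/
theorem tu_of_cont {α : Type*} [TopologicalSpace α] {g : α × PP → ℝ} {O : Set α} {N : Set PP}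
    {τ₀ : PP} (hN : N ∈ 𝓝 τ₀) (hg : ContinuousOn g (O ×ˢ N)) {l : Filter PP} (hl : l ≤ 𝓝 τ₀)
    {K : Set α} (hK : K ⊆ O) (hKc : IsCompact K) :
    TendstoUniformlyOn (fun τ z => g (z, τ)) (fun z => g (z, τ₀)) l K := by
  have h1 : ContinuousOn (Function.uncurry fun (τ : PP) (z : α) => g (z, τ)) (N ×ˢ K) := by
    have : (Function.uncurry fun (τ : PP) (z : α) => g (z, τ)) = g ∘ Prod.swap := by
      funext p; rfl
    rw [this]
    exact hg.comp continuous_swap.continuousOn fun p hp => ⟨hK hp.2, hp.1⟩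
  intro u hu
  obtain ⟨v, hv, h2⟩ := hKc.mem_uniformity_of_prod h1 (mem_of_mem_nhds hN) (symm_le_uniformity hu)
  rw [nhdsWithin_eq_nhds.2 hN] at hv
  filter_upwards [hl hv] with τ hτ z hz
  exact h2 τ hτ z hz

section

variable {Φ : E3 × PP → ℂ} {r : ℝ} {l : Filter PP} {τ₀ : PP} {v w : PP → E3 → ℝ} {a b : E3 → ℝ}

theorem chart_cont {O : Set (Cn 2)} {N : Set PP} {Θ : Cn 2 × PP → E3} (h : Chart Φ r τ₀ O N Θ) :
    ContinuousOn Θ (O ×ˢ N) := h.an.continuousOn

theorem chart_par0 {O : Set (Cn 2)} {N : Set PP} {Θ : Cn 2 × PP → E3} (h : Chart Φ r τ₀ O N Θ) :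
    PE (fun x => Φ (x, τ₀)) 0 r (fun z => Θ (z, τ₀)) O := h.par τ₀ (mem_of_mem_nhds h.nhd)

theorem bdd_of_ct {O : Set (Cn 2)} {g : Cn 2 → ℝ} (hg : ContinuousOn g O) {K : Set (Cn 2)}
    (hK : K ⊆ O) (hKc : IsCompact K) : ∃ C, ∀ x ∈ K, |g x| ≤ C := by
  obtain ⟨C, hC⟩ := hKc.exists_bound_of_continuousOn (hg.mono hK)
  exact ⟨C, fun x hx => by simpa using hC x hx⟩

theorem Cv0.mul (hv : Cv0 Φ r l τ₀ v a) (hw : Cv0 Φ r l τ₀ w b)
    (ha : CtL (fun x => Φ (x, τ₀)) 0 r a) (hb : CtL (fun x => Φ (x, τ₀)) 0 r b) :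
    Cv0 Φ r l τ₀ (fun τ x => v τ x * w τ x) (fun x => a x * b x) := by
  intro O N Θ hΘ K hK hKc
  exact tu_mul (hv O N Θ hΘ K hK hKc) (hw O N Θ hΘ K hK hKc)
    (bdd_of_ct (ha _ _ (chart_par0 hΘ)) hK hKc) (bdd_of_ct (hb _ _ (chart_par0 hΘ)) hK hKc)

theorem Cv0.sub (hv : Cv0 Φ r l τ₀ v a) (hw : Cv0 Φ r l τ₀ w b) :
    Cv0 Φ r l τ₀ (fun τ x => v τ x - w τ x) (fun x => a x - b x) := by
  intro O N Θ hΘ K hK hKc
  exact (hv O N Θ hΘ K hK hKc).sub (hw O N Θ hΘ K hK hKc)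

theorem Cv0.exp (hv : Cv0 Φ r l τ₀ v a) (ha : CtL (fun x => Φ (x, τ₀)) 0 r a) :
    Cv0 Φ r l τ₀ (fun τ x => Real.exp (v τ x)) (fun x => Real.exp (a x)) := by
  intro O N Θ hΘ K hK hKc
  exact tu_exp (hv O N Θ hΘ K hK hKc) (bdd_of_ct (ha _ _ (chart_par0 hΘ)) hK hKc)

theorem cv0_amb (hl : l ≤ 𝓝 τ₀) {χ : E3 → ℝ} (hχ : Continuous χ) :
    Cv0 Φ r l τ₀ (fun _ => χ) χ := by
  intro O N Θ hΘ K hK hKc
  exact tu_of_cont (g := fun p => χ (Θ p)) hΘ.nhd (hχ.comp_continuousOn (chart_cont hΘ)) hl hK hKc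

theorem cv0_of_conv (h : Conv Φ r l τ₀ w b) : Cv0 Φ r l τ₀ w b := by
  intro O N Θ hΘ K hK hKc
  have h1 := h O N Θ hΘ 0 K hK hKc
  rw [Metric.tendstoUniformlyOn_iff] at h1 ⊢
  intro ε hε
  filter_upwards [h1 ε hε] with τ hτ z hz
  have h2 := hτ z hz
  rw [dist_eq_norm, iteratedFDeriv_zero_eq_comp, iteratedFDeriv_zero_eq_comp,
    Function.comp_apply, Function.comp_apply, ← map_sub, LinearIsometryEquiv.norm_map] at h2
  rw [dist_eq_norm]
  exact h2

end

/-! ### continuity on the levels -/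

section

variable {f : E3 → ℂ} {s : ℂ} {r : ℝ} {a b : E3 → ℝ}

theorem pe_cont {θ : Cn 2 → E3} {O : Set (Cn 2)} (h : PE f s r θ O) : ContinuousOn θ O :=
  h.par.hol.continuousOn

theorem CtL.mul (ha : CtL f s r a) (hb : CtL f s r b) : CtL f s r fun x => a x * b x :=
  fun θ O h => (ha θ O h).mul (hb θ O h)

theorem CtL.sub (ha : CtL f s r a) (hb : CtL f s r b) : CtL f s r fun x => a x - b x :=
  fun θ O h => (ha θ O h).sub (hb θ O h)

theorem CtL.exp (ha : CtL f s r a) : CtL f s r fun x => Real.exp (a x) :=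
  fun θ O h => Real.continuous_exp.comp_continuousOn (ha θ O h)

theorem ctl_amb (ha : Continuous a) : CtL f s r a := fun _ _ h => ha.comp_continuousOn (pe_cont h)

theorem ctl_ke {u : E3 → ℝ} (h : KEon f s r u) : CtL f s r u := fun θ O hθ =>
  (h.sm θ O hθ).continuousOn

end

end Crest.Agent.R257.SkelV_952
end
end

-- ▼ part R257/SkelV2_952

/-!
R257 / SkelV2_952: the globalised family as a family of levels (`Fam`), cut-offs, splitting of the
second Chern integral.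
-/

set_option autoImplicit false

open Topology Filter MeasureTheory Set
open scoped ENNReal ContDiff Matrix
open Crest.AlgGeometry.Germ

noncomputable section

namespace Crest.Agent.R257.SkelV_952

open Crest.Agent.R275.Geo
open Crest.Agent.R257.Defs_219 Crest.Agent.R257.KED_952
open Crest.Agent.R257.Skel_219 (eval_eq_sum analyticAt_sl fderiv_ne)
open Crest.Agent.R257.PN_835 (nsq)

/-! ### splitting -/

theorem isnu_ae {f : E3 → ℂ} {s : ℂ} {r : ℝ} {ν : Measure E3} (h : IsNu f s r ν) :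
    ∀ᵐ x ∂ν, f x = s ∧ x ≠ 0 ∧ nsq x < r ^ 2 := by
  rw [ae_iff]
  exact h.null

theorem c2i_split (meas : MeasStmt) (bmy : BmyStmt) {f : E3 → ℂ} {s : ℂ} {r : ℝ} (hr : 0 < r)
    (han : ∀ x, nsq x < r ^ 2 → AnalyticAt ℂ f x)
    (hsm : ∀ x, x ≠ 0 → nsq x < r ^ 2 → f x = s → fderiv ℂ f x ≠ 0) {ν : Measure E3}
    (hν : IsNu f s r ν) {u : E3 → ℝ} (hu : KEon f s r u) {χ : E3 → ℝ} (hχ : Cut r χ) :
    C2I ν f u χ = C2E ν f u χ + ENNReal.ofReal (2 / 3) * VOL ν u χ := by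
  have hm : AEMeasurable (fun x => ENNReal.ofReal (χ x * Real.exp (u x))) ν :=
    (meas f s r hr han hsm ν hν _ (CtL.mul (ctl_amb hχ.sm.continuous)
      (CtL.exp (ctl_ke hu)))).ennreal_ofReal
  unfold C2I C2E VOL
  rw [← lintegral_const_mul'' _ hm, ← lintegral_add_right' _ (hm.const_mul _)]
  refine lintegral_congr_ae ?_
  filter_upwards [isnu_ae hν] with x hx
  have h1 := bmy f s r u hr han hsm hu x hx.1 hx.2.1 hx.2.2
  have h2 := hχ.nn x
  have h3 : 0 ≤ χ x * (c2d f u x - 2 / 3 * Real.exp (u x)) := mul_nonneg h2 (by linarith)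
  have h4 : 0 ≤ χ x * Real.exp (u x) := mul_nonneg h2 (Real.exp_pos _).le
  rw [← ENNReal.ofReal_mul (by norm_num), ← ENNReal.ofReal_add h3 (by positivity)]
  congr 1
  ring

/-! ### cut-offs -/

theorem norm_sq_le_nsq (x : E3) : ‖x‖ ^ 2 ≤ nsq x := by
  have h0 : ∀ i, ‖x i‖ ^ 2 ≤ nsq x := fun i =>
    Finset.single_le_sum (f := fun i => ‖x i‖ ^ 2) (fun _ _ => sq_nonneg _) (Finset.mem_univ i)
  have hn : 0 ≤ nsq x := Finset.sum_nonneg fun _ _ => sq_nonneg _
  have h1 : ‖x‖ ≤ Real.sqrt (nsq x) := by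
    rw [pi_norm_le_iff_of_nonneg (Real.sqrt_nonneg _)]
    intro i
    exact Real.le_sqrt_of_sq_le (h0 i)
  calc ‖x‖ ^ 2 ≤ Real.sqrt (nsq x) ^ 2 := by gcongr
    _ = nsq x := Real.sq_sqrt hn

theorem nsq_le_norm_sq (x : E3) : nsq x ≤ 3 * ‖x‖ ^ 2 := by
  have h0 : ∀ i, ‖x i‖ ^ 2 ≤ ‖x‖ ^ 2 := fun i => by
    have := norm_le_pi_norm x i
    gcongr
  calc nsq x ≤ ∑ _i : Fin 3, ‖x‖ ^ 2 := Finset.sum_le_sum fun i _ => h0 i
    _ = 3 * ‖x‖ ^ 2 := by simp

theorem exists_cut {r : ℝ} (hr : 0 < r) : ∃ χ, Cut r χ := by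
  let b : ContDiffBump (0 : E3) := ⟨r / 4, r / 3, by positivity, by linarith⟩
  refine ⟨b, b.contDiff, fun x => b.nonneg, fun x => b.le_one, ?_, 2 * r / 3, by positivity,
    by linarith, fun x hx => ?_⟩
  · exact b.eventuallyEq_one
  · refine b.zero_of_le_dist ?_
    rw [dist_zero_right]
    have h1 := nsq_le_norm_sq x
    have h2 : (r / 3) ^ 2 ≤ ‖x‖ ^ 2 := by nlinarith
    exact (sq_le_sq₀ (by positivity) (norm_nonneg _)).1 h2

/-! ### the family -/

section GF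

variable {G : E3 × ℂ → ℂ} {μ d : ℕ} {R r c₀ e : ℝ} {P : ℂ → MvPolynomial (Fin 3) ℂ}
  {c : Fin 3 → ℂ}

theorem an_gfam (hG : GFam G μ d R r c₀ e P c) (x : E3) {t : ℂ} (ht : ‖t‖ < R) :
    AnalyticAt ℂ G (x, t) := by
  have e1 : G = fun q : E3 × ℂ =>
      ∑ m ∈ Finset.Iic (Finsupp.equivFunOnFinite.symm fun _ : Fin 3 => d),
        (P q.2).coeff m * ∏ i, q.1 i ^ m i + ∑ i, c i * q.1 i ^ d := by
    funext q
    rw [← eval_eq_sum hG]
    exact hG.form q.1 q.2
  rw [e1]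
  have hx : ∀ i, AnalyticAt ℂ (fun q : E3 × ℂ => q.1 i) (x, t) := fun i =>
    ((ContinuousLinearMap.proj (R := ℂ) (φ := fun _ : Fin 3 => ℂ) i).comp
      (ContinuousLinearMap.fst ℂ E3 ℂ)).analyticAt _
  refine AnalyticAt.add (Finset.analyticAt_fun_sum _ fun m _ => ?_)
    (Finset.analyticAt_fun_sum _ fun i _ => analyticAt_const.mul ((hx i).pow _))
  refine AnalyticAt.mul ?_ (Finset.analyticAt_fun_prod _ fun i _ => (hx i).pow _)
  have h0 : AnalyticAt ℂ (fun t : ℂ => (P t).coeff m) t :=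
    hG.coeff m t (by simpa using ht)
  exact AnalyticAt.fun_comp (g := fun t : ℂ => (P t).coeff m) (f := fun q : E3 × ℂ => q.2)
    (x := ((x, t) : E3 × ℂ)) h0 ((ContinuousLinearMap.snd ℂ E3 ℂ).analyticAt _)

theorem an_fam (hG : GFam G μ d R r c₀ e P c) (x : E3) {τ : PP} (ht : ‖τ.1‖ < R) :
    AnalyticAt ℂ (fam G) (x, τ) := by
  have h1 : AnalyticAt ℂ (fun q : E3 × PP => (q.1, q.2.1)) (x, τ) :=
    ((ContinuousLinearMap.fst ℂ E3 PP).prod
      ((ContinuousLinearMap.fst ℂ ℂ ℂ).comp (ContinuousLinearMap.snd ℂ E3 PP))).analyticAt _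
  have h2 : AnalyticAt ℂ (fun q : E3 × PP => q.2.2) (x, τ) :=
    ((ContinuousLinearMap.snd ℂ ℂ ℂ).comp (ContinuousLinearMap.snd ℂ E3 PP)).analyticAt _
  have h3 : AnalyticAt ℂ (fun q : E3 × PP => G (q.1, q.2.1)) (x, τ) :=
    AnalyticAt.fun_comp (g := G) (f := fun q : E3 × PP => (q.1, q.2.1)) (an_gfam hG x ht) h1
  exact h3.sub h2

/-- `Iso` for the slices of a globalised family -/
theorem iso_gfam (hG : GFam G μ d R r c₀ e P c) {t : ℂ} (h0 : ‖t‖ < R) : Iso (sl G t) := by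
  refine ⟨analyticAt_sl (an_gfam hG 0 h0), hG.zero t h0, hG.crit t h0, hG.fin t h0, ?_⟩
  set Q : Polynomial ℂ := MvPolynomial.aeval (Fin.cons Polynomial.X 0 : Fin 3 → Polynomial ℂ)
    (P t) with hQ
  set q : Polynomial ℂ := Q + Polynomial.C (c 0) * Polynomial.X ^ d with hq
  have hd : 0 < d := by have := hG.d_big; omega
  have hdeg : Q.natDegree < d := by
    have h1 : Q.natDegree ≤ (P t).totalDegree * 1 := by
      refine MvPolynomial.aeval_natDegree_le (P t) le_rfl _ fun i => ?_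
      refine Fin.cases ?_ (fun j => ?_) i
      · simp
      · simp
    have h2 := hG.deg t
    omega
  have hq0 : q ≠ 0 := by
    intro h
    have : q.coeff d = c 0 := by
      rw [hq, Polynomial.coeff_add, Polynomial.coeff_eq_zero_of_natDegree_lt hdeg]
      simp
    rw [h] at this
    exact hG.c_ne 0 (by simpa using this.symm)
  have hev : ∀ z : ℂ, q.eval z = sl G t (Fin.cons z 0) := by
    intro z
    have e1 : Polynomial.eval z Q = MvPolynomial.eval (Fin.cons z 0 : Fin 3 → ℂ) (P t) := by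
      rw [hQ]
      have h1 := MvPolynomial.comp_aeval_apply
        (Fin.cons Polynomial.X 0 : Fin 3 → Polynomial ℂ) (Polynomial.aeval z) (P t)
      have h2 : (fun i => (Polynomial.aeval z) ((Fin.cons Polynomial.X 0 :
          Fin 3 → Polynomial ℂ) i)) = (Fin.cons z 0 : Fin 3 → ℂ) := by
        funext i
        refine Fin.cases ?_ (fun j => ?_) i
        · simp
        · simp
      rw [h2] at h1
      rw [← Polynomial.coe_aeval_eq_eval]
      refine h1.trans ?_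
      rw [MvPolynomial.aeval_def, MvPolynomial.eval]
      rfl
    rw [hq, Polynomial.eval_add, e1]
    unfold sl
    rw [hG.form, Fin.sum_univ_succ]
    simp [hd.ne']
  have hfin : ∀ᶠ z : ℂ in 𝓝[≠] 0, z ∉ q.roots.toFinset := by
    have : ((q.roots.toFinset : Set ℂ) \ {0}).Finite := (Finset.finite_toSet _).sdiff
    have h2 : ((q.roots.toFinset : Set ℂ) \ {0})ᶜ ∈ 𝓝 (0 : ℂ) :=
      this.isClosed.isOpen_compl.mem_nhds (by simp)
    rw [eventually_nhdsWithin_iff]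
    filter_upwards [h2] with z hz hz0 hzr
    exact hz ⟨hzr, hz0⟩
  refine Eventually.frequently (hfin.mono fun z hz => ?_)
  rw [← hev]
  intro h
  apply hz
  rw [Multiset.mem_toFinset, Polynomial.mem_roots hq0]
  exact h

theorem fam_zero (G : E3 × ℂ → ℂ) (t : ℂ) : (fun x => fam G (x, (t, 0))) = sl G t := by
  funext x
  simp [fam, sl]

/-- the levels are smooth off the origin -/
theorem sm_fam (hG : GFam G μ d R r c₀ e P c) {r₁ : ℝ} (hr : 0 < r₁) (hr1 : r₁ < r) {τ : PP}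
    (ht : ‖τ.1‖ < R) (x : E3) (hx : x ≠ 0) (hx1 : nsq x ≤ r₁ ^ 2) :
    fderiv ℂ (fun x => fam G (x, τ)) x ≠ 0 := by
  have e1 : (fun x => fam G (x, τ)) = fun x => sl G τ.1 x - τ.2 := rfl
  rw [e1, fderiv_sub_const]
  refine fderiv_ne fun h => ?_
  have h1 : ‖x‖ < r := by
    have := norm_sq_le_nsq x
    have h3 : ‖x‖ ≤ r₁ := (sq_le_sq₀ (norm_nonneg _) hr.le).1 (this.trans hx1)
    linarith
  have h2 := hG.lower x τ.1 h1 ht
  have h3 : gr (sl G τ.1) x = 0 := funext h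
  rw [h3, norm_zero] at h2
  have h4 : 0 < ‖x‖ := norm_pos_iff.2 hx
  have h5 := hG.c₀_pos
  have : 0 < c₀ * ‖x‖ ^ μ := by positivity
  linarith

theorem fam_gfam (hG : GFam G μ d R r c₀ e P c) {r₁ : ℝ} (hr : 0 < r₁) (hr1 : r₁ < r) {t : ℂ}
    (ht : ‖t‖ < R) {l : Filter PP} [l.NeBot] (hl : l ≤ 𝓝 (t, 0)) : Fam (fam G) (t, 0) l r₁ where
  r_pos := hr
  an x _ := an_fam hG x ht
  ne := inferInstance
  lim := hl
  iso := by
    rw [fam_zero]
    exact iso_gfam hG ht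
  sm0 x hx hx1 _ := sm_fam hG hr hr1 ht x hx hx1
  sm := by
    have h1 : ∀ᶠ τ : PP in 𝓝 (t, 0), ‖τ.1‖ < R :=
      (continuous_fst.norm.tendsto (t, (0 : ℂ))).eventually (gt_mem_nhds ht)
    filter_upwards [hl h1] with τ hτ x hx hx1 _
    exact sm_fam hG hr hr1 hτ x hx hx1

theorem nz_fam (hG : GFam G μ d R r c₀ e P c) {t s : ℂ} (ht : ‖t‖ < R) (hs : s ≠ 0) :
    fam G (0, (t, s)) ≠ 0 := by
  show G (0, t) - s ≠ 0
  rw [hG.zero t ht, zero_sub]
  exact neg_ne_zero.2 hs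

end GF

end Crest.Agent.R257.SkelV_952
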