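import Crest.Agent.R257.LcQ1_980
import Crest.Agent.R257.LcTop_980
import Crest.Agent.R257.LCa_472
import Crest.Agent.R271.Bd_741
import Crest.Agent.R257.KlE_540
import Crest.Agent.R257.OtKE_331
import Crest.Agent.R271.Montel_297
import Crest.Agent.R257.UI5_939
import Crest.Agent.R257.KlG_540
import Crest.Agent.R257.SkelV2_952
import Crest.Agent.R257.Kp6_405
import Crest.Agent.R257.Cl2B_475

-- ▼ part R257/LcQ_980
section

/-!
Row 257 (S0395), leaf LC-POS (helper980), nonlinear coordinates, part 2: `0 < mstar f` if `f` has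
weighted order `≥ 1`, sum of the weights `< 1`, in some analytic coordinates.
-/

set_option autoImplicit false

open Topology Filter Set Metric MeasureTheory
open scoped ENNReal
open Crest.AlgGeometry Crest.AlgGeometry.Germ Crest.Agent.R257.Defs_219

noncomputable section

namespace Crest.Agent.R257.LcQ_980

open Crest.Agent.R257.LcL_980 Crest.Agent.R257.OtK_331 Crest.Agent.R257.LcM_980

/-- weighted order `≥ 1` in some analytic coordinates, sum of the weights `< 1` -/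
def WBoxB (f : E3 → ℂ) : Prop :=
  ∃ (Φ : E3 → E3) (w : Fin 3 → ℝ) (κ K s₀ : ℝ), AnalyticAt ℂ Φ 0 ∧ Φ 0 = 0 ∧
    Function.Injective (fderiv ℂ Φ 0) ∧ (∀ i, 0 < w i) ∧ ∑ i, w i < 1 ∧ 0 < κ ∧ 0 < s₀ ∧
    ∀ s : ℝ, 0 < s → s ≤ s₀ → ∀ X : E3, (∀ i, ‖X i‖ ≤ κ * s ^ w i) → ‖f (Φ X)‖ ≤ K * s

/-- a neighbourhood on which a local biholomorphism is injective, with bounds -/
theorem exists_nhd {Φ : E3 → E3} (hΦ : AnalyticAt ℂ Φ 0) (h0 : Φ 0 = 0)
    (hi : Function.Injective (fderiv ℂ Φ 0)) :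
    ∃ (N : Set E3) (c0 c : ℝ), IsOpen N ∧ (0 : E3) ∈ N ∧ DifferentiableOn ℂ Φ N ∧ InjOn Φ N ∧
      0 < c0 ∧ (∀ X ∈ N, c0 ≤ |((fderiv ℂ Φ X).restrictScalars ℝ).det|) ∧ 0 < c ∧
      ∀ᶠ x in 𝓝 (0 : E3), ∃ X, Φ X = x ∧ ‖X‖ ≤ c * ‖x‖ := by
  obtain ⟨η, hη, hη0, h1, h2⟩ := LCa_472.exists_inv hΦ h0 hi
  -- determinant
  have hdet0 : (fderiv ℂ Φ 0).det ≠ 0 := by
    have h3 : IsUnit ((fderiv ℂ Φ 0 : E3 →L[ℂ] E3) : E3 →ₗ[ℂ] E3) :=
      (LinearMap.isUnit_iff_ker_eq_bot _).2 (LinearMap.ker_eq_bot.2 hi)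
    exact (h3.map LinearMap.det).ne_zero
  set c0 : ℝ := ‖(fderiv ℂ Φ 0).det‖ ^ 2 / 2 with hc0
  have hc0p : 0 < c0 := by
    have : 0 < ‖(fderiv ℂ Φ 0).det‖ := norm_pos_iff.2 hdet0
    positivity
  have hcont : ContinuousAt (fun X => ‖(fderiv ℂ Φ X).det‖ ^ 2) 0 := by
    have h3 : ContinuousAt (fun X => fderiv ℂ Φ X) 0 := hΦ.fderiv.continuousAt
    have h4 : ContinuousAt (fun X => (fderiv ℂ Φ X).det) 0 :=
      (ContinuousLinearMap.continuous_det (𝕜 := ℂ) (E := E3)).continuousAt.comp h3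
    exact (h4.norm).pow 2
  have hev : ∀ᶠ X in 𝓝 (0 : E3), c0 < ‖(fderiv ℂ Φ X).det‖ ^ 2 := by
    refine hcont.eventually_const_lt ?_
    rw [hc0]
    have : 0 < ‖(fderiv ℂ Φ 0).det‖ ^ 2 := by linarith
    linarith
  obtain ⟨ε, hε, hb⟩ := Metric.eventually_nhds_iff_ball.1
    ((hΦ.eventually_analyticAt.and h2).and hev)
  -- the Lipschitz bound of the inverse
  obtain ⟨L, S, hS, hLip⟩ := (hη.hasStrictFDerivAt).exists_lipschitzOnWith
  refine ⟨ball 0 ε, c0, L + 1, isOpen_ball, mem_ball_self hε, ?_, ?_, hc0p, ?_, by positivity, ?_⟩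
  · intro X hX
    exact (hb X hX).1.1.differentiableAt.differentiableWithinAt
  · intro X hX Y hY hXY
    rw [← (hb X hX).1.2, ← (hb Y hY).1.2, hXY]
  · intro X hX
    have h5 := Crest.Agent.R271.Bd741.abs_det_real (fderiv ℂ Φ X)
    rw [h5]
    exact (hb X hX).2.le
  · filter_upwards [h1, hS] with x hx hxS
    refine ⟨η x, hx, ?_⟩
    have h6 := hLip.norm_sub_le hxS (mem_of_mem_nhds hS)
    rw [hη0, sub_zero, sub_zero] at h6
    calc ‖η x‖ ≤ L * ‖x‖ := h6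
      _ ≤ (L + 1) * ‖x‖ := by gcongr; linarith

theorem grow_of_inJB {f : E3 → ℂ} (hf : AnalyticAt ℂ f 0) (hw : WBoxB f) :
    ∃ c : ℝ, 0 < c ∧ ∀ (a : ℝ) (g : E3 → ℂ), 1 ≤ a → AnalyticAt ℂ g 0 → InJ a f g →
      Grow f g (c * a) := by
  obtain ⟨Φ, w, κ, K, s₀, hΦ, hΦ0, hΦi, hw0, hws, hκ, hs₀, hbox⟩ := hw
  obtain ⟨N, c0, c', hN, h0N, hΦd, hinj, hc0, hdet, hc', hinv⟩ := exists_nhd hΦ hΦ0 hΦi
  set W : ℝ := ∑ i, w i with hW
  have hW0 : 0 < W := by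
    rw [hW]; exact Finset.sum_pos (fun i _ => hw0 i) Finset.univ_nonempty
  have hwW : ∀ i, w i ≤ W := by
    intro i
    rw [hW]
    exact Finset.single_le_sum (fun j _ => (hw0 j).le) (Finset.mem_univ i)
  refine ⟨(1 - ∑ i, w i) / W, by rw [← hW]; exact div_pos (by linarith) hW0, ?_⟩
  intro a g ha hg hJ
  obtain ⟨r, hr, hJ⟩ := hJ
  have ha0 : 0 < a := by linarith
  -- a small polydisc on which everything is holomorphic and bounded
  have hgb : ∀ᶠ x in 𝓝 (0 : E3), AnalyticAt ℂ f x ∧ AnalyticAt ℂ g x ∧ ‖g x‖ < ‖g 0‖ + 1 := by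
    filter_upwards [hf.eventually_analyticAt, hg.eventually_analyticAt,
      hg.continuousAt.norm.eventually_lt_const (show ‖g 0‖ < ‖g 0‖ + 1 by linarith)] with x h1 h2 h3
    exact ⟨h1, h2, h3⟩
  obtain ⟨ε, hε, hball⟩ := Metric.eventually_nhds_iff_ball.1 hgb
  set r' : ℝ := min r ε with hr'
  have hr'0 : 0 < r' := lt_min hr hε
  have hPd : ∀ x ∈ Pd (fun _ : Fin 3 => r'), x ∈ ball (0 : E3) ε := by
    intro x hx
    rw [mem_ball_zero_iff, pi_norm_lt_iff hε]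
    intro i
    exact (hx i).trans_le (min_le_right _ _)
  have hol : DifferentiableOn ℂ f (Pd (fun _ : Fin 3 => r')) := fun x hx =>
    (hball x (hPd x hx)).1.differentiableAt.differentiableWithinAt
  have holg : DifferentiableOn ℂ g (Pd (fun _ : Fin 3 => r')) := fun x hx =>
    (hball x (hPd x hx)).2.1.differentiableAt.differentiableWithinAt
  set d : Dat 2 := ⟨fun _ => r', f, hol⟩ with hd
  have hS : Sh d (fun x => ENNReal.ofReal (‖g x‖ ^ (2 * (1 / a)) * (‖d0 d.h x‖ ^ 2)⁻¹)) ≠ ∞ :=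
    ((sh_le (p := a) (g := g) (min_le_left _ _) hol).trans_lt hJ).ne
  -- the box is inside the polydisc
  obtain ⟨η, hη, hηA⟩ : ∃ η > 0, ∀ X : Fin 3 → ℂ, ‖X‖ < η →
      X ∈ N ∧ Φ X ∈ Pd (fun _ : Fin 3 => r') := by
    have h1 : N ∩ Φ ⁻¹' (Pd (fun _ : Fin 3 => r')) ∈ 𝓝 (0 : Fin 3 → ℂ) := by
      refine inter_mem (hN.mem_nhds h0N) ?_
      apply hΦ.continuousAt.preimage_mem_nhds
      rw [hΦ0]
      apply (isOpen_Pd _).mem_nhds
      intro i; simpa using hr'0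
    obtain ⟨η, hη, h2⟩ := Metric.mem_nhds_iff.1 h1
    exact ⟨η, hη, fun X hX => h2 (by simpa using hX)⟩
  have hsm : ∀ᶠ s in 𝓝[>] (0 : ℝ), ∀ i, κ * s ^ w i < η := by
    rw [Filter.eventually_all]
    intro i
    have hc : ContinuousAt (fun s : ℝ => κ * s ^ w i) 0 :=
      continuousAt_const.mul (Real.continuousAt_rpow_const _ _ (Or.inr (hw0 i).le))
    have ht := hc.tendsto
    rw [Real.zero_rpow (hw0 i).ne', mul_zero] at ht
    exact (ht.eventually (gt_mem_nhds hη)).filter_mono nhdsWithin_le_nhds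
  obtain ⟨s₁, hs₁, hs₁'⟩ := (mem_nhdsGT_iff_exists_Ioo_subset).1 hsm
  have hs₁0 : (0 : ℝ) < s₁ := hs₁
  have hbox' : ∀ s : ℝ, 0 < s → s ≤ min s₀ (s₁ / 2) → ∀ X : Fin (2 + 1) → ℂ,
      (∀ i, ‖X i‖ ≤ κ * s ^ w i) → X ∈ N ∧ Φ X ∈ Pd d.R ∧ ‖d.h (Φ X)‖ ≤ K * s := by
    intro s hs hs' X hX
    have h3 : ‖X‖ < η := by
      rw [pi_norm_lt_iff hη]
      intro i
      refine (hX i).trans_lt (hs₁' ⟨hs, ?_⟩ i)
      have := hs'.trans (min_le_right _ _)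
      linarith
    exact ⟨(hηA X h3).1, (hηA X h3).2, hbox s hs (hs'.trans (min_le_left _ _)) X hX⟩
  obtain ⟨C, hC, hev⟩ := growthC_norm d Φ hN hΦd hinj hc0 hdet hc' hinv w hκ
    (lt_min hs₀ (by positivity)) hW0 hwW hbox'
    (q := 1 / a) (by positivity) (by rw [div_le_one ha0]; exact ha) holg
    ⟨‖g 0‖ + 1, fun x hx => (hball x (hPd x hx)).2.2.le⟩ hS
  refine ⟨C, hC, ?_⟩
  filter_upwards [hev] with x hx h0 h1 h2
  have h3 := hx h0 h1 h2
  have e : (1 - ∑ i, w i) / (1 / a * W) = (1 - ∑ i, w i) / W * a := by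
    field_simp
  rw [e] at h3
  exact h3

/-- positivity of `mstar`, nonlinear coordinates -/
theorem mstar_pos_of_wboxB {f : E3 → ℂ} (hf : Iso f) (hw : WBoxB f) : 0 < mstar f := by
  obtain ⟨κ, hκ, hκ'⟩ := col_lower hf
  obtain ⟨c, hc, hc'⟩ := grow_of_inJB hf.an hw
  have h1 : κ * c ^ 2 ≤ mstar f := by
    refine le_csInf (MsNe_980.mset_nonempty hf) ?_
    rintro _ ⟨a, b, ha, hb, g, h, hg, hh, hgJ, hhJ, hfin, rfl⟩
    have ha0 : 0 < a := by linarith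
    have hb0 : 0 < b := by linarith
    rw [le_div_iff₀ (by positivity)]
    have := hκ' g h (c * a) (c * b) hg hh (by positivity) (by positivity)
      (hc' a g ha hg hgJ) (hc' b h hb hh hhJ) hfin
    calc κ * c ^ 2 * (a * b) = κ * (c * a * (c * b)) := by ring
      _ ≤ _ := this
  have : 0 < κ * c ^ 2 := by positivity
  linarith

end Crest.Agent.R257.LcQ_980
end
end

-- ▼ part R257/KlF_540
section

/-!
R257 / KlF_540: LEMMA NK (criterion for non-klt germs).  `NKW f`: in no analytic coordinates and for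
no positive weights `w` with `∑ w ≤ 1` has `f` weight `≥ 1`.  `nk : Iso f → Klt f → NKW f`.
-/

set_option autoImplicit false

open Topology Filter MeasureTheory Set
open scoped ENNReal Real
open Crest.AlgGeometry.Germ

noncomputable section

namespace Crest.Agent.R257.KlF_540

open Crest.Agent.R257.Defs_219 Crest.Agent.R257.KlC_540 Crest.Agent.R257.KlD_540
open Crest.Agent.R257.KlE_540
open Crest.Agent.R257.OtK_331 (Pd Dat Sh d0 C0)

/-- no analytic coordinates and positive weights with sum `≤ 1` in which `f` has weight `≥ 1` -/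
def NKW (f : E3 → ℂ) : Prop := ∀ (Ψ : E3 → E3) (w : Fin 3 → ℝ) (K : ℝ), AnalyticAt ℂ Ψ 0 →
  Ψ 0 = 0 → Function.Bijective (fderiv ℂ Ψ 0) → (∀ i, 0 < w i) → ∑ i, w i ≤ 1 →
  ¬ ∀ᶠ s in 𝓝[>] (0 : ℝ), ∀ X : E3, (∀ i, ‖X i‖ ≤ s ^ (w i)) → ‖f (Ψ X)‖ ≤ K * s

/-- the anisotropic dilation -/
def dil (w : Fin 3 → ℝ) (s : ℝ) : E3 →L[ℂ] E3 :=
  ContinuousLinearMap.pi fun i => ((s ^ (w i) : ℝ) : ℂ) • ContinuousLinearMap.proj i

theorem dil_apply (w : Fin 3 → ℝ) (s : ℝ) (Y : E3) (i : Fin 3) :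
    dil w s Y i = ((s ^ (w i) : ℝ) : ℂ) * Y i := by
  simp [dil]

theorem dil_det (w : Fin 3 → ℝ) {s : ℝ} (hs : 0 < s) :
    (dil w s).det = ((s ^ (∑ i, w i) : ℝ) : ℂ) := by
  have h1 : (dil w s : E3 →ₗ[ℂ] E3) =
      Matrix.toLin' (Matrix.diagonal fun i => ((s ^ (w i) : ℝ) : ℂ)) := by
    apply LinearMap.ext
    intro Y
    funext i
    rw [Matrix.toLin'_apply, Matrix.mulVec_diagonal]
    exact dil_apply w s Y i
  unfold ContinuousLinearMap.det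
  rw [h1, LinearMap.det_toLin', Matrix.det_diagonal, ← Complex.ofReal_prod,
    ← Real.rpow_sum_of_pos hs]

/-- small sheet integrals -/
theorem sheet_small {f : E3 → ℂ} {r : ℝ} (hr : 0 < r) (hJ : Jint 1 (fun _ => r) f (fun _ => 1) < ∞)
    {κ : ℝ≥0∞} (hκ : 0 < κ) : ∃ δ : ℝ, 0 < δ ∧ δ < r ∧ ∀ d : Dat 2, d.h = f →
      d.R = (fun _ => δ) →
      Sh d (fun x => ENNReal.ofReal (‖(1 : ℂ)‖ ^ (2 * (1 : ℝ)) * (‖d0 d.h x‖ ^ 2)⁻¹)) < κ := by
  set g : (Fin 2 → ℂ) → ℝ≥0∞ := fun x' => ∑' z : {z : ℂ // ‖z‖ < r ∧ f (Fin.cons z x') = 0 ∧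
        coordDeriv f 0 (Fin.cons z x') ≠ 0},
      ENNReal.ofReal (‖(1 : ℂ)‖ ^ ((2 : ℝ) / 1) / ‖coordDeriv f 0 (Fin.cons z.1 x')‖ ^ 2) with hg
  have h1 : ∫⁻ x' in {x' : Fin 2 → ℂ | ∀ i, ‖x' i‖ < r}, g x' ≠ ∞ := ne_of_lt hJ
  have hvol : Tendsto (fun δ : ℝ => volume.restrict {x' : Fin 2 → ℂ | ∀ i, ‖x' i‖ < r}
      (Metric.ball (0 : Fin 2 → ℂ) δ)) (𝓝[>] 0) (𝓝 0) := by
    refine tendsto_of_tendsto_of_tendsto_of_le_of_le' tendsto_const_nhds
      (h := fun δ => volume (Metric.ball (0 : Fin 2 → ℂ) δ)) ?_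
      (Eventually.of_forall fun _ => zero_le)
      (Eventually.of_forall fun δ => Measure.restrict_apply_le _ _)
    have h2 : Tendsto (fun δ : ℝ => ENNReal.ofReal (δ ^ (Module.finrank ℝ (Fin 2 → ℂ))) *
        volume (Metric.ball (0 : Fin 2 → ℂ) 1)) (𝓝[>] 0) (𝓝 0) := by
      have h3 : Tendsto (fun δ : ℝ => ENNReal.ofReal (δ ^ (Module.finrank ℝ (Fin 2 → ℂ))))
          (𝓝[>] 0) (𝓝 (ENNReal.ofReal ((0 : ℝ) ^ (Module.finrank ℝ (Fin 2 → ℂ))))) :=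
        ENNReal.tendsto_ofReal (((continuous_pow _).tendsto 0).mono_left nhdsWithin_le_nhds)
      have h4 : (0 : ℝ) ^ (Module.finrank ℝ (Fin 2 → ℂ)) = 0 :=
        zero_pow Module.finrank_pos.ne'
      rw [h4, ENNReal.ofReal_zero] at h3
      have h5 := ENNReal.Tendsto.mul_const h3 (b := volume (Metric.ball (0 : Fin 2 → ℂ) 1))
        (Or.inr measure_ball_lt_top.ne)
      rwa [zero_mul] at h5
    refine h2.congr' ?_
    filter_upwards [self_mem_nhdsWithin] with δ hδ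
    exact (Measure.addHaar_ball volume (0 : Fin 2 → ℂ) (le_of_lt hδ)).symm
  have h6 := tendsto_setLIntegral_zero h1 hvol
  obtain ⟨δ, hδκ, hδr, hδ0⟩ := ((h6.eventually (gt_mem_nhds hκ)).and
    ((eventually_nhdsWithin_of_eventually_nhds (gt_mem_nhds hr)).and
      self_mem_nhdsWithin)).exists
  refine ⟨δ, hδ0, hδr, fun d hdh hdR => lt_of_le_of_lt ?_ hδκ⟩
  have hbox : MeasurableSet {x' : Fin 2 → ℂ | ∀ i, ‖x' i‖ < r} := by
    have : {x' : Fin 2 → ℂ | ∀ i, ‖x' i‖ < r} = Metric.ball 0 r := by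
      ext x'
      rw [mem_ball_zero_iff, pi_norm_lt_iff hr]
      rfl
    rw [this]
    exact Metric.isOpen_ball.measurableSet
  rw [Measure.restrict_restrict Metric.isOpen_ball.measurableSet,
    ← lintegral_indicator (Metric.isOpen_ball.measurableSet.inter hbox)]
  unfold Sh
  refine lintegral_mono fun x' => ?_
  by_cases hx' : ∀ i, ‖x' i‖ < δ
  · have hmem : x' ∈ Metric.ball (0 : Fin 2 → ℂ) δ ∩ {x' : Fin 2 → ℂ | ∀ i, ‖x' i‖ < r} := by
      refine ⟨?_, fun i => (hx' i).trans hδr⟩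
      rw [mem_ball_zero_iff, pi_norm_lt_iff hδ0]
      exact hx'
    rw [indicator_of_mem hmem]
    simp only [hg]
    have h7 : {z : ℂ | (Fin.cons z x' : E3) ∈ d.U ∧ d.h (Fin.cons z x') = 0} ⊆
        {z : ℂ | ‖z‖ < r ∧ f (Fin.cons z x') = 0 ∧ coordDeriv f 0 (Fin.cons z x') ≠ 0} := by
      rintro z ⟨⟨hz1, hz2⟩, hz3⟩
      rw [hdh] at hz2 hz3
      have hz4 : ‖z‖ < δ := by
        have := hz1 0
        rw [hdR] at this
        simpa using this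
      exact ⟨hz4.trans hδr, hz3, hz2⟩
    have h8 := ENNReal.tsum_mono_subtype (fun z : ℂ =>
      ENNReal.ofReal (‖(1 : ℂ)‖ ^ ((2 : ℝ) / 1) / ‖coordDeriv f 0 (Fin.cons z x')‖ ^ 2)) h7
    refine le_trans (le_of_eq ?_) h8
    have key : ∀ z : ℂ, ‖(1 : ℂ)‖ ^ (2 * (1 : ℝ)) * (‖d0 d.h (Fin.cons z x' : E3)‖ ^ 2)⁻¹ =
        ‖(1 : ℂ)‖ ^ ((2 : ℝ) / 1) / ‖coordDeriv f 0 (Fin.cons z x')‖ ^ 2 := by
      intro z
      rw [hdh, div_eq_mul_inv]
      congr 1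
      simp
    exact tsum_congr fun z => congrArg ENNReal.ofReal (key z.1)
  · have : IsEmpty {z : ℂ // (Fin.cons z x' : E3) ∈ d.U ∧ d.h (Fin.cons z x') = 0} := by
      refine ⟨fun z => hx' fun i => ?_⟩
      have := z.2.1.1 i.succ
      rw [hdR] at this
      simpa using this
    rw [tsum_empty]
    exact zero_le

/-- mean value inequality in small distorted polydiscs -/
theorem mean_distorted {Ψ : E3 → E3} {w : Fin 3 → ℝ} {s c : ℝ} (hs : 0 < s)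
    {N : Set E3} (hN : IsOpen N) (hΨ : AnalyticOnNhd ℂ Ψ N) (hinj : InjOn Ψ N)
    (hdet : ∀ x ∈ N, c ≤ ‖(fderiv ℂ Ψ x).det‖ ^ 2) (h0 : Ψ 0 = 0)
    (hmaps : ∀ Y ∈ Metric.closedBall (0 : E3) 1, dil w s Y ∈ N) {D : Set E3} (hD : IsOpen D)
    {G : E3 → ℂ} (hG : DifferentiableOn ℂ G D)
    (hmD : ∀ Y ∈ Metric.closedBall (0 : E3) 1, Ψ (dil w s Y) ∈ D) :
    ENNReal.ofReal (c * s ^ (2 * ∑ i, w i)) *
      (volume (Metric.closedBall (0 : E3) 1) * ‖G 0‖ₑ ^ 2) ≤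
      ∫⁻ x in (fun Y => Ψ (dil w s Y)) '' Metric.closedBall (0 : E3) 1, ‖G x‖ₑ ^ 2 := by
  set Θ : E3 → E3 := fun Y => Ψ (dil w s Y) with hΘ
  set B := Metric.closedBall (0 : E3) 1 with hB
  have hder : ∀ Y ∈ B, HasFDerivAt Θ ((fderiv ℂ Ψ (dil w s Y)).comp (dil w s)) Y := fun Y hY =>
    ((hΨ _ (hmaps Y hY)).differentiableAt.hasFDerivAt).comp Y (dil w s).hasFDerivAt
  have hinjΘ : InjOn Θ B := by
    intro Y hY Y' hY' h
    have h1 := hinj (hmaps Y hY) (hmaps Y' hY') h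
    funext i
    have h2 := congrFun h1 i
    rw [dil_apply, dil_apply] at h2
    have h3 : ((s ^ (w i) : ℝ) : ℂ) ≠ 0 := by
      exact_mod_cast (Real.rpow_pos_of_pos hs _).ne'
    exact mul_left_cancel₀ h3 h2
  rw [lintegral_image_eq_lintegral_abs_det_fderiv_mul volume
    Metric.isClosed_closedBall.measurableSet
    (fun Y hY => ((hder Y hY).restrictScalars ℝ).hasFDerivWithinAt) hinjΘ]
  have hdetΘ : ∀ Y ∈ B, c * s ^ (2 * ∑ i, w i) ≤
      |(((fderiv ℂ Ψ (dil w s Y)).comp (dil w s)).restrictScalars ℝ).det| := by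
    intro Y hY
    rw [Crest.Agent.R271.Bd741.abs_det_real]
    have h1 : ((fderiv ℂ Ψ (dil w s Y)).comp (dil w s)).det =
        (fderiv ℂ Ψ (dil w s Y)).det * (dil w s).det := by
      unfold ContinuousLinearMap.det
      exact LinearMap.det_comp _ _
    rw [h1, norm_mul, mul_pow, dil_det w hs, Complex.norm_real, Real.norm_eq_abs, sq_abs]
    have h2 : (s ^ (∑ i, w i)) ^ 2 = s ^ (2 * ∑ i, w i) := by
      rw [← Real.rpow_natCast, ← Real.rpow_mul hs.le]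
      congr 1; push_cast; ring
    rw [h2]
    exact mul_le_mul_of_nonneg_right (hdet _ (hmaps Y hY)) (Real.rpow_nonneg hs.le _)
  -- the open set
  set O : Set E3 := dil w s ⁻¹' (N ∩ Ψ ⁻¹' D) with hO
  have hOo : IsOpen O := by
    have : IsOpen (N ∩ Ψ ⁻¹' D) := hΨ.continuousOn.isOpen_inter_preimage hN hD
    exact this.preimage (dil w s).continuous
  have hGΘ : DifferentiableOn ℂ (fun Y => G (Θ Y)) O := by
    intro Y hY
    have h1 : DifferentiableAt ℂ G (Θ Y) := hG.differentiableAt (hD.mem_nhds hY.2)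
    have h2 : DifferentiableAt ℂ Θ Y := by
      have h3 : DifferentiableAt ℂ Ψ (dil w s Y) := (hΨ _ hY.1).differentiableAt
      exact h3.comp Y (dil w s).differentiableAt
    exact (h1.comp Y h2).differentiableWithinAt
  have hmv := Crest.Agent.R271.Montel297.volume_mul_enorm_sq_le (x := (0 : E3)) (r := 1) hOo hGΘ
    (fun Y hY => ⟨hmaps Y hY, hmD Y hY⟩)
  have hΘ0 : Θ 0 = 0 := by simp only [hΘ, map_zero, h0]
  rw [hΘ0] at hmv
  calc ENNReal.ofReal (c * s ^ (2 * ∑ i, w i)) * (volume B * ‖G 0‖ₑ ^ 2)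
      ≤ ENNReal.ofReal (c * s ^ (2 * ∑ i, w i)) * ∫⁻ Y in B, ‖G (Θ Y)‖ₑ ^ 2 := by gcongr
    _ = ∫⁻ Y in B, ENNReal.ofReal (c * s ^ (2 * ∑ i, w i)) * ‖G (Θ Y)‖ₑ ^ 2 := by
        rw [lintegral_const_mul' _ _ ENNReal.ofReal_ne_top]
    _ ≤ _ := by
        refine lintegral_mono_ae ?_
        filter_upwards [ae_restrict_mem Metric.isClosed_closedBall.measurableSet] with Y hY
        gcongr
        exact hdetΘ Y hY

/-- **LEMMA NK** -/
theorem nk {f : E3 → ℂ} (hf : Iso f) (hk : Klt f) : NKW f := by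
  intro Ψ w K hΨ hΨ0 hΨb hw hw1 hev
  -- radius for the sheets and analyticity
  obtain ⟨r₁, hr₁, hJ⟩ := hk
  obtain ⟨r₂, hr₂, hfan⟩ := hf.an.exists_ball_analyticOnNhd
  set r : ℝ := min r₁ r₂ with hr
  have hr0 : 0 < r := lt_min hr₁ hr₂
  -- the neighbourhood `N` for `Ψ`
  set e : E3 ≃L[ℂ] E3 := ContinuousLinearEquiv.ofBijective (fderiv ℂ Ψ 0)
    (LinearMap.ker_eq_bot.2 hΨb.1) (LinearMap.range_eq_top.2 hΨb.2) with he
  have hstrict : HasStrictFDerivAt Ψ (e : E3 →L[ℂ] E3) 0 := by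
    have h1 : (e : E3 →L[ℂ] E3) = fderiv ℂ Ψ 0 := by
      ext x; rfl
    rw [h1]
    exact hΨ.hasStrictFDerivAt
  have hdet0 : (fderiv ℂ Ψ 0).det ≠ 0 := by
    have h1 : (e : E3 →L[ℂ] E3) = fderiv ℂ Ψ 0 := by
      ext x; rfl
    rw [← h1]
    intro h2
    have h3 : LinearMap.det (e.toLinearEquiv : E3 →ₗ[ℂ] E3) ≠ 0 :=
      (LinearEquiv.isUnit_det' e.toLinearEquiv).ne_zero
    exact h3 h2
  obtain ⟨r₃, hr₃, hΨan⟩ := hΨ.exists_ball_analyticOnNhd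
  set c : ℝ := ‖(fderiv ℂ Ψ 0).det‖ ^ 2 / 2 with hc
  have hc0 : 0 < c := by
    have := norm_pos_iff.2 hdet0
    positivity
  have hdetc : ∀ᶠ x in 𝓝 (0 : E3), c < ‖(fderiv ℂ Ψ x).det‖ ^ 2 := by
    have h1 : ContinuousAt (fun x => ‖(fderiv ℂ Ψ x).det‖ ^ 2) 0 := by
      have h2 : ContinuousAt (fun x => fderiv ℂ Ψ x) 0 := hΨ.fderiv.continuousAt
      have h3 : ContinuousAt (fun L : E3 →L[ℂ] E3 => L.det) (fderiv ℂ Ψ 0) :=
        ContinuousLinearMap.continuous_det.continuousAt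
      exact (ContinuousAt.comp (g := fun L : E3 →L[ℂ] E3 => L.det)
        (f := fun x => fderiv ℂ Ψ x) h3 h2).norm.pow 2
    refine h1.eventually (lt_mem_nhds ?_)
    have := norm_pos_iff.2 hdet0
    have h4 : 0 < ‖(fderiv ℂ Ψ 0).det‖ ^ 2 := by positivity
    rw [hc]; linarith
  obtain ⟨T, hT, hTinj⟩ : ∃ T ∈ 𝓝 (0 : E3), InjOn Ψ T :=
    ⟨(hstrict.toOpenPartialHomeomorph Ψ).source,
      (hstrict.toOpenPartialHomeomorph Ψ).open_source.mem_nhds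
        hstrict.mem_toOpenPartialHomeomorph_source, by
      have := (hstrict.toOpenPartialHomeomorph Ψ).injOn
      rwa [hstrict.toOpenPartialHomeomorph_coe] at this⟩
  obtain ⟨ρ, hρ, hball⟩ := Metric.eventually_nhds_iff_ball.1
    (((hΨ.eventually_analyticAt).and hdetc).and (eventually_mem_set.2 hT))
  set N : Set E3 := Metric.ball 0 ρ with hN
  -- constants
  have hC0 := Crest.Agent.R257.OtK_331.C0_nonneg
  set v : ℝ := (volume : Measure E3).real (Metric.closedBall 0 1) with hv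
  have hvfin : (volume : Measure E3) (Metric.closedBall 0 1) ≠ ∞ :=
    measure_closedBall_lt_top.ne
  have hv0 : 0 < v := by
    rw [hv]
    exact ENNReal.toReal_pos (Metric.measure_closedBall_pos volume _ one_pos).ne' hvfin
  have hvE : (volume : Measure E3) (Metric.closedBall 0 1) = ENNReal.ofReal v := by
    rw [hv, Measure.real, ENNReal.ofReal_toReal hvfin]
  set κ : ℝ := c * v / (2 * ((K ^ 2 + 1) ^ 2 * (C0 + 1))) with hκ
  have hκ0 : 0 < κ := by positivity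
  have hJr : Jint 1 (fun _ => r) f (fun _ => 1) < ∞ := by
    refine lt_of_le_of_lt ?_ hJ
    unfold Jint
    refine (lintegral_mono_set (s := {x' : Fin 2 → ℂ | ∀ i, ‖x' i‖ < r})
      (t := {x' : Fin 2 → ℂ | ∀ i, ‖x' i‖ < r₁}) (fun x' hx' i =>
      (hx' i).trans_le (min_le_left _ _))).trans ?_
    refine lintegral_mono fun x' => ?_
    exact ENNReal.tsum_mono_subtype (fun z : ℂ =>
      ENNReal.ofReal (‖(1 : ℂ)‖ ^ ((2 : ℝ) / 1) / ‖coordDeriv f 0 (Fin.cons z x')‖ ^ 2))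
      (s := {z : ℂ | ‖z‖ < r ∧ f (Fin.cons z x') = 0 ∧ coordDeriv f 0 (Fin.cons z x') ≠ 0})
      (t := {z : ℂ | ‖z‖ < r₁ ∧ f (Fin.cons z x') = 0 ∧ coordDeriv f 0 (Fin.cons z x') ≠ 0})
      (fun z hz => ⟨hz.1.trans_le (min_le_left _ _), hz.2⟩)
  obtain ⟨δ, hδ0, hδr, hδ⟩ := sheet_small hr0 hJr (κ := ENNReal.ofReal κ)
    (ENNReal.ofReal_pos.2 hκ0)
  have hPd : Pd (fun _ : Fin 3 => δ) = Metric.ball (0 : E3) δ := by
    ext x
    rw [mem_ball_zero_iff, pi_norm_lt_iff hδ0]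
    rfl
  have hfδ : DifferentiableOn ℂ f (Pd (fun _ : Fin 3 => δ)) := by
    rw [hPd]
    intro x hx
    exact (hfan x (Metric.ball_subset_ball (hδr.le.trans (min_le_right _ _))
      hx)).differentiableAt.differentiableWithinAt
  set d : Dat 2 := ⟨fun _ => δ, f, hfδ⟩ with hd
  have hSh := hδ d rfl rfl
  -- choice of `s`
  have hdil0 : Tendsto (fun s : ℝ => ‖dil w s‖) (𝓝[>] 0) (𝓝 0) := by
    have h1 : Tendsto (fun s : ℝ => dil w s) (𝓝[>] 0) (𝓝 0) := by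
      have h2 : ∀ i, Tendsto (fun s : ℝ => ((s ^ (w i) : ℝ) : ℂ)) (𝓝[>] 0) (𝓝 0) := by
        intro i
        have h3 : Tendsto (fun s : ℝ => s ^ (w i)) (𝓝 0) (𝓝 ((0 : ℝ) ^ (w i))) :=
          (Real.continuousAt_rpow_const 0 (w i) (Or.inr (hw i).le)).tendsto
        rw [Real.zero_rpow (hw i).ne'] at h3
        have h4 : Tendsto (fun s : ℝ => ((s ^ (w i) : ℝ) : ℂ)) (𝓝 0) (𝓝 ((0 : ℝ) : ℂ)) :=
          (Complex.continuous_ofReal.tendsto (0 : ℝ)).comp h3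
        rw [Complex.ofReal_zero] at h4
        exact h4.mono_left nhdsWithin_le_nhds
      have h5 : ∀ s : ℝ, dil w s = ∑ i : Fin 3, ((s ^ (w i) : ℝ) : ℂ) •
          ((ContinuousLinearMap.proj (R := ℂ) (φ := fun _ : Fin 3 => ℂ) i).smulRight
            (Pi.single i (1 : ℂ) : E3)) := by
        intro s
        ext Y i
        rw [dil_apply]
        simp [Finset.sum_apply, Pi.single_apply]
      have h6 : Tendsto (fun s : ℝ => ∑ i : Fin 3, ((s ^ (w i) : ℝ) : ℂ) •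
          ((ContinuousLinearMap.proj (R := ℂ) (φ := fun _ : Fin 3 => ℂ) i).smulRight
            (Pi.single i (1 : ℂ) : E3))) (𝓝[>] 0) (𝓝 (∑ i : Fin 3, (0 : ℂ) •
          ((ContinuousLinearMap.proj (R := ℂ) (φ := fun _ : Fin 3 => ℂ) i).smulRight
            (Pi.single i (1 : ℂ) : E3)))) :=
        tendsto_finsetSum _ fun i _ => (h2 i).smul_const _
      have h7 : (∑ i : Fin 3, (0 : ℂ) •
          ((ContinuousLinearMap.proj (R := ℂ) (φ := fun _ : Fin 3 => ℂ) i).smulRight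
            (Pi.single i (1 : ℂ) : E3))) = 0 := Finset.sum_eq_zero fun i _ => by
          ext Y j
          simp
      rw [h7] at h6
      exact h6.congr fun s => (h5 s).symm
    simpa using h1.norm
  -- `Ψ` maps a small ball into the ball of radius `δ`
  obtain ⟨ρ', hρ', hball'⟩ := Metric.eventually_nhds_iff_ball.1
    (hΨ.continuousAt.eventually (show ∀ᶠ y in 𝓝 (Ψ 0), y ∈ Metric.ball (0 : E3) δ by
      rw [hΨ0]; exact Metric.ball_mem_nhds 0 hδ0))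
  have hmin : 0 < min ρ ρ' := lt_min hρ hρ'
  obtain ⟨s, ⟨hs1, hs2⟩, hs3, hs4⟩ := (((hdil0.eventually (gt_mem_nhds hmin)).and hev).and
    ((eventually_nhdsWithin_of_eventually_nhds (gt_mem_nhds (zero_lt_one' ℝ))).and
      self_mem_nhdsWithin)).exists
  have hs0 : 0 < s := hs4
  have hs3 : s < 1 := hs3
  have hdilm : ∀ Y ∈ Metric.closedBall (0 : E3) 1, ‖dil w s Y‖ < min ρ ρ' := by
    intro Y hY
    have h1 : ‖Y‖ ≤ 1 := by simpa using hY
    calc ‖dil w s Y‖ ≤ ‖dil w s‖ * ‖Y‖ := (dil w s).le_opNorm Y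
      _ ≤ ‖dil w s‖ * 1 := mul_le_mul_of_nonneg_left h1 (norm_nonneg _)
      _ < _ := by rw [mul_one]; exact hs1
  -- OT extension
  have hK' : ENNReal.ofReal (C0 * (s ^ 2)⁻¹) *
      Sh d (fun x => ENNReal.ofReal (‖(1 : ℂ)‖ ^ (2 * (1 : ℝ)) * (‖d0 d.h x‖ ^ 2)⁻¹)) <
      ENNReal.ofReal ((C0 + 1) * (s ^ 2)⁻¹ * κ) := by
    have h1 : ENNReal.ofReal ((C0 + 1) * (s ^ 2)⁻¹ * κ) =
        ENNReal.ofReal ((C0 + 1) * (s ^ 2)⁻¹) * ENNReal.ofReal κ :=
      ENNReal.ofReal_mul (by positivity)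
    rw [h1]
    have h2 : ENNReal.ofReal (C0 * (s ^ 2)⁻¹) ≤ ENNReal.ofReal ((C0 + 1) * (s ^ 2)⁻¹) := by
      apply ENNReal.ofReal_le_ofReal
      have : 0 < (s ^ 2)⁻¹ := by positivity
      nlinarith
    have h3 : ENNReal.ofReal ((C0 + 1) * (s ^ 2)⁻¹) ≠ 0 := by
      rw [Ne, ENNReal.ofReal_eq_zero, not_le]
      positivity
    calc _ ≤ ENNReal.ofReal ((C0 + 1) * (s ^ 2)⁻¹) *
        Sh d (fun x => ENNReal.ofReal (‖(1 : ℂ)‖ ^ (2 * (1 : ℝ)) * (‖d0 d.h x‖ ^ 2)⁻¹)) := by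
          gcongr
      _ < _ := ENNReal.mul_lt_mul_right h3 ENNReal.ofReal_ne_top hSh
  obtain ⟨G, hG, hG1, hG2⟩ := Crest.Agent.R257.OtK_331.d3 d (q := 1) one_pos le_rfl hs0
    (G0 := fun _ => (1 : ℂ)) (differentiableOn_const _) ⟨1, fun x _ => by simp⟩
    (K := Sh d (fun x => ENNReal.ofReal (‖(1 : ℂ)‖ ^ (2 * (1 : ℝ)) * (‖d0 d.h x‖ ^ 2)⁻¹)))
    (ne_top_of_lt hSh) le_rfl hK'
  have hG' : DifferentiableOn ℂ G (Metric.ball 0 δ) := by
    have := hG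
    rw [show d.R = fun _ : Fin 3 => δ from rfl, hPd] at this
    exact this
  -- `G 0 = 1`
  have hG0 : G 0 = 1 := by
    have h1 : ContinuousAt G 0 :=
      (hG'.differentiableAt (Metric.ball_mem_nhds 0 hδ0)).continuousAt
    by_contra hne
    have h2 : ∀ᶠ x in 𝓝 (0 : E3), G x ≠ 1 := h1.eventually_ne hne
    obtain ⟨x, ⟨hx1, hx2⟩, hx3, hx4⟩ := ((frequently_reg hf).and_eventually
      (h2.and (Metric.ball_mem_nhds (0 : E3) hδ0))).exists
    refine hx3 (hG1 x ⟨?_, hx2⟩ hx1)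
    rw [show d.R = fun _ : Fin 3 => δ from rfl, hPd]
    exact hx4
  -- the mean value inequality
  have hmean := mean_distorted (w := w) (s := s) (c := c) hs0 (N := N) Metric.isOpen_ball
    (fun x hx => (hball x hx).1.1) (hTinj.mono fun x hx => (hball x hx).2)
    (fun x hx => (hball x hx).1.2.le) hΨ0
    (fun Y hY => by
      rw [hN, mem_ball_zero_iff]
      exact (hdilm Y hY).trans_le (min_le_left _ _))
    (D := Metric.ball 0 δ) Metric.isOpen_ball hG'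
    (fun Y hY => hball' _ (by
      rw [mem_ball_zero_iff]
      exact (hdilm Y hY).trans_le (min_le_right _ _)))
  rw [hG0, hvE] at hmean
  -- the upper bound
  have hup : ∫⁻ x in (fun Y => Ψ (dil w s Y)) '' Metric.closedBall (0 : E3) 1, ‖G x‖ₑ ^ 2 ≤
      ENNReal.ofReal ((K ^ 2 + 1) ^ 2 * s ^ 4) * ENNReal.ofReal ((C0 + 1) * (s ^ 2)⁻¹ * κ) := by
    have hsub : (fun Y => Ψ (dil w s Y)) '' Metric.closedBall (0 : E3) 1 ⊆
        Pd (fun _ : Fin 3 => δ) := by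
      rintro _ ⟨Y, hY, rfl⟩
      rw [hPd]
      exact hball' _ (by
        rw [mem_ball_zero_iff]
        exact (hdilm Y hY).trans_le (min_le_right _ _))
    calc _ ≤ ∫⁻ x in (fun Y => Ψ (dil w s Y)) '' Metric.closedBall (0 : E3) 1,
          ENNReal.ofReal ((K ^ 2 + 1) ^ 2 * s ^ 4) *
            ENNReal.ofReal (‖G x‖ ^ (2 * (1 : ℝ)) * ((‖d.h x‖ ^ 2 + s ^ 2) ^ 2)⁻¹) := by
          have hcont : ContinuousOn (fun Y => Ψ (dil w s Y)) (Metric.closedBall (0 : E3) 1) := by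
            intro Y hY
            have h1 : ContinuousAt Ψ (dil w s Y) := (hball _ (by
              rw [mem_ball_zero_iff]
              exact (hdilm Y hY).trans_le (min_le_left _ _))).1.1.continuousAt
            exact (ContinuousAt.comp h1 (dil w s).continuous.continuousAt).continuousWithinAt
          have hms : MeasurableSet ((fun Y => Ψ (dil w s Y)) '' Metric.closedBall (0 : E3) 1) :=
            ((isCompact_closedBall (0 : E3) 1).image_of_continuousOn hcont).measurableSet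
          refine lintegral_mono_ae ?_
          filter_upwards [ae_restrict_mem hms] with x hx
          obtain ⟨Y, hY, rfl⟩ := hx
          have hfx : ‖f (Ψ (dil w s Y))‖ ≤ K * s := by
            refine hs2 _ fun i => ?_
            rw [dil_apply, norm_mul, Complex.norm_real, Real.norm_eq_abs,
              abs_of_nonneg (Real.rpow_nonneg hs0.le _)]
            have h1 : ‖Y i‖ ≤ 1 := (norm_le_pi_norm Y i).trans (by simpa using hY)
            nlinarith [Real.rpow_nonneg hs0.le (w i)]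
          rw [← ENNReal.ofReal_mul (by positivity), ← ofReal_norm,
            ← ENNReal.ofReal_pow (norm_nonneg _)]
          apply ENNReal.ofReal_le_ofReal
          change ‖G (Ψ (dil w s Y))‖ ^ 2 ≤ (K ^ 2 + 1) ^ 2 * s ^ 4 *
            (‖G (Ψ (dil w s Y))‖ ^ (2 * (1 : ℝ)) *
              ((‖f (Ψ (dil w s Y))‖ ^ 2 + s ^ 2) ^ 2)⁻¹)
          have h2 : ‖G (Ψ (dil w s Y))‖ ^ (2 * (1 : ℝ)) = ‖G (Ψ (dil w s Y))‖ ^ 2 := by
            rw [mul_one]; exact Real.rpow_two _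
          rw [h2]
          have h3 : (‖f (Ψ (dil w s Y))‖ ^ 2 + s ^ 2) ^ 2 ≤ (K ^ 2 + 1) ^ 2 * s ^ 4 := by
            have h4 : ‖f (Ψ (dil w s Y))‖ ^ 2 ≤ (K * s) ^ 2 :=
              pow_le_pow_left₀ (norm_nonneg _) hfx 2
            have h5 : ‖f (Ψ (dil w s Y))‖ ^ 2 + s ^ 2 ≤ (K ^ 2 + 1) * s ^ 2 := by nlinarith
            calc (‖f (Ψ (dil w s Y))‖ ^ 2 + s ^ 2) ^ 2 ≤ ((K ^ 2 + 1) * s ^ 2) ^ 2 :=
                  pow_le_pow_left₀ (by positivity) h5 2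
              _ = _ := by ring
          have h6 : 0 < (‖f (Ψ (dil w s Y))‖ ^ 2 + s ^ 2) ^ 2 := by positivity
          have h7 : 1 ≤ (K ^ 2 + 1) ^ 2 * s ^ 4 *
              ((‖f (Ψ (dil w s Y))‖ ^ 2 + s ^ 2) ^ 2)⁻¹ := by
            rw [← div_eq_mul_inv, one_le_div h6]
            exact h3
          calc ‖G (Ψ (dil w s Y))‖ ^ 2 = 1 * ‖G (Ψ (dil w s Y))‖ ^ 2 := (one_mul _).symm
            _ ≤ ((K ^ 2 + 1) ^ 2 * s ^ 4 *
              ((‖f (Ψ (dil w s Y))‖ ^ 2 + s ^ 2) ^ 2)⁻¹) * ‖G (Ψ (dil w s Y))‖ ^ 2 :=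
                mul_le_mul_of_nonneg_right h7 (by positivity)
            _ = _ := by ring
      _ = ENNReal.ofReal ((K ^ 2 + 1) ^ 2 * s ^ 4) *
          ∫⁻ x in (fun Y => Ψ (dil w s Y)) '' Metric.closedBall (0 : E3) 1,
            ENNReal.ofReal (‖G x‖ ^ (2 * (1 : ℝ)) * ((‖d.h x‖ ^ 2 + s ^ 2) ^ 2)⁻¹) :=
          lintegral_const_mul' _ _ ENNReal.ofReal_ne_top
      _ ≤ ENNReal.ofReal ((K ^ 2 + 1) ^ 2 * s ^ 4) *
          ∫⁻ x in Pd d.R,
            ENNReal.ofReal (‖G x‖ ^ (2 * (1 : ℝ)) * ((‖d.h x‖ ^ 2 + s ^ 2) ^ 2)⁻¹) := by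
          gcongr
      _ ≤ _ := by gcongr
  have hfinal := hmean.trans hup
  have e1 : ENNReal.ofReal (c * s ^ (2 * ∑ i, w i)) * (ENNReal.ofReal v * ‖(1 : ℂ)‖ₑ ^ 2) =
      ENNReal.ofReal (c * s ^ (2 * ∑ i, w i) * v) := by
    rw [show ‖(1 : ℂ)‖ₑ = 1 by simp, one_pow, mul_one, ← ENNReal.ofReal_mul]
    positivity
  rw [e1, ← ENNReal.ofReal_mul (by positivity), ENNReal.ofReal_le_ofReal_iff (by positivity)]
    at hfinal
  have e2 : s ^ 2 ≤ s ^ (2 * ∑ i, w i) := by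
    rw [← Real.rpow_two]
    exact Real.rpow_le_rpow_of_exponent_ge hs0 hs3.le (by linarith)
  have e3 : (K ^ 2 + 1) ^ 2 * s ^ 4 * ((C0 + 1) * (s ^ 2)⁻¹ * κ) = c * v / 2 * s ^ 2 := by
    rw [hκ]
    field_simp
  rw [e3] at hfinal
  have e4 : c * v * s ^ 2 ≤ c * s ^ (2 * ∑ i, w i) * v := by
    calc c * v * s ^ 2 ≤ c * v * s ^ (2 * ∑ i, w i) :=
          mul_le_mul_of_nonneg_left e2 (by positivity)
      _ = _ := by ring
  have e5 : 0 < c * v * s ^ 2 := by positivity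
  nlinarith

end Crest.Agent.R257.KlF_540
end
end

-- ▼ part R257/Cor1_788
section

/-!
Row 257 (S0395), leaf COR (helper788), part 1: families of ideals of constant colength.
`basis` : common basis of the quotients, `memU` : membership for frequently many `t → 0`
implies membership with coefficients analytic at `(0,0)`.
-/

set_option autoImplicit false
set_option linter.unusedSectionVars false

open Set Filter Topology Metric Complex
open Crest.Agent.R275.Loc2879 hiding AA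
open Crest.Agent.R257.UI939

noncomputable section

namespace Crest.Agent.R257.Cor1_788

universe u v w

variable {n : ℕ} {κ : Type*} [Fintype κ]

lemma slice_an {f : (Fin n → ℂ) × ℂ → ℂ} {t : ℂ} (hf : AnalyticAt ℂ f (0, t)) :
    AnalyticAt ℂ (fun x => f (x, t)) (0 : Fin n → ℂ) :=
  AnalyticAt.comp (g := f) (f := fun x : Fin n → ℂ => (x, t)) hf
      (analyticAt_id.prod analyticAt_const)

lemma tendsto_axis : Tendsto (fun t : ℂ => ((0, t) : (Fin n → ℂ) × ℂ)) (𝓝 0) (𝓝 0) := by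
  have : Continuous (fun t : ℂ => ((0, t) : (Fin n → ℂ) × ℂ)) := by fun_prop
  exact this.tendsto' _ _ rfl

lemma tendsto_slice (t : ℂ) :
    Tendsto (fun x : Fin n → ℂ => ((x, t) : (Fin n → ℂ) × ℂ)) (𝓝 0) (𝓝 (0, t)) := by
  have : Continuous (fun x : Fin n → ℂ => ((x, t) : (Fin n → ℂ) × ℂ)) := by fun_prop
  exact this.tendsto' _ _ rfl

set_option maxHeartbeats 4000000 in
set_option synthInstance.maxHeartbeats 200000 in
/-- common basis of the quotients in a family of constant finite colength -/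
theorem basis (G : κ → (Fin n → ℂ) × ℂ → ℂ) (hG : ∀ j, AnalyticAt ℂ (G j) 0) (μ : ℕ)
    (hdim : ∀ᶠ t in 𝓝 (0 : ℂ),
      Module.Finite ℂ (BB n ⧸ Idl (0 : Fin n → ℂ) (fun j x => G j (x, t))) ∧
      dimQ (0 : Fin n → ℂ) (fun j x => G j (x, t)) = μ) :
    ∃ Ef : Fin μ → (Fin n → ℂ) → ℂ, (∀ i, AnalyticAt ℂ (Ef i) 0) ∧
      (∀ H : (Fin n → ℂ) × ℂ → ℂ, AnalyticAt ℂ H 0 →
        ∃ (c : Fin μ → ℂ → ℂ) (b : κ → (Fin n → ℂ) × ℂ → ℂ),
        (∀ i, AnalyticAt ℂ (c i) 0) ∧ (∀ j, AnalyticAt ℂ (b j) 0) ∧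
        ∀ᶠ p in 𝓝 (0 : (Fin n → ℂ) × ℂ),
          H p = ∑ i, c i p.2 * Ef i p.1 + ∑ j, b j p * G j p) ∧
      ∀ᶠ t in 𝓝 (0 : ℂ), ∀ c : Fin μ → ℂ,
        (gz (fun x => ∑ i, c i * Ef i x) : BB n) ∈
          Idl (0 : Fin n → ℂ) (fun j x => G j (x, t)) → ∀ i, c i = 0 := by
  classical
  -- Step (a): the slice t = 0
  obtain ⟨hf0, hd0⟩ := hdim.self_of_nhds
  set I0 : Ideal (BB n) := Idl (0 : Fin n → ℂ) (fun j x => G j (x, 0)) with hI0
  have hd0' : Module.finrank ℂ (BB n ⧸ I0) = μ := hd0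
  have hfree : Module.Free ℂ (BB n ⧸ I0) := Module.Free.of_divisionRing _ _
  let bas : Module.Basis (Fin μ) ℂ (BB n ⧸ I0) := Module.finBasisOfFinrankEq _ _ hd0'
  choose e he using fun i => Ideal.Quotient.mk_surjective (I := I0) (bas i)
  choose Ef hEf hEe using fun i => exists_gm (e i)
  -- the big ideal
  set I : Ideal (AA n) := Ideal.span (Set.range fun j => gm (G j) (hG j)) with hI
  have hGI : ∀ j, gm (G j) (hG j) ∈ I := fun j => Ideal.subset_span ⟨j, rfl⟩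
  have hres : ∀ j, res0 n (gm (G j) (hG j)) = gm (fun x => G j (x, 0)) (slice_an (hG j)) :=
    fun j => rfl
  -- elements of I0 come from I modulo T
  have hI0I : ∀ a ∈ I0, ∃ a1 : AA n, emb n a + Tv n * a1 ∈ I := by
    intro a ha
    rw [hI0, mem_Idl (fun j => slice_an (hG j))] at ha
    obtain ⟨c, hc⟩ := ha
    choose H hH using fun j => split_T' (gm (G j) (hG j))
    refine ⟨∑ j, emb n (c j) * H j, ?_⟩
    have : emb n a + Tv n * ∑ j, emb n (c j) * H j = ∑ j, emb n (c j) * gm (G j) (hG j) := by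
      rw [hc, map_sum, Finset.mul_sum, ← Finset.sum_add_distrib]
      refine Finset.sum_congr rfl (fun j _ => ?_)
      conv_rhs => rw [hH j, hres j]
      rw [map_mul]
      ring
    rw [this]
    exact Ideal.sum_mem _ fun j _ => Ideal.mul_mem_left _ _ (hGI j)
  -- monomials of degree μ at t = 0
  have hJ0 : JJ (xB (n := n)) μ ≤ I0 := by
    have := JJ_le_of_finrank (xB (n := n)) xB_not_unit I0
    rwa [hd0'] at this
  -- Step (b): finiteness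
  have hfin1 : FG (RingHom.id (AA n)) (AA n ⧸ I) := by
    refine ⟨1, fun _ => 1, fun m => ?_⟩
    obtain ⟨a, rfl⟩ := Ideal.Quotient.mk_surjective m
    refine ⟨fun _ => a, ?_⟩
    simp only [RingHom.id_apply, Finset.univ_unique, Finset.sum_singleton]
    rw [← map_one (Ideal.Quotient.mk I)]
    change _ = Ideal.Quotient.mk I (a • (1 : AA n))
    rw [smul_eq_mul, mul_one]
  have hfin2 : FG (par n) (AA n ⧸ I) := by
    refine fin_all hfin1 (fun i => ⟨μ, fun m => ?_⟩)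
    obtain ⟨a, rfl⟩ := Ideal.Quotient.mk_surjective m
    have h1 : xB i ^ μ ∈ I0 := by
      refine hJ0 (Ideal.subset_span ⟨Pi.single i μ, by simp, ?_⟩)
      unfold mon
      rw [Finset.prod_eq_single i]
      · simp
      · intro j _ hj
        simp [Pi.single_eq_of_ne hj]
      · intro h; exact absurd (Finset.mem_univ _) h
    obtain ⟨a1, ha1⟩ := hI0I _ h1
    rw [map_pow, emb_xB] at ha1
    refine ⟨Ideal.Quotient.mk I (-(a1 * a)), ?_⟩
    change Ideal.Quotient.mk I (Xv i ^ μ • a) = Ideal.Quotient.mk I (Tv n • (-(a1 * a)))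
    rw [Ideal.Quotient.eq, smul_eq_mul, smul_eq_mul]
    have : Xv i ^ μ * a - Tv n * (-(a1 * a)) = a * (Xv i ^ μ + Tv n * a1) := by ring
    rw [this]
    exact Ideal.mul_mem_left _ _ ha1
  have hgen : ∀ a : AA n, ∃ c : Fin μ → OO (0 : ℂ),
      a - ∑ i, par n (c i) * emb n (e i) ∈ I := by
    have := nak hfin2 (fun i => Ideal.Quotient.mk I (emb n (e i))) ?_
    · intro a
      obtain ⟨c, hc⟩ := this (Ideal.Quotient.mk I a)
      refine ⟨c, ?_⟩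
      rw [← Ideal.Quotient.eq, hc, map_sum]
      rfl
    · intro m
      obtain ⟨a, rfl⟩ := Ideal.Quotient.mk_surjective m
      obtain ⟨a0, a1, rfl⟩ := split_T a
      -- expand a0 in the basis
      have h1 : a0 - ∑ i, algebraMap ℂ (BB n) (bas.repr (Ideal.Quotient.mk I0 a0) i) * e i ∈ I0 := by
        rw [← Ideal.Quotient.eq, map_sum]
        conv_lhs => rw [← bas.sum_repr (Ideal.Quotient.mk I0 a0)]
        refine Finset.sum_congr rfl (fun i _ => ?_)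
        rw [map_mul, he i, Algebra.smul_def]
        rfl
      obtain ⟨a2, ha2⟩ := hI0I _ h1
      refine ⟨fun i => bas.repr (Ideal.Quotient.mk I0 a0) i, Ideal.Quotient.mk I (a1 - a2), ?_⟩
      have e1 : ∑ i, algebraMap ℂ (AA n) (bas.repr (Ideal.Quotient.mk I0 a0) i) •
          Ideal.Quotient.mk I (emb n (e i)) + Tv n • Ideal.Quotient.mk I (a1 - a2) =
          Ideal.Quotient.mk I (∑ i, algebraMap ℂ (AA n) (bas.repr (Ideal.Quotient.mk I0 a0) i) *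
          emb n (e i) + Tv n * (a1 - a2)) := by
        rw [map_add, map_sum]
        rfl
      rw [e1, Ideal.Quotient.eq]
      rw [map_sub, map_sum] at ha2
      simp only [map_mul, emb_algebraMap] at ha2
      have e2 : emb n a0 + Tv n * a1 - (∑ i, algebraMap ℂ (AA n)
          (bas.repr (Ideal.Quotient.mk I0 a0) i) * emb n (e i) + Tv n * (a1 - a2)) =
          emb n a0 - ∑ i, algebraMap ℂ (AA n) (bas.repr (Ideal.Quotient.mk I0 a0) i) *
            emb n (e i) + Tv n * a2 := by ring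
      rw [e2]
      exact ha2
  -- Step (c): functions
  have hfun : ∀ H : (Fin n → ℂ) × ℂ → ℂ, AnalyticAt ℂ H 0 →
      ∃ (c : Fin μ → ℂ → ℂ) (b : κ → (Fin n → ℂ) × ℂ → ℂ),
      (∀ i, AnalyticAt ℂ (c i) 0) ∧ (∀ j, AnalyticAt ℂ (b j) 0) ∧
      ∀ᶠ p in 𝓝 (0 : (Fin n → ℂ) × ℂ),
        H p = ∑ i, c i p.2 * Ef i p.1 + ∑ j, b j p * G j p := by
    intro H hH
    obtain ⟨c, hc⟩ := hgen (gm H hH)
    rw [hI, Ideal.mem_span_range_iff_exists_fun] at hc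
    obtain ⟨b, hb⟩ := hc
    choose cf hcf hce using fun i => exists_gm (c i)
    choose bf hbf hbe using fun j => exists_gm (b j)
    obtain rfl : (fun i => gm (cf i) (hcf i)) = c := funext hce
    obtain rfl : (fun j => gm (bf j) (hbf j)) = b := funext hbe
    obtain rfl : (fun i => gm (Ef i) (hEf i)) = e := funext hEe
    refine ⟨cf, bf, hcf, hbf, ?_⟩
    obtain ⟨h1, e1⟩ := exists_sum_gm' Finset.univ bf G hbf hG
    obtain ⟨h2, e2⟩ := exists_sum_gm' Finset.univ (fun i (p : (Fin n → ℂ) × ℂ) => cf i p.2)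
      (fun i (p : (Fin n → ℂ) × ℂ) => Ef i p.1) (p := 0)
      (fun i => AnalyticAt.comp (g := cf i) (f := Prod.snd) (hcf i) analyticAt_snd)
      (fun i => AnalyticAt.comp (g := Ef i) (f := Prod.fst) (hEf i) analyticAt_fst)
    have e4 : (gm H hH : AA n) = ∑ i, par n (gm (cf i) (hcf i)) * emb n (gm (Ef i) (hEf i)) +
        ∑ j, gm (bf j) (hbf j) * gm (G j) (hG j) := by
      rw [hb]; ring
    have e6 : ∑ i, par n (gm (cf i) (hcf i)) * emb n (gm (Ef i) (hEf i)) =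
        gm (fun x => ∑ i, cf i x.2 * Ef i x.1) h2 := e2
    rw [e6, e1, gm_add, gm_eq_gm] at e4
    exact e4
  refine ⟨Ef, hEf, hfun, ?_⟩
  -- the monomials
  have hfunm : ∀ β : Fin n → ℕ, ∃ (c : Fin μ → ℂ → ℂ) (b : κ → (Fin n → ℂ) × ℂ → ℂ),
      (∀ i, AnalyticAt ℂ (c i) 0) ∧ (∀ j, AnalyticAt ℂ (b j) 0) ∧
      ∀ᶠ p in 𝓝 (0 : (Fin n → ℂ) × ℂ),
        ∏ i, p.1 i ^ β i = ∑ i, c i p.2 * Ef i p.1 + ∑ j, b j p * G j p := by
    intro β
    refine hfun (fun p => ∏ i, p.1 i ^ β i) ?_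
    exact Finset.analyticAt_fun_prod _ (fun i _ => (an_x i 0).pow _)
  choose c b hc hb hid using hfunm
  -- finitely many β
  have hfinset : {β : Fin n → ℕ | ∑ i, β i ≤ μ}.Finite := by
    refine (Set.Finite.subset (Set.finite_Iic (fun _ : Fin n => μ)) ?_)
    intro β hβ
    rw [Set.mem_Iic]
    intro i
    exact (Finset.single_le_sum (fun j _ => Nat.zero_le (β j)) (Finset.mem_univ i)).trans hβ
  have hall : ∀ᶠ t in 𝓝 (0 : ℂ), ∀ β ∈ {β : Fin n → ℕ | ∑ i, β i ≤ μ},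
      (∀ j, AnalyticAt ℂ (b β j) (0, t)) ∧ ∀ᶠ p in 𝓝 ((0, t) : (Fin n → ℂ) × ℂ),
        ∏ i, p.1 i ^ β i = ∑ i, c β i p.2 * Ef i p.1 + ∑ j, b β j p * G j p := by
    rw [Filter.eventually_all_finite hfinset]
    intro β _
    refine tendsto_axis.eventually
      ((Filter.eventually_all.2 fun j => (hb β j).eventually_analyticAt).and
      (eventually_eventually_nhds.2 (hid β)))
  have hGt : ∀ᶠ t in 𝓝 (0 : ℂ), ∀ j, AnalyticAt ℂ (G j) (0, t) :=
    tendsto_axis.eventually (Filter.eventually_all.2 fun j => (hG j).eventually_analyticAt)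
  filter_upwards [hdim, hall, hGt] with t ht hallt hGtt
  obtain ⟨hft, hdt⟩ := ht
  set It : Ideal (BB n) := Idl (0 : Fin n → ℂ) (fun j x => G j (x, t)) with hIt
  have hdt' : Module.finrank ℂ (BB n ⧸ It) = μ := hdt
  have hJt : JJ (xB (n := n)) μ ≤ It := by
    have := JJ_le_of_finrank (xB (n := n)) xB_not_unit It
    rwa [hdt'] at this
  let πt : BB n →ₗ[ℂ] (BB n ⧸ It) := (Ideal.Quotient.mkₐ ℂ It).toLinearMap
  have hrel : ∀ β : Fin n → ℕ, ∑ i, β i ≤ μ → πt (mon xB β) = ∑ i, c β i t • πt (e i) := by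
    intro β hβ
    obtain ⟨h1, h2⟩ := hallt β hβ
    have h4 := (tendsto_slice t).eventually h2
    obtain ⟨h5, e5⟩ := exists_sum_gm' (p := (0 : Fin n → ℂ)) Finset.univ
      (fun j x => b β j (x, t)) (fun j x => G j (x, t)) (fun j => slice_an (h1 j))
      (fun j => slice_an (hGtt j))
    obtain ⟨h6, e6⟩ := exists_sum_gm' (p := (0 : Fin n → ℂ)) Finset.univ
      (fun i _ => c β i t) Ef (fun i => analyticAt_const) hEf
    obtain ⟨h7, e7⟩ := gm_mon (p := (0 : Fin n → ℂ)) (fun i x => x i) (fun i => an_coord i 0) β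
    have e8 : (mon xB β : BB n) = ∑ i, algebraMap ℂ (BB n) (c β i t) * gm (Ef i) (hEf i) +
        ∑ j, gm (fun x => b β j (x, t)) (slice_an (h1 j)) *
          gm (fun x => G j (x, t)) (slice_an (hGtt j)) := by
      have e9 : ∑ i, algebraMap ℂ (BB n) (c β i t) * gm (Ef i) (hEf i) =
        gm (fun x => ∑ i, c β i t * Ef i x) h6 := e6
      rw [e5, e9]
      refine (show (mon xB β : BB n) = gm (fun x => ∏ i, x i ^ β i) h7 from e7).trans ?_
      rw [gm_add, gm_eq_gm]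
      filter_upwards [h4] with x hx
      exact hx
    obtain rfl : (fun i => gm (Ef i) (hEf i)) = e := funext hEe
    rw [e8, map_add, map_sum]
    have e10 : πt (∑ j, gm (fun x => b β j (x, t)) (slice_an (h1 j)) *
          gm (fun x => G j (x, t)) (slice_an (hGtt j))) = 0 := by
      refine (Ideal.Quotient.eq_zero_iff_mem (I := It)).2 ?_
      rw [hIt, mem_Idl (fun j => slice_an (hGtt j))]
      exact ⟨_, rfl⟩
    rw [e10, add_zero]
    refine Finset.sum_congr rfl (fun i _ => ?_)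
    rw [← Algebra.smul_def, map_smul]
  -- e_i span
  have hspan : ⊤ ≤ Submodule.span ℂ (Set.range fun i => πt (e i)) := by
    intro q hq
    clear hq
    obtain ⟨a, rfl⟩ := Ideal.Quotient.mk_surjective q
    change πt a ∈ _
    obtain ⟨v, hv, w, hw, rfl⟩ := Submodule.mem_sup.1 (mem_VV_sup (xB (n := n)) hadamard μ a)
    have hw0 : πt w = 0 := (Ideal.Quotient.eq_zero_iff_mem (I := It)).2 (hJt hw)
    rw [map_add, hw0, add_zero]
    clear hw hw0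
    unfold VV at hv
    induction hv using Submodule.span_induction with
    | mem z hz =>
      obtain ⟨β, h1, rfl⟩ := hz
      rw [hrel β h1.le]
      exact Submodule.sum_mem _ fun i _ =>
        Submodule.smul_mem _ _ (Submodule.subset_span ⟨i, rfl⟩)
    | zero => rw [map_zero]; exact Submodule.zero_mem _
    | add y z _ _ h1 h2 => rw [map_add]; exact Submodule.add_mem _ h1 h2
    | smul s z _ hz => rw [map_smul]; exact Submodule.smul_mem _ _ hz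
  have hli : LinearIndependent ℂ (fun i => πt (e i)) := by
    refine linearIndependent_of_top_le_span_of_card_eq_finrank hspan ?_
    rw [hdt']; simp
  intro c hc
  have han : AnalyticAt ℂ (fun x => ∑ i, c i * Ef i x) (0 : Fin n → ℂ) := by
    obtain ⟨h, _⟩ := exists_sum_gm' (p := (0 : Fin n → ℂ)) Finset.univ
      (fun i _ => c i) Ef (fun i => analyticAt_const) hEf
    exact h
  rw [gz_eq han] at hc
  have h1 : πt (gm (fun x => ∑ i, c i * Ef i x) han) = 0 :=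
    (Ideal.Quotient.eq_zero_iff_mem (I := It)).2 hc
  have h2 : (gm (fun x => ∑ i, c i * Ef i x) han : BB n) =
      ∑ i, algebraMap ℂ (BB n) (c i) * gm (Ef i) (hEf i) := by
    obtain ⟨h6, e6⟩ := exists_sum_gm' (p := (0 : Fin n → ℂ)) Finset.univ
      (fun i _ => c i) Ef (fun i => analyticAt_const) hEf
    exact e6.symm
  obtain rfl : (fun i => gm (Ef i) (hEf i)) = e := funext hEe
  rw [h2, map_sum] at h1
  have h3 : ∑ i, c i • πt (gm (Ef i) (hEf i)) = 0 := by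
    rw [← h1]
    refine Finset.sum_congr rfl (fun i _ => ?_)
    rw [← Algebra.smul_def, map_smul]
  exact (Fintype.linearIndependent_iff.1 hli) _ h3

/-- **membership at generic `t`**: coefficients analytic at `(0,0)` -/
theorem memU (G : κ → (Fin n → ℂ) × ℂ → ℂ) (hG : ∀ j, AnalyticAt ℂ (G j) 0) (μ : ℕ)
    (hdim : ∀ᶠ t in 𝓝 (0 : ℂ),
      Module.Finite ℂ (BB n ⧸ Idl (0 : Fin n → ℂ) (fun j x => G j (x, t))) ∧
      dimQ (0 : Fin n → ℂ) (fun j x => G j (x, t)) = μ)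
    (H : (Fin n → ℂ) × ℂ → ℂ) (hH : AnalyticAt ℂ H 0)
    (hmem : ∃ᶠ t in 𝓝[≠] (0 : ℂ),
      (gz (fun x => H (x, t)) : BB n) ∈ Idl (0 : Fin n → ℂ) (fun j x => G j (x, t))) :
    ∃ a : κ → (Fin n → ℂ) × ℂ → ℂ, (∀ j, AnalyticAt ℂ (a j) 0) ∧
      ∀ᶠ p in 𝓝 (0 : (Fin n → ℂ) × ℂ), H p = ∑ j, a j p * G j p := by
  classical
  obtain ⟨Ef, hEf, hfun, hli⟩ := basis G hG μ hdim
  obtain ⟨c, b, hc, hb, hid⟩ := hfun H hH
  refine ⟨b, hb, ?_⟩
  have hGt : ∀ᶠ t in 𝓝 (0 : ℂ), ∀ j, AnalyticAt ℂ (G j) (0, t) :=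
    tendsto_axis.eventually (Filter.eventually_all.2 fun j => (hG j).eventually_analyticAt)
  have hbt : ∀ᶠ t in 𝓝 (0 : ℂ), ∀ j, AnalyticAt ℂ (b j) (0, t) :=
    tendsto_axis.eventually (Filter.eventually_all.2 fun j => (hb j).eventually_analyticAt)
  have hHt : ∀ᶠ t in 𝓝 (0 : ℂ), AnalyticAt ℂ H (0, t) :=
    tendsto_axis.eventually hH.eventually_analyticAt
  have hidt : ∀ᶠ t in 𝓝 (0 : ℂ), ∀ᶠ p in 𝓝 ((0, t) : (Fin n → ℂ) × ℂ),
      H p = ∑ i, c i p.2 * Ef i p.1 + ∑ j, b j p * G j p :=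
    tendsto_axis.eventually (eventually_eventually_nhds.2 hid)
  have hev : ∀ᶠ t in 𝓝 (0 : ℂ), (gz (fun x => H (x, t)) : BB n) ∈
      Idl (0 : Fin n → ℂ) (fun j x => G j (x, t)) → ∀ i, c i t = 0 := by
    filter_upwards [hli, hGt, hbt, hHt, hidt] with t hlit hGtt hbtt hHtt hidtt hmt
    refine hlit (fun i => c i t) ?_
    have h4 := (tendsto_slice t).eventually hidtt
    obtain ⟨h5, e5⟩ := exists_sum_gm' (p := (0 : Fin n → ℂ)) Finset.univ
      (fun j x => b j (x, t)) (fun j x => G j (x, t)) (fun j => slice_an (hbtt j))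
      (fun j => slice_an (hGtt j))
    obtain ⟨h6, e6⟩ := exists_sum_gm' (p := (0 : Fin n → ℂ)) Finset.univ
      (fun i _ => c i t) Ef (fun i => analyticAt_const) hEf
    have h7 : (gz (fun x => ∑ i, c i t * Ef i x) : BB n) =
        gm (fun x => H (x, t)) (slice_an hHtt) - ∑ j, gm (fun x => b j (x, t))
          (slice_an (hbtt j)) * gm (fun x => G j (x, t)) (slice_an (hGtt j)) := by
      rw [gz_eq h6, e5, eq_sub_iff_add_eq, gm_add, gm_eq_gm]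
      filter_upwards [h4] with x hx
      exact hx.symm
    rw [h7, ← gz_eq (slice_an hHtt)]
    refine Ideal.sub_mem _ hmt ?_
    rw [mem_Idl (fun j => slice_an (hGtt j))]
    exact ⟨_, rfl⟩
  have hc0 : ∀ i, ∀ᶠ t in 𝓝 (0 : ℂ), c i t = 0 := by
    intro i
    rw [← (hc i).frequently_zero_iff_eventually_zero]
    refine (hmem.and_eventually (hev.filter_mono nhdsWithin_le_nhds)).mono ?_
    intro t ht
    exact ht.2 ht.1 i
  have h2 : Tendsto (fun p : (Fin n → ℂ) × ℂ => p.2) (𝓝 0) (𝓝 0) :=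
    continuous_snd.tendsto' _ _ rfl
  filter_upwards [hid, h2.eventually (Filter.eventually_all.2 hc0)] with p h3 h4
  rw [h3]
  simp [h4]

end Crest.Agent.R257.Cor1_788
end
end

-- ▼ part R257/KlH_540
section

/-!
R257 / KlH_540: **`KltStmt`** of `KED_952` from K2 (for germs satisfying `NKW`).
-/

set_option autoImplicit false

open Topology Filter MeasureTheory Set
open scoped ENNReal Real
open Crest.AlgGeometry.Germ
open Crest.Agent.R275.Loc2879 hiding AA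
open Crest.Agent.R257.UI939

noncomputable section

namespace Crest.Agent.R257.KlH_540

open Crest.Agent.R257.Defs_219 Crest.Agent.R257.KlE_540 Crest.Agent.R257.KlF_540
open Crest.Agent.R257.KlG_540

/-- K2, integral free [405]: a germ without weights `≥ 1` has an Euler field with divergence
`≥ 1 + 1/(30 + 2 μ)` -/
def K2NStmt : Prop := ∀ f : E3 → ℂ, Iso f → NKW f → ∃ a : Fin 3 → E3 → ℂ,
  (∀ j, AnalyticAt ℂ (a j) 0) ∧ (∀ᶠ x in 𝓝 0, f x = ∑ j, a j x * coordDeriv f j x) ∧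
  1 + 1 / (30 + 2 * (col (par f) : ℝ)) ≤ (∑ j, coordDeriv (a j) j 0).re

theorem mem_of_field {f : E3 → ℂ} (hf : AnalyticAt ℂ f 0) {a : Fin 3 → E3 → ℂ}
    (ha : ∀ j, AnalyticAt ℂ (a j) 0) (he : ∀ᶠ x in 𝓝 0, f x = ∑ j, a j x * coordDeriv f j x) :
    (gz f : BB 3) ∈ Idl (0 : E3) (fun j x => coordDeriv f j x) := by
  have hpa : ∀ j, AnalyticAt ℂ (fun x => coordDeriv f j x) 0 := fun j => an_coordDeriv hf j
  rw [mem_Idl hpa, gz_eq hf]
  refine ⟨fun j => gm (a j) (ha j), ?_⟩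
  obtain ⟨h, e⟩ := exists_sum_gm' Finset.univ a (fun j x => coordDeriv f j x) ha hpa
  rw [e, gm_eq_gm]
  exact he

theorem grad_zero (F : E3 × ℂ → ℂ) (t : ℂ) (j : Fin 3) :
    grad F j ((0 : E3), t) = coordDeriv (fun x => F (x, t)) j 0 := rfl

/-- the general statement -/
theorem klt_limit (K2 : K2NStmt) {G : E3 × ℂ → ℂ} (hG : AnalyticAt ℂ G 0) {μ : ℕ}
    (hiso : ∀ᶠ t in 𝓝 (0 : ℂ), Iso (sl G t)) (hmu : ∀ᶠ t in 𝓝 (0 : ℂ), col (par (sl G t)) = μ)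
    (hfr : ∃ᶠ t in 𝓝[≠] (0 : ℂ), InJ 1 (sl G t) fun _ => 1) :
    ∃ a : Fin 3 → E3 → ℂ, (∀ j, AnalyticAt ℂ (a j) 0) ∧
      (∀ᶠ x in 𝓝 0, sl G 0 x = ∑ j, a j x * coordDeriv (sl G 0) j x) ∧
      1 + 1 / (30 + 2 * (μ : ℝ)) ≤ (∑ j, coordDeriv (a j) j 0).re := by
  have hga : ∀ j : Fin 3, AnalyticAt ℂ (grad G j) 0 := fun j => an_grad hG j
  -- the dimension
  have hdim : ∀ᶠ t in 𝓝 (0 : ℂ),
      Module.Finite ℂ (BB 3 ⧸ Idl (0 : E3) (fun j x => grad G j (x, t))) ∧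
      dimQ (0 : E3) (fun j x => grad G j (x, t)) = μ := by
    filter_upwards [hiso, hmu] with t h1 h2
    have hpa : ∀ j, AnalyticAt ℂ (par (sl G t) j) 0 := fun j => an_coordDeriv h1.an j
    exact ⟨(colFin_iff hpa).1 h1.fin, by rw [← h2, col_eq hpa]; rfl⟩
  -- fields at the klt parameters
  have hK : ∃ᶠ t in 𝓝[≠] (0 : ℂ), Iso (sl G t) ∧ col (par (sl G t)) = μ ∧
      ∃ a : Fin 3 → E3 → ℂ, (∀ j, AnalyticAt ℂ (a j) 0) ∧
      (∀ᶠ x in 𝓝 0, sl G t x = ∑ j, a j x * coordDeriv (sl G t) j x) ∧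
      1 + 1 / (30 + 2 * (μ : ℝ)) ≤ (∑ j, coordDeriv (a j) j 0).re := by
    refine (hfr.and_eventually ((hiso.and hmu).filter_mono nhdsWithin_le_nhds)).mono ?_
    rintro t ⟨h1, h2, h3⟩
    obtain ⟨a, k1, k2, k3⟩ := K2 _ h2 (nk h2 h1)
    rw [h3] at k3
    exact ⟨h2, h3, a, k1, k2, k3⟩
  have hmem : ∃ᶠ t in 𝓝[≠] (0 : ℂ), (gz (fun x => G (x, t)) : BB 3) ∈
      Idl (0 : E3) (fun j x => grad G j (x, t)) := by
    refine hK.mono ?_
    rintro t ⟨h1, h2, a, k1, k2, k3⟩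
    exact mem_of_field (f := fun x => G (x, t)) h1.an k1 k2
  obtain ⟨a, ha, hae⟩ := Cor1_788.memU (κ := Fin 3) (grad G) hga μ hdim G hG hmem
  -- slices of the global field
  have hat : ∀ᶠ t in 𝓝 (0 : ℂ), ∀ j, AnalyticAt ℂ (a j) (0, t) :=
    tendsto_0t.eventually (Filter.eventually_all.2 fun j => (ha j).eventually_analyticAt)
  have haet : ∀ᶠ t in 𝓝 (0 : ℂ), ∀ᶠ x in 𝓝 (0 : E3),
      sl G t x = ∑ j, a j (x, t) * coordDeriv (sl G t) j x := by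
    filter_upwards [tendsto_0t.eventually (eventually_eventually_nhds.2 hae)] with t ht
    have h1 : Tendsto (fun x : E3 => (x, t)) (𝓝 0) (𝓝 (0, t)) :=
      (by fun_prop : Continuous (fun x : E3 => (x, t))).tendsto' _ _ rfl
    exact h1.eventually ht
  set τ : ℂ → ℂ := fun t => ∑ j, grad (a j) j ((0 : E3), t) with hτ
  have hτc : ContinuousAt τ 0 := by
    have h1 : ∀ j, ContinuousAt (fun t : ℂ => grad (a j) j ((0 : E3), t)) 0 := by
      intro j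
      have h2 : ContinuousAt (grad (a j) j) ((0 : E3), (0 : ℂ)) := (an_grad (ha j) j).continuousAt
      exact ContinuousAt.comp (g := grad (a j) j) (f := fun t : ℂ => ((0 : E3), t)) h2
        (by fun_prop : Continuous (fun t : ℂ => ((0 : E3), t))).continuousAt
    exact tendsto_finsetSum _ fun j _ => h1 j
  have hge : ∃ᶠ t in 𝓝[≠] (0 : ℂ), 1 + 1 / (30 + 2 * (μ : ℝ)) ≤ (τ t).re := by
    refine (hK.and_eventually ((hat.and haet).filter_mono nhdsWithin_le_nhds)).mono ?_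
    rintro t ⟨⟨h1, h2, b, k1, k2, k3⟩, h4, h5⟩
    have h6 : τ t = ∑ j, coordDeriv (b j) j 0 := by
      refine Eq.trans ?_ (trace_unique h1.an h1.crit h1.fin
        (a := fun j x => a j (x, t)) (fun j => an_slice (h4 j)) k1 h5 k2)
      exact Finset.sum_congr rfl fun j _ => grad_zero (a j) t j
    rw [h6]
    exact k3
  have h0 : 1 + 1 / (30 + 2 * (μ : ℝ)) ≤ (τ 0).re := by
    have h1 : Tendsto (fun t => (τ t).re) (𝓝[≠] 0) (𝓝 (τ 0).re) :=
      (Complex.continuous_re.continuousAt.comp hτc).tendsto.mono_left nhdsWithin_le_nhds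
    by_contra hcon
    push Not at hcon
    have h2 := h1.eventually (gt_mem_nhds hcon)
    obtain ⟨t, h3, h4⟩ := (hge.and_eventually h2).exists
    exact absurd h3 (not_le.2 h4)
  have h7 : τ 0 = ∑ j, coordDeriv (fun x => a j (x, 0)) j 0 :=
    Finset.sum_congr rfl fun j _ => grad_zero (a j) 0 j
  rw [h7] at h0
  exact ⟨fun j x => a j (x, 0), fun j => an_slice (hat.self_of_nhds j), haet.self_of_nhds, h0⟩

theorem kltStmt_of (K2 : K2NStmt) : KED_952.KltStmt := by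
  intro G μ d R r c₀ e P c hG hfr
  have hR : ∀ᶠ t in 𝓝 (0 : ℂ), ‖t‖ < R := by
    filter_upwards [Metric.ball_mem_nhds (0 : ℂ) hG.R_pos] with t ht
    simpa using ht
  have hiso0 : Iso (sl G 0) := SkelV_952.iso_gfam hG (by simpa using hG.R_pos)
  obtain ⟨a, h1, h2, h3⟩ := klt_limit K2 (μ := μ)
    (SkelV_952.an_gfam hG 0 (by simpa using hG.R_pos))
    (by filter_upwards [hR] with t ht using SkelV_952.iso_gfam hG ht)
    (by filter_upwards [hR] with t ht using hG.mu t ht) hfr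
  refine KlD_540.klt_of_field hiso0.an (isolated' hiso0.an hiso0.fin) h1 h2 ?_
  have : (0 : ℝ) < 1 / (30 + 2 * (μ : ℝ)) := by positivity
  linarith

end Crest.Agent.R257.KlH_540
end
end

-- ▼ part R257/Kp7_405
section

/-!
R257 / Kp7_405 (leaf KLT-K2, NKW form): the plane classification from the weighted box criterion of
helper540 (`NKW`, post 3159) instead of integrals.
-/

set_option autoImplicit false
set_option linter.unusedSectionVars false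
set_option linter.deprecated false

open Set Filter Topology Metric MeasureTheory
open scoped ENNReal
open Crest.Agent.R257.Defs_219 Crest.AlgGeometry.Germ

noncomputable section

namespace Crest.Agent.R257.Kp_405.NK

/-- box bound with weights `(b, a)` -/
def NB (p : ℂ × ℂ → ℂ) (a b : ℕ) : Prop :=
  ∃ r C : ℝ, 0 < r ∧ ∀ t : ℝ, 0 < t → t ≤ 1 → ∀ w : ℂ × ℂ, ‖w.1‖ ≤ r * t ^ b → ‖w.2‖ ≤ r * t ^ a →
    ‖p w‖ ≤ C * t ^ (2 * a + 2 * b)

lemma NB.of_le {p q : ℂ × ℂ → ℂ} {a b : ℕ} (h : NB p a b) {M : ℝ}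
    (hle : ∀ᶠ w in 𝓝 (0 : ℂ × ℂ), ‖q w‖ ≤ M * ‖p w‖) : NB q a b := by
  obtain ⟨r, C, hr, h1⟩ := h
  obtain ⟨ρ, hρ, h2⟩ := Metric.nhds_basis_closedBall.eventually_iff.1 hle
  refine ⟨min r ρ, |M| * C, lt_min hr hρ, fun t ht ht1 w hw1 hw2 => ?_⟩
  have hb : t ^ b ≤ 1 := pow_le_one₀ ht.le ht1
  have ha : t ^ a ≤ 1 := pow_le_one₀ ht.le ht1
  have hm : 0 < min r ρ := lt_min hr hρ
  have e1 : ‖w.1‖ ≤ r * t ^ b := hw1.trans (by gcongr; exact min_le_left _ _)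
  have e2 : ‖w.2‖ ≤ r * t ^ a := hw2.trans (by gcongr; exact min_le_left _ _)
  have e3 : ‖w‖ ≤ ρ := by
    rw [Prod.norm_def]
    refine max_le ?_ ?_
    · exact hw1.trans ((mul_le_of_le_one_right hm.le hb).trans (min_le_right _ _))
    · exact hw2.trans ((mul_le_of_le_one_right hm.le ha).trans (min_le_right _ _))
  calc ‖q w‖ ≤ M * ‖p w‖ := h2 (by simpa using e3)
    _ ≤ |M| * ‖p w‖ := by gcongr; exact le_abs_self M
    _ ≤ |M| * (C * t ^ (2 * a + 2 * b)) := by gcongr; exact h1 t ht ht1 w e1 e2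
    _ = |M| * C * t ^ (2 * a + 2 * b) := by ring

/-- `p` is a non degenerate germ which satisfies no weighted box bound with `w₁ + w₂ = 1/2` -/
def NK2 (p : ℂ × ℂ → ℂ) : Prop :=
  (∃ k, ¬ Cv p k) ∧ ∀ (Φ Ψ : ℂ × ℂ → ℂ × ℂ), LB Φ Ψ → ∀ a b : ℕ, 1 ≤ a → 1 ≤ b →
    ¬ NB (fun w => p (Φ w)) a b

lemma NK2.congr {p q : ℂ × ℂ → ℂ} (h : NK2 p) (he : p =ᶠ[𝓝 0] q) : NK2 q := by
  obtain ⟨⟨k, hk⟩, h2⟩ := h
  refine ⟨⟨k, fun hq => hk (hq.congr he.symm)⟩, fun Φ Ψ hL a b ha hb hN => ?_⟩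
  refine h2 Φ Ψ hL a b ha hb (hN.of_le (M := 1) ?_)
  filter_upwards [hL.tendsto.eventually he] with w hw
  rw [hw, one_mul]

lemma NK2.of_unit_mul {p u : ℂ × ℂ → ℂ} (hp : AnalyticAt ℂ p 0) (hu : AnalyticAt ℂ u 0)
    (h : NK2 (fun w => u w * p w)) : NK2 p := by
  obtain ⟨⟨k, hk⟩, h2⟩ := h
  refine ⟨⟨k, fun hq => hk (hq.unit_mul hp hu)⟩, fun Φ Ψ hL a b ha hb hN => ?_⟩
  refine h2 Φ Ψ hL a b ha hb (hN.of_le (M := ‖u 0‖ + 1) ?_)
  have b1 := hu.continuousAt.norm.eventually_lt (continuousAt_const (y := ‖u 0‖ + 1)) (by simp)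
  filter_upwards [hL.tendsto.eventually b1] with w hw
  rw [norm_mul]
  gcongr

lemma NK2.comp {p : ℂ × ℂ → ℂ} (hp : AnalyticAt ℂ p 0) (h : NK2 p) {Φ Ψ : ℂ × ℂ → ℂ × ℂ}
    (hL : LB Φ Ψ) : NK2 (fun w => p (Φ w)) := by
  obtain ⟨⟨k, hk⟩, h2⟩ := h
  have hpΦ : AnalyticAt ℂ (fun w => p (Φ w)) 0 := by
    refine AnalyticAt.comp (g := p) (f := Φ) ?_ hL.an
    rw [hL.map0]; exact hp
  refine ⟨⟨k, fun hq => hk ?_⟩, fun Φ' Ψ' hL' a b ha hb hN => ?_⟩
  · refine (hq.comp hpΦ hL.symm).congr ?_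
    filter_upwards [hL.right] with w hw
    exact congrArg p hw
  · exact h2 _ _ (hL.comp hL') a b ha hb hN

theorem not_NK2 {p : ℂ × ℂ → ℂ} (a b : ℕ) (ha : 1 ≤ a) (hb : 1 ≤ b) {r C : ℝ} (hr : 0 < r)
    (h : ∀ t : ℝ, 0 < t → t ≤ 1 → ∀ w : ℂ × ℂ, ‖w.1‖ ≤ r * t ^ b → ‖w.2‖ ≤ r * t ^ a →
      ‖p w‖ ≤ C * t ^ (2 * a + 2 * b)) : ¬ NK2 p := by
  rintro ⟨-, h2⟩
  have hid : LB (fun w : ℂ × ℂ => w) (fun w : ℂ × ℂ => w) :=
    ⟨analyticAt_id, analyticAt_id, rfl, rfl, Eventually.of_forall fun _ => rfl,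
      Eventually.of_forall fun _ => rfl⟩
  exact h2 _ _ hid a b ha hb ⟨r, C, hr, h⟩

lemma Cv_sq (k : ℕ) : Cv (fun w : ℂ × ℂ => w.2 ^ 2) k := by
  refine ⟨fun s => (s, 0), analyticAt_id.prod analyticAt_const, rfl, 1, one_pos, 0, ?_⟩
  refine Eventually.of_forall fun s => ⟨?_, ?_, ?_⟩
  · rw [one_mul]; exact le_max_left ‖s‖ ‖(0:ℂ)‖
  · have e2 : HasFDerivAt (fun w : ℂ × ℂ => w.2 ^ 2) (0 : ℂ × ℂ →L[ℂ] ℂ) (s, 0) := by
      have := (hasFDerivAt_snd (𝕜 := ℂ) (E := ℂ) (F := ℂ) (p := (s, (0:ℂ)))).pow 2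
      refine this.congr_fderiv ?_
      ext <;> simp
    rw [e2.fderiv]
    simp
  · simp

/-! ### order two -/

theorem res_A {c : ℂ → ℂ} (hc : AnalyticAt ℂ c 0) (hc0 : c 0 = 0)
    (hK : NK2 (fun w : ℂ × ℂ => w.2 ^ 2 + c w.1)) : PRes (fun w : ℂ × ℂ => w.2 ^ 2 + c w.1) := by
  have hne : ¬ ∀ᶠ y in 𝓝 (0 : ℂ), c y = 0 := by
    intro h0
    obtain ⟨⟨k, hk⟩, -⟩ := hK
    refine hk ((Cv_sq k).congr ?_)
    filter_upwards [ev_fst h0] with w hw
    rw [hw, add_zero]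
  obtain ⟨n, g, hg, hg0, he⟩ := exists_ord hc hc0 hne
  exact model_A hg hg0 hc he

theorem res_D {B : ℂ → ℂ} (hB : AnalyticAt ℂ B 0) (hB0 : B 0 = 0)
    (hK : NK2 (fun w : ℂ × ℂ => w.1 * (w.2 ^ 2 + B w.1))) :
    PRes (fun w : ℂ × ℂ => w.1 * (w.2 ^ 2 + B w.1)) := by
  have hne : ¬ ∀ᶠ y in 𝓝 (0 : ℂ), B y = 0 := by
    intro h0
    obtain ⟨⟨k, hk⟩, -⟩ := hK
    refine hk (((Cv_sq k).unit_mul (analyticAt_snd.pow 2) analyticAt_fst).congr ?_)
    filter_upwards [ev_fst h0] with w hw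
    rw [hw, add_zero]
    rfl
  obtain ⟨n, g, hg, hg0, he⟩ := exists_ord hB hB0 hne
  exact model_D hg hg0 hB he

/-- transfer from the sheared model -/
theorem res_shear {M : ℂ × ℂ → ℂ} (hM : AnalyticAt ℂ M 0) (hres : NK2 M → PRes M) {θ : ℂ → ℂ}
    (hθ : AnalyticAt ℂ θ 0) (h0 : θ 0 = 0) (hK : NK2 (fun w => M (shear θ w))) :
    PRes (fun w => M (shear θ w)) := by
  have hL := LB_shear hθ h0
  have hMs : AnalyticAt ℂ (fun w => M (shear θ w)) 0 := by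
    refine AnalyticAt.comp (g := M) (f := shear θ) ?_ hL.an
    rw [hL.map0]; exact hM
  have h1 : NK2 (fun w => (fun w => M (shear θ w)) (shear (fun z => - θ z) w)) :=
    NK2.comp hMs hK hL.symm
  have h2 : NK2 M := h1.congr (by
    filter_upwards [hL.right] with w hw
    simp only [hw])
  exact (hres h2).comp hM hL

/-- transfer from `F = u M` -/
theorem res_unit {F M u : ℂ × ℂ → ℂ} (hM : AnalyticAt ℂ M 0) (hres : NK2 M → PRes M)
    (hu : AnalyticAt ℂ u 0) (hu0 : u 0 ≠ 0) (he : ∀ᶠ w in 𝓝 (0 : ℂ × ℂ), F w = u w * M w)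
    (hK : NK2 F) : PRes F := by
  have h1 : NK2 (fun w => u w * M w) := hK.congr he
  have h2 : NK2 M := NK2.of_unit_mul hM hu h1
  refine ((hres h2).unit_mul hM hu hu0).congr ?_
  filter_upwards [he] with w hw using hw.symm

theorem res_ord2 {q : ℂ × ℂ → ℂ} (hq : AnalyticAt ℂ q 0)
    (hn : analyticOrderAt (fun w : ℂ => q (0, w)) 0 = 2) (hK : NK2 q) : PRes q := by
  obtain ⟨u, a₀, a₁, hu, hu0, ha₀, ha₁, h00, h10, he⟩ := wprep2 hq hn
  set c : ℂ → ℂ := fun y => a₀ y - a₁ y ^ 2 / 4 with hc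
  have hca : AnalyticAt ℂ c 0 := ha₀.sub ((ha₁.pow 2).div analyticAt_const (by norm_num))
  have hc0 : c 0 = 0 := by simp [hc, h00, h10]
  have hθ : AnalyticAt ℂ (fun y => a₁ y / 2) 0 := ha₁.div analyticAt_const (by norm_num)
  have hθ0 : a₁ 0 / 2 = 0 := by simp [h10]
  have hM := an_A hca
  have hMs : AnalyticAt ℂ (fun w : ℂ × ℂ => (fun v : ℂ × ℂ => v.2 ^ 2 + c v.1)
      (shear (fun y => a₁ y / 2) w)) 0 := by
    rw [← sq_form]
    exact ((analyticAt_snd.pow 2).add ((an_fst ha₁).mul analyticAt_snd)).add (an_fst ha₀)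
  refine res_unit hMs (fun h => res_shear hM (res_A hca hc0) hθ hθ0 h) hu hu0 ?_ hK
  filter_upwards [he] with w hw
  rw [hw]
  congr 1
  simp only [shear, hc]
  ring

/-! ### order three, a simple root -/

theorem res_simple {b c β γ : ℂ → ℂ} (hβ : AnalyticAt ℂ β 0) (hγ : AnalyticAt ℂ γ 0)
    (hb : AnalyticAt ℂ b 0) (hc : AnalyticAt ℂ c 0)
    (hbe : ∀ᶠ y in 𝓝 (0 : ℂ), b y = y ^ 2 * β y) (hce : ∀ᶠ y in 𝓝 (0 : ℂ), c y = y ^ 3 * γ y)
    (h : β 0 ≠ 0 ∨ γ 0 ≠ 0) (hK : NK2 (fun w : ℂ × ℂ => w.2 ^ 3 + b w.1 * w.2 + c w.1)) :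
    PRes (fun w : ℂ × ℂ => w.2 ^ 3 + b w.1 * w.2 + c w.1) := by
  obtain ⟨ρ, h1, h2⟩ := exists_simple_root h
  obtain ⟨σ, hσ, hσ0, hσe⟩ := exists_root_fun hβ hγ h1 h2
  set M : ℂ × ℂ → ℂ := fun w => w.2 ^ 3 + b w.1 * w.2 + c w.1 with hM
  have hMa : AnalyticAt ℂ M 0 :=
    ((analyticAt_snd.pow 3).add ((an_fst hb).mul analyticAt_snd)).add (an_fst hc)
  set θ : ℂ → ℂ := fun y => y * σ y with hθ
  have hθa : AnalyticAt ℂ θ 0 := analyticAt_id.mul hσ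
  have hθ0 : θ 0 = 0 := by simp [hθ]
  -- the change of variables
  set R : ℂ × ℂ → ℂ := fun w => w.1 ^ 2 + 3 * θ w.2 * w.1 + (3 * θ w.2 ^ 2 + b w.2) with hR
  have hθs : AnalyticAt ℂ (fun w : ℂ × ℂ => θ w.2) 0 :=
    AnalyticAt.comp (g := θ) (f := Prod.snd) hθa analyticAt_snd
  have hbs : AnalyticAt ℂ (fun w : ℂ × ℂ => b w.2) 0 :=
    AnalyticAt.comp (g := b) (f := Prod.snd) hb analyticAt_snd
  have hRa : AnalyticAt ℂ R 0 :=
    ((analyticAt_fst.pow 2).add ((analyticAt_const.mul hθs).mul analyticAt_fst)).add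
      ((analyticAt_const.mul (hθs.pow 2)).add hbs)
  have hord : analyticOrderAt (fun w : ℂ => R (0, w)) 0 = 2 := by
    have ha : AnalyticAt ℂ (fun w : ℂ => R (0, w)) 0 :=
      AnalyticAt.comp (g := R) (f := fun w : ℂ => ((0 : ℂ), w)) hRa
        (analyticAt_const.prod analyticAt_id)
    have h3 : analyticOrderAt (fun w : ℂ => R (0, w)) 0 = ((2 : ℕ) : ℕ∞) := by
      rw [ha.analyticOrderAt_eq_natCast]
      refine ⟨fun s => 3 * σ s ^ 2 + β s, (analyticAt_const.mul (hσ.pow 2)).add hβ, ?_, ?_⟩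
      · change 3 * σ 0 ^ 2 + β 0 ≠ 0
        rw [hσ0]; exact h2
      · filter_upwards [hbe] with s hs
        simp only [hR, hs, hθ, sub_zero, smul_eq_mul]
        ring
    exact_mod_cast h3
  -- `M ∘ shear θ ∘ swap = ξ R`
  have hcomp : ∀ᶠ w in 𝓝 (0 : ℂ × ℂ), M (shear θ (Prod.swap w)) = w.1 * R w := by
    have h4 : ∀ᶠ w in 𝓝 (0 : ℂ × ℂ), b w.2 = w.2 ^ 2 * β w.2 ∧ c w.2 = w.2 ^ 3 * γ w.2 ∧
        σ w.2 ^ 3 + β w.2 * σ w.2 + γ w.2 = 0 := by
      have t1 : Tendsto (Prod.snd : ℂ × ℂ → ℂ) (𝓝 0) (𝓝 0) := continuous_snd.tendsto' _ _ rfl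
      filter_upwards [t1.eventually hbe, t1.eventually hce, t1.eventually hσe] with w a1 a2 a3
        using ⟨a1, a2, a3⟩
    filter_upwards [h4] with w hw
    obtain ⟨e1, e2, e3⟩ := hw
    simp only [hM, hR, shear, Prod.swap, hθ, e1, e2]
    linear_combination (w.2 ^ 3) * e3
  have hL1 := LB_shear hθa hθ0
  have hL2 : LB (fun w : ℂ × ℂ => shear θ (Prod.swap w))
      (fun w : ℂ × ℂ => Prod.swap (shear (fun z => - θ z) w)) := hL1.comp LB_swap
  -- it suffices to treat `ξ R`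
  have hfin : NK2 (fun w : ℂ × ℂ => w.1 * R w) → PRes (fun w : ℂ × ℂ => w.1 * R w) := by
    intro hK'
    obtain ⟨u, a₀, a₁, hu, hu0, ha₀, ha₁, h00, h10, he⟩ := wprep2 hRa hord
    set B : ℂ → ℂ := fun y => a₀ y - a₁ y ^ 2 / 4 with hB
    have hBa : AnalyticAt ℂ B 0 := ha₀.sub ((ha₁.pow 2).div analyticAt_const (by norm_num))
    have hB0 : B 0 = 0 := by simp [hB, h00, h10]
    have hθ' : AnalyticAt ℂ (fun y => a₁ y / 2) 0 := ha₁.div analyticAt_const (by norm_num)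
    have hθ0' : a₁ 0 / 2 = 0 := by simp [h10]
    have hN : AnalyticAt ℂ (fun w : ℂ × ℂ => w.1 * (w.2 ^ 2 + B w.1)) 0 :=
      analyticAt_fst.mul (an_A hBa)
    have hNs : AnalyticAt ℂ (fun w : ℂ × ℂ => (fun v : ℂ × ℂ => v.1 * (v.2 ^ 2 + B v.1))
        (shear (fun y => a₁ y / 2) w)) 0 := by
      refine AnalyticAt.comp (g := fun v : ℂ × ℂ => v.1 * (v.2 ^ 2 + B v.1))
        (f := shear (fun y => a₁ y / 2)) ?_ (LB_shear hθ' hθ0').an
      rw [(LB_shear hθ' hθ0').map0]; exact hN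
    refine res_unit hNs (fun h => res_shear hN (res_D hBa hB0) hθ' hθ0' h) hu hu0 ?_ hK'
    filter_upwards [he] with w hw
    rw [hw]
    simp only [shear, hB]
    ring
  -- transfer
  have hK1 : NK2 (fun w : ℂ × ℂ => w.1 * R w) := (NK2.comp hMa hK hL2).congr hcomp
  have h5 := hfin hK1
  have h6 : PRes (fun w : ℂ × ℂ => M (shear θ (Prod.swap w))) :=
    h5.congr (by filter_upwards [hcomp] with w hw using hw.symm)
  have hMc : AnalyticAt ℂ (fun w : ℂ × ℂ => M (shear θ (Prod.swap w))) 0 := by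
    refine AnalyticAt.comp (g := M) (f := fun w : ℂ × ℂ => shear θ (Prod.swap w)) ?_ hL2.an
    rw [hL2.map0]; exact hMa
  refine (h6.comp hMc hL2.symm).congr ?_
  filter_upwards [hL2.right] with w hw
  exact congrArg M hw

/-! ### order three, all cases -/

theorem res_cubic {b c : ℂ → ℂ} (hb : AnalyticAt ℂ b 0) (hc : AnalyticAt ℂ c 0)
    {β γ : ℂ → ℂ} (hβ : AnalyticAt ℂ β 0) (hγ : AnalyticAt ℂ γ 0)
    (hbe : ∀ᶠ y in 𝓝 (0 : ℂ), b y = y ^ 2 * β y) (hce : ∀ᶠ y in 𝓝 (0 : ℂ), c y = y ^ 3 * γ y)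
    (hK : NK2 (fun w : ℂ × ℂ => w.2 ^ 3 + b w.1 * w.2 + c w.1)) :
    PRes (fun w : ℂ × ℂ => w.2 ^ 3 + b w.1 * w.2 + c w.1) := by
  have hMa : AnalyticAt ℂ (fun w : ℂ × ℂ => w.2 ^ 3 + b w.1 * w.2 + c w.1) 0 :=
    ((analyticAt_snd.pow 3).add ((an_fst hb).mul analyticAt_snd)).add (an_fst hc)
  have hc00 : c 0 = 0 := by have := hce.self_of_nhds; simpa using this
  have hM0 : (fun w : ℂ × ℂ => w.2 ^ 3 + b w.1 * w.2 + c w.1) 0 = 0 := by simp [hc00]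
  by_cases h0 : β 0 ≠ 0 ∨ γ 0 ≠ 0
  · exact res_simple hβ hγ hb hc hbe hce h0 hK
  push Not at h0
  obtain ⟨b3, hb3, hb3e⟩ := pow_step hβ h0.1 hbe
  obtain ⟨c4, hc4, hc4e⟩ := pow_step hγ h0.2 hce
  by_cases h4 : c4 0 ≠ 0
  · -- E6
    have hδ : (0:ℂ) ^ 1 * b3 0 * ((((1:ℕ):ℂ) + ((0:ℕ):ℂ) + 2) * b3 0) ^ 2 +
      3 * 0 ^ 0 * ((((1:ℕ):ℂ) + 2 * ((0:ℕ):ℂ) + 3) * c4 0) ^ 2 = 48 * c4 0 ^ 2 := by
      push_cast; ring
    have hν : 2 / 3 * (0:ℂ) ^ 1 * b3 0 ^ 2 * ((((1:ℕ):ℂ) + ((0:ℕ):ℂ) + 2) * b3 0) +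
      3 * 0 ^ 0 * c4 0 * ((((1:ℕ):ℂ) + 2 * ((0:ℕ):ℂ) + 3) * c4 0) = 12 * c4 0 ^ 2 := by
      push_cast; ring
    have h5 := cubic_field (i := 1) (j := 0) hb3 hc4 hb hc hb3e hc4e hδ.symm
      (mul_ne_zero (by norm_num) (pow_ne_zero 2 h4)) hν.symm
    refine PRes_of_Eul hMa hM0 (h := 12) (by norm_num) (by norm_num) ?_
    have e1 : (1:ℂ) / 3 + 12 * c4 0 ^ 2 / (48 * c4 0 ^ 2) = 1 / 2 + 1 / ((12:ℕ) : ℂ) := by
      field_simp
      push_cast
      norm_num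
    rw [← e1]
    exact h5
  push Not at h4
  obtain ⟨c5, hc5, hc5e⟩ := pow_step hc4 h4 hc4e
  by_cases h5 : b3 0 ≠ 0
  · -- E7
    have hδ : (0:ℂ) ^ 0 * b3 0 * ((((0:ℕ):ℂ) + ((1:ℕ):ℂ) + 2) * b3 0) ^ 2 +
      3 * 0 ^ 1 * ((((0:ℕ):ℂ) + 2 * ((1:ℕ):ℂ) + 3) * c5 0) ^ 2 = 9 * b3 0 ^ 3 := by
      push_cast; ring
    have hν : 2 / 3 * (0:ℂ) ^ 0 * b3 0 ^ 2 * ((((0:ℕ):ℂ) + ((1:ℕ):ℂ) + 2) * b3 0) +
      3 * 0 ^ 1 * c5 0 * ((((0:ℕ):ℂ) + 2 * ((1:ℕ):ℂ) + 3) * c5 0) = 2 * b3 0 ^ 3 := by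
      push_cast; ring
    have h6 := cubic_field (i := 0) (j := 1) hb3 hc5 hb hc hb3e hc5e hδ.symm
      (mul_ne_zero (by norm_num) (pow_ne_zero 3 h5)) hν.symm
    refine PRes_of_Eul hMa hM0 (h := 18) (by norm_num) (by norm_num) ?_
    have e1 : (1:ℂ) / 3 + 2 * b3 0 ^ 3 / (9 * b3 0 ^ 3) = 1 / 2 + 1 / ((18:ℕ) : ℂ) := by
      field_simp
      push_cast
      norm_num
    rw [← e1]
    exact h6
  push Not at h5
  obtain ⟨b4, hb4, hb4e⟩ := pow_step hb3 h5 hb3e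
  by_cases h6 : c5 0 ≠ 0
  · -- E8
    have hδ : (0:ℂ) ^ 2 * b4 0 * ((((2:ℕ):ℂ) + ((0:ℕ):ℂ) + 2) * b4 0) ^ 2 +
      3 * 0 ^ 0 * ((((2:ℕ):ℂ) + 2 * ((0:ℕ):ℂ) + 3) * c5 0) ^ 2 = 75 * c5 0 ^ 2 := by
      push_cast; ring
    have hν : 2 / 3 * (0:ℂ) ^ 2 * b4 0 ^ 2 * ((((2:ℕ):ℂ) + ((0:ℕ):ℂ) + 2) * b4 0) +
      3 * 0 ^ 0 * c5 0 * ((((2:ℕ):ℂ) + 2 * ((0:ℕ):ℂ) + 3) * c5 0) = 15 * c5 0 ^ 2 := by
      push_cast; ring
    have h7 := cubic_field (i := 2) (j := 0) hb4 hc5 hb hc hb4e hc5e hδ.symm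
      (mul_ne_zero (by norm_num) (pow_ne_zero 2 h6)) hν.symm
    refine PRes_of_Eul hMa hM0 (h := 30) (by norm_num) (by norm_num) ?_
    have e1 : (1:ℂ) / 3 + 15 * c5 0 ^ 2 / (75 * c5 0 ^ 2) = 1 / 2 + 1 / ((30:ℕ) : ℂ) := by
      field_simp
      push_cast
      norm_num
    rw [← e1]
    exact h7
  push Not at h6
  obtain ⟨c6, hc6, hc6e⟩ := pow_step hc5 h6 hc5e
  exfalso
  obtain ⟨C1, r1, hC1, hr1, hr11, hB1⟩ := exists_bound hb4
  obtain ⟨C2, r2, hC2, hr2, hr21, hB2⟩ := exists_bound hc6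
  obtain ⟨r3, hr3, hr31, hB3⟩ := exists_radius (hb4e.and hc6e)
  set r := min r1 (min r2 r3) with hr
  have hr0 : 0 < r := lt_min hr1 (lt_min hr2 hr3)
  refine not_NK2 (p := fun w : ℂ × ℂ => w.2 ^ 3 + b w.1 * w.2 + c w.1) 2 1 (by norm_num) le_rfl (r := r)
    (C := 1 + C1 + C2) hr0 (fun t ht ht1 w hw1 hw2 => ?_) hK
  have hrr1 : r ≤ r1 := min_le_left _ _
  have hrr2 : r ≤ r2 := (min_le_right _ _).trans (min_le_left _ _)
  have hrr3 : r ≤ r3 := (min_le_right _ _).trans (min_le_right _ _)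
  have hrone : r ≤ 1 := hrr1.trans hr11
  have hw1r : ‖w.1‖ ≤ r := hw1.trans (by
    rw [pow_one]; exact mul_le_of_le_one_right hr0.le ht1)
  have hw1t : ‖w.1‖ ≤ t := hw1.trans (by
    rw [pow_one]; exact mul_le_of_le_one_left ht.le hrone)
  have hw2t : ‖w.2‖ ≤ t ^ 2 := hw2.trans (mul_le_of_le_one_left (by positivity) hrone)
  obtain ⟨e1, e2⟩ := hB3 w.1 (hw1r.trans hrr3)
  have e3 := hB1 w.1 (hw1r.trans hrr1)
  have e4 := hB2 w.1 (hw1r.trans hrr2)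
  simp only [e1, e2]
  calc ‖w.2 ^ 3 + w.1 ^ (2 + 1 + 1) * b4 w.1 * w.2 + w.1 ^ (3 + 1 + 1 + 1) * c6 w.1‖
      ≤ ‖w.2‖ ^ 3 + ‖w.1‖ ^ 4 * ‖b4 w.1‖ * ‖w.2‖ + ‖w.1‖ ^ 6 * ‖c6 w.1‖ := by
        refine (norm_add_le _ _).trans ?_
        gcongr ?_ + ?_
        · refine (norm_add_le _ _).trans ?_
          rw [norm_pow, norm_mul, norm_mul, norm_pow]
        · rw [norm_mul, norm_pow]
    _ ≤ (t ^ 2) ^ 3 + t ^ 4 * C1 * t ^ 2 + t ^ 6 * C2 := by gcongr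
    _ = (1 + C1 + C2) * t ^ (2 * 2 + 2 * 1) := by ring

theorem res_ord3 {q : ℂ × ℂ → ℂ} (hq : AnalyticAt ℂ q 0)
    (hn : analyticOrderAt (fun w : ℂ => q (0, w)) 0 = 3)
    {C : ℝ} (hC : 0 < C) (hbd : ∀ᶠ w in 𝓝 (0 : ℂ × ℂ), ‖q w‖ ≤ C * ‖w‖ ^ 3) (hK : NK2 q) :
    PRes q := by
  obtain ⟨u, a₀, a₁, a₂, hu, hu0, ha₀, ha₁, ha₂, h00, h10, h20, he⟩ := wprep3 hq hn
  set b : ℂ → ℂ := fun y => a₁ y - a₂ y ^ 2 / 3 with hb
  set c : ℂ → ℂ := fun y => a₀ y - a₁ y * a₂ y / 3 + 2 * a₂ y ^ 3 / 27 with hc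
  have hba : AnalyticAt ℂ b 0 := ha₁.sub ((ha₂.pow 2).div analyticAt_const (by norm_num))
  have hca : AnalyticAt ℂ c 0 :=
    (ha₀.sub ((ha₁.mul ha₂).div analyticAt_const (by norm_num))).add
      ((analyticAt_const.mul (ha₂.pow 3)).div analyticAt_const (by norm_num))
  have hb0 : b 0 = 0 := by simp [hb, h10, h20]
  have hc0 : c 0 = 0 := by simp [hc, h00, h10, h20]
  set M : ℂ × ℂ → ℂ := fun w => w.2 ^ 3 + b w.1 * w.2 + c w.1 with hM
  have hMa : AnalyticAt ℂ M 0 :=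
    ((analyticAt_snd.pow 3).add ((an_fst hba).mul analyticAt_snd)).add (an_fst hca)
  set θ : ℂ → ℂ := fun y => a₂ y / 3 with hθ
  have hθa : AnalyticAt ℂ θ 0 := ha₂.div analyticAt_const (by norm_num)
  have hθ0 : θ 0 = 0 := by simp [hθ, h20]
  have hL := LB_shear hθa hθ0
  have hMs : AnalyticAt ℂ (fun w : ℂ × ℂ => M (shear θ w)) 0 := by
    refine AnalyticAt.comp (g := M) (f := shear θ) ?_ hL.an
    rw [hL.map0]; exact hMa
  have heq : ∀ᶠ w in 𝓝 (0 : ℂ × ℂ), q w = u w * M (shear θ w) := by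
    filter_upwards [he] with w hw
    rw [hw]
    simp only [hM, shear, hb, hc, hθ]
    ring
  -- the bound for `M`
  obtain ⟨C', hC', hMb⟩ : ∃ C' : ℝ, 0 < C' ∧ ∀ᶠ w in 𝓝 (0 : ℂ × ℂ), ‖M w‖ ≤ C' * ‖w‖ ^ 3 := by
    have hO : (fun w => shear (fun z => - θ z) w) =O[𝓝 0] (fun w : ℂ × ℂ => w) := by
      have := hL.an'.differentiableAt.hasFDerivAt.isBigO_sub
      simpa [hL.map0'] using this
    obtain ⟨K, hK0, hK'⟩ := hO.exists_pos
    have huinv : ∀ᶠ w in 𝓝 (0 : ℂ × ℂ), ‖u 0‖ / 2 ≤ ‖u w‖ := by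
      have hu0' : 0 < ‖u 0‖ := norm_pos_iff.2 hu0
      have := (continuousAt_const (y := ‖u 0‖ / 2)).eventually_lt hu.continuousAt.norm (by linarith)
      filter_upwards [this] with w hw using hw.le
    have hu0' : 0 < ‖u 0‖ := norm_pos_iff.2 hu0
    refine ⟨C * K ^ 3 / (‖u 0‖ / 2), by positivity, ?_⟩
    filter_upwards [hK'.bound, hL.symm.tendsto.eventually heq, hL.symm.tendsto.eventually hbd,
      hL.symm.tendsto.eventually huinv, hL.right] with w h1 h2 h3 h4 h5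
    rw [h5] at h2
    rw [div_mul_eq_mul_div, le_div_iff₀ (by positivity)]
    calc ‖M w‖ * (‖u 0‖ / 2) ≤ ‖M w‖ * ‖u (shear (fun z => - θ z) w)‖ := by gcongr
      _ = ‖q (shear (fun z => - θ z) w)‖ := by rw [h2, norm_mul, mul_comm]
      _ ≤ C * ‖shear (fun z => - θ z) w‖ ^ 3 := h3
      _ ≤ C * (K * ‖w‖) ^ 3 := by gcongr
      _ = C * K ^ 3 * ‖w‖ ^ 3 := by ring
  have hcb : ∀ᶠ y in 𝓝 (0 : ℂ), ‖c y‖ ≤ C' * ‖y‖ ^ 3 := by
    have t1 : Tendsto (fun y : ℂ => (y, (0 : ℂ))) (𝓝 0) (𝓝 (0 : ℂ × ℂ)) :=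
      (by fun_prop : Continuous (fun y : ℂ => (y, (0 : ℂ)))).tendsto' _ _ rfl
    filter_upwards [t1.eventually hMb] with y hy
    simpa [hM, Prod.norm_def] using hy
  have hbb : ∀ᶠ y in 𝓝 (0 : ℂ), ‖b y‖ ≤ (C' + 1 + C') * ‖y‖ ^ 2 := by
    have t1 : Tendsto (fun y : ℂ => (y, y)) (𝓝 0) (𝓝 (0 : ℂ × ℂ)) :=
      (by fun_prop : Continuous (fun y : ℂ => (y, y))).tendsto' _ _ rfl
    filter_upwards [t1.eventually hMb, hcb] with y hy hy2
    rcases eq_or_ne y 0 with rfl | hy0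
    · simp [hb0]
    have hyp : 0 < ‖y‖ := norm_pos_iff.2 hy0
    have h1 : ‖M (y, y)‖ ≤ C' * ‖y‖ ^ 3 := by simpa [Prod.norm_def] using hy
    have h2 : b y * y = M (y, y) - y ^ 3 - c y := by simp only [hM]; ring
    have h3 : ‖b y‖ * ‖y‖ ≤ (C' + 1 + C') * ‖y‖ ^ 2 * ‖y‖ := by
      rw [← norm_mul, h2]
      calc ‖M (y, y) - y ^ 3 - c y‖ ≤ ‖M (y, y)‖ + ‖y ^ 3‖ + ‖c y‖ :=
            (norm_sub_le _ _).trans (by gcongr; exact norm_sub_le _ _)
        _ ≤ C' * ‖y‖ ^ 3 + ‖y‖ ^ 3 + C' * ‖y‖ ^ 3 := by rw [norm_pow]; gcongr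
        _ = (C' + 1 + C') * ‖y‖ ^ 2 * ‖y‖ := by ring
    exact le_of_mul_le_mul_right h3 hyp
  obtain ⟨β, hβ, hβe⟩ := exists_pow_mul_of_bound hba hbb
  obtain ⟨γ, hγ, hγe⟩ := exists_pow_mul_of_bound hca hcb
  exact res_unit hMs (fun h => res_shear hMa (fun h' => res_cubic hba hca hβ hγ hβe hγe h')
    hθa hθ0 h) hu hu0 heq hK

/-- **the plane classification** -/
theorem res_plane {p : ℂ × ℂ → ℂ} (hp : AnalyticAt ℂ p 0) (h0 : p 0 = 0)
    (h1 : fderiv ℂ p 0 = 0) (hK : NK2 p) : PRes p := by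
  have key : ∀ (v : ℂ × ℂ) (m : ℕ), analyticOrderAt (fun t : ℂ => p (t • v)) 0 = m →
      ∃ e : (ℂ × ℂ) ≃L[ℂ] (ℂ × ℂ),
        analyticOrderAt (fun w : ℂ => p (e (0, w))) 0 = m := by
    intro v m hm
    have hv : v ≠ 0 := by
      rintro rfl
      rw [order_line_zero h0] at hm
      exact absurd hm (by simp)
    obtain ⟨e, he⟩ := exists_equiv hv
    refine ⟨e, ?_⟩
    have : (fun w : ℂ => p (e (0, w))) = fun t : ℂ => p (t • v) := by
      funext t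
      rw [← he, ← map_smul]
      simp
    rw [this, hm]
  have trans : ∀ e : (ℂ × ℂ) ≃L[ℂ] (ℂ × ℂ), (NK2 (fun w => p (e w)) → PRes (fun w => p (e w))) →
      PRes p := by
    intro e h
    have hL := LB.of_equiv e
    have hpe : AnalyticAt ℂ (fun w => p (e w)) 0 := by
      refine AnalyticAt.comp (g := p) (f := fun w => e w) ?_ hL.an
      rw [map_zero]; exact hp
    refine ((h (NK2.comp hp hK hL)).comp hpe hL.symm).congr ?_
    exact Eventually.of_forall fun w => by simp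
  have hpea : ∀ e : (ℂ × ℂ) ≃L[ℂ] (ℂ × ℂ), AnalyticAt ℂ (fun w => p (e w)) 0 := by
    intro e
    refine AnalyticAt.comp (g := p) (f := fun w => e w) ?_ (LB.of_equiv e).an
    rw [map_zero]; exact hp
  have h2 := fun v => two_le_order hp h0 h1 v
  by_cases hA : ∃ v, analyticOrderAt (fun t : ℂ => p (t • v)) 0 = (2 : ℕ)
  · obtain ⟨v, hv⟩ := hA
    obtain ⟨e, he⟩ := key v 2 hv
    exact trans e fun h => res_ord2 (hpea e) (by exact_mod_cast he) h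
  push Not at hA
  have h3 : ∀ v, ((3 : ℕ) : ℕ∞) ≤ analyticOrderAt (fun t : ℂ => p (t • v)) 0 :=
    fun v => add_one_le_of_ne (h2 v) (hA v)
  by_cases hB : ∃ v, analyticOrderAt (fun t : ℂ => p (t • v)) 0 = (3 : ℕ)
  · obtain ⟨v, hv⟩ := hB
    obtain ⟨e, he⟩ := key v 3 hv
    obtain ⟨C, hC, hbd⟩ := bound_of_orders hp 3 h3
    have hO : (fun w => e w) =O[𝓝 0] (fun w : ℂ × ℂ => w) := by
      have := (LB.of_equiv e).an.differentiableAt.hasFDerivAt.isBigO_sub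
      simpa using this
    obtain ⟨K, hK0, hK'⟩ := hO.exists_pos
    refine trans e fun h => res_ord3 (hpea e) (by exact_mod_cast he) (C := C * K ^ 3)
      (by positivity) ?_ h
    filter_upwards [hK'.bound, (LB.of_equiv e).tendsto.eventually hbd] with w a1 a2
    calc ‖p (e w)‖ ≤ C * ‖e w‖ ^ 3 := a2
      _ ≤ C * (K * ‖w‖) ^ 3 := by gcongr
      _ = C * K ^ 3 * ‖w‖ ^ 3 := by ring
  push Not at hB
  have h4 : ∀ v, ((4 : ℕ) : ℕ∞) ≤ analyticOrderAt (fun t : ℂ => p (t • v)) 0 :=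
    fun v => add_one_le_of_ne (h3 v) (hB v)
  exfalso
  obtain ⟨C, hC, hbd⟩ := bound_of_orders hp 4 h4
  obtain ⟨r, hr, hbr⟩ := Metric.nhds_basis_closedBall.eventually_iff.1 hbd
  refine not_NK2 (p := p) 1 1 le_rfl le_rfl (r := r) (C := C * r ^ 4) hr
    (fun t ht ht1 w hw1 hw2 => ?_) hK
  have hw : ‖w‖ ≤ r * t := by
    rw [Prod.norm_def]
    exact max_le (by simpa using hw1) (by simpa using hw2)
  have hw' : ‖w‖ ≤ r := hw.trans (mul_le_of_le_one_right hr.le ht1)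
  calc ‖p w‖ ≤ C * ‖w‖ ^ 4 := hbr (by simpa using hw')
    _ ≤ C * (r * t) ^ 4 := by gcongr
    _ = C * r ^ 4 * t ^ (2 * 1 + 2 * 1) := by ring

end Crest.Agent.R257.Kp_405.NK
end
end

-- ▼ part R257/Kp8_405
section

/-!
R257 / Kp8_405 (leaf KLT-K2): the Euler field of a germ satisfying helper540's weighted box criterion
`NKW` (post 3159).
-/

set_option autoImplicit false
set_option linter.unusedSectionVars false
set_option linter.deprecated false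

open Set Filter Topology Metric MeasureTheory
open scoped ENNReal
open Crest.Agent.R257.Defs_219 Crest.AlgGeometry.Germ

noncomputable section

namespace Crest.Agent.R257.Kp_405

/-- helper540, post 3159 -/
def NKW (f : E3 → ℂ) : Prop := ∀ (Ψ : E3 → E3) (w : Fin 3 → ℝ) (K : ℝ), AnalyticAt ℂ Ψ 0 →
  Ψ 0 = 0 → Function.Bijective (fderiv ℂ Ψ 0) → (∀ i, 0 < w i) → ∑ i, w i ≤ 1 →
  ¬ ∀ᶠ s in 𝓝[>] (0:ℝ), ∀ X : E3, (∀ i, ‖X i‖ ≤ s ^ (w i)) → ‖f (Ψ X)‖ ≤ K * s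

lemma LB.bij {E F : Type*} [NormedAddCommGroup E] [NormedSpace ℂ E] [FiniteDimensional ℂ E]
    [NormedAddCommGroup F] [NormedSpace ℂ F] [FiniteDimensional ℂ F] {Φ : E → F} {Ψ : F → E}
    (h : LB Φ Ψ) : Function.Bijective (fderiv ℂ Φ 0) := by
  have h1 := h.fderiv_comp_zero
  have h2 := h.symm.fderiv_comp_zero
  refine Function.bijective_iff_has_inverse.2 ⟨fderiv ℂ Ψ 0, fun v => ?_, fun v => ?_⟩
  · exact congrArg (fun T : E →L[ℂ] E => T v) h2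
  · exact congrArg (fun T : F →L[ℂ] F => T v) h1

lemma LB_prodmap {E F : Type*} [NormedAddCommGroup E] [NormedSpace ℂ E] [FiniteDimensional ℂ E]
    [NormedAddCommGroup F] [NormedSpace ℂ F] [FiniteDimensional ℂ F] {Φ : E → F} {Ψ : F → E}
    (h : LB Φ Ψ) : LB (fun w : E × ℂ => (Φ w.1, w.2)) (fun w : F × ℂ => (Ψ w.1, w.2)) := by
  refine ⟨?_, ?_, by simp [h.map0], by simp [h.map0'], ?_, ?_⟩
  · exact (AnalyticAt.comp (g := Φ) (f := Prod.fst) h.an analyticAt_fst).prod analyticAt_snd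
  · exact (AnalyticAt.comp (g := Ψ) (f := Prod.fst) h.an' analyticAt_fst).prod analyticAt_snd
  · have t1 : Tendsto (Prod.fst : E × ℂ → E) (𝓝 0) (𝓝 0) := continuous_fst.tendsto' _ _ rfl
    filter_upwards [t1.eventually h.left] with w hw
    rw [hw]
  · have t1 : Tendsto (Prod.fst : F × ℂ → F) (𝓝 0) (𝓝 0) := continuous_fst.tendsto' _ _ rfl
    filter_upwards [t1.eventually h.right] with w hw
    rw [hw]

lemma LB_smul {E : Type*} [NormedAddCommGroup E] [NormedSpace ℂ E] [FiniteDimensional ℂ E]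
    {c : ℂ} (hc : c ≠ 0) : LB (fun w : E => c • w) (fun w : E => c⁻¹ • w) := by
  refine ⟨?_, ?_, by simp, by simp, ?_, ?_⟩
  · exact analyticAt_const.smul analyticAt_id
  · exact analyticAt_const.smul analyticAt_id
  · exact Eventually.of_forall fun w => by simp [smul_smul, inv_mul_cancel₀ hc]
  · exact Eventually.of_forall fun w => by simp [smul_smul, mul_inv_cancel₀ hc]

/-- multiplicity two -/
lemma exists_ord_two {f : E3 → ℂ} (hf : AnalyticAt ℂ f 0) (h0 : f 0 = 0) (h1 : fderiv ℂ f 0 = 0)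
    (hN : NKW f) : ∃ L : E3 ≃L[ℂ] E3,
      analyticOrderAt (fun z : ℂ => f (L (Fin.cons z 0))) 0 = 2 := by
  have h2 := fun v => two_le_order hf h0 h1 v
  by_cases hA : ∃ v, analyticOrderAt (fun t : ℂ => f (t • v)) 0 = (2 : ℕ)
  · obtain ⟨v, hv⟩ := hA
    have hv0 : v ≠ 0 := by
      rintro rfl
      rw [order_line_zero h0] at hv
      exact absurd hv (by simp)
    have hs : (Pi.single 0 1 : E3) ≠ 0 := by
      intro h
      have := congrFun h 0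
      simp at this
    obtain ⟨L, hL⟩ := SeparatingDual.exists_continuousLinearEquiv_apply_eq (R := ℂ) hs hv0
    refine ⟨L, ?_⟩
    have e1 : (fun z : ℂ => f (L (Fin.cons z 0))) = fun t : ℂ => f (t • v) := by
      funext t
      have e2 : (Fin.cons t 0 : E3) = t • (Pi.single 0 1 : E3) := by
        ext i
        refine Fin.cases ?_ (fun j => ?_) i
        · simp
        · simp
      rw [e2, map_smul, hL]
    rw [e1]
    exact_mod_cast hv
  · exfalso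
    push Not at hA
    have h3 : ∀ v, ((3 : ℕ) : ℕ∞) ≤ analyticOrderAt (fun t : ℂ => f (t • v)) 0 :=
      fun v => add_one_le_of_ne (h2 v) (hA v)
    obtain ⟨C, hC, hb⟩ := bound_of_orders hf 3 h3
    obtain ⟨ρ, hρ, hb'⟩ := Metric.nhds_basis_closedBall.eventually_iff.1 hb
    refine hN (fun x => x) (fun _ => 1 / 3) C analyticAt_id rfl ?_ (fun _ => by norm_num)
      (by simp) ?_
    · have : fderiv ℂ (fun x : E3 => x) 0 = ContinuousLinearMap.id ℂ E3 := fderiv_id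
      rw [this]
      exact Function.bijective_id
    · have t1 : Tendsto (fun s : ℝ => s ^ (1 / 3 : ℝ)) (𝓝[>] 0) (𝓝 0) := by
        have h4 : ContinuousAt (fun s : ℝ => s ^ (1 / 3 : ℝ)) 0 :=
          Real.continuousAt_rpow_const 0 (1 / 3) (Or.inr (by norm_num))
        have h5 := h4.tendsto
        rw [Real.zero_rpow (by norm_num)] at h5
        exact h5.mono_left nhdsWithin_le_nhds
      filter_upwards [t1.eventually (Iio_mem_nhds hρ), self_mem_nhdsWithin] with s hs hs0 X hX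
      have hs0' : (0:ℝ) < s := hs0
      have hsp : 0 ≤ s ^ (1 / 3 : ℝ) := Real.rpow_nonneg hs0'.le _
      have hXn : ‖X‖ ≤ s ^ (1 / 3 : ℝ) := (pi_norm_le_iff_of_nonneg hsp).2 hX
      have hXρ : X ∈ closedBall (0 : E3) ρ := by
        rw [mem_closedBall_zero_iff]
        exact hXn.trans (le_of_lt hs)
      calc ‖f X‖ ≤ C * ‖X‖ ^ 3 := hb' hXρ
        _ ≤ C * (s ^ (1 / 3 : ℝ)) ^ 3 := by gcongr
        _ = C * s := by
            rw [← Real.rpow_natCast, ← Real.rpow_mul hs0'.le]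
            norm_num

/-- **K2, NKW form, core** -/
theorem k2w_core {f : E3 → ℂ} (hfa : AnalyticAt ℂ f 0) (hf0 : f 0 = 0) (hf1 : fderiv ℂ f 0 = 0)
    {c : ℝ} (hc : 0 < c) {N : ℕ} (hloj : ∀ᶠ x in 𝓝 (0 : E3), c * ‖x‖ ^ N ≤ ‖fderiv ℂ f x‖)
    (hN : NKW f) : ∃ h : ℕ, 1 ≤ h ∧ h ≤ 30 + 2 * N ∧ Eul f (1 + 1 / (h : ℂ)) := by
  obtain ⟨L, hord⟩ := exists_ord_two hfa hf0 hf1 hN
  set e : ((ℂ × ℂ) × ℂ) ≃L[ℂ] E3 := kap.trans L with he
  have hLB := LB.of_equiv e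
  set g : (ℂ × ℂ) × ℂ → ℂ := fun w => f (e w) with hg
  have hga : AnalyticAt ℂ g 0 := by
    refine AnalyticAt.comp (g := f) (f := fun w => e w) ?_ hLB.an
    rw [map_zero]; exact hfa
  have hg0 : g 0 = 0 := by simp [hg, hf0]
  have hg1 : HasFDerivAt g (0 : ((ℂ × ℂ) × ℂ) →L[ℂ] ℂ) 0 := by
    have h1 : HasFDerivAt f (fderiv ℂ f 0) (e 0) := by
      rw [map_zero]; exact hfa.differentiableAt.hasFDerivAt
    have h2 := h1.comp (0 : (ℂ × ℂ) × ℂ) (e : ((ℂ × ℂ) × ℂ) →L[ℂ] E3).hasFDerivAt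
    rw [hf1, ContinuousLinearMap.zero_comp] at h2
    exact h2
  have hgord : analyticOrderAt (fun w : ℂ => g (0, w)) 0 = 2 := by
    rw [← hord]
    congr 1
    funext w
    have : kap ((0 : ℂ × ℂ), w) = Fin.cons w 0 := by
      rw [kap_apply]
      ext i
      fin_cases i <;> rfl
    simp only [hg, he]
    change f (L (kap ((0 : ℂ × ℂ), w))) = _
    rw [this]
  obtain ⟨u, a₀, a₁, hu, hu0, ha₀, ha₁, h00, h10, hW⟩ := wprep2 hga hgord
  set p : ℂ × ℂ → ℂ := fun y => a₀ y - a₁ y ^ 2 / 4 with hp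
  set b : ℂ × ℂ → ℂ := fun y => a₁ y / 2 with hb
  have hpa : AnalyticAt ℂ p 0 := ha₀.sub ((ha₁.pow 2).div analyticAt_const (by norm_num))
  have hba : AnalyticAt ℂ b 0 := ha₁.div analyticAt_const (by norm_num)
  have hp0 : p 0 = 0 := by simp [hp, h00, h10]
  have hb0 : b 0 = 0 := by simp [hb, h10]
  have hW' : ∀ᶠ w in 𝓝 (0 : (ℂ × ℂ) × ℂ), g w = u w * ((w.2 + b w.1) ^ 2 + p w.1) := by
    filter_upwards [hW] with w hw
    rw [hw]
    simp only [hb, hp]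
    ring
  set Q : (ℂ × ℂ) × ℂ → ℂ := fun w => p w.1 + w.2 ^ 2 with hQ
  have hQa : AnalyticAt ℂ Q 0 :=
    (AnalyticAt.comp (g := p) (f := Prod.fst) hpa analyticAt_fst).add (analyticAt_snd.pow 2)
  have hS := LB_shear hba hb0
  have hQs : AnalyticAt ℂ (fun w => Q (shear b w)) 0 := by
    refine AnalyticAt.comp (g := Q) (f := shear b) ?_ hS.an
    rw [hS.map0]; exact hQa
  have hgQ : (fun w => u w * Q (shear b w)) =ᶠ[𝓝 0] g := by
    filter_upwards [hW'] with w hw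
    rw [hw]
    simp only [hQ, shear]
    ring
  have hback : (fun x => g (e.symm x)) =ᶠ[𝓝 0] f :=
    Eventually.of_forall fun x => by simp [hg]
  have tE : ∀ τ : ℂ, Eul Q τ → Eul f τ := by
    intro τ h
    have h1 := ((h.comp hQa hS).unit_mul hQs hu hu0).congr hgQ
    exact (h1.comp hga hLB.symm).congr hback
  have tC : ∀ k : ℕ, Cv Q k → Cv f k := by
    intro k h
    have h1 := ((h.comp hQa hS).unit_mul hQs hu).congr hgQ
    exact (h1.comp hga hLB.symm).congr hback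
  have hp1 : fderiv ℂ p 0 = 0 := by
    have e1 : HasFDerivAt (fun y : ℂ × ℂ => (y, - b y))
        ((ContinuousLinearMap.id ℂ (ℂ × ℂ)).prod (-(fderiv ℂ b 0))) 0 :=
      (hasFDerivAt_id (0 : ℂ × ℂ)).prodMk hba.differentiableAt.hasFDerivAt.neg
    have hz : ((0 : ℂ × ℂ), - b 0) = (0 : (ℂ × ℂ) × ℂ) := by rw [hb0, neg_zero]; rfl
    have e2 : HasFDerivAt (fun y : ℂ × ℂ => g (y, - b y)) (0 : ℂ × ℂ →L[ℂ] ℂ) 0 := by
      have h1 : HasFDerivAt g (0 : ((ℂ × ℂ) × ℂ) →L[ℂ] ℂ) ((0 : ℂ × ℂ), - b 0) := by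
        rw [hz]; exact hg1
      have h2 := h1.comp (0 : ℂ × ℂ) e1
      rw [ContinuousLinearMap.zero_comp] at h2
      exact h2
    have e3 : DifferentiableAt ℂ (fun y : ℂ × ℂ => (u (y, - b y))⁻¹) 0 := by
      have h1 : DifferentiableAt ℂ u ((0 : ℂ × ℂ), - b 0) := by
        rw [hz]; exact hu.differentiableAt
      have h2 : DifferentiableAt ℂ (fun y : ℂ × ℂ => u (y, - b y)) 0 :=
        h1.comp (0 : ℂ × ℂ) e1.differentiableAt
      refine h2.inv ?_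
      rw [hz]; exact hu0
    have e4 := e3.hasFDerivAt.mul e2
    have e5 : p =ᶠ[𝓝 0] fun y => (u (y, - b y))⁻¹ * g (y, - b y) := by
      have t1 : Tendsto (fun y : ℂ × ℂ => (y, - b y)) (𝓝 0) (𝓝 (0 : (ℂ × ℂ) × ℂ)) := by
        have := e1.continuousAt.tendsto
        rwa [hz] at this
      filter_upwards [t1.eventually hW', t1.eventually (hu.continuousAt.eventually_ne hu0)] with
        y h1 h2
      rw [h1]
      field_simp
      ring
    have e6 := e4.congr_of_eventuallyEq e5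
    rw [e6.fderiv]
    have hz' : g (0, - b 0) = 0 := by rw [hz]; exact hg0
    rw [hz']
    refine ContinuousLinearMap.ext fun v => ?_
    rw [ContinuousLinearMap.add_apply, ContinuousLinearMap.smul_apply,
      ContinuousLinearMap.smul_apply, smul_eq_mul, smul_eq_mul, ContinuousLinearMap.zero_apply]
    ring
  have hK : NK.NK2 p := by
    refine ⟨⟨N + 1, fun h => ?_⟩, fun Φ Ψ hL a b' ha hb' hB => ?_⟩
    · have h2 := (tC _ (h.add_sq hpa)).le_of_lojasiewicz hc hloj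
      omega
    · obtain ⟨r, C, hr, hbox⟩ := hB
      -- the coordinate system
      have hrc : (r : ℂ) ≠ 0 := by exact_mod_cast hr.ne'
      have c1 : LB (fun w : ℂ × ℂ => Φ ((r : ℂ) • w)) (fun w => (r : ℂ)⁻¹ • Ψ w) :=
        hL.comp (LB_smul hrc)
      have c2 := LB_prodmap c1
      have c3 := hS.symm.comp c2
      have c4 := hLB.comp c3
      have c5 := c4.comp (LB.of_equiv kap.symm)
      have hfX : ∀ᶠ X in 𝓝 (0 : E3),
          ‖f (e (shear (fun z => - b z) (Φ ((r : ℂ) • (kap.symm X).1), (kap.symm X).2)))‖ ≤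
            (‖u 0‖ + 1) * ‖(X 0) ^ 2 + p (Φ ((r : ℂ) • (X 1, X 2)))‖ := by
        have c6 := c3.comp (LB.of_equiv kap.symm)
        have b1 := hu.continuousAt.norm.eventually_lt (continuousAt_const (y := ‖u 0‖ + 1))
          (by simp)
        filter_upwards [c6.tendsto.eventually hW', c6.tendsto.eventually b1] with X h1 h2
        have h3 : f (e (shear (fun z => - b z) (Φ ((r : ℂ) • (kap.symm X).1), (kap.symm X).2))) =
          u (shear (fun z => - b z) (Φ ((r : ℂ) • (kap.symm X).1), (kap.symm X).2)) *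
            ((X 0) ^ 2 + p (Φ ((r : ℂ) • (X 1, X 2)))) := by
          have h4 : kap.symm X = ((X 1, X 2), X 0) := rfl
          simp only [h4] at h1 ⊢
          refine h1.trans ?_
          simp only [shear]
          ring
        rw [h3, norm_mul]
        gcongr
      have hab : (0:ℝ) < 2 * (a + b') := by
        have : (1:ℝ) ≤ a := by exact_mod_cast ha
        have : (1:ℝ) ≤ b' := by exact_mod_cast hb'
        linarith
      have ha' : (0:ℝ) < a := by exact_mod_cast ha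
      have hb'' : (0:ℝ) < b' := by exact_mod_cast hb'
      refine hN _ ![1 / 2, b' / (2 * (a + b')), a / (2 * (a + b'))] ((‖u 0‖ + 1) * (1 + |C|))
        c5.an c5.map0 c5.bij ?_ ?_ ?_
      · intro i
        fin_cases i
        · norm_num
        · change (0:ℝ) < b' / (2 * (a + b'))
          positivity
        · change (0:ℝ) < a / (2 * (a + b'))
          positivity
      · rw [Fin.sum_univ_three]
        change (1:ℝ) / 2 + b' / (2 * (a + b')) + a / (2 * (a + b')) ≤ 1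
        have : (1:ℝ) / 2 + b' / (2 * (a + b')) + a / (2 * (a + b')) = 1 := by
          field_simp
          ring
        rw [this]
      · obtain ⟨ρ, hρ, hfX'⟩ := Metric.nhds_basis_closedBall.eventually_iff.1 hfX
        have tpow : ∀ w : ℝ, 0 < w → Tendsto (fun s : ℝ => s ^ w) (𝓝[>] 0) (𝓝 0) := by
          intro w hw
          have h4 : ContinuousAt (fun s : ℝ => s ^ w) 0 :=
            Real.continuousAt_rpow_const 0 w (Or.inr hw.le)
          have h5 := h4.tendsto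
          rw [Real.zero_rpow hw.ne'] at h5
          exact h5.mono_left nhdsWithin_le_nhds
        have hw1 : (0:ℝ) < b' / (2 * (a + b')) := by positivity
        have hw2 : (0:ℝ) < a / (2 * (a + b')) := by positivity
        have hs1 : ∀ᶠ s in 𝓝[>] (0:ℝ), s ≤ 1 :=
          (Iic_mem_nhds one_pos : Set.Iic (1:ℝ) ∈ 𝓝 0) |> fun h => mem_nhdsWithin_of_mem_nhds h
        filter_upwards [(tpow (1/2) (by norm_num)).eventually (Iio_mem_nhds hρ),
          (tpow _ hw1).eventually (Iio_mem_nhds hρ), (tpow _ hw2).eventually (Iio_mem_nhds hρ),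
          self_mem_nhdsWithin, hs1] with s k0 k1 k2 hs0 hs1 X hX
        have hs0' : (0:ℝ) < s := hs0
        have x0 : ‖X 0‖ ≤ s ^ (1 / 2 : ℝ) := hX 0
        have x1 : ‖X 1‖ ≤ s ^ (b' / (2 * (a + b')) : ℝ) := hX 1
        have x2 : ‖X 2‖ ≤ s ^ (a / (2 * (a + b')) : ℝ) := hX 2
        have hXρ : X ∈ closedBall (0 : E3) ρ := by
          rw [mem_closedBall_zero_iff]
          refine (pi_norm_le_iff_of_nonneg hρ.le).2 fun i => ?_
          fin_cases i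
          · exact x0.trans (le_of_lt k0)
          · exact x1.trans (le_of_lt k1)
          · exact x2.trans (le_of_lt k2)
        set t : ℝ := s ^ (1 / (2 * (a + b')) : ℝ) with ht
        have ht0 : 0 < t := Real.rpow_pos_of_pos hs0' _
        have ht1 : t ≤ 1 := Real.rpow_le_one hs0'.le hs1 (by positivity)
        have htb : t ^ b' = s ^ (b' / (2 * (a + b')) : ℝ) := by
          rw [ht, ← Real.rpow_natCast, ← Real.rpow_mul hs0'.le]
          congr 1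
          ring
        have hta : t ^ a = s ^ (a / (2 * (a + b')) : ℝ) := by
          rw [ht, ← Real.rpow_natCast, ← Real.rpow_mul hs0'.le]
          congr 1
          ring
        have hts : t ^ (2 * a + 2 * b') = s := by
          rw [ht, ← Real.rpow_natCast, ← Real.rpow_mul hs0'.le]
          push_cast
          have : (1 / (2 * (a + b')) * (2 * a + 2 * b') : ℝ) = 1 := by
            field_simp
          rw [this, Real.rpow_one]
        have hbx := hbox t ht0 ht1 ((r : ℂ) • (X 1, X 2)) (by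
          change ‖(r : ℂ) • X 1‖ ≤ _
          rw [norm_smul, Complex.norm_real, Real.norm_eq_abs, abs_of_pos hr, htb]
          gcongr) (by
          change ‖(r : ℂ) • X 2‖ ≤ _
          rw [norm_smul, Complex.norm_real, Real.norm_eq_abs, abs_of_pos hr, hta]
          gcongr)
        rw [hts] at hbx
        have hx0 : ‖X 0 ^ 2‖ ≤ s := by
          rw [norm_pow]
          calc ‖X 0‖ ^ 2 ≤ (s ^ (1 / 2 : ℝ)) ^ 2 := by gcongr
            _ = s := by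
              rw [← Real.rpow_natCast, ← Real.rpow_mul hs0'.le]
              norm_num
        refine (hfX' hXρ).trans ?_
        calc (‖u 0‖ + 1) * ‖X 0 ^ 2 + p (Φ ((r : ℂ) • (X 1, X 2)))‖
            ≤ (‖u 0‖ + 1) * (s + |C| * s) := by
              gcongr
              refine (norm_add_le _ _).trans (add_le_add hx0 (hbx.trans ?_))
              gcongr
              exact le_abs_self C
          _ = (‖u 0‖ + 1) * (1 + |C|) * s := by ring
  obtain ⟨h, k, h1, h2, h3, h4⟩ := NK.res_plane hpa hp0 hp1 hK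
  have hkN : k ≤ N := (tC k (h4.add_sq hpa)).le_of_lojasiewicz hc hloj
  refine ⟨h, h1, by omega, ?_⟩
  have h5 := tE _ (h3.add_sq hpa)
  have e1 : (1 : ℂ) / 2 + 1 / (h : ℂ) + 1 / 2 = 1 + 1 / (h : ℂ) := by ring
  rwa [e1] at h5

/-- **K2** in the NKW shape of helper540. -/
theorem k2w {f : E3 → ℂ} (hf : Iso f) (hN : NKW f) :
    ∃ a : Fin 3 → E3 → ℂ, (∀ j, AnalyticAt ℂ (a j) 0) ∧ (∀ j, a j 0 = 0) ∧
      (∀ᶠ x in 𝓝 0, f x = ∑ j, a j x * coordDeriv f j x) ∧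
      (∃ h : ℕ, 1 ≤ h ∧ h ≤ 30 + 2 * col (par f) ∧ ∑ j, coordDeriv (a j) j 0 = 1 + 1 / (h : ℂ)) ∧
      1 + 1 / (30 + 2 * (col (par f) : ℝ)) ≤ (∑ j, coordDeriv (a j) j 0).re := by
  obtain ⟨c, hc, hloj⟩ := loj hf.an hf.fin
  obtain ⟨h, h1, h2, hE⟩ := k2w_core hf.an hf.zero (fderiv_zero_of_crit hf.crit) hc hloj hN
  obtain ⟨a, ha, ha0, hae, hat⟩ := eul_coord hE
  refine ⟨a, ha, ha0, hae, ⟨h, h1, h2, hat⟩, ?_⟩
  rw [hat]
  have h3 : ((1 : ℂ) + 1 / (h : ℂ)).re = 1 + 1 / (h : ℝ) := by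
    have : (1 : ℂ) + 1 / (h : ℂ) = ((1 + 1 / (h : ℝ) : ℝ) : ℂ) := by push_cast; ring
    rw [this, Complex.ofReal_re]
  rw [h3]
  have h4 : (0 : ℝ) < h := by exact_mod_cast h1
  have h5 : (h : ℝ) ≤ 30 + 2 * (col (par f) : ℝ) := by exact_mod_cast h2
  gcongr

end Crest.Agent.R257.Kp_405
end
end

-- ▼ part R257/KlI_540
section

/-!
R257 / KlI_540: **`KltStmt`** and `KltMStmt` of `KED_952`, unconditionally.
-/

set_option autoImplicit false

open Topology Filter MeasureTheory Set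
open Crest.AlgGeometry.Germ

noncomputable section

namespace Crest.Agent.R257.KlI_540

open Crest.Agent.R257.Defs_219

theorem k2n : KlH_540.K2NStmt := by
  intro f hf hN
  obtain ⟨a, h1, -, h2, -, h3⟩ := Kp_405.k2w hf hN
  exact ⟨a, h1, h2, h3⟩

/-- **the klt property passes to the limit in a `μ`-constant family** -/
theorem kltStmt : KED_952.KltStmt := KlH_540.kltStmt_of k2n

theorem kltMStmt : KED_952.KltMStmt := fun _ _ hk => KlD_540.mstar_eq_zero_of_klt hk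



end Crest.Agent.R257.KlI_540
end
end

-- ▼ part R257/Cl2C_475

/-!
R257 / Cl2C_475: classification of the germs `f` with a reduced plane germ `φ = O(|w|³)` which are
neither klt nor of positive `mstar`.
-/

set_option autoImplicit false
set_option linter.unusedSectionVars false
set_option linter.deprecated false

open Set Filter Topology Metric MeasureTheory
open scoped ENNReal
open Crest.AlgGeometry.Germ

noncomputable section

namespace Crest.Agent.R257.Cl2_475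

open Crest.Agent.R257.Kp_405 Crest.Agent.R257.Defs_219 Crest.Agent.R257.LcQ_980

/-- boxes for a product with `x²` -/
theorem Red.wboxB {f : E3 → ℂ} {φ : ℂ × ℂ → ℂ} (h : Red f φ) {Λ Λ' : ℂ × ℂ → ℂ × ℂ}
    (hΛ : LB Λ Λ') {a b K : ℝ} (ha : 0 < a) (hb : 0 < b) (hab : a + b < 1 / 2)
    (hbd : ∀ᶠ w in 𝓝 (0 : ℂ × ℂ), ∀ s : ℝ, 0 < s → s ≤ 1 → ‖w.1‖ ≤ s ^ a → ‖w.2‖ ≤ s ^ b →
      ‖φ (Λ w)‖ ≤ K * s) : WBoxB f := by
  obtain ⟨hφ, Ψ, Ψ', U, hL, hU, hU0, he⟩ := h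
  -- the coordinates
  set T : (ℂ × ℂ) × ℂ → (ℂ × ℂ) × ℂ := fun q => (Λ q.1, q.2) with hT
  set T' : (ℂ × ℂ) × ℂ → (ℂ × ℂ) × ℂ := fun q => (Λ' q.1, q.2) with hT'
  have hTL : LB T T' := by
    refine ⟨?_, ?_, by simp [hT, hΛ.map0], by simp [hT', hΛ.map0'], ?_, ?_⟩
    · exact (AnalyticAt.comp (g := Λ) (f := Prod.fst) hΛ.an analyticAt_fst).prod analyticAt_snd
    · exact (AnalyticAt.comp (g := Λ') (f := Prod.fst) hΛ.an' analyticAt_fst).prod analyticAt_snd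
    · have t1 : Tendsto (Prod.fst : (ℂ × ℂ) × ℂ → ℂ × ℂ) (𝓝 0) (𝓝 0) :=
        continuous_fst.tendsto' _ _ rfl
      filter_upwards [t1.eventually hΛ.left] with q hq
      simp only [hT, hT', hq]
    · have t1 : Tendsto (Prod.fst : (ℂ × ℂ) × ℂ → ℂ × ℂ) (𝓝 0) (𝓝 0) :=
        continuous_fst.tendsto' _ _ rfl
      filter_upwards [t1.eventually hΛ.right] with q hq
      simp only [hT, hT', hq]
  have hKL : LB (kap.symm : E3 → (ℂ × ℂ) × ℂ) (kap : (ℂ × ℂ) × ℂ → E3) := LB.of_equiv kap.symm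
  have hAll : LB (fun X : E3 => Ψ (T (kap.symm X))) (fun x => kap (T' (Ψ' x))) :=
    hL.comp (hTL.comp hKL)
  have hinj : Function.Injective (fderiv ℂ (fun X : E3 => Ψ (T (kap.symm X))) 0) := by
    have h1 := hAll.symm.fderiv_comp_zero
    intro v v' hv
    have h2 := congrArg (fun S : E3 →L[ℂ] E3 => S v) h1
    have h3 := congrArg (fun S : E3 →L[ℂ] E3 => S v') h1
    simp only [ContinuousLinearMap.comp_apply, ContinuousLinearMap.id_apply] at h2 h3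
    rw [← h2, ← h3, hv]
  -- the estimate
  have t1 : Tendsto (fun q : (ℂ × ℂ) × ℂ => q.1) (𝓝 0) (𝓝 0) := continuous_fst.tendsto' _ _ rfl
  have hUb : ∀ᶠ q in 𝓝 (0 : (ℂ × ℂ) × ℂ), ‖U q‖ ≤ ‖U 0‖ + 1 := by
    have := hU.continuousAt.norm.eventually_lt (continuousAt_const (y := ‖U 0‖ + 1)) (by simp)
    exact this.mono fun q hq => hq.le
  have hev : ∀ᶠ q in 𝓝 (0 : (ℂ × ℂ) × ℂ), ∀ s : ℝ, 0 < s → s ≤ 1 → ‖q.1.1‖ ≤ s ^ a →
      ‖q.1.2‖ ≤ s ^ b → ‖q.2‖ ≤ s ^ (1 / 2 : ℝ) → ‖f (Ψ (T q))‖ ≤ (K + (‖U 0‖ + 1)) * s := by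
    filter_upwards [hTL.tendsto.eventually he, t1.eventually hbd, hTL.tendsto.eventually hUb]
      with q h1 h2 h3 s hs hs1 hq1 hq2 hq3
    rw [h1]
    have h4 : ‖q.2‖ ^ 2 ≤ s := by
      calc ‖q.2‖ ^ 2 ≤ (s ^ (1 / 2 : ℝ)) ^ 2 := by gcongr
        _ = s := by
          rw [← Real.rpow_natCast, ← Real.rpow_mul hs.le]
          norm_num
    calc ‖φ (T q).1 + (T q).2 ^ 2 * U (T q)‖ ≤ ‖φ (T q).1‖ + ‖(T q).2 ^ 2 * U (T q)‖ :=
          norm_add_le _ _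
      _ ≤ K * s + s * (‖U 0‖ + 1) := by
          refine add_le_add (h2 s hs hs1 hq1 hq2) ?_
          rw [norm_mul, norm_pow]
          exact mul_le_mul h4 h3 (norm_nonneg _) hs.le
      _ = _ := by ring
  obtain ⟨δ, hδ, hball⟩ := Metric.eventually_nhds_iff_ball.1
    (hKL.tendsto.eventually hev)
  set κ : ℝ := min (δ / 2) 1 with hκ
  have hκ0 : 0 < κ := lt_min (by linarith) one_pos
  set wt : Fin 3 → ℝ := ![1 / 2, a, b] with hwt
  refine ⟨fun X => Ψ (T (kap.symm X)), wt, κ, K + (‖U 0‖ + 1), 1, hAll.an, hAll.map0, hinj, ?_, ?_,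
    hκ0, one_pos, ?_⟩
  · intro i
    fin_cases i
    · norm_num [hwt]
    · exact ha
    · exact hb
  · simp only [Fin.sum_univ_three, hwt, Matrix.cons_val_zero, Matrix.cons_val_one,
      Matrix.cons_val_two, Matrix.tail_cons, Matrix.head_cons]
    change (1 / 2 : ℝ) + a + b < 1
    linarith
  · intro s hs hs1 X hX
    have hpow : ∀ i, s ^ wt i ≤ 1 := fun i => by
      refine Real.rpow_le_one hs.le hs1 ?_
      fin_cases i
      · norm_num [hwt]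
      · exact ha.le
      · exact hb.le
    have hle : ∀ i, ‖X i‖ ≤ s ^ wt i := fun i =>
      (hX i).trans (mul_le_of_le_one_left (Real.rpow_nonneg hs.le _) (min_le_right _ _))
    have hXδ : X ∈ Metric.ball (0 : E3) δ := by
      rw [mem_ball_zero_iff, pi_norm_lt_iff hδ]
      intro i
      calc ‖X i‖ ≤ κ * s ^ wt i := hX i
        _ ≤ κ * 1 := by gcongr; exact hpow i
        _ ≤ δ / 2 := by rw [mul_one]; exact min_le_left _ _
        _ < δ := by linarith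
    exact hball X hXδ s hs hs1 (hle 1) (hle 2) (hle 0)

/-- the unstable quartics -/
theorem Red.pos_quartic {f : E3 → ℂ} {φ : ℂ × ℂ → ℂ} (h : Red f φ) (e : (ℂ × ℂ) ≃L[ℂ] (ℂ × ℂ))
    {C : ℝ} (hC : ∀ᶠ w in 𝓝 (0 : ℂ × ℂ), ‖φ (e w)‖ ≤ C * (‖w.2‖ ^ 3 * ‖w‖ + ‖w‖ ^ 5)) :
    WBoxB f := by
  refine h.wboxB (LB.of_equiv e) (a := 1 / 5) (b := 4 / 15) (K := max C 0 * 2) (by norm_num)
    (by norm_num) (by norm_num) ?_
  filter_upwards [hC] with w hw s hs hs1 h1 h2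
  have h3 : s ^ (4 / 15 : ℝ) ≤ s ^ (1 / 5 : ℝ) :=
    Real.rpow_le_rpow_of_exponent_ge hs hs1 (by norm_num)
  have h4 : ‖w‖ ≤ s ^ (1 / 5 : ℝ) := by
    rw [Prod.norm_def]
    exact max_le h1 (h2.trans h3)
  have h5 : ‖w.2‖ ^ 3 * ‖w‖ ≤ s := by
    calc ‖w.2‖ ^ 3 * ‖w‖ ≤ (s ^ (4 / 15 : ℝ)) ^ 3 * s ^ (1 / 5 : ℝ) := by gcongr
      _ = s := by
        rw [← Real.rpow_natCast, ← Real.rpow_mul hs.le, ← Real.rpow_add hs]
        norm_num
  have h6 : ‖w‖ ^ 5 ≤ s := by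
    calc ‖w‖ ^ 5 ≤ (s ^ (1 / 5 : ℝ)) ^ 5 := by gcongr
      _ = s := by
        rw [← Real.rpow_natCast, ← Real.rpow_mul hs.le]
        norm_num
  have h7 : 0 ≤ ‖w.2‖ ^ 3 * ‖w‖ + ‖w‖ ^ 5 := by positivity
  calc ‖φ (e w)‖ ≤ C * (‖w.2‖ ^ 3 * ‖w‖ + ‖w‖ ^ 5) := hw
    _ ≤ max C 0 * (‖w.2‖ ^ 3 * ‖w‖ + ‖w‖ ^ 5) := by gcongr; exact le_max_left _ _
    _ ≤ max C 0 * (s + s) := mul_le_mul_of_nonneg_left (add_le_add h5 h6) (le_max_right _ _)
    _ = max C 0 * 2 * s := by ring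

/-- the unstable case `y³ + z⁵ b₅ y + z⁷ c₇` -/
theorem Red.pos_cubic {f : E3 → ℂ} {φ : ℂ × ℂ → ℂ} (h : Red f φ) (e : (ℂ × ℂ) ≃L[ℂ] (ℂ × ℂ))
    {u : ℂ × ℂ → ℂ} {θ b₄ c₆ : ℂ → ℂ} (hu : AnalyticAt ℂ u 0) (hθ : AnalyticAt ℂ θ 0)
    (hθ0 : θ 0 = 0) (hb₄ : AnalyticAt ℂ b₄ 0) (hc₆ : AnalyticAt ℂ c₆ 0) (hb0 : b₄ 0 = 0)
    (hc0 : c₆ 0 = 0)
    (he : ∀ᶠ w in 𝓝 (0 : ℂ × ℂ), φ (e w) =
      u w * ((w.2 + θ w.1) ^ 3 + w.1 ^ 4 * b₄ w.1 * (w.2 + θ w.1) + w.1 ^ 6 * c₆ w.1)) :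
    WBoxB f := by
  have hS := LB_shear hθ hθ0
  obtain ⟨b₅, hb₅, hb₅e⟩ := pow_step (a := b₄) (n := 0) hb₄ hb0 (Eventually.of_forall fun y => by simp)
  obtain ⟨c₇, hc₇, hc₇e⟩ := pow_step (a := c₆) (n := 0) hc₆ hc0 (Eventually.of_forall fun y => by simp)
  have hbound : ∀ {g : ℂ → ℂ}, AnalyticAt ℂ g 0 → ∀ᶠ w in 𝓝 (0 : ℂ × ℂ), ‖g w.1‖ ≤ ‖g 0‖ + 1 := by
    intro g hg
    have h1 := hg.continuousAt.norm.eventually_lt (continuousAt_const (y := ‖g 0‖ + 1)) (by simp)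
    exact ev_fst (h1.mono fun y hy => hy.le)
  have hub : ∀ᶠ w in 𝓝 (0 : ℂ × ℂ), ‖u w‖ ≤ ‖u 0‖ + 1 := by
    have := hu.continuousAt.norm.eventually_lt (continuousAt_const (y := ‖u 0‖ + 1)) (by simp)
    exact this.mono fun q hq => hq.le
  have hL : LB (fun w => e (shear (fun z => - θ z) w)) (fun v => shear θ (e.symm v)) :=
    (LB.of_equiv e).comp hS.symm
  refine h.wboxB hL (a := 1 / 7) (b := 1 / 3)
    (K := (‖u 0‖ + 1) * (1 + (‖b₅ 0‖ + 1) + (‖c₇ 0‖ + 1))) (by norm_num) (by norm_num)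
    (by norm_num) ?_
  filter_upwards [hS.symm.tendsto.eventually he, hS.symm.tendsto.eventually hub, ev_fst hb₅e,
    ev_fst hc₇e, hbound hb₅, hbound hc₇] with w h1 h2 h3 h4 h5 h6 s hs hs1 hw1 hw2
  rw [h1]
  have e1 : (shear (fun z => - θ z) w).1 = w.1 := rfl
  have e2 : (shear (fun z => - θ z) w).2 + θ (shear (fun z => - θ z) w).1 = w.2 := by
    simp [shear]
  rw [e2, e1, h3, h4, norm_mul]
  have p3 : (s ^ (1 / 3 : ℝ)) ^ 3 = s := by
    rw [← Real.rpow_natCast, ← Real.rpow_mul hs.le]; norm_num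
  have p7 : (s ^ (1 / 7 : ℝ)) ^ 7 = s := by
    rw [← Real.rpow_natCast, ← Real.rpow_mul hs.le]; norm_num
  have p5 : (s ^ (1 / 7 : ℝ)) ^ 5 * s ^ (1 / 3 : ℝ) ≤ s := by
    have : (s ^ (1 / 7 : ℝ)) ^ 5 * s ^ (1 / 3 : ℝ) = s ^ (22 / 21 : ℝ) := by
      rw [← Real.rpow_natCast, ← Real.rpow_mul hs.le, ← Real.rpow_add hs]; norm_num
    rw [this]
    calc s ^ (22 / 21 : ℝ) ≤ s ^ (1 : ℝ) :=
          Real.rpow_le_rpow_of_exponent_ge hs hs1 (by norm_num)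
      _ = s := Real.rpow_one s
  have hin : ‖w.2 ^ 3 + w.1 ^ 4 * (w.1 ^ (0 + 1) * b₅ w.1) * w.2 +
      w.1 ^ 6 * (w.1 ^ (0 + 1) * c₇ w.1)‖ ≤ (1 + (‖b₅ 0‖ + 1) + (‖c₇ 0‖ + 1)) * s := by
    calc ‖w.2 ^ 3 + w.1 ^ 4 * (w.1 ^ (0 + 1) * b₅ w.1) * w.2 +
          w.1 ^ 6 * (w.1 ^ (0 + 1) * c₇ w.1)‖
        ≤ ‖w.2‖ ^ 3 + (‖w.1‖ ^ 5 * ‖w.2‖) * ‖b₅ w.1‖ + ‖w.1‖ ^ 7 * ‖c₇ w.1‖ := by
          refine (norm_add_le _ _).trans (add_le_add ((norm_add_le _ _).trans ?_) ?_)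
          · rw [norm_pow]
            refine add_le_add le_rfl (le_of_eq ?_)
            simp only [norm_mul, norm_pow]
            ring
          · refine le_of_eq ?_
            simp only [norm_mul, norm_pow]
            ring
      _ ≤ (s ^ (1 / 3 : ℝ)) ^ 3 + ((s ^ (1 / 7 : ℝ)) ^ 5 * s ^ (1 / 3 : ℝ)) * (‖b₅ 0‖ + 1) +
            (s ^ (1 / 7 : ℝ)) ^ 7 * (‖c₇ 0‖ + 1) := by gcongr
      _ ≤ s + s * (‖b₅ 0‖ + 1) + s * (‖c₇ 0‖ + 1) := by
          rw [p3, p7]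
          gcongr
      _ = _ := by ring
  calc ‖u (shear (fun z => - θ z) w)‖ * _ ≤ (‖u 0‖ + 1) *
        ((1 + (‖b₅ 0‖ + 1) + (‖c₇ 0‖ + 1)) * s) := by
        gcongr
    _ = _ := by ring

/-- **CL2**: a germ with a reduced plane germ `φ = O(|w|³)` which is neither klt nor of positive
`mstar` has either `φ = O(|w|⁴)` with semistable 4-jet, or, in every linear coordinates in which
`φ(0,·)` has order `3`, `φ = u ((y + θ(z))³ + z⁴ b₄ (y + θ(z)) + z⁶ c₆)` with `(b₄,c₆)(0) ≠ 0`. -/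
theorem cl2 {f : E3 → ℂ} {φ : ℂ × ℂ → ℂ} (hf : Iso f) (h : Red f φ)
    {C₃ : ℝ} (h3 : ∀ᶠ w in 𝓝 (0 : ℂ × ℂ), ‖φ w‖ ≤ C₃ * ‖w‖ ^ 3)
    (hk : ¬ InJ 1 f (fun _ => 1)) (hm : ¬ 0 < mstar f) :
    ((∃ C : ℝ, ∀ᶠ w in 𝓝 (0 : ℂ × ℂ), ‖φ w‖ ≤ C * ‖w‖ ^ 4) ∧
      ∀ e : (ℂ × ℂ) ≃L[ℂ] (ℂ × ℂ), ¬ ∃ C : ℝ, ∀ᶠ w in 𝓝 (0 : ℂ × ℂ),
        ‖φ (e w)‖ ≤ C * (‖w.2‖ ^ 3 * ‖w‖ + ‖w‖ ^ 5)) ∨
    ((∃ e : (ℂ × ℂ) ≃L[ℂ] (ℂ × ℂ), analyticOrderAt (fun y : ℂ => φ (e (0, y))) 0 = 3) ∧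
      ∀ e : (ℂ × ℂ) ≃L[ℂ] (ℂ × ℂ), analyticOrderAt (fun y : ℂ => φ (e (0, y))) 0 = 3 →
        ∃ (u : ℂ × ℂ → ℂ) (θ b₄ c₆ : ℂ → ℂ), AnalyticAt ℂ u 0 ∧ u 0 ≠ 0 ∧ AnalyticAt ℂ θ 0 ∧
          θ 0 = 0 ∧ AnalyticAt ℂ b₄ 0 ∧ AnalyticAt ℂ c₆ 0 ∧ (b₄ 0 ≠ 0 ∨ c₆ 0 ≠ 0) ∧
          ∀ᶠ w in 𝓝 (0 : ℂ × ℂ), φ (e w) =
            u w * ((w.2 + θ w.1) ^ 3 + w.1 ^ 4 * b₄ w.1 * (w.2 + θ w.1) + w.1 ^ 6 * c₆ w.1)) := by
  have hφ := h.1
  have hns : NS φ := h.ns hf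
  have hC₃ : ∃ C : ℝ, 0 < C ∧ ∀ᶠ w in 𝓝 (0 : ℂ × ℂ), ‖φ w‖ ≤ C * ‖w‖ ^ 3 :=
    ⟨max C₃ 1, lt_of_lt_of_le one_pos (le_max_right _ _), by
      filter_upwards [h3] with w hw
      exact hw.trans (by gcongr; exact le_max_left _ _)⟩
  obtain ⟨C, hC, h3'⟩ := hC₃
  -- orders along lines
  have hord3 : ∀ v : ℂ × ℂ, ((3 : ℕ) : ℕ∞) ≤ analyticOrderAt (fun t : ℂ => φ (t • v)) 0 := by
    intro v
    have ha := an_line hφ v
    rw [natCast_le_analyticOrderAt ha]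
    have hb : ∀ᶠ t in 𝓝 (0 : ℂ), ‖φ (t • v)‖ ≤ (C * ‖v‖ ^ 3) * ‖t‖ ^ 3 := by
      have t1 : Tendsto (fun t : ℂ => t • v) (𝓝 0) (𝓝 (0 : ℂ × ℂ)) :=
        (by fun_prop : Continuous (fun t : ℂ => t • v)).tendsto' _ _ (zero_smul _ _)
      filter_upwards [t1.eventually h3'] with t ht
      refine ht.trans (le_of_eq ?_)
      rw [norm_smul]
      ring
    obtain ⟨g, hg, hge⟩ := exists_pow_mul_of_bound ha hb
    refine ⟨g, hg, ?_⟩
    filter_upwards [hge] with t ht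
    rw [ht, sub_zero, smul_eq_mul]
  -- the form in the case of order three
  have key : ∀ e : (ℂ × ℂ) ≃L[ℂ] (ℂ × ℂ), analyticOrderAt (fun y : ℂ => φ (e (0, y))) 0 = 3 →
        ∃ (u : ℂ × ℂ → ℂ) (θ b₄ c₆ : ℂ → ℂ), AnalyticAt ℂ u 0 ∧ u 0 ≠ 0 ∧ AnalyticAt ℂ θ 0 ∧
          θ 0 = 0 ∧ AnalyticAt ℂ b₄ 0 ∧ AnalyticAt ℂ c₆ 0 ∧ (b₄ 0 ≠ 0 ∨ c₆ 0 ≠ 0) ∧
          ∀ᶠ w in 𝓝 (0 : ℂ × ℂ), φ (e w) =
            u w * ((w.2 + θ w.1) ^ 3 + w.1 ^ 4 * b₄ w.1 * (w.2 + θ w.1) + w.1 ^ 6 * c₆ w.1) := by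
    intro e he3
    have hLe := LB.of_equiv e
    have hqa : AnalyticAt ℂ (fun w => φ (e w)) 0 := an_comp_LB hφ hLe
    have hqn : NS (fun w => φ (e w)) := hns.comp hφ hLe
    have hO : (fun w => e w) =O[𝓝 0] (fun w : ℂ × ℂ => w) := by
      have := hLe.an.differentiableAt.hasFDerivAt.isBigO_sub
      simpa using this
    obtain ⟨K, hK0, hK'⟩ := hO.exists_pos
    have hbd : ∀ᶠ w in 𝓝 (0 : ℂ × ℂ), ‖φ (e w)‖ ≤ (C * K ^ 3) * ‖w‖ ^ 3 := by
      filter_upwards [hK'.bound, hLe.tendsto.eventually h3'] with w a1 a2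
      calc ‖φ (e w)‖ ≤ C * ‖e w‖ ^ 3 := a2
        _ ≤ C * (K * ‖w‖) ^ 3 := by gcongr
        _ = C * K ^ 3 * ‖w‖ ^ 3 := by ring
    rcases ns_ord3 hqa he3 (by positivity) hbd hqn with hP | ⟨u, θ, b₄, c₆, hu, hu0, hθ, hθ0, hb₄,
      hc₆, he⟩
    · exfalso
      have hP' : PRes φ := (hP.comp hqa hLe.symm).congr (Eventually.of_forall fun w => by simp)
      exact hk (h.klt hf hP')
    · refine ⟨u, θ, b₄, c₆, hu, hu0, hθ, hθ0, hb₄, hc₆, ?_, he⟩
      by_contra hno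
      push Not at hno
      exact hm (mstar_pos_of_wboxB hf (h.pos_cubic e hu hθ hθ0 hb₄ hc₆ hno.1 hno.2 he))
  by_cases hB : ∃ v : ℂ × ℂ, analyticOrderAt (fun t : ℂ => φ (t • v)) 0 = (3 : ℕ)
  · right
    obtain ⟨v, hv⟩ := hB
    have hφ0 : φ 0 = 0 := by
      have := h3'.self_of_nhds
      simpa using this
    have hv0 : v ≠ 0 := by
      rintro rfl
      rw [order_line_zero hφ0] at hv
      exact absurd hv (by simp)
    obtain ⟨e, he⟩ := exists_equiv hv0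
    refine ⟨⟨e, ?_⟩, key⟩
    have : (fun w : ℂ => φ (e (0, w))) = fun t : ℂ => φ (t • v) := by
      funext t
      rw [← he, ← map_smul]
      simp
    rw [this, hv]
    rfl
  · left
    push Not at hB
    have h4 : ∀ v, ((4 : ℕ) : ℕ∞) ≤ analyticOrderAt (fun t : ℂ => φ (t • v)) 0 :=
      fun v => add_one_le_of_ne (hord3 v) (hB v)
    obtain ⟨C', -, hbd⟩ := bound_of_orders hφ 4 h4
    refine ⟨⟨C', hbd⟩, fun e => ?_⟩
    rintro ⟨C'', hC''⟩
    exact hm (mstar_pos_of_wboxB hf (h.pos_quartic e hC''))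

end Crest.Agent.R257.Cl2_475
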