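import Crest.Agent.R257.LcxDefs_759
import Crest.Agent.R257.KlG_540
import Mathlib.Analysis.Calculus.MeanValue
import Crest.Agent.R257.Cl2C_475

-- ▼ part R257/Cl2D_475
section

/-!
R257 / Cl2D_475: Taylor expansion of plane germs in the coefficients `cf` of `LcxDefs_759`.

* `tay_cf` : `Tay n g (cf g)` for `g` analytic at `0`;
* `coeff_zero` : a polynomial in one variable which is `O(s^n)` has vanishing coefficients below `n`.
-/

set_option autoImplicit false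

open Topology Filter Set Asymptotics
open Crest.AlgGeometry.Germ

noncomputable section

namespace Crest.Agent.R257.Cl2D_475

open Crest.Agent.R257.Defs_219 Crest.Agent.R257.LcxDefs_759
open Crest.Agent.R257.EVa_929 (an_cd fd_sum)

abbrev E2 := Fin 2 → ℂ

/-- polynomial with coefficients `c` -/
def Pol (c : ℕ → ℕ → ℂ) (n : ℕ) (p : E2) : ℂ :=
  ∑ i ∈ Finset.range (n + 1), ∑ j ∈ Finset.range (n + 1 - i), c i j * p 0 ^ i * p 1 ^ j

lemma pol_diff (c : ℕ → ℕ → ℂ) (n : ℕ) : Differentiable ℂ (Pol c n) := by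
  unfold Pol
  fun_prop

lemma an_pol (c : ℕ → ℕ → ℂ) (n : ℕ) (x : E2) : AnalyticAt ℂ (Pol c n) x := by
  unfold Pol
  have h : ∀ k : Fin 2, AnalyticAt ℂ (fun p : E2 => p k) x := fun k =>
    (ContinuousLinearMap.proj (R := ℂ) (φ := fun _ : Fin 2 => ℂ) k).analyticAt x
  exact Finset.analyticAt_fun_sum _ fun i _ => Finset.analyticAt_fun_sum _ fun j _ =>
    (analyticAt_const.mul ((h 0).fun_pow i)).mul ((h 1).fun_pow j)

lemma cd_eq {n : ℕ} {F : (Fin n → ℂ) → ℂ} {p : Fin n → ℂ} (h : DifferentiableAt ℂ F p)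
    (i : Fin n) {d : ℂ}
    (hd : HasDerivAt (fun s : ℂ => F (p + s • (Pi.single i 1 : Fin n → ℂ))) d 0) :
    coordDeriv F i p = d := by
  have h1 : HasDerivAt (fun s : ℂ => p + s • (Pi.single i 1 : Fin n → ℂ))
      (Pi.single i 1 : Fin n → ℂ) 0 := by
    simpa using ((hasDerivAt_id (0 : ℂ)).smul_const (Pi.single i 1 : Fin n → ℂ)).const_add p
  have h2 : HasFDerivAt F (fderiv ℂ F p)
      ((fun s : ℂ => p + s • (Pi.single i 1 : Fin n → ℂ)) 0) := by
    simpa using h.hasFDerivAt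
  exact (h2.comp_hasDerivAt 0 h1).unique hd

lemma cd_pol0 (c : ℕ → ℕ → ℂ) (n : ℕ) (p : E2) :
    coordDeriv (Pol c (n + 1)) 0 p = Pol (fun i j => (i + 1) * c (i + 1) j) n p := by
  apply cd_eq (pol_diff c _ p)
  have h1 : (fun s : ℂ => Pol c (n + 1) (p + s • (Pi.single 0 1 : E2))) =
      fun s => ∑ i ∈ Finset.range (n + 1 + 1), ∑ j ∈ Finset.range (n + 1 + 1 - i),
        c i j * (p 0 + s) ^ i * p 1 ^ j := by
    funext s
    simp [Pol]
  rw [h1]
  have h2 : HasDerivAt (fun s : ℂ => ∑ i ∈ Finset.range (n + 1 + 1),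
      ∑ j ∈ Finset.range (n + 1 + 1 - i), c i j * (p 0 + s) ^ i * p 1 ^ j)
      (∑ i ∈ Finset.range (n + 1 + 1), ∑ j ∈ Finset.range (n + 1 + 1 - i),
        c i j * (i * p 0 ^ (i - 1)) * p 1 ^ j) 0 := by
    apply HasDerivAt.fun_sum
    intro i _
    apply HasDerivAt.fun_sum
    intro j _
    have h3 : HasDerivAt (fun s : ℂ => (p 0 + s) ^ i) (i * p 0 ^ (i - 1)) 0 := by
      have := ((hasDerivAt_id (0 : ℂ)).const_add (p 0)).fun_pow i
      simpa using this
    exact (h3.const_mul (c i j)).mul_const _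
  convert h2 using 1
  rw [Finset.sum_range_succ']
  simp only [Pol, Nat.cast_zero, zero_mul, mul_zero, Finset.sum_const_zero, add_zero]
  refine Finset.sum_congr rfl fun i _ => ?_
  have : n + 1 + 1 - (i + 1) = n + 1 - i := by omega
  rw [this]
  refine Finset.sum_congr rfl fun j _ => ?_
  push_cast
  ring

lemma cd_pol1 (c : ℕ → ℕ → ℂ) (n : ℕ) (p : E2) :
    coordDeriv (Pol c (n + 1)) 1 p = Pol (fun i j => (j + 1) * c i (j + 1)) n p := by
  apply cd_eq (pol_diff c _ p)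
  have h1 : (fun s : ℂ => Pol c (n + 1) (p + s • (Pi.single 1 1 : E2))) =
      fun s => ∑ i ∈ Finset.range (n + 1 + 1), ∑ j ∈ Finset.range (n + 1 + 1 - i),
        c i j * p 0 ^ i * (p 1 + s) ^ j := by
    funext s
    simp [Pol]
  rw [h1]
  have h2 : HasDerivAt (fun s : ℂ => ∑ i ∈ Finset.range (n + 1 + 1),
      ∑ j ∈ Finset.range (n + 1 + 1 - i), c i j * p 0 ^ i * (p 1 + s) ^ j)
      (∑ i ∈ Finset.range (n + 1 + 1), ∑ j ∈ Finset.range (n + 1 + 1 - i),
        c i j * p 0 ^ i * (j * p 1 ^ (j - 1))) 0 := by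
    apply HasDerivAt.fun_sum
    intro i _
    apply HasDerivAt.fun_sum
    intro j _
    have h3 : HasDerivAt (fun s : ℂ => (p 1 + s) ^ j) (j * p 1 ^ (j - 1)) 0 := by
      have := ((hasDerivAt_id (0 : ℂ)).const_add (p 1)).fun_pow j
      simpa using this
    exact h3.const_mul _
  convert h2 using 1
  rw [Finset.sum_range_succ]
  have h4 : n + 1 + 1 - (n + 1) = 1 := by omega
  rw [h4, Finset.sum_range_one]
  simp only [Pol, Nat.cast_zero, zero_mul, mul_zero, add_zero]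
  refine Finset.sum_congr rfl fun i hi => ?_
  have hi' : i < n + 1 := Finset.mem_range.1 hi
  have : n + 1 + 1 - i = (n + 1 - i) + 1 := by omega
  rw [this, Finset.sum_range_succ']
  simp only [Nat.cast_zero, zero_mul, mul_zero, add_zero]
  refine Finset.sum_congr rfl fun j _ => ?_
  push_cast
  ring

/-! ### coefficients of the derivatives -/

lemma an_nd {n : ℕ} {g : (Fin n → ℂ) → ℂ} {x : Fin n → ℂ} (hg : AnalyticAt ℂ g x) (i : Fin n)
    (k : ℕ) : AnalyticAt ℂ (nd i k g) x := by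
  induction k with
  | zero => exact hg
  | succ k ih =>
    change AnalyticAt ℂ (fun y => coordDeriv (nd i k g) i y / (k + 1)) x
    exact (an_cd ih i).div_const

lemma cd_congr {n : ℕ} {g h : (Fin n → ℂ) → ℂ} {x : Fin n → ℂ} (e : g =ᶠ[𝓝 x] h) (i : Fin n) :
    coordDeriv g i =ᶠ[𝓝 x] coordDeriv h i := by
  have := e.fderiv (𝕜 := ℂ)
  filter_upwards [this] with y hy
  simp only [coordDeriv, hy]

lemma nd_congr {n : ℕ} {g h : (Fin n → ℂ) → ℂ} {x : Fin n → ℂ} (e : g =ᶠ[𝓝 x] h) (i : Fin n)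
    (k : ℕ) : nd i k g =ᶠ[𝓝 x] nd i k h := by
  induction k with
  | zero => exact e
  | succ k ih =>
    filter_upwards [cd_congr ih i] with y hy
    change coordDeriv (nd i k g) i y / (k + 1) = coordDeriv (nd i k h) i y / (k + 1)
    rw [hy]


lemma cd_const_mul {n : ℕ} {g : (Fin n → ℂ) → ℂ} {x : Fin n → ℂ} (hg : AnalyticAt ℂ g x) (c : ℂ)
    (i : Fin n) : coordDeriv (fun y => c * g y) i x = c * coordDeriv g i x := by
  unfold coordDeriv
  rw [fderiv_const_mul hg.differentiableAt]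
  rfl

/-- `∂_i^k (∂_i g) / k! = (k+1) ∂_i^{k+1} g / (k+1)!` -/
lemma nd_cd {n : ℕ} {g : (Fin n → ℂ) → ℂ} {x : Fin n → ℂ} (hg : AnalyticAt ℂ g x) (i : Fin n)
    (k : ℕ) : nd i k (coordDeriv g i) =ᶠ[𝓝 x] fun y => (k + 1) * nd i (k + 1) g y := by
  induction k with
  | zero =>
    filter_upwards with y
    change coordDeriv g i y = ((0 : ℕ) + 1) * (coordDeriv g i y / ((0 : ℕ) + 1))
    push_cast
    ring
  | succ k ih =>
    filter_upwards [cd_congr ih i, hg.eventually_analyticAt] with y hy hy'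
    change coordDeriv (nd i k (coordDeriv g i)) i y / (k + 1) =
      ((k + 1 : ℕ) + 1) * (coordDeriv (nd i (k + 1) g) i y / ((k + 1 : ℕ) + 1))
    rw [hy, cd_const_mul (an_nd hy' i (k + 1))]
    have h1 : ((k + 1 : ℕ) + 1 : ℂ) ≠ 0 := by exact_mod_cast Nat.succ_ne_zero (k + 1)
    have h2 : (k + 1 : ℂ) ≠ 0 := by exact_mod_cast Nat.succ_ne_zero k
    field_simp

lemma nd_comm {n : ℕ} {g : (Fin n → ℂ) → ℂ} {x : Fin n → ℂ} (hg : AnalyticAt ℂ g x) (i l : Fin n)
    (k : ℕ) : nd i k (coordDeriv g l) =ᶠ[𝓝 x] coordDeriv (nd i k g) l := by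
  induction k with
  | zero => exact EventuallyEq.rfl
  | succ k ih =>
    filter_upwards [cd_congr ih i, hg.eventually_analyticAt] with y hy hy'
    change coordDeriv (nd i k (coordDeriv g l)) i y / (k + 1) =
      coordDeriv (fun z => coordDeriv (nd i k g) i z / (k + 1)) l y
    rw [hy, KlG_540.hess_symm (an_nd hy' i k) i l]
    have h1 : (fun z => coordDeriv (nd i k g) i z / ((k : ℂ) + 1)) =
        fun z => ((k : ℂ) + 1)⁻¹ * coordDeriv (nd i k g) i z := by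
      funext z
      rw [div_eq_inv_mul]
    rw [h1, cd_const_mul (an_cd (an_nd hy' i k) i), div_eq_inv_mul]

lemma cf_cd0 {g : E2 → ℂ} (hg : AnalyticAt ℂ g 0) (i j : ℕ) :
    cf (coordDeriv g 0) i j = (i + 1) * cf g (i + 1) j := by
  have h1 := nd_congr (nd_cd hg 0 i) 1 j
  have h2 : ∀ (G : E2 → ℂ) (c : ℂ) (k : ℕ), AnalyticAt ℂ G 0 →
      nd 1 k (fun y => c * G y) =ᶠ[𝓝 0] fun y => c * nd 1 k G y := by
    intro G c k hG
    induction k with
    | zero => exact EventuallyEq.rfl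
    | succ k ih =>
      filter_upwards [cd_congr ih 1, hG.eventually_analyticAt] with y hy hy'
      change coordDeriv (nd 1 k (fun y => c * G y)) 1 y / (k + 1) =
        c * (coordDeriv (nd 1 k G) 1 y / (k + 1))
      rw [hy, cd_const_mul (an_nd hy' 1 k)]
      ring
  exact (h1.trans (h2 (nd 0 (i + 1) g) (i + 1) j (an_nd hg 0 _))).self_of_nhds

lemma cf_cd1 {g : E2 → ℂ} (hg : AnalyticAt ℂ g 0) (i j : ℕ) :
    cf (coordDeriv g 1) i j = (j + 1) * cf g i (j + 1) := by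
  have h1 := nd_congr (nd_comm hg 0 1 i) 1 j
  exact (h1.trans (nd_cd (an_nd hg 0 i) 1 j)).self_of_nhds

lemma cf_zero (g : E2 → ℂ) : cf g 0 0 = g 0 := rfl

/-! ### the Taylor formula -/

/-- a function vanishing at `0` whose partial derivatives are `O(|x|^n)` is `O(|x|^{n+1})` -/
lemma isBigO_of_cd {n m : ℕ} {R : (Fin n → ℂ) → ℂ} (hR : AnalyticAt ℂ R 0) (h0 : R 0 = 0)
    (h : ∀ i, (coordDeriv R i) =O[𝓝 0] fun x : Fin n → ℂ => ‖x‖ ^ m) :
    R =O[𝓝 0] fun x : Fin n → ℂ => ‖x‖ ^ (m + 1) := by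
  have h1 : (fun x => fderiv ℂ R x) =O[𝓝 0] fun x : Fin n → ℂ => ‖x‖ ^ m := by
    have h2 : ∀ i, ∃ C : ℝ, 0 ≤ C ∧ ∀ᶠ x in 𝓝 (0 : Fin n → ℂ), ‖coordDeriv R i x‖ ≤ C * ‖x‖ ^ m := by
      intro i
      obtain ⟨C, hC⟩ := (h i).bound
      refine ⟨max C 0, le_max_right _ _, ?_⟩
      filter_upwards [hC] with x hx
      rw [norm_pow, norm_norm] at hx
      exact hx.trans (by gcongr; exact le_max_left _ _)
    choose C hC0 hC using h2
    refine IsBigO.of_bound (∑ i, C i) ?_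
    filter_upwards [eventually_all.2 hC] with x hx
    rw [norm_pow, norm_norm]
    refine ContinuousLinearMap.opNorm_le_bound _ (by have := Finset.sum_nonneg (fun i (_ : i ∈ Finset.univ) => hC0 i); positivity) fun v => ?_
    rw [fd_sum]
    calc ‖∑ j, v j * coordDeriv R j x‖ ≤ ∑ j, ‖v j * coordDeriv R j x‖ := norm_sum_le _ _
      _ ≤ ∑ j, ‖v‖ * (C j * ‖x‖ ^ m) := by
          refine Finset.sum_le_sum fun j _ => ?_
          rw [norm_mul]
          exact mul_le_mul (norm_le_pi_norm v j) (hx j) (norm_nonneg _) (norm_nonneg _)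
      _ = (∑ i, C i) * ‖x‖ ^ m * ‖v‖ := by rw [← Finset.mul_sum, ← Finset.sum_mul]; ring
  obtain ⟨C, hC⟩ := h1.bound
  obtain ⟨r, hr, hb⟩ := Metric.eventually_nhds_iff_ball.1 (hC.and hR.eventually_analyticAt)
  refine IsBigO.of_bound C ?_
  filter_upwards [Metric.ball_mem_nhds (0 : Fin n → ℂ) hr] with x hx
  have hxr : ‖x‖ < r := by simpa using hx
  have hC' : ∀ y ∈ Metric.closedBall (0 : Fin n → ℂ) ‖x‖, ‖fderiv ℂ R y‖ ≤ C * ‖x‖ ^ m := by
    intro y hy
    have hy' : ‖y‖ ≤ ‖x‖ := by simpa using hy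
    have h3 := (hb y (by simpa using lt_of_le_of_lt hy' hxr)).1
    rw [norm_pow, norm_norm] at h3
    by_cases hCn : 0 ≤ C
    · exact h3.trans (by gcongr)
    · have h4 := (hb x hx).1
      rw [norm_pow, norm_norm] at h4
      have h5 : 0 ≤ C * ‖x‖ ^ m := (norm_nonneg _).trans h4
      have h6 : 0 ≤ C * ‖y‖ ^ m := (norm_nonneg _).trans h3
      have h7 : ‖x‖ ^ m = 0 := by
        by_contra h8
        have : 0 < ‖x‖ ^ m := lt_of_le_of_ne (by positivity) (Ne.symm h8)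
        push Not at hCn
        nlinarith
      have h9 : ‖y‖ ^ m ≤ 0 := by rw [← h7]; gcongr
      have h10 : ‖y‖ ^ m = 0 := le_antisymm h9 (by positivity)
      rw [h10, mul_zero] at h3
      rw [h7, mul_zero]
      exact h3
  have h4 := (convex_closedBall (0 : Fin n → ℂ) ‖x‖).norm_image_sub_le_of_norm_fderiv_le
    (f := R) (𝕜 := ℂ) (C := C * ‖x‖ ^ m) (x := 0) (y := x)
    (fun y hy => (hb y (by
      have hy' : ‖y‖ ≤ ‖x‖ := by simpa using hy
      simpa using lt_of_le_of_lt hy' hxr)).2.differentiableAt) hC' (by simp) (by simp)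
  rw [h0, sub_zero, sub_zero] at h4
  rw [norm_pow, norm_norm, pow_succ]
  linarith

theorem pol_cf {g : E2 → ℂ} (hg : AnalyticAt ℂ g 0) (n : ℕ) :
    (fun p => g p - Pol (cf g) n p) =O[𝓝 0] fun p : E2 => ‖p‖ ^ (n + 1) := by
  induction n generalizing g with
  | zero =>
    have h1 := hg.differentiableAt.isBigO_sub
    refine (IsBigO.congr_left (f₁ := fun x => g x - g 0) h1 fun p => ?_).trans ?_
    · simp [Pol, cf_zero]
    · refine IsBigO.of_bound 1 (Eventually.of_forall fun p => ?_)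
      simp
  | succ n ih =>
    have hR : AnalyticAt ℂ (fun p => g p - Pol (cf g) (n + 1) p) 0 := hg.sub (an_pol _ _ _)
    have hcd : ∀ i : Fin 2, coordDeriv (fun p => g p - Pol (cf g) (n + 1) p) i =ᶠ[𝓝 0]
        fun p => coordDeriv g i p - coordDeriv (Pol (cf g) (n + 1)) i p := by
      intro i
      filter_upwards [hg.eventually_analyticAt] with p hp
      simp only [coordDeriv]
      rw [fderiv_fun_sub hp.differentiableAt (pol_diff _ _ p)]
      rfl
    apply isBigO_of_cd hR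
    · simp only [Pol]
      rw [Finset.sum_eq_single 0, Finset.sum_eq_single 0]
      · simp [cf_zero]
      · intro b _ hb; simp [hb]
      · intro h; simp at h
      · intro b _ hb
        apply Finset.sum_eq_zero
        intro j _
        simp [hb]
      · intro h; simp at h
    · intro i
      fin_cases i
      · refine ((ih (an_cd hg 0)).congr' ?_ EventuallyEq.rfl)
        refine EventuallyEq.trans ?_ (hcd 0).symm
        refine Eventually.of_forall fun p => ?_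
        simp only
        rw [cd_pol0]
        congr 2
        funext a b
        exact cf_cd0 hg a b
      · refine ((ih (an_cd hg 1)).congr' ?_ EventuallyEq.rfl)
        refine EventuallyEq.trans ?_ (hcd 1).symm
        refine Eventually.of_forall fun p => ?_
        simp only
        rw [cd_pol1]
        congr 2
        funext a b
        exact cf_cd1 hg a b


/-! ### polynomials in one variable -/

/-- a polynomial which is `O(s^n)` has vanishing coefficients below `n` -/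
theorem coeff_zero {N n : ℕ} {c : ℕ → ℂ}
    (h : (fun s : ℂ => ∑ k ∈ Finset.range N, c k * s ^ k) =O[𝓝 0] fun s : ℂ => s ^ n)
    {k : ℕ} (hk : k < n) (hkN : k < N) : c k = 0 := by
  induction k using Nat.strong_induction_on with
  | _ k ih =>
    by_contra hc
    have h1 : ∀ s : ℂ, ∑ l ∈ Finset.range N, c l * s ^ l =
        s ^ k * (c k + s * ∑ l ∈ Finset.range (N - k - 1), c (l + k + 1) * s ^ l) := by
      intro s
      have e1 : N = (k + 1) + (N - k - 1) := by omega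
      conv_lhs => rw [e1, Finset.sum_range_add, Finset.sum_range_succ]
      have e2 : ∑ x ∈ Finset.range k, c x * s ^ x = 0 := by
        apply Finset.sum_eq_zero
        intro l hl
        have hl' := Finset.mem_range.1 hl
        rw [ih l hl' (hl'.trans hk) (hl'.trans hkN), zero_mul]
      rw [e2, zero_add, mul_add, Finset.mul_sum, Finset.mul_sum]
      congr 1
      · ring
      · refine Finset.sum_congr rfl fun l _ => ?_
        have : k + 1 + l = l + k + 1 := by ring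
        rw [this, pow_add, pow_add]
        ring
    obtain ⟨C, hC⟩ := h.bound
    have h2 : ∀ᶠ s in 𝓝[≠] (0 : ℂ),
        ‖c k + s * ∑ l ∈ Finset.range (N - k - 1), c (l + k + 1) * s ^ l‖ ≤ C * ‖s‖ ^ (n - k) := by
      filter_upwards [nhdsWithin_le_nhds hC, self_mem_nhdsWithin] with s hs hs0
      rw [h1, norm_mul, norm_pow, norm_pow] at hs
      have h3 : 0 < ‖s‖ ^ k := by
        have : 0 < ‖s‖ := norm_pos_iff.2 hs0
        positivity
      have h4 : ‖s‖ ^ n = ‖s‖ ^ k * ‖s‖ ^ (n - k) := by rw [← pow_add]; congr 1; omega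
      rw [h4] at hs
      refine le_of_mul_le_mul_left (hs.trans (le_of_eq (by ring))) h3
    have h3 : Tendsto (fun s : ℂ =>
        ‖c k + s * ∑ l ∈ Finset.range (N - k - 1), c (l + k + 1) * s ^ l‖) (𝓝[≠] 0)
        (𝓝 ‖c k‖) := by
      apply tendsto_nhdsWithin_of_tendsto_nhds
      have : Continuous (fun s : ℂ =>
        ‖c k + s * ∑ l ∈ Finset.range (N - k - 1), c (l + k + 1) * s ^ l‖) := by fun_prop
      exact this.tendsto' _ _ (by simp)
    have h4 : Tendsto (fun s : ℂ => C * ‖s‖ ^ (n - k)) (𝓝[≠] 0) (𝓝 0) := by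
      apply tendsto_nhdsWithin_of_tendsto_nhds
      have : Continuous (fun s : ℂ => C * ‖s‖ ^ (n - k)) := by fun_prop
      exact this.tendsto' _ _ (by
        have : n - k ≠ 0 := by omega
        simp [this])
    have h5 := le_of_tendsto_of_tendsto h3 h4 h2
    exact hc (norm_le_zero_iff.1 h5)

end Crest.Agent.R257.Cl2D_475
end
end

-- ▼ part R257/Cl2E_475
section

/-!
R257 / Cl2E_475: the reduced plane germ (critical value) of a germ in the shape `Dcp` of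
`LcxDefs_759`, its relation with the discriminant, and `CubeStmt`.
-/

set_option autoImplicit false
set_option linter.deprecated false

open Topology Filter Set Asymptotics
open Crest.AlgGeometry.Germ

noncomputable section

namespace Crest.Agent.R257.Cl2E_475

open Crest.Agent.R257.Defs_219 Crest.Agent.R257.LcxDefs_759 Crest.Agent.R257.Kp_405
open Crest.Agent.R257.Cl2_475 Crest.Agent.R257.Cl2D_475

/-- the pair `(y,z)` as a point of `Fin 2 → ℂ` -/
def pt : (ℂ × ℂ) ≃L[ℂ] E2 :=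
  LinearEquiv.toContinuousLinearEquiv
  { toFun := fun w => ![w.1, w.2]
    invFun := fun x => (x 0, x 1)
    map_add' := fun v w => by
      ext i
      fin_cases i <;> rfl
    map_smul' := fun c w => by
      ext i
      fin_cases i <;> rfl
    left_inv := fun w => rfl
    right_inv := fun x => by
      ext i
      fin_cases i <;> rfl }

@[simp] lemma pt_0 (w : ℂ × ℂ) : pt w 0 = w.1 := rfl
@[simp] lemma pt_1 (w : ℂ × ℂ) : pt w 1 = w.2 := rfl

lemma norm_pt (w : ℂ × ℂ) : ‖pt w‖ = ‖w‖ := by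
  rw [Prod.norm_def]
  apply le_antisymm
  · rw [pi_norm_le_iff_of_nonneg (by positivity)]
    intro i
    fin_cases i
    · exact le_max_left _ _
    · exact le_max_right _ _
  · exact max_le (norm_le_pi_norm (pt w) 0) (norm_le_pi_norm (pt w) 1)

lemma tendsto_pt : Tendsto pt (𝓝 0) (𝓝 0) := by
  have := pt.continuous.tendsto 0
  rwa [map_zero] at this

lemma tail_kap (q : (ℂ × ℂ) × ℂ) : Fin.tail (kap q) = pt q.1 := by
  ext i
  fin_cases i <;> rfl

lemma an_pt {g : E2 → ℂ} (hg : AnalyticAt ℂ g 0) : AnalyticAt ℂ (fun w => g (pt w)) 0 :=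
  AnalyticAt.comp (g := g) (f := pt) (by rw [map_zero]; exact hg) (pt.analyticAt 0)

/-- a plane germ with vanishing coefficients of degree `≤ n` is `O(|p|^{n+1})` -/
lemma bigO_of_cf {g : E2 → ℂ} (hg : AnalyticAt ℂ g 0) {n : ℕ}
    (h : ∀ i j, i + j ≤ n → cf g i j = 0) :
    (fun q : ℂ × ℂ => g (pt q)) =O[𝓝 0] fun q => ‖q‖ ^ (n + 1) := by
  have h1 := (pol_cf hg n).comp_tendsto tendsto_pt
  refine h1.congr (fun q => ?_) fun q => ?_
  · have : Pol (cf g) n (pt q) = 0 := by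
      refine Finset.sum_eq_zero fun i hi => Finset.sum_eq_zero fun j hj => ?_
      rw [Finset.mem_range] at hi hj
      rw [h i j (by omega), zero_mul, zero_mul]
    simp only [Function.comp, this, sub_zero]
  · simp only [Function.comp, norm_pt]

/-- expansion when the coefficients of degree `≤ 2` vanish -/
lemma cubic_expansion {g : E2 → ℂ} (hg : AnalyticAt ℂ g 0)
    (h : ∀ i j, i + j ≤ 2 → cf g i j = 0) :
    (fun q : ℂ × ℂ => g (pt q) - (cf g 3 0 * q.1 ^ 3 + cf g 2 1 * q.1 ^ 2 * q.2 +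
      cf g 1 2 * q.1 * q.2 ^ 2 + cf g 0 3 * q.2 ^ 3)) =O[𝓝 0] fun q => ‖q‖ ^ 4 := by
  have h1 := (pol_cf hg 3).comp_tendsto tendsto_pt
  refine h1.congr (fun q => ?_) fun q => ?_
  · have : Pol (cf g) 3 (pt q) = cf g 3 0 * q.1 ^ 3 + cf g 2 1 * q.1 ^ 2 * q.2 +
      cf g 1 2 * q.1 * q.2 ^ 2 + cf g 0 3 * q.2 ^ 3 := by
      simp only [Pol, Finset.sum_range_succ, Finset.sum_range_zero, pt_0, pt_1]
      rw [h 0 0 (by norm_num), h 0 1 (by norm_num), h 0 2 (by norm_num), h 1 0 (by norm_num),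
        h 1 1 (by norm_num), h 2 0 (by norm_num)]
      ring
    simp only [Function.comp, this]
  · simp only [Function.comp, norm_pt]

lemma fd01 {F : (ℂ × ℂ) × ℂ → ℂ} {q : (ℂ × ℂ) × ℂ} (h : DifferentiableAt ℂ F q) {d : ℂ}
    (hd : HasDerivAt (fun s : ℂ => F (q.1, q.2 + s)) d 0) : fderiv ℂ F q (0, 1) = d := by
  have h1 : HasDerivAt (fun s : ℂ => ((q.1, q.2 + s) : (ℂ × ℂ) × ℂ)) (0, 1) 0 := by
    have := (hasDerivAt_const (0 : ℂ) q.1).prodMk ((hasDerivAt_id (0 : ℂ)).const_add q.2)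
    simpa using this
  have h2 : HasFDerivAt F (fderiv ℂ F q) ((fun s : ℂ => ((q.1, q.2 + s) : (ℂ × ℂ) × ℂ)) 0) := by
    simpa using h.hasFDerivAt
  exact (h2.comp_hasDerivAt 0 h1).unique hd

/-- **the critical point and the critical value** of a germ in the shape `Dcp` -/
theorem crit_core {f : E3 → ℂ} (hf : AnalyticAt ℂ f 0) (hf0 : f 0 = 0) (A : E3 ≃L[ℂ] E3)
    {u : E3 → ℂ} {v w : E2 → ℂ} (hD : Dcp (fun x => f (A x)) u v w) :
    ∃ X : ℂ × ℂ → ℂ, AnalyticAt ℂ X 0 ∧ X 0 = 0 ∧ (X =O[𝓝 0] fun q : ℂ × ℂ => ‖q‖ ^ 2) ∧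
      (∀ᶠ q in 𝓝 (0 : ℂ × ℂ), fderiv ℂ (fun q => f (A (kap q))) (q, X q) (0, 1) = 0) ∧
      Red f (fun q => f (A (kap (q, X q)))) ∧
      ((fun q : ℂ × ℂ => f (A (kap (q, X q))) - w (pt q)) =O[𝓝 0] fun q => ‖q‖ ^ 4) ∧
      ((fun q : ℂ × ℂ => Dsc u v w (pt q) - 4 * u (Fin.cons 0 (pt q)) * f (A (kap (q, X q))))
        =O[𝓝 0] fun q => ‖q‖ ^ 6) := by
  have kap0 : kap 0 = 0 := map_zero kap
  have tk : Tendsto kap (𝓝 0) (𝓝 0) := by
    have := kap.continuous.tendsto 0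
    rwa [map_zero] at this
  -- the pieces as functions of `q`
  set uk : (ℂ × ℂ) × ℂ → ℂ := fun q => u (kap q) with huk
  have huka : AnalyticAt ℂ uk 0 :=
    AnalyticAt.comp (g := u) (f := kap) (by rw [map_zero]; exact hD.au) (kap.analyticAt 0)
  have huk0 : uk 0 ≠ 0 := by
    change u (kap 0) ≠ 0
    rw [kap0]
    exact hD.u0
  set vk : ℂ × ℂ → ℂ := fun q => v (pt q) with hvk
  have hvka : AnalyticAt ℂ vk 0 := an_pt hD.av
  set wk : ℂ × ℂ → ℂ := fun q => w (pt q) with hwk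
  have hwka : AnalyticAt ℂ wk 0 := an_pt hD.aw
  have hvO : vk =O[𝓝 0] fun q => ‖q‖ ^ 2 := bigO_of_cf hD.av hD.v0
  have hwO : wk =O[𝓝 0] fun q => ‖q‖ ^ 3 := bigO_of_cf hD.aw hD.w0
  have hv00 : vk 0 = 0 := by
    have := hD.v0 0 0 (by norm_num)
    change v (pt 0) = 0
    rw [map_zero]
    exact this
  have hw00 : wk 0 = 0 := by
    have := hD.w0 0 0 (by norm_num)
    change w (pt 0) = 0
    rw [map_zero]
    exact this
  set M : (ℂ × ℂ) × ℂ → ℂ := fun q => q.2 ^ 2 * uk q + q.2 * vk q.1 + wk q.1 with hM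
  have hG : ∀ᶠ q in 𝓝 (0 : (ℂ × ℂ) × ℂ), f (A (kap q)) = M q := by
    filter_upwards [tk.eventually hD.eq] with q hq
    rw [hq, tail_kap]
    rfl
  set ux : (ℂ × ℂ) × ℂ → ℂ := fun q => fderiv ℂ uk q (0, 1) with hux
  have huxa : AnalyticAt ℂ ux 0 :=
    (ContinuousLinearMap.analyticAt (ContinuousLinearMap.apply ℂ ℂ (((0, 0), 1) : (ℂ × ℂ) × ℂ)) _).comp
      huka.fderiv
  have tf : Tendsto (Prod.fst : (ℂ × ℂ) × ℂ → ℂ × ℂ) (𝓝 0) (𝓝 0) :=
    continuous_fst.tendsto' _ _ rfl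
  set P : (ℂ × ℂ) × ℂ → ℂ := fun q => 2 * q.2 * uk q + q.2 ^ 2 * ux q + vk q.1 with hP
  have hvf : AnalyticAt ℂ (fun q : (ℂ × ℂ) × ℂ => vk q.1) 0 :=
    AnalyticAt.comp (g := vk) (f := Prod.fst) hvka analyticAt_fst
  have hwf : AnalyticAt ℂ (fun q : (ℂ × ℂ) × ℂ => wk q.1) 0 :=
    AnalyticAt.comp (g := wk) (f := Prod.fst) hwka analyticAt_fst
  have hPa : AnalyticAt ℂ P 0 :=
    (((analyticAt_const.mul analyticAt_snd).mul huka).add ((analyticAt_snd.pow 2).mul huxa)).add hvf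
  have hMa : AnalyticAt ℂ M 0 :=
    (((analyticAt_snd.pow 2).mul huka).add (analyticAt_snd.mul hvf)).add hwf
  have hMd : ∀ᶠ q in 𝓝 (0 : (ℂ × ℂ) × ℂ), fderiv ℂ (fun q => f (A (kap q))) q (0, 1) = P q := by
    filter_upwards [hG.eventually_nhds, huka.eventually_analyticAt, hMa.eventually_analyticAt]
      with q h1 h2 h3
    have h4 : (fun q => f (A (kap q))) =ᶠ[𝓝 q] M := h1
    rw [h4.fderiv_eq]
    apply fd01 h3.differentiableAt
    have e0 : HasDerivAt (fun s : ℂ => q.2 + s) 1 0 := by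
      simpa using (hasDerivAt_id (0 : ℂ)).const_add q.2
    have e1 : HasDerivAt (fun s : ℂ => uk (q.1, q.2 + s)) (ux q) 0 := by
      have a1 : HasDerivAt (fun s : ℂ => ((q.1, q.2 + s) : (ℂ × ℂ) × ℂ)) (0, 1) 0 :=
        (hasDerivAt_const (0 : ℂ) q.1).prodMk e0
      have a2 : HasFDerivAt uk (fderiv ℂ uk q)
          ((fun s : ℂ => ((q.1, q.2 + s) : (ℂ × ℂ) × ℂ)) 0) := by
        simpa using h2.differentiableAt.hasFDerivAt
      exact a2.comp_hasDerivAt 0 a1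
    have e2 : HasDerivAt (fun s : ℂ => (q.2 + s) ^ 2) (2 * q.2) 0 := by
      have := e0.fun_pow 2
      simpa using this
    have e3 := ((e2.mul e1).add (e0.mul_const (vk q.1))).add_const (wk q.1)
    have e4 : (2 * q.2 * uk (q.1, q.2 + 0) + (q.2 + 0) ^ 2 * ux q + 1 * vk q.1) = P q := by
      simp only [add_zero, one_mul, hP]
    rw [← e4]
    exact e3
  have hP0 : P 0 = 0 := by
    simp only [hP, Prod.snd_zero, Prod.fst_zero, hv00]
    ring
  have hPd : ∀ s : ℂ, fderiv ℂ P 0 ((0 : ℂ × ℂ), s) = s * (2 * uk 0) := by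
    intro s
    have e1 : fderiv ℂ P 0 (0, 1) = 2 * uk 0 := by
      apply fd01 hPa.differentiableAt
      have a1 : HasDerivAt (fun s : ℂ => (((0 : ℂ × ℂ), 0 + s) : (ℂ × ℂ) × ℂ)) (0, 1) 0 := by
        have := (hasDerivAt_const (0 : ℂ) (0 : ℂ × ℂ)).prodMk
          ((hasDerivAt_id (0 : ℂ)).const_add (0 : ℂ))
        simpa using this
      have a0 : HasDerivAt (fun s : ℂ => (0 : ℂ) + s) 1 0 := by
        simpa using (hasDerivAt_id (0 : ℂ)).const_add (0 : ℂ)
      have b1 : HasDerivAt (fun s : ℂ => uk ((0 : ℂ × ℂ), 0 + s)) (fderiv ℂ uk 0 (0, 1)) 0 := by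
        have a2 : HasFDerivAt uk (fderiv ℂ uk 0)
            ((fun s : ℂ => (((0 : ℂ × ℂ), 0 + s) : (ℂ × ℂ) × ℂ)) 0) := by
          simp only [add_zero]
          exact huka.differentiableAt.hasFDerivAt
        exact a2.comp_hasDerivAt 0 a1
      have b2 : HasDerivAt (fun s : ℂ => ux ((0 : ℂ × ℂ), 0 + s)) (fderiv ℂ ux 0 (0, 1)) 0 := by
        have a2 : HasFDerivAt ux (fderiv ℂ ux 0)
            ((fun s : ℂ => (((0 : ℂ × ℂ), 0 + s) : (ℂ × ℂ) × ℂ)) 0) := by
          simp only [add_zero]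
          exact huxa.differentiableAt.hasFDerivAt
        exact a2.comp_hasDerivAt 0 a1
      have c1 := (((a0.const_mul 2).mul b1).add ((a0.fun_pow 2).mul b2)).add_const (vk 0)
      refine c1.congr_deriv ?_
      simp only [add_zero]
      have : uk ((0 : ℂ × ℂ), (0 : ℂ)) = uk 0 := rfl
      rw [this]
      simp
    have e2 : (((0 : ℂ × ℂ), s) : (ℂ × ℂ) × ℂ) = s • ((0 : ℂ × ℂ), (1 : ℂ)) := by
      simp
    rw [e2, map_smul, smul_eq_mul]
    congr 1
  obtain ⟨X, hX, hX0, hXe⟩ := LCc_472.ift (E := ℂ × ℂ) (E' := ℂ) (P := P) hPa hP0 (by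
    intro s s' hs
    simp only at hs
    have h1 := hPd s
    have h2 := hPd s'
    have h3 : s * (2 * uk 0) = s' * (2 * uk 0) := by
      rw [← h1, ← h2]
      exact hs
    exact mul_right_cancel₀ (mul_ne_zero two_ne_zero huk0) h3)
  have tX : Tendsto (fun q : ℂ × ℂ => (q, X q)) (𝓝 0) (𝓝 (0 : (ℂ × ℂ) × ℂ)) := by
    have h1 : ContinuousAt (fun q : ℂ × ℂ => (q, X q)) 0 := continuousAt_id.prodMk hX.continuousAt
    have h2 := h1.tendsto
    rw [hX0] at h2
    exact h2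
  have hPX : ∀ᶠ q in 𝓝 (0 : ℂ × ℂ), P (q, X q) = 0 := by
    filter_upwards [tX.eventually hXe] with q hq
    exact hq.2 rfl
  -- `X = O(|q|²)`
  have hXO : X =O[𝓝 0] fun q : ℂ × ℂ => ‖q‖ ^ 2 := by
    have h1 : Tendsto (fun q : ℂ × ℂ => 2 * uk (q, X q) + X q * ux (q, X q)) (𝓝 0)
        (𝓝 (2 * uk 0)) := by
      have a1 := huka.continuousAt.tendsto.comp tX
      have a2 := huxa.continuousAt.tendsto.comp tX
      have a3 : Tendsto X (𝓝 0) (𝓝 0) := by
        have := hX.continuousAt.tendsto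
        rwa [hX0] at this
      have a4 := (a1.const_mul 2).add (a3.mul a2)
      simpa using a4
    have h2 : ∀ᶠ q in 𝓝 (0 : ℂ × ℂ), ‖uk 0‖ ≤ ‖2 * uk (q, X q) + X q * ux (q, X q)‖ := by
      have h3 := h1.norm
      have h4 : ‖uk 0‖ < ‖2 * uk 0‖ := by
        rw [norm_mul]
        have : 0 < ‖uk 0‖ := norm_pos_iff.2 huk0
        norm_num
        linarith
      filter_upwards [h3.eventually (lt_mem_nhds h4)] with q hq
      exact hq.le
    obtain ⟨C, hC⟩ := hvO.bound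
    refine IsBigO.of_bound (C / ‖uk 0‖) ?_
    filter_upwards [h2, hC, hPX] with q a b c
    have e1 : X q * (2 * uk (q, X q) + X q * ux (q, X q)) = - vk q := by
      simp only [hP] at c
      linear_combination c
    have e2 : ‖X q‖ * ‖2 * uk (q, X q) + X q * ux (q, X q)‖ = ‖vk q‖ := by
      rw [← norm_mul, e1, norm_neg]
    have e3 : 0 < ‖uk 0‖ := norm_pos_iff.2 huk0
    rw [div_mul_eq_mul_div, le_div_iff₀ e3]
    calc ‖X q‖ * ‖uk 0‖ ≤ ‖X q‖ * ‖2 * uk (q, X q) + X q * ux (q, X q)‖ := by gcongr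
      _ = ‖vk q‖ := e2
      _ ≤ _ := b
  have hu1 : (fun q : ℂ × ℂ => uk (q, X q)) =O[𝓝 0] fun _ => (1 : ℝ) :=
    (huka.continuousAt.tendsto.comp tX).isBigO_one ℝ
  have hux1 : (fun q : ℂ × ℂ => ux (q, X q)) =O[𝓝 0] fun _ => (1 : ℝ) :=
    (huxa.continuousAt.tendsto.comp tX).isBigO_one ℝ
  have t0 : Tendsto (fun q : ℂ × ℂ => (q, (0 : ℂ))) (𝓝 0) (𝓝 (0 : (ℂ × ℂ) × ℂ)) := tendsto_emb
  have hdu : (fun q : ℂ × ℂ => uk (q, X q) - uk (q, 0)) =O[𝓝 0] fun q => ‖q‖ ^ 2 := by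
    have h1 : ∃ K : NNReal, ∃ s ∈ 𝓝 (0 : (ℂ × ℂ) × ℂ), LipschitzOnWith K uk s :=
      (huka.contDiffAt (n := 1)).exists_lipschitzOnWith
    obtain ⟨K, s, hs, hK⟩ := h1
    have h2 : (fun q : ℂ × ℂ => uk (q, X q) - uk (q, 0)) =O[𝓝 0] X := by
      refine IsBigO.of_bound K ?_
      filter_upwards [tX.eventually hs, t0.eventually hs] with q a b
      have := hK.dist_le_mul _ a _ b
      rw [dist_eq_norm, dist_eq_norm] at this
      refine this.trans (le_of_eq ?_)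
      congr 1
      simp [Prod.norm_def]
    exact h2.trans hXO
  refine ⟨X, hX, hX0, hXO, ?_, ?_, ?_, ?_⟩
  · filter_upwards [tX.eventually hMd, hPX] with q a b
    rw [a, b]
  · -- reduction
    have hL : LB (fun q : (ℂ × ℂ) × ℂ => A (kap q)) (fun x => kap.symm (A.symm x)) := by
      have := LB.of_equiv (kap.trans A)
      exact this
    refine red_of_crit hf hL hX hX0 ?_ hf0 ?_
    · filter_upwards [tX.eventually hMd, hPX] with q a b
      rw [a, b]
    · have tz : Tendsto (fun z : ℂ => ((0 : ℂ × ℂ), z)) (𝓝 0) (𝓝 (0 : (ℂ × ℂ) × ℂ)) :=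
        (by fun_prop : Continuous (fun z : ℂ => ((0 : ℂ × ℂ), z))).tendsto' _ _ rfl
      have hfa : AnalyticAt ℂ (fun z : ℂ => f (A (kap ((0 : ℂ × ℂ), z)))) 0 := by
        have h1 : AnalyticAt ℂ (fun q => f (A (kap q))) 0 := an_comp_LB hf hL
        exact AnalyticAt.comp (g := fun q => f (A (kap q))) (f := fun z : ℂ => ((0 : ℂ × ℂ), z)) h1
          (analyticAt_const.prod analyticAt_id)
      have h2 : analyticOrderAt (fun z : ℂ => f (A (kap ((0 : ℂ × ℂ), z)))) 0 = ((2 : ℕ) : ℕ∞) := by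
        rw [hfa.analyticOrderAt_eq_natCast]
        refine ⟨fun z => uk ((0 : ℂ × ℂ), z), ?_, huk0, ?_⟩
        · exact AnalyticAt.comp (g := uk) (f := fun z : ℂ => ((0 : ℂ × ℂ), z)) huka
            (analyticAt_const.prod analyticAt_id)
        · filter_upwards [tz.eventually hG] with z hz
          rw [hz]
          simp only [hM, hv00, hw00, sub_zero, smul_eq_mul]
          ring
      exact_mod_cast h2
  · -- 3-jet
    have h1 : (fun q : ℂ × ℂ => f (A (kap (q, X q))) - wk q) =ᶠ[𝓝 0]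
        fun q => X q * X q * uk (q, X q) + X q * vk q := by
      filter_upwards [tX.eventually hG] with q hq
      rw [hq]
      simp only [hM]
      ring
    refine IsBigO.congr' ?_ h1.symm EventuallyEq.rfl
    have h2 : (fun q : ℂ × ℂ => X q * X q * uk (q, X q)) =O[𝓝 0] fun q => ‖q‖ ^ 4 := by
      refine ((hXO.mul hXO).mul hu1).congr_right fun q => ?_
      ring
    have h3 : (fun q : ℂ × ℂ => X q * vk q) =O[𝓝 0] fun q => ‖q‖ ^ 4 := by
      refine (hXO.mul hvO).congr_right fun q => ?_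
      ring
    exact h2.add h3
  · -- the discriminant
    have h1 : (fun q : ℂ × ℂ => Dsc u v w (pt q) -
        4 * u (Fin.cons 0 (pt q)) * f (A (kap (q, X q)))) =ᶠ[𝓝 0]
        fun q => -(4 * (X q * X q * uk (q, X q) * (uk (q, X q) - uk (q, 0)))) -
          4 * (X q * X q * X q * ux (q, X q) * (uk (q, X q) - uk (q, 0))) -
          X q * X q * X q * X q * (ux (q, X q) * ux (q, X q)) := by
      filter_upwards [tX.eventually hG, hPX] with q hq hp
      rw [hq]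
      have e0 : (Fin.cons 0 (pt q) : E3) = kap (q, 0) := rfl
      simp only [hM, Dsc, e0]
      change 4 * uk (q, 0) * wk q - vk q ^ 2 - _ = _
      have e1 : vk q = -(2 * X q * uk (q, X q)) - X q ^ 2 * ux (q, X q) := by
        simp only [hP] at hp
        linear_combination hp
      rw [e1]
      ring
    refine IsBigO.congr' ?_ h1.symm EventuallyEq.rfl
    have h2 : (fun q : ℂ × ℂ => X q * X q * uk (q, X q) * (uk (q, X q) - uk (q, 0))) =O[𝓝 0]
        fun q => ‖q‖ ^ 6 := by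
      refine (((hXO.mul hXO).mul hu1).mul hdu).congr_right fun q => ?_
      ring
    have hle : ∀ m : ℕ, 6 ≤ m → (fun q : ℂ × ℂ => ‖q‖ ^ m) =O[𝓝 0] fun q => ‖q‖ ^ 6 := by
      intro m hm
      refine IsBigO.of_bound 1 ?_
      filter_upwards [Metric.ball_mem_nhds (0 : ℂ × ℂ) one_pos] with q hq
      have hq' : ‖q‖ ≤ 1 := by
        have : ‖q‖ < 1 := by simpa using hq
        exact this.le
      rw [one_mul, norm_pow, norm_pow, norm_norm]
      exact pow_le_pow_of_le_one (norm_nonneg _) hq' hm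
    have h3 : (fun q : ℂ × ℂ => X q * X q * X q * ux (q, X q) * (uk (q, X q) - uk (q, 0)))
        =O[𝓝 0] fun q => ‖q‖ ^ 6 := by
      refine IsBigO.trans ?_ (hle 8 (by norm_num))
      refine ((((hXO.mul hXO).mul hXO).mul hux1).mul hdu).congr_right fun q => ?_
      ring
    have h4 : (fun q : ℂ × ℂ => X q * X q * X q * X q * (ux (q, X q) * ux (q, X q))) =O[𝓝 0]
        fun q => ‖q‖ ^ 6 := by
      refine IsBigO.trans ?_ (hle 8 (by norm_num))
      refine ((((hXO.mul hXO).mul hXO).mul hXO).mul (hux1.mul hux1)).congr_right fun q => ?_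
      ring
    exact ((h2.const_mul_left 4).neg_left.sub (h3.const_mul_left 4)).sub h4

/-- **the critical value** of a germ in the shape `Dcp` -/
theorem crit_value {f : E3 → ℂ} (hf : AnalyticAt ℂ f 0) (hf0 : f 0 = 0) (A : E3 ≃L[ℂ] E3)
    {u : E3 → ℂ} {v w : E2 → ℂ} (hD : Dcp (fun x => f (A x)) u v w) :
    ∃ φ : ℂ × ℂ → ℂ, Red f φ ∧
      ((fun q : ℂ × ℂ => φ q - w (pt q)) =O[𝓝 0] fun q => ‖q‖ ^ 4) ∧
      ((fun q : ℂ × ℂ => Dsc u v w (pt q) - 4 * u (Fin.cons 0 (pt q)) * φ q) =O[𝓝 0]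
        fun q => ‖q‖ ^ 6) := by
  obtain ⟨X, -, -, -, -, h1, h2, h3⟩ := crit_core hf hf0 A hD
  exact ⟨_, h1, h2, h3⟩

end Crest.Agent.R257.Cl2E_475
end
end

-- ▼ part R257/Cl2F_475

/-!
R257 / Cl2F_475: `CubeStmt` and the first half of `SextStmt` of `LcxDefs_759`.
-/

set_option autoImplicit false
set_option linter.deprecated false

open Topology Filter Set Asymptotics
open Crest.AlgGeometry.Germ

noncomputable section

namespace Crest.Agent.R257.Cl2F_475

open Crest.Agent.R257.Defs_219 Crest.Agent.R257.LcxDefs_759 Crest.Agent.R257.Kp_405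
open Crest.Agent.R257.Cl2_475 Crest.Agent.R257.Cl2D_475 Crest.Agent.R257.Cl2E_475

/-- a homogeneous function of degree `m` which is `O(|q|^{m+1})` vanishes -/
lemma hom_zero {E : Type*} [NormedAddCommGroup E] [NormedSpace ℂ E] {F : E → ℂ} {m : ℕ}
    (hh : ∀ (t : ℂ) q, F (t • q) = t ^ m * F q)
    (hO : F =O[𝓝 0] fun q => ‖q‖ ^ (m + 1)) (q : E) : F q = 0 := by
  obtain ⟨C, hC⟩ := hO.bound
  have t1 : Tendsto (fun t : ℂ => t • q) (𝓝 0) (𝓝 (0 : E)) :=
    (by fun_prop : Continuous (fun t : ℂ => t • q)).tendsto' _ _ (zero_smul _ _)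
  have h2 : ∀ᶠ t in 𝓝[≠] (0 : ℂ), ‖F q‖ ≤ C * ‖q‖ ^ (m + 1) * ‖t‖ := by
    filter_upwards [nhdsWithin_le_nhds (t1.eventually hC), self_mem_nhdsWithin] with t ht ht0
    rw [hh, norm_mul, norm_pow, norm_pow, norm_norm, norm_smul, mul_pow, pow_succ ‖t‖] at ht
    have h3 : 0 < ‖t‖ ^ m := by
      have : 0 < ‖t‖ := norm_pos_iff.2 ht0
      positivity
    exact le_of_mul_le_mul_left (ht.trans (le_of_eq (by ring))) h3
  have h4 : Tendsto (fun t : ℂ => C * ‖q‖ ^ (m + 1) * ‖t‖) (𝓝[≠] 0) (𝓝 0) := by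
    apply tendsto_nhdsWithin_of_tendsto_nhds
    have : Continuous (fun t : ℂ => C * ‖q‖ ^ (m + 1) * ‖t‖) := by fun_prop
    exact this.tendsto' _ _ (by simp)
  exact norm_le_zero_iff.1 (ge_of_tendsto h4 h2)

/-- binary cubic form -/
def kf (a b c d : ℂ) (q : ℂ × ℂ) : ℂ := a * q.1 ^ 3 + b * q.1 ^ 2 * q.2 + c * q.1 * q.2 ^ 2 + d * q.2 ^ 3

lemma kf_smul (a b c d t : ℂ) (q : ℂ × ℂ) : kf a b c d (t • q) = t ^ 3 * kf a b c d q := by
  simp only [kf, Prod.smul_fst, Prod.smul_snd, smul_eq_mul]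
  ring

lemma kf_eq_zero {a b c d : ℂ} (h : ∀ q, kf a b c d q = 0) : a = 0 ∧ b = 0 ∧ c = 0 ∧ d = 0 := by
  have h1 := h (1, 0)
  have h2 := h (0, 1)
  have h3 := h (1, 1)
  have h4 := h (1, -1)
  simp only [kf] at h1 h2 h3 h4
  have ha : a = 0 := by linear_combination h1
  have hd : d = 0 := by linear_combination h2
  subst ha hd
  have hb : b = 0 := by linear_combination (h3 - h4) / 2
  have hc : c = 0 := by linear_combination (h3 + h4) / 2
  exact ⟨rfl, hb, hc, rfl⟩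

lemma norm_fst_bigO : (fun w : ℂ × ℂ => w.1) =O[𝓝 0] fun w => ‖w‖ ^ 1 := by
  refine IsBigO.of_bound 1 (Eventually.of_forall fun w => ?_)
  simp only [pow_one, norm_norm, one_mul]
  exact norm_fst_le w

lemma norm_snd_bigO : (fun w : ℂ × ℂ => w.2) =O[𝓝 0] fun w => ‖w‖ ^ 1 := by
  refine IsBigO.of_bound 1 (Eventually.of_forall fun w => ?_)
  simp only [pow_one, norm_norm, one_mul]
  exact norm_snd_le w

lemma pow_bigO_pow {m n : ℕ} (h : n ≤ m) :
    (fun q : ℂ × ℂ => ‖q‖ ^ m) =O[𝓝 0] fun q => ‖q‖ ^ n := by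
  refine IsBigO.of_bound 1 ?_
  filter_upwards [Metric.ball_mem_nhds (0 : ℂ × ℂ) one_pos] with q hq
  have hq' : ‖q‖ ≤ 1 := by
    have : ‖q‖ < 1 := by simpa using hq
    exact this.le
  rw [one_mul, norm_pow, norm_pow, norm_norm]
  exact pow_le_pow_of_le_one (norm_nonneg _) hq' h

/-- one-variable analytic function minus its 1-jet -/
lemma sub_one_jet {θ : ℂ → ℂ} (hθ : AnalyticAt ℂ θ 0) (h0 : θ 0 = 0) :
    (fun z : ℂ => θ z - deriv θ 0 * z) =O[𝓝 0] fun z : ℂ => z ^ 2 := by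
  have h1 : AnalyticAt ℂ (fun z : ℂ => θ z - deriv θ 0 * z) 0 :=
    hθ.sub (analyticAt_const.mul analyticAt_id)
  have h2 : ((2 : ℕ) : ℕ∞) ≤ analyticOrderAt (fun z : ℂ => θ z - deriv θ 0 * z) 0 := by
    have h7 := two_le_order h1 (by simp [h0]) ?_ 1
    · simpa using h7
    · have h3 : HasDerivAt (fun z : ℂ => θ z - deriv θ 0 * z) (deriv θ 0 - deriv θ 0 * 1) 0 :=
        hθ.differentiableAt.hasDerivAt.sub ((hasDerivAt_id (0 : ℂ)).const_mul (deriv θ 0))
      rw [mul_one, sub_self] at h3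
      have := h3.hasFDerivAt.fderiv
      rw [this]
      ext
      simp
  obtain ⟨g, hg, he⟩ := (natCast_le_analyticOrderAt h1).1 h2
  refine IsBigO.congr' ?_ (he.mono fun z hz => hz.symm) EventuallyEq.rfl
  have h5 : g =O[𝓝 0] fun _ => (1 : ℝ) := hg.continuousAt.tendsto.isBigO_one ℝ
  have h6 : (fun z : ℂ => z ^ 2 * g z) =O[𝓝 0] fun z : ℂ => ‖z ^ 2‖ * 1 :=
    (isBigO_refl (fun z : ℂ => z ^ 2) (𝓝 0)).norm_right.mul h5
  have h7 : (fun z : ℂ => ‖z ^ 2‖ * 1) =O[𝓝 0] fun z : ℂ => z ^ 2 := by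
    simp only [mul_one]
    exact (isBigO_refl (fun z : ℂ => z ^ 2) (𝓝 0)).norm_left
  simpa using h6.trans h7

/-- the 3-jet of the second alternative of `cl2` -/
lemma jet_case2 {φ : ℂ × ℂ → ℂ} {u : ℂ × ℂ → ℂ} {θ b₄ c₆ : ℂ → ℂ} (hu : AnalyticAt ℂ u 0)
    (hθ : AnalyticAt ℂ θ 0) (hθ0 : θ 0 = 0) (hb : AnalyticAt ℂ b₄ 0) (hc : AnalyticAt ℂ c₆ 0)
    (h : ∀ᶠ w in 𝓝 (0 : ℂ × ℂ), φ w =
      u w * ((w.2 + θ w.1) ^ 3 + w.1 ^ 4 * b₄ w.1 * (w.2 + θ w.1) + w.1 ^ 6 * c₆ w.1)) :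
    (fun w : ℂ × ℂ => φ w - u 0 * (w.2 + deriv θ 0 * w.1) ^ 3) =O[𝓝 0] fun w => ‖w‖ ^ 4 := by
  have tf := tendsto_fst0
  have hθO : (fun w : ℂ × ℂ => θ w.1 - deriv θ 0 * w.1) =O[𝓝 0] fun w => ‖w‖ ^ 2 := by
    have h1 := (sub_one_jet hθ hθ0).comp_tendsto tf
    have h2 : (fun w : ℂ × ℂ => w.1 ^ 2) =O[𝓝 0] fun w => ‖w‖ ^ 2 := by
      have := norm_fst_bigO.pow 2
      simpa using this
    exact h1.trans h2
  have hL1 : (fun w : ℂ × ℂ => w.2 + deriv θ 0 * w.1) =O[𝓝 0] fun w => ‖w‖ ^ 1 :=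
    norm_snd_bigO.add (norm_fst_bigO.const_mul_left _)
  have hL : (fun w : ℂ × ℂ => w.2 + θ w.1) =O[𝓝 0] fun w => ‖w‖ ^ 1 := by
    have h1 := hL1.add (hθO.trans (pow_bigO_pow (show 1 ≤ 2 by norm_num)))
    refine h1.congr_left fun w => ?_
    ring
  have hu1 : u =O[𝓝 0] fun _ => (1 : ℝ) := hu.continuousAt.tendsto.isBigO_one ℝ
  have hud : (fun w : ℂ × ℂ => u w - u 0) =O[𝓝 0] fun w => ‖w‖ ^ 1 := by
    have := hu.differentiableAt.isBigO_sub
    refine this.trans ?_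
    refine IsBigO.of_bound 1 (Eventually.of_forall fun w => ?_)
    simp
  have hb1 : (fun w : ℂ × ℂ => b₄ w.1) =O[𝓝 0] fun _ => (1 : ℝ) :=
    (hb.continuousAt.tendsto.isBigO_one ℝ).comp_tendsto tf
  have hc1 : (fun w : ℂ × ℂ => c₆ w.1) =O[𝓝 0] fun _ => (1 : ℝ) :=
    (hc.continuousAt.tendsto.isBigO_one ℝ).comp_tendsto tf
  have e1 : (fun w : ℂ × ℂ => φ w - u 0 * (w.2 + deriv θ 0 * w.1) ^ 3) =ᶠ[𝓝 0] fun w =>
      (u w - u 0) * (w.2 + θ w.1) ^ 3 +
      u 0 * ((θ w.1 - deriv θ 0 * w.1) * ((w.2 + θ w.1) ^ 2 +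
        (w.2 + θ w.1) * (w.2 + deriv θ 0 * w.1) + (w.2 + deriv θ 0 * w.1) ^ 2)) +
      u w * (w.1 ^ 4 * b₄ w.1 * (w.2 + θ w.1) + w.1 ^ 6 * c₆ w.1) := by
    filter_upwards [h] with w hw
    rw [hw]
    ring
  refine IsBigO.congr' ?_ e1.symm EventuallyEq.rfl
  have f1 : (fun w : ℂ × ℂ => w.1) =O[𝓝 0] fun w => ‖w‖ ^ 1 := norm_fst_bigO
  refine IsBigO.add (IsBigO.add ?_ ?_) ?_
  · refine (hud.mul (hL.pow 3)).congr_right fun w => ?_
    ring
  · apply IsBigO.const_mul_left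
    have h1 : (fun w : ℂ × ℂ => (w.2 + θ w.1) ^ 2 +
        (w.2 + θ w.1) * (w.2 + deriv θ 0 * w.1) + (w.2 + deriv θ 0 * w.1) ^ 2) =O[𝓝 0]
        fun w => ‖w‖ ^ 2 := by
      refine IsBigO.add (IsBigO.add ?_ ?_) ?_
      · refine (hL.pow 2).congr_right fun w => ?_
        ring
      · refine (hL.mul hL1).congr_right fun w => ?_
        ring
      · refine (hL1.pow 2).congr_right fun w => ?_
        ring
    refine (hθO.mul h1).congr_right fun w => ?_
    ring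
  · have h1 : (fun w : ℂ × ℂ => w.1 ^ 4 * b₄ w.1 * (w.2 + θ w.1) + w.1 ^ 6 * c₆ w.1) =O[𝓝 0]
        fun w => ‖w‖ ^ 4 := by
      refine IsBigO.add ?_ ?_
      · refine (((f1.pow 4).mul hb1).mul hL).trans ?_
        refine (pow_bigO_pow (show 4 ≤ 5 by norm_num)).congr_left fun w => ?_
        ring
      · refine ((f1.pow 6).mul hc1).trans ?_
        refine (pow_bigO_pow (show 4 ≤ 6 by norm_num)).congr_left fun w => ?_
        ring
    refine (hu1.mul h1).congr_right fun w => ?_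
    ring

/-- for a germ of the shape `Dcp` which is log canonical and not klt, the cubic part is a cube -/
theorem cube_or {f : E3 → ℂ} (hf : LC0 f) {φ : ℂ × ℂ → ℂ} (hR : Red f φ) {a b c d : ℂ}
    (hk : (fun q : ℂ × ℂ => φ q - kf a b c d q) =O[𝓝 0] fun q => ‖q‖ ^ 4) :
    (a = 0 ∧ b = 0 ∧ c = 0 ∧ d = 0 ∧
      ∀ e : (ℂ × ℂ) ≃L[ℂ] (ℂ × ℂ), ¬ ∃ C : ℝ, ∀ᶠ w in 𝓝 (0 : ℂ × ℂ),
        ‖φ (e w)‖ ≤ C * (‖w.2‖ ^ 3 * ‖w‖ + ‖w‖ ^ 5)) ∨
    ((∃ m α β : ℂ, m ≠ 0 ∧ (α ≠ 0 ∨ β ≠ 0) ∧ ∀ q : ℂ × ℂ, kf a b c d q = m * (α * q.1 + β * q.2) ^ 3) ∧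
      ∀ e : (ℂ × ℂ) ≃L[ℂ] (ℂ × ℂ), kf a b c d (e (0, 1)) ≠ 0 →
        ∃ (u : ℂ × ℂ → ℂ) (θ b₄ c₆ : ℂ → ℂ), AnalyticAt ℂ u 0 ∧ u 0 ≠ 0 ∧ AnalyticAt ℂ θ 0 ∧
          θ 0 = 0 ∧ AnalyticAt ℂ b₄ 0 ∧ AnalyticAt ℂ c₆ 0 ∧ (b₄ 0 ≠ 0 ∨ c₆ 0 ≠ 0) ∧
          (∀ᶠ w in 𝓝 (0 : ℂ × ℂ), φ (e w) =
            u w * ((w.2 + θ w.1) ^ 3 + w.1 ^ 4 * b₄ w.1 * (w.2 + θ w.1) + w.1 ^ 6 * c₆ w.1)) ∧
          ∀ w, kf a b c d (e w) = u 0 * (w.2 + deriv θ 0 * w.1) ^ 3) := by
  have hkO : (fun q : ℂ × ℂ => kf a b c d q) =O[𝓝 0] fun q => ‖q‖ ^ 3 := by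
    have f1 := norm_fst_bigO
    have f2 := norm_snd_bigO
    refine IsBigO.add (IsBigO.add (IsBigO.add ?_ ?_) ?_) ?_
    · refine ((f1.pow 3).const_mul_left a).congr_right fun w => ?_
      ring
    · refine (((f1.pow 2).const_mul_left b).mul f2).congr_right fun w => ?_
      ring
    · refine ((f1.const_mul_left c).mul (f2.pow 2)).congr_right fun w => ?_
      ring
    · refine ((f2.pow 3).const_mul_left d).congr_right fun w => ?_
      ring
  have h3 : (fun q : ℂ × ℂ => φ q) =O[𝓝 0] fun q => ‖q‖ ^ 3 := by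
    have := (hk.trans (pow_bigO_pow (show 3 ≤ 4 by norm_num))).add hkO
    refine this.congr_left fun q => ?_
    ring
  obtain ⟨C₃, hC₃⟩ := h3.bound
  have hC₃' : ∀ᶠ w in 𝓝 (0 : ℂ × ℂ), ‖φ w‖ ≤ C₃ * ‖w‖ ^ 3 := by
    filter_upwards [hC₃] with w hw
    rwa [norm_pow, norm_norm] at hw
  -- pull back of the comparison by a linear map
  have hke : ∀ e : (ℂ × ℂ) ≃L[ℂ] (ℂ × ℂ),
      (fun w : ℂ × ℂ => φ (e w) - kf a b c d (e w)) =O[𝓝 0] fun w => ‖w‖ ^ 4 := by
    intro e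
    have te : Tendsto e (𝓝 0) (𝓝 0) := by
      have := e.continuous.tendsto 0
      rwa [map_zero] at this
    refine (hk.comp_tendsto te).trans ?_
    refine IsBigO.of_bound (‖(e : (ℂ × ℂ) →L[ℂ] (ℂ × ℂ))‖ ^ 4) (Eventually.of_forall fun w => ?_)
    simp only [Function.comp, norm_pow, norm_norm]
    rw [← mul_pow]
    gcongr
    exact (e : (ℂ × ℂ) →L[ℂ] (ℂ × ℂ)).le_opNorm w
  rcases cl2 hf.iso hR hC₃' hf.nklt hf.lc with ⟨⟨C, hC⟩, h2⟩ | ⟨⟨e₀, he₀⟩, h2⟩
  · left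
    have h4 : (fun q : ℂ × ℂ => φ q) =O[𝓝 0] fun q => ‖q‖ ^ 4 := by
      refine IsBigO.of_bound C ?_
      filter_upwards [hC] with q hq
      rwa [norm_pow, norm_norm]
    have h5 : (fun q : ℂ × ℂ => kf a b c d q) =O[𝓝 0] fun q => ‖q‖ ^ (3 + 1) := by
      refine (h4.sub hk).congr_left fun q => ?_
      ring
    obtain ⟨ha, hb, hc, hd⟩ := kf_eq_zero (hom_zero (kf_smul a b c d) h5)
    exact ⟨ha, hb, hc, hd, h2⟩
  · right
    -- the cubic form in the coordinates `e`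
    have key : ∀ (e : (ℂ × ℂ) ≃L[ℂ] (ℂ × ℂ)) (u : ℂ × ℂ → ℂ) (θ b₄ c₆ : ℂ → ℂ), AnalyticAt ℂ u 0 →
        AnalyticAt ℂ θ 0 → θ 0 = 0 → AnalyticAt ℂ b₄ 0 → AnalyticAt ℂ c₆ 0 →
        (∀ᶠ w in 𝓝 (0 : ℂ × ℂ), φ (e w) =
            u w * ((w.2 + θ w.1) ^ 3 + w.1 ^ 4 * b₄ w.1 * (w.2 + θ w.1) + w.1 ^ 6 * c₆ w.1)) →
        ∀ w, kf a b c d (e w) = u 0 * (w.2 + deriv θ 0 * w.1) ^ 3 := by
      intro e u θ b₄ c₆ hu hθ hθ0 hb hc he w
      have h4 := jet_case2 hu hθ hθ0 hb hc he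
      have h5 : (fun w : ℂ × ℂ => kf a b c d (e w) - u 0 * (w.2 + deriv θ 0 * w.1) ^ 3) =O[𝓝 0]
          fun w => ‖w‖ ^ (3 + 1) := by
        refine (h4.sub (hke e)).congr_left fun q => ?_
        ring
      have h6 := hom_zero (F := fun w : ℂ × ℂ =>
        kf a b c d (e w) - u 0 * (w.2 + deriv θ 0 * w.1) ^ 3) (m := 3) (fun t q => by
          simp only [map_smul, kf_smul, Prod.smul_fst, Prod.smul_snd, smul_eq_mul]
          ring) h5 w
      linear_combination h6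
    refine ⟨?_, ?_⟩
    · obtain ⟨u, θ, b₄, c₆, hu, hu0, hθ, hθ0, hb, hc, hbc, he⟩ := h2 e₀ he₀
      have h4 := key e₀ u θ b₄ c₆ hu hθ hθ0 hb hc he
      set L : (ℂ × ℂ) → ℂ := fun q => (e₀.symm q).2 + deriv θ 0 * (e₀.symm q).1 with hL
      have hLe : ∀ q : ℂ × ℂ, L q = L (1, 0) * q.1 + L (0, 1) * q.2 := by
        intro q
        have e1 : q = q.1 • ((1, 0) : ℂ × ℂ) + q.2 • ((0, 1) : ℂ × ℂ) := by
          simp
        have e2 : e₀.symm q = q.1 • e₀.symm (1, 0) + q.2 • e₀.symm (0, 1) := by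
          conv_lhs => rw [e1]
          rw [map_add, map_smul, map_smul]
        simp only [hL, e2, Prod.fst_add, Prod.snd_add, Prod.smul_fst, Prod.smul_snd, smul_eq_mul]
        ring
      refine ⟨u 0, L (1, 0), L (0, 1), hu0, ?_, fun q => ?_⟩
      · by_contra hcon
        push Not at hcon
        have h5 := hLe (e₀ (0, 1))
        rw [hcon.1, hcon.2, zero_mul, zero_mul, add_zero] at h5
        simp only [hL, ContinuousLinearEquiv.symm_apply_apply, mul_zero, add_zero] at h5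
        exact one_ne_zero h5
      · rw [← hLe q]
        have h5 := h4 (e₀.symm q)
        rw [ContinuousLinearEquiv.apply_symm_apply] at h5
        exact h5
    · intro e he
      have hord : analyticOrderAt (fun y : ℂ => φ (e (0, y))) 0 = 3 := by
        have ty : Tendsto (fun y : ℂ => ((0, y) : ℂ × ℂ)) (𝓝 0) (𝓝 0) :=
          (by fun_prop : Continuous (fun y : ℂ => ((0, y) : ℂ × ℂ))).tendsto' _ _ rfl
        have hφe : AnalyticAt ℂ (fun y : ℂ => φ (e (0, y))) 0 := by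
          have h1 : AnalyticAt ℂ (fun y : ℂ => e ((0, y) : ℂ × ℂ)) 0 :=
            AnalyticAt.comp (g := e) (f := fun y : ℂ => ((0, y) : ℂ × ℂ)) (e.analyticAt _)
              (analyticAt_const.prod analyticAt_id)
          refine AnalyticAt.comp (g := φ) (f := fun y : ℂ => e ((0, y) : ℂ × ℂ)) ?_ h1
          have : e ((0, 0) : ℂ × ℂ) = 0 := map_zero e
          rw [this]
          exact hR.1
        have h4 : AnalyticAt ℂ (fun y : ℂ => φ (e (0, y)) - y ^ 3 * kf a b c d (e (0, 1))) 0 :=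
          hφe.sub ((analyticAt_id.pow 3).mul analyticAt_const)
        obtain ⟨C, hC⟩ := ((hke e).comp_tendsto ty).bound
        have h5 : ∀ᶠ y in 𝓝 (0 : ℂ), ‖φ (e (0, y)) - y ^ 3 * kf a b c d (e (0, 1))‖ ≤
            C * ‖y‖ ^ 4 := by
          filter_upwards [hC] with y hy
          simp only [Function.comp] at hy
          have e1 : kf a b c d (e (0, y)) = y ^ 3 * kf a b c d (e (0, 1)) := by
            rw [← kf_smul, ← map_smul]
            simp
          rw [e1, norm_pow, norm_norm] at hy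
          have e2 : ‖((0, y) : ℂ × ℂ)‖ = ‖y‖ := by simp [Prod.norm_def]
          rw [e2] at hy
          exact hy
        obtain ⟨g, hg, hge⟩ := exists_pow_mul_of_bound h4 h5
        have h6 : analyticOrderAt (fun y : ℂ => φ (e (0, y))) 0 = ((3 : ℕ) : ℕ∞) := by
          rw [hφe.analyticOrderAt_eq_natCast]
          refine ⟨fun y => kf a b c d (e (0, 1)) + y * g y, analyticAt_const.add
            (analyticAt_id.mul hg), by simpa using he, ?_⟩
          filter_upwards [hge] with y hy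
          rw [sub_zero, smul_eq_mul]
          linear_combination hy
        exact_mod_cast h6
      obtain ⟨u, θ, b₄, c₆, hu, hu0, hθ, hθ0, hb, hc, hbc, hee⟩ := h2 e hord
      exact ⟨u, θ, b₄, c₆, hu, hu0, hθ, hθ0, hb, hc, hbc, hee, key e u θ b₄ c₆ hu hθ hθ0 hb hc hee⟩

/-- the 3-jet of the critical value -/
lemma jet_crit {w : E2 → ℂ} (hw : AnalyticAt ℂ w 0) (hw0 : ∀ i j, i + j ≤ 2 → cf w i j = 0)
    {φ : ℂ × ℂ → ℂ} (h : (fun q : ℂ × ℂ => φ q - w (pt q)) =O[𝓝 0] fun q => ‖q‖ ^ 4) :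
    (fun q : ℂ × ℂ => φ q - kf (cf w 3 0) (cf w 2 1) (cf w 1 2) (cf w 0 3) q) =O[𝓝 0]
      fun q => ‖q‖ ^ 4 := by
  refine (h.add (cubic_expansion hw hw0)).congr_left fun q => ?_
  simp only [kf]
  ring

/-- **(B0)** of `LcxDefs_759` -/
theorem cubeStmt : CubeStmt := by
  intro f A u v w hf hD
  obtain ⟨φ, hR, h1, -⟩ := crit_value hf.iso.an hf.iso.zero A hD
  rcases cube_or hf hR (jet_crit hD.aw hD.w0 h1) with ⟨h30, h21, h12, h03, -⟩ | ⟨⟨m, α, β, -, -, hq⟩, -⟩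
  · rw [h30, h21, h12, h03]
    simp
  · have e1 := hq (1, 0)
    have e2 := hq (0, 1)
    have e3 := hq (1, 1)
    have e4 := hq (1, -1)
    simp only [kf] at e1 e2 e3 e4
    have h30 : cf w 3 0 = m * α ^ 3 := by linear_combination e1
    have h03 : cf w 0 3 = m * β ^ 3 := by linear_combination e2
    have h21 : cf w 2 1 = 3 * m * α ^ 2 * β := by
      linear_combination (e3 - e4) / 2 - h03
    have h12 : cf w 1 2 = 3 * m * α * β ^ 2 := by
      linear_combination (e3 + e4) / 2 - h30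
    rw [h30, h21, h12, h03]
    refine ⟨?_, ?_, ?_⟩ <;> ring

end Crest.Agent.R257.Cl2F_475
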