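import Crest.Agent.R257.Cmp2_101
import Crest.Agent.R257.Bridge_822
import Crest.Agent.R257.V1Top_822

-- ▼ part R257/Cmp3_101
section

/-!
# Row 257 (S0395), leaf CMP (helper101), part 3: Stokes at the end of `M`, comparison

`X = tsupport chi`, `X ∩ {c ≤ w}` compact for all `c` ("the end" is `w → -∞`).
* `stokes_end` : `∫ f ∂∂̄a ∧ ∂∂̄b = ∫ a ∂∂̄f ∧ ∂∂̄b` if `f = 0` off `X` and `∂∂̄b = 0` at the end
* `stokes_end_one`
* `compare`    : `∫ chi H(a - b) (∂∂̄a)² ≤ ∫ chi H(a - b) (∂∂̄b)²`
-/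

set_option autoImplicit false
set_option linter.unusedSectionVars false

open Set Filter Topology Complex MeasureTheory
open scoped ContDiff Matrix ComplexConjugate ComplexOrder

namespace Crest.Agent.R257.Cmp3_101

open Crest.Agent.R275.Geo
open Crest.Agent.R275.Core144 Crest.Agent.R273
open Crest.Agent.R273.Hess_333 Crest.Agent.R273.HessB_333 Crest.Agent.R273.Kah_333
open Crest.Agent.R273.StokesV_332
open Crest.Agent.R257.C2F1_625
open Crest.Agent.R257.GBL1_625 (hc hc_ofReal hc_add)
open Crest.Agent.R257.Cmp1_101 Crest.Agent.R257.Cmp2_101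
open Crest.Agent.R257.GBLcut_844 (pd_nonneg pd_im_zero pd_herm_im)

noncomputable section

variable {M : Type} [TopologicalSpace M] [T2Space M] {B : Atl 2 M}

theorem pd_zero (X : Matrix (Fin 2) (Fin 2) ℂ) : pd X 0 = 0 := by simp [pd]
theorem zero_pd (X : Matrix (Fin 2) (Fin 2) ℂ) : pd 0 X = 0 := by simp [pd]

/-- monotonicity of the integral -/
theorem re_intD_le (P : Part B) {f g : B.ι → M → ℂ} (hf : Den B f) (hg : Den B g) {K : Set M}
    (hK : IsCompact K) (h0 : OffK B f K) (h0' : OffK B g K)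
    (hle : ∀ i, ∀ x ∈ (B.e i).source, (f i x).re ≤ (g i x).re ∧ (f i x).im = (g i x).im) :
    (intD P f).re ≤ (intD P g).re := by
  have hd : Den B (fun i x => g i x - f i x) := by
    have := hg.add (hf.smul (-1))
    refine ⟨fun i => ?_, fun i j x hx => ?_⟩
    · have h1 := this.sm i
      refine h1.congr fun z _ => ?_
      ring
    · have h1 := this.tr i j x hx
      linear_combination h1
  have hoff : OffK B (fun i x => g i x - f i x) K := fun i x hx hxK => by
    show g i x - f i x = 0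
    rw [h0 i x hx hxK, h0' i x hx hxK, sub_zero]
  have h1 := intD_nonneg P hd (fun i x hx => by
    rw [Complex.sub_re, Complex.sub_im]
    obtain ⟨h1, h2⟩ := hle i x hx
    exact ⟨by linarith, by rw [h2, sub_self]⟩) hK hoff
  rw [intD_sub P hg.sm hf.sm hK h0' h0, Complex.sub_re] at h1
  linarith [h1.1]

theorem hsf_zero_of_eventually {a : M → ℝ} {c : ℝ} {i : B.ι} {x : M} (hx : x ∈ (B.e i).source)
    (h : ∀ᶠ y in 𝓝 x, a y = c) : hsf B a i x = 0 := by
  rw [hsf_congr hx (b := fun _ => c) h, hsf_const]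

theorem hsf_add {a b : M → ℝ} (ha : B.Sm a) (hb : B.Sm b) {i : B.ι} {x : M}
    (hx : x ∈ (B.e i).source) : hsf B (fun y => a y + b y) i x = hsf B a i x + hsf B b i x :=
  hess_add (sm_contDiffAt ha i ((B.e i).map_source hx))
    (sm_contDiffAt hb i ((B.e i).map_source hx))

theorem hsf_sub {a b : M → ℝ} (ha : B.Sm a) (hb : B.Sm b) {i : B.ι} {x : M}
    (hx : x ∈ (B.e i).source) : hsf B (fun y => a y - b y) i x = hsf B a i x - hsf B b i x :=
  hess_sub (sm_contDiffAt ha i ((B.e i).map_source hx))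
    (sm_contDiffAt hb i ((B.e i).map_source hx))

theorem hsf_const_mul {a : M → ℝ} (ha : B.Sm a) (c : ℝ) {i : B.ι} {x : M}
    (hx : x ∈ (B.e i).source) : hsf B (fun y => c * a y) i x = (c : ℂ) • hsf B a i x :=
  hess_const_mul c (sm_contDiffAt ha i ((B.e i).map_source hx))

theorem sm_add {a b : M → ℝ} (ha : B.Sm a) (hb : B.Sm b) : B.Sm (fun x => a x + b x) :=
  fun i => (ha i).add (hb i)

theorem sm_sub {a b : M → ℝ} (ha : B.Sm a) (hb : B.Sm b) : B.Sm (fun x => a x - b x) :=
  fun i => (ha i).sub (hb i)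

theorem sm_mul {a b : M → ℝ} (ha : B.Sm a) (hb : B.Sm b) : B.Sm (fun x => a x * b x) :=
  fun i => (ha i).mul (hb i)

theorem sm_cst (c : ℝ) : B.Sm (fun _ : M => c) := fun _ => contDiffOn_const

theorem cont {a : M → ℝ} (ha : B.Sm a) : Continuous a := YauMax_635.continuous_of_sm ha

/-- Stokes at the end -/
theorem stokes_end (P : Part B) {w f a b : M → ℝ} {X : Set M} (hX : IsClosed X) (hw : B.Sm w)
    (hcpt : ∀ c : ℝ, IsCompact (X ∩ {x | c ≤ w x})) (hf : B.Sm f) (hfX : ∀ x ∉ X, f x = 0)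
    (ha : B.Sm a) (hb : B.Sm b) {R₀ : ℝ} (hR : 0 < R₀)
    (hend : ∀ i, ∀ x ∈ (B.e i).source, x ∈ X → w x < -R₀ → hsf B b i x = 0) :
    intD P (fun i x => (f x : ℂ) * pd (hsf B a i x) (hsf B b i x))
      = intD P (fun i x => (a x : ℂ) * pd (hsf B f i x) (hsf B b i x)) := by
  set R : ℝ := R₀ + 1 with hRd
  have hR1 : 0 < R := by linarith
  set θ : M → ℝ := fun x => f x * th (w x / R) with hθd
  have hwR : B.Sm (fun x => w x / R) := fun i => (hw i).div_const R
  have hθ : B.Sm θ := sm_mul hf (sm_comp th_sm hwR)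
  have hθ0 : ∀ x, x ∉ X ∩ {x | -(2 * R) ≤ w x} → θ x = 0 := by
    intro x hx
    by_cases hxX : x ∈ X
    · have h1 : w x < -(2 * R) := by
        by_contra h
        exact hx ⟨hxX, not_lt.1 h⟩
      have h2 : th (w x / R) = 0 := by
        apply th_zero
        rw [div_le_iff₀ hR1]
        linarith
      simp only [hθd, h2, mul_zero]
    · simp only [hθd, hfX x hxX, zero_mul]
  have h1 := stokes_pd P hθ ha hb (hcpt (-(2 * R))) hθ0
  have e1 : intD P (fun i x => (f x : ℂ) * pd (hsf B a i x) (hsf B b i x))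
      = intD P (fun i x => (θ x : ℂ) * pd (hsf B a i x) (hsf B b i x)) := by
    refine intD_congr P fun i x hx => ?_
    by_cases hxX : x ∈ X
    · by_cases hwx : w x < -R₀
      · rw [hend i x hx hxX hwx, pd_zero, mul_zero, mul_zero]
      · have h2 : th (w x / R) = 1 := by
          apply th_one
          rw [le_div_iff₀ hR1]
          linarith
        simp only [hθd, h2, mul_one]
    · simp only [hθd, hfX x hxX, zero_mul]
  have e2 : intD P (fun i x => (a x : ℂ) * pd (hsf B θ i x) (hsf B b i x))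
      = intD P (fun i x => (a x : ℂ) * pd (hsf B f i x) (hsf B b i x)) := by
    refine intD_congr P fun i x hx => ?_
    by_cases hxX : x ∈ X
    · by_cases hwx : w x < -R₀
      · rw [hend i x hx hxX hwx, pd_zero, pd_zero]
      · have h2 : θ =ᶠ[𝓝 x] f := by
          have h3 : -R < w x := by linarith
          filter_upwards [(cont hw).continuousAt.eventually (lt_mem_nhds h3)] with y hy
          have h4 : th (w y / R) = 1 := by
            apply th_one
            rw [le_div_iff₀ hR1]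
            linarith
          simp only [hθd, h4, mul_one]
        rw [hsf_congr hx h2]
    · have h2 : ∀ᶠ y in 𝓝 x, f y = 0 := by
        filter_upwards [hX.isOpen_compl.mem_nhds hxX] with y hy
        exact hfX y hy
      have h3 : ∀ᶠ y in 𝓝 x, θ y = 0 := by
        filter_upwards [h2] with y hy
        simp only [hθd, hy, zero_mul]
      rw [hsf_zero_of_eventually hx h2, hsf_zero_of_eventually hx h3]
  rw [e1, h1, e2]

theorem stokes_end_one (P : Part B) {w f b : M → ℝ} {X : Set M} (hX : IsClosed X) (hw : B.Sm w)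
    (hcpt : ∀ c : ℝ, IsCompact (X ∩ {x | c ≤ w x})) (hf : B.Sm f) (hfX : ∀ x ∉ X, f x = 0)
    (hb : B.Sm b) {R₀ : ℝ} (hR : 0 < R₀)
    (hend : ∀ i, ∀ x ∈ (B.e i).source, x ∈ X → w x < -R₀ → hsf B b i x = 0) :
    intD P (fun i x => pd (hsf B f i x) (hsf B b i x)) = 0 := by
  have h1 := stokes_end P hX hw hcpt hf hfX (sm_cst 1) hb hR hend
  have e1 : intD P (fun i x => (f x : ℂ) * pd (hsf B (fun _ => (1 : ℝ)) i x) (hsf B b i x)) = 0 := by
    rw [← intD_zero P]
    refine intD_congr P fun i x _ => ?_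
    rw [hsf_const, zero_pd, mul_zero]
  rw [e1] at h1
  rw [h1]
  exact intD_congr P fun i x _ => by simp

/-- the transition function -/
def st (s : ℝ) : ℝ := Real.smoothTransition s

theorem st_sm : ContDiff ℝ ∞ st := Real.smoothTransition.contDiff

/-- **comparison**: `∫ chi H(a - b) (∂∂̄a)² ≤ ∫ chi H(a - b) (∂∂̄b)²` -/
theorem compare (P : Part B) {w chi a b : M → ℝ} (hw : B.Sm w) (hchi : B.Sm chi)
    (hcpt : ∀ c : ℝ, IsCompact (tsupport chi ∩ {x | c ≤ w x})) {c₀ : ℝ}
    (hone : ∀ x ∈ tsupport chi, w x < c₀ → ∀ᶠ y in 𝓝 x, chi y = 1)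
    (ha : B.Sm a) (hb : B.Sm b)
    (pa : ∀ i, ∀ x ∈ (B.e i).source, (hsf B a i x).PosSemidef)
    (pb : ∀ i, ∀ x ∈ (B.e i).source, (hsf B b i x).PosSemidef)
    (hneg : ∀ x ∈ tsupport chi, c₀ ≤ w x → a x - b x < 0) {R₀ : ℝ} (hR : 0 < R₀)
    (ea : ∀ i, ∀ x ∈ (B.e i).source, x ∈ tsupport chi → w x < -R₀ → hsf B a i x = 0)
    (eb : ∀ i, ∀ x ∈ (B.e i).source, x ∈ tsupport chi → w x < -R₀ → hsf B b i x = 0) :
    (intD P (fun i x => ((chi x * st (a x - b x) : ℝ) : ℂ) *
      pd (hsf B a i x) (hsf B a i x))).re ≤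
    (intD P (fun i x => ((chi x * st (a x - b x) : ℝ) : ℂ) *
      pd (hsf B b i x) (hsf B b i x))).re := by
  have hX : IsClosed (tsupport chi) := isClosed_tsupport chi
  set φ : M → ℝ := fun x => a x - b x with hφd
  have hφ : B.Sm φ := sm_sub ha hb
  set h : M → ℝ := fun x => chi x * st (φ x) with hh
  set q : M → ℝ := fun x => chi x * Qp (φ x) with hq
  have hhs : B.Sm h := sm_mul hchi (sm_comp st_sm hφ)
  have hqs : B.Sm q := sm_mul hchi (sm_comp Qp_sm hφ)
  have hchi0 : ∀ x ∉ tsupport chi, chi x = 0 := fun x hx => image_eq_zero_of_notMem_tsupport hx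
  have hab : B.Sm (fun x => a x + b x) := sm_add ha hb
  have hS : ∀ i, ∀ x ∈ (B.e i).source, hsf B (fun x => a x + b x) i x
      = hsf B a i x + hsf B b i x := fun i x hx => hsf_add ha hb hx
  -- Stokes
  have h1 : intD P (fun i x => pd (hsf B q i x) (hsf B (fun x => a x + b x) i x)) = 0 :=
    stokes_end_one P hX hw hcpt hqs (fun x hx => by simp only [hq, hchi0 x hx, zero_mul]) hab hR
      fun i x hx hxX hwx => by rw [hS i x hx, ea i x hx hxX hwx, eb i x hx hxX hwx, add_zero]
  -- the Hessian of `q`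
  have key : ∀ i, ∀ x ∈ (B.e i).source,
      (hsf B q i x - (h x : ℂ) • hsf B φ i x).PosSemidef := by
    intro i x hx
    by_cases hxX : x ∈ tsupport chi
    · by_cases hwx : w x < c₀
      · have h2 := hone x hxX hwx
        have e1 : q =ᶠ[𝓝 x] fun y => Qp (φ y) := by
          filter_upwards [h2] with y hy
          simp only [hq, hy, one_mul]
        have e2 : h x = Real.smoothTransition (φ x) := by
          simp only [hh, h2.self_of_nhds, one_mul]; rfl
        rw [hsf_congr hx e1, e2]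
        exact hsf_psd_cv Qp_sm Qp_deriv st_hasDeriv st_deriv_nonneg hφ i hx
      · have h2 : φ x < 0 := hneg x hxX (not_lt.1 hwx)
        have e1 : ∀ᶠ y in 𝓝 x, q y = 0 := by
          filter_upwards [(cont hφ).continuousAt.eventually (gt_mem_nhds h2)] with y hy
          simp only [hq, Qp_zero hy.le, mul_zero]
        have e2 : h x = 0 := by
          simp only [hh, st, Real.smoothTransition.zero_of_nonpos h2.le, mul_zero]
        rw [hsf_zero_of_eventually hx e1, e2]
        simpa using Matrix.PosSemidef.zero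
    · have e1 : ∀ᶠ y in 𝓝 x, q y = 0 := by
        filter_upwards [hX.isOpen_compl.mem_nhds hxX] with y hy
        simp only [hq, hchi0 y hy, zero_mul]
      have e2 : h x = 0 := by simp only [hh, hchi0 x hxX, zero_mul]
      rw [hsf_zero_of_eventually hx e1, e2]
      simpa using Matrix.PosSemidef.zero
  -- supports
  set K : Set M := tsupport chi ∩ {x | -R₀ ≤ w x} with hK
  have hKc : IsCompact K := hcpt _
  have hcase : ∀ i, ∀ x ∈ (B.e i).source, x ∉ K →
      (h x = 0 ∧ hsf B q i x = 0) ∨ (hsf B a i x = 0 ∧ hsf B b i x = 0) := by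
    intro i x hx hxK
    by_cases hxX : x ∈ tsupport chi
    · have hwx : w x < -R₀ := by
        by_contra h2
        exact hxK ⟨hxX, not_lt.1 h2⟩
      exact Or.inr ⟨ea i x hx hxX hwx, eb i x hx hxX hwx⟩
    · refine Or.inl ⟨by simp only [hh, hchi0 x hxX, zero_mul], hsf_zero_of_eventually hx (c := 0) ?_⟩
      filter_upwards [hX.isOpen_compl.mem_nhds hxX] with y hy
      simp only [hq, hchi0 y hy, zero_mul]
  have offa : OffK B (fun i x => (h x : ℂ) * pd (hsf B a i x) (hsf B a i x)) K := by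
    intro i x hx hxK
    show (h x : ℂ) * pd (hsf B a i x) (hsf B a i x) = 0
    rcases hcase i x hx hxK with h2 | h2
    · rw [h2.1]; simp
    · rw [h2.1, pd_zero, mul_zero]
  have offb : OffK B (fun i x => (h x : ℂ) * pd (hsf B b i x) (hsf B b i x)) K := by
    intro i x hx hxK
    show (h x : ℂ) * pd (hsf B b i x) (hsf B b i x) = 0
    rcases hcase i x hx hxK with h2 | h2
    · rw [h2.1]; simp
    · rw [h2.2, pd_zero, mul_zero]
  have offq : OffK B (fun i x => pd (hsf B q i x) (hsf B (fun x => a x + b x) i x)) K := by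
    intro i x hx hxK
    show pd (hsf B q i x) (hsf B (fun x => a x + b x) i x) = 0
    rw [hS i x hx]
    rcases hcase i x hx hxK with h2 | h2
    · rw [h2.2, zero_pd]
    · rw [h2.1, h2.2, add_zero, pd_zero]
  have dq : Den B (fun i x => pd (hsf B q i x) (hsf B (fun x => a x + b x) i x)) := by
    have := den_pdh (sm_cst (B := B) 1) hqs hab
    refine ⟨fun i => (this.sm i).congr fun z _ => by simp, fun i j x hx => ?_⟩
    have h2 := this.tr i j x hx
    simpa using h2
  have dsum : Den B (fun i x => (h x : ℂ) * pd (hsf B a i x) (hsf B a i x)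
      + (-1) * pd (hsf B q i x) (hsf B (fun x => a x + b x) i x)) :=
    (den_pdh hhs ha ha).add (dq.smul (-1))
  have hoff2 : OffK B (fun i x => (h x : ℂ) * pd (hsf B a i x) (hsf B a i x)
      + (-1) * pd (hsf B q i x) (hsf B (fun x => a x + b x) i x)) K := by
    intro i x hx hxK
    have h2 := offa i x hx hxK
    have h3 := offq i x hx hxK
    simp only at h2 h3 ⊢
    rw [h2, h3]; simp
  have h3 := re_intD_le P dsum (den_pdh hhs hb hb) hKc hoff2 offb (by
    intro i x hx
    have hpd := pd_nonneg (key i x hx) ((pa i x hx).add (pb i x hx))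
    have hpi := pd_im_zero (key i x hx) ((pa i x hx).add (pb i x hx))
    have e1 : hsf B φ i x = hsf B a i x - hsf B b i x := hsf_sub ha hb hx
    have e2 : (h x : ℂ) * pd (hsf B b i x) (hsf B b i x) =
        ((h x : ℂ) * pd (hsf B a i x) (hsf B a i x)
          + (-1) * pd (hsf B q i x) (hsf B (fun x => a x + b x) i x))
        + pd (hsf B q i x - (h x : ℂ) • hsf B φ i x) (hsf B a i x + hsf B b i x) := by
      rw [hS i x hx, e1]
      simp only [pd, Matrix.add_apply, Matrix.sub_apply, Matrix.smul_apply, smul_eq_mul]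
      ring
    have e3 := congrArg Complex.re e2
    have e4 := congrArg Complex.im e2
    rw [Complex.add_re (_ + _) (pd _ _)] at e3
    rw [Complex.add_im (_ + _) (pd _ _), hpi, add_zero] at e4
    exact ⟨by linarith, e4.symm⟩)
  have h4 : intD P (fun i x => (h x : ℂ) * pd (hsf B a i x) (hsf B a i x)
      + (-1) * pd (hsf B q i x) (hsf B (fun x => a x + b x) i x))
      = intD P (fun i x => (h x : ℂ) * pd (hsf B a i x) (hsf B a i x)) := by
    have hoff3 : OffK B (fun i x => (-1) * pd (hsf B q i x) (hsf B (fun x => a x + b x) i x)) K :=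
      offq.mul_left fun _ _ => -1
    rw [intD_add P (den_pdh hhs ha ha).sm (dq.smul (-1)).sm hKc offa hoff3,
      intD_smul P (-1) hKc offq, h1, mul_zero, add_zero]
  rw [h4] at h3
  exact h3

end

end Crest.Agent.R257.Cmp3_101
end

-- ▼ part R257/Cmp4_101
section

/-!
# Row 257 (S0395), leaf CMP (helper101), part 4: comparison of residual masses

* `tot_trunc` : `∫ u (∂∂̄u) ∧ (∂∂̄chi) = ∫ chi (∂∂̄ kp K u)²` for `K` large
* `cmp`       : `u ≤ w + C` at the end, `(∂∂̄w)² = 0`:
  `∫ w ∂∂̄w ∧ ∂∂̄chi + ∫ zeta (∂∂̄u)² ≤ ∫ u ∂∂̄u ∧ ∂∂̄chi`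
-/

set_option autoImplicit false
set_option linter.unusedSectionVars false

open Set Filter Topology Complex MeasureTheory
open scoped ContDiff Matrix ComplexConjugate ComplexOrder

namespace Crest.Agent.R257.Cmp4_101

open Crest.Agent.R275.Geo
open Crest.Agent.R275.Core144 Crest.Agent.R273
open Crest.Agent.R273.Hess_333 Crest.Agent.R273.HessB_333 Crest.Agent.R273.Kah_333
open Crest.Agent.R273.StokesV_332
open Crest.Agent.R257.C2F1_625
open Crest.Agent.R257.Cmp1_101 Crest.Agent.R257.Cmp2_101 Crest.Agent.R257.Cmp3_101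
open Crest.Agent.R257.GBLcut_844 (pd_nonneg pd_im_zero pd_herm_im)

noncomputable section

variable {M : Type} [TopologicalSpace M] [T2Space M] {B : Atl 2 M}

/-- hypotheses on the outer cut-off function: `w → -∞` is the end -/
structure EndCut (B : Atl 2 M) (w chi : M → ℝ) (c₀ : ℝ) : Prop where
  smw : B.Sm w
  smc : B.Sm chi
  cpt : ∀ c : ℝ, IsCompact (tsupport chi ∩ {x | c ≤ w x})
  one : ∀ x ∈ tsupport chi, w x < c₀ → ∀ᶠ y in 𝓝 x, chi y = 1

variable {w chi : M → ℝ} {c₀ : ℝ}

theorem EndCut.hsf_chi (h : EndCut B w chi c₀) {i : B.ι} {x : M} (hx : x ∈ (B.e i).source)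
    (hn : ¬ (x ∈ tsupport chi ∧ c₀ ≤ w x)) : hsf B chi i x = 0 := by
  by_cases hxX : x ∈ tsupport chi
  · have h1 : w x < c₀ := by
      by_contra h2
      exact hn ⟨hxX, not_lt.1 h2⟩
    exact hsf_zero_of_eventually hx (h.one x hxX h1)
  · refine hsf_zero_of_eventually hx (c := 0) ?_
    filter_upwards [(isClosed_tsupport chi).isOpen_compl.mem_nhds hxX] with y hy
    exact image_eq_zero_of_notMem_tsupport hy

/-- a truncation of `u` has zero Hessian at the end -/
theorem EndCut.kp_end (h : EndCut B w chi c₀) {u : M → ℝ} {C K R₀ : ℝ}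
    (hle : ∀ x ∈ tsupport chi, u x ≤ w x + C) (hK : 0 < K) (hR : 2 * K + C ≤ R₀) (hRc : -R₀ ≤ c₀)
    {i : B.ι} {x : M} (hx : x ∈ (B.e i).source) (hxX : x ∈ tsupport chi) (hwx : w x < -R₀) :
    hsf B (fun y => kp K (u y)) i x = 0 := by
  refine hsf_zero_of_eventually hx (c := K * kap (-2)) ?_
  have h1 := h.one x hxX (hwx.trans_le hRc)
  filter_upwards [h1, (cont h.smw).continuousAt.eventually (gt_mem_nhds hwx)] with y hy hy2
  have h2 : y ∈ tsupport chi := subset_tsupport chi (by
    rw [Function.mem_support, hy]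
    exact one_ne_zero)
  have h3 := hle y h2
  exact kp_const hK (by linarith)

/-- `∫ u (∂∂̄u) ∧ (∂∂̄chi) = ∫ chi (∂∂̄ kp K u)²` for `K` large -/
theorem EndCut.tot_trunc (h : EndCut B w chi c₀) (P : Part B) {u : M → ℝ} (hu : B.Sm u) {C K : ℝ}
    (hle : ∀ x ∈ tsupport chi, u x ≤ w x + C) (hK : 0 < K)
    (hKu : ∀ x ∈ tsupport chi, c₀ ≤ w x → -K < u x) :
    intD P (fun i x => (u x : ℂ) * pd (hsf B u i x) (hsf B chi i x))
      = intD P (fun i x => (chi x : ℂ) * pd (hsf B (fun y => kp K (u y)) i x)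
        (hsf B (fun y => kp K (u y)) i x)) := by
  set a : M → ℝ := fun y => kp K (u y) with had
  have ha : B.Sm a := sm_comp (kp_sm K) hu
  set R₀ : ℝ := max (2 * K + C) (max (-c₀) 1) with hR
  have hR0 : 0 < R₀ := lt_of_lt_of_le one_pos ((le_max_right _ _).trans (le_max_right _ _))
  have hRc : -R₀ ≤ c₀ := by
    have := (le_max_left (-c₀) 1).trans (le_max_right (2 * K + C) _)
    linarith
  have h1 := stokes_end P (w := w) (f := chi) (a := a) (b := a) (isClosed_tsupport chi) h.smw h.cpt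
    h.smc (fun x hx => image_eq_zero_of_notMem_tsupport hx) ha ha hR0
    fun i x hx hxX hwx => h.kp_end hle hK (le_max_left _ _) hRc hx hxX hwx
  rw [h1]
  refine intD_congr P fun i x hx => ?_
  by_cases hn : x ∈ tsupport chi ∧ c₀ ≤ w x
  · have h2 : a =ᶠ[𝓝 x] u := by
      filter_upwards [(cont hu).continuousAt.eventually (lt_mem_nhds (hKu x hn.1 hn.2))] with y hy
      exact kp_id hK hy.le
    rw [hsf_congr hx h2, h2.self_of_nhds, pd_comm]
  · rw [h.hsf_chi hx hn, pd_zero, zero_pd, mul_zero, mul_zero]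

/-- **CMP**: comparison of residual masses -/
theorem cmp (P : Part B) {u w chi zeta : M → ℝ} (C : ℝ) {c₀ : ℝ} (hu : B.Sm u)
    (h : EndCut B w chi c₀) (hz : B.Sm zeta) (cz : HasCompactSupport zeta)
    (h0 : ∀ x, 0 ≤ zeta x) (hzc : ∀ x, zeta x ≤ chi x)
    (pu : ∀ i, ∀ x ∈ (B.e i).source, (hsf B u i x).PosSemidef)
    (pw : ∀ i, ∀ x ∈ (B.e i).source, (hsf B w i x).PosSemidef)
    (ww : ∀ i, ∀ x ∈ (B.e i).source, pd (hsf B w i x) (hsf B w i x) = 0)
    (hle : ∀ x ∈ tsupport chi, u x ≤ w x + C) :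
    (intD P (fun i x => (w x : ℂ) * pd (hsf B w i x) (hsf B chi i x))).re
      + (intD P (fun i x => (zeta x : ℂ) * pd (hsf B u i x) (hsf B u i x))).re
      ≤ (intD P (fun i x => (u x : ℂ) * pd (hsf B u i x) (hsf B chi i x))).re := by
  set Tw := (intD P (fun i x => (w x : ℂ) * pd (hsf B w i x) (hsf B chi i x))).re with hTw
  set Tu := (intD P (fun i x => (u x : ℂ) * pd (hsf B u i x) (hsf B chi i x))).re with hTu
  set Z := (intD P (fun i x => (zeta x : ℂ) * pd (hsf B u i x) (hsf B u i x))).re with hZ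
  have hchi0 : ∀ x, 0 ≤ chi x := fun x => (h0 x).trans (hzc x)
  -- the inequality for every `e`
  have main : ∀ e ∈ Ioo (0 : ℝ) 1, Tw ≤ (1 + e) ^ 2 * (Tu - Z) := by
    intro e he
    have he0 := he.1
    -- compact set
    set K0 : Set M := tsupport zeta ∪ (tsupport chi ∩ {x | c₀ ≤ w x}) with hK0
    have hK0c : IsCompact K0 := cz.isCompact.union (h.cpt c₀)
    obtain ⟨Bu, hBu⟩ := hK0c.exists_bound_of_continuousOn (cont hu).continuousOn
    obtain ⟨Bw, hBw⟩ := hK0c.exists_bound_of_continuousOn (cont h.smw).continuousOn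
    simp only [Real.norm_eq_abs] at hBu hBw
    set Bc : ℝ := |Bw| + 2 * |Bu| + 2 with hBc
    set L : ℝ := max ((2 * |C| + Bc + 1) / e) (|Bw| + 1) with hL
    set K : ℝ := max (2 * L + |C|) (|Bu| + 1) with hKd
    have hL1 : |Bw| + 1 ≤ L := le_max_right _ _
    have hL2 : (2 * |C| + Bc + 1) / e ≤ L := le_max_left _ _
    have hL0 : 0 < L := by linarith [abs_nonneg Bw]
    have hKK1 : 2 * L + |C| ≤ K := le_max_left _ _
    have hKK2 : |Bu| + 1 ≤ K := le_max_right _ _
    have hK1 : 0 < K := by linarith [abs_nonneg Bu]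
    set a : M → ℝ := fun y => kp L (w y) with had
    set uK : M → ℝ := fun y => kp K (u y) with huK
    set b : M → ℝ := fun y => (1 + e) * uK y + Bc with hbd
    have ha : B.Sm a := sm_comp (kp_sm L) h.smw
    have huKs : B.Sm uK := sm_comp (kp_sm K) hu
    have hb1 : B.Sm (fun y => (1 + e) * uK y) := sm_mul (sm_cst _) huKs
    have hb : B.Sm b := sm_add hb1 (sm_cst _)
    have hsfb : ∀ i, ∀ x ∈ (B.e i).source, hsf B b i x = ((1 + e : ℝ) : ℂ) • hsf B uK i x := by
      intro i x hx
      rw [hbd, hsf_add hb1 (sm_cst _) hx, hsf_const, add_zero, hsf_const_mul huKs _ hx]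
    have pa : ∀ i, ∀ x ∈ (B.e i).source, (hsf B a i x).PosSemidef := fun i x hx =>
      kp_psd hL0 h.smw i hx (pw i x hx)
    have puK : ∀ i, ∀ x ∈ (B.e i).source, (hsf B uK i x).PosSemidef := fun i x hx =>
      kp_psd hK1 hu i hx (pu i x hx)
    have pb : ∀ i, ∀ x ∈ (B.e i).source, (hsf B b i x).PosSemidef := fun i x hx => by
      rw [hsfb i x hx]
      exact psd_smul (puK i x hx) (by linarith)
    -- on `K0`
    have hK0u : ∀ x ∈ K0, -K < u x ∧ -L < w x ∧ a x - b x < 0 := by
      intro x hx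
      have h1 := abs_le.1 (hBu x hx)
      have h2 := abs_le.1 (hBw x hx)
      have h3 := le_abs_self Bu
      have h4 := le_abs_self Bw
      refine ⟨by linarith, by linarith, ?_⟩
      have h5 : a x = w x := kp_id hL0 (by linarith)
      have h6 : u x ≤ uK x := le_kp hK1 _
      have h7 : -(2 * |Bu|) ≤ (1 + e) * uK x := by
        have h8 : -|Bu| ≤ uK x := by linarith
        have h9 : 0 ≤ |Bu| := abs_nonneg _
        nlinarith [he.2]
      simp only [hbd]
      rw [h5]
      linarith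
    set R₀ : ℝ := max (2 * K + |C|) (max (2 * L) (max (-c₀) 1)) with hR
    have hRa : 2 * L ≤ R₀ := (le_max_left _ _).trans (le_max_right _ _)
    have hRb : 2 * K + C ≤ R₀ := by
      have := le_max_left (2 * K + |C|) (max (2 * L) (max (-c₀) 1))
      have := le_abs_self C
      linarith
    have hRc : -R₀ ≤ c₀ := by
      have h1 : -c₀ ≤ R₀ := ((le_max_left (-c₀) 1).trans (le_max_right (2 * L) _)).trans
        (le_max_right _ _)
      linarith
    have hR0 : 0 < R₀ := lt_of_lt_of_le one_pos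
      (((le_max_right (-c₀) 1).trans (le_max_right (2 * L) _)).trans (le_max_right _ _))
    have ea : ∀ i, ∀ x ∈ (B.e i).source, x ∈ tsupport chi → w x < -R₀ → hsf B a i x = 0 := by
      intro i x hx hxX hwx
      exact h.kp_end (u := w) (C := 0) (fun y _ => by linarith) hL0 (by linarith) hRc hx hxX hwx
    have euK : ∀ i, ∀ x ∈ (B.e i).source, x ∈ tsupport chi → w x < -R₀ → hsf B uK i x = 0 :=
      fun i x hx hxX hwx => h.kp_end hle hK1 hRb hRc hx hxX hwx
    have eb : ∀ i, ∀ x ∈ (B.e i).source, x ∈ tsupport chi → w x < -R₀ → hsf B b i x = 0 := by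
      intro i x hx hxX hwx
      rw [hsfb i x hx, euK i x hx hxX hwx, smul_zero]
    -- comparison
    have h1 := compare P h.smw h.smc h.cpt h.one ha hb pa pb
      (fun x hx hw => (hK0u x (Or.inr ⟨hx, hw⟩)).2.2) hR0 ea eb
    -- the truncated integrals
    have h2 := h.tot_trunc P h.smw (C := 0) (fun y _ => by linarith) hL0
      fun x hx hw => (hK0u x (Or.inr ⟨hx, hw⟩)).2.1
    have h3 := h.tot_trunc P hu hle hK1 fun x hx hw => (hK0u x (Or.inr ⟨hx, hw⟩)).1
    -- (3)
    have h4 : intD P (fun i x => (chi x : ℂ) * pd (hsf B a i x) (hsf B a i x))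
        = intD P (fun i x => ((chi x * st (a x - b x) : ℝ) : ℂ) *
          pd (hsf B a i x) (hsf B a i x)) := by
      refine intD_congr P fun i x hx => ?_
      by_cases hxX : x ∈ tsupport chi
      · rcases lt_trichotomy (w x) (-L) with hw | hw | hw
        · rcases lt_or_ge (w x) (-(2 * L)) with hw2 | hw2
          · have e1 : hsf B a i x = 0 := by
              refine hsf_zero_of_eventually hx (c := L * kap (-2)) ?_
              filter_upwards [(cont h.smw).continuousAt.eventually (gt_mem_nhds hw2)] with y hy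
              exact kp_const hL0 hy.le
            rw [e1, pd_zero, mul_zero, mul_zero]
          · have e1 : 1 ≤ a x - b x := by
              have c1 : w x ≤ a x := le_kp hL0 _
              have c2 : uK x ≤ w x + |C| := by
                have c3 : u x ≤ w x + |C| := (hle x hxX).trans (by linarith [le_abs_self C])
                have c4 := kp_mono hK1 c3
                have c5 : kp K (w x + |C|) = w x + |C| := kp_id hK1 (by linarith [abs_nonneg C])
                rw [c5] at c4
                exact c4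
              have c6 : 2 * |C| + Bc + 1 ≤ e * L := by
                rw [div_le_iff₀ he0] at hL2
                linarith
              have c7 : (1 + e) * uK x ≤ (1 + e) * (w x + |C|) :=
                mul_le_mul_of_nonneg_left c2 (by linarith)
              have c8 : e * w x ≤ e * (-L) := mul_le_mul_of_nonneg_left hw.le he0.le
              have c9 : e * |C| ≤ |C| := by nlinarith [abs_nonneg C, he.2]
              simp only [hbd]
              nlinarith
            have e2 : st (a x - b x) = 1 := Real.smoothTransition.one_of_one_le e1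
            rw [e2, mul_one]
        · have e1 : 1 ≤ a x - b x := by
            have c1 : w x ≤ a x := le_kp hL0 _
            have c2 : uK x ≤ w x + |C| := by
              have c3 : u x ≤ w x + |C| := (hle x hxX).trans (by linarith [le_abs_self C])
              have c4 := kp_mono hK1 c3
              have c5 : kp K (w x + |C|) = w x + |C| := kp_id hK1 (by linarith [abs_nonneg C])
              rw [c5] at c4
              exact c4
            have c6 : 2 * |C| + Bc + 1 ≤ e * L := by
              rw [div_le_iff₀ he0] at hL2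
              linarith
            have c7 : (1 + e) * uK x ≤ (1 + e) * (w x + |C|) :=
              mul_le_mul_of_nonneg_left c2 (by linarith)
            have c8 : e * w x ≤ e * (-L) := mul_le_mul_of_nonneg_left hw.le he0.le
            have c9 : e * |C| ≤ |C| := by nlinarith [abs_nonneg C, he.2]
            simp only [hbd]
            nlinarith
          have e2 : st (a x - b x) = 1 := Real.smoothTransition.one_of_one_le e1
          rw [e2, mul_one]
        · have e1 : a =ᶠ[𝓝 x] w := by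
            filter_upwards [(cont h.smw).continuousAt.eventually (lt_mem_nhds hw)] with y hy
            exact kp_id hL0 hy.le
          rw [hsf_congr hx e1, ww i x hx, mul_zero, mul_zero]
      · rw [image_eq_zero_of_notMem_tsupport hxX, zero_mul]
    -- (2')
    have h5 : intD P (fun i x => ((chi x * st (a x - b x) : ℝ) : ℂ) *
        pd (hsf B b i x) (hsf B b i x))
        = (((1 + e) ^ 2 : ℝ) : ℂ) * intD P (fun i x => ((chi x * st (a x - b x) : ℝ) : ℂ) *
          pd (hsf B uK i x) (hsf B uK i x)) := by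
      rw [← intD_smul P _ (h.cpt (-R₀)) ?_]
      · refine intD_congr P fun i x hx => ?_
        rw [hsfb i x hx, pd_smul, smul_pd]
        push_cast
        ring
      · intro i x hx hxK
        show ((chi x * st (a x - b x) : ℝ) : ℂ) * pd (hsf B uK i x) (hsf B uK i x) = 0
        by_cases hxX : x ∈ tsupport chi
        · have hwx : w x < -R₀ := by
            by_contra h2
            exact hxK ⟨hxX, not_lt.1 h2⟩
          rw [euK i x hx hxX hwx, pd_zero, mul_zero]
        · rw [image_eq_zero_of_notMem_tsupport hxX]; simp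
    -- (4)
    have hhs : B.Sm (fun x => chi x * st (a x - b x)) := sm_mul h.smc (sm_comp st_sm (sm_sub ha hb))
    set Kc : Set M := tsupport zeta ∪ (tsupport chi ∩ {x | -R₀ ≤ w x}) with hKc
    have hKcc : IsCompact Kc := cz.isCompact.union (h.cpt _)
    have offz : OffK B (fun i x => (zeta x : ℂ) * pd (hsf B u i x) (hsf B u i x)) Kc := by
      intro i x hx hxK
      show (zeta x : ℂ) * pd (hsf B u i x) (hsf B u i x) = 0
      rw [image_eq_zero_of_notMem_tsupport fun h' => hxK (Or.inl h')]; simp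
    have offh : OffK B (fun i x => ((chi x * st (a x - b x) : ℝ) : ℂ) *
        pd (hsf B uK i x) (hsf B uK i x)) Kc := by
      intro i x hx hxK
      show ((chi x * st (a x - b x) : ℝ) : ℂ) * pd (hsf B uK i x) (hsf B uK i x) = 0
      by_cases hxX : x ∈ tsupport chi
      · have hwx : w x < -R₀ := by
          by_contra h2
          exact hxK (Or.inr ⟨hxX, not_lt.1 h2⟩)
        rw [euK i x hx hxX hwx, pd_zero, mul_zero]
      · rw [image_eq_zero_of_notMem_tsupport hxX]; simp
    have offc : OffK B (fun i x => (chi x : ℂ) * pd (hsf B uK i x) (hsf B uK i x)) Kc := by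
      intro i x hx hxK
      show (chi x : ℂ) * pd (hsf B uK i x) (hsf B uK i x) = 0
      by_cases hxX : x ∈ tsupport chi
      · have hwx : w x < -R₀ := by
          by_contra h2
          exact hxK (Or.inr ⟨hxX, not_lt.1 h2⟩)
        rw [euK i x hx hxX hwx, pd_zero, mul_zero]
      · rw [image_eq_zero_of_notMem_tsupport hxX]; simp
    have h6 := re_intD_le P ((den_pdh hhs huKs huKs).add (den_pdh hz hu hu))
      (den_pdh h.smc huKs huKs) hKcc (offh.add offz) offc (by
      intro i x hx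
      have p1 := pd_nonneg (puK i x hx) (puK i x hx)
      have p2 := pd_im_zero (puK i x hx) (puK i x hx)
      have p3 := pd_nonneg (pu i x hx) (pu i x hx)
      have p4 := pd_im_zero (pu i x hx) (pu i x hx)
      refine ⟨?_, ?_⟩
      · rw [Complex.add_re, Complex.re_ofReal_mul, Complex.re_ofReal_mul, Complex.re_ofReal_mul]
        by_cases hxz : x ∈ tsupport zeta
        · obtain ⟨q1, -, q3⟩ := hK0u x (Or.inl hxz)
          have e1 : uK =ᶠ[𝓝 x] u := by
            filter_upwards [(cont hu).continuousAt.eventually (lt_mem_nhds q1)] with y hy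
            exact kp_id hK1 hy.le
          have e2 : st (a x - b x) = 0 := Real.smoothTransition.zero_of_nonpos q3.le
          rw [e2, hsf_congr hx e1]
          have := mul_le_mul_of_nonneg_right (hzc x) p3
          linarith
        · rw [image_eq_zero_of_notMem_tsupport hxz, zero_mul, add_zero]
          have e1 : chi x * st (a x - b x) ≤ chi x :=
            mul_le_of_le_one_right (hchi0 x) (Real.smoothTransition.le_one _)
          exact mul_le_mul_of_nonneg_right e1 p1
      · rw [Complex.add_im, Complex.im_ofReal_mul, Complex.im_ofReal_mul, Complex.im_ofReal_mul,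
          p2, p4]
        ring)
    rw [intD_add P (den_pdh hhs huKs huKs).sm (den_pdh hz hu hu).sm hKcc offh offz,
      Complex.add_re] at h6
    -- conclusion
    rw [h5, Complex.re_ofReal_mul, ← h4, ← h2] at h1
    rw [← h3] at h6
    have h7 : 0 ≤ (1 + e) ^ 2 := by positivity
    calc Tw ≤ (1 + e) ^ 2 * (intD P (fun i x => ((chi x * st (a x - b x) : ℝ) : ℂ) *
          pd (hsf B uK i x) (hsf B uK i x))).re := h1
      _ ≤ (1 + e) ^ 2 * (Tu - Z) := by
        refine mul_le_mul_of_nonneg_left ?_ h7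
        linarith
  -- limit
  have hlim : Tendsto (fun e : ℝ => (1 + e) ^ 2 * (Tu - Z)) (𝓝[>] 0) (𝓝 ((1 + 0) ^ 2 * (Tu - Z))) :=
    (by fun_prop : Continuous fun e : ℝ => (1 + e) ^ 2 * (Tu - Z)).continuousAt.tendsto.mono_left
      nhdsWithin_le_nhds
  have h8 : Tw ≤ (1 + 0) ^ 2 * (Tu - Z) := by
    refine ge_of_tendsto hlim ?_
    filter_upwards [Ioo_mem_nhdsGT (zero_lt_one (α := ℝ))] with e he
    exact main e he
  linarith

end

end Crest.Agent.R257.Cmp4_101
end

-- ▼ part R257/CmpL_822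

/-!
R257 / CmpL_822 (helper822): `CmpStmt` (comparison of residual masses on a level) from `Cmp4_101.cmp`.
-/

set_option autoImplicit false
set_option linter.unusedSectionVars false

open Topology Filter MeasureTheory Set
open scoped ENNReal ContDiff Matrix ComplexOrder

noncomputable section

namespace Crest.Agent.R257.CmpL_822

open Crest.Agent.R275.Geo Crest.Agent.R275.Core144 Crest.Agent.R275.EDR890
open Crest.Agent.R275.Pai323 Crest.Agent.R275.C1d194
open Crest.Agent.R273.StokesV_332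
open Crest.Agent.R273.Defs_333 Crest.Agent.R273.Vm_333 Crest.Agent.R273.Kah_333
open Crest.Agent.R273.Hess_333 Crest.Agent.R273.HessB_333
open Crest.Agent.R273.YauDefs_635 (cH)
open Crest.Agent.R257.Defs_219 Crest.Agent.R257.KED_952 Crest.Agent.R257.V1Defs_822
open Crest.Agent.R257.V1Pe_822 Crest.Agent.R257.V1W_822 Crest.Agent.R257.UpK_938
open Crest.Agent.R257.Bridge_822
open Crest.Agent.R257.PN_835 (nsq)
open Crest.Agent.R257.Aff_835 (eta2a)
open Crest.Agent.R257.C2F1_625 (pd)

section lvl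

variable {f : E3 → ℂ} {s : ℂ} {r : ℝ} (hf : LvlOK f s r)

theorem aemeas_nu {ν : Measure E3} (hν : IsNu f s r ν) {g : E3 → ℝ}
    (hg : Continuous fun x : (LX hf).M 0 => g x.1) : AEMeasurable g ν := by
  rw [← nu_eq hf hν]
  exact (val_emb hf).aemeasurable_map_iff.2 hg.measurable.aemeasurable

theorem psd_val {a : E3 → ℝ} (ha : SmL f s r a)
    (h : ∀ θ O, PE f s r θ O → ∀ z ∈ O, ∀ v, 0 ≤ lev (fun z => a (θ z)) z v)
    (i : ((LX hf).A 0).ι) {x : (LX hf).M 0} (hx : x ∈ (((LX hf).A 0).e i).source) :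
    (hsf ((LX hf).A 0) (fun x => a x.1) i x).PosSemidef :=
  posSemidef_hess (smAt ha (pe_chart hf i) ((((LX hf).A 0).e i).map_source hx))
    (h _ _ (pe_chart hf i) _ ((((LX hf).A 0).e i).map_source hx))

theorem pd_det_zero {a : E3 → ℝ} (ha : SmL f s r a)
    (h : ∀ θ O, PE f s r θ O → ∀ z ∈ O, (cH (fun z => a (θ z)) z).det = 0)
    (i : ((LX hf).A 0).ι) {x : (LX hf).M 0} (hx : x ∈ (((LX hf).A 0).e i).source) :
    pd (hsf ((LX hf).A 0) (fun x => a x.1) i x) (hsf ((LX hf).A 0) (fun x => a x.1) i x) = 0 := by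
  have hz := (((LX hf).A 0).e i).map_source hx
  have e1 : hsf ((LX hf).A 0) (fun x => a x.1) i x =
      cH (fun z => a (thc hf i z)) (((LX hf).A 0).e i x) :=
    (Crest.Agent.R273.YauMax_635.cH_eq_hess (smAt ha (pe_chart hf i) hz)).symm
  rw [C2F1_625.pd_self, e1, h _ _ (pe_chart hf i) _ hz, mul_zero]

theorem smL_mul {a b : E3 → ℝ} (ha : SmL f s r a) (hb : SmL f s r b) :
    SmL f s r fun x => a x * b x := fun θ O hθ => (ha θ O hθ).mul (hb θ O hθ)

theorem smL_one_sub {a : E3 → ℝ} (ha : SmL f s r a) :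
    SmL f s r fun x => 1 - a x := fun θ O hθ => contDiffOn_const.sub (ha θ O hθ)

theorem smL_ctl {a : E3 → ℝ} (ha : SmL f s r a) : CtL f s r a :=
  fun θ O hθ => (ha θ O hθ).continuousOn

end lvl

/-- the measure statement -/
theorem measStmt : MeasStmt := by
  intro f s r h1 h2 h3 ν hν φ hφ
  have hf : LvlOK f s r := ⟨h1, h2, h3⟩
  exact aemeas_nu hf hν (cont_val hf hφ)

section

variable {f : E3 → ℂ} {s : ℂ} {r : ℝ}

/-- the two constancy radii of a cut-off -/
theorem cut_rad {χ : E3 → ℝ} (h : Cut r χ) : ∃ r₁ ρ : ℝ, 0 < r₁ ∧ 0 < ρ ∧ ρ < r ∧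
    (∀ x, nsq x < r₁ ^ 2 → ∀ᶠ y in 𝓝 x, χ y = 1) ∧
    (∀ x, ρ ^ 2 ≤ nsq x → χ x = 0) ∧ (∀ x, ρ ^ 2 < nsq x → ∀ᶠ y in 𝓝 x, χ y = 0) := by
  obtain ⟨ρ, h1, h2, h3⟩ := h.supp
  obtain ⟨ε, hε, h4⟩ := nsq_lt_of h.one
  refine ⟨ε, ρ, hε, h1, h2, fun x hx => ?_, h3, fun x hx => ?_⟩
  · filter_upwards [continuous_nsq3.continuousAt.eventually_lt continuousAt_const hx] with y hy
    exact h4 y hy
  · filter_upwards [continuousAt_const.eventually_lt continuous_nsq3.continuousAt hx] with y hy
    exact h3 y hy.le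

/-- the total mass and `intD` -/
theorem tot_bridge (hf : LvlOK f s r) {ν : Measure E3} (hν : IsNu f s r ν) {a χ : E3 → ℝ}
    (ha : SmL f s r a) (hχ : Cut r χ) (P : Part ((LX hf).A 0)) :
    Integrable (fun x => a x * mxd f a χ x) ν ∧
    ((TOT ν f a χ : ℝ) : ℂ) =
      intD P (fun i x => (a x.1 : ℂ) * pd (hsf ((LX hf).A 0) (fun x => a x.1) i x)
        (hsf ((LX hf).A 0) (fun x => χ x.1) i x)) := by
  obtain ⟨r₁, ρ, h1, h2, h3, h4, h5, h6⟩ := cut_rad hχ
  refine bridge hf hν ha (cut_smL hχ) P (ann_compact hf h1 h2.le h3)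
    ((cont_val hf (smL_ctl ha)).mul (cont_mxd hf ha (cut_smL hχ))) fun x hx => ?_
  have h7 : nsq x.1 < r₁ ^ 2 ∨ ρ ^ 2 < nsq x.1 := by
    by_contra hcon
    push Not at hcon
    exact hx hcon
  rcases h7 with h7 | h7
  · rw [V1Top_822.mxd_const (h4 _ h7), mul_zero]
  · rw [mxd_zero (h6 _ h7), mul_zero]

theorem int_exp (hf : LvlOK f s r) {ν : Measure E3} (hν : IsNu f s r ν) {u χ : E3 → ℝ}
    (hu : SmL f s r u) (hχ : Cut r χ) (hV : VOL ν u χ < ⊤) :
    Integrable (fun x => χ x * Real.exp (u x)) ν ∧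
      ∫ x, χ x * Real.exp (u x) ∂ν = (VOL ν u χ).toReal := by
  have h1 : Continuous fun x : (LX hf).M 0 => χ x.1 * Real.exp (u x.1) :=
    (cont_val hf (smL_ctl (cut_smL hχ))).mul (Real.continuous_exp.comp (cont_val hf (smL_ctl hu)))
  have h2 : AEMeasurable (fun x => χ x * Real.exp (u x)) ν := aemeas_nu hf hν h1
  have h3 : ∀ x, 0 ≤ χ x * Real.exp (u x) := fun x => mul_nonneg (hχ.nn x) (Real.exp_pos _).le
  refine ⟨⟨h2.aestronglyMeasurable, ?_⟩, ?_⟩
  · rw [hasFiniteIntegral_iff_ofReal (Eventually.of_forall h3)]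
    exact hV
  · rw [integral_eq_lintegral_of_nonneg_ae (Eventually.of_forall h3) h2.aestronglyMeasurable]
    rfl

/-- one cut-off -/
theorem cmp_zeta (hf : LvlOK f s r) {ν : Measure E3} (hν : IsNu f s r ν) {χ u w : E3 → ℝ} {C : ℝ}
    (hχ : Cut r χ) (hu : KEon f s r u) (hw : SmL f s r w)
    (plw : ∀ θ O, PE f s r θ O → ∀ z ∈ O, ∀ v, 0 ≤ lev (fun z => w (θ z)) z v)
    (dw : ∀ θ O, PE f s r θ O → ∀ z ∈ O, (cH (fun z => w (θ z)) z).det = 0)
    (wi : ∀ c : ℝ, ∃ ρ : ℝ, 0 < ρ ∧ ∀ x, f x = s → x ≠ 0 → nsq x < ρ ^ 2 → w x < c)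
    (hle : ∀ x, f x = s → x ≠ 0 → nsq x < r ^ 2 → u x ≤ w x + C) {ε : ℝ} (hεr : ε ≤ r)
    {κ : E3 → ℝ} (hκ : Cut ε κ) :
    Integrable (fun x => χ x * (1 - κ x) * mxd f u u x) ν ∧
    TOT ν f w χ + ∫ x, χ x * (1 - κ x) * mxd f u u x ∂ν ≤ TOT ν f u χ := by
  have hcI := (LX hf).countable 0
  have P := (LX hf).part 0
  set B := (LX hf).A 0 with hB
  have hκr : Cut r κ := cut_mono hκ hεr
  obtain ⟨r₁, ρ, h1, h2, h3, h4, h5, h6⟩ := cut_rad hχ
  obtain ⟨r₁', ρ', h1', h2', h3', h4', h5', h6'⟩ := cut_rad hκr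
  have cw : Continuous fun x : (LX hf).M 0 => w x.1 := cont_val hf (smL_ctl hw)
  have cn : Continuous fun x : (LX hf).M 0 => nsq x.1 :=
    continuous_nsq3.comp continuous_subtype_val
  have hts : ∀ x ∈ tsupport (fun x : (LX hf).M 0 => χ x.1), nsq x.1 ≤ ρ ^ 2 := by
    intro x hx
    have : tsupport (fun x : (LX hf).M 0 => χ x.1) ⊆ {x | nsq x.1 ≤ ρ ^ 2} := by
      refine closure_minimal (fun y hy => ?_) (isClosed_le cn continuous_const)
      by_contra hcon
      exact hy (h5 _ (not_le.1 hcon).le)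
    exact this hx
  have hK1 : IsCompact {x : (LX hf).M 0 | r₁ ^ 2 ≤ nsq x.1 ∧ nsq x.1 ≤ ρ ^ 2} :=
    ann_compact hf h1 h2.le h3
  obtain ⟨Bw, hBw⟩ := hK1.exists_bound_of_continuousOn cw.continuousOn
  have hE : Cmp4_101.EndCut B (fun x => w x.1) (fun x => χ x.1) (-Bw) := by
    refine ⟨sm_val hf hw, sm_val hf (cut_smL hχ), fun c => ?_, fun x hx hwx => ?_⟩
    · obtain ⟨ρc, k1, k2⟩ := wi c
      refine (ann_compact hf k1 h2.le h3).of_isClosed_subset
        ((isClosed_tsupport _).inter (isClosed_le continuous_const cw)) ?_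
      rintro x ⟨hx1, hx2⟩
      refine ⟨?_, hts x hx1⟩
      by_contra hcon
      have := k2 x.1 (mem_M hf x).1 (mem_M hf x).2.1 (not_le.1 hcon)
      exact absurd hx2 (not_le.2 this)
    · refine evconst_val hf (h4 _ ?_)
      by_contra hcon
      have h7 := hBw x ⟨not_lt.1 hcon, hts x hx⟩
      rw [Real.norm_eq_abs] at h7
      have := (abs_le.1 h7).1
      have h8 : w x.1 < -Bw := hwx
      linarith
  set ζ : E3 → ℝ := fun x => χ x * (1 - κ x) with hζ
  have sζ : SmL f s r ζ := smL_mul (cut_smL hχ) (smL_one_sub (cut_smL hκr))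
  have hKz : IsCompact {x : (LX hf).M 0 | r₁' ^ 2 ≤ nsq x.1 ∧ nsq x.1 ≤ ρ ^ 2} :=
    ann_compact hf h1' h2.le h3
  have zz : ∀ x : (LX hf).M 0, x ∉ {x : (LX hf).M 0 | r₁' ^ 2 ≤ nsq x.1 ∧ nsq x.1 ≤ ρ ^ 2} →
      ζ x.1 = 0 := by
    intro x hx
    have h7 : nsq x.1 < r₁' ^ 2 ∨ ρ ^ 2 < nsq x.1 := by
      by_contra hcon
      push Not at hcon
      exact hx hcon
    rcases h7 with h7 | h7
    · simp only [hζ, (h4' _ h7).self_of_nhds]
      ring
    · simp only [hζ, h5 _ h7.le, zero_mul]
  have z0 : ∀ x, 0 ≤ ζ x := fun x => mul_nonneg (hχ.nn x) (by linarith [hκ.le x])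
  have z1 : ∀ x, ζ x ≤ χ x := fun x =>
    mul_le_of_le_one_right (hχ.nn x) (by linarith [hκ.nn x])
  obtain ⟨i3, e3⟩ := bridge hf hν (φ := ζ) hu.sm hu.sm P hKz
    ((cont_val hf (smL_ctl sζ)).mul (cont_mxd hf hu.sm hu.sm)) fun x hx => by
      rw [zz x hx, zero_mul]
  refine ⟨i3, ?_⟩
  have e1 := (tot_bridge hf hν hw hχ P).2
  have e2 := (tot_bridge hf hν (a := u) hu.sm hχ P).2
  have h7 := Cmp4_101.cmp P (u := fun x => u x.1) (w := fun x => w x.1) (chi := fun x => χ x.1)
    (zeta := fun x => ζ x.1) C (sm_val hf hu.sm) hE (sm_val hf sζ)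
    (HasCompactSupport.intro hKz zz) (fun x => z0 _) (fun x => z1 _)
    (fun i x hx => psd_val hf hu.sm (fun θ O hθ z hz v => by
      by_cases hv : v = 0
      · rw [hv]
        have : lev (fun z => u (θ z)) z 0 = 0 := by
          unfold lev
          rw [ContinuousMultilinearMap.map_coord_zero _ (0 : Fin 2) (by simp),
            ContinuousMultilinearMap.map_coord_zero _ (0 : Fin 2) (by simp), add_zero]
        exact this.ge
      · exact (hu.pos θ O hθ z hz v hv).le) i hx)
    (fun i x hx => psd_val hf hw plw i hx)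
    (fun i x hx => pd_det_zero hf hw dw i hx)
    (fun x hx => hle x.1 (mem_M hf x).1 (mem_M hf x).2.1 (mem_M hf x).2.2)
  rw [← e1, ← e2, ← e3, Complex.ofReal_re, Complex.ofReal_re, Complex.ofReal_re] at h7
  exact h7

end

/-- **CmpStmt** -/
theorem cmpStmt : CmpStmt := by
  intro f s r ν χ u w C hf hν hχ hu hw plw dw wi hle hV
  have hr := hf.pos
  have hε : ∀ n : ℕ, 0 < r / (n + 1) := fun n => by positivity
  have hεr : ∀ n : ℕ, r / ((n : ℝ) + 1) ≤ r := fun n => by
    rw [div_le_iff₀ (by positivity)]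
    nlinarith [(Nat.cast_nonneg n : (0 : ℝ) ≤ n)]
  choose κ hκ using fun n : ℕ => exists_cut (hε n)
  have key := fun n : ℕ => cmp_zeta hf hν hχ hu hw plw dw wi hle (hεr n) (hκ n)
  obtain ⟨i1, e1⟩ := int_exp hf hν (u := u) hu.sm hχ hV
  have hlim : Tendsto (fun n : ℕ => ∫ x, χ x * (1 - κ n x) * mxd f u u x ∂ν) atTop
      (𝓝 (∫ x, 2 * (χ x * Real.exp (u x)) ∂ν)) := by
    refine tendsto_integral_of_dominated_convergence (fun x => 2 * (χ x * Real.exp (u x)))
      (fun n => (key n).1.aestronglyMeasurable) (i1.const_mul 2) (fun n => ?_) ?_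
    · refine isNu_ae hν fun x hx1 hx2 hx3 => ?_
      rw [mxd_ke hf hu hx1 hx2 hx3]
      have k1 := (hκ n).nn x
      have k2 := (hκ n).le x
      have k3 := hχ.nn x
      have k4 := Real.exp_pos (u x)
      rw [Real.norm_eq_abs, abs_of_nonneg (by
        refine mul_nonneg (mul_nonneg k3 (by linarith)) (by positivity))]
      have k5 : χ x * (1 - κ n x) ≤ χ x := mul_le_of_le_one_right k3 (by linarith)
      nlinarith [mul_le_mul_of_nonneg_right k5 k4.le]
    · refine isNu_ae hν fun x hx1 hx2 hx3 => ?_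
      rw [mxd_ke hf hu hx1 hx2 hx3]
      have k0 : 0 < nsq x := Crest.Agent.R257.PN_835.nsq_pos hx1
      have k1 : ∀ᶠ n : ℕ in atTop, κ n x = 0 := by
        have k2 : Tendsto (fun n : ℕ => (r / ((n : ℝ) + 1)) ^ 2) atTop (𝓝 (0 ^ 2)) :=
          (by
            have := (tendsto_one_div_add_atTop_nhds_zero_nat (𝕜 := ℝ)).const_mul r
            simpa [div_eq_mul_inv] using this : Tendsto (fun n : ℕ => r / ((n : ℝ) + 1)) atTop
              (𝓝 0)).pow 2
        have k3 : ∀ᶠ n : ℕ in atTop, (r / ((n : ℝ) + 1)) ^ 2 < nsq x := by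
          rw [zero_pow two_ne_zero] at k2
          exact k2.eventually_lt_const k0
        filter_upwards [k3] with n hn
        obtain ⟨ρ, a1, a2, a3⟩ := (hκ n).supp
        exact a3 x ((pow_le_pow_left₀ a1.le a2.le 2).trans hn.le)
      refine tendsto_const_nhds.congr' ?_
      filter_upwards [k1] with n hn
      rw [hn]
      ring
  have h2 : TOT ν f w χ + ∫ x, 2 * (χ x * Real.exp (u x)) ∂ν ≤ TOT ν f u χ :=
    le_of_tendsto (tendsto_const_nhds.add hlim) (Eventually.of_forall fun n => (key n).2)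
  rw [integral_const_mul, e1] at h2
  exact h2

end Crest.Agent.R257.CmpL_822
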