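import Crest.Agent.R257.Defs_219
import Crest.Agent.R257.DetA_219

-- ▼ part R257/DetB_219
section

/-!
R257 / DetB_219 (leaf DET): local sheets of `{f = 0}` over the `x'`-space where `∂₀f ≠ 0`, and the
Jacobian of `(g,h)` along the sheet: `det Θ' = Dt f g h / ∂₀ f`.
-/

set_option autoImplicit false

open Topology Filter MeasureTheory Set Function
open scoped ENNReal NNReal
open Crest.AlgGeometry.Germ
open Crest.Agent.R257.Defs_219

noncomputable section

namespace Crest.Agent.R257.Det_219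

abbrev E2 : Type := Fin 2 → ℂ

theorem cd_eq {n : ℕ} (f : (Fin n → ℂ) → ℂ) (i : Fin n) (x : Fin n → ℂ) :
    coordDeriv f i x = fderiv ℂ f x (Pi.single i 1) := rfl

/-- the derivative in coordinates -/
theorem fderiv_sum {n : ℕ} (f : (Fin n → ℂ) → ℂ) (x v : Fin n → ℂ) :
    fderiv ℂ f x v = ∑ i, v i * coordDeriv f i x := by
  conv_lhs => rw [pi_eq_sum_univ v]
  rw [map_sum]
  refine Finset.sum_congr rfl fun i _ => ?_
  rw [map_smul, smul_eq_mul, cd_eq]
  congr 2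
  ext j
  by_cases h : i = j
  · subst h; simp
  · rw [if_neg h, Pi.single_apply, if_neg (Ne.symm h)]

/-- `x ↦ (a x, x')` as a linear map -/
def consL (a : E3 →L[ℂ] ℂ) : E3 →L[ℂ] E3 :=
  ContinuousLinearMap.pi (Fin.cons a fun i => ContinuousLinearMap.proj (i.succ))

theorem consL_zero (a : E3 →L[ℂ] ℂ) (v : E3) : consL a v 0 = a v := rfl

theorem consL_succ (a : E3 →L[ℂ] ℂ) (v : E3) (i : Fin 2) : consL a v i.succ = v i.succ := rfl

/-- `Ψ x = (f x, x')` -/
def Psi (f : E3 → ℂ) (x : E3) : E3 := Fin.cons (f x) (Fin.tail x)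

theorem psi_deriv {f : E3 → ℂ} {a : E3 →L[ℂ] ℂ} {x : E3} (h : HasStrictFDerivAt f a x) :
    HasStrictFDerivAt (Psi f) (consL a) x := by
  rw [hasStrictFDerivAt_pi']
  intro i
  refine Fin.cases ?_ (fun j => ?_) i
  · exact h
  · have h2 : (fun y : E3 => Psi f y j.succ) = fun y => y j.succ := by
      funext y; rfl
    rw [h2]
    exact (ContinuousLinearMap.proj (R := ℂ) (φ := fun _ : Fin 3 => ℂ) j.succ).hasStrictFDerivAt

theorem consL_inj {f : E3 → ℂ} {x : E3} (h : coordDeriv f 0 x ≠ 0) :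
    Injective (consL (fderiv ℂ f x)) := by
  rw [injective_iff_map_eq_zero]
  intro v hv
  have h1 : ∀ i : Fin 2, v i.succ = 0 := fun i => by
    rw [← consL_succ (fderiv ℂ f x) v i, hv]; rfl
  have h2 : fderiv ℂ f x v = 0 := by
    rw [← consL_zero (fderiv ℂ f x) v, hv]; rfl
  rw [fderiv_sum, Fin.sum_univ_succ] at h2
  have h3 : ∑ i : Fin 2, v i.succ * coordDeriv f i.succ x = 0 :=
    Finset.sum_eq_zero fun i _ => by rw [h1 i, zero_mul]
  rw [h3, add_zero] at h2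
  have h4 : v 0 = 0 := by
    rcases mul_eq_zero.1 h2 with h | h'
    · exact h
    · exact absurd h' h
  ext i
  refine Fin.cases h4 (fun j => h1 j) i

/-- the derivative as an equivalence -/
def eqv {f : E3 → ℂ} {x : E3} (h : coordDeriv f 0 x ≠ 0) : E3 ≃L[ℂ] E3 :=
  (LinearEquiv.ofInjectiveEndo (consL (fderiv ℂ f x)).toLinearMap
    (consL_inj h)).toContinuousLinearEquiv

theorem eqv_coe {f : E3 → ℂ} {x : E3} (h : coordDeriv f 0 x ≠ 0) :
    (eqv h : E3 →L[ℂ] E3) = consL (fderiv ℂ f x) := by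
  ext v i
  rfl

/-- a local sheet of `{f = 0}` over the `x'`-space -/
structure Ch (f : E3 → ℂ) (U : Set E3) where
  V : Set E3
  O : Set E2
  s : E2 → ℂ
  Vo : IsOpen V
  Oo : IsOpen O
  VU : V ⊆ U
  fz : ∀ x ∈ V, coordDeriv f 0 x ≠ 0
  a : ∀ x ∈ V, f x = 0 → Fin.tail x ∈ O ∧ x 0 = s (Fin.tail x)
  b : ∀ y ∈ O, (Fin.cons (s y) y : E3) ∈ V ∧ f (Fin.cons (s y) y) = 0
  c : ∀ y ∈ O, DifferentiableAt ℂ s y

/-- existence of sheets -/
theorem exists_ch {f : E3 → ℂ} {U : Set E3} (hU : IsOpen U) (han : AnalyticOnNhd ℂ f U)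
    {p : E3} (hp : p ∈ U) (hp0 : coordDeriv f 0 p ≠ 0) : ∃ C : Ch f U, p ∈ C.V := by
  have hstr : ∀ x ∈ U, HasStrictFDerivAt f (fderiv ℂ f x) x := fun x hx =>
    (han x hx).hasStrictFDerivAt
  have hcc : ContinuousOn (coordDeriv f 0) U := by
    have h1 : ContinuousOn (fderiv ℂ f) U := han.fderiv.continuousOn
    exact h1.clm_apply continuousOn_const
  set U₀ : Set E3 := U ∩ (coordDeriv f 0) ⁻¹' {0}ᶜ with hU₀
  have hU₀o : IsOpen U₀ := hcc.isOpen_inter_preimage hU isOpen_compl_singleton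
  have h1 : HasStrictFDerivAt (Psi f) (eqv hp0 : E3 →L[ℂ] E3) p := by
    rw [eqv_coe]; exact psi_deriv (hstr p hp)
  set e := h1.toOpenPartialHomeomorph (Psi f) with he
  have hec : ∀ x, e x = Psi f x := fun x => rfl
  have hpe : p ∈ e.source := h1.mem_toOpenPartialHomeomorph_source
  have hconsc : Continuous fun y : E2 => (Fin.cons 0 y : E3) := by
    refine continuous_pi fun i => ?_
    refine Fin.cases ?_ (fun j => ?_) i
    · exact continuous_const
    · exact continuous_apply j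
  set V : Set E3 := e.source ∩ U₀ with hV
  set O : Set E2 := (fun y : E2 => (Fin.cons 0 y : E3)) ⁻¹' (e.target ∩ e.symm ⁻¹' U₀) with hO
  have key : ∀ y ∈ O, (e.symm (Fin.cons 0 y)) ∈ V ∧ f (e.symm (Fin.cons 0 y)) = 0 ∧
      Fin.tail (e.symm (Fin.cons 0 y)) = y := by
    intro y hy
    obtain ⟨hy1, hy2⟩ := hy
    have h2 : e (e.symm (Fin.cons 0 y)) = Fin.cons 0 y := e.right_inv hy1
    rw [hec] at h2
    refine ⟨⟨e.map_target hy1, hy2⟩, ?_, ?_⟩
    · have := congrFun h2 0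
      simpa [Psi] using this
    · have := congrArg Fin.tail h2
      simpa [Psi] using this
  refine ⟨⟨V, O, fun y => (e.symm (Fin.cons 0 y)) 0, e.open_source.inter hU₀o,
    (e.isOpen_inter_preimage_symm hU₀o).preimage hconsc, fun x hx => hx.2.1, fun x hx => hx.2.2,
    ?_, ?_, ?_⟩, ⟨hpe, hp, hp0⟩⟩
  · intro x hx hfx
    have h2 : e x = Fin.cons 0 (Fin.tail x) := by rw [hec, Psi, hfx]
    have h3 : e.symm (Fin.cons 0 (Fin.tail x)) = x := by rw [← h2]; exact e.left_inv hx.1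
    refine ⟨⟨?_, ?_⟩, ?_⟩
    · show (Fin.cons 0 (Fin.tail x) : E3) ∈ e.target
      rw [← h2]; exact e.map_source hx.1
    · show e.symm (Fin.cons 0 (Fin.tail x) : E3) ∈ U₀
      rw [h3]; exact hx.2
    · show x 0 = (e.symm (Fin.cons 0 (Fin.tail x))) 0
      rw [h3]
  · intro y hy
    obtain ⟨k1, k2, k3⟩ := key y hy
    have h2 : (Fin.cons ((e.symm (Fin.cons 0 y)) 0) y : E3) = e.symm (Fin.cons 0 y) := by
      conv_rhs => rw [← Fin.cons_self_tail (e.symm (Fin.cons 0 y)), k3]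
    show (Fin.cons ((e.symm (Fin.cons 0 y)) 0) y : E3) ∈ V ∧
      f (Fin.cons ((e.symm (Fin.cons 0 y)) 0) y) = 0
    rw [h2]
    exact ⟨k1, k2⟩
  · intro y hy
    obtain ⟨k1, k2, k3⟩ := key y hy
    have hx : e.symm (Fin.cons 0 y) ∈ U := k1.2.1
    have h0 : coordDeriv f 0 (e.symm (Fin.cons 0 y)) ≠ 0 := k1.2.2
    have h2 : HasFDerivAt e (eqv h0 : E3 →L[ℂ] E3) (e.symm (Fin.cons 0 y)) := by
      rw [eqv_coe]; exact (psi_deriv (hstr _ hx)).hasFDerivAt
    have h3 : HasFDerivAt e.symm ((eqv h0).symm : E3 →L[ℂ] E3) (Fin.cons 0 y) :=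
      e.hasFDerivAt_symm hy.1 h2
    have h4 : DifferentiableAt ℂ (fun y : E2 => (Fin.cons 0 y : E3)) y := by
      rw [differentiableAt_pi]
      intro i
      refine Fin.cases ?_ (fun j => ?_) i
      · exact differentiableAt_const _
      · exact differentiableAt_apply j y
    have h5 : DifferentiableAt ℂ (fun y : E2 => e.symm (Fin.cons 0 y)) y :=
      DifferentiableAt.comp y h3.differentiableAt h4
    exact (differentiableAt_pi.1 h5) 0

/-- the graph map of a sheet -/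
def Ch.gm {f : E3 → ℂ} {U : Set E3} (C : Ch f U) (y : E2) : E3 := Fin.cons (C.s y) y

theorem Ch.gm_diff {f : E3 → ℂ} {U : Set E3} (C : Ch f U) {y : E2} (hy : y ∈ C.O) :
    DifferentiableAt ℂ C.gm y := by
  rw [differentiableAt_pi]
  intro i
  refine Fin.cases ?_ (fun j => ?_) i
  · exact C.c y hy
  · exact differentiableAt_apply j y

theorem Ch.gm_fderiv_zero {f : E3 → ℂ} {U : Set E3} (C : Ch f U) {y : E2} (hy : y ∈ C.O)
    (v : E2) : fderiv ℂ C.gm y v 0 = fderiv ℂ C.s y v := by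
  have h := C.gm_diff hy
  have h1 : HasFDerivAt (fun y => C.gm y 0) ((ContinuousLinearMap.proj (R := ℂ)
      (φ := fun _ : Fin 3 => ℂ) 0).comp (fderiv ℂ C.gm y)) y :=
    (ContinuousLinearMap.proj (R := ℂ) (φ := fun _ : Fin 3 => ℂ) 0).hasFDerivAt.comp y
      h.hasFDerivAt
  have h2 : fderiv ℂ C.s y = _ := h1.fderiv
  rw [h2]; rfl

theorem Ch.gm_fderiv_succ {f : E3 → ℂ} {U : Set E3} (C : Ch f U) {y : E2} (hy : y ∈ C.O)
    (v : E2) (i : Fin 2) : fderiv ℂ C.gm y v i.succ = v i := by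
  have h := C.gm_diff hy
  have h1 : HasFDerivAt (fun y => C.gm y i.succ) ((ContinuousLinearMap.proj (R := ℂ)
      (φ := fun _ : Fin 3 => ℂ) i.succ).comp (fderiv ℂ C.gm y)) y :=
    (ContinuousLinearMap.proj (R := ℂ) (φ := fun _ : Fin 3 => ℂ) i.succ).hasFDerivAt.comp y
      h.hasFDerivAt
  have h2 : HasFDerivAt (fun y : E2 => C.gm y i.succ) (ContinuousLinearMap.proj (R := ℂ)
      (φ := fun _ : Fin 2 => ℂ) i) y :=
    (ContinuousLinearMap.proj (R := ℂ) (φ := fun _ : Fin 2 => ℂ) i).hasFDerivAt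
  have h3 := h1.unique h2
  have := congrArg (fun L : E2 →L[ℂ] ℂ => L v) h3
  simpa using this

/-- derivative along the sheet -/
theorem Ch.comp_fderiv {f : E3 → ℂ} {U : Set E3} (C : Ch f U) {y : E2} (hy : y ∈ C.O)
    {g : E3 → ℂ} (hg : DifferentiableAt ℂ g (C.gm y)) (v : E2) :
    fderiv ℂ (fun y => g (C.gm y)) y v =
      fderiv ℂ C.s y v * coordDeriv g 0 (C.gm y) +
        (v 0 * coordDeriv g 1 (C.gm y) + v 1 * coordDeriv g 2 (C.gm y)) := by
  have h1 : HasFDerivAt (fun y => g (C.gm y)) ((fderiv ℂ g (C.gm y)).comp (fderiv ℂ C.gm y)) y :=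
    hg.hasFDerivAt.comp y (C.gm_diff hy).hasFDerivAt
  rw [h1.fderiv, ContinuousLinearMap.comp_apply, fderiv_sum, Fin.sum_univ_succ,
    Fin.sum_univ_two, C.gm_fderiv_zero hy, C.gm_fderiv_succ hy, C.gm_fderiv_succ hy]
  rfl

/-- implicit differentiation -/
theorem Ch.s_fderiv {f : E3 → ℂ} {U : Set E3} (C : Ch f U) {y : E2} (hy : y ∈ C.O)
    (hf : DifferentiableAt ℂ f (C.gm y)) (v : E2) :
    fderiv ℂ C.s y v * coordDeriv f 0 (C.gm y) +
        (v 0 * coordDeriv f 1 (C.gm y) + v 1 * coordDeriv f 2 (C.gm y)) = 0 := by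
  rw [← C.comp_fderiv hy hf v]
  have h1 : (fun y => f (C.gm y)) =ᶠ[𝓝 y] fun _ => (0 : ℂ) := by
    filter_upwards [C.Oo.mem_nhds hy] with z hz
    exact (C.b z hz).2
  rw [h1.fderiv_eq]
  simp

/-- `(g,h)` along the sheet -/
def Ch.th {f : E3 → ℂ} {U : Set E3} (C : Ch f U) (g h : E3 → ℂ) (y : E2) : E2 :=
  ![g (C.gm y), h (C.gm y)]

/-- the Jacobian of `(g,h)` along the sheet -/
theorem Ch.th_det {f : E3 → ℂ} {U : Set E3} (C : Ch f U) {y : E2} (hy : y ∈ C.O)
    {g h : E3 → ℂ} (hf : DifferentiableAt ℂ f (C.gm y)) (hg : DifferentiableAt ℂ g (C.gm y))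
    (hh : DifferentiableAt ℂ h (C.gm y)) :
    DifferentiableAt ℂ (C.th g h) y ∧
      (fderiv ℂ (C.th g h) y).det = Dt f g h (C.gm y) / coordDeriv f 0 (C.gm y) := by
  have hG : DifferentiableAt ℂ (fun y => g (C.gm y)) y := hg.comp y (C.gm_diff hy)
  have hH : DifferentiableAt ℂ (fun y => h (C.gm y)) y := hh.comp y (C.gm_diff hy)
  have hT : DifferentiableAt ℂ (C.th g h) y := by
    rw [differentiableAt_pi]
    intro i
    fin_cases i
    · exact hG
    · exact hH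
  refine ⟨hT, ?_⟩
  have h0 : ∀ v, fderiv ℂ (C.th g h) y v 0 = fderiv ℂ (fun y => g (C.gm y)) y v := by
    intro v
    have h1 : HasFDerivAt (fun y => C.th g h y 0) ((ContinuousLinearMap.proj (R := ℂ)
      (φ := fun _ : Fin 2 => ℂ) 0).comp (fderiv ℂ (C.th g h) y)) y :=
      (ContinuousLinearMap.proj (R := ℂ) (φ := fun _ : Fin 2 => ℂ) 0).hasFDerivAt.comp y
        hT.hasFDerivAt
    have h2 : fderiv ℂ (fun y => g (C.gm y)) y = _ := h1.fderiv
    rw [h2]; rfl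
  have h1 : ∀ v, fderiv ℂ (C.th g h) y v 1 = fderiv ℂ (fun y => h (C.gm y)) y v := by
    intro v
    have h1 : HasFDerivAt (fun y => C.th g h y 1) ((ContinuousLinearMap.proj (R := ℂ)
      (φ := fun _ : Fin 2 => ℂ) 1).comp (fderiv ℂ (C.th g h) y)) y :=
      (ContinuousLinearMap.proj (R := ℂ) (φ := fun _ : Fin 2 => ℂ) 1).hasFDerivAt.comp y
        hT.hasFDerivAt
    have h2 : fderiv ℂ (fun y => h (C.gm y)) y = _ := h1.fderiv
    rw [h2]; rfl
  have hz := C.fz _ (C.b y hy).1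
  change coordDeriv f 0 (C.gm y) ≠ 0 at hz
  rw [ContinuousLinearMap.det, ← LinearMap.det_toMatrix', Matrix.det_fin_two]
  simp only [LinearMap.toMatrix'_apply, ContinuousLinearMap.coe_coe]
  rw [h0, h0, h1, h1, C.comp_fderiv hy hg, C.comp_fderiv hy hg, C.comp_fderiv hy hh,
    C.comp_fderiv hy hh]
  have e0 := C.s_fderiv hy hf (Pi.single 0 1)
  have e1 := C.s_fderiv hy hf (Pi.single 1 1)
  simp only [Pi.single_eq_same, one_mul, ne_eq, one_ne_zero, not_false_eq_true,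
    Pi.single_eq_of_ne, zero_mul, add_zero, zero_ne_one, zero_add] at e0 e1 ⊢
  have e0' : fderiv ℂ C.s y (Pi.single 0 1) =
      - coordDeriv f 1 (C.gm y) / coordDeriv f 0 (C.gm y) := by
    rw [eq_div_iff hz]; linear_combination e0
  have e1' : fderiv ℂ C.s y (Pi.single 1 1) =
      - coordDeriv f 2 (C.gm y) / coordDeriv f 0 (C.gm y) := by
    rw [eq_div_iff hz]; linear_combination e1
  rw [e0', e1', Dt, Matrix.det_fin_three]
  simp only [Matrix.of_apply, Matrix.cons_val_zero, Matrix.cons_val_one, Matrix.cons_val,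
    gr]
  field_simp
  ring

end Crest.Agent.R257.Det_219
end
end

-- ▼ part R257/DetC_219
section

/-!
R257 / DetC_219 (leaf DET): countable disjoint measurable sheets of `{f = 0}` over the box, the
sheet-sum formula `∫⁻ ∑_z φ = ∑_i ∫⁻_{B_i} φ ∘ gm_i`.
-/

set_option autoImplicit false

open Topology Filter MeasureTheory Set Function
open scoped ENNReal NNReal
open Crest.AlgGeometry.Germ
open Crest.Agent.R257.Defs_219

noncomputable section

namespace Crest.Agent.R257.Det_219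

/-- the box in `x`-space -/
def Bx (r : ℝ) : Set E3 := {x | ∀ i, ‖x i‖ < r}

/-- the box in `x'`-space -/
def Bp (r : ℝ) : Set E2 := {y | ∀ i, ‖y i‖ < r}

theorem isOpen_Bx (r : ℝ) : IsOpen (Bx r) := by
  have : Bx r = ⋂ i, {x : E3 | ‖x i‖ < r} := by ext x; simp [Bx]
  rw [this]
  exact isOpen_iInter_of_finite fun i =>
    isOpen_lt (continuous_apply i).norm continuous_const

theorem isOpen_Bp (r : ℝ) : IsOpen (Bp r) := by
  have : Bp r = ⋂ i, {x : E2 | ‖x i‖ < r} := by ext x; simp [Bp]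
  rw [this]
  exact isOpen_iInter_of_finite fun i =>
    isOpen_lt (continuous_apply i).norm continuous_const

theorem mem_Bx_cons {r : ℝ} {z : ℂ} {y : E2} :
    (Fin.cons z y : E3) ∈ Bx r ↔ ‖z‖ < r ∧ y ∈ Bp r := by
  constructor
  · intro h
    exact ⟨h 0, fun i => h i.succ⟩
  · rintro ⟨h1, h2⟩ i
    refine Fin.cases h1 (fun j => h2 j) i

theorem Ch.gm_cont {f : E3 → ℂ} {U : Set E3} (C : Ch f U) : ContinuousOn C.gm C.O :=
  fun _ hy => (C.gm_diff hy).continuousAt.continuousWithinAt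

/-- the empty chart -/
def Ch.empty (f : E3 → ℂ) (U : Set E3) : Ch f U where
  V := ∅
  O := ∅
  s := fun _ => 0
  Vo := isOpen_empty
  Oo := isOpen_empty
  VU := empty_subset _
  fz := fun x hx => absurd hx (notMem_empty x)
  a := fun x hx => absurd hx (notMem_empty x)
  b := fun x hx => absurd hx (notMem_empty x)
  c := fun x hx => absurd hx (notMem_empty x)

/-- countable disjoint measurable sheets -/
structure Cov (f : E3 → ℂ) (U : Set E3) (r : ℝ) where
  C : ℕ → Ch f U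
  B : ℕ → Set E2
  Bm : ∀ i, MeasurableSet (B i)
  BO : ∀ i, B i ⊆ (C i).O
  Bb : ∀ i, ∀ y ∈ B i, (C i).gm y ∈ Bx r
  dis : ∀ i j, i ≠ j → ∀ y ∈ B i, ∀ z ∈ B j, (C i).gm y ≠ (C j).gm z
  cov : ∀ x ∈ Bx r, f x = 0 → coordDeriv f 0 x ≠ 0 →
    ∃ i, Fin.tail x ∈ B i ∧ (C i).gm (Fin.tail x) = x

theorem exists_cov {f : E3 → ℂ} {U : Set E3} (hU : IsOpen U) (han : AnalyticOnNhd ℂ f U)
    {r : ℝ} (hr : Bx r ⊆ U) : Nonempty (Cov f U r) := by
  classical
  set S : Set E3 := {x | x ∈ Bx r ∧ f x = 0 ∧ coordDeriv f 0 x ≠ 0} with hS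
  have h1 : ∀ x : E3, ∃ C : Ch f U, x ∈ S → x ∈ C.V := by
    intro x
    by_cases hx : x ∈ S
    · obtain ⟨C, hC⟩ := exists_ch hU han (hr hx.1) hx.2.2
      exact ⟨C, fun _ => hC⟩
    · exact ⟨Ch.empty f U, fun h => absurd h hx⟩
  choose D hD using h1
  obtain ⟨t, ht1, ht2, ht3⟩ := TopologicalSpace.countable_cover_nhdsWithin (s := S)
    (f := fun x => (D x).V) (fun x hx => mem_nhdsWithin_of_mem_nhds ((D x).Vo.mem_nhds (hD x hx)))
  obtain ⟨p, hp⟩ : ∃ p : ℕ → E3, S ⊆ ⋃ i, (D (p i)).V := by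
    rcases t.eq_empty_or_nonempty with h | h
    · refine ⟨fun _ => 0, ?_⟩
      rw [h] at ht3
      simp only [mem_empty_iff_false, iUnion_of_empty, iUnion_empty] at ht3
      exact ht3.trans (empty_subset _)
    · obtain ⟨p, hp⟩ := ht2.exists_eq_range h
      refine ⟨p, ht3.trans ?_⟩
      rw [hp]
      intro x hx
      simp only [mem_range, iUnion_exists, iUnion_iUnion_eq', mem_iUnion] at hx ⊢
      exact hx
  set C : ℕ → Ch f U := fun i => D (p i) with hC
  set B : ℕ → Set E2 := fun i => ((C i).O ∩ (C i).gm ⁻¹' (Bx r)) \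
    ⋃ j ∈ Finset.range i, ((C i).O ∩ (C i).gm ⁻¹' ((C j).V)) with hB
  refine ⟨⟨C, B, fun i => ?_, fun i y hy => hy.1.1, fun i y hy => hy.1.2, ?_, ?_⟩⟩
  · refine MeasurableSet.diff ?_ ?_
    · exact ((C i).gm_cont.isOpen_inter_preimage (C i).Oo (isOpen_Bx r)).measurableSet
    · exact Finset.measurableSet_biUnion _ fun j _ =>
        ((C i).gm_cont.isOpen_inter_preimage (C i).Oo (C j).Vo).measurableSet
  · have key : ∀ i j, i < j → ∀ y ∈ B i, ∀ z ∈ B j, (C i).gm y ≠ (C j).gm z := by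
      intro i j hij y hy z hz h
      refine hz.2 ?_
      simp only [mem_iUnion]
      refine ⟨i, Finset.mem_range.2 hij, hz.1.1, ?_⟩
      show (C j).gm z ∈ (C i).V
      rw [← h]
      exact ((C i).b y hy.1.1).1
    intro i j hij y hy z hz h
    rcases lt_or_gt_of_ne hij with h1 | h1
    · exact key i j h1 y hy z hz h
    · exact key j i h1 z hz y hy h.symm
  · intro x hx hfx hfz
    have hxS : x ∈ S := ⟨hx, hfx, hfz⟩
    have h2 : ∃ i, x ∈ (C i).V := by simpa using hp hxS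
    set i := Nat.find h2 with hi
    have h3 : x ∈ (C i).V := Nat.find_spec h2
    obtain ⟨h4, h5⟩ := (C i).a x h3 hfx
    have h6 : (C i).gm (Fin.tail x) = x := by
      show (Fin.cons ((C i).s (Fin.tail x)) (Fin.tail x) : E3) = x
      rw [← h5]; exact Fin.cons_self_tail x
    refine ⟨i, ⟨⟨h4, ?_⟩, ?_⟩, h6⟩
    · show (C i).gm (Fin.tail x) ∈ Bx r
      rw [h6]; exact hx
    · simp only [mem_iUnion, not_exists]
      intro j hj h7
      have h8 : (C i).gm (Fin.tail x) ∈ (C j).V := h7.2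
      rw [h6] at h8
      exact Nat.find_min h2 (Finset.mem_range.1 hj) h8

/-- the type of simple points over `y` -/
abbrev Sh (f : E3 → ℂ) (r : ℝ) (y : E2) : Type :=
  {z : ℂ // ‖z‖ < r ∧ f (Fin.cons z y) = 0 ∧ coordDeriv f 0 (Fin.cons z y) ≠ 0}

theorem Cov.sum {f : E3 → ℂ} {U : Set E3} {r : ℝ} (K : Cov f U r) (φ : E3 → ℝ≥0∞) {y : E2}
    (hy : y ∈ Bp r) : ∑' z : Sh f r y, φ (Fin.cons z.1 y) =
      ∑' i, (K.B i).indicator (fun y => φ ((K.C i).gm y)) y := by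
  classical
  let T : {i : ℕ | y ∈ K.B i} → Sh f r y := fun i =>
    ⟨(K.C i.1).s y, (mem_Bx_cons.1 (K.Bb i.1 y i.2)).1, ((K.C i.1).b y (K.BO i.1 i.2)).2,
      (K.C i.1).fz _ ((K.C i.1).b y (K.BO i.1 i.2)).1⟩
  have hT : Bijective T := by
    constructor
    · rintro ⟨i, hi⟩ ⟨j, hj⟩ hij
      by_contra hne
      have hne' : i ≠ j := fun h => hne (by subst h; rfl)
      refine K.dis i j hne' y hi y hj ?_
      have h1 : (K.C i).s y = (K.C j).s y := congrArg Subtype.val hij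
      show (Fin.cons ((K.C i).s y) y : E3) = Fin.cons ((K.C j).s y) y
      rw [h1]
    · rintro ⟨z, hz1, hz2, hz3⟩
      obtain ⟨i, hi1, hi2⟩ := K.cov (Fin.cons z y) (mem_Bx_cons.2 ⟨hz1, hy⟩) hz2 hz3
      rw [Fin.tail_cons] at hi1 hi2
      refine ⟨⟨i, hi1⟩, ?_⟩
      apply Subtype.ext
      have := congrFun hi2 0
      exact this
  calc ∑' z : Sh f r y, φ (Fin.cons z.1 y)
      = ∑' i : {i : ℕ | y ∈ K.B i}, φ (Fin.cons (T i).1 y) :=
        ((Equiv.ofBijective T hT).tsum_eq (fun z : Sh f r y => φ (Fin.cons z.1 y))).symm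
    _ = ∑' i : {i : ℕ | y ∈ K.B i}, (fun i : ℕ => φ ((K.C i).gm y)) i := rfl
    _ = ∑' i : ℕ, ({i : ℕ | y ∈ K.B i}).indicator (fun i : ℕ => φ ((K.C i).gm y)) i :=
        tsum_subtype {i : ℕ | y ∈ K.B i} (fun i : ℕ => φ ((K.C i).gm y))
    _ = _ := by
        refine tsum_congr fun i => ?_
        by_cases h : y ∈ K.B i
        · rw [indicator_of_mem h, indicator_of_mem (show i ∈ {i : ℕ | y ∈ K.B i} from h)]
        · rw [indicator_of_notMem h, indicator_of_notMem (show i ∉ {i : ℕ | y ∈ K.B i} from h)]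

theorem Cov.B_sub {f : E3 → ℂ} {U : Set E3} {r : ℝ} (K : Cov f U r) (i : ℕ) :
    K.B i ⊆ Bp r := fun y hy => (mem_Bx_cons.1 (K.Bb i y hy)).2

theorem Cov.lint {f : E3 → ℂ} {U : Set E3} {r : ℝ} (K : Cov f U r) (φ : E3 → ℝ≥0∞)
    (hφ : ∀ i, AEMeasurable (fun y => φ ((K.C i).gm y)) (volume.restrict (K.B i))) :
    ∫⁻ y in Bp r, ∑' z : Sh f r y, φ (Fin.cons z.1 y) =
      ∑' i, ∫⁻ y in K.B i, φ ((K.C i).gm y) := by
  calc ∫⁻ y in Bp r, ∑' z : Sh f r y, φ (Fin.cons z.1 y)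
      = ∫⁻ y in Bp r, ∑' i, (K.B i).indicator (fun y => φ ((K.C i).gm y)) y :=
        setLIntegral_congr_fun (isOpen_Bp r).measurableSet fun y hy => K.sum φ hy
    _ = ∑' i, ∫⁻ y in Bp r, (K.B i).indicator (fun y => φ ((K.C i).gm y)) y := by
        refine lintegral_tsum fun i => ?_
        rw [aemeasurable_indicator_iff (K.Bm i), Measure.restrict_restrict (K.Bm i),
          inter_eq_left.2 (K.B_sub i)]
        exact hφ i
    _ = _ := by
        congr 1; ext i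
        rw [lintegral_indicator (K.Bm i), Measure.restrict_restrict (K.Bm i),
          inter_eq_left.2 (K.B_sub i)]

end Crest.Agent.R257.Det_219
end
end

-- ▼ part R257/DetD_219

/-!
R257 / DetD_219 (leaf DET): the area inequality on `{f = 0}`:
`∑_i ∫⁻_{B_i} |Dt|²/|∂₀f|² Φ(g,h) ≤ N ∫⁻_Q Φ`, and its case `Φ = 1` : `Dt f g h ∈ J_1(f)`.
-/

set_option autoImplicit false

open Topology Filter MeasureTheory Set Function
open scoped ENNReal NNReal
open Crest.AlgGeometry.Germ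
open Crest.Agent.R257.Defs_219

noncomputable section

namespace Crest.Agent.R257.Det_219

theorem cd_an {f : E3 → ℂ} {U : Set E3} (h : AnalyticOnNhd ℂ f U) (i : Fin 3) :
    AnalyticOnNhd ℂ (coordDeriv f i) U := fun x hx => by
  have h1 : AnalyticAt ℂ (fderiv ℂ f) x := (h x hx).fderiv
  have h2 := (ContinuousLinearMap.apply ℂ ℂ (Pi.single i (1:ℂ) : E3)).analyticAt
    (fderiv ℂ f x)
  exact h2.comp h1

theorem dt_an {f g h : E3 → ℂ} {U : Set E3} (hf : AnalyticOnNhd ℂ f U)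
    (hg : AnalyticOnNhd ℂ g U) (hh : AnalyticOnNhd ℂ h U) :
    AnalyticOnNhd ℂ (Dt f g h) U := by
  have h1 : Dt f g h = fun x =>
      gr f x 0 * gr g x 1 * gr h x 2 - gr f x 0 * gr g x 2 * gr h x 1 -
      gr f x 1 * gr g x 0 * gr h x 2 + gr f x 1 * gr g x 2 * gr h x 0 +
      gr f x 2 * gr g x 0 * gr h x 1 - gr f x 2 * gr g x 1 * gr h x 0 := by
    funext x
    rw [Dt, Matrix.det_fin_three]
    simp only [Matrix.of_apply, Matrix.cons_val_zero, Matrix.cons_val_one, Matrix.cons_val]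
  rw [h1]
  have f' : ∀ i, AnalyticOnNhd ℂ (fun x => gr f x i) U := fun i => cd_an hf i
  have g' : ∀ i, AnalyticOnNhd ℂ (fun x => gr g x i) U := fun i => cd_an hg i
  have h' : ∀ i, AnalyticOnNhd ℂ (fun x => gr h x i) U := fun i => cd_an hh i
  exact ((((((f' 0).mul (g' 1)).mul (h' 2)).sub (((f' 0).mul (g' 2)).mul (h' 1))).sub
    (((f' 1).mul (g' 0)).mul (h' 2))).add (((f' 1).mul (g' 2)).mul (h' 0))).add
    (((f' 2).mul (g' 0)).mul (h' 1)) |>.sub (((f' 2).mul (g' 1)).mul (h' 0))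

theorem Ch.gm_mem {f : E3 → ℂ} {U : Set E3} (C : Ch f U) {y : E2} (hy : y ∈ C.O) :
    C.gm y ∈ U := C.VU (C.b y hy).1

theorem Ch.gm_inj {f : E3 → ℂ} {U : Set E3} (C : Ch f U) : Injective C.gm := fun y z h => by
  have := congrArg Fin.tail h
  simpa [Ch.gm] using this

/-- the integrand `w/|∂₀f|²` -/
def Wf (f g h : E3 → ℂ) (Φ : E2 → ℝ≥0∞) (x : E3) : ℝ≥0∞ :=
  ENNReal.ofReal (‖Dt f g h x‖ ^ 2 / ‖coordDeriv f 0 x‖ ^ 2) * Φ ![g x, h x]

theorem area_bound {f g h : E3 → ℂ} {U : Set E3} {r : ℝ} (hf : AnalyticOnNhd ℂ f U)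
    (hg : AnalyticOnNhd ℂ g U) (hh : AnalyticOnNhd ℂ h U) (K : Cov f U r) {N : ℕ}
    (hN : ∀ y : E2, {x | x ∈ Bx r ∧ f x = 0 ∧ g x = y 0 ∧ h x = y 1}.encard ≤ N)
    {Φ : E2 → ℝ≥0∞} (hΦ : Measurable Φ) {Q : Set E2} (hQ : MeasurableSet Q)
    (hgh : ∀ x ∈ Bx r, ![g x, h x] ∈ Q) :
    ∑' i, ∫⁻ y in K.B i, Wf f g h Φ ((K.C i).gm y) ≤ N * ∫⁻ y in Q, Φ y := by
  classical
  set s : ℕ → Set E2 := fun i => K.B i ∩ {y | Dt f g h ((K.C i).gm y) ≠ 0} with hs
  have hsm : ∀ i, MeasurableSet (s i) := by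
    intro i
    have h1 : ContinuousOn (fun y => Dt f g h ((K.C i).gm y)) (K.C i).O :=
      (dt_an hf hg hh).continuousOn.comp (K.C i).gm_cont fun y hy => (K.C i).gm_mem hy
    have h2 : IsOpen ((K.C i).O ∩ (fun y => Dt f g h ((K.C i).gm y)) ⁻¹' {0}ᶜ) :=
      h1.isOpen_inter_preimage (K.C i).Oo isOpen_compl_singleton
    have h3 : s i = K.B i ∩ ((K.C i).O ∩ (fun y => Dt f g h ((K.C i).gm y)) ⁻¹' {0}ᶜ) := by
      ext y
      constructor
      · rintro ⟨a, b⟩; exact ⟨a, K.BO i a, b⟩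
      · rintro ⟨a, _, b⟩; exact ⟨a, b⟩
    rw [h3]
    exact (K.Bm i).inter h2.measurableSet
  have hsO : ∀ i, ∀ y ∈ s i, y ∈ (K.C i).O := fun i y hy => K.BO i hy.1
  have hdet : ∀ i, ∀ y ∈ s i, DifferentiableAt ℂ ((K.C i).th g h) y ∧
      (fderiv ℂ ((K.C i).th g h) y).det =
        Dt f g h ((K.C i).gm y) / coordDeriv f 0 ((K.C i).gm y) := by
    intro i y hy
    have h1 : (K.C i).gm y ∈ U := (K.C i).gm_mem (hsO i y hy)
    exact (K.C i).th_det (hsO i y hy) (hf _ h1).differentiableAt (hg _ h1).differentiableAt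
      (hh _ h1).differentiableAt
  set A : ℕ → E2 → E2 →L[ℝ] E2 := fun i y => (fderiv ℂ ((K.C i).th g h) y).restrictScalars ℝ
    with hA
  have hAd : ∀ i, ∀ y ∈ s i, |(A i y).det| =
      ‖Dt f g h ((K.C i).gm y)‖ ^ 2 / ‖coordDeriv f 0 ((K.C i).gm y)‖ ^ 2 := by
    intro i y hy
    rw [hA, det_restrict, (hdet i y hy).2, norm_div, div_pow]
  have hAp : ∀ i, ∀ y ∈ s i, (A i y).det ≠ 0 := by
    intro i y hy h0
    have h1 := hAd i y hy
    rw [h0, abs_zero] at h1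
    have h2 : ‖Dt f g h ((K.C i).gm y)‖ ≠ 0 := norm_ne_zero_iff.2 hy.2
    have h3 : ‖coordDeriv f 0 ((K.C i).gm y)‖ ≠ 0 :=
      norm_ne_zero_iff.2 ((K.C i).fz _ ((K.C i).b y (hsO i y hy)).1)
    exact (div_ne_zero (pow_ne_zero 2 h2) (pow_ne_zero 2 h3)) h1.symm
  have hAder : ∀ i, ∀ y ∈ s i, HasFDerivWithinAt ((K.C i).th g h) (A i y) (s i) y :=
    fun i y hy => ((hdet i y hy).1.hasFDerivAt.restrictScalars ℝ).hasFDerivWithinAt
  have hpc := fun i => area_pieces (volume : Measure E2) ((K.C i).th g h) (s i) (A i) (hsm i)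
    (hAder i) (hAp i)
  choose t t1 t2 t3 t4 t5 t6 using hpc
  have e1 : ∀ i, ∫⁻ y in K.B i, Wf f g h Φ ((K.C i).gm y) =
      ∑' n, ∫⁻ y in ((K.C i).th g h) '' (s i ∩ t i n), Φ y := by
    intro i
    rw [← t6 i Φ, ← lintegral_indicator (K.Bm i), ← lintegral_indicator (hsm i)]
    congr 1; ext y
    by_cases hy : y ∈ s i
    · rw [indicator_of_mem hy, indicator_of_mem hy.1, hAd i y hy]
      rfl
    · rw [indicator_of_notMem hy]
      by_cases hyB : y ∈ K.B i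
      · rw [indicator_of_mem hyB]
        have h0 : Dt f g h ((K.C i).gm y) = 0 := by
          by_contra h0
          exact hy ⟨hyB, h0⟩
        simp [Wf, h0]
      · rw [indicator_of_notMem hyB]
  set P : ℕ × ℕ → Set E3 := fun p => (K.C p.1).gm '' (s p.1 ∩ t p.1 p.2) with hP
  set F : E3 → E2 := fun x => ![g x, h x] with hF
  have hFP : ∀ p, F '' (P p) = ((K.C p.1).th g h) '' (s p.1 ∩ t p.1 p.2) := by
    intro p
    rw [hP, image_image]
    rfl
  have hPd : Pairwise (Disjoint on P) := by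
    rintro ⟨i, n⟩ ⟨j, m⟩ hne
    rw [onFun, Set.disjoint_left]
    rintro _ ⟨y, hy, rfl⟩ ⟨z, hz, hzy⟩
    by_cases hij : i = j
    · subst hij
      have hnm : n ≠ m := fun h => hne (by subst h; rfl)
      have hyz : z = y := (K.C i).gm_inj hzy
      subst hyz
      exact Set.disjoint_left.1 (t1 i hnm) hy.2 hz.2
    · exact K.dis i j hij y hy.1.1 z hz.1.1 hzy.symm
  have hcount : ∀ y : E2, ∑' p, (F '' (P p)).indicator (fun _ => (1 : ℝ≥0∞)) y ≤ N := by
    intro y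
    refine tsum_indicator_le P F N hPd y (le_trans (Set.encard_le_encard ?_) (hN y))
    rintro x ⟨⟨p, z, hz, rfl⟩, hx⟩
    refine ⟨K.Bb p.1 z hz.1.1, ((K.C p.1).b z (K.BO p.1 hz.1.1)).2, ?_, ?_⟩
    · exact congrFun hx 0
    · exact congrFun hx 1
  have hFQ : ∀ p, F '' (P p) ⊆ Q := by
    rintro p _ ⟨x, ⟨z, hz, rfl⟩, rfl⟩
    exact hgh _ (K.Bb p.1 z hz.1.1)
  have hFm : ∀ p, MeasurableSet (F '' (P p)) := by
    intro p
    rw [hFP]
    exact t5 p.1 p.2
  calc ∑' i, ∫⁻ y in K.B i, Wf f g h Φ ((K.C i).gm y)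
      = ∑' i, ∑' n, ∫⁻ y in F '' (P (i, n)), Φ y := by
        refine tsum_congr fun i => ?_
        rw [e1 i]
        refine tsum_congr fun n => ?_
        rw [hFP]
    _ = ∑' p : ℕ × ℕ, ∫⁻ y in F '' (P p), Φ y := (ENNReal.tsum_prod (f := fun i n =>
          ∫⁻ y in F '' (P (i, n)), Φ y)).symm
    _ = ∑' p : ℕ × ℕ, ∫⁻ y, (F '' (P p)).indicator Φ y := by
        refine tsum_congr fun p => ?_
        rw [lintegral_indicator (hFm p)]
    _ = ∫⁻ y, ∑' p : ℕ × ℕ, (F '' (P p)).indicator Φ y :=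
        (lintegral_tsum fun p => (hΦ.indicator (hFm p)).aemeasurable).symm
    _ ≤ ∫⁻ y, N * Q.indicator Φ y := by
        refine lintegral_mono fun y => ?_
        have h1 : ∀ p, (F '' (P p)).indicator Φ y =
            (F '' (P p)).indicator (fun _ => (1 : ℝ≥0∞)) y * Q.indicator Φ y := by
          intro p
          by_cases hy : y ∈ F '' (P p)
          · rw [indicator_of_mem hy, indicator_of_mem hy, one_mul,
              indicator_of_mem (hFQ p hy)]
          · rw [indicator_of_notMem hy, indicator_of_notMem hy, zero_mul]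
        simp only [h1]
        rw [ENNReal.tsum_mul_right]
        gcongr
        exact hcount y
    _ = N * ∫⁻ y in Q, Φ y := by
        rw [lintegral_const_mul _ (hΦ.indicator hQ), lintegral_indicator hQ]

end Crest.Agent.R257.Det_219
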