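import Crest.Agent.R273.YauC3_812
import Crest.Agent.R273.YauMax_635
import Crest.Agent.R257.Unif_835

-- ▼ part R257/Est1_37
section

/-!
Row 257 (S0395), leaf E-EST / E-CL, helper37: the Chern-Lu inequality at a maximum point, in the
eigenvalue form (no trace function).

`lev u z v` is `Defs_333.lev` (four times the Levi form), `cH u z` the complex Hessian.

`chernLu_at_max` : `u, a, f, h` smooth near `O`, `lev u > 0`, `lev a > 0`, `det cH u = c * exp f`,
`(O, v)` a local maximum of `log lev a z ξ - log lev u z ξ + h z`, the curvature of `a` bounded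
above by `B` at `O`, `lev h ≥ (B + 1) lev a - A' lev u` and `lev f ≤ K lev u` at `O`.
Then `lev a O v ≤ (A' n + K) lev u O v`.
-/

set_option autoImplicit false
set_option linter.unusedSimpArgs false
set_option linter.unusedSectionVars false

open Set Filter Topology Complex
open scoped ContDiff ComplexConjugate ComplexOrder

namespace Crest.Agent.R257.Est1_37

open Crest.Agent.R273.YSm_812 Crest.Agent.R273.YJet_812 Crest.Agent.R273.YC3_812
open Crest.Agent.R275.Geo Crest.Agent.R275.Core144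
open Crest.Agent.R273.Defs_333 Crest.Agent.R273.YauDefs_635 Crest.Agent.R273.YauC3_812
open Crest.Agent.R273.YauCh_635

variable {n : ℕ}

/-! ### the sesquilinear form of the second derivative -/

/-- the sesquilinear form `∂∂̄ b` at `O` (linear in `ξ`) -/
noncomputable def sq (b : Cn n → ℝ) (O ξ η : Cn n) : ℂ :=
  (1 / 4 : ℂ) * (((D2 b O ξ η + D2 b O (I • ξ) (I • η) : ℝ) : ℂ)
    + I * ((D2 b O ξ (I • η) - D2 b O (I • ξ) η : ℝ) : ℂ))

theorem D2_add_left (b : Cn n → ℝ) (O x y η : Cn n) :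
    D2 b O (x + y) η = D2 b O x η + D2 b O y η := by
  simp [D2]

theorem D2_add_right (b : Cn n → ℝ) (O ξ x y : Cn n) :
    D2 b O ξ (x + y) = D2 b O ξ x + D2 b O ξ y := by
  simp [D2]

theorem D2_smul_left (b : Cn n → ℝ) (O x η : Cn n) (c : ℝ) :
    D2 b O (c • x) η = c * D2 b O x η := by
  simp [D2]

theorem D2_smul_right (b : Cn n → ℝ) (O x η : Cn n) (c : ℝ) :
    D2 b O x (c • η) = c * D2 b O x η := by
  simp [D2]

theorem II_smul (x : Cn n) : I • (I • x) = (-1 : ℝ) • x := by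
  rw [smul_smul, I_mul_I]
  simp

theorem sq_add_left (b : Cn n → ℝ) (O x y η : Cn n) :
    sq b O (x + y) η = sq b O x η + sq b O y η := by
  simp only [sq, smul_add, D2_add_left]
  push_cast
  ring

theorem sq_add_right (b : Cn n → ℝ) (O ξ x y : Cn n) :
    sq b O ξ (x + y) = sq b O ξ x + sq b O ξ y := by
  simp only [sq, smul_add, D2_add_right]
  push_cast
  ring

theorem sq_smul_left (b : Cn n → ℝ) (O x η : Cn n) (c : ℂ) :
    sq b O (c • x) η = c * sq b O x η := by
  have h1 : c • x = c.re • x + c.im • (I • x) := smul_decomp c x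
  have h2 : I • (c • x) = c.re • (I • x) + c.im • ((-1 : ℝ) • x) := by
    rw [smul_comm I c x, smul_decomp c (I • x), II_smul]
  simp only [sq]
  rw [h2, h1]
  simp only [D2_add_left, D2_smul_left]
  conv_rhs => rw [← re_add_im c]
  push_cast
  linear_combination (-(1 / 4 : ℂ) * c.im * ((D2 b O x (I • η) : ℝ) : ℂ) + (1 / 4 : ℂ) * c.im
    * ((D2 b O (I • x) η : ℝ) : ℂ)) * I_mul_I

theorem sq_smul_right (b : Cn n → ℝ) (O x η : Cn n) (c : ℂ) :
    sq b O x (c • η) = conj c * sq b O x η := by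
  have h1 : c • η = c.re • η + c.im • (I • η) := smul_decomp c η
  have h2 : I • (c • η) = c.re • (I • η) + c.im • ((-1 : ℝ) • η) := by
    rw [smul_comm I c η, smul_decomp c (I • η), II_smul]
  have h3 : conj c = c.re - c.im * I := by
    apply Complex.ext <;> simp
  simp only [sq]
  rw [h2, h1]
  simp only [D2_add_right, D2_smul_right]
  rw [h3]
  push_cast
  linear_combination ((1 / 4 : ℂ) * c.im * ((D2 b O x (I • η) : ℝ) : ℂ) - (1 / 4 : ℂ) * c.im
    * ((D2 b O (I • x) η : ℝ) : ℂ)) * I_mul_I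

/-- bundled form -/
noncomputable def S (b : Cn n → ℝ) (O : Cn n) : Cn n →ₗ[ℂ] Cn n →ₛₗ[starRingEnd ℂ] ℂ :=
  LinearMap.mk₂'ₛₗ (RingHom.id ℂ) (starRingEnd ℂ) (sq b O) (sq_add_left b O)
    (fun c x y => by rw [sq_smul_left]; rfl) (sq_add_right b O)
    (fun c x y => by rw [sq_smul_right]; rfl)





/-- a unitary frame (normalised by `lev u O (w q) = 1`) of the metric `lev u O` -/
structure Frm (u : Cn n → ℝ) (O : Cn n) (w : Fin n → Cn n) : Prop where
  one : ∀ q, lev u O (w q) = 1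
  le : ∀ b : Cn n → ℝ, (∀ ξ, 0 ≤ lev b O ξ) → ∀ v,
    lev b O v ≤ (∑ q, lev b O (w q)) * lev u O v


/-! ### smoothness of `z ↦ lev a z (V z)` -/

section smooth

variable {Ω : Set (Cn n)}



end smooth


section field

variable {Ω : Set (Cn n)}

/-- the linear part of the field `Zv` -/
noncomputable def Lin (hΩ : IsOpen Ω) (w : Module.Basis (Fin n) ℂ (Cn n)) (O : Ω) (u : Sm Ω)
    (c : Fin n → ℂ) : Cn n →L[ℂ] Cn n :=
  -∑ x, (∑ k, c k • Lc hΩ w O u k x).smulRight (w x)


end field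

end Crest.Agent.R257.Est1_37
end

-- ▼ part R257/Est2_37
section

/-!
Row 257 (S0395), leaf E-EST / E-CL, helper37: the Chern-Lu inequality at a maximum point.

* `chernLu_frame`  : `-B tr(a) + tr(h) ≤ lev f O v / lev u O v` in a unitary frame of `lev u O`
* `chernLu_at_max` : the consequence `lev a O v ≤ (A' n + K) lev u O v`
-/

set_option autoImplicit false
set_option linter.unusedSimpArgs false
set_option linter.unusedSectionVars false

open Set Filter Topology Complex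
open scoped ContDiff ComplexConjugate ComplexOrder

namespace Crest.Agent.R257.Est2_37

open Crest.Agent.R273.YSm_812 Crest.Agent.R273.YJet_812 Crest.Agent.R273.YC3_812
open Crest.Agent.R275.Geo Crest.Agent.R275.Core144
open Crest.Agent.R273.Defs_333 Crest.Agent.R273.YauDefs_635 Crest.Agent.R273.YauC3_812
open Crest.Agent.R273.YauCh_635 Crest.Agent.R257.Est1_37

variable {n : ℕ} {Ω : Set (Cn n)}






theorem lev_sub' {f g : Cn n → ℝ} {z : Cn n} (hf : ContDiffAt ℝ 2 f z) (hg : ContDiffAt ℝ 2 g z)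
    (v : Cn n) : lev (fun z => f z - g z) z v = lev f z v - lev g z v := by
  rw [lev333_eq_lev145, lev333_eq_lev145, lev333_eq_lev145, Crest.Agent.R273.Levi_145.lev_sub hf hg]
  ring





end Crest.Agent.R257.Est2_37
end

-- ▼ part R257/Est3_37
section

/-!
Row 257 (S0395), leaf E-C0, helper37: the comparison principle for `det cH u = e^u * e`, i.e. for
`MA H φ (F + φ)`.

* `det_cH_mono`  : `κ lev b ≤ lev u` implies `κ^n det cH b ≤ det cH u`
* `le_at_min`, `le_at_max` : pointwise comparison with a sub/supersolution (local, in `Cn n`)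
* `upper`        : `MA H φ (F + φ)`, `-C ≤ F` imply `φ ≤ C`
* `lower`        : `ψ` global subsolution: `ψ + n log κ - C ≤ φ`
* `SmU`, `sub_le`, `le_super` : comparison on a compact part `K ⊆ U` of a manifold with boundary
                   condition on `K \ interior K`
-/

set_option autoImplicit false
set_option linter.unusedSimpArgs false
set_option linter.unusedSectionVars false

open Set Filter Topology Complex
open scoped ContDiff ComplexConjugate ComplexOrder

namespace Crest.Agent.R257.Est3_37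

open Crest.Agent.R275.Geo Crest.Agent.R275.Core144 Crest.Agent.R275.GC293
open Crest.Agent.R273.Defs_333 Crest.Agent.R273.YauDefs_635 Crest.Agent.R273.HM_333
open Crest.Agent.R273.YauCh_635 Crest.Agent.R273.YauMax_635 Crest.Agent.R273.Hess_333
open Crest.Agent.R273.HessB_333 Crest.Agent.R257.Est2_37 Crest.Agent.R273.Kah_333

noncomputable section

variable {n : ℕ}

theorem two_inf : (2 : WithTop ℕ∞) ≤ ∞ := WithTop.coe_le_coe.2 (le_top : (2 : ℕ∞) ≤ ⊤)

/-! ### determinants -/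

theorem det_pos_of {b : Cn n → ℝ} {z : Cn n} (hb : ContDiffAt ℝ ∞ b z)
    (hp : ∀ v : Cn n, v ≠ 0 → 0 < lev b z v) :
    0 < (cH b z).det.re ∧ (cH b z).det = (((cH b z).det.re : ℝ) : ℂ) := by
  have h1 := (posDef_hess hb hp).det_pos
  rw [← cH_eq_hess hb] at h1
  have h2 := Complex.pos_iff.1 h1
  exact ⟨h2.1, Complex.ext (by simp) (by simp [h2.2])⟩

theorem hess_real_smul {b : Cn n → ℝ} {z : Cn n} (hb : ContDiffAt ℝ ∞ b z) (κ : ℝ) :
    hess (fun w => κ * b w) z = (κ : ℂ) • hess b z := hess_const_mul κ hb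

theorem lev_real_smul {b : Cn n → ℝ} {z : Cn n} (hb : ContDiffAt ℝ 2 b z) (κ : ℝ) (v : Cn n) :
    lev (fun w => κ * b w) z v = κ * lev b z v := by
  rw [lev333_eq_lev145, lev333_eq_lev145, Crest.Agent.R273.Levi_145.lev_const_mul κ hb]
  ring

/-- monotonicity of the Monge-Ampere operator -/
theorem det_cH_mono {u b : Cn n → ℝ} {z : Cn n} (hu : ContDiffAt ℝ ∞ u z)
    (hb : ContDiffAt ℝ ∞ b z) (hp : ∀ v : Cn n, v ≠ 0 → 0 < lev b z v) {κ : ℝ} (hκ : 0 < κ)
    (h : ∀ v, κ * lev b z v ≤ lev u z v) :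
    κ ^ n * (cH b z).det.re ≤ (cH u z).det.re := by
  have hb2 := hb.of_le two_inf
  have hu2 := hu.of_le two_inf
  have hκb : ContDiffAt ℝ ∞ (fun w => κ * b w) z := contDiffAt_const.mul hb
  have h1 : (hess (fun w => κ * b w) z).PosDef := posDef_hess hκb fun v hv => by
    rw [lev_real_smul hb2]
    exact mul_pos hκ (hp v hv)
  have h2 : (hess (fun w => u w - κ * b w) z).PosSemidef :=
    posSemidef_hess (hu.sub hκb) fun v => by
      rw [lev_sub' hu2 (hκb.of_le two_inf), lev_real_smul hb2]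
      linarith [h v]
  have h3 := det_le_det_add h1 h2
  rw [hess_sub hu hκb, add_sub_cancel, hess_real_smul hb, Matrix.det_smul, Fintype.card_fin,
    ← cH_eq_hess hb, ← cH_eq_hess hu] at h3
  rw [(det_pos_of hb hp).2, ← ofReal_pow, ← ofReal_mul] at h3
  have h4 := (Complex.le_def.1 h3).1
  rw [ofReal_re] at h4
  exact h4

/-! ### local comparison -/

/-- comparison with a subsolution at a minimum of `u - ψ` -/
theorem le_at_min {u ψ b : Cn n → ℝ} {z : Cn n} (hu : ContDiffAt ℝ ∞ u z)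
    (hψ : ContDiffAt ℝ ∞ ψ z) (hb : ContDiffAt ℝ ∞ b z)
    (hmin : IsLocalMin (fun w => u w - ψ w) z) (hp : ∀ v : Cn n, v ≠ 0 → 0 < lev b z v)
    {κ e : ℝ} (hκ : 0 < κ) (he : 0 < e) (hsub : ∀ v, κ * lev b z v ≤ lev ψ z v)
    (hdet : (cH u z).det = ((Real.exp (u z) * e : ℝ) : ℂ))
    (hE : Real.exp (ψ z) * e ≤ κ ^ n * (cH b z).det.re) : ψ z ≤ u z := by
  have h1 := lev_nonneg_of_localMin ((hu.sub hψ).of_le two_inf) hmin
  have h2 : ∀ v, κ * lev b z v ≤ lev u z v := fun v => by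
    have := h1 v
    rw [lev_sub' (hu.of_le two_inf) (hψ.of_le two_inf)] at this
    linarith [hsub v]
  have h3 := det_cH_mono hu hb hp hκ h2
  rw [hdet, ofReal_re] at h3
  have h4 : Real.exp (ψ z) ≤ Real.exp (u z) := le_of_mul_le_mul_right (hE.trans h3) he
  exact Real.exp_le_exp.1 h4


/-! ### global comparison on a compact manifold -/

variable {M : Type} [TopologicalSpace M] {A : Atl n M} {L : LB A}

theorem pot_sub (H : HM L) (φ ψ : M → ℝ) (i : A.ι) :
    (fun w => pot H φ i w - pot H ψ i w) = inC A i (fun x => φ x - ψ x) := by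
  funext w
  simp only [pot, inC]
  ring

/-- upper bound of the solution -/
theorem upper [CompactSpace M] [Nonempty M] {H : HM L} (hH : H.Pos) {φ F : M → ℝ}
    (hφ : A.Sm φ) (hK : KPos H φ) (hMA : MA H φ (fun x => F x + φ x)) {C : ℝ}
    (hF : ∀ x, -C ≤ F x) : ∀ x, φ x ≤ C := by
  obtain ⟨y, -, hy⟩ := isCompact_univ.exists_isMaxOn univ_nonempty
    (continuous_of_sm hφ).continuousOn
  have h1 := f_nonpos_of_max hH hφ hK hMA (hy.isLocalMax univ_mem)
  intro x
  have h2 : φ x ≤ φ y := hy (mem_univ x)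
  linarith [hF y]

/-- lower bound of the solution by a global subsolution -/
theorem lower [CompactSpace M] [Nonempty M] {H : HM L} (hH : H.Pos) {φ ψ F : M → ℝ}
    (hφ : A.Sm φ) (hψ : A.Sm ψ) (hMA : MA H φ (fun x => F x + φ x)) {κ C : ℝ} (hκ : 0 < κ)
    (hsub : ∀ i, ∀ z ∈ (A.e i).target, ∀ v, κ * lev (H.wt i) z v ≤ lev (pot H ψ i) z v)
    (hF : ∀ x, ψ x ≤ -F x + C) : ∀ x, ψ x + n * Real.log κ - C ≤ φ x := by
  have hd : A.Sm (fun x => φ x - ψ x) := fun i => (hφ i).sub (hψ i)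
  obtain ⟨y, -, hy⟩ := isCompact_univ.exists_isMinOn univ_nonempty
    (continuous_of_sm hd).continuousOn
  obtain ⟨i, hi⟩ := A.cover y
  have hz := (A.e i).map_source hi
  set z := A.e i y with hzdef
  have hmin : IsLocalMin (inC A i (fun x => φ x - ψ x)) z :=
    inC_localMin (hy.isLocalMin univ_mem) hi
  have h1 := lev_nonneg_of_localMin (inC_c2 hd i hz) hmin
  have c1 := pot_contDiffAt H hφ i hz
  have c2 := pot_contDiffAt H hψ i hz
  have c3 := wt_contDiffAt H i hz
  have h2 : ∀ v, κ * lev (H.wt i) z v ≤ lev (pot H φ i) z v := fun v => by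
    have h3 := h1 v
    rw [← pot_sub H φ ψ i, lev_sub' (c1.of_le two_inf) (c2.of_le two_inf)] at h3
    linarith [hsub i z hz v]
  have h3 := det_cH_mono c1 c3 (fun v hv => hH i z hz v hv) hκ h2
  have h4 := hMA i z hz
  obtain ⟨h5, h6⟩ := det_pos_of c3 (fun v hv => hH i z hz v hv)
  rw [h6, ← ofReal_mul] at h4
  rw [h4, ofReal_re] at h3
  have h7 : κ ^ n ≤ Real.exp (inC A i (fun x => F x + φ x) z) := le_of_mul_le_mul_right h3 h5
  have h8 : inC A i (fun x => F x + φ x) z = F y + φ y := by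
    simp only [inC, hzdef, (A.e i).left_inv hi]
  rw [h8, ← Real.exp_log hκ, ← Real.exp_nat_mul, Real.exp_le_exp] at h7
  intro x
  have h9 : φ y - ψ y ≤ φ x - ψ x := hy (mem_univ x)
  linarith [hF y]

/-! ### comparison on a compact part -/

/-- `φ` is smooth on the open set `U` (read in all charts) -/
def SmU (A : Atl n M) (U : Set M) (φ : M → ℝ) : Prop :=
  ∀ i, ∀ x ∈ (A.e i).source ∩ U, ContDiffAt ℝ ∞ (inC A i φ) (A.e i x)

theorem SmU.continuousOn {U : Set M} {φ : M → ℝ} (h : SmU A U φ) : ContinuousOn φ U := by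
  intro x hx
  obtain ⟨i, hi⟩ := A.cover x
  have h1 : ContinuousAt (inC A i φ) (A.e i x) := (h i x ⟨hi, hx⟩).continuousAt
  have h2 : ContinuousAt (fun y => inC A i φ (A.e i y)) x :=
    ContinuousAt.comp (f := A.e i) h1 ((A.e i).continuousAt hi)
  refine (h2.congr ?_).continuousWithinAt
  filter_upwards [(A.e i).open_source.mem_nhds hi] with y hy
  simp [inC, (A.e i).left_inv hy]

theorem SmU.sub {U : Set M} {φ ψ : M → ℝ} (h : SmU A U φ) (h' : SmU A U ψ) :
    SmU A U (fun x => φ x - ψ x) := fun i x hx => (h i x hx).sub (h' i x hx)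

theorem SmU.add {U : Set M} {φ ψ : M → ℝ} (h : SmU A U φ) (h' : SmU A U ψ) :
    SmU A U (fun x => φ x + ψ x) := fun i x hx => (h i x hx).add (h' i x hx)

theorem SmU.const_mul {U : Set M} {φ : M → ℝ} (h : SmU A U φ) (c : ℝ) :
    SmU A U (fun x => c * φ x) := fun i x hx => contDiffAt_const.mul (h i x hx)

theorem SmU.of_sm {U : Set M} {φ : M → ℝ} (h : A.Sm φ) : SmU A U φ :=
  fun i _ hx => inC_contDiffAt h i ((A.e i).map_source hx.1)

theorem SmU.mono {U V : Set M} {φ : M → ℝ} (h : SmU A U φ) (hV : V ⊆ U) : SmU A V φ :=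
  fun i x hx => h i x ⟨hx.1, hV hx.2⟩

/-- minimum principle on a compact set -/
theorem min_compact {K U : Set M} (hK : IsCompact K) (hKU : K ⊆ U) {g : M → ℝ}
    (hg : SmU A U g) (hint : ∀ x ∈ interior K, IsLocalMin g x → 0 ≤ g x)
    (hbd : ∀ x ∈ K, x ∉ interior K → 0 ≤ g x) : ∀ x ∈ K, 0 ≤ g x := by
  intro x hx
  obtain ⟨y, hyK, hy⟩ := hK.exists_isMinOn ⟨x, hx⟩ (hg.continuousOn.mono hKU)
  have h1 : 0 ≤ g y := by
    by_cases hyi : y ∈ interior K
    · exact hint y hyi (hy.isLocalMin (mem_interior_iff_mem_nhds.1 hyi))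
    · exact hbd y hyK hyi
  exact h1.trans (hy hx)

/-- **comparison with a subsolution `ψ` on a compact part**: `det cH u = e^u * e`,
`ω_ψ ≥ κ ω_b`, `e^ψ * e ≤ κ^n det cH b` inside, `ψ ≤ u` on the boundary -/
theorem sub_le {K U : Set M} (hK : IsCompact K) (hKU : K ⊆ U) {u ψ b : M → ℝ}
    (hu : SmU A U u) (hψ : SmU A U ψ) (hb : SmU A U b) {κ : ℝ} (hκ : 0 < κ)
    (e : A.ι → Cn n → ℝ)
    (he : ∀ i, ∀ x ∈ (A.e i).source ∩ interior K, 0 < e i (A.e i x))
    (hp : ∀ i, ∀ x ∈ (A.e i).source ∩ interior K, ∀ v : Cn n, v ≠ 0 →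
      0 < lev (inC A i b) (A.e i x) v)
    (hsub : ∀ i, ∀ x ∈ (A.e i).source ∩ interior K, ∀ v,
      κ * lev (inC A i b) (A.e i x) v ≤ lev (inC A i ψ) (A.e i x) v)
    (hdet : ∀ i, ∀ x ∈ (A.e i).source ∩ interior K,
      (cH (inC A i u) (A.e i x)).det = ((Real.exp (u x) * e i (A.e i x) : ℝ) : ℂ))
    (hE : ∀ i, ∀ x ∈ (A.e i).source ∩ interior K,
      Real.exp (ψ x) * e i (A.e i x) ≤ κ ^ n * (cH (inC A i b) (A.e i x)).det.re)
    (hbd : ∀ x ∈ K, x ∉ interior K → ψ x ≤ u x) : ∀ x ∈ K, ψ x ≤ u x := by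
  have key : ∀ x ∈ K, 0 ≤ u x - ψ x := by
    refine min_compact hK hKU (hu.sub hψ) (fun x hx hm => ?_) fun x hx hxi => by
      linarith [hbd x hx hxi]
    obtain ⟨i, hi⟩ := A.cover x
    have hxU : x ∈ (A.e i).source ∩ U := ⟨hi, hKU (interior_subset hx)⟩
    have hxK : x ∈ (A.e i).source ∩ interior K := ⟨hi, hx⟩
    have hm' : IsLocalMin (fun w => inC A i u w - inC A i ψ w) (A.e i x) :=
      inC_localMin (φ := fun x => u x - ψ x) hm hi
    have ev : ∀ φ : M → ℝ, inC A i φ (A.e i x) = φ x := fun φ => by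
      simp [inC, (A.e i).left_inv hi]
    have h1 := le_at_min (hu i x hxU) (hψ i x hxU) (hb i x hxU) hm' (hp i x hxK) hκ
      (he i x hxK) (hsub i x hxK) (by rw [ev]; exact hdet i x hxK) (by rw [ev]; exact hE i x hxK)
    rw [ev, ev] at h1
    linarith
  intro x hx
  linarith [key x hx]


end

end Crest.Agent.R257.Est3_37
end

-- ▼ part R257/EHyp_835

/-!
# R257 (S0395), Part E (helper835): uniform global bounds of the Kaehler-Einstein weights

For `X = S_(t,s)`, `W` the Kaehler-Einstein weight, `κ = d - n - 2 > mu`, uniformly in `(t,s)`: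
`κ log |Z|² + mu log (|x|²/|Z|²) - C ≤ W Z ≤ κ log |Z|² + C`  (`GD.bounds`).
-/

set_option autoImplicit false
set_option linter.unusedSectionVars false

open Set Filter Topology Complex
open scoped ContDiff Matrix ComplexConjugate Manifold

namespace Crest.Agent.R257.EHyp_835

open Crest.Agent.R275.Geo Crest.Agent.R275.Core144 Crest.Agent.R275.GC293
open Crest.Agent.R273.Defs_333 Crest.Agent.R273.YauDefs_635 Crest.Agent.R273.YauCh_635
open Crest.Agent.R273
open Crest.Agent.R257.PN_835 Crest.Agent.R257.Gram_835 Crest.Agent.R257.Hyp_835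
open Crest.Agent.R257.KEl_835
open Crest.Agent.R257.KE_835 Crest.Agent.R257.Aff_835 Crest.Agent.R257.Hom_835
open Crest.Agent.R257.Unif_835
open Crest.Agent.R273.FS_333 (sq)

noncomputable section

variable {n d mu : ℕ}

theorem nsq_div_smul {a : ℂ} (ha : a ≠ 0) (Z : HC (n + 1)) :
    nsq (tl (a • Z)) / nsq (a • Z) = nsq (tl Z) / nsq Z := by
  rw [tl_smul, nsq_smul, nsq_smul, mul_div_mul_left]
  positivity

/-- the weight `mu log (|x|²/|Z|²)` -/
def psc (mu : ℕ) (Z : HC (n + 1)) : ℝ := mu * Real.log (nsq (tl Z) / nsq Z)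

theorem psc_smul {a : ℂ} (ha : a ≠ 0) (Z : HC (n + 1)) : psc mu (a • Z) = psc mu Z := by
  unfold psc
  rw [nsq_div_smul ha]

variable {X : Hyp n d}

/-- the weight on the surface -/
def psS (X : Hyp n d) (mu : ℕ) (x : X.S) : ℝ := psc mu (rep x)

theorem psS_eq {Z : HC (n + 1)} (hZ : Z ≠ 0) {x : X.S} (h : cls Z hZ = x.1) :
    psS X mu x = psc mu Z := by
  have h1 : cls (rep x) (rep_ne x) = cls Z hZ := (cls_rep x).trans h.symm
  obtain ⟨c, hc⟩ := (cls_eq_iff _ _).1 h1
  have hc0 : c ≠ 0 := by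
    rintro rfl
    rw [zero_smul] at hc
    exact rep_ne x hc
  rw [psS, hc, psc_smul hc0]

section Surf

variable (B : HAtl X) (htl : ∀ Z, Z ≠ 0 → X.H Z = 0 → tl Z ≠ 0)
include htl

theorem tl_Fi {i : B.A.ι} {z : Cn n} (hz : z ∈ (B.A.e i).target) : tl (Fi B i z) ≠ 0 :=
  htl _ ((lift_Fi B i).ne z hz) ((lift_Fi B i).zero z hz)

theorem contDiffAt_log_tl {i : B.A.ι} {z : Cn n} (hz : z ∈ (B.A.e i).target) :
    ContDiffAt ℝ ∞ (fun z => Real.log (nsq (tl (Fi B i z)))) z := by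
  have hL := lift_Fi B i
  have h1 : ContDiffAt ℝ ∞ (fun z => nsq (tl (Fi B i z))) z := by
    refine ContDiffAt.sum fun k _ => ?_
    exact (Crest.Agent.R273.FS_333.contDiffAt_of_hol hL.isOpen (hL.holk k.succ) hz).norm_sq ℝ
  exact h1.log (nsq_pos (tl_Fi B htl hz)).ne'

omit htl in
theorem contDiffAt_log_Fi {i : B.A.ι} {z : Cn n} (hz : z ∈ (B.A.e i).target) :
    ContDiffAt ℝ ∞ (fun z => Real.log (nsq (Fi B i z))) z := by
  have hL := lift_Fi B i
  exact (contDiffAt_nsq hL.isOpen hL.hol hz).log (nsq_pos (hL.ne z hz)).ne'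

theorem psS_chart {i : B.A.ι} {z : Cn n} (hz : z ∈ (B.A.e i).target) :
    psS X mu ((B.A.e i).symm z) = mu * Real.log (nsq (tl (Fi B i z))) -
      mu * Real.log (nsq (Fi B i z)) := by
  rw [psS_eq (HAtl.F_ne ((B.A.e i).map_target hz)) (HAtl.cls_F ((B.A.e i).map_target hz))]
  show mu * Real.log (nsq (tl (Fi B i z)) / nsq (Fi B i z)) = _
  rw [Real.log_div (nsq_pos (tl_Fi B htl hz)).ne' (nsq_pos ((lift_Fi B i).ne z hz)).ne']
  ring

theorem psS_sm : B.A.Sm (psS X mu) := by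
  intro i z hz
  refine ContDiffAt.contDiffWithinAt ?_
  have h1 := contDiffAt_log_tl B htl hz
  have h2 := contDiffAt_log_Fi B hz
  refine ((contDiffAt_const.mul h1).sub (contDiffAt_const.mul h2)).congr_of_eventuallyEq
    (f := fun z => (mu : ℝ) * Real.log (nsq (tl (Fi B i z))) -
      (mu : ℝ) * Real.log (nsq (Fi B i z))) ?_
  filter_upwards [(B.A.e i).open_target.mem_nhds hz] with w hw
  exact psS_chart B htl hw

/-- the global subsolution -/
theorem psS_lev {κ : ℕ} (hκ : mu < κ) (i : B.A.ι) {z : Cn n} (hz : z ∈ (B.A.e i).target)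
    (v : Cn n) : (((κ - mu : ℝ)) / κ) * lev ((H0 B κ).wt i) z v ≤
      lev (pot (H0 B κ) (psS X mu) i) z v := by
  have hL := lift_Fi B i
  have h1 := contDiffAt_log_tl B htl hz
  have h2 := contDiffAt_log_Fi B hz
  have hκ0 : (0 : ℝ) < κ := by
    have : 0 < κ := by omega
    exact_mod_cast this
  have e1 : (H0 B κ).wt i = fun w => (κ : ℝ) * Real.log (nsq (Fi B i w)) := by
    funext w
    rw [wt_H0]
    rfl
  have e2 : pot (H0 B κ) (psS X mu) i =ᶠ[𝓝 z] fun w =>
      ((κ - mu : ℝ)) * Real.log (nsq (Fi B i w)) + mu * Real.log (nsq (tl (Fi B i w))) := by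
    filter_upwards [(B.A.e i).open_target.mem_nhds hz] with w hw
    rw [pot_eq, psS_chart B htl hw]
    ring
  rw [lev_congr e2, e1, lev_mul (h2.of_le two_le_inf)]
  have h3 : lev (fun w => ((κ - mu : ℝ)) * Real.log (nsq (Fi B i w)) +
      mu * Real.log (nsq (tl (Fi B i w)))) z v =
      (κ - mu : ℝ) * lev (fun w => Real.log (nsq (Fi B i w))) z v +
      mu * lev (fun w => Real.log (nsq (tl (Fi B i w)))) z v := by
    rw [lev333_eq_lev145, Levi_145.lev_add (contDiffAt_const.mul (h2.of_le two_le_inf))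
      (contDiffAt_const.mul (h1.of_le two_le_inf)), mul_add,
      ← lev333_eq_lev145 (fun w => ((κ - mu : ℝ)) * Real.log (nsq (Fi B i w))),
      ← lev333_eq_lev145 (fun w => (mu : ℝ) * Real.log (nsq (tl (Fi B i w)))),
      lev_mul (h2.of_le two_le_inf), lev_mul (h1.of_le two_le_inf)]
  have h4 : 0 ≤ lev (fun w => Real.log (nsq (tl (Fi B i w)))) z v := by
    rw [lev333_eq_lev145]
    have h5 : ∀ j : Fin (n + 1), AnalyticAt ℂ (fun z => Fi B i z j.succ) z := fun j =>
      Crest.Agent.R266.SCV.analyticOnNhd_of_differentiableOn hL.isOpen (hL.holk j.succ) z hz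
    obtain ⟨j, hj⟩ := Function.ne_iff.1 (tl_Fi B htl hz)
    have h6 := Levi_145.lev_log_sumSq_nonneg (F := fun (j : Fin (n + 1)) z => Fi B i z j.succ)
      h5 ⟨j, hj⟩ v
    have h7 : 0 ≤ 4 * Levi_145.lev (fun w => Real.log (Levi_145.sumSq
        (fun (j : Fin (n + 1)) z => Fi B i z j.succ) w)) z v := by linarith
    exact h7
  rw [h3]
  have h8 : (κ - mu : ℝ) / κ * (κ * lev (fun w => Real.log (nsq (Fi B i w))) z v) =
      (κ - mu : ℝ) * lev (fun w => Real.log (nsq (Fi B i w))) z v := by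
    field_simp
  rw [h8]
  have h9 : (0 : ℝ) ≤ mu * lev (fun w => Real.log (nsq (tl (Fi B i w)))) z v :=
    mul_nonneg (Nat.cast_nonneg _) h4
  linarith

end Surf

/-! ### the uniform bounds -/

variable (D : GD n d mu)

theorem GD.tl_ne {t s : ℂ} (ht : ‖t‖ < D.R) (hs : s ≠ 0) {Z : HC (n + 1)} (hZ : Z ≠ 0)
    (h0 : D.H (t, s) Z = 0) : tl Z ≠ 0 := by
  intro h
  have hZ0 : Z 0 ≠ 0 := by
    intro h1
    apply hZ
    funext k
    refine Fin.cases h1 (fun k => congrFun h k) k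
  have h1 : Z = Z 0 • hc (0 : AC n) := by
    funext k
    refine Fin.cases ?_ (fun k => ?_) k
    · simp
    · rw [Pi.smul_apply, hc_succ, Pi.zero_apply, smul_zero]
      exact congrFun h k
  have h2 : HH d (D.P t) D.c s (Z 0 • hc (0 : AC n)) = 0 := by rw [← h1]; exact h0
  rw [HH_smul (D.deg t ht), HH_hc (D.deg t ht), D.zero t ht, zero_sub] at h2
  exact (mul_ne_zero (pow_ne_zero _ hZ0) (neg_ne_zero.2 hs)) h2


/-- **uniform global bounds** -/
theorem GD.bounds {κ : ℕ} (hd : d = n + 2 + κ) (hκ : mu < κ) : ∃ e > 0, e ≤ D.R ∧ ∃ C : ℝ,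
    ∀ (t s : ℂ) (ht : ‖t‖ < D.R) (hs : 0 < ‖s‖ ∧ ‖s‖ < D.R), ‖t‖ < e → ‖s‖ < e →
      ∀ (B : HAtl (D.X ht hs)) (φ : (D.X ht hs).S → ℝ), B.A.Sm φ → KPos (H0 B κ) φ →
        MA (H0 B κ) φ (fun x => FF κ x + φ x) → ∀ Z : HC (n + 1), Z ≠ 0 → D.H (t, s) Z = 0 →
          Wc κ φ Z ≤ κ * Real.log (nsq Z) + C ∧
          κ * Real.log (nsq Z) + mu * Real.log (nsq (tl Z) / nsq Z) - C ≤ Wc κ φ Z := by
  obtain ⟨Cu, hCu, hup⟩ := D.upper
  obtain ⟨c1, hc1, e, he, heR, hlo⟩ := D.lower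
  have hR := D.R_pos
  have hκ0 : 0 < κ := by omega
  have hκr : (0 : ℝ) < κ := by exact_mod_cast hκ0
  have hκmu : (0 : ℝ) < κ - mu := by
    have : (mu : ℝ) < κ := by exact_mod_cast hκ
    linarith
  have hd0 : 0 < d := by omega
  refine ⟨min e (D.R / 2), lt_min he (by positivity), (min_le_left _ _).trans heR,
    max (Real.log Cu + n * Real.log κ) (-(n * Real.log (κ - mu) + Real.log c1)), ?_⟩
  intro t s ht hs hte hse B φ hφ hpos hMA Z hZ hHZ
  have hte' : ‖t‖ < e := hte.trans_le (min_le_left _ _)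
  have hse' : ‖s‖ < e := hse.trans_le (min_le_left _ _)
  have hs0 : s ≠ 0 := norm_pos_iff.1 hs.1
  have htl : ∀ Z, Z ≠ 0 → (D.X ht hs).H Z = 0 → tl Z ≠ 0 := fun Z hZ h => GD.tl_ne D ht hs0 hZ h
  have hne : Nonempty (D.X ht hs).S := ⟨⟨cls Z hZ, ((D.X ht hs).cls_mem hZ).2 hHZ⟩⟩
  -- the gradient
  have hngpos : ∀ Z : HC (n + 1), Z ≠ 0 → D.H (t, s) Z = 0 → 0 < D.ng (t, s) Z := fun Z hZ h =>
    (D.X ht hs).ng_pos hZ h
  have hFF : ∀ Z : HC (n + 1), FFc (D.X ht hs) κ Z =
      - Real.log (D.ng (t, s) Z / nsq Z ^ (d - 1)) - n * Real.log κ := fun Z => rfl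
  -- upper bound
  have h1 : ∀ x : (D.X ht hs).S, -(Real.log Cu + n * Real.log κ) ≤ FF κ x := by
    intro x
    have hx := rep_ne x
    have hx0 : D.H (t, s) (rep x) = 0 := by
      have h2 := (D.X ht hs).cls_mem hx
      rw [cls_rep] at h2
      exact h2.1 x.2
    show _ ≤ FFc (D.X ht hs) κ (rep x)
    rw [hFF]
    have h2 := hup t s (hte.le.trans (min_le_right _ _)) hs.2.le (rep x) hx
    have h3 : 0 < nsq (rep x) ^ (d - 1) := pow_pos (nsq_pos hx) _
    have h4 : D.ng (t, s) (rep x) / nsq (rep x) ^ (d - 1) ≤ Cu := by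
      rw [div_le_iff₀ h3]
      exact h2
    have h5 : 0 < D.ng (t, s) (rep x) / nsq (rep x) ^ (d - 1) := div_pos (hngpos _ hx hx0) h3
    have h6 := Real.log_le_log h5 h4
    linarith
  have hup' := Est3_37.upper (H0_pos B hκ0) hφ hpos hMA h1
  -- lower bound
  have h2 : ∀ x : (D.X ht hs).S, psS (D.X ht hs) mu x ≤
      -FF κ x + (-(n * Real.log κ) - Real.log c1) := by
    intro x
    obtain ⟨a, Z', ha, hZ1, hxZ⟩ := exists_unit (rep_ne x)
    have hZ' : Z' ≠ 0 := by
      rintro rfl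
      simp [nsq] at hZ1
    have hx0 : D.H (t, s) (rep x) = 0 := by
      have h2 := (D.X ht hs).cls_mem (rep_ne x)
      rw [cls_rep] at h2
      exact h2.1 x.2
    have hZ0 : D.H (t, s) Z' = 0 := by
      rw [hxZ] at hx0
      have h3 : D.H (t, s) (a • Z') = a ^ d * D.H (t, s) Z' := (D.X ht hs).hom a Z'
      rw [h3] at hx0
      exact (mul_eq_zero.1 hx0).resolve_left (pow_ne_zero _ ha)
    show psc mu (rep x) ≤ -FFc (D.X ht hs) κ (rep x) + _
    rw [hxZ, psc_smul ha, FFc_smul hd0 κ ha, hFF, psc, hZ1, one_pow, div_one, div_one]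
    have h3 := hlo t s hte' hse' Z' hZ1 hZ0
    have h4 : 0 < nsq (tl Z') := nsq_pos (htl Z' hZ' hZ0)
    have h5 := Real.log_le_log (by positivity) h3
    rw [Real.log_mul hc1.ne' (pow_pos h4 _).ne', Real.log_pow] at h5
    linarith
  have hκ' : 0 < ((κ - mu : ℝ)) / κ := div_pos hκmu hκr
  have hlo' := Est3_37.lower (H0_pos B hκ0) hφ (psS_sm B htl) hMA hκ'
    (fun i z hz v => psS_lev B htl hκ i hz v) h2
  set x : (D.X ht hs).S := ⟨cls Z hZ, ((D.X ht hs).cls_mem hZ).2 hHZ⟩ with hx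
  have hW : Wc κ φ Z = κ * Real.log (nsq Z) + φ x := by
    rw [Wc, phE_eq φ hZ hHZ (x := x) rfl]
  have hps : psS (D.X ht hs) mu x = mu * Real.log (nsq (tl Z) / nsq Z) :=
    psS_eq hZ (x := x) rfl
  have h3 := hup' x
  have h4 := hlo' x
  rw [hps, Real.log_div hκmu.ne' hκr.ne'] at h4
  rw [hW]
  constructor
  · linarith [le_max_left (Real.log Cu + n * Real.log κ) (-(n * Real.log (κ - mu) + Real.log c1))]
  · have := le_max_right (Real.log Cu + n * Real.log κ) (-(n * Real.log (κ - mu) + Real.log c1))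
    have h5 : (n : ℝ) * (Real.log (κ - mu) - Real.log κ) = n * Real.log (κ - mu) -
      n * Real.log κ := by ring
    rw [h5] at h4
    linarith

end

end Crest.Agent.R257.EHyp_835
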