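import Crest.Agent.R273.SchA_152
import Crest.Agent.R273.YauSchF_635

-- ▼ part R257/ELocA_611
section

/-!
# R257 (S0395), E-LOC (helper611), part A: calculus of locally uniformly bounded families

* `UH a U F`   : the family `F i : X → V` is locally uniformly bounded in `C^a` on `U`
* `UC a U k F` : smooth functions, locally uniformly bounded in `C^{k,a}`
* `UB k U F`   : locally uniformly bounded `iteratedFDeriv` up to order `k`
-/

set_option autoImplicit false

open Set Metric Filter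
open scoped ContDiff Topology

namespace Crest.Agent.R257.ELoc_611

open Crest.Agent.R273.SchA_152

/-- locally uniformly bounded in `C^a` -/
def UH {ι X V : Type*} [NormedAddCommGroup X] [NormedAddCommGroup V] (a : ℝ) (U : Set X)
    (F : ι → X → V) : Prop :=
  ∀ x ∈ U, ∃ r > 0, ∃ C : ℝ, 0 ≤ C ∧ ∀ i, HO a C (ball x r) (F i)

/-- locally uniformly bounded in `C^k` -/
def UB {ι X V : Type*} [NormedAddCommGroup X] [NormedSpace ℝ X] [NormedAddCommGroup V]
    [NormedSpace ℝ V] (k : ℕ) (U : Set X) (F : ι → X → V) : Prop :=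
  ∀ x ∈ U, ∃ r > 0, ∃ C : ℝ, ∀ i, ∀ y ∈ ball x r, ∀ m ≤ k, ‖iteratedFDeriv ℝ m (F i) y‖ ≤ C

section uh

variable {ι X V W Z : Type*} [NormedAddCommGroup X]
  [NormedAddCommGroup V] [NormedAddCommGroup W] [NormedAddCommGroup Z] {a : ℝ} {U U' : Set X}
  {F G : ι → X → V}

theorem UH.subset (h : UH a U F) (hU : U' ⊆ U) : UH a U' F := fun x hx => h x (hU hx)

theorem UH.congr (hU : IsOpen U) (h : UH a U F) (he : ∀ i, ∀ x ∈ U, G i x = F i x) :
    UH a U G := by
  intro x hx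
  obtain ⟨r, hr, C, hC, H⟩ := h x hx
  obtain ⟨s, hs, hsU⟩ := Metric.isOpen_iff.1 hU x hx
  refine ⟨min r s, lt_min hr hs, C, hC, fun i => ?_⟩
  exact ((H i).subset (ball_subset_ball (min_le_left _ _))).congr fun y hy =>
    he i y (hsU (ball_subset_ball (min_le_right _ _) hy))

theorem UH.add (h : UH a U F) (h' : UH a U G) : UH a U (fun i x => F i x + G i x) := by
  intro x hx
  obtain ⟨r, hr, C, hC, H⟩ := h x hx
  obtain ⟨s, hs, D, hD, H'⟩ := h' x hx
  exact ⟨min r s, lt_min hr hs, C + D, by positivity, fun i =>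
    ((H i).subset (ball_subset_ball (min_le_left _ _))).add
      ((H' i).subset (ball_subset_ball (min_le_right _ _)))⟩

theorem UH.const (c : V) : UH a U (fun (_ : ι) (_ : X) => c) := by
  intro x _
  refine ⟨1, one_pos, ‖c‖, norm_nonneg _, fun i => ⟨fun _ _ => le_rfl, fun y _ z _ => ?_⟩⟩
  rw [sub_self, norm_zero]
  exact mul_nonneg (norm_nonneg _) (Real.rpow_nonneg (norm_nonneg _) _)

/-- composition with a map which is Lipschitz on the relevant set -/
theorem UH.comp_lip {φ : V → W} (h : UH a U F)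
    (hφ : ∀ x ∈ U, ∃ r > 0, ∃ C : ℝ, 0 ≤ C ∧ (∀ i, ∀ y ∈ ball x r, ‖φ (F i y)‖ ≤ C) ∧
      ∀ i, ∀ y ∈ ball x r, ∀ z ∈ ball x r, ‖φ (F i y) - φ (F i z)‖ ≤ C * ‖F i y - F i z‖) :
    UH a U (fun i x => φ (F i x)) := by
  intro x hx
  obtain ⟨r, hr, C, hC, H⟩ := h x hx
  obtain ⟨s, hs, D, hD, H1, H2⟩ := hφ x hx
  refine ⟨min r s, lt_min hr hs, D + D * C, by positivity, fun i => ⟨fun y hy => ?_,
    fun y hy z hz => ?_⟩⟩
  · have := H1 i y (ball_subset_ball (min_le_right _ _) hy)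
    have : 0 ≤ D * C := by positivity
    linarith
  · have h1 := H2 i y (ball_subset_ball (min_le_right _ _) hy) z
      (ball_subset_ball (min_le_right _ _) hz)
    have h2 := (H i).hol y (ball_subset_ball (min_le_left _ _) hy) z
      (ball_subset_ball (min_le_left _ _) hz)
    have h3 : 0 ≤ ‖y - z‖ ^ a := Real.rpow_nonneg (norm_nonneg _) _
    calc _ ≤ D * ‖F i y - F i z‖ := h1
      _ ≤ D * (C * ‖y - z‖ ^ a) := mul_le_mul_of_nonneg_left h2 hD
      _ ≤ (D + D * C) * ‖y - z‖ ^ a := by nlinarith [mul_nonneg hD h3]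

end uh

section uhl

variable {ι X V W Z : Type*} [NormedAddCommGroup X]
  [NormedAddCommGroup V] [NormedSpace ℝ V] [NormedAddCommGroup W] [NormedSpace ℝ W]
  [NormedAddCommGroup Z] [NormedSpace ℝ Z] {a : ℝ} {U : Set X}

theorem UH.clm (L : V →L[ℝ] W) {F : ι → X → V} (h : UH a U F) :
    UH a U (fun i x => L (F i x)) := by
  intro x hx
  obtain ⟨r, hr, C, hC, H⟩ := h x hx
  refine ⟨r, hr, ‖L‖ * C, by positivity, fun i => ⟨fun y hy => ?_, fun y hy z hz => ?_⟩⟩
  · exact (L.le_opNorm _).trans (mul_le_mul_of_nonneg_left ((H i).bdd y hy) (norm_nonneg _))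
  · rw [← map_sub, mul_assoc]
    exact (L.le_opNorm _).trans (mul_le_mul_of_nonneg_left ((H i).hol y hy z hz) (norm_nonneg _))

theorem UH.bil (B : V →L[ℝ] W →L[ℝ] Z) {F : ι → X → V} {G : ι → X → W} (h : UH a U F)
    (h' : UH a U G) : UH a U (fun i x => B (F i x) (G i x)) := by
  intro x hx
  obtain ⟨r, hr, C, hC, H⟩ := h x hx
  obtain ⟨s, hs, D, hD, H'⟩ := h' x hx
  have hb : ∀ v w, ‖B v w‖ ≤ ‖B‖ * ‖v‖ * ‖w‖ := fun v w => B.le_opNorm₂ v w
  refine ⟨min r s, lt_min hr hs, 2 * (‖B‖ * C * D), by positivity,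
    fun i => ⟨fun y hy => ?_, fun y hy z hz => ?_⟩⟩
  · have h1 := (H i).bdd y (ball_subset_ball (min_le_left _ _) hy)
    have h2 := (H' i).bdd y (ball_subset_ball (min_le_right _ _) hy)
    calc _ ≤ ‖B‖ * ‖F i y‖ * ‖G i y‖ := hb _ _
      _ ≤ ‖B‖ * C * D := by gcongr
      _ ≤ 2 * (‖B‖ * C * D) := by
        have : 0 ≤ ‖B‖ * C * D := by positivity
        linarith
  · have h1 := (H i).bdd z (ball_subset_ball (min_le_left _ _) hz)
    have h2 := (H' i).bdd y (ball_subset_ball (min_le_right _ _) hy)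
    have h3 := (H i).hol y (ball_subset_ball (min_le_left _ _) hy) z
      (ball_subset_ball (min_le_left _ _) hz)
    have h4 := (H' i).hol y (ball_subset_ball (min_le_right _ _) hy) z
      (ball_subset_ball (min_le_right _ _) hz)
    have h5 : 0 ≤ ‖y - z‖ ^ a := Real.rpow_nonneg (norm_nonneg _) _
    have e : B (F i y) (G i y) - B (F i z) (G i z) =
        B (F i y - F i z) (G i y) + B (F i z) (G i y - G i z) := by
      simp only [map_sub, sub_apply]
      abel
    rw [e]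
    calc _ ≤ ‖B‖ * ‖F i y - F i z‖ * ‖G i y‖ + ‖B‖ * ‖F i z‖ * ‖G i y - G i z‖ :=
          (norm_add_le _ _).trans (add_le_add (hb _ _) (hb _ _))
      _ ≤ ‖B‖ * (C * ‖y - z‖ ^ a) * D + ‖B‖ * C * (D * ‖y - z‖ ^ a) := by gcongr
      _ = 2 * (‖B‖ * C * D) * ‖y - z‖ ^ a := by ring

end uhl

section lip

variable {ι X V : Type*} [NormedAddCommGroup X] [NormedSpace ℝ X]
  [NormedAddCommGroup V] [NormedSpace ℝ V] {a : ℝ} {U : Set X}

/-- on sets of diameter at most one a Lipschitz bound is a Hölder bound -/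
theorem le_rpow {t : ℝ} (ha : a ≤ 1) (h0 : 0 ≤ t) (h1 : t ≤ 1) : t ≤ t ^ a := by
  rcases h0.eq_or_lt with h | h
  · rw [← h]; exact Real.rpow_nonneg le_rfl _
  · calc t = t ^ (1 : ℝ) := (Real.rpow_one t).symm
      _ ≤ t ^ a := Real.rpow_le_rpow_of_exponent_ge h h1 ha

/-- locally uniform `C^1` bounds give locally uniform `C^a` bounds -/
theorem UH.of_c1 (ha : a ≤ 1) (hU : IsOpen U) {F : ι → X → V}
    (hd : ∀ i, ∀ x ∈ U, DifferentiableAt ℝ (F i) x)
    (h : ∀ x ∈ U, ∃ r > 0, ∃ C : ℝ, ∀ i, ∀ y ∈ ball x r, ‖F i y‖ ≤ C ∧ ‖fderiv ℝ (F i) y‖ ≤ C) :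
    UH a U F := by
  intro x hx
  obtain ⟨r, hr, C, H⟩ := h x hx
  obtain ⟨s, hs, hsU⟩ := Metric.isOpen_iff.1 hU x hx
  set t := min (min r s) (1 / 2) with ht
  have ht0 : 0 < t := lt_min (lt_min hr hs) (by norm_num)
  have hr' : ball x t ⊆ ball x r := ball_subset_ball ((min_le_left _ _).trans (min_le_left _ _))
  have hs' : ball x t ⊆ U :=
    (ball_subset_ball ((min_le_left _ _).trans (min_le_right _ _))).trans hsU
  refine ⟨t, ht0, |C|, abs_nonneg _, fun i => ⟨fun y hy =>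
    ((H i y (hr' hy)).1).trans (le_abs_self _), fun y hy z hz => ?_⟩⟩
  have h1 : ‖F i y - F i z‖ ≤ |C| * ‖y - z‖ :=
    (convex_ball x t).norm_image_sub_le_of_norm_fderiv_le (fun w hw => hd i w (hs' hw))
      (fun w hw => ((H i w (hr' hw)).2).trans (le_abs_self _)) hz hy
  refine h1.trans (mul_le_mul_of_nonneg_left (le_rpow ha (norm_nonneg _) ?_) (abs_nonneg _))
  rw [mem_ball] at hy hz
  have h2 := dist_triangle_right y z x
  rw [dist_eq_norm y z] at h2
  have : t ≤ 1 / 2 := min_le_right _ _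
  linarith

end lip

section uc

variable {ι : Type*} {X : Type} [NormedAddCommGroup X] [NormedSpace ℝ X]

/-- smooth functions, locally uniformly bounded in `C^{k,a}` -/
def UC (a : ℝ) (U : Set X) : ℕ → ∀ {V : Type} [NormedAddCommGroup V] [NormedSpace ℝ V],
    (ι → X → V) → Prop
  | 0, _, _, _, F => (∀ i, ContDiffOn ℝ ∞ (F i) U) ∧ UH a U F
  | k + 1, _, _, _, F => (∀ i, ContDiffOn ℝ ∞ (F i) U) ∧ UH a U F ∧
      UC a U k (fun i => fderiv ℝ (F i))

variable {a : ℝ} {U : Set X}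

theorem UC.smooth : ∀ {k : ℕ} {V : Type} [NormedAddCommGroup V] [NormedSpace ℝ V]
    {F : ι → X → V}, UC a U k F → ∀ i, ContDiffOn ℝ ∞ (F i) U
  | 0, _, _, _, _, h => h.1
  | _ + 1, _, _, _, _, h => h.1

theorem UC.uh : ∀ {k : ℕ} {V : Type} [NormedAddCommGroup V] [NormedSpace ℝ V]
    {F : ι → X → V}, UC a U k F → UH a U F
  | 0, _, _, _, _, h => h.2
  | _ + 1, _, _, _, _, h => h.2.1

theorem UC.fd {k : ℕ} {V : Type} [NormedAddCommGroup V] [NormedSpace ℝ V]
    {F : ι → X → V} (h : UC a U (k + 1) F) : UC a U k (fun i => fderiv ℝ (F i)) := h.2.2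

theorem UC.zero {V : Type} [NormedAddCommGroup V] [NormedSpace ℝ V]
    {F : ι → X → V} (h1 : ∀ i, ContDiffOn ℝ ∞ (F i) U) (h2 : UH a U F) : UC a U 0 F := ⟨h1, h2⟩

theorem UC.succ {k : ℕ} {V : Type} [NormedAddCommGroup V] [NormedSpace ℝ V]
    {F : ι → X → V} (h1 : ∀ i, ContDiffOn ℝ ∞ (F i) U) (h2 : UH a U F)
    (h3 : UC a U k (fun i => fderiv ℝ (F i))) : UC a U (k + 1) F := ⟨h1, h2, h3⟩

theorem UC.of_succ : ∀ {k : ℕ} {V : Type} [NormedAddCommGroup V] [NormedSpace ℝ V]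
    {F : ι → X → V}, UC a U (k + 1) F → UC a U k F
  | 0, _, _, _, _, h => ⟨h.1, h.2.1⟩
  | _ + 1, _, _, _, _, h => ⟨h.1, h.2.1, UC.of_succ h.2.2⟩

theorem UC.of_le {k l : ℕ} (hlk : l ≤ k) {V : Type} [NormedAddCommGroup V] [NormedSpace ℝ V]
    {F : ι → X → V} (h : UC a U k F) : UC a U l F := by
  induction k with
  | zero =>
    obtain rfl : l = 0 := Nat.le_zero.1 hlk
    exact h
  | succ k ih =>
    rcases Nat.lt_or_ge k l with h1 | h1
    · obtain rfl : l = k + 1 := le_antisymm hlk h1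
      exact h
    · exact ih h1 h.of_succ

theorem UC.congr (hU : IsOpen U) : ∀ {k : ℕ} {V : Type} [NormedAddCommGroup V] [NormedSpace ℝ V]
    {F G : ι → X → V}, UC a U k F → (∀ i, ∀ x ∈ U, G i x = F i x) → UC a U k G
  | 0, _, _, _, _, _, h, he => ⟨fun i => (h.1 i).congr (he i), h.2.congr hU he⟩
  | k + 1, _, _, _, F, G, h, he => by
    refine ⟨fun i => (h.1 i).congr (he i), h.2.1.congr hU he, UC.congr hU h.2.2 fun i x hx => ?_⟩
    exact Filter.EventuallyEq.fderiv_eq (Filter.eventually_of_mem (hU.mem_nhds hx) (he i))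

theorem UC.subset {U' : Set X} (hU : U' ⊆ U) : ∀ {k : ℕ} {V : Type} [NormedAddCommGroup V]
    [NormedSpace ℝ V] {F : ι → X → V}, UC a U k F → UC a U' k F
  | 0, _, _, _, _, h => ⟨fun i => (h.1 i).mono hU, h.2.subset hU⟩
  | _ + 1, _, _, _, _, h => ⟨fun i => (h.1 i).mono hU, h.2.1.subset hU, UC.subset hU h.2.2⟩

theorem diffAt_of_smooth (hU : IsOpen U) {V : Type*} [NormedAddCommGroup V] [NormedSpace ℝ V]
    {f : X → V} (hf : ContDiffOn ℝ ∞ f U) {x : X} (hx : x ∈ U) : DifferentiableAt ℝ f x :=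
  (hf.contDiffAt (hU.mem_nhds hx)).differentiableAt (by simp)

theorem smooth_fderiv (hU : IsOpen U) {V : Type*} [NormedAddCommGroup V] [NormedSpace ℝ V]
    {f : X → V} (hf : ContDiffOn ℝ ∞ f U) : ContDiffOn ℝ ∞ (fderiv ℝ f) U :=
  hf.fderiv_of_isOpen hU (by simp)

theorem UC.clm (hU : IsOpen U) : ∀ {k : ℕ} {V W : Type} [NormedAddCommGroup V] [NormedSpace ℝ V]
    [NormedAddCommGroup W] [NormedSpace ℝ W] (L : V →L[ℝ] W) {F : ι → X → V},
    UC a U k F → UC a U k (fun i x => L (F i x))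
  | 0, _, _, _, _, _, _, L, _, h => ⟨fun i => L.contDiff.comp_contDiffOn (h.1 i), h.2.clm L⟩
  | k + 1, V, W, _, _, _, _, L, F, h => by
    refine ⟨fun i => L.contDiff.comp_contDiffOn (h.1 i), h.2.1.clm L, ?_⟩
    refine UC.congr hU (UC.clm hU (ContinuousLinearMap.compL ℝ X V W L) h.2.2) fun i x hx => ?_
    exact ((L.hasFDerivAt (x := F i x)).comp x (diffAt_of_smooth hU (h.1 i) hx).hasFDerivAt).fderiv

theorem UC.add (hU : IsOpen U) : ∀ {k : ℕ} {V : Type} [NormedAddCommGroup V] [NormedSpace ℝ V]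
    {F G : ι → X → V}, UC a U k F → UC a U k G → UC a U k (fun i x => F i x + G i x)
  | 0, _, _, _, _, _, h, h' => ⟨fun i => (h.1 i).add (h'.1 i), h.2.add h'.2⟩
  | k + 1, _, _, _, F, G, h, h' => by
    refine ⟨fun i => (h.1 i).add (h'.1 i), h.2.1.add h'.2.1, ?_⟩
    refine UC.congr hU (UC.add hU h.2.2 h'.2.2) fun i x hx => ?_
    exact fderiv_fun_add (diffAt_of_smooth hU (h.1 i) hx) (diffAt_of_smooth hU (h'.1 i) hx)

theorem UC.const : ∀ {k : ℕ} {V : Type} [NormedAddCommGroup V] [NormedSpace ℝ V]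
    (c : V), UC a U k (fun (_ : ι) (_ : X) => c)
  | 0, _, _, _, c => ⟨fun _ => contDiffOn_const, UH.const c⟩
  | k + 1, V, _, _, c => by
    refine ⟨fun _ => contDiffOn_const, UH.const c, ?_⟩
    have : (fun (_ : ι) => fderiv ℝ (fun _ : X => c)) = fun _ _ => (0 : X →L[ℝ] V) := by
      funext i x
      simp
    rw [this]
    exact UC.const 0

theorem UC.bil (hU : IsOpen U) : ∀ {k : ℕ} {V W Z : Type} [NormedAddCommGroup V] [NormedSpace ℝ V]
    [NormedAddCommGroup W] [NormedSpace ℝ W] [NormedAddCommGroup Z] [NormedSpace ℝ Z]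
    (B : V →L[ℝ] W →L[ℝ] Z) {F : ι → X → V} {G : ι → X → W},
    UC a U k F → UC a U k G → UC a U k (fun i x => B (F i x) (G i x))
  | 0, _, _, _, _, _, _, _, _, _, B, _, _, h, h' =>
    ⟨fun i => B.isBoundedBilinearMap.contDiff.comp_contDiffOn ((h.1 i).prodMk (h'.1 i)),
      h.2.bil B h'.2⟩
  | k + 1, V, W, Z, _, _, _, _, _, _, B, F, G, h, h' => by
    refine ⟨fun i => B.isBoundedBilinearMap.contDiff.comp_contDiffOn ((h.1 i).prodMk (h'.1 i)),
      h.2.1.bil B h'.2.1, ?_⟩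
    have h1 := UC.bil hU (B.precompR X) h.of_succ h'.2.2
    have h2 := UC.bil hU (B.precompL X) h.2.2 h'.of_succ
    refine UC.congr hU (UC.add hU h1 h2) fun i x hx => ?_
    exact (B.hasFDerivAt_of_bilinear (diffAt_of_smooth hU (h.1 i) hx).hasFDerivAt
      (diffAt_of_smooth hU (h'.1 i) hx).hasFDerivAt).fderiv

/-! ### functions with values in `ℝ` and `ℂ` -/

theorem UC.exp (hU : IsOpen U) : ∀ {k : ℕ} {F : ι → X → ℝ}, UC a U k F →
    UC a U k (fun i x => Real.exp (F i x)) := by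
  have key : ∀ {F : ι → X → ℝ}, UH a U F → UH a U (fun i x => Real.exp (F i x)) := by
    intro F h
    refine h.comp_lip fun x hx => ?_
    obtain ⟨r, hr, C, hC, H⟩ := h x hx
    refine ⟨r, hr, Real.exp C, (Real.exp_pos _).le, fun i y hy => ?_, fun i y hy z hz => ?_⟩
    · rw [Real.norm_of_nonneg (Real.exp_pos _).le]
      exact Real.exp_le_exp.2 ((le_abs_self _).trans ((H i).bdd y hy))
    · refine (convex_Icc (-C) C).norm_image_sub_le_of_norm_deriv_le
        (fun t _ => Real.differentiableAt_exp) (fun t ht => ?_)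
        (abs_le.1 ((H i).bdd z hz)) (abs_le.1 ((H i).bdd y hy))
      rw [Real.deriv_exp, Real.norm_of_nonneg (Real.exp_pos _).le]
      exact Real.exp_le_exp.2 ht.2
  intro k
  induction k with
  | zero => exact fun h => ⟨fun i => Real.contDiff_exp.comp_contDiffOn (h.1 i), key h.2⟩
  | succ k ih =>
    intro F h
    refine ⟨fun i => Real.contDiff_exp.comp_contDiffOn (h.1 i), key h.2.1, ?_⟩
    refine UC.congr hU (UC.bil hU (ContinuousLinearMap.lsmul ℝ ℝ) (ih h.of_succ) h.2.2)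
      fun i x hx => ?_
    exact ((diffAt_of_smooth hU (h.1 i) hx).hasFDerivAt.exp).fderiv

theorem UC.mulC (hU : IsOpen U) {k : ℕ} {F G : ι → X → ℂ} (h : UC a U k F) (h' : UC a U k G) :
    UC a U k (fun i x => F i x * G i x) :=
  UC.bil hU (ContinuousLinearMap.mul ℝ ℂ) h h'

theorem UC.mulR (hU : IsOpen U) {k : ℕ} {F G : ι → X → ℝ} (h : UC a U k F) (h' : UC a U k G) :
    UC a U k (fun i x => F i x * G i x) :=
  UC.bil hU (ContinuousLinearMap.mul ℝ ℝ) h h'

theorem UC.ofReal (hU : IsOpen U) {k : ℕ} {F : ι → X → ℝ} (h : UC a U k F) :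
    UC a U k (fun i x => (F i x : ℂ)) :=
  UC.clm hU Complex.ofRealCLM h

theorem UC.re (hU : IsOpen U) {k : ℕ} {F : ι → X → ℂ} (h : UC a U k F) :
    UC a U k (fun i x => (F i x).re) :=
  UC.clm hU Complex.reCLM h

theorem UC.neg (hU : IsOpen U) {k : ℕ} {V : Type} [NormedAddCommGroup V] [NormedSpace ℝ V]
    {F : ι → X → V} (h : UC a U k F) : UC a U k (fun i x => - F i x) := by
  refine UC.congr hU (UC.clm hU (-ContinuousLinearMap.id ℝ V) h) fun i x _ => ?_
  simp

theorem UC.sub (hU : IsOpen U) {k : ℕ} {V : Type} [NormedAddCommGroup V] [NormedSpace ℝ V]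
    {F G : ι → X → V} (h : UC a U k F) (h' : UC a U k G) :
    UC a U k (fun i x => F i x - G i x) := by
  refine UC.congr hU (UC.add hU h (UC.neg hU h')) fun i x _ => ?_
  rw [sub_eq_add_neg]

theorem UC.sum (hU : IsOpen U) {k : ℕ} {V : Type} [NormedAddCommGroup V] [NormedSpace ℝ V]
    {κ : Type*} (s : Finset κ) {F : κ → ι → X → V} (h : ∀ j ∈ s, UC a U k (F j)) :
    UC a U k (fun i x => ∑ j ∈ s, F j i x) := by
  classical
  induction s using Finset.induction_on with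
  | empty => simpa using UC.const (a := a) (U := U) (ι := ι) (k := k) (0 : V)
  | insert j s hj ih =>
    simp only [Finset.sum_insert hj]
    exact UC.add hU (h j (Finset.mem_insert_self j s)) (ih fun l hl =>
      h l (Finset.mem_insert_of_mem hl))

theorem UC.prod (hU : IsOpen U) {k : ℕ} {κ : Type*} (s : Finset κ) {F : κ → ι → X → ℂ}
    (h : ∀ j ∈ s, UC a U k (F j)) : UC a U k (fun i x => ∏ j ∈ s, F j i x) := by
  classical
  induction s using Finset.induction_on with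
  | empty => simpa using UC.const (a := a) (U := U) (ι := ι) (k := k) (1 : ℂ)
  | insert j s hj ih =>
    simp only [Finset.prod_insert hj]
    exact UC.mulC hU (h j (Finset.mem_insert_self j s)) (ih fun l hl =>
      h l (Finset.mem_insert_of_mem hl))

theorem UC.det (hU : IsOpen U) {k n : ℕ} {M : ι → X → Matrix (Fin n) (Fin n) ℂ}
    (h : ∀ p q, UC a U k (fun i x => M i x p q)) : UC a U k (fun i x => (M i x).det) := by
  simp only [Matrix.det_apply, Units.smul_def]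
  refine UC.sum hU _ fun σ _ => ?_
  refine UC.congr hU (UC.mulC hU (UC.const ((Equiv.Perm.sign σ : ℤ) : ℂ))
    (UC.prod hU Finset.univ fun j _ => h (σ j) j)) fun i x _ => ?_
  simp

theorem UC.adj (hU : IsOpen U) {k n : ℕ} {M : ι → X → Matrix (Fin n) (Fin n) ℂ}
    (h : ∀ p q, UC a U k (fun i x => M i x p q)) (p q : Fin n) :
    UC a U k (fun i x => (M i x).adjugate p q) := by
  simp only [Matrix.adjugate_apply]
  refine UC.det hU fun p' q' => ?_
  by_cases hp : p' = q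
  · subst hp
    simp only [Matrix.updateRow_self]
    exact UC.const _
  · simp only [Matrix.updateRow_ne hp]
    exact h p' q'

/-! ### directional derivatives -/

theorem UC.dir (hU : IsOpen U) {k : ℕ} {V : Type} [NormedAddCommGroup V] [NormedSpace ℝ V]
    {F : ι → X → V} (h : UC a U (k + 1) F) (v : X) :
    UC a U k (fun i x => fderiv ℝ (F i) x v) :=
  UC.clm hU (ContinuousLinearMap.apply ℝ V v) h.2.2

theorem UC.of_dir [FiniteDimensional ℝ X] (hU : IsOpen U) {k : ℕ} {V : Type}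
    [NormedAddCommGroup V] [NormedSpace ℝ V] {F : ι → X → V}
    (h1 : ∀ i, ContDiffOn ℝ ∞ (F i) U) (h2 : UH a U F)
    (h : ∀ v : X, UC a U k (fun i x => fderiv ℝ (F i) x v)) : UC a U (k + 1) F := by
  refine ⟨h1, h2, ?_⟩
  have key : ∀ (L : X →L[ℝ] V), L = ∑ j, ContinuousLinearMap.smulRightL ℝ X V
      (LinearMap.toContinuousLinearMap ((Module.finBasis ℝ X).coord j))
      (L (Module.finBasis ℝ X j)) := by
    intro L
    ext v
    rw [sum_apply]
    conv_lhs => rw [← (Module.finBasis ℝ X).sum_repr v, map_sum]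
    refine Finset.sum_congr rfl fun j _ => ?_
    simp
  refine UC.congr hU (UC.sum hU Finset.univ fun j _ => UC.clm hU
    (ContinuousLinearMap.smulRightL ℝ X V
      (LinearMap.toContinuousLinearMap ((Module.finBasis ℝ X).coord j)))
    (h (Module.finBasis ℝ X j))) fun i x _ => ?_
  exact key _

/-! ### comparison with `iteratedFDeriv` -/

theorem UC.ub : ∀ {k : ℕ} {V : Type} [NormedAddCommGroup V] [NormedSpace ℝ V]
    {F : ι → X → V}, UC a U k F → UB k U F
  | 0, V, _, _, F, h => by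
    intro x hx
    obtain ⟨r, hr, C, hC, H⟩ := h.2 x hx
    refine ⟨r, hr, C, fun i y hy m hm => ?_⟩
    obtain rfl : m = 0 := Nat.le_zero.1 hm
    rw [norm_iteratedFDeriv_zero]
    exact (H i).bdd y hy
  | k + 1, V, _, _, F, h => by
    intro x hx
    obtain ⟨r, hr, C, hC, H⟩ := h.2.1 x hx
    obtain ⟨s, hs, D, H'⟩ := UC.ub h.2.2 x hx
    refine ⟨min r s, lt_min hr hs, max C D, fun i y hy m hm => ?_⟩
    rcases m with _ | m
    · rw [norm_iteratedFDeriv_zero]
      exact ((H i).bdd y (ball_subset_ball (min_le_left _ _) hy)).trans (le_max_left _ _)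
    · rw [← norm_iteratedFDeriv_fderiv]
      exact (H' i y (ball_subset_ball (min_le_right _ _) hy) m (by omega)).trans (le_max_right _ _)

theorem UC.of_ub (hU : IsOpen U) (ha : a ≤ 1) : ∀ {k : ℕ} {V : Type} [NormedAddCommGroup V]
    [NormedSpace ℝ V] {F : ι → X → V}, (∀ i, ContDiffOn ℝ ∞ (F i) U) → UB (k + 1) U F →
    UC a U k F := by
  have key : ∀ {k : ℕ} {V : Type} [NormedAddCommGroup V]
    [NormedSpace ℝ V] {F : ι → X → V}, (∀ i, ContDiffOn ℝ ∞ (F i) U) → UB (k + 1) U F →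
    UH a U F := by
    intro k V _ _ F h1 h
    refine UH.of_c1 ha hU (fun i x hx => diffAt_of_smooth hU (h1 i) hx) fun x hx => ?_
    obtain ⟨r, hr, C, H⟩ := h x hx
    refine ⟨r, hr, C, fun i y hy => ⟨?_, ?_⟩⟩
    · have := H i y hy 0 (by omega)
      rwa [norm_iteratedFDeriv_zero] at this
    · have := H i y hy 1 (by omega)
      rwa [norm_iteratedFDeriv_one] at this
  intro k
  induction k with
  | zero => exact fun h1 h => ⟨h1, key h1 h⟩
  | succ k ih =>
    intro V _ _ F h1 h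
    refine ⟨h1, key h1 h, ih (fun i => smooth_fderiv hU (h1 i)) fun x hx => ?_⟩
    obtain ⟨r, hr, C, H⟩ := h x hx
    refine ⟨r, hr, C, fun i y hy m hm => ?_⟩
    rw [norm_iteratedFDeriv_fderiv]
    exact H i y hy (m + 1) (by omega)

theorem UB.of_le {k l : ℕ} (hlk : l ≤ k) {V : Type*} [NormedAddCommGroup V] [NormedSpace ℝ V]
    {F : ι → X → V} (h : UB k U F) : UB l U F := by
  intro x hx
  obtain ⟨r, hr, C, H⟩ := h x hx
  exact ⟨r, hr, C, fun i y hy m hm => H i y hy m (hm.trans hlk)⟩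

theorem UB.bdd {k : ℕ} {V : Type*} [NormedAddCommGroup V] [NormedSpace ℝ V]
    {F : ι → X → V} (h : UB k U F) {x : X} (hx : x ∈ U) :
    ∃ r > 0, ∃ C : ℝ, 0 ≤ C ∧ ∀ i, ∀ y ∈ ball x r, ‖F i y‖ ≤ C := by
  obtain ⟨r, hr, C, H⟩ := h x hx
  refine ⟨r, hr, |C|, abs_nonneg _, fun i y hy => ?_⟩
  have := H i y hy 0 (Nat.zero_le _)
  rw [norm_iteratedFDeriv_zero] at this
  exact this.trans (le_abs_self _)

end uc

end Crest.Agent.R257.ELoc_611
end

-- ▼ part R257/ELocB_611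

/-!
# R257 (S0395), E-LOC (helper611), part B: linear Schauder estimates of all orders for families

`lin` : `Re tr(G_i ∂∂̄w_i) = f_i`, `G_i` elliptic, `G_i`, `f_i` locally uniformly in `C^{k,1/2}`,
`w_i` locally uniformly bounded => `w_i` locally uniformly in `C^{k+2,1/2}`.
-/

set_option autoImplicit false

open Set Metric Filter
open scoped ContDiff Topology Matrix

namespace Crest.Agent.R257.ELoc_611

open Crest.Agent.R275.Geo (Cn)
open Crest.Agent.R273.SchA_152 Crest.Agent.R273.SchD_152 Crest.Agent.R273.SchE_152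
open Crest.Agent.R273.YauDefs_635 (cH D2)
open Crest.Agent.R273.YauSchF_635
open Complex (I)

noncomputable section

variable {ι : Type*} {n : ℕ}

/-- finitely many locally uniformly bounded families have common radii and constants -/
theorem UH.fin {κ : Type*} [Finite κ] {X V : Type*} [NormedAddCommGroup X]
    [NormedAddCommGroup V] {a : ℝ} {U : Set X} {F : κ → ι → X → V} (h : ∀ j, UH a U (F j))
    {x : X} (hx : x ∈ U) :
    ∃ r > 0, ∃ C : ℝ, 0 ≤ C ∧ ∀ j i, HO a C (ball x r) (F j i) := by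
  have := Fintype.ofFinite κ
  choose r hr C hC H using fun j => h j x hx
  have h1 : ∀ᶠ t in 𝓝[>] (0 : ℝ), ∀ j, t ≤ r j := by
    rw [eventually_all]
    intro j
    have : ∀ᶠ t in 𝓝 (0 : ℝ), t ≤ r j := (Iic_mem_nhds (hr j))
    exact this.filter_mono nhdsWithin_le_nhds
  obtain ⟨t, ht, ht0⟩ := (h1.and self_mem_nhdsWithin).exists
  refine ⟨t, ht0, ∑ j, C j, Finset.sum_nonneg fun j _ => hC j, fun j i => ?_⟩
  exact ((H j i).subset (ball_subset_ball (ht j))).mono
    (Finset.single_le_sum (f := C) (fun j _ => hC j) (Finset.mem_univ j))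

/-- evaluation of a bilinear form -/
def E2 (v w : Cn n) : (Cn n →L[ℝ] Cn n →L[ℝ] ℝ) →L[ℝ] ℝ :=
  (ContinuousLinearMap.apply ℝ ℝ w).comp (ContinuousLinearMap.apply ℝ (Cn n →L[ℝ] ℝ) v)

theorem E2_apply (v w : Cn n) (B : Cn n →L[ℝ] Cn n →L[ℝ] ℝ) : E2 v w B = B v w := rfl

/-- the entries of the complex Hessian as linear functions of the second derivative -/
def cHL (p q : Fin n) : (Cn n →L[ℝ] Cn n →L[ℝ] ℝ) →L[ℝ] ℂ :=
  (ContinuousLinearMap.mul ℝ ℂ (1 / 4)).comp
    (Complex.ofRealCLM.comp (E2 (EuclideanSpace.single p 1) (EuclideanSpace.single q 1)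
        + E2 (EuclideanSpace.single p I) (EuclideanSpace.single q I))
      + (ContinuousLinearMap.mul ℝ ℂ I).comp
        (Complex.ofRealCLM.comp (E2 (EuclideanSpace.single p 1) (EuclideanSpace.single q I)
          + (-1 : ℝ) • E2 (EuclideanSpace.single p I) (EuclideanSpace.single q 1))))

theorem cH_eq_cHL (u : Cn n → ℝ) (z : Cn n) (p q : Fin n) :
    cH u z p q = cHL p q (fderiv ℝ (fderiv ℝ u) z) := by
  simp only [cH, Matrix.of_apply, cHL, D2, ContinuousLinearMap.comp_apply, add_apply,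
    smul_apply, smul_eq_mul, neg_one_mul, ← sub_eq_add_neg, E2_apply,
    ContinuousLinearMap.mul_apply', Complex.ofRealCLM_apply]

theorem UC.cH {a : ℝ} {U : Set (Cn n)} (hU : IsOpen U) {k : ℕ} {w : ι → Cn n → ℝ}
    (h : UC a U (k + 2) w) (p q : Fin n) : UC a U k (fun i z => cH (w i) z p q) :=
  UC.congr hU (UC.clm hU (cHL p q) h.fd.fd) fun i z _ => cH_eq_cHL (w i) z p q

theorem two_le_infty : (2 : WithTop ℕ∞) ≤ ∞ := WithTop.coe_le_coe.2 (le_top : (2 : ℕ∞) ≤ ⊤)

/-- composition with a continuous linear map, pointwise form -/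
theorem hasFDerivAt_clm {X V W : Type*} [NormedAddCommGroup X] [NormedSpace ℝ X]
    [NormedAddCommGroup V] [NormedSpace ℝ V] [NormedAddCommGroup W] [NormedSpace ℝ W]
    (L : V →L[ℝ] W) {f : X → V} {z : X} (hf : DifferentiableAt ℝ f z) :
    HasFDerivAt (fun z => L (f z)) (L.comp (fderiv ℝ f z)) z :=
  L.hasFDerivAt.comp z hf.hasFDerivAt

/-- third derivatives: `∂∂̄` commutes with directional derivatives -/
theorem fd2_dir {X : Type} [NormedAddCommGroup X] [NormedSpace ℝ X] {U : Set X}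
    (hU : IsOpen U) {w : X → ℝ} (hw : ContDiffOn ℝ ∞ w U) {z : X} (hz : z ∈ U) (v : X) :
    fderiv ℝ (fderiv ℝ (fun z => fderiv ℝ w z v)) z
      = fderiv ℝ (fderiv ℝ (fderiv ℝ w)) z v := by
  have hg := smooth_fderiv hU hw
  have hgg := smooth_fderiv hU hg
  have h1 : ∀ y ∈ U, fderiv ℝ (fun z => fderiv ℝ w z v) y = fderiv ℝ (fderiv ℝ w) y v := by
    intro y hy
    have h2 : HasFDerivAt (fun z => fderiv ℝ w z v)
        ((ContinuousLinearMap.apply ℝ ℝ v).comp (fderiv ℝ (fderiv ℝ w) y)) y :=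
      hasFDerivAt_clm (ContinuousLinearMap.apply ℝ ℝ v) (diffAt_of_smooth hU hg hy)
    rw [h2.fderiv]
    ext x
    have hs : IsSymmSndFDerivAt ℝ w y :=
      (hw.contDiffAt (hU.mem_nhds hy)).isSymmSndFDerivAt
        (by simpa using two_le_infty)
    exact hs x v
  have h3 : fderiv ℝ (fun z => fderiv ℝ w z v) =ᶠ[𝓝 z] fun y => fderiv ℝ (fderiv ℝ w) y v :=
    Filter.eventually_of_mem (hU.mem_nhds hz) h1
  rw [h3.fderiv_eq]
  have h4 : HasFDerivAt (fun y => fderiv ℝ (fderiv ℝ w) y v)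
      ((ContinuousLinearMap.apply ℝ (X →L[ℝ] ℝ) v).comp (fderiv ℝ (fderiv ℝ (fderiv ℝ w)) z)) z :=
    hasFDerivAt_clm (ContinuousLinearMap.apply ℝ (X →L[ℝ] ℝ) v) (diffAt_of_smooth hU hgg hz)
  rw [h4.fderiv]
  ext x y
  have hs : IsSymmSndFDerivAt ℝ (fderiv ℝ w) z :=
    (hg.contDiffAt (hU.mem_nhds hz)).isSymmSndFDerivAt
        (by simpa using two_le_infty)
  exact congrArg (fun L : X →L[ℝ] ℝ => L y) (hs x v)

theorem cH_dir {U : Set (Cn n)} (hU : IsOpen U) {w : Cn n → ℝ} (hw : ContDiffOn ℝ ∞ w U)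
    {z : Cn n} (hz : z ∈ U) (v : Cn n) (p q : Fin n) :
    fderiv ℝ (fun z => cH w z p q) z v = cH (fun z => fderiv ℝ w z v) z p q := by
  have e : (fun z => cH w z p q) = fun z => cHL p q (fderiv ℝ (fderiv ℝ w) z) := by
    funext z; exact cH_eq_cHL w z p q
  have hgg := smooth_fderiv hU (smooth_fderiv hU hw)
  rw [e, cH_eq_cHL, fd2_dir hU hw hz v]
  have h4 : HasFDerivAt (fun z => cHL p q (fderiv ℝ (fderiv ℝ w) z))
      ((cHL p q).comp (fderiv ℝ (fderiv ℝ (fderiv ℝ w)) z)) z :=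
    hasFDerivAt_clm (cHL p q) (diffAt_of_smooth hU hgg hz)
  rw [h4.fderiv]
  rfl

theorem ellC_hi {lo hi hi' : ℝ} {G : Matrix (Fin n) (Fin n) ℂ} (h : EllC lo hi G)
    (hh : hi ≤ hi') : EllC lo hi' G :=
  ⟨h.1, fun ζ => ⟨(h.2 ζ).1, (h.2 ζ).2.trans
    (mul_le_mul_of_nonneg_right hh (Finset.sum_nonneg fun _ _ => sq_nonneg _))⟩⟩

/-- interior Schauder estimate for families -/
theorem lin0 {U : Set (Cn n)} (hU : IsOpen U) {G : ι → Cn n → Matrix (Fin n) (Fin n) ℂ}
    {w : ι → Cn n → ℝ} (hG : ∀ p q, UH (1 / 2) U (fun i z => G i z p q))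
    (hell : ∀ x ∈ U, ∃ r > 0, ∃ lo hi : ℝ, 0 < lo ∧ ∀ i, ∀ z ∈ ball x r, EllC lo hi (G i z))
    (hw : ∀ i, ContDiffOn ℝ ∞ (w i) U)
    (hf : UH (1 / 2) U (fun i z => ((G i z * cH (w i) z).trace).re))
    (h0 : ∀ x ∈ U, ∃ r > 0, ∃ S : ℝ, ∀ i, ∀ z ∈ ball x r, ‖w i z‖ ≤ S) :
    UC (1 / 2) U 2 w := by
  have key : ∀ x ∈ U, ∃ r > 0, ∃ Q : ℝ, 0 ≤ Q ∧ ∀ i, C2A (1 / 2) Q (ball x r) (w i) := by
    intro x hx
    obtain ⟨r1, hr1, M, hM, H1⟩ := UH.fin (κ := Fin n × Fin n)
      (F := fun p i z => G i z p.1 p.2) (fun p => hG p.1 p.2) hx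
    obtain ⟨r2, hr2, lo, hi, hlo, H2⟩ := hell x hx
    obtain ⟨r3, hr3, N, hN, H3⟩ := hf x hx
    obtain ⟨r4, hr4, S, H4⟩ := h0 x hx
    obtain ⟨r5, hr5, H5⟩ := Metric.isOpen_iff.1 hU x hx
    have hev : ∀ᶠ t in 𝓝[>] (0 : ℝ), t < r1 ∧ t < r2 ∧ t < r3 ∧ t < r4 ∧ t < r5 ∧ t < 1 := by
      have : ∀ s : ℝ, 0 < s → ∀ᶠ t in 𝓝[>] (0 : ℝ), t < s := fun s hs =>
        Filter.Eventually.filter_mono nhdsWithin_le_nhds (Iio_mem_nhds hs)
      exact (this _ hr1).and ((this _ hr2).and ((this _ hr3).and ((this _ hr4).and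
        ((this _ hr5).and (this _ one_pos)))))
    obtain ⟨R, ⟨k1, k2, k3, k4, k5, k6⟩, hR0⟩ := (hev.and self_mem_nhdsWithin).exists
    have hR0 : 0 < R := hR0
    have hsub : ∀ {s : ℝ}, R < s → closedBall x R ⊆ ball x s := fun h =>
      closedBall_subset_ball h
    obtain ⟨C, hC, H⟩ := int_schauder_cx n (a := 1 / 2) (lo := lo) (hi := max lo hi)
      (by norm_num) (by norm_num) hlo (le_max_left _ _) M hR0 k6.le
    refine ⟨R / 2, by positivity, C * (N + |S|), by positivity, fun i => ?_⟩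
    refine C2A.subset ?_ ball_subset_closedBall
    refine H x (G i) (fun z hz => ellC_hi (H2 i z (hsub k2 hz)) (le_max_right _ _))
      (fun p q => (H1 (p, q) i).subset (hsub k1)) U hU ((hsub k5).trans H5) (w i) N |S|
      ((hw i).of_le (WithTop.coe_le_coe.2 (le_top : (2 : ℕ∞) ≤ ⊤))) (ho_smooth hU (hw i) k6.le ((hsub k5).trans H5))
      ((H3 i).subset (hsub k3)) fun z hz => ?_
    exact (H4 i z (hsub k4 hz)).trans (le_abs_self _)
  refine ⟨hw, fun x hx => ?_, fun i => smooth_fderiv hU (hw i), fun x hx => ?_,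
    fun i => smooth_fderiv hU (smooth_fderiv hU (hw i)), fun x hx => ?_⟩
  · obtain ⟨r, hr, Q, hQ, H⟩ := key x hx
    exact ⟨r, hr, Q, hQ, fun i => (H i).h0⟩
  · obtain ⟨r, hr, Q, hQ, H⟩ := key x hx
    exact ⟨r, hr, Q, hQ, fun i => (H i).h1⟩
  · obtain ⟨r, hr, Q, hQ, H⟩ := key x hx
    exact ⟨r, hr, Q, hQ, fun i => (H i).h2⟩

theorem trace_re (A B : Matrix (Fin n) (Fin n) ℂ) :
    ((A * B).trace).re = ∑ p, ∑ q, (A p q * B q p).re := by
  simp only [Matrix.trace, Matrix.diag_apply, Matrix.mul_apply, Complex.re_sum]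

/-- **linear Schauder estimates of all orders for families** -/
theorem lin {U : Set (Cn n)} (hU : IsOpen U) {G : ι → Cn n → Matrix (Fin n) (Fin n) ℂ}
    (hell : ∀ x ∈ U, ∃ r > 0, ∃ lo hi : ℝ, 0 < lo ∧ ∀ i, ∀ z ∈ ball x r, EllC lo hi (G i z)) :
    ∀ (k : ℕ) {w f : ι → Cn n → ℝ}, (∀ p q, UC (1 / 2) U k (fun i z => G i z p q)) →
      (∀ i, ContDiffOn ℝ ∞ (w i) U) → UC (1 / 2) U k f →
      (∀ i, ∀ z ∈ U, ((G i z * cH (w i) z).trace).re = f i z) →
      (∀ x ∈ U, ∃ r > 0, ∃ S : ℝ, ∀ i, ∀ z ∈ ball x r, ‖w i z‖ ≤ S) →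
      UC (1 / 2) U (k + 2) w := by
  intro k
  induction k with
  | zero =>
    intro w f hG hw hf he h0
    exact lin0 hU (fun p q => (hG p q).uh) hell hw (hf.uh.congr hU he) h0
  | succ k ih =>
    intro w f hG hw hf he h0
    have hG' : ∀ p q, UC (1 / 2) U k (fun i z => G i z p q) := fun p q => (hG p q).of_succ
    have h1 : UC (1 / 2) U (k + 2) w := ih hG' hw hf.of_succ he h0
    refine UC.of_dir hU hw h1.uh fun v => ?_
    have hwv : ∀ i, ContDiffOn ℝ ∞ (fun z => fderiv ℝ (w i) z v) U := fun i =>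
      (ContinuousLinearMap.apply ℝ ℝ v).contDiff.comp_contDiffOn (smooth_fderiv hU (hw i))
    refine ih (w := fun i z => fderiv ℝ (w i) z v) (f := fun i z => fderiv ℝ (f i) z v -
      ∑ p, ∑ q, (fderiv ℝ (fun z => G i z p q) z v * cH (w i) z q p).re) hG' hwv ?_ ?_ ?_
    · refine UC.sub hU (hf.dir hU v) (UC.sum hU _ fun p _ => UC.sum hU _ fun q _ => ?_)
      exact UC.re hU (UC.mulC hU ((hG p q).dir hU v) (UC.cH hU h1 q p))
    · intro i z hz
      have hGd : ∀ p q, DifferentiableAt ℝ (fun z => G i z p q) z := fun p q =>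
        diffAt_of_smooth hU ((hG p q).smooth i) hz
      have hHd : ∀ p q, DifferentiableAt ℝ (fun z => cH (w i) z p q) z := fun p q =>
        diffAt_of_smooth hU ((UC.cH hU h1 p q).smooth i) hz
      have h2 : HasFDerivAt (fun z => ∑ p, ∑ q, (G i z p q * cH (w i) z q p).re)
          (∑ p, ∑ q, Complex.reCLM.comp (G i z p q • fderiv ℝ (fun z => cH (w i) z q p) z +
            cH (w i) z q p • fderiv ℝ (fun z => G i z p q) z)) z := by
        refine HasFDerivAt.fun_sum fun p _ => HasFDerivAt.fun_sum fun q _ => ?_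
        exact Complex.reCLM.hasFDerivAt.comp z ((hGd p q).hasFDerivAt.mul (hHd q p).hasFDerivAt)
      have h3 : f i =ᶠ[𝓝 z] fun z => ∑ p, ∑ q, (G i z p q * cH (w i) z q p).re := by
        filter_upwards [hU.mem_nhds hz] with y hy
        rw [← he i y hy, trace_re]
      rw [trace_re, h3.fderiv_eq, h2.fderiv]
      simp only [sum_apply]
      rw [← Finset.sum_sub_distrib]
      refine Finset.sum_congr rfl fun p _ => ?_
      rw [← Finset.sum_sub_distrib]
      refine Finset.sum_congr rfl fun q _ => ?_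
      rw [← cH_dir hU (hw i) hz v q p]
      simp only [ContinuousLinearMap.comp_apply, add_apply, smul_apply, smul_eq_mul,
        Complex.reCLM_apply, Complex.add_re]
      rw [mul_comm (cH (w i) z q p)]
      ring
    · intro x hx
      obtain ⟨r, hr, C, hC, H⟩ := (h1.dir hU v).uh x hx
      exact ⟨r, hr, C, fun i z hz => (H i).bdd z hz⟩

end

end Crest.Agent.R257.ELoc_611
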