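import Crest.Agent.R275.Loc2C_879

-- ▼ part R257/UI1_939
section

/-!
Row 257 (S0395), leaf UI (helper939), part 1: Weierstrass finiteness for modules over rings of
germs: finitely generated over `OO (z₀,0)` and `W^K M ⊆ s M` with `s` vanishing on the fibre
implies finitely generated over `OO z₀`.
-/

set_option autoImplicit false
set_option linter.unusedSectionVars false

open Set Filter Topology Metric Complex
open Crest.Agent.R275.Loc2879

noncomputable section

namespace Crest.Agent.R257.UI939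

universe u v w

/-- `M` is finitely generated over the image of `φ`, in explicit form -/
def FG {R : Type u} {A : Type v} [CommRing R] [CommRing A] (φ : R →+* A) (M : Type w)
    [AddCommGroup M] [Module A M] : Prop :=
  ∃ (k : ℕ) (g : Fin k → M), ∀ m : M, ∃ c : Fin k → R, m = ∑ i, φ (c i) • g i

section WF

variable {E : Type u} [NormedAddCommGroup E] [NormedSpace ℂ E] [FiniteDimensional ℂ E]
variable {z₀ : E}

theorem FG.mono {R : Type u} {R' : Type*} {A : Type v} [CommRing R] [CommRing R'] [CommRing A]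
    {φ : R →+* A} {ψ : R' →+* A} {M : Type w} [AddCommGroup M] [Module A M] (h : FG φ M)
    (hh : ∀ c : R, ∃ c' : R', ψ c' = φ c) : FG ψ M := by
  obtain ⟨k, g, hg⟩ := h
  refine ⟨k, g, fun m => ?_⟩
  obtain ⟨c, hc⟩ := hg m
  choose f hf using hh
  exact ⟨fun i => f (c i), by simp only [hf]; exact hc⟩

theorem FG.of_index {R : Type u} {A : Type v} [CommRing R] [CommRing A] {φ : R →+* A} {M : Type w}
    [AddCommGroup M] [Module A M] {ι : Type*} [Fintype ι] (g : ι → M)
    (hg : ∀ m : M, ∃ c : ι → R, m = ∑ i, φ (c i) • g i) : FG φ M := by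
  classical
  let e := Fintype.equivFin ι
  refine ⟨Fintype.card ι, fun i => g (e.symm i), fun m => ?_⟩
  obtain ⟨c, hc⟩ := hg m
  refine ⟨fun i => c (e.symm i), ?_⟩
  rw [hc]
  exact (Fintype.sum_equiv e.symm _ _ (fun i => rfl)).symm

/-- **Weierstrass finiteness** -/
theorem wf {A : Type v} [CommRing A] {M : Type w} [AddCommGroup M] [Module A M]
    (φ : OO ((z₀, (0 : ℂ)) : E × ℂ) →+* A) (hM : FG φ M) (K : ℕ)
    (s : OO ((z₀, (0 : ℂ)) : E × ℂ)) (hs : rho z₀ s = 0)
    (h : ∀ m : M, ∃ m' : M, φ (Wv z₀) ^ K • m = φ s • m') : FG (φ.comp (iot z₀)) M := by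
  classical
  obtain ⟨k, g, hg⟩ := hM
  -- the matrix
  choose m' hm' using fun i => h (g i)
  choose c hc using fun i => hg (m' i)
  set N : Matrix (Fin k) (Fin k) (OO ((z₀, (0 : ℂ)) : E × ℂ)) := Matrix.of (fun i j => s * c i j)
    with hN
  set B : Matrix (Fin k) (Fin k) (OO ((z₀, (0 : ℂ)) : E × ℂ)) :=
    (Wv z₀ ^ K) • (1 : Matrix (Fin k) (Fin k) _) - N with hB
  have hBg : ∀ i, ∑ j, φ (B i j) • g j = 0 := by
    intro i
    have e1 : ∑ j, φ (B i j) • g j = φ (Wv z₀) ^ K • g i - ∑ j, φ (s * c i j) • g j := by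
      simp only [hB, Matrix.sub_apply, Matrix.smul_apply, Matrix.one_apply, hN, Matrix.of_apply,
        map_sub, sub_smul, Finset.sum_sub_distrib]
      congr 1
      rw [Finset.sum_eq_single i]
      · simp
      · intro j _ hj
        simp [hj.symm]
      · intro h; exact absurd (Finset.mem_univ _) h
    rw [e1, hm' i, hc i, Finset.smul_sum]
    simp [mul_smul]
  set D := B.det with hD
  have hDg : ∀ i, φ D • g i = 0 := by
    intro i
    have e2 : ∑ l, φ (B.adjugate i l) • ∑ j, φ (B l j) • g j = φ D • g i := by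
      simp only [Finset.smul_sum, smul_smul, ← map_mul]
      rw [Finset.sum_comm]
      have e3 : ∀ j, ∑ l, φ (B.adjugate i l * B l j) • g j = φ ((B.adjugate * B) i j) • g j := by
        intro j
        rw [Matrix.mul_apply, map_sum, Finset.sum_smul]
      simp only [e3, Matrix.adjugate_mul]
      rw [Finset.sum_eq_single i]
      · simp [hD]
      · intro j _ hj
        simp [hj.symm]
      · intro h; exact absurd (Finset.mem_univ _) h
    rw [← e2]
    simp [hBg]
  have hDm : ∀ m : M, φ D • m = 0 := by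
    intro m
    obtain ⟨c, hc⟩ := hg m
    rw [hc, Finset.smul_sum]
    refine Finset.sum_eq_zero (fun i _ => ?_)
    rw [smul_comm, hDg, smul_zero]
  have hReg : Reg D (K * k) := by
    refine ⟨1, ?_⟩
    rw [hD, RingHom.map_det]
    have e4 : (rho z₀).mapMatrix B = (TT 0 ^ K) • (1 : Matrix (Fin k) (Fin k) _) := by
      ext i j : 1
      simp only [RingHom.mapMatrix_apply, Matrix.map_apply, hB, Matrix.sub_apply,
        Matrix.smul_apply, hN, Matrix.of_apply, map_sub, map_mul, hs, zero_mul, sub_zero,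
        smul_eq_mul, map_pow, rho_Wv, Matrix.one_apply]
      split_ifs <;> simp
    rw [e4, Matrix.det_smul, Matrix.det_one]
    simp [pow_mul]
  refine FG.of_index (ι := Fin k × Fin (K * k)) (fun p => φ (Wv z₀ ^ (p.2 : ℕ)) • g p.1)
    (fun m => ?_)
  obtain ⟨a, ha⟩ := hg m
  choose q r hr using fun i => div_exists hReg (a i)
  refine ⟨fun p => r p.1 p.2, ?_⟩
  rw [ha, Fintype.sum_prod_type]
  refine Finset.sum_congr rfl (fun i _ => ?_)
  rw [hr i, map_add, add_smul, map_mul, mul_smul, hDg, smul_zero, zero_add, map_sum,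
    Finset.sum_smul]
  refine Finset.sum_congr rfl (fun j _ => ?_)
  simp [mul_smul]

end WF

end Crest.Agent.R257.UI939
end
end

-- ▼ part R257/UI2_939
section

/-!
Row 257 (S0395), leaf UI (helper939), part 2: iterated Weierstrass finiteness over
`(Fin n → ℂ) × ℂ`, and Nakayama over the ring of germs in the parameter.
-/

set_option autoImplicit false
set_option linter.unusedSectionVars false

open Set Filter Topology Metric Complex
open Crest.Agent.R275.Loc2879

noncomputable section

namespace Crest.Agent.R257.UI939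

universe u v w

variable {n : ℕ}

/-- the ring of germs at the origin of `ℂⁿ × ℂ` -/
abbrev AA (n : ℕ) : Type := OO (0 : (Fin n → ℂ) × ℂ)

/-- analyticity of coordinates -/
lemma an_x (i : Fin n) (p : (Fin n → ℂ) × ℂ) :
    AnalyticAt ℂ (fun p : (Fin n → ℂ) × ℂ => p.1 i) p :=
  (ContinuousLinearMap.analyticAt
    ((ContinuousLinearMap.proj (R := ℂ) (φ := fun _ : Fin n => ℂ) i).comp
      (ContinuousLinearMap.fst ℂ (Fin n → ℂ) ℂ)) p)

/-- coordinate `x_i` -/
def Xv (i : Fin n) : AA n := gm (fun p => p.1 i) (an_x i _)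

/-- the parameter -/
def Tv (n : ℕ) : AA n := gm Prod.snd analyticAt_snd

/-- germs in the parameter -/
def par (n : ℕ) : OO (0 : ℂ) →+* AA n := pull Prod.snd analyticAt_snd rfl

lemma an_phi (k : ℕ) (h : k ≤ n) (p : (Fin n → ℂ) × ℂ) :
    AnalyticAt ℂ (fun p : (Fin n → ℂ) × ℂ =>
      ((p.2, fun i : Fin k => p.1 (Fin.castLE h i)) : ℂ × (Fin k → ℂ))) p :=
  analyticAt_snd.prod (AnalyticAt.pi fun i => an_x _ p)

/-- germs in the parameter and the first `k` coordinates -/
def phi (k : ℕ) (h : k ≤ n) : OO ((0, 0) : ℂ × (Fin k → ℂ)) →+* AA n :=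
  pull _ (an_phi k h 0) rfl

lemma an_theta (k : ℕ) (h : k < n) (p : (Fin n → ℂ) × ℂ) :
    AnalyticAt ℂ (fun p : (Fin n → ℂ) × ℂ =>
      (((p.2, fun i : Fin k => p.1 (Fin.castLE h.le i)), p.1 ⟨k, h⟩) :
        (ℂ × (Fin k → ℂ)) × ℂ)) p :=
  (an_phi k h.le p).prod (an_x _ p)

def theta (k : ℕ) (h : k < n) : OO (((0, 0), 0) : (ℂ × (Fin k → ℂ)) × ℂ) →+* AA n :=
  pull _ (an_theta k h 0) rfl

lemma theta_comp_iot (k : ℕ) (h : k < n) :
    (theta k h).comp (iot ((0, 0) : ℂ × (Fin k → ℂ))) = phi k h.le := by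
  ext x
  obtain ⟨f, hf, rfl⟩ := exists_gm x
  rfl

lemma theta_Wv (k : ℕ) (h : k < n) : theta k h (Wv _) = Xv ⟨k, h⟩ := rfl

lemma theta_T (k : ℕ) (h : k < n) :
    theta k h (iot _ (gm Prod.fst analyticAt_fst)) = Tv n := rfl

lemma rho_T (k : ℕ) :
    rho ((0, 0) : ℂ × (Fin k → ℂ)) (iot _ (gm Prod.fst analyticAt_fst)) = 0 := by
  rw [rho_iot, evp_gm]
  simp

lemma phi_succ_le (k : ℕ) (h : k < n) (c : OO ((0, 0) : ℂ × (Fin (k + 1) → ℂ))) :
    ∃ c' : OO (((0, 0), 0) : (ℂ × (Fin k → ℂ)) × ℂ), theta k h c' = phi (k + 1) h c := by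
  have han : AnalyticAt ℂ (fun q : (ℂ × (Fin k → ℂ)) × ℂ =>
      ((q.1.1, fun i : Fin (k + 1) => Fin.snoc (α := fun _ => ℂ) q.1.2 q.2 i) :
        ℂ × (Fin (k + 1) → ℂ))) (((0, 0), 0) : (ℂ × (Fin k → ℂ)) × ℂ) := by
    refine AnalyticAt.prod (analyticAt_fst.comp analyticAt_fst) (AnalyticAt.pi fun i => ?_)
    refine Fin.lastCases ?_ (fun j => ?_) i
    · simpa using analyticAt_snd
    · simp only [Fin.snoc_castSucc]
      exact (ContinuousLinearMap.analyticAt
        ((ContinuousLinearMap.proj (R := ℂ) (φ := fun _ : Fin k => ℂ) j).comp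
          ((ContinuousLinearMap.snd ℂ ℂ (Fin k → ℂ)).comp
            (ContinuousLinearMap.fst ℂ (ℂ × (Fin k → ℂ)) ℂ))) _)
  have h0 : (fun q : (ℂ × (Fin k → ℂ)) × ℂ =>
      ((q.1.1, fun i : Fin (k + 1) => Fin.snoc (α := fun _ => ℂ) q.1.2 q.2 i) :
        ℂ × (Fin (k + 1) → ℂ))) (((0, 0), 0) : (ℂ × (Fin k → ℂ)) × ℂ) = (0, 0) := by
    refine Prod.ext rfl (funext fun i => ?_)
    refine Fin.lastCases ?_ (fun j => ?_) i
    · simp
    · simp
  refine ⟨pull _ han h0 c, ?_⟩
  obtain ⟨f, hf, rfl⟩ := exists_gm c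
  rw [pull_gm, theta, pull_gm, phi, pull_gm, gm_eq_gm]
  refine Eventually.of_forall (fun p => ?_)
  simp only [Function.comp_apply]
  congr 1
  refine Prod.ext rfl (funext fun i => ?_)
  refine Fin.lastCases ?_ (fun j => ?_) i
  · change Fin.snoc (α := fun _ => ℂ) (fun i : Fin k => p.1 (Fin.castLE h.le i)) (p.1 ⟨k, h⟩)
      (Fin.last k) = p.1 (Fin.castLE h (Fin.last k))
    rw [Fin.snoc_last]
    rfl
  · simp [Fin.castLE]

/-- **iterated Weierstrass finiteness** -/
theorem fin_all {M : Type w} [AddCommGroup M] [Module (AA n) M] (hM : FG (RingHom.id (AA n)) M)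
    (hK : ∀ i : Fin n, ∃ K : ℕ, ∀ m : M, ∃ m' : M, Xv i ^ K • m = Tv n • m') :
    FG (par n) M := by
  -- descending induction
  have key : ∀ k : ℕ, ∀ h : n - k ≤ n, FG (phi (n - k) h) M := by
    intro k
    induction k with
    | zero =>
      intro h
      refine hM.mono (fun c => ?_)
      obtain ⟨f, hf, rfl⟩ := exists_gm c
      have han : AnalyticAt ℂ (fun q : ℂ × (Fin (n - 0) → ℂ) =>
          (((fun i : Fin n => q.2 i), q.1) : (Fin n → ℂ) × ℂ)) (0, 0) :=
        (AnalyticAt.pi fun i => (ContinuousLinearMap.analyticAt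
          ((ContinuousLinearMap.proj (R := ℂ) (φ := fun _ : Fin n => ℂ) i).comp
            (ContinuousLinearMap.snd ℂ ℂ (Fin n → ℂ))) _)).prod analyticAt_fst
      refine ⟨pull _ han rfl (gm f hf), ?_⟩
      rfl
    | succ k ih =>
      intro h
      rcases Nat.lt_or_ge k n with hk | hk
      · have h1 : n - k = (n - (k + 1)) + 1 := by omega
        have h2 := ih (by omega)
        have h3 : n - (k + 1) < n := by omega
        have h4 : FG (phi ((n - (k + 1)) + 1) h3) M := by
          have := h2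
          revert this
          have : ∀ (a b : ℕ) (hab : a = b) (ha : a ≤ n) (hb : b ≤ n),
              FG (phi a ha) M → FG (phi b hb) M := by
            intro a b hab ha hb hh
            subst hab
            exact hh
          exact this _ _ h1 _ _
        have h5 : FG (theta (n - (k + 1)) h3) M := h4.mono (phi_succ_le _ h3)
        obtain ⟨K, hK'⟩ := hK ⟨n - (k + 1), h3⟩
        have h6 := wf (theta (n - (k + 1)) h3) h5 K (iot _ (gm Prod.fst analyticAt_fst)) (rho_T _)
          (fun m => by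
            rw [theta_Wv, theta_T]
            exact hK' m)
        rw [theta_comp_iot] at h6
        exact h6
      · have h1 : n - (k + 1) = n - k := by omega
        have : ∀ (a b : ℕ) (hab : a = b) (ha : a ≤ n) (hb : b ≤ n),
            FG (phi a ha) M → FG (phi b hb) M := by
          intro a b hab ha hb hh
          subst hab
          exact hh
        exact this _ _ h1.symm (by omega) _ (ih (by omega))
  have h0 := key n (by omega)
  refine h0.mono (fun c => ?_)
  obtain ⟨f, hf, rfl⟩ := exists_gm c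
  have han : AnalyticAt ℂ (fun t : ℂ => ((t, fun _ => 0) : ℂ × (Fin (n - n) → ℂ))) (0 : ℂ) :=
    analyticAt_id.prod analyticAt_const
  refine ⟨pull _ han rfl (gm f hf), ?_⟩
  rw [pull_gm, par, pull_gm, phi, pull_gm, gm_eq_gm]
  refine Eventually.of_forall (fun p => ?_)
  simp only [Function.comp_apply]
  congr 1
  refine Prod.ext rfl (funext fun i => ?_)
  exact absurd i.2 (by omega)

/-- **Nakayama** -/
theorem nak {M : Type w} [AddCommGroup M] [Module (AA n) M] (hM : FG (par n) M)
    {ι : Type*} [Fintype ι] (e : ι → M)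
    (he : ∀ m : M, ∃ (c : ι → ℂ) (m' : M), m = ∑ i, algebraMap ℂ (AA n) (c i) • e i + Tv n • m') :
    ∀ m : M, ∃ c : ι → OO (0 : ℂ), m = ∑ i, par n (c i) • e i := by
  classical
  let _ : Module (OO (0 : ℂ)) M := Module.compHom M (par n)
  have hsm : ∀ (a : OO (0 : ℂ)) (m : M), a • m = par n a • m := fun _ _ => rfl
  have hfg : (⊤ : Submodule (OO (0 : ℂ)) M).FG := by
    obtain ⟨k, g, hg⟩ := hM
    refine ⟨Finset.univ.image g, ?_⟩
    rw [eq_top_iff]
    intro m _
    obtain ⟨c, hc⟩ := hg m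
    rw [hc]
    refine Submodule.sum_mem _ (fun i _ => ?_)
    rw [← hsm]
    exact Submodule.smul_mem _ _ (Submodule.subset_span (by simp))
  have hT : par n (TT 0) = Tv n := by
    rw [par, TT, pull_gm, Tv, gm_eq_gm]
    exact Eventually.of_forall (fun p => by simp)
  have hc : ∀ c : ℂ, par n (algebraMap ℂ _ c) = algebraMap ℂ (AA n) c := fun _ => rfl
  have htop : (⊤ : Submodule (OO (0 : ℂ)) M) ≤ Submodule.span (OO (0 : ℂ)) (Set.range e) := by
    refine Submodule.le_of_le_smul_of_le_jacobson_bot (I := Ideal.span {TT (0 : ℂ)}) hfg ?_ ?_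
    · rw [IsLocalRing.jacobson_eq_maximalIdeal ⊥ bot_ne_top, Ideal.span_singleton_le_iff_mem,
        IsLocalRing.mem_maximalIdeal]
      exact TT_not_unit
    · intro m _
      obtain ⟨c, m', hm⟩ := he m
      rw [hm]
      refine Submodule.add_mem_sup (Submodule.sum_mem _ fun i _ => ?_) ?_
      · rw [← hc, ← hsm]
        exact Submodule.smul_mem _ _ (Submodule.subset_span ⟨i, rfl⟩)
      · rw [← hT, ← hsm]
        exact Submodule.smul_mem_smul (Ideal.mem_span_singleton_self _) Submodule.mem_top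
  intro m
  have hm := htop (Submodule.mem_top (x := m))
  rw [Submodule.mem_span_range_iff_exists_fun] at hm
  obtain ⟨c, hc⟩ := hm
  exact ⟨c, hc.symm⟩

end Crest.Agent.R257.UI939
end
end

-- ▼ part R257/UI3_939

/-!
Row 257 (S0395), leaf UI (helper939), part 3: local algebra of `OO (0 : ℂⁿ)`: Hadamard lemma,
monomials, `dim Q = μ ⇒ m^μ Q = 0`.
-/

set_option autoImplicit false
set_option linter.unusedSectionVars false

open Set Filter Topology Metric Complex
open Crest.Agent.R275.Loc2879

noncomputable section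

namespace Crest.Agent.R257.UI939

universe u v w

section One

variable {E : Type u} [NormedAddCommGroup E] [NormedSpace ℂ E] [FiniteDimensional ℂ E]

/-- division by the fibre coordinate -/
theorem hadamard_one (g : OO ((0, 0) : E × ℂ)) :
    ∃ (q : OO ((0, 0) : E × ℂ)) (c : OO (0 : E)), g = q * Wv 0 + iot 0 c := by
  have hR : Reg (Wv (0 : E)) 1 := ⟨1, by simp⟩
  obtain ⟨q, c, h⟩ := div_exists hR g
  refine ⟨q, c 0, ?_⟩
  rw [h]
  simp

/-- function form: `g(x,t) - g(x,0) = t q(x,t)` -/
theorem hadamard_fun {g : E × ℂ → ℂ} (hg : AnalyticAt ℂ g 0) :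
    ∃ q : E × ℂ → ℂ, AnalyticAt ℂ q 0 ∧ ∀ᶠ p in 𝓝 (0 : E × ℂ), g p = g (p.1, 0) + p.2 * q p := by
  obtain ⟨Q, c, h⟩ := hadamard_one (E := E) (gm g hg)
  obtain ⟨q, hq, rfl⟩ := exists_gm Q
  obtain ⟨c, hc, rfl⟩ := exists_gm c
  rw [Wv, gm_mul, iot, pull_gm, gm_add, gm_eq_gm] at h
  refine ⟨q, hq, ?_⟩
  have h0 : Tendsto (fun p : E × ℂ => ((p.1, 0) : E × ℂ)) (𝓝 ((0 : E), (0 : ℂ)))
      (𝓝 ((0 : E), (0 : ℂ))) := by
    have : Continuous (fun p : E × ℂ => ((p.1, 0) : E × ℂ)) := by fun_prop
    exact this.tendsto' _ _ rfl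
  have h1 := h0.eventually h
  filter_upwards [h, h1] with p h2 h3
  have h2' : g p = q p * p.2 + c p.1 := h2
  have h3' : g (p.1, 0) = q (p.1, 0) * 0 + c p.1 := h3
  rw [h2', h3']
  ring

end One

variable {n : ℕ}

/-- the ring of germs at the origin of `ℂⁿ` -/
abbrev BB (n : ℕ) : Type := OO (0 : Fin n → ℂ)

lemma an_coord (i : Fin n) (p : Fin n → ℂ) : AnalyticAt ℂ (fun x : Fin n → ℂ => x i) p :=
  (ContinuousLinearMap.analyticAt (ContinuousLinearMap.proj (R := ℂ) (φ := fun _ : Fin n => ℂ) i) p)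

/-- coordinates -/
def xB (i : Fin n) : BB n := gm (fun x => x i) (an_coord i 0)

/-- one variable at a time -/
lemma hadamard_coord {f : (Fin n → ℂ) → ℂ} (hf : AnalyticAt ℂ f 0) (k : Fin n) :
    ∃ q : (Fin n → ℂ) → ℂ, AnalyticAt ℂ q 0 ∧
      ∀ᶠ x in 𝓝 (0 : Fin n → ℂ), f x = f (Function.update x k 0) + x k * q x := by
  have hup : ∀ p : (Fin n → ℂ) × ℂ, AnalyticAt ℂ
      (fun p : (Fin n → ℂ) × ℂ => Function.update p.1 k p.2) p := by
    intro p
    refine AnalyticAt.pi fun i => ?_
    by_cases h : i = k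
    · subst h
      simpa using analyticAt_snd
    · simpa [Function.update_of_ne h] using an_x i p
  have h1 : AnalyticAt ℂ (fun p : (Fin n → ℂ) × ℂ => f (Function.update p.1 k p.2)) 0 := by
    refine AnalyticAt.comp (g := f) ?_ (hup 0)
    have : Function.update (0 : (Fin n → ℂ) × ℂ).1 k (0 : (Fin n → ℂ) × ℂ).2 = 0 := by
      ext i
      by_cases h : i = k
      · subst h; simp
      · simp [Function.update_of_ne h]
    rw [this]
    exact hf
  obtain ⟨q, hq, h⟩ := hadamard_fun h1
  have hlin : AnalyticAt ℂ (fun x : Fin n → ℂ => ((x, x k) : (Fin n → ℂ) × ℂ)) 0 :=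
    analyticAt_id.prod (an_coord k 0)
  refine ⟨fun x => q (x, x k), AnalyticAt.comp (g := q) (by exact hq) hlin, ?_⟩
  have h2 : Tendsto (fun x : Fin n → ℂ => ((x, x k) : (Fin n → ℂ) × ℂ)) (𝓝 0) (𝓝 0) :=
    hlin.continuousAt
  filter_upwards [h2.eventually h] with x hx
  simpa using hx

/-- **Hadamard lemma** -/
theorem hadamard (a : BB n) : ∃ (c : ℂ) (y : Fin n → BB n),
    a = algebraMap ℂ (BB n) c + ∑ i, y i * xB i := by
  classical
  obtain ⟨f, hf, rfl⟩ := exists_gm a
  -- kill the coordinates in a finset one after the other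
  have key : ∀ s : Finset (Fin n), ∃ y : Fin n → BB n,
      ∃ h : AnalyticAt ℂ (fun x : Fin n → ℂ => f (fun i => if i ∈ s then 0 else x i)) 0,
      gm f hf = gm _ h + ∑ i, y i * xB i := by
    intro s
    induction s using Finset.induction_on with
    | empty =>
      refine ⟨0, by simpa using hf, ?_⟩
      simp
    | insert k s hk ih =>
      obtain ⟨y, h, e⟩ := ih
      obtain ⟨q, hq, hqe⟩ := hadamard_coord h k
      have hlin : AnalyticAt ℂ (fun x : Fin n → ℂ => (fun i => if i ∈ insert k s then 0 else x i :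
          Fin n → ℂ)) 0 := by
        refine AnalyticAt.pi fun i => ?_
        by_cases hi : i ∈ insert k s
        · simpa [hi] using analyticAt_const
        · simpa [hi] using an_coord i 0
      have h' : AnalyticAt ℂ (fun x : Fin n → ℂ => f (fun i => if i ∈ insert k s then 0 else x i))
          0 := by
        refine AnalyticAt.comp (g := f) ?_ hlin
        have : (fun i => if i ∈ insert k s then 0 else (0 : Fin n → ℂ) i : Fin n → ℂ) = 0 := by
          ext i; simp
        rw [this]; exact hf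
      refine ⟨y + Pi.single k (gm q hq), h', ?_⟩
      rw [e]
      simp only [Pi.add_apply, add_mul, Finset.sum_add_distrib]
      have e1 : ∑ i, (Pi.single k (gm q hq) : Fin n → BB n) i * xB i = gm q hq * xB k := by
        rw [Finset.sum_eq_single k]
        · simp
        · intro j _ hj; simp [Pi.single_eq_of_ne hj]
        · intro h; exact absurd (Finset.mem_univ _) h
      have e2 : (gm (fun x : Fin n → ℂ => f (fun i => if i ∈ s then 0 else x i)) h : BB n) =
          gm _ h' + gm q hq * xB k := by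
        rw [xB, gm_mul, gm_add, gm_eq_gm]
        filter_upwards [hqe] with x hx
        rw [hx]
        simp only [Pi.add_apply, Pi.mul_apply]
        rw [mul_comm (x k)]
        congr 2
        ext i
        by_cases hi : i = k
        · subst hi; simp
        · simp [hi]
      rw [e1, e2]
      ring
  obtain ⟨y, h, e⟩ := key Finset.univ
  refine ⟨f 0, y, ?_⟩
  rw [e]
  congr 1
  rw [Crest.Agent.R275.Loc2879.algebraMap_apply, gm_eq_gm]
  refine Eventually.of_forall (fun x => ?_)
  simp only [Finset.mem_univ, if_true]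
  rfl

/-- monomials -/
def mon {A : Type v} [CommRing A] (x : Fin n → A) (β : Fin n → ℕ) : A := ∏ i, x i ^ β i

lemma mon_single_add {A : Type v} [CommRing A] (x : Fin n → A) (β : Fin n → ℕ) (i : Fin n) :
    mon x (β + Pi.single i 1) = mon x β * x i := by
  classical
  unfold mon
  simp only [Pi.add_apply, pow_add, Finset.prod_mul_distrib]
  congr 1
  rw [Finset.prod_eq_single i]
  · simp
  · intro j _ hj
    simp [Pi.single_eq_of_ne hj]
  · intro h; exact absurd (Finset.mem_univ _) h

lemma sum_single_add (β : Fin n → ℕ) (i : Fin n) :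
    ∑ j, (β + Pi.single i 1 : Fin n → ℕ) j = (∑ j, β j) + 1 := by
  classical
  simp [Finset.sum_add_distrib]

/-- the ideal generated by the monomials of degree `k` -/
def JJ {A : Type v} [CommRing A] (x : Fin n → A) (k : ℕ) : Ideal A :=
  Ideal.span {a | ∃ β : Fin n → ℕ, ∑ i, β i = k ∧ mon x β = a}

/-- the space spanned by the monomials of degree `< k` -/
def VV {A : Type v} [CommRing A] [Algebra ℂ A] (x : Fin n → A) (k : ℕ) : Submodule ℂ A :=
  Submodule.span ℂ {a | ∃ β : Fin n → ℕ, ∑ i, β i < k ∧ mon x β = a}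

lemma VV_mono {A : Type v} [CommRing A] [Algebra ℂ A] (x : Fin n → A) {k l : ℕ} (h : k ≤ l) :
    VV x k ≤ VV x l := by
  refine Submodule.span_mono ?_
  rintro a ⟨β, h1, h2⟩
  exact ⟨β, h1.trans_le h, h2⟩

theorem mem_VV_sup {A : Type v} [CommRing A] [Algebra ℂ A] (x : Fin n → A)
    (hx : ∀ a : A, ∃ (c : ℂ) (y : Fin n → A), a = algebraMap ℂ A c + ∑ i, y i * x i) (k : ℕ)
    (a : A) : a ∈ VV x k ⊔ (JJ x k).restrictScalars ℂ := by
  induction k with
  | zero =>
    refine Submodule.mem_sup_right ?_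
    have : (1 : A) ∈ JJ x 0 := Ideal.subset_span ⟨0, by simp, by simp [mon]⟩
    have h2 : JJ x 0 = ⊤ := (Ideal.eq_top_iff_one _).2 this
    rw [h2]
    trivial
  | succ k ih =>
    obtain ⟨v, hv, w, hw, rfl⟩ := Submodule.mem_sup.1 ih
    refine Submodule.add_mem _ (Submodule.mem_sup_left (VV_mono x (Nat.le_succ k) hv)) ?_
    have hw' : w ∈ JJ x k := hw
    clear ih hv hw
    unfold JJ at hw'
    induction hw' using Submodule.span_induction with
    | mem z hz =>
      obtain ⟨β, h1, rfl⟩ := hz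
      refine Submodule.mem_sup_left (Submodule.subset_span ⟨β, by omega, rfl⟩)
    | zero => exact Submodule.zero_mem _
    | add y z _ _ h1 h2 => exact Submodule.add_mem _ h1 h2
    | smul b z hz hz' =>
      obtain ⟨c, y, hb⟩ := hx b
      rw [hb, smul_eq_mul, add_mul]
      refine Submodule.add_mem _ ?_ ?_
      · rw [← Algebra.smul_def]
        exact Submodule.smul_mem _ _ hz'
      · refine Submodule.mem_sup_right ?_
        change _ ∈ JJ x (k + 1)
        rw [Finset.sum_mul]
        refine Ideal.sum_mem _ (fun i _ => ?_)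
        rw [mul_assoc]
        refine Ideal.mul_mem_left _ _ ?_
        clear hz'
        induction hz using Submodule.span_induction with
        | mem z hz =>
          obtain ⟨β, h1, rfl⟩ := hz
          rw [mul_comm, ← mon_single_add]
          exact Ideal.subset_span ⟨_, by rw [sum_single_add, h1], rfl⟩
        | zero => simp
        | add y z _ _ h1 h2 => rw [mul_add]; exact Ideal.add_mem _ h1 h2
        | smul b z _ hz' =>
          rw [smul_eq_mul, mul_left_comm]
          exact Ideal.mul_mem_left _ _ hz'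

lemma JJ_succ_le {A : Type v} [CommRing A] (x : Fin n → A) (k : ℕ) :
    JJ x (k + 1) ≤ Ideal.span (Set.range x) • JJ x k := by
  classical
  refine Ideal.span_le.2 ?_
  rintro a ⟨β, h1, rfl⟩
  obtain ⟨i, hi⟩ : ∃ i, β i ≠ 0 := by
    by_contra hcon
    push Not at hcon
    have : ∑ i, β i = 0 := Finset.sum_eq_zero (fun i _ => hcon i)
    omega
  have e1 : β = (β - Pi.single i 1) + Pi.single i 1 := by
    ext j
    by_cases hj : j = i
    · subst hj
      simp only [Pi.add_apply, Pi.sub_apply, Pi.single_eq_same]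
      omega
    · simp [Pi.single_eq_of_ne hj]
  have e2 : ∑ j, (β - Pi.single i 1 : Fin n → ℕ) j = k := by
    have := sum_single_add (β - Pi.single i 1) i
    rw [← e1, h1] at this
    omega
  rw [e1, mon_single_add, mul_comm]
  exact Submodule.smul_mem_smul (Ideal.subset_span ⟨i, rfl⟩) (Ideal.subset_span ⟨_, e2, rfl⟩)

lemma JJ_anti {A : Type v} [CommRing A] (x : Fin n → A) (k : ℕ) : JJ x (k + 1) ≤ JJ x k :=
  (JJ_succ_le x k).trans Submodule.smul_le_right

/-- **`dim A/I = μ` implies `m^μ ⊆ I`** -/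
theorem JJ_le_of_finrank {A : Type v} [CommRing A] [IsLocalRing A] [IsNoetherianRing A]
    [Algebra ℂ A] (x : Fin n → A) (hx : ∀ i, ¬ IsUnit (x i)) (I : Ideal A)
    [Module.Finite ℂ (A ⧸ I)] : JJ x (Module.finrank ℂ (A ⧸ I)) ≤ I := by
  classical
  set μ := Module.finrank ℂ (A ⧸ I) with hμ
  let π : A →ₗ[ℂ] (A ⧸ I) := (Ideal.Quotient.mkₐ ℂ I).toLinearMap
  have hπ : ∀ a, π a = 0 ↔ a ∈ I := fun a => Ideal.Quotient.eq_zero_iff_mem
  let W : ℕ → Submodule ℂ (A ⧸ I) := fun k => ((JJ x k).restrictScalars ℂ).map π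
  have hWm : ∀ k, W (k + 1) ≤ W k := by
    intro k
    refine Submodule.map_mono ?_
    exact JJ_anti x k
  have hm : Ideal.span (Set.range x) ≤ Ideal.jacobson (⊥ : Ideal A) := by
    rw [IsLocalRing.jacobson_eq_maximalIdeal ⊥ bot_ne_top, Ideal.span_le]
    rintro _ ⟨i, rfl⟩
    exact (IsLocalRing.mem_maximalIdeal _).2 (hx i)
  have hstab : ∀ k, W (k + 1) = W k → JJ x k ≤ I := by
    intro k hk
    refine Submodule.le_of_le_smul_of_le_jacobson_bot (IsNoetherian.noetherian _) hm ?_
    intro a ha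
    have h1 : π a ∈ W k := Submodule.mem_map_of_mem ha
    rw [← hk] at h1
    obtain ⟨b, hb, hab⟩ := h1
    have h2 : a - b ∈ I := by
      rw [← hπ, map_sub, hab, sub_self]
    have h3 : a = (a - b) + b := by ring
    rw [h3]
    exact Submodule.add_mem_sup h2 (JJ_succ_le x k hb)
  have key : ∀ k, JJ x k ≤ I ∨ Module.finrank ℂ (W k) + k ≤ μ := by
    intro k
    induction k with
    | zero => right; simpa using Submodule.finrank_le (W 0)
    | succ k ih =>
      rcases ih with ih | ih
      · exact Or.inl ((JJ_anti x k).trans ih)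
      · rcases (hWm k).lt_or_eq with h | h
        · right
          have := Submodule.finrank_lt_finrank_of_lt h
          omega
        · exact Or.inl ((JJ_anti x k).trans (hstab k h))
  rcases key μ with h | h
  · exact h
  · have h1 : Module.finrank ℂ (W μ) = 0 := by omega
    have h2 : W μ = ⊥ := Submodule.finrank_eq_zero.1 h1
    intro a ha
    rw [← hπ]
    have h3 : π a ∈ W μ := Submodule.mem_map_of_mem ha
    rw [h2] at h3
    simpa using h3

lemma xB_not_unit (i : Fin n) : ¬ IsUnit (xB i) := by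
  rw [xB, isUnit_gm]; simp

end Crest.Agent.R257.UI939
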