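import Crest.Agent.R257.LcxS_759
import Crest.Agent.R257.LcxA_759
import Crest.Agent.R257.UI3_939

-- ▼ part R257/LcxS2_759
section

/-!
R257 / LcxS2_759 (helper759): Aronhold invariant of nodal and of non nodal cubics, node criterion.
-/

set_option autoImplicit false
set_option linter.unusedSimpArgs false

open Matrix

noncomputable section

namespace Crest.Agent.R257.LcxS_759

/-- **covariance of the Aronhold invariant** -/
theorem S_act {T : T3} (hT : Sym T) (L : Matrix (Fin 3) (Fin 3) ℂ) :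
    S (act T L) = L.det ^ 4 * S T := by
  have key : ∀ T : T3, Sym T → S (act T L) = L.det ^ 4 * S T := by
    refine diagonal_transvection_induction (fun L => ∀ T : T3, Sym T → S (act T L) = L.det ^ 4 * S T)
      L (fun D _ T _ => S_diag T D) (fun t T hT => ?_) (fun A B hA hB T hT => ?_)
    · rw [TransvectionStruct.det, one_pow, one_mul]
      exact S_transv hT t.hij t.c
    · rw [act_mul, hB _ (act_sym hT A), hA T hT, det_mul]
      ring
  exact key T hT

theorem ev_act (T : T3) (L : Matrix (Fin 3) (Fin 3) ℂ) (x y z : Fin 3 → ℂ) :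
    ev (act T L) x y z = ev T (L.mulVec x) (L.mulVec y) (L.mulVec z) := by
  simp only [ev, act, Matrix.mulVec, dotProduct, Fin.sum_univ_three]
  ring

theorem ev_add1 (T : T3) (x x' y z : Fin 3 → ℂ) : ev T (x + x') y z = ev T x y z + ev T x' y z := by
  simp only [ev, Pi.add_apply, Fin.sum_univ_three]; ring

theorem ev_smul1 (T : T3) (c : ℂ) (x y z : Fin 3 → ℂ) : ev T (c • x) y z = c * ev T x y z := by
  simp only [ev, Pi.smul_apply, smul_eq_mul, Fin.sum_univ_three]; ring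

theorem ev_add2 (T : T3) (x y y' z : Fin 3 → ℂ) : ev T x (y + y') z = ev T x y z + ev T x y' z := by
  simp only [ev, Pi.add_apply, Fin.sum_univ_three]; ring

theorem ev_smul2 (T : T3) (c : ℂ) (x y z : Fin 3 → ℂ) : ev T x (c • y) z = c * ev T x y z := by
  simp only [ev, Pi.smul_apply, smul_eq_mul, Fin.sum_univ_three]; ring

theorem ev_add3 (T : T3) (x y z z' : Fin 3 → ℂ) : ev T x y (z + z') = ev T x y z + ev T x y z' := by
  simp only [ev, Pi.add_apply, Fin.sum_univ_three]; ring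

theorem ev_smul3 (T : T3) (c : ℂ) (x y z : Fin 3 → ℂ) : ev T x y (c • z) = c * ev T x y z := by
  simp only [ev, Pi.smul_apply, smul_eq_mul, Fin.sum_univ_three]; ring

theorem ev_swap12 {T : T3} (hT : Sym T) (x y z : Fin 3 → ℂ) : ev T x y z = ev T y x z := by
  unfold ev
  rw [Finset.sum_comm]
  refine Finset.sum_congr rfl fun a _ => Finset.sum_congr rfl fun b _ =>
    Finset.sum_congr rfl fun c _ => ?_
  rw [hT.s12 b a c]; ring

theorem ev_swap23 {T : T3} (hT : Sym T) (x y z : Fin 3 → ℂ) : ev T x y z = ev T x z y := by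
  unfold ev
  refine Finset.sum_congr rfl fun a _ => ?_
  rw [Finset.sum_comm]
  refine Finset.sum_congr rfl fun b _ => Finset.sum_congr rfl fun c _ => ?_
  rw [hT.s23 a c b]; ring

theorem ev_single (T : T3) (i j k : Fin 3) :
    ev T (Pi.single i 1) (Pi.single j 1) (Pi.single k 1) = T i j k := by
  fin_cases i <;> fin_cases j <;> fin_cases k <;> simp [ev, Fin.sum_univ_three]

/-- polarisation -/
theorem ev_cube {T : T3} (hT : Sym T) (x y : Fin 3 → ℂ) :
    ev T (x + y) (x + y) (x + y) =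
      ev T x x x + 3 * ev T x x y + 3 * ev T x y y + ev T y y y := by
  simp only [ev_add1, ev_add2, ev_add3]
  have e1 : ev T x y x = ev T x x y := ev_swap23 hT _ _ _
  have e2 : ev T y x x = ev T x x y := by rw [ev_swap12 hT, e1]
  have e3 : ev T y x y = ev T x y y := ev_swap12 hT _ _ _
  have e4 : ev T y y x = ev T x y y := by rw [ev_swap23 hT, e3]
  rw [e1, e2, e3, e4]; ring

theorem ev_polar {T N : T3} (hT : Sym T) (hN : Sym N) (h : ∀ x, ev T x x x = ev N x x x) :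
    T = N := by
  have h1 : ∀ x y, ev T x x y = ev N x x y := by
    intro x y
    have a1 := h (x + y)
    have a2 := h (x + (-1 : ℂ) • y)
    rw [ev_cube hT, ev_cube hN] at a1 a2
    simp only [ev_smul1, ev_smul2, ev_smul3] at a2
    rw [h x, h y] at a1
    rw [h x, h y] at a2
    have h3 : (6 : ℂ) ≠ 0 := by norm_num
    have : 6 * ev T x x y = 6 * ev N x x y := by linear_combination a1 - a2
    exact mul_left_cancel₀ h3 this
  have h2 : ∀ x y z, ev T x y z = ev N x y z := by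
    intro x y z
    have a1 := h1 (x + y) z
    simp only [ev_add1, ev_add2] at a1
    rw [h1 x z, h1 y z, ev_swap12 hT y x z, ev_swap12 hN y x z] at a1
    have h3 : (2 : ℂ) ≠ 0 := by norm_num
    have : 2 * ev T x y z = 2 * ev N x y z := by linear_combination a1
    exact mul_left_cancel₀ h3 this
  funext i j k
  rw [← ev_single T, ← ev_single N]
  exact h2 _ _ _

/-- the tensor of the normal cubic -/
def nT (a b : ℂ) : T3 := fun i j k =>
  (if i ≠ j ∧ j ≠ k ∧ i ≠ k then 1 else 0) + (if i = 1 ∧ j = 1 ∧ k = 1 then 6 * a else 0) +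
    (if i = 2 ∧ j = 2 ∧ k = 2 then 6 * b else 0)

theorem nT_sym (a b : ℂ) : Sym (nT a b) where
  s12 i j k := by fin_cases i <;> fin_cases j <;> fin_cases k <;> simp [nT]
  s23 i j k := by fin_cases i <;> fin_cases j <;> fin_cases k <;> simp [nT]

theorem ev_nT (a b : ℂ) (x : Fin 3 → ℂ) : ev (nT a b) x x x =
    6 * (x 0 * x 1 * x 2 + a * x 1 ^ 3 + b * x 2 ^ 3) := by
  simp [ev, nT, Fin.sum_univ_three]
  ring

theorem S_nT (a b : ℂ) : S (nT a b) = -1 := by
  simp [S, nT]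

/-- Aronhold invariant of a cubic equivalent to a normal one -/
theorem S_of_nrm {T : T3} (hT : Sym T) {L : Matrix (Fin 3) (Fin 3) ℂ} {a b : ℂ}
    (h : ∀ x, ev T x x x = 6 * ((L.mulVec x) 0 * (L.mulVec x) 1 * (L.mulVec x) 2 +
      a * (L.mulVec x) 1 ^ 3 + b * (L.mulVec x) 2 ^ 3)) : S T = - L.det ^ 4 := by
  have h1 : T = act (nT a b) L := ev_polar hT (act_sym (nT_sym a b) L) fun x => by
    rw [h, ev_act, ev_nT]
  rw [h1, S_act (nT_sym a b), S_nT]
  ring

theorem exists_e {v u : Fin 3 → ℂ} (hv : v ≠ 0) (huv : ∀ c : ℂ, u ≠ c • v) :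
    ∃ e : Fin 3 → ℂ, LinearIndependent ℂ ![e, v, u] := by
  have hli : LinearIndependent ℂ ![v, u] := by
    rw [LinearIndependent.pair_iff' hv]
    exact fun c h => huv c h.symm
  obtain ⟨e, he⟩ := exists_linearIndependent_cons_of_lt_finrank hli
    (by rw [Module.finrank_fintype_fun_eq_card]; decide)
  exact ⟨e, he⟩

/-- the Aronhold invariant of a non nodal cubic vanishes -/
theorem S_null {T : T3} (hT : Sym T) {v u : Fin 3 → ℂ} (hv : v ≠ 0) (huv : ∀ c : ℂ, u ≠ c • v)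
    (h1 : ∀ w, ev T v v w = 0) (h2 : ∀ w, ev T v u w = 0) : S T = 0 := by
  obtain ⟨e, he⟩ := exists_e hv huv
  set M : Matrix (Fin 3) (Fin 3) ℂ := (Matrix.of ![e, v, u])ᵀ with hM
  have hdet : M.det ≠ 0 := by
    rw [hM, det_transpose]
    have : IsUnit (Matrix.of ![e, v, u] : Matrix (Fin 3) (Fin 3) ℂ) :=
      Matrix.linearIndependent_rows_iff_isUnit.1 he
    exact (Matrix.isUnit_iff_isUnit_det _).1 this |>.ne_zero
  have hcol : ∀ i j k, act T M i j k = ev T (![e, v, u] i) (![e, v, u] j) (![e, v, u] k) := by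
    intro i j k
    rfl
  have z1 : ∀ w, act T M 1 1 w = 0 := fun w => by rw [hcol]; exact h1 _
  have z2 : ∀ w, act T M 1 2 w = 0 := fun w => by rw [hcol]; exact h2 _
  have hA := act_sym hT M
  have y1 : act T M 0 1 1 = 0 := by rw [hA.s12, hA.s23]; exact z1 0
  have y2 : act T M 0 1 2 = 0 := by rw [hA.s12, hA.s23]; exact z2 0
  have h0 : S (act T M) = 0 := by
    unfold S
    rw [y1, y2, z1 1, z1 2, z2 2]
    ring
  rw [S_act hT] at h0
  exact (mul_eq_zero.1 h0).resolve_left (pow_ne_zero 4 hdet)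

/-- **node criterion**: a cubic with one ordinary node is nodal -/
theorem nodal_of_node {T : T3} (hT : Sym T) {p : Fin 3 → ℂ} (hp : p ≠ 0)
    (h1 : ∀ w, ev T p p w = 0) (h2 : ∀ u, (∀ w, ev T p u w = 0) → ∃ c : ℂ, u = c • p) :
    ∀ v u, v ≠ 0 → (∀ w, ev T v v w = 0) → (∀ w, ev T v u w = 0) → ∃ c : ℂ, u = c • v := by
  intro v u hv hvv hvu
  by_cases hvp : ∃ c : ℂ, v = c • p
  · obtain ⟨c, hc⟩ := hvp
    have hc0 : c ≠ 0 := by
      rintro rfl
      exact hv (by rw [hc, zero_smul])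
    obtain ⟨d, hd⟩ := h2 u fun w => by
      have := hvu w
      rw [hc, ev_smul1] at this
      exact (mul_eq_zero.1 this).resolve_left hc0
    refine ⟨d / c, ?_⟩
    rw [hd, hc, smul_smul, div_mul_cancel₀ _ hc0]
  · -- `T(p, v, ·) ≠ 0`
    have hpv : ¬ ∀ w, ev T p v w = 0 := fun h => hvp (h2 v h)
    have hspan : ∃ a b : ℂ, u = a • v + b • p := by
      by_contra hcon
      push Not at hcon
      apply hpv
      have hli : LinearIndependent ℂ ![u, v, p] := by
        have h3 : LinearIndependent ℂ ![v, p] := by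
          rw [LinearIndependent.pair_iff' hv]
          intro c hc
          by_cases hc0 : c = 0
          · rw [hc0, zero_smul] at hc
            exact hp hc.symm
          · exact hvp ⟨c⁻¹, by rw [← hc, smul_smul, inv_mul_cancel₀ hc0, one_smul]⟩
        refine linearIndependent_finCons.2 ⟨h3, ?_⟩
        rw [Submodule.mem_span_range_iff_exists_fun]
        rintro ⟨c, hc⟩
        rw [Fin.sum_univ_two] at hc
        exact hcon (c 0) (c 1) hc.symm
      have htop := hli.span_eq_top_of_card_eq_finrank' (by simp)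
      intro w
      have hw : w ∈ Submodule.span ℂ (Set.range ![u, v, p]) := by rw [htop]; trivial
      rw [Submodule.mem_span_range_iff_exists_fun] at hw
      obtain ⟨c, hc⟩ := hw
      rw [← hc, Fin.sum_univ_three]
      show ev T p v (c 0 • u + c 1 • v + c 2 • p) = 0
      simp only [ev_add3, ev_smul3]
      have e1 : ev T p v u = 0 := by
        rw [ev_swap12 hT, ev_swap23 hT]; exact hvu p
      have e2 : ev T p v v = 0 := by
        rw [ev_swap12 hT, ev_swap23 hT]; exact hvv p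
      have e3 : ev T p v p = 0 := by
        rw [ev_swap23 hT]; exact h1 v
      rw [e1, e2, e3]; ring
    obtain ⟨a, b, hab⟩ := hspan
    have hb : b = 0 := by
      by_contra hb0
      apply hpv
      intro w
      have h3 := hvu w
      rw [hab, ev_add2, ev_smul2, ev_smul2, hvv w, mul_zero, zero_add] at h3
      rw [ev_swap12 hT]
      exact (mul_eq_zero.1 h3).resolve_left hb0
    exact ⟨a, by rw [hab, hb, zero_smul, add_zero]⟩

end Crest.Agent.R257.LcxS_759
end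
end

-- ▼ part R257/LcxL_759
section

/-!
R257 / LcxL_759 (helper759): linear changes of coordinates (depending analytically on `t`) in
`μ`-constant families.
-/

set_option autoImplicit false
set_option linter.unusedSimpArgs false

open Topology Filter Set Asymptotics Matrix
open Crest.AlgGeometry.Germ

noncomputable section

namespace Crest.Agent.R257.LcxL_759

open Crest.Agent.R257.Defs_219 Crest.Agent.R257.LCDefs_472 Crest.Agent.R257.LcxDefs_759
open Crest.Agent.R257.LcxA_759 Crest.Agent.R257.LcxS_759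

/-- the linear map of a matrix -/
def ml (L : Matrix (Fin 3) (Fin 3) ℂ) : E3 →L[ℂ] E3 := LinearMap.toContinuousLinearMap (Matrix.toLin' L)

theorem ml_apply (L : Matrix (Fin 3) (Fin 3) ℂ) (x : E3) : ml L x = L.mulVec x := rfl

/-- the linear automorphism of an invertible matrix -/
def me (L : Matrix (Fin 3) (Fin 3) ℂ) (h : L.det ≠ 0) : E3 ≃L[ℂ] E3 :=
  (LinearMap.GeneralLinearGroup.generalLinearEquiv ℂ E3
    (Matrix.GeneralLinearGroup.toLin (Matrix.GeneralLinearGroup.mkOfDetNeZero L h))).toContinuousLinearEquiv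

theorem me_apply (L : Matrix (Fin 3) (Fin 3) ℂ) (h : L.det ≠ 0) (x : E3) :
    me L h x = L.mulVec x := rfl

theorem cd_lin {g : E3 → ℂ} (L : Matrix (Fin 3) (Fin 3) ℂ) {x : E3}
    (hg : DifferentiableAt ℂ g (L.mulVec x)) (i : Fin 3) :
    coordDeriv (fun x => g (L.mulVec x)) i x = ∑ a, L a i * coordDeriv g a (L.mulVec x) := by
  have h1 := LCa_472.coordDeriv_comp (g := g) (θ := ml L) (x := x) hg (ml L).differentiableAt i
  have h2 : (g ∘ ml L) = fun x => g (L.mulVec x) := rfl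
  rw [h2] at h1
  rw [h1]
  refine Finset.sum_congr rfl fun a _ => ?_
  have h3 : coordDeriv (fun y => ml L y a) i x = L a i := by
    unfold coordDeriv
    have h4 : HasFDerivAt (fun y => ml L y a)
        ((ContinuousLinearMap.proj (R := ℂ) (φ := fun _ : Fin 3 => ℂ) a).comp (ml L)) x :=
      ((ContinuousLinearMap.proj (R := ℂ) (φ := fun _ : Fin 3 => ℂ) a).comp (ml L)).hasFDerivAt
    rw [h4.fderiv]
    show (L.mulVec (Pi.single i 1)) a = L a i
    simp
  rw [h3, ml_apply]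
  ring

theorem tendsto_ml (L : Matrix (Fin 3) (Fin 3) ℂ) :
    Tendsto (fun x : E3 => L.mulVec x) (𝓝 0) (𝓝 0) := by
  have := (ml L).continuous.tendsto 0
  rw [map_zero] at this
  exact this

theorem an_lin {g : E3 → ℂ} (L : Matrix (Fin 3) (Fin 3) ℂ) {x : E3}
    (hg : AnalyticAt ℂ g (L.mulVec x)) : AnalyticAt ℂ (fun x => g (L.mulVec x)) x :=
  AnalyticAt.comp (g := g) (f := fun x => L.mulVec x) hg ((ml L).analyticAt x)

theorem an_lin0 {g : E3 → ℂ} (L : Matrix (Fin 3) (Fin 3) ℂ) (hg : AnalyticAt ℂ g 0) :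
    AnalyticAt ℂ (fun x => g (L.mulVec x)) 0 := an_lin L (by simpa using hg)

/-- first derivatives near `0` -/
theorem cd_lin_ev {g : E3 → ℂ} (hg : AnalyticAt ℂ g 0) (L : Matrix (Fin 3) (Fin 3) ℂ)
    (i : Fin 3) : coordDeriv (fun x => g (L.mulVec x)) i =ᶠ[𝓝 0]
      fun x => ∑ a, L a i * coordDeriv g a (L.mulVec x) := by
  filter_upwards [(tendsto_ml L).eventually hg.eventually_analyticAt] with x hx
  exact cd_lin L hx.differentiableAt i

theorem cd2_lin_ev {g : E3 → ℂ} (hg : AnalyticAt ℂ g 0) (L : Matrix (Fin 3) (Fin 3) ℂ)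
    (i j : Fin 3) : coordDeriv (coordDeriv (fun x => g (L.mulVec x)) i) j =ᶠ[𝓝 0]
      fun x => ∑ a, ∑ b, L a i * L b j * coordDeriv (coordDeriv g a) b (L.mulVec x) := by
  filter_upwards [cd_congr (cd_lin_ev hg L i) j,
    (tendsto_ml L).eventually hg.eventually_analyticAt] with x hx h1
  rw [hx, cd_sum Finset.univ (f := fun a x => L a i * coordDeriv g a (L.mulVec x))
    (fun a _ => analyticAt_const.mul (an_lin L (an_cd h1 a)))]
  refine Finset.sum_congr rfl fun a _ => ?_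
  rw [cd_const_mul (an_lin L (an_cd h1 a)), cd_lin L (an_cd h1 a).differentiableAt, Finset.mul_sum]
  refine Finset.sum_congr rfl fun b _ => ?_
  ring

theorem H2_lin {g : E3 → ℂ} (hg : AnalyticAt ℂ g 0) (L : Matrix (Fin 3) (Fin 3) ℂ)
    (i j : Fin 3) : H2 (fun x => g (L.mulVec x)) i j = ∑ a, ∑ b, L a i * L b j * H2 g a b := by
  have := (cd2_lin_ev hg L i j).self_of_nhds
  unfold H2
  rw [this]
  simp

theorem H3_lin {g : E3 → ℂ} (hg : AnalyticAt ℂ g 0) (L : Matrix (Fin 3) (Fin 3) ℂ) :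
    H3 (fun x => g (L.mulVec x)) = act (H3 g) L := by
  funext i j k
  unfold H3 act
  rw [(cd_congr (cd2_lin_ev hg L i j) k).self_of_nhds]
  have han : ∀ a b, AnalyticAt ℂ (fun x : E3 => coordDeriv (coordDeriv g a) b (L.mulVec x)) 0 :=
    fun a b => an_lin0 L (an_cd (an_cd hg a) b)
  rw [cd_sum Finset.univ (f := fun a x => ∑ b, L a i * L b j *
    coordDeriv (coordDeriv g a) b (L.mulVec x)) (fun a _ =>
      Finset.analyticAt_fun_sum _ fun b _ => analyticAt_const.mul (han a b))]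
  refine Finset.sum_congr rfl fun a _ => ?_
  rw [cd_sum Finset.univ (f := fun b x => L a i * L b j *
    coordDeriv (coordDeriv g a) b (L.mulVec x)) (fun b _ => analyticAt_const.mul (han a b))]
  refine Finset.sum_congr rfl fun b _ => ?_
  rw [cd_const_mul (han a b), cd_lin L (by
    have := (an_cd (an_cd hg a) b).differentiableAt
    simpa using this), Finset.mul_sum]
  refine Finset.sum_congr rfl fun c _ => ?_
  rw [mulVec_zero]
  ring

theorem H3_sym {n : ℕ} {g : (Fin n → ℂ) → ℂ} (hg : AnalyticAt ℂ g 0) (i j k : Fin n) :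
    H3 g i j k = H3 g j i k ∧ H3 g i j k = H3 g i k j := by
  constructor
  · have h : coordDeriv (coordDeriv g i) j =ᶠ[𝓝 0] coordDeriv (coordDeriv g j) i := by
      filter_upwards [hg.eventually_analyticAt] with x hx
      exact cd_comm hx i j
    exact (cd_congr h k).self_of_nhds
  · exact cd_comm (an_cd hg i) j k

theorem sym_H3 {g : E3 → ℂ} (hg : AnalyticAt ℂ g 0) : Sym (H3 g) :=
  ⟨fun i j k => (H3_sym hg i j k).1, fun i j k => (H3_sym hg i j k).2⟩

theorem D3_eq (g : E3 → ℂ) (u v w : E3) : D3 g u v w = ev (H3 g) u v w := rfl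

theorem D3_lin {g : E3 → ℂ} (hg : AnalyticAt ℂ g 0) (L : Matrix (Fin 3) (Fin 3) ℂ) (u v w : E3) :
    D3 (fun x => g (L.mulVec x)) u v w = D3 g (L.mulVec u) (L.mulVec v) (L.mulVec w) := by
  rw [D3_eq, H3_lin hg, ev_act, D3_eq]

theorem mulVec_surj {L : Matrix (Fin 3) (Fin 3) ℂ} (hL : L.det ≠ 0) (w : E3) :
    L.mulVec (L⁻¹.mulVec w) = w := by
  rw [mulVec_mulVec, Matrix.mul_nonsing_inv _ (isUnit_iff_ne_zero.2 hL), one_mulVec]

theorem mulVec_inj {L : Matrix (Fin 3) (Fin 3) ℂ} (hL : L.det ≠ 0) {v : E3}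
    (h : L.mulVec v = 0) : v = 0 := by
  have : L⁻¹.mulVec (L.mulVec v) = v := by
    rw [mulVec_mulVec, Matrix.nonsing_inv_mul _ (isUnit_iff_ne_zero.2 hL), one_mulVec]
  rw [← this, h, mulVec_zero]

/-- `Nodal` is invariant -/
theorem nodal_lin {g : E3 → ℂ} (hg : AnalyticAt ℂ g 0) {L : Matrix (Fin 3) (Fin 3) ℂ}
    (hL : L.det ≠ 0) (h : Nodal fun x => g (L.mulVec x)) : Nodal g := by
  intro v u hv h1 h2
  have e : ∀ a b w, D3 (fun x => g (L.mulVec x)) (L⁻¹.mulVec a) (L⁻¹.mulVec b) w =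
      D3 g a b (L.mulVec w) := fun a b w => by
    rw [D3_lin hg, mulVec_surj hL, mulVec_surj hL]
  obtain ⟨c, hc⟩ := h (L⁻¹.mulVec v) (L⁻¹.mulVec u) (fun h0 => hv (by
    rw [← mulVec_surj hL v, h0, mulVec_zero])) (fun w => by rw [e]; exact h1 _)
    (fun w => by rw [e]; exact h2 _)
  refine ⟨c, ?_⟩
  rw [← mulVec_surj hL u, hc, mulVec_smul, mulVec_surj hL]

/-- change of coordinates in a family -/
def ch (M : ℂ → Matrix (Fin 3) (Fin 3) ℂ) (F : E3 × ℂ → ℂ) : E3 × ℂ → ℂ :=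
  fun q => F ((M q.2).mulVec q.1, q.2)

theorem sl_ch (M : ℂ → Matrix (Fin 3) (Fin 3) ℂ) (F : E3 × ℂ → ℂ) (t : ℂ) :
    sl (ch M F) t = fun x => sl F t ((M t).mulVec x) := rfl

theorem an_mul {M : ℂ → Matrix (Fin 3) (Fin 3) ℂ} (hM : ∀ i j, AnalyticAt ℂ (fun t => M t i j) 0) :
    AnalyticAt ℂ (fun q : E3 × ℂ => (((M q.2).mulVec q.1, q.2) : E3 × ℂ)) (0, 0) := by
  refine AnalyticAt.prod ?_ analyticAt_snd
  refine AnalyticAt.pi fun i => ?_
  simp only [Matrix.mulVec, dotProduct]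
  refine Finset.analyticAt_fun_sum _ fun j _ => ?_
  refine AnalyticAt.mul ?_ ?_
  · exact AnalyticAt.fun_comp (g := fun t => M t i j) (f := fun q : E3 × ℂ => q.2) (hM i j)
      analyticAt_snd
  · exact AnalyticAt.fun_comp (g := fun x : E3 => x j) (f := fun q : E3 × ℂ => q.1)
      ((ContinuousLinearMap.proj (R := ℂ) (φ := fun _ : Fin 3 => ℂ) j).analyticAt _) analyticAt_fst


theorem an_ch {M : ℂ → Matrix (Fin 3) (Fin 3) ℂ} (hM : ∀ i j, AnalyticAt ℂ (fun t => M t i j) 0)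
    {F : E3 × ℂ → ℂ} (hF : AnalyticAt ℂ F (0, 0)) : AnalyticAt ℂ (ch M F) (0, 0) :=
  AnalyticAt.fun_comp (g := F) (f := fun q : E3 × ℂ => (((M q.2).mulVec q.1, q.2) : E3 × ℂ))
    (by simpa using hF) (an_mul hM)

theorem ev_an_sl {n : ℕ} {F : (Fin n → ℂ) × ℂ → ℂ} (hF : AnalyticAt ℂ F (0, 0)) :
    ∀ᶠ t in 𝓝 (0 : ℂ), AnalyticAt ℂ (sl F t) 0 := by
  have h1 : Tendsto (fun t : ℂ => ((0, t) : (Fin n → ℂ) × ℂ)) (𝓝 0) (𝓝 (0, 0)) :=
    (Continuous.prodMk_right (0 : Fin n → ℂ)).tendsto' _ _ rfl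
  filter_upwards [h1.eventually hF.eventually_analyticAt] with t ht
  exact Skel_219.analyticAt_sl ht

theorem det_ne {M : ℂ → Matrix (Fin 3) (Fin 3) ℂ} (hM : ∀ i j, AnalyticAt ℂ (fun t => M t i j) 0)
    (h0 : (M 0).det ≠ 0) : ∀ᶠ t in 𝓝 (0 : ℂ), (M t).det ≠ 0 := by
  have hc : ContinuousAt M 0 := continuousAt_pi.2 fun i => continuousAt_pi.2 fun j =>
    (hM i j).continuousAt
  have : ContinuousAt (fun t => (M t).det) 0 :=
    (Continuous.matrix_det continuous_id).continuousAt.comp hc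
  exact this.eventually_ne h0

theorem fam_ch {M : ℂ → Matrix (Fin 3) (Fin 3) ℂ} (hM : ∀ i j, AnalyticAt ℂ (fun t => M t i j) 0)
    (h0 : (M 0).det ≠ 0) {F : E3 × ℂ → ℂ} {μ : ℕ} (hF : Fam F μ) : Fam (ch M F) μ where
  an := an_ch hM hF.an
  zero := by
    filter_upwards [hF.zero] with t ht
    show F ((M t).mulVec 0, t) = 0
    rw [mulVec_zero]; exact ht
  crit := by
    filter_upwards [hF.crit, ev_an_sl hF.an] with t ht h1 i
    rw [sl_ch, cd_lin (M t) (by rw [mulVec_zero]; exact h1.differentiableAt)]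
    refine Finset.sum_eq_zero fun a _ => ?_
    rw [mulVec_zero, ht a, mul_zero]
  fin := by
    filter_upwards [hF.fin, ev_an_sl hF.an, det_ne hM h0] with t ht h1 h2
    have h3 := LCa_472.par_comp (f := sl (ch M F) t) (g := sl F t) (θ := ml (M t)) h1
      ((ml (M t)).analyticAt 0) (map_zero _) (by
        rw [(ml (M t)).fderiv]
        intro x y hxy
        have : (M t).mulVec (x - y) = 0 := by
          have h4 : ml (M t) (x - y) = 0 := by rw [map_sub, hxy, sub_self]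
          exact h4
        exact sub_eq_zero.1 (mulVec_inj h2 this))
      (by rw [sl_ch]; exact an_lin0 (M t) h1) (Eventually.of_forall fun x => rfl)
    exact ⟨h3.1.1 ht.1, by rw [← h3.2]; exact ht.2⟩
  iso := by
    have ht : Tendsto (fun q : E3 × ℂ => (((M q.2).mulVec q.1, q.2) : E3 × ℂ)) (𝓝 (0, 0))
        (𝓝 (0, 0)) := by
      have := (an_mul hM).continuousAt.tendsto
      simpa using this
    have h5 : Tendsto (fun q : E3 × ℂ => q.2) (𝓝 (0, 0)) (𝓝 0) := continuous_snd.tendsto' _ _ rfl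
    filter_upwards [ht.eventually hF.iso, ht.eventually hF.an.eventually_analyticAt,
      h5.eventually (det_ne hM h0)] with q h1 h2 h3 h4
    refine mulVec_inj h3 (h1 fun a => ?_)
    have e1 : (M q.2)ᵀ.mulVec (fun a => coordDeriv (sl F q.2) a ((M q.2).mulVec q.1)) = 0 := by
      funext i
      have := h4 i
      rw [sl_ch, cd_lin (M q.2) (by
        have h6 : AnalyticAt ℂ (sl F q.2) ((M q.2).mulVec q.1) :=
          AnalyticAt.comp (g := F) (f := fun x : E3 => (x, q.2)) h2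
            (analyticAt_id.prod analyticAt_const)
        exact h6.differentiableAt)] at this
      simpa [Matrix.mulVec, dotProduct] using this
    have e2 := mulVec_inj (L := (M q.2)ᵀ) (by rw [det_transpose]; exact h3) e1
    exact congrFun e2 a

end Crest.Agent.R257.LcxL_759
end
end

-- ▼ part R257/LcxD_759
section

/-!
R257 / LcxD_759 (helper759): the decomposition `g = x_0² u + x_0 v + w` of a germ, its derivatives in
terms of the Taylor coefficients of `v` and `w`, and the decomposition of analytic families.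
-/

set_option autoImplicit false
set_option linter.unusedSimpArgs false

open Topology Filter Set Asymptotics Matrix
open Crest.AlgGeometry.Germ

noncomputable section

namespace Crest.Agent.R257.LcxD_759

open Crest.Agent.R257.Defs_219 Crest.Agent.R257.LCDefs_472 Crest.Agent.R257.LcxDefs_759
open Crest.Agent.R257.LcxA_759 Crest.Agent.R257.LcxS_759

/-- the decomposition -/
structure Dq (g : E3 → ℂ) (u : E3 → ℂ) (v w : (Fin 2 → ℂ) → ℂ) : Prop where
  au : AnalyticAt ℂ u 0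
  av : AnalyticAt ℂ v 0
  aw : AnalyticAt ℂ w 0
  eq : ∀ᶠ x : E3 in 𝓝 0, g x = x 0 ^ 2 * u x + x 0 * v (Fin.tail x) + w (Fin.tail x)

/-- `tail` as a continuous linear map -/
def tl : E3 →L[ℂ] (Fin 2 → ℂ) :=
  ContinuousLinearMap.pi fun i => ContinuousLinearMap.proj (R := ℂ) (φ := fun _ : Fin 3 => ℂ) i.succ


/-- `p ↦ (0, p)` as a continuous linear map -/
def c0 : (Fin 2 → ℂ) →L[ℂ] E3 :=
  ContinuousLinearMap.pi fun i => Fin.cases (0 : (Fin 2 → ℂ) →L[ℂ] ℂ)
    (fun j => ContinuousLinearMap.proj (R := ℂ) (φ := fun _ : Fin 2 => ℂ) j) i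

theorem c0_apply (p : Fin 2 → ℂ) : c0 p = Fin.cons 0 p := by
  funext i
  refine Fin.cases ?_ (fun j => ?_) i
  · rfl
  · rfl

theorem tail_zero : (Fin.tail (0 : E3) : Fin 2 → ℂ) = 0 := rfl

theorem an_tail {v : (Fin 2 → ℂ) → ℂ} {x : E3} (hv : AnalyticAt ℂ v (Fin.tail x)) :
    AnalyticAt ℂ (fun x : E3 => v (Fin.tail x)) x :=
  AnalyticAt.comp (g := v) (f := fun x : E3 => tl x) hv (tl.analyticAt x)

theorem an_c0 {u : E3 → ℂ} (hu : AnalyticAt ℂ u 0) :
    AnalyticAt ℂ (fun p : Fin 2 → ℂ => u (Fin.cons 0 p)) 0 := by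
  have h : (fun p : Fin 2 → ℂ => u (Fin.cons 0 p)) = fun p => u (c0 p) := by
    funext p; rw [c0_apply]
  rw [h]
  exact AnalyticAt.comp (g := u) (f := fun p => c0 p) (by rw [map_zero]; exact hu) (c0.analyticAt 0)

theorem tendsto_tail : Tendsto (fun x : E3 => (Fin.tail x : Fin 2 → ℂ)) (𝓝 0) (𝓝 0) := by
  have := tl.continuous.tendsto 0
  rw [map_zero] at this
  exact this

theorem cd_tail_succ {v : (Fin 2 → ℂ) → ℂ} {x : E3} (hv : DifferentiableAt ℂ v (Fin.tail x))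
    (j : Fin 2) : coordDeriv (fun x : E3 => v (Fin.tail x)) j.succ x = coordDeriv v j (Fin.tail x) := by
  unfold coordDeriv
  have h := (hv.hasFDerivAt).comp x tl.hasFDerivAt
  have h2 : fderiv ℂ (fun x : E3 => v (Fin.tail x)) x = (fderiv ℂ v (Fin.tail x)).comp tl := h.fderiv
  rw [h2, ContinuousLinearMap.comp_apply]
  congr 1
  funext i
  show (Pi.single j.succ 1 : E3) i.succ = (Pi.single j 1 : Fin 2 → ℂ) i
  by_cases hij : i = j
  · subst hij; simp
  · rw [Pi.single_eq_of_ne hij, Pi.single_eq_of_ne (fun h => hij (Fin.succ_injective _ h))]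

theorem cd_tail_zero {v : (Fin 2 → ℂ) → ℂ} {x : E3} (hv : DifferentiableAt ℂ v (Fin.tail x)) :
    coordDeriv (fun x : E3 => v (Fin.tail x)) 0 x = 0 := by
  unfold coordDeriv
  have h := (hv.hasFDerivAt).comp x tl.hasFDerivAt
  have h2 : fderiv ℂ (fun x : E3 => v (Fin.tail x)) x = (fderiv ℂ v (Fin.tail x)).comp tl := h.fderiv
  rw [h2, ContinuousLinearMap.comp_apply]
  have : tl (Pi.single 0 1 : E3) = 0 := by
    funext i
    show (Pi.single 0 1 : E3) i.succ = 0
    rw [Pi.single_eq_of_ne (Fin.succ_ne_zero i)]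
  rw [this, map_zero]

theorem cd_c0 {u : E3 → ℂ} {p : Fin 2 → ℂ} (hu : DifferentiableAt ℂ u (Fin.cons 0 p)) (j : Fin 2) :
    coordDeriv (fun p : Fin 2 → ℂ => u (Fin.cons 0 p)) j p = coordDeriv u j.succ (Fin.cons 0 p) := by
  unfold coordDeriv
  have h1 : (fun p : Fin 2 → ℂ => u (Fin.cons 0 p)) = fun p => u (c0 p) := by
    funext p; rw [c0_apply]
  have hu' : DifferentiableAt ℂ u (c0 p) := by rw [c0_apply]; exact hu
  have h := (hu'.hasFDerivAt).comp p c0.hasFDerivAt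
  have h2 : fderiv ℂ (fun p => u (c0 p)) p = (fderiv ℂ u (c0 p)).comp c0 := h.fderiv
  rw [h1, h2, ContinuousLinearMap.comp_apply, c0_apply, c0_apply]
  congr 1
  funext i
  refine Fin.cases ?_ (fun k => ?_) i
  · simp [Fin.cons_zero, Pi.single_eq_of_ne (Fin.succ_ne_zero j).symm]
  · rw [Fin.cons_succ]
    by_cases hij : k = j
    · subst hij; simp
    · rw [Pi.single_eq_of_ne hij, Pi.single_eq_of_ne (fun h => hij (Fin.succ_injective _ h))]

/-- derivative of `x_0` -/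
def dl (i : Fin 3) : ℂ := if i = 0 then 1 else 0

theorem an_x0 (x : E3) : AnalyticAt ℂ (fun x : E3 => x 0) x :=
  (ContinuousLinearMap.proj (R := ℂ) (φ := fun _ : Fin 3 => ℂ) 0).analyticAt x

theorem cd_x0 (i : Fin 3) (x : E3) : coordDeriv (fun x : E3 => x 0) i x = dl i := by
  unfold coordDeriv
  have h : HasFDerivAt (fun x : E3 => x 0)
      (ContinuousLinearMap.proj (R := ℂ) (φ := fun _ : Fin 3 => ℂ) 0) x :=
    (ContinuousLinearMap.proj (R := ℂ) (φ := fun _ : Fin 3 => ℂ) 0).hasFDerivAt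
  rw [h.fderiv]
  show (Pi.single i 1 : E3) 0 = dl i
  unfold dl
  by_cases hi : i = 0
  · subst hi; simp
  · rw [if_neg hi, Pi.single_eq_of_ne (Ne.symm hi)]

/-- first derivatives of `x_0² u + x_0 v + w` -/
theorem cd_quad {u v w : E3 → ℂ} {x : E3} (hu : AnalyticAt ℂ u x) (hv : AnalyticAt ℂ v x)
    (hw : AnalyticAt ℂ w x) (i : Fin 3) :
    coordDeriv (fun x => x 0 * (x 0 * u x) + x 0 * v x + w x) i x =
      x 0 * (x 0 * coordDeriv u i x) + x 0 * (2 * dl i * u x + coordDeriv v i x) +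
        (dl i * v x + coordDeriv w i x) := by
  rw [cd_add (f := fun x => x 0 * (x 0 * u x) + x 0 * v x) (((an_x0 x).mul ((an_x0 x).mul hu)).add
    ((an_x0 x).mul hv)) hw, cd_add (f := fun x => x 0 * (x 0 * u x)) (g := fun x => x 0 * v x)
    ((an_x0 x).mul ((an_x0 x).mul hu)) ((an_x0 x).mul hv), cd_mul (an_x0 x)
    (g := fun x => x 0 * u x) ((an_x0 x).mul hu), cd_mul (an_x0 x) hu, cd_mul (an_x0 x) hv, cd_x0]
  ring

variable {g : E3 → ℂ} {u : E3 → ℂ} {v w : (Fin 2 → ℂ) → ℂ}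

theorem Dq.eq' (h : Dq g u v w) : g =ᶠ[𝓝 0]
    fun x => x 0 * (x 0 * u x) + x 0 * (fun x => v (Fin.tail x)) x + (fun x => w (Fin.tail x)) x := by
  filter_upwards [h.eq] with x hx
  rw [hx]; ring

theorem Dq.d1 (h : Dq g u v w) (i : Fin 3) : coordDeriv g i =ᶠ[𝓝 0]
    fun x => x 0 * (x 0 * coordDeriv u i x) + x 0 * (2 * dl i * u x +
      coordDeriv (fun x => v (Fin.tail x)) i x) +
      (dl i * v (Fin.tail x) + coordDeriv (fun x => w (Fin.tail x)) i x) := by
  filter_upwards [cd_congr h.eq' i, h.au.eventually_analyticAt,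
    tendsto_tail.eventually h.av.eventually_analyticAt,
    tendsto_tail.eventually h.aw.eventually_analyticAt] with x hx h1 h2 h3
  rw [hx, cd_quad h1 (an_tail h2) (an_tail h3)]

theorem Dq.an (h : Dq g u v w) : AnalyticAt ℂ g 0 := by
  have h1 : AnalyticAt ℂ (fun x => x 0 * (x 0 * u x) + x 0 * (fun x => v (Fin.tail x)) x +
      (fun x => w (Fin.tail x)) x) (0 : E3) :=
    (((an_x0 0).mul ((an_x0 0).mul h.au)).add ((an_x0 0).mul (an_tail (x := 0) h.av))).add
      (an_tail (x := 0) h.aw)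
  exact h1.congr h.eq'.symm

theorem Dq.d2 (h : Dq g u v w) (i j : Fin 3) : coordDeriv (coordDeriv g i) j =ᶠ[𝓝 0]
    fun x => x 0 * (x 0 * coordDeriv (coordDeriv u i) j x) + x 0 * (2 * dl j * coordDeriv u i x +
      (2 * dl i * coordDeriv u j x +
      coordDeriv (coordDeriv (fun x => v (Fin.tail x)) i) j x)) +
      (dl j * (2 * dl i * u x + coordDeriv (fun x => v (Fin.tail x)) i x) +
      (dl i * coordDeriv (fun x => v (Fin.tail x)) j x +
        coordDeriv (coordDeriv (fun x => w (Fin.tail x)) i) j x)) := by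
  filter_upwards [cd_congr (h.d1 i) j, h.au.eventually_analyticAt,
    tendsto_tail.eventually h.av.eventually_analyticAt,
    tendsto_tail.eventually h.aw.eventually_analyticAt] with x hx h1 h2 h3
  have h2' := an_tail h2
  have h3' := an_tail h3
  rw [hx, cd_quad (an_cd h1 i) (v := fun x => 2 * dl i * u x +
    coordDeriv (fun x => v (Fin.tail x)) i x) ((analyticAt_const.mul h1).add (an_cd h2' i))
    (w := fun x => dl i * v (Fin.tail x) + coordDeriv (fun x => w (Fin.tail x)) i x)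
    ((analyticAt_const.mul h2').add (an_cd h3' i)),
    cd_add (f := fun x => 2 * dl i * u x) (analyticAt_const.mul h1) (an_cd h2' i),
    cd_const_mul h1, cd_add (f := fun x => dl i * v (Fin.tail x)) (analyticAt_const.mul h2')
      (an_cd h3' i), cd_const_mul h2']

theorem Dq.h1 (h : Dq g u v w) (i : Fin 3) : coordDeriv g i 0 =
    dl i * v 0 + coordDeriv (fun x => w (Fin.tail x)) i 0 := by
  rw [(h.d1 i).self_of_nhds]
  simp [tail_zero]

theorem Dq.h2 (h : Dq g u v w) (i j : Fin 3) : H2 g i j =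
    dl j * (2 * dl i * u 0 + coordDeriv (fun x => v (Fin.tail x)) i 0) +
      (dl i * coordDeriv (fun x => v (Fin.tail x)) j 0 +
        coordDeriv (coordDeriv (fun x => w (Fin.tail x)) i) j 0) := by
  unfold H2
  rw [(h.d2 i j).self_of_nhds]
  simp

theorem Dq.h3 (h : Dq g u v w) (i j k : Fin 3) : H3 g i j k =
    dl k * (2 * dl j * coordDeriv u i 0 + (2 * dl i * coordDeriv u j 0 +
      coordDeriv (coordDeriv (fun x => v (Fin.tail x)) i) j 0)) +
    (dl j * (2 * dl i * coordDeriv u k 0 + coordDeriv (coordDeriv (fun x => v (Fin.tail x)) i) k 0) +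
      (dl i * coordDeriv (coordDeriv (fun x => v (Fin.tail x)) j) k 0 +
        coordDeriv (coordDeriv (coordDeriv (fun x => w (Fin.tail x)) i) j) k 0)) := by
  unfold H3
  have hv' : AnalyticAt ℂ (fun x : E3 => v (Fin.tail x)) 0 := an_tail (x := 0) h.av
  have hw' : AnalyticAt ℂ (fun x : E3 => w (Fin.tail x)) 0 := an_tail (x := 0) h.aw
  rw [(cd_congr (h.d2 i j) k).self_of_nhds]
  rw [cd_quad (u := coordDeriv (coordDeriv u i) j) (an_cd (an_cd h.au i) j)
    (v := fun x => 2 * dl j * coordDeriv u i x + (2 * dl i * coordDeriv u j x +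
      coordDeriv (coordDeriv (fun x => v (Fin.tail x)) i) j x))
    ((analyticAt_const.mul (an_cd h.au i)).add ((analyticAt_const.mul (an_cd h.au j)).add
      (an_cd (an_cd hv' i) j)))
    (w := fun x => dl j * (2 * dl i * u x + coordDeriv (fun x => v (Fin.tail x)) i x) +
      (dl i * coordDeriv (fun x => v (Fin.tail x)) j x +
        coordDeriv (coordDeriv (fun x => w (Fin.tail x)) i) j x))
    ((analyticAt_const.mul ((analyticAt_const.mul h.au).add (an_cd hv' i))).add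
      ((analyticAt_const.mul (an_cd hv' j)).add (an_cd (an_cd hw' i) j)))]
  rw [cd_add (f := fun x => dl j * (2 * dl i * u x + coordDeriv (fun x => v (Fin.tail x)) i x))
    (g := fun x => dl i * coordDeriv (fun x => v (Fin.tail x)) j x +
        coordDeriv (coordDeriv (fun x => w (Fin.tail x)) i) j x)
    (analyticAt_const.mul ((analyticAt_const.mul h.au).add (an_cd hv' i)))
    ((analyticAt_const.mul (an_cd hv' j)).add (an_cd (an_cd hw' i) j)),
    cd_const_mul (f := fun x => 2 * dl i * u x + coordDeriv (fun x => v (Fin.tail x)) i x)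
    ((analyticAt_const.mul h.au).add (an_cd hv' i)),
    cd_add (f := fun x => 2 * dl i * u x) (analyticAt_const.mul h.au) (an_cd hv' i),
    cd_const_mul h.au,
    cd_add (f := fun x => dl i * coordDeriv (fun x => v (Fin.tail x)) j x)
      (analyticAt_const.mul (an_cd hv' j)) (an_cd (an_cd hw' i) j),
    cd_const_mul (an_cd hv' j)]
  simp

end Crest.Agent.R257.LcxD_759
end
end

-- ▼ part R257/LcxD2_759

/-!
R257 / LcxD2_759 (helper759): 2-jet and 3-jet of `x_0² u + x_0 v + w` in terms of `cf v`, `cf w`;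
the decomposition of an analytic family; the Taylor coefficients of the discriminant.
-/

set_option autoImplicit false
set_option linter.unusedSimpArgs false

open Topology Filter Set Asymptotics Matrix
open Crest.AlgGeometry.Germ

noncomputable section

namespace Crest.Agent.R257.LcxD_759

open Crest.Agent.R257.Defs_219 Crest.Agent.R257.LCDefs_472 Crest.Agent.R257.LcxDefs_759
open Crest.Agent.R257.LcxA_759 Crest.Agent.R257.LcxS_759

theorem tail_d_succ {v : (Fin 2 → ℂ) → ℂ} (hv : AnalyticAt ℂ v 0) (j : Fin 2) :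
    coordDeriv (fun x : E3 => v (Fin.tail x)) j.succ =ᶠ[𝓝 0]
      fun x : E3 => coordDeriv v j (Fin.tail x) := by
  filter_upwards [tendsto_tail.eventually hv.eventually_analyticAt] with x hx
  exact cd_tail_succ hx.differentiableAt j

theorem tail_d_zero {v : (Fin 2 → ℂ) → ℂ} (hv : AnalyticAt ℂ v 0) :
    coordDeriv (fun x : E3 => v (Fin.tail x)) 0 =ᶠ[𝓝 0] fun _ : E3 => (0 : ℂ) := by
  filter_upwards [tendsto_tail.eventually hv.eventually_analyticAt] with x hx
  exact cd_tail_zero hx.differentiableAt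

theorem cd_zero_fun (i : Fin 3) (x : E3) : coordDeriv (fun _ : E3 => (0 : ℂ)) i x = 0 := by
  unfold coordDeriv
  simp

theorem cd_of_zero {f : E3 → ℂ} (h : f =ᶠ[𝓝 0] fun _ => (0 : ℂ)) (i : Fin 3) :
    coordDeriv f i =ᶠ[𝓝 0] fun _ => (0 : ℂ) := by
  filter_upwards [cd_congr h i] with x hx
  rw [hx, cd_zero_fun]

section tails

variable {v : (Fin 2 → ℂ) → ℂ}

theorem t1s (hv : AnalyticAt ℂ v 0) (j : Fin 2) :
    coordDeriv (fun x : E3 => v (Fin.tail x)) j.succ 0 = coordDeriv v j 0 :=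
  (tail_d_succ hv j).self_of_nhds

theorem t1z (hv : AnalyticAt ℂ v 0) : coordDeriv (fun x : E3 => v (Fin.tail x)) 0 0 = 0 :=
  (tail_d_zero hv).self_of_nhds

theorem t2ss (hv : AnalyticAt ℂ v 0) (i j : Fin 2) :
    coordDeriv (coordDeriv (fun x : E3 => v (Fin.tail x)) i.succ) j.succ 0 =
      coordDeriv (coordDeriv v i) j 0 := by
  rw [(cd_congr (tail_d_succ hv i) j.succ).self_of_nhds]
  exact t1s (an_cd hv i) j


theorem t2z (hv : AnalyticAt ℂ v 0) (j : Fin 3) :
    coordDeriv (coordDeriv (fun x : E3 => v (Fin.tail x)) 0) j 0 = 0 :=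
  (cd_of_zero (tail_d_zero hv) j).self_of_nhds

theorem t3sss (hv : AnalyticAt ℂ v 0) (i j k : Fin 2) :
    coordDeriv (coordDeriv (coordDeriv (fun x : E3 => v (Fin.tail x)) i.succ) j.succ) k.succ 0 =
      coordDeriv (coordDeriv (coordDeriv v i) j) k 0 := by
  rw [(cd_congr (cd_congr (tail_d_succ hv i) j.succ) k.succ).self_of_nhds]
  exact t2ss (an_cd hv i) j k

theorem t3z (hv : AnalyticAt ℂ v 0) (j k : Fin 3) :
    coordDeriv (coordDeriv (coordDeriv (fun x : E3 => v (Fin.tail x)) 0) j) k 0 = 0 :=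
  (cd_of_zero (cd_of_zero (tail_d_zero hv) j) k).self_of_nhds

end tails

/-! ### plane derivatives and `cf` -/

section plane

variable {v : (Fin 2 → ℂ) → ℂ}

theorem p1_0 (v : (Fin 2 → ℂ) → ℂ) (hv : AnalyticAt ℂ v 0) : coordDeriv v 0 0 = cf v 1 0 := by
  have := cf_cd0 hv 0 0
  rw [cf_zero_zero] at this
  rw [this]; norm_num

theorem p1_1 (v : (Fin 2 → ℂ) → ℂ) (hv : AnalyticAt ℂ v 0) : coordDeriv v 1 0 = cf v 0 1 := by
  have := cf_cd1 hv 0 0
  rw [cf_zero_zero] at this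
  rw [this]; norm_num

theorem p2_00 (hv : AnalyticAt ℂ v 0) : coordDeriv (coordDeriv v 0) 0 0 = 2 * cf v 2 0 := by
  rw [p1_0 _ (an_cd hv 0), cf_cd0 hv]; norm_num

theorem p2_01 (hv : AnalyticAt ℂ v 0) : coordDeriv (coordDeriv v 0) 1 0 = cf v 1 1 := by
  rw [p1_1 _ (an_cd hv 0), cf_cd0 hv]; norm_num

theorem p2_11 (hv : AnalyticAt ℂ v 0) : coordDeriv (coordDeriv v 1) 1 0 = 2 * cf v 0 2 := by
  rw [p1_1 _ (an_cd hv 1), cf_cd1 hv]; norm_num

theorem p3_000 (hv : AnalyticAt ℂ v 0) :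
    coordDeriv (coordDeriv (coordDeriv v 0) 0) 0 0 = 6 * cf v 3 0 := by
  rw [p2_00 (an_cd hv 0), cf_cd0 hv]; push_cast; ring

theorem p3_001 (hv : AnalyticAt ℂ v 0) :
    coordDeriv (coordDeriv (coordDeriv v 0) 0) 1 0 = 2 * cf v 2 1 := by
  rw [p2_01 (an_cd hv 0), cf_cd0 hv]; push_cast; ring

theorem p3_011 (hv : AnalyticAt ℂ v 0) :
    coordDeriv (coordDeriv (coordDeriv v 0) 1) 1 0 = 2 * cf v 1 2 := by
  rw [p2_11 (an_cd hv 0), cf_cd0 hv]; push_cast; ring

theorem p3_111 (hv : AnalyticAt ℂ v 0) :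
    coordDeriv (coordDeriv (coordDeriv v 1) 1) 1 0 = 6 * cf v 0 3 := by
  rw [p2_11 (an_cd hv 1), cf_cd1 hv]; push_cast; ring

end plane

variable {g : E3 → ℂ} {u : E3 → ℂ} {v w : (Fin 2 → ℂ) → ℂ}

theorem Dq.z (h : Dq g u v w) : g 0 = cf w 0 0 := by
  rw [h.eq.self_of_nhds, cf_zero_zero]
  simp [tail_zero]

theorem Dq.c0 (h : Dq g u v w) : coordDeriv g 0 0 = cf v 0 0 := by
  rw [h.h1, t1z h.aw, cf_zero_zero]; simp [dl]

theorem Dq.c1 (h : Dq g u v w) : coordDeriv g 1 0 = cf w 1 0 := by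
  rw [h.h1, show (1 : Fin 3) = (0 : Fin 2).succ from rfl, t1s h.aw, p1_0 _ h.aw]
  simp [dl]

theorem Dq.c2 (h : Dq g u v w) : coordDeriv g 2 0 = cf w 0 1 := by
  rw [h.h1, show (2 : Fin 3) = (1 : Fin 2).succ from rfl, t1s h.aw, p1_1 _ h.aw]
  have : ((1 : Fin 2).succ) ≠ 0 := Fin.succ_ne_zero _
  simp [dl, this]

theorem dl0 : dl 0 = 1 := by simp [dl]
theorem dl1 : dl 1 = 0 := by simp [dl]
theorem dl2 : dl 2 = 0 := by simp [dl]

theorem Dq.h00 (h : Dq g u v w) : H2 g 0 0 = 2 * u 0 := by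
  rw [h.h2, t1z h.av, t2z h.aw, dl0]; ring

theorem Dq.h01 (h : Dq g u v w) : H2 g 0 1 = cf v 1 0 := by
  rw [h.h2, t1z h.av, t2z h.aw, dl0, dl1, show (1 : Fin 3) = (0 : Fin 2).succ from rfl, t1s h.av,
    p1_0 _ h.av]; ring

theorem Dq.h02 (h : Dq g u v w) : H2 g 0 2 = cf v 0 1 := by
  rw [h.h2, t1z h.av, t2z h.aw, dl0, dl2, show (2 : Fin 3) = (1 : Fin 2).succ from rfl, t1s h.av,
    p1_1 _ h.av]; ring

theorem Dq.h11 (h : Dq g u v w) : H2 g 1 1 = 2 * cf w 2 0 := by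
  rw [h.h2, dl1, show (1 : Fin 3) = (0 : Fin 2).succ from rfl, t2ss h.aw, p2_00 h.aw]; ring

theorem Dq.h12 (h : Dq g u v w) : H2 g 1 2 = cf w 1 1 := by
  rw [h.h2, dl1, dl2, show (1 : Fin 3) = (0 : Fin 2).succ from rfl,
    show (2 : Fin 3) = (1 : Fin 2).succ from rfl, t2ss h.aw, p2_01 h.aw]; ring

theorem Dq.h22 (h : Dq g u v w) : H2 g 2 2 = 2 * cf w 0 2 := by
  rw [h.h2, dl2, show (2 : Fin 3) = (1 : Fin 2).succ from rfl, t2ss h.aw, p2_11 h.aw]; ring




theorem Dq.h011 (h : Dq g u v w) : H3 g 0 1 1 = 2 * cf v 2 0 := by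
  rw [h.h3, t2z h.av, t3z h.aw, dl0, dl1, show (1 : Fin 3) = (0 : Fin 2).succ from rfl, t2ss h.av,
    p2_00 h.av]; ring

theorem Dq.h012 (h : Dq g u v w) : H3 g 0 1 2 = cf v 1 1 := by
  rw [h.h3, t2z h.av, t3z h.aw, dl0, dl1, dl2, show (1 : Fin 3) = (0 : Fin 2).succ from rfl,
    show (2 : Fin 3) = (1 : Fin 2).succ from rfl, t2ss h.av, p2_01 h.av]; ring

theorem Dq.h022 (h : Dq g u v w) : H3 g 0 2 2 = 2 * cf v 0 2 := by
  rw [h.h3, t2z h.av, t3z h.aw, dl0, dl2, show (2 : Fin 3) = (1 : Fin 2).succ from rfl, t2ss h.av,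
    p2_11 h.av]; ring

theorem Dq.h111 (h : Dq g u v w) : H3 g 1 1 1 = 6 * cf w 3 0 := by
  rw [h.h3, dl1, show (1 : Fin 3) = (0 : Fin 2).succ from rfl, t3sss h.aw, p3_000 h.aw]; ring

theorem Dq.h112 (h : Dq g u v w) : H3 g 1 1 2 = 2 * cf w 2 1 := by
  rw [h.h3, dl1, dl2, show (1 : Fin 3) = (0 : Fin 2).succ from rfl,
    show (2 : Fin 3) = (1 : Fin 2).succ from rfl, t3sss h.aw, p3_001 h.aw]; ring

theorem Dq.h122 (h : Dq g u v w) : H3 g 1 2 2 = 2 * cf w 1 2 := by
  rw [h.h3, dl1, dl2, show (1 : Fin 3) = (0 : Fin 2).succ from rfl,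
    show (2 : Fin 3) = (1 : Fin 2).succ from rfl, t3sss h.aw, p3_011 h.aw]; ring

theorem Dq.h222 (h : Dq g u v w) : H3 g 2 2 2 = 6 * cf w 0 3 := by
  rw [h.h3, dl2, show (2 : Fin 3) = (1 : Fin 2).succ from rfl, t3sss h.aw, p3_111 h.aw]; ring

/-! ### families -/

theorem ev_slice {X : Type*} [TopologicalSpace X] {a : X} {P : X × ℂ → Prop}
    (h : ∀ᶠ q in 𝓝 (a, (0 : ℂ)), P q) : ∀ᶠ t in 𝓝 (0 : ℂ), ∀ᶠ x in 𝓝 a, P (x, t) := by
  have h1 : Tendsto (Prod.swap : ℂ × X → X × ℂ) (𝓝 ((0 : ℂ), a)) (𝓝 (a, 0)) :=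
    continuous_swap.tendsto' _ _ rfl
  exact (h1.eventually h).curry_nhds

/-- decomposition of a family -/
structure DF (F : E3 × ℂ → ℂ) (U : E3 × ℂ → ℂ) (V W : (Fin 2 → ℂ) × ℂ → ℂ) : Prop where
  aU : AnalyticAt ℂ U (0, 0)
  aV : AnalyticAt ℂ V (0, 0)
  aW : AnalyticAt ℂ W (0, 0)
  eq : ∀ᶠ q in 𝓝 ((0 : E3), (0 : ℂ)),
    F q = q.1 0 ^ 2 * U q + q.1 0 * V (Fin.tail q.1, q.2) + W (Fin.tail q.1, q.2)

theorem exists_DF {F : E3 × ℂ → ℂ} (hF : AnalyticAt ℂ F (0, 0)) : ∃ U V W, DF F U V W := by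
  set G : ((Fin 2 → ℂ) × ℂ) × ℂ → ℂ := fun p => F (Fin.cons p.2 p.1.1, p.1.2) with hG
  have hcons : AnalyticAt ℂ (fun p : ((Fin 2 → ℂ) × ℂ) × ℂ =>
      ((Fin.cons p.2 p.1.1 : E3), p.1.2)) 0 := by
    refine AnalyticAt.prod ?_ ?_
    · refine AnalyticAt.pi fun i => ?_
      refine Fin.cases ?_ (fun j => ?_) i
      · exact analyticAt_snd
      · exact AnalyticAt.fun_comp (g := fun x : Fin 2 → ℂ => x j)
          (f := fun p : ((Fin 2 → ℂ) × ℂ) × ℂ => p.1.1)
          ((ContinuousLinearMap.proj (R := ℂ) (φ := fun _ : Fin 2 => ℂ) j).analyticAt _)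
          (AnalyticAt.fun_comp (g := Prod.fst) (f := Prod.fst) analyticAt_fst analyticAt_fst)
    · exact AnalyticAt.fun_comp (g := Prod.snd) (f := Prod.fst) analyticAt_snd analyticAt_fst
  have hz : ((Fin.cons (0 : ((Fin 2 → ℂ) × ℂ) × ℂ).2 (0 : ((Fin 2 → ℂ) × ℂ) × ℂ).1.1 : E3),
      (0 : ((Fin 2 → ℂ) × ℂ) × ℂ).1.2) = (0, 0) := by
    refine Prod.ext ?_ rfl
    funext i
    refine Fin.cases rfl (fun j => rfl) i
  have hGa : AnalyticAt ℂ G 0 := AnalyticAt.fun_comp (g := F)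
    (f := fun p : ((Fin 2 → ℂ) × ℂ) × ℂ => ((Fin.cons p.2 p.1.1 : E3), p.1.2)) (by rw [hz]; exact hF)
    hcons
  obtain ⟨G1, hG1, h1⟩ := UI939.hadamard_fun hGa
  obtain ⟨G2, hG2, h2⟩ := UI939.hadamard_fun hG1
  have hin : AnalyticAt ℂ (fun p : (Fin 2 → ℂ) × ℂ => ((p, (0 : ℂ)) : ((Fin 2 → ℂ) × ℂ) × ℂ)) (0, 0) :=
    analyticAt_id.prod analyticAt_const
  have hout : AnalyticAt ℂ (fun q : E3 × ℂ =>
      (((Fin.tail q.1, q.2), q.1 0) : ((Fin 2 → ℂ) × ℂ) × ℂ)) (0, 0) := by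
    refine AnalyticAt.prod (AnalyticAt.prod ?_ analyticAt_snd) ?_
    · exact AnalyticAt.fun_comp (g := fun x : E3 => tl x) (f := Prod.fst) (tl.analyticAt _)
        analyticAt_fst
    · exact AnalyticAt.fun_comp (g := fun x : E3 => x 0) (f := Prod.fst) (an_x0 _) analyticAt_fst
  refine ⟨fun q => G2 ((Fin.tail q.1, q.2), q.1 0), fun p => G1 (p, 0), fun p => G (p, 0), ?_, ?_, ?_,
    ?_⟩
  · exact AnalyticAt.fun_comp (g := G2) (by exact hG2) hout
  · exact AnalyticAt.fun_comp (g := G1) (by exact hG1) hin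
  · exact AnalyticAt.fun_comp (g := G) (by exact hGa) hin
  · have ht : Tendsto (fun q : E3 × ℂ => (((Fin.tail q.1, q.2), q.1 0) : ((Fin 2 → ℂ) × ℂ) × ℂ))
        (𝓝 (0, 0)) (𝓝 0) := by
      have := hout.continuousAt.tendsto
      exact this
    filter_upwards [ht.eventually h1, ht.eventually h2] with q e1 e2
    have e3 : F q = G ((Fin.tail q.1, q.2), q.1 0) := by
      simp only [hG, Fin.cons_self_tail]
    rw [e3, e1, e2]
    ring

theorem DF.dq {F : E3 × ℂ → ℂ} {U : E3 × ℂ → ℂ} {V W : (Fin 2 → ℂ) × ℂ → ℂ} (h : DF F U V W) :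
    ∀ᶠ t in 𝓝 (0 : ℂ), Dq (sl F t) (sl U t) (sl V t) (sl W t) := by
  filter_upwards [LcxL_759.ev_an_sl h.aU, LcxL_759.ev_an_sl h.aV, LcxL_759.ev_an_sl h.aW,
    ev_slice h.eq] with t h1 h2 h3 h4
  exact ⟨h1, h2, h3, h4⟩

/-- the discriminant of a family -/
def DscF (U : E3 × ℂ → ℂ) (V W : (Fin 2 → ℂ) × ℂ → ℂ) : (Fin 2 → ℂ) × ℂ → ℂ :=
  fun q => 4 * U (Fin.cons 0 q.1, q.2) * W q - V q ^ 2

theorem sl_DscF (U : E3 × ℂ → ℂ) (V W : (Fin 2 → ℂ) × ℂ → ℂ) (t : ℂ) :
    sl (DscF U V W) t = Dsc (sl U t) (sl V t) (sl W t) := rfl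

theorem an_DscF {F : E3 × ℂ → ℂ} {U : E3 × ℂ → ℂ} {V W : (Fin 2 → ℂ) × ℂ → ℂ} (h : DF F U V W) :
    AnalyticAt ℂ (DscF U V W) (0, 0) := by
  have h1 : AnalyticAt ℂ (fun q : (Fin 2 → ℂ) × ℂ => (((Fin.cons 0 q.1 : E3), q.2) : E3 × ℂ))
      (0, 0) := by
    have h2 : (fun q : (Fin 2 → ℂ) × ℂ => (((Fin.cons 0 q.1 : E3), q.2) : E3 × ℂ)) =
        fun q => (LcxD_759.c0 q.1, q.2) := by
      funext q; rw [c0_apply]
    rw [h2]
    exact (AnalyticAt.fun_comp (g := fun x => LcxD_759.c0 x) (f := Prod.fst)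
      (LcxD_759.c0.analyticAt _) analyticAt_fst).prod analyticAt_snd
  have hz : (((Fin.cons 0 (0 : Fin 2 → ℂ) : E3), (0 : ℂ)) : E3 × ℂ) = (0, 0) := by
    rw [← c0_apply, map_zero]
  have h3 : AnalyticAt ℂ (fun q : (Fin 2 → ℂ) × ℂ => U (Fin.cons 0 q.1, q.2)) (0, 0) :=
    AnalyticAt.fun_comp (g := U) (f := fun q : (Fin 2 → ℂ) × ℂ =>
      (((Fin.cons 0 q.1 : E3), q.2) : E3 × ℂ)) (by rw [hz]; exact h.aU) h1
  exact ((analyticAt_const.mul h3).mul h.aW).sub (h.aV.pow 2)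


theorem cf_u01 {u : E3 → ℂ} (hu : AnalyticAt ℂ u 0) :
    cf (fun p : Fin 2 → ℂ => u (Fin.cons 0 p)) 0 1 = coordDeriv u 2 0 := by
  rw [← p1_1 _ (an_c0 hu), cd_c0 (by rw [← c0_apply, map_zero]; exact hu.differentiableAt),
    ← c0_apply, map_zero]
  rfl

theorem cf_u00 (u : E3 → ℂ) : cf (fun p : Fin 2 → ℂ => u (Fin.cons 0 p)) 0 0 = u 0 := by
  rw [cf_zero_zero, ← c0_apply, map_zero]

/-- coefficients of the discriminant -/
theorem cf_dsc {u : E3 → ℂ} {v w : (Fin 2 → ℂ) → ℂ} (hu : AnalyticAt ℂ u 0)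
    (hv : AnalyticAt ℂ v 0) (hw : AnalyticAt ℂ w 0) (i j : ℕ) : cf (Dsc u v w) i j =
      4 * (∑ a ∈ Finset.HasAntidiagonal.antidiagonal i, ∑ b ∈ Finset.HasAntidiagonal.antidiagonal j,
        cf (fun p : Fin 2 → ℂ => u (Fin.cons 0 p)) a.1 b.1 * cf w a.2 b.2) -
      ∑ a ∈ Finset.HasAntidiagonal.antidiagonal i, ∑ b ∈ Finset.HasAntidiagonal.antidiagonal j,
        cf v a.1 b.1 * cf v a.2 b.2 := by
  have h1 : Dsc u v w = fun p => (fun p => 4 * ((fun p => u (Fin.cons 0 p)) p * w p)) p -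
      (fun p => v p * v p) p := by
    funext p
    simp only [Dsc]
    ring
  have hu' := an_c0 hu
  rw [h1, cf_sub (f := fun p => 4 * ((fun p => u (Fin.cons 0 p)) p * w p))
    (g := fun p => v p * v p) (analyticAt_const.mul (hu'.mul hw)) (hv.mul hv),
    cf_const_mul (f := fun p => (fun p => u (Fin.cons 0 p)) p * w p) (hu'.mul hw),
    cf_mul hu' hw, cf_mul hv hv]

end Crest.Agent.R257.LcxD_759
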