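import Crest.Agent.R257.EVc_929
import Crest.Agent.R257.Cl2G_475
import Crest.Agent.R257.LcxD2_759
import Crest.Agent.R257.Ub3_472

-- ▼ part R257/EVd_929
section

set_option autoImplicit false

/-!
R257 / EVd_929 (helper929): the arcs in `E3` for a germ of corank `<= 2` with a weighted expansion.
Coordinates `(b, a, x)`, `x = X(b,a)` solves `f_x = 0`, `h(b,a) = f(b,a,X(b,a))`.
-/

open Topology Filter Set
open Crest.AlgGeometry.Germ

noncomputable section

namespace Crest.Agent.R257.EVd_929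

open Crest.Agent.R257.Defs_219 Crest.Agent.R257.EVa_929 Crest.Agent.R257.EVb_929
open Crest.Agent.R257.EVc_929

section

variable {f : E3 → ℂ} {X : E2 → ℂ}

theorem an_gp {q : E2} (hX : AnalyticAt ℂ X q) : AnalyticAt ℂ (gp X) q := by
  have hp : ∀ i : Fin 2, AnalyticAt ℂ (fun q : E2 => q i) q := fun i =>
    (ContinuousLinearMap.proj (R := ℂ) (φ := fun _ : Fin 2 => ℂ) i).analyticAt q
  refine AnalyticAt.pi (f := fun i (q : E2) => gp X q i) fun i => ?_
  fin_cases i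
  · exact hp 0
  · exact hp 1
  · exact hX

theorem gp_zero (X0 : X 0 = 0) : gp X 0 = 0 := by
  funext i
  fin_cases i
  · rfl
  · rfl
  · exact X0

theorem tendsto_gp (hX : AnalyticAt ℂ X 0) (X0 : X 0 = 0) : Tendsto (gp X) (𝓝 0) (𝓝 0) := by
  have := (an_gp hX).continuousAt.tendsto
  rwa [gp_zero X0] at this

/-- derivative of `G ∘ gp X` -/
theorem cd_gp {G : E3 → ℂ} {q : E2} (hG : AnalyticAt ℂ G (gp X q)) (hX : AnalyticAt ℂ X q)
    (i : Fin 2) : coordDeriv (fun q => G (gp X q)) i q =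
      coordDeriv G i.castSucc (gp X q) + coordDeriv X i q * coordDeriv G 2 (gp X q) := by
  have h1 : coordDeriv (fun q => G (gp X q)) i q =
      fderiv ℂ G (gp X q) (fderiv ℂ (gp X) q (Pi.single i 1)) := by
    change fderiv ℂ (fun q => G (gp X q)) q (Pi.single i 1) = _
    have := fderiv_comp q hG.differentiableAt (an_gp hX).differentiableAt
    have h2 : (G ∘ gp X) = fun q => G (gp X q) := rfl
    rw [h2] at this
    rw [this]
    rfl
  have hd : ∀ j : Fin 3, fderiv ℂ (gp X) q (Pi.single i 1) j =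
      fderiv ℂ (fun q => gp X q j) q (Pi.single i 1) := fun j => by
    rw [fderiv_apply (an_gp hX).differentiableAt]
    rfl
  have hp : ∀ l : Fin 2, fderiv ℂ (fun q : E2 => q l) q (Pi.single i 1) =
      (Pi.single i 1 : E2) l := fun l => by
    have : (fun q : E2 => q l) = ContinuousLinearMap.proj (R := ℂ) (φ := fun _ : Fin 2 => ℂ) l :=
      rfl
    rw [this, ContinuousLinearMap.fderiv]
    rfl
  have e0 : fderiv ℂ (gp X) q (Pi.single i 1) 0 = (Pi.single i 1 : E2) 0 := by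
    rw [hd 0]; exact hp 0
  have e1 : fderiv ℂ (gp X) q (Pi.single i 1) 1 = (Pi.single i 1 : E2) 1 := by
    rw [hd 1]; exact hp 1
  have e2 : fderiv ℂ (gp X) q (Pi.single i 1) 2 = coordDeriv X i q := by
    rw [hd 2]; rfl
  rw [h1, fd_sum, Fin.sum_univ_three, e0, e1, e2]
  fin_cases i
  · simp
  · simp

variable (hf : AnalyticAt ℂ f 0) (hX : AnalyticAt ℂ X 0) (X0 : X 0 = 0)
  (hX1 : ∀ᶠ q in 𝓝 (0 : E2), coordDeriv f 2 (gp X q) = 0)

include hf hX X0 hX1

theorem cd_h (i : Fin 2) : ∀ᶠ q in 𝓝 (0 : E2),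
    coordDeriv (fun q => f (gp X q)) i q = coordDeriv f i.castSucc (gp X q) := by
  filter_upwards [hX.eventually_analyticAt, (tendsto_gp hX X0).eventually hf.eventually_analyticAt,
    hX1] with q h1 h2 h3
  rw [cd_gp h2 h1, h3, mul_zero, add_zero]

/-- the second derivative of `h` and the minor -/
theorem cd2_h : ∀ᶠ q in 𝓝 (0 : E2),
    coordDeriv (coordDeriv (fun q => f (gp X q)) 1) 1 q * coordDeriv (coordDeriv f 2) 2 (gp X q) =
      mi f (gp X q) := by
  filter_upwards [hX.eventually_analyticAt, (tendsto_gp hX X0).eventually hf.eventually_analyticAt,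
    hX1.eventually_nhds, (cd_h hf hX X0 hX1 1).eventually_nhds] with q h1 h2 h3 h4
  have e1 : coordDeriv (coordDeriv (fun q => f (gp X q)) 1) 1 q =
      coordDeriv (fun q => coordDeriv f 1 (gp X q)) 1 q := by
    change fderiv ℂ (coordDeriv (fun q => f (gp X q)) 1) q (Pi.single 1 1) =
      fderiv ℂ (fun q => coordDeriv f 1 (gp X q)) q (Pi.single 1 1)
    have h5 : coordDeriv (fun q => f (gp X q)) 1 =ᶠ[𝓝 q] fun q => coordDeriv f 1 (gp X q) := h4
    rw [h5.fderiv_eq]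
  have e2 := cd_gp (an_cd h2 1) h1 1
  have e3 := cd_gp (an_cd h2 2) h1 1
  have e4 : coordDeriv (fun q => coordDeriv f 2 (gp X q)) 1 q = 0 := by
    change fderiv ℂ (fun q => coordDeriv f 2 (gp X q)) q (Pi.single 1 1) = 0
    have h5 : (fun q => coordDeriv f 2 (gp X q)) =ᶠ[𝓝 q] fun _ => (0 : ℂ) := h3
    rw [h5.fderiv_eq]
    simp
  rw [e4] at e3
  rw [e1, e2, mi]
  have c1 : (Fin.castSucc (1 : Fin 2) : Fin 3) = 1 := rfl
  rw [c1] at e3 ⊢
  linear_combination (-coordDeriv (coordDeriv f 1) 2 (gp X q)) * e3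

omit X0 hX hX1 in
/-- uniqueness of the solution of `f_x = 0` -/
theorem uniq_X (hX : AnalyticAt ℂ X 0) (X0 : X 0 = 0)
    (hX1 : ∀ᶠ q in 𝓝 (0 : E2), coordDeriv f 2 (gp X q) = 0)
    (hxx : coordDeriv (coordDeriv f 2) 2 0 ≠ 0) :
    ∀ᶠ p in 𝓝 (0 : E3), coordDeriv f 2 p = 0 → p = gp X ![p 0, p 1] := by
  have hs : HasStrictFDerivAt (coordDeriv f 2) (fderiv ℂ (coordDeriv f 2) 0) 0 :=
    (an_cd hf 2).hasStrictFDerivAt
  set e := coordDeriv (coordDeriv f 2) 2 0 with he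
  have hep : 0 < ‖e‖ := norm_pos_iff.2 hxx
  have hb := hs.isLittleO.def (c := ‖e‖ / 2) (by positivity)
  have hT : Tendsto (fun p : E3 => (p, gp X ![p 0, p 1])) (𝓝 0) (𝓝 ((0 : E3), (0 : E3))) := by
    have h1 : Tendsto (fun p : E3 => (![p 0, p 1] : E2)) (𝓝 0) (𝓝 0) := by
      have : Continuous (fun p : E3 => (![p 0, p 1] : E2)) := by
        refine continuous_pi fun i => ?_
        fin_cases i
        · exact continuous_apply 0
        · exact continuous_apply 1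
      refine this.tendsto' _ _ ?_
      funext i
      fin_cases i <;> rfl
    exact tendsto_id.prodMk_nhds ((tendsto_gp hX X0).comp h1)
  have h2 : Tendsto (fun p : E3 => (![p 0, p 1] : E2)) (𝓝 0) (𝓝 0) := by
    have : Continuous (fun p : E3 => (![p 0, p 1] : E2)) := by
      refine continuous_pi fun i => ?_
      fin_cases i
      · exact continuous_apply 0
      · exact continuous_apply 1
    refine this.tendsto' _ _ ?_
    funext i
    fin_cases i <;> rfl
  filter_upwards [hT.eventually hb, h2.eventually hX1] with p h3 h4 h5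
  rw [h5, h4, sub_self, zero_sub, norm_neg] at h3
  have e1 : p - gp X ![p 0, p 1] = (p 2 - X ![p 0, p 1]) • (Pi.single 2 1 : E3) := by
    funext i
    fin_cases i
    · simp [gp]
    · simp [gp]
    · simp [gp]
  have e2 : fderiv ℂ (coordDeriv f 2) 0 (p - gp X ![p 0, p 1]) = (p 2 - X ![p 0, p 1]) * e := by
    rw [e1, map_smul]
    rfl
  have e3 : ‖p - gp X ![p 0, p 1]‖ ≤ ‖p 2 - X ![p 0, p 1]‖ := by
    rw [e1, norm_smul]
    have h6 : ‖(Pi.single 2 1 : E3)‖ ≤ 1 := by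
      rw [pi_norm_le_iff_of_nonneg zero_le_one]
      intro i
      fin_cases i
      · simp
      · simp
      · simp
    exact mul_le_of_le_one_right (norm_nonneg _) h6
  rw [e2, norm_mul] at h3
  have e4 : ‖p 2 - X ![p 0, p 1]‖ = 0 := by
    by_contra hne
    have hpos : 0 < ‖p 2 - X ![p 0, p 1]‖ := lt_of_le_of_ne (norm_nonneg _) (Ne.symm hne)
    nlinarith
  rw [norm_eq_zero.1 e4, zero_smul] at e1
  exact sub_eq_zero.1 e1

end

/-- **the arcs** -/
theorem arcs {f : E3 → ℂ} (hf : AnalyticAt ℂ f 0) (crit : ∀ i, coordDeriv f i 0 = 0)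
    {X : E2 → ℂ} (hX : AnalyticAt ℂ X 0) (X0 : X 0 = 0)
    (hX1 : ∀ᶠ q in 𝓝 (0 : E2), coordDeriv f 2 (gp X q) = 0)
    (hxx : coordDeriv (coordDeriv f 2) 2 0 ≠ 0) {k N : ℕ} (hk : 1 ≤ k) (hkN : k * (N - 2) = 2)
    {c : Fin (N + 1) → E2 → ℂ} (hP : Pl (fun q => f (gp X q)) k N c) {ι : Type} [Finite ι]
    [Nonempty ι] {w : ι → ℂ} (winj : Function.Injective w)
    (w0 : ∀ i, deriv (Pw c) (w i) = 0) (w2 : ∀ i, deriv (deriv (Pw c)) (w i) ≠ 0)
    (wall : ∀ z, deriv (Pw c) z = 0 → ∃ i, z = w i) :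
    ∃ (γ : ι → ℂ → E3) (D : ι → ℂ → ℂ), Arcs f γ D ∧
      (∀ i, D i 0 = coordDeriv (coordDeriv f 2) 2 0 * deriv (deriv (Pw c)) (w i)) ∧
      ∀ i, ∃ g : ℂ → ℂ, AnalyticAt ℂ g 0 ∧ g 0 = Pw c (w i) ∧
        ∀ᶠ τ in 𝓝 (0 : ℂ), f (γ i τ) = τ ^ (k * N) * g τ := by
  have hN : 3 ≤ N := by
    by_contra hcon
    have : N - 2 = 0 := by omega
    rw [this, Nat.mul_zero] at hkN
    omega
  have hh : AnalyticAt ℂ (fun q => f (gp X q)) 0 :=
    AnalyticAt.fun_comp (g := f) (f := gp X) (by rw [gp_zero X0]; exact hf) (an_gp hX)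
  choose W hWa hW0 hW1 hW2 using fun i => exists_W hk hP.an (w0 i) (w2 i)
  have hWT : ∀ i, Tendsto (fun τ : ℂ => (W i τ, τ)) (𝓝 0) (𝓝 (w i, 0)) := fun i => by
    have h1 := (hWa i).continuousAt.tendsto
    rw [hW0] at h1
    exact h1.prodMk_nhds tendsto_id
  set γ : ι → ℂ → E3 := fun i τ => gp X (pt k (W i τ, τ)) with hγ
  set D : ι → ℂ → ℂ := fun i τ => coordDeriv (coordDeriv f 2) 2 (γ i τ) * G2 c k (W i τ, τ) with hD
  have hqan : ∀ i, AnalyticAt ℂ (fun τ => pt k (W i τ, τ)) 0 := fun i =>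
    AnalyticAt.fun_comp (g := pt k) (f := fun τ : ℂ => (W i τ, τ)) (an_pt k _)
      ((hWa i).prod analyticAt_id)
  have hq0 : ∀ i, pt k (W i 0, 0) = 0 := fun i => pt_zero hk _
  have hqT : ∀ i, Tendsto (fun τ : ℂ => pt k (W i τ, τ)) (𝓝 0) (𝓝 0) := fun i => by
    have := (hqan i).continuousAt.tendsto
    simp only [hq0] at this
    exact this
  have hγan : ∀ i, AnalyticAt ℂ (γ i) 0 := fun i =>
    AnalyticAt.fun_comp (g := gp X) (f := fun τ : ℂ => pt k (W i τ, τ))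
      (by rw [hq0]; exact an_gp hX) (hqan i)
  have hγ0 : ∀ i, γ i 0 = 0 := fun i => by
    simp only [hγ, hq0, gp_zero X0]
  have hγT : ∀ i, Tendsto (γ i) (𝓝 0) (𝓝 0) := fun i => by
    have := (hγan i).continuousAt.tendsto
    rwa [hγ0] at this
  have hDan : ∀ i, AnalyticAt ℂ (D i) 0 := fun i => by
    refine AnalyticAt.mul ?_ ?_
    · exact AnalyticAt.fun_comp (g := coordDeriv (coordDeriv f 2) 2) (f := γ i)
        (by rw [hγ0]; exact an_cd (an_cd hf 2) 2) (hγan i)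
    · exact AnalyticAt.fun_comp (g := G2 c k) (f := fun τ : ℂ => (W i τ, τ))
        (by rw [hW0]; exact an_G2 hk hP.an _) ((hWa i).prod analyticAt_id)
  have hD0 : ∀ i, D i 0 = coordDeriv (coordDeriv f 2) 2 0 * deriv (deriv (Pw c)) (w i) := fun i => by
    simp only [hD]
    rw [hγ0, hW0, G2_zero hk hP.an]
  refine ⟨γ, D, ?_, hD0, ?_⟩
  · refine ⟨hγan, hγ0, fun i => Eventually.of_forall fun τ => rfl, ?_, ?_, ?_, ?_, ?_, ?_, ?_⟩
    · -- `f_1 = 0`
      intro i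
      have h1 : ∀ᶠ τ in 𝓝 (0 : ℂ), τ ≠ 0 → coordDeriv f 1 (γ i τ) = 0 := by
        filter_upwards [(hWT i).eventually (h1_pt hh hP hk (by omega : 1 ≤ N)), hW1 i,
          (hqT i).eventually (cd_h hf hX X0 hX1 1)] with τ a b d hτ
        have e1 : coordDeriv (fun q => f (gp X q)) 1 (pt k (W i τ, τ)) = 0 := by
          rw [a hτ, b, mul_zero]
        rw [d] at e1
        exact e1
      filter_upwards [h1] with τ a
      by_cases hτ : τ = 0
      · rw [hτ, hγ0]
        exact crit 1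
      · exact a hτ
    · intro i
      exact (hqT i).eventually hX1
    · -- completeness
      obtain ⟨K, hK, hdom⟩ := dom hh hP (by omega : 1 ≤ N)
      have hroots := roots_unif hk hP.an wall hW2 K
      have hq : Tendsto (fun p : E3 => (![p 0, p 1] : E2)) (𝓝 0) (𝓝 0) := by
        have : Continuous (fun p : E3 => (![p 0, p 1] : E2)) := by
          refine continuous_pi fun i => ?_
          fin_cases i
          · exact continuous_apply 0
          · exact continuous_apply 1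
        refine this.tendsto' _ _ ?_
        funext i
        fin_cases i <;> rfl
      have hp0 : Tendsto (fun p : E3 => p 0) (𝓝 0) (𝓝 0) := by
        have := (continuous_apply (0 : Fin 3) (A := fun _ => ℂ)).tendsto (0 : E3)
        simpa using this
      have hG : ∀ᶠ τ in 𝓝 (0 : ℂ), ∀ z ∈ Metric.closedBall (0 : ℂ) K, τ ≠ 0 →
          coordDeriv (fun q => f (gp X q)) 1 (pt k (z, τ)) = τ ^ (k * (N - 1)) * G1 c k (z, τ) := by
        refine (isCompact_closedBall (0 : ℂ) K).eventually_forall_of_forall_eventually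
          fun z _ => ?_
        have hsw : Tendsto (fun p : ℂ × ℂ => ((p.2, p.1) : ℂ × ℂ)) (𝓝 (0, z)) (𝓝 (z, 0)) := by
          have : Continuous (fun p : ℂ × ℂ => ((p.2, p.1) : ℂ × ℂ)) := by fun_prop
          exact this.tendsto' _ _ rfl
        exact hsw.eventually (h1_pt hh hP hk (by omega : 1 ≤ N))
      filter_upwards [uniq_X hf hX X0 hX1 hxx, hq.eventually hdom,
        hq.eventually (cd_h hf hX X0 hX1 1), hp0.eventually hroots, hp0.eventually hG]
        with p a1 a2 a3 a4 a5 p1 p2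
      have hpX := a1 p2
      have h3 : coordDeriv (fun q => f (gp X q)) 1 ![p 0, p 1] = 0 := by
        rw [a3, ← hpX]
        exact p1
      have h4 : ‖p 1‖ ≤ K * ‖p 0‖ ^ k := a2 h3
      by_cases hb : p 0 = 0
      · have h5 : p 1 = 0 := by
          rw [hb, norm_zero, zero_pow (by omega), mul_zero] at h4
          exact norm_le_zero_iff.1 h4
        obtain ⟨i⟩ := ‹Nonempty ι›
        refine ⟨i, ?_⟩
        rw [hb, hγ0, hpX, hb, h5]
        have : (![(0 : ℂ), 0] : E2) = 0 := by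
          funext i
          fin_cases i <;> rfl
        rw [this, gp_zero X0]
      · have hbk : p 0 ^ k ≠ 0 := pow_ne_zero _ hb
        set z := p 1 / p 0 ^ k with hz
        have hzK : z ∈ Metric.closedBall (0 : ℂ) K := by
          rw [mem_closedBall_zero_iff, hz, norm_div, norm_pow]
          rw [div_le_iff₀ (by positivity)]
          exact h4
        have hpz : pt k (z, p 0) = ![p 0, p 1] := by
          simp only [pt, hz]
          rw [mul_div_cancel₀ _ hbk]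
        have h5 := a5 z hzK hb
        rw [hpz, h3] at h5
        have h6 : G1 c k (z, p 0) = 0 := by
          rcases mul_eq_zero.1 h5.symm with h | h
          · exact absurd h (pow_ne_zero _ hb)
          · exact h
        obtain ⟨i, hi⟩ := a4 z hzK h6
        refine ⟨i, ?_⟩
        simp only [hγ]
        rw [← hi, hpz]
        exact hpX
    · -- distinct arcs
      intro i j hij
      have h1 : ∀ᶠ τ in 𝓝 (0 : ℂ), W i τ ≠ W j τ := by
        have h2 : Tendsto (fun τ => W i τ - W j τ) (𝓝 0) (𝓝 (w i - w j)) := by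
          have h3 := (hWa i).continuousAt.tendsto
          have h4 := (hWa j).continuousAt.tendsto
          rw [hW0] at h3 h4
          exact h3.sub h4
        have h5 : w i - w j ≠ 0 := sub_ne_zero.2 fun h => hij (winj h)
        exact (h2.eventually_ne h5).mono fun τ hτ h => hτ (sub_eq_zero.2 h)
      filter_upwards [nhdsWithin_le_nhds h1, self_mem_nhdsWithin] with τ a hτ hcon
      have h2 : (γ i τ) 1 = (γ j τ) 1 := by rw [hcon]
      have h3 : τ ^ k * W i τ = τ ^ k * W j τ := h2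
      exact a (mul_left_cancel₀ (pow_ne_zero _ hτ) h3)
    · -- the minor
      intro i
      have h1 : ∀ᶠ τ in 𝓝[≠] (0 : ℂ), mi f (γ i τ) = τ ^ 2 * D i τ := by
        filter_upwards [nhdsWithin_le_nhds ((hWT i).eventually (h2_pt hh hP hk (by omega : 2 ≤ N))),
          nhdsWithin_le_nhds ((hqT i).eventually (cd2_h hf hX X0 hX1)), self_mem_nhdsWithin]
          with τ a b hτ
        have e1 := a hτ
        simp only [hkN] at e1
        rw [e1] at b
        simp only [hγ, hD]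
        rw [← b]
        ring
      have hmi : AnalyticAt ℂ (mi f) 0 :=
        ((an_cd (an_cd hf 1) 1).mul (an_cd (an_cd hf 2) 2)).sub
          ((an_cd (an_cd hf 1) 2).mul (an_cd (an_cd hf 2) 1))
      have hc1 : ContinuousAt (fun τ => mi f (γ i τ)) 0 :=
        (AnalyticAt.fun_comp (g := mi f) (f := γ i) (by rw [hγ0]; exact hmi) (hγan i)).continuousAt
      have hc2 : ContinuousAt (fun τ => τ ^ 2 * D i τ) 0 :=
        ((analyticAt_id.pow 2).mul (hDan i)).continuousAt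
      exact (hc1.eventuallyEq_nhds_iff_eventuallyEq_nhdsNE hc2).1 h1
    · exact fun i => (hDan i).continuousAt
    · intro i
      rw [hD0]
      exact mul_ne_zero hxx (w2 i)
  · intro i
    refine ⟨fun τ => Qf c k (W i τ, τ), ?_, ?_, ?_⟩
    · exact AnalyticAt.fun_comp (g := Qf c k) (f := fun τ : ℂ => (W i τ, τ))
        (by rw [hW0]; exact an_Qf hk hP.an _) ((hWa i).prod analyticAt_id)
    · simp only [hW0, Qf_zero hk]
    · filter_upwards [(hWT i).eventually (h_pt hP hk)] with τ hτ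
      exact hτ

end Crest.Agent.R257.EVd_929
end
end

-- ▼ part R257/EVe_929
section

set_option autoImplicit false

/-!
R257 / EVe_929 (helper929): evaluation of the trace sum for corank 2, planar normal forms.
-/

open Topology Filter Set
open Crest.AlgGeometry.Germ

noncomputable section

namespace Crest.Agent.R257.EVe_929

open Crest.Agent.R257.Defs_219 Crest.Agent.R257.EVa_929 Crest.Agent.R257.EVb_929
open Crest.Agent.R257.EVc_929 Crest.Agent.R257.EVd_929

theorem ord_cmp {A B : ℕ} {g g' : ℂ → ℂ} (hg : ContinuousAt g 0) (hg' : ContinuousAt g' 0)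
    (h : ∀ᶠ τ in 𝓝 (0 : ℂ), τ ^ A * g τ = τ ^ B * g' τ) (hAB : B ≤ A) :
    g' 0 = 0 ^ (A - B) * g 0 := by
  have h1 : (fun τ => τ ^ (A - B) * g τ) =ᶠ[𝓝[≠] 0] g' := by
    filter_upwards [nhdsWithin_le_nhds h, self_mem_nhdsWithin] with τ a hτ
    have h2 : τ ^ A = τ ^ B * τ ^ (A - B) := by
      rw [← pow_add]
      congr 1
      omega
    rw [h2, mul_assoc] at a
    exact mul_left_cancel₀ (pow_ne_zero _ hτ) a
  have hc : ContinuousAt (fun τ : ℂ => τ ^ (A - B) * g τ) 0 :=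
    (continuousAt_id.pow _).mul hg
  exact ((hc.eventuallyEq_nhds_iff_eventuallyEq_nhdsNE hg').1 h1).self_of_nhds.symm

theorem ord_eq {A p : ℕ} {g g' : ℂ → ℂ} (hg : ContinuousAt g 0) (hg' : ContinuousAt g' 0)
    (hne : g' 0 ≠ 0) (h : ∀ᶠ τ in 𝓝 (0 : ℂ), τ ^ A * g τ = τ ^ p * g' τ) :
    (g 0 ≠ 0 → p = A) ∧ (g 0 = 0 → A + 1 ≤ p) := by
  constructor
  · intro h0
    rcases le_total p A with hle | hle
    · have h1 := ord_cmp hg hg' h hle
      by_contra hcon
      rw [zero_pow (by omega), zero_mul] at h1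
      exact hne h1
    · have h1 := ord_cmp hg' hg (h.mono fun _ hx => hx.symm) hle
      by_contra hcon
      rw [zero_pow (by omega), zero_mul] at h1
      exact h0 h1
  · intro h0
    by_contra hcon
    have h1 := ord_cmp hg hg' h (by omega)
    rw [h0, mul_zero] at h1
    exact hne h1

/-- the bound of the evaluated trace sum -/
theorem ev_bound {f : E3 → ℂ} {C : ℝ} (hB : Bd f C) (f0 : f 0 = 0)
    (crit : ∀ i, coordDeriv f i 0 = 0)
    {X : E2 → ℂ} (hX : AnalyticAt ℂ X 0) (X0 : X 0 = 0)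
    (hX1 : ∀ᶠ q in 𝓝 (0 : E2), coordDeriv f 2 (gp X q) = 0)
    (hxx : coordDeriv (coordDeriv f 2) 2 0 ≠ 0) {k N : ℕ} (hk : 1 ≤ k) (hkN : k * (N - 2) = 2)
    {c : Fin (N + 1) → E2 → ℂ} (hP : Pl (fun q => f (gp X q)) k N c) {ι : Type} [Fintype ι]
    [Nonempty ι] {w : ι → ℂ} (winj : Function.Injective w)
    (w0 : ∀ i, deriv (Pw c) (w i) = 0) (w2 : ∀ i, deriv (deriv (Pw c)) (w i) ≠ 0)
    (wall : ∀ z, deriv (Pw c) z = 0 → ∃ i, z = w i) :
    ∃ p : ι → ℕ, (∀ i, Pw c (w i) ≠ 0 → p i = k * N) ∧ (∀ i, Pw c (w i) = 0 → k * N + 1 ≤ p i) ∧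
      ‖∑ i, 1 / (p i * (coordDeriv (coordDeriv f 2) 2 0 * deriv (deriv (Pw c)) (w i)))‖ ≤ C := by
  obtain ⟨r, hr, han, hcr, hT⟩ := hB
  have hf : AnalyticAt ℂ f 0 := han 0 (by simpa using hr.le)
  obtain ⟨γ, D, hA, hD, hg⟩ := arcs hf crit hX X0 hX1 hxx hk hkN hP winj w0 w2 wall
  obtain ⟨p, -, hp, hsum⟩ := arc_bound hf f0 crit hA hr han hcr hT
  have key : ∀ i, (Pw c (w i) ≠ 0 → p i = k * N) ∧ (Pw c (w i) = 0 → k * N + 1 ≤ p i) := by
    intro i
    obtain ⟨g, g1, g2, g3⟩ := hg i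
    obtain ⟨g', g1', g2', g3'⟩ := hp i
    have h := ord_eq g1.continuousAt g1'.continuousAt g2' (A := k * N) (p := p i) (by
      filter_upwards [g3, g3'] with τ a b
      rw [← a, ← b])
    rwa [g2] at h
  refine ⟨p, fun i => (key i).1, fun i => (key i).2, ?_⟩
  simp only [hD] at hsum
  exact hsum

/-- `|1/p - 1/A| >= 1/(A(A+1))` for `p >= A+1` -/
theorem gap {A p : ℕ} (hA : 1 ≤ A) (hp : A + 1 ≤ p) :
    1 / ((A : ℝ) * (A + 1)) ≤ 1 / (A : ℝ) - 1 / (p : ℝ) := by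
  have h1 : (0 : ℝ) < A := by exact_mod_cast hA
  have h2 : ((A : ℝ) + 1) ≤ p := by exact_mod_cast hp
  have h3 : 1 / (p : ℝ) ≤ 1 / ((A : ℝ) + 1) := one_div_le_one_div_of_le (by linarith) h2
  have h4 : 1 / (A : ℝ) - 1 / ((A : ℝ) + 1) = 1 / ((A : ℝ) * (A + 1)) := by
    field_simp
    ring
  linarith

/-- weights `(2,1)`, cubic with a double root `w₀` -/
theorem ev_cubic {f : E3 → ℂ} {C : ℝ} (hB : Bd f C) (f0 : f 0 = 0)
    (crit : ∀ i, coordDeriv f i 0 = 0)
    {X : E2 → ℂ} (hX : AnalyticAt ℂ X 0) (X0 : X 0 = 0)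
    (hX1 : ∀ᶠ q in 𝓝 (0 : E2), coordDeriv f 2 (gp X q) = 0)
    (hxx : coordDeriv (coordDeriv f 2) 2 0 ≠ 0)
    {c : Fin (3 + 1) → E2 → ℂ} (hP : Pl (fun q => f (gp X q)) 2 3 c) {c0 c1 c2 c3 w₀ : ℂ}
    (e0 : c 0 0 = c0) (e1 : c 1 0 = c1) (e2 : c 2 0 = c2) (e3 : c 3 0 = c3)
    (r0 : c3 * w₀ ^ 3 + c2 * w₀ ^ 2 + c1 * w₀ + c0 = 0)
    (r1 : 3 * c3 * w₀ ^ 2 + 2 * c2 * w₀ + c1 = 0) (r2 : 6 * c3 * w₀ + 2 * c2 ≠ 0) :
    1 ≤ 42 * C * ‖coordDeriv (coordDeriv f 2) 2 0 * (6 * c3 * w₀ + 2 * c2)‖ := by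
  set e := coordDeriv (coordDeriv f 2) 2 0 with he
  have h3 : c3 ≠ 0 := by
    rw [← e3]
    exact hP.lead
  have hPw : Pw c = fun w => c3 * w ^ 3 + c2 * w ^ 2 + c1 * w + c0 := by
    funext w
    simp only [Pw, Fin.sum_univ_succ, Fin.sum_univ_zero]
    change w ^ 0 * c 0 0 + (w ^ 1 * c 1 0 + (w ^ 2 * c 2 0 + (w ^ 3 * c 3 0 + 0))) = _
    rw [e0, e1, e2, e3]
    ring
  have hd1 : deriv (Pw c) = fun w => 3 * c3 * w ^ 2 + 2 * c2 * w + c1 := by
    funext w
    rw [hPw]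
    have h4 : HasDerivAt (fun w => c3 * w ^ 3 + c2 * w ^ 2 + c1 * w + c0)
        (c3 * (((3 : ℕ) : ℂ) * w ^ (3 - 1)) + c2 * (((2 : ℕ) : ℂ) * w ^ (2 - 1)) + c1 * 1) w :=
      ((((hasDerivAt_pow 3 w).const_mul c3).fun_add ((hasDerivAt_pow 2 w).const_mul c2)).fun_add
        ((hasDerivAt_id w).const_mul c1)).add_const c0
    rw [h4.deriv]
    push_cast
    ring
  have hd2 : deriv (deriv (Pw c)) = fun w => 6 * c3 * w + 2 * c2 := by
    funext w
    rw [hd1]
    have h4 : HasDerivAt (fun w => 3 * c3 * w ^ 2 + 2 * c2 * w + c1)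
        (3 * c3 * (((2 : ℕ) : ℂ) * w ^ (2 - 1)) + 2 * c2 * 1) w :=
      (((hasDerivAt_pow 2 w).const_mul (3 * c3)).fun_add
        ((hasDerivAt_id w).const_mul (2 * c2))).add_const c1
    rw [h4.deriv]
    push_cast
    ring
  set δ := 6 * c3 * w₀ + 2 * c2 with hδ
  set v := w₀ - δ / (3 * c3) with hv
  have hvne : v ≠ w₀ := by
    intro h
    have : δ / (3 * c3) = 0 := by
      have h5 : w₀ - δ / (3 * c3) = w₀ := h
      linear_combination -h5
    rcases div_eq_zero_iff.1 this with h6 | h6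
    · exact r2 h6
    · exact mul_ne_zero three_ne_zero h3 h6
  have hvδ : 3 * c3 * (w₀ - v) = δ := by
    rw [hv]
    field_simp
    ring
  have hPv : deriv (Pw c) v = 0 := by
    rw [hd1]
    have h5 : 3 * c3 * v ^ 2 + 2 * c2 * v + c1 =
        (3 * c3 * w₀ ^ 2 + 2 * c2 * w₀ + c1) + (v - w₀) * (δ - 3 * c3 * (w₀ - v)) := by
      rw [hδ]
      ring
    simp only
    rw [h5, r1, hvδ]
    ring
  have hP2v : deriv (deriv (Pw c)) v = -δ := by
    rw [hd2]
    simp only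
    have h5 : 6 * c3 * v + 2 * c2 = δ - 2 * (3 * c3 * (w₀ - v)) := by
      rw [hδ]
      ring
    rw [h5, hvδ]
    ring
  have hP2w : deriv (deriv (Pw c)) w₀ = δ := by
    rw [hd2]
  have hPwv : Pw c v ≠ 0 := by
    rw [hPw]
    simp only
    have h5 : c3 * v ^ 3 + c2 * v ^ 2 + c1 * v + c0 =
        (c3 * w₀ ^ 3 + c2 * w₀ ^ 2 + c1 * w₀ + c0) + (v - w₀) * (3 * c3 * w₀ ^ 2 + 2 * c2 * w₀ + c1)
          + (v - w₀) ^ 2 * (δ / 2 - 3 * c3 * (w₀ - v) / 3) := by
      rw [hδ]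
      ring
    rw [h5, r0, r1, hvδ]
    have h6 : v - w₀ ≠ 0 := sub_ne_zero.2 hvne
    have h7 : (0 : ℂ) + (v - w₀) * 0 + (v - w₀) ^ 2 * (δ / 2 - δ / 3) = (v - w₀) ^ 2 * δ / 6 := by
      ring
    rw [h7]
    exact div_ne_zero (mul_ne_zero (pow_ne_zero _ h6) r2) (by norm_num)
  have hPww : Pw c w₀ = 0 := by
    rw [hPw]
    exact r0
  have hPw1 : deriv (Pw c) w₀ = 0 := by
    rw [hd1]
    exact r1
  obtain ⟨p, hp1, hp2, hp3⟩ := ev_bound (ι := Fin 2) (w := ![w₀, v]) hB f0 crit hX X0 hX1 hxx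
    (by norm_num : 1 ≤ 2) (by norm_num : 2 * (3 - 2) = 2) hP (by
      intro i j hij
      fin_cases i <;> fin_cases j
      · rfl
      · exact absurd hij.symm hvne
      · exact absurd hij hvne
      · rfl) (by
      intro i
      fin_cases i
      · exact hPw1
      · exact hPv) (by
      intro i
      fin_cases i
      · change deriv (deriv (Pw c)) w₀ ≠ 0
        rw [hP2w]
        exact r2
      · change deriv (deriv (Pw c)) v ≠ 0
        rw [hP2v]
        exact neg_ne_zero.2 r2) (by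
      intro z hz
      rw [hd1] at hz
      simp only at hz
      have h5 : 3 * c3 * z ^ 2 + 2 * c2 * z + c1 =
          (3 * c3 * w₀ ^ 2 + 2 * c2 * w₀ + c1) + (z - w₀) * (3 * c3 * (z - w₀) + δ) := by
        rw [hδ]
        ring
      rw [h5, r1, ← hvδ] at hz
      have h6 : (z - w₀) * (3 * c3 * (z - v)) = 0 := by linear_combination hz
      rcases mul_eq_zero.1 h6 with h7 | h7
      · exact ⟨0, sub_eq_zero.1 h7⟩
      · refine ⟨1, sub_eq_zero.1 ?_⟩
        rcases mul_eq_zero.1 h7 with h8 | h8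
        · exact absurd h8 (mul_ne_zero three_ne_zero h3)
        · exact h8)
  have q1 : p 1 = 6 := hp1 1 hPwv
  have q0 : 7 ≤ p 0 := hp2 0 hPww
  simp only [Fin.sum_univ_two, Matrix.cons_val_zero, Matrix.cons_val_one] at hp3
  rw [hP2w, hP2v, q1] at hp3
  have hne : e * δ ≠ 0 := mul_ne_zero hxx r2
  have hp0 : (p 0 : ℂ) ≠ 0 := by exact_mod_cast (by omega : p 0 ≠ 0)
  have h8 : 1 / ((p 0 : ℂ) * (e * δ)) + 1 / (((6 : ℕ) : ℂ) * (e * -δ)) =
      -((1 / 6 - 1 / (p 0 : ℂ)) / (e * δ)) := by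
    have h9 : e ≠ 0 := hxx
    have h10 : δ ≠ 0 := r2
    push_cast
    field_simp
    ring
  rw [h8, norm_neg, norm_div] at hp3
  have h11 : (1 : ℝ) / 42 ≤ ‖(1 / 6 - 1 / (p 0 : ℂ))‖ := by
    have h12 : (1 / 6 - 1 / (p 0 : ℂ)) = ((1 / 6 - 1 / (p 0 : ℝ) : ℝ) : ℂ) := by push_cast; rfl
    rw [h12, Complex.norm_real, Real.norm_eq_abs]
    refine le_trans ?_ (le_abs_self _)
    have := gap (A := 6) (p := p 0) (by norm_num) q0
    norm_num at this ⊢
    linarith
  have h13 : 0 < ‖e * δ‖ := norm_pos_iff.2 hne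
  have h14 : 1 / 42 / ‖e * δ‖ ≤ C := le_trans (div_le_div_of_nonneg_right h11 h13.le) hp3
  rw [div_le_iff₀ h13] at h14
  linarith

section Quartic

variable {c : Fin (4 + 1) → E2 → ℂ} {al be ga : ℂ}

theorem Pw4 (e0 : c 0 0 = 0) (e1 : c 1 0 = 0) (e2 : c 2 0 = al) (e3 : c 3 0 = be)
    (e4 : c 4 0 = ga) : Pw c = fun w => al * w ^ 2 + be * w ^ 3 + ga * w ^ 4 := by
  funext w
  simp only [Pw, Fin.sum_univ_succ, Fin.sum_univ_zero]
  change w ^ 0 * c 0 0 + (w ^ 1 * c 1 0 + (w ^ 2 * c 2 0 + (w ^ 3 * c 3 0 +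
    (w ^ 4 * c 4 0 + 0)))) = _
  rw [e0, e1, e2, e3, e4]
  ring

theorem Pw4' (h : Pw c = fun w => al * w ^ 2 + be * w ^ 3 + ga * w ^ 4) :
    deriv (Pw c) = fun w => 2 * al * w + 3 * be * w ^ 2 + 4 * ga * w ^ 3 := by
  funext w
  rw [h]
  have h4 : HasDerivAt (fun w => al * w ^ 2 + be * w ^ 3 + ga * w ^ 4)
      (al * (((2 : ℕ) : ℂ) * w ^ (2 - 1)) + be * (((3 : ℕ) : ℂ) * w ^ (3 - 1)) +
        ga * (((4 : ℕ) : ℂ) * w ^ (4 - 1))) w :=
    (((hasDerivAt_pow 2 w).const_mul al).fun_add ((hasDerivAt_pow 3 w).const_mul be)).fun_add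
      ((hasDerivAt_pow 4 w).const_mul ga)
  rw [h4.deriv]
  push_cast
  ring

theorem Pw4'' (h : Pw c = fun w => al * w ^ 2 + be * w ^ 3 + ga * w ^ 4) :
    deriv (deriv (Pw c)) = fun w => 2 * al + 6 * be * w + 12 * ga * w ^ 2 := by
  funext w
  rw [Pw4' h]
  have h4 : HasDerivAt (fun w => 2 * al * w + 3 * be * w ^ 2 + 4 * ga * w ^ 3)
      (2 * al * 1 + 3 * be * (((2 : ℕ) : ℂ) * w ^ (2 - 1)) +
        4 * ga * (((3 : ℕ) : ℂ) * w ^ (3 - 1))) w :=
    (((hasDerivAt_id w).const_mul (2 * al)).fun_add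
      ((hasDerivAt_pow 2 w).const_mul (3 * be))).fun_add
      ((hasDerivAt_pow 3 w).const_mul (4 * ga))
  rw [h4.deriv]
  push_cast
  ring

theorem fin_norm {x y : ℝ} {e al : ℂ} {C : ℝ} (hne : e * al ≠ 0) (hx : x ≤ y) (hx0 : 0 ≤ x)
    (h : ‖((y : ℝ) : ℂ) / (2 * (e * al))‖ ≤ C) : x ≤ 2 * C * ‖e * al‖ := by
  have h13 : 0 < ‖e * al‖ := norm_pos_iff.2 hne
  rw [norm_div, norm_mul, Complex.norm_real, Real.norm_eq_abs, abs_of_nonneg (hx0.trans hx)] at h
  have h2 : ‖(2 : ℂ)‖ = 2 := by simp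
  rw [h2, div_le_iff₀ (by positivity)] at h
  linarith

/-- one double root: `P = w²(al + ga w²)` -/
theorem ev_q1 {f : E3 → ℂ} {C : ℝ} (hB : Bd f C) (f0 : f 0 = 0)
    (crit : ∀ i, coordDeriv f i 0 = 0)
    {X : E2 → ℂ} (hX : AnalyticAt ℂ X 0) (X0 : X 0 = 0)
    (hX1 : ∀ᶠ q in 𝓝 (0 : E2), coordDeriv f 2 (gp X q) = 0)
    (hxx : coordDeriv (coordDeriv f 2) 2 0 ≠ 0)
    (hP : Pl (fun q => f (gp X q)) 1 4 c)
    (e0 : c 0 0 = 0) (e1 : c 1 0 = 0) (e2 : c 2 0 = al) (e3 : c 3 0 = 0) (e4 : c 4 0 = ga)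
    (hal : al ≠ 0) : 1 ≤ 40 * C * ‖coordDeriv (coordDeriv f 2) 2 0 * al‖ := by
  set e := coordDeriv (coordDeriv f 2) 2 0 with he
  have hga : ga ≠ 0 := by
    rw [← e4]
    exact hP.lead
  have hPw := Pw4 e0 e1 e2 e3 e4
  have hd1 := Pw4' hPw
  have hd2 := Pw4'' hPw
  obtain ⟨s, hs⟩ := IsAlgClosed.exists_pow_nat_eq (-al / (2 * ga)) (n := 2) (by norm_num)
  have hs2 : 2 * ga * s ^ 2 = -al := by
    rw [hs]
    field_simp
  have hs0 : s ≠ 0 := by
    rintro rfl
    apply hal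
    linear_combination hs2
  have a1 : deriv (deriv (Pw c)) 0 = 2 * al := by rw [hd2]; ring
  have a2 : deriv (deriv (Pw c)) s = -4 * al := by
    rw [hd2]; linear_combination 6 * hs2
  have a3 : deriv (deriv (Pw c)) (-s) = -4 * al := by
    rw [hd2]; linear_combination 6 * hs2
  have b1 : Pw c 0 = 0 := by rw [hPw]; ring
  have b2 : Pw c s ≠ 0 := by
    rw [hPw]
    have : al * s ^ 2 + 0 * s ^ 3 + ga * s ^ 4 = s ^ 2 * al / 2 := by
      linear_combination s ^ 2 / 2 * hs2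
    simp only
    rw [this]
    exact div_ne_zero (mul_ne_zero (pow_ne_zero _ hs0) hal) two_ne_zero
  have b3 : Pw c (-s) ≠ 0 := by
    rw [hPw]
    have : al * (-s) ^ 2 + 0 * (-s) ^ 3 + ga * (-s) ^ 4 = s ^ 2 * al / 2 := by
      linear_combination s ^ 2 / 2 * hs2
    simp only
    rw [this]
    exact div_ne_zero (mul_ne_zero (pow_ne_zero _ hs0) hal) two_ne_zero
  have hss : s ≠ -s := by
    intro h
    apply hs0
    linear_combination h / 2
  obtain ⟨p, hp1, hp2, hp3⟩ := ev_bound (ι := Fin 3) (w := ![0, s, -s]) hB f0 crit hX X0 hX1 hxx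
    (le_refl 1) (by norm_num : 1 * (4 - 2) = 2) hP (by
      intro i j hij
      fin_cases i <;> fin_cases j
      · rfl
      · exact absurd hij.symm hs0
      · exact absurd hij.symm (neg_ne_zero.2 hs0)
      · exact absurd hij hs0
      · rfl
      · exact absurd hij hss
      · exact absurd hij (neg_ne_zero.2 hs0)
      · exact absurd hij.symm hss
      · rfl) (by
      intro i
      rw [hd1]
      fin_cases i
      · change 2 * al * 0 + 3 * 0 * (0 : ℂ) ^ 2 + 4 * ga * (0 : ℂ) ^ 3 = 0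
        ring
      · change 2 * al * s + 3 * 0 * s ^ 2 + 4 * ga * s ^ 3 = 0
        linear_combination 2 * s * hs2
      · change 2 * al * (-s) + 3 * 0 * (-s) ^ 2 + 4 * ga * (-s) ^ 3 = 0
        linear_combination -2 * s * hs2) (by
      intro i
      fin_cases i
      · change deriv (deriv (Pw c)) 0 ≠ 0
        rw [a1]
        exact mul_ne_zero two_ne_zero hal
      · change deriv (deriv (Pw c)) s ≠ 0
        rw [a2]
        exact mul_ne_zero (by norm_num) hal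
      · change deriv (deriv (Pw c)) (-s) ≠ 0
        rw [a3]
        exact mul_ne_zero (by norm_num) hal) (by
      intro z hz
      rw [hd1] at hz
      simp only at hz
      have h6 : z * ((z - s) * (z + s)) = 0 := by
        have h7 : 4 * ga * (z * ((z - s) * (z + s))) = 0 := by
          linear_combination hz - 2 * z * hs2
        rcases mul_eq_zero.1 h7 with h | h
        · exact absurd h (mul_ne_zero (by norm_num) hga)
        · exact h
      rcases mul_eq_zero.1 h6 with h7 | h7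
      · exact ⟨0, h7⟩
      · rcases mul_eq_zero.1 h7 with h8 | h8
        · exact ⟨1, sub_eq_zero.1 h8⟩
        · exact ⟨2, eq_neg_of_add_eq_zero_left h8⟩)
  have q0 : 5 ≤ p 0 := hp2 0 b1
  have q1 : p 1 = 4 := hp1 1 b2
  have q2 : p 2 = 4 := hp1 2 b3
  have w2 : (![(0 : ℂ), s, -s] : Fin 3 → ℂ) 2 = -s := rfl
  simp only [Fin.sum_univ_three, Matrix.cons_val_zero, Matrix.cons_val_one, w2] at hp3
  rw [a1, a2, a3, q1, q2] at hp3
  have hp0 : (p 0 : ℂ) ≠ 0 := by exact_mod_cast (by omega : p 0 ≠ 0)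
  have h8 : 1 / ((p 0 : ℂ) * (e * (2 * al))) + 1 / (((4 : ℕ) : ℂ) * (e * (-4 * al))) +
      1 / (((4 : ℕ) : ℂ) * (e * (-4 * al))) =
      -(((1 / 4 - 1 / (p 0 : ℝ) : ℝ) : ℂ) / (2 * (e * al))) := by
    have h9 : e ≠ 0 := hxx
    push_cast
    field_simp
    ring
  rw [h8, norm_neg] at hp3
  have hg := gap (A := 4) (p := p 0) (by norm_num) q0
  have := fin_norm (x := 1 / 20) (mul_ne_zero hxx hal) (by norm_num at hg ⊢; linarith)
    (by norm_num) hp3
  linarith

/-- two double roots: `P = al w²(1+w)²` -/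
theorem ev_q2 {f : E3 → ℂ} {C : ℝ} (hB : Bd f C) (f0 : f 0 = 0)
    (crit : ∀ i, coordDeriv f i 0 = 0)
    {X : E2 → ℂ} (hX : AnalyticAt ℂ X 0) (X0 : X 0 = 0)
    (hX1 : ∀ᶠ q in 𝓝 (0 : E2), coordDeriv f 2 (gp X q) = 0)
    (hxx : coordDeriv (coordDeriv f 2) 2 0 ≠ 0)
    (hP : Pl (fun q => f (gp X q)) 1 4 c)
    (e0 : c 0 0 = 0) (e1 : c 1 0 = 0) (e2 : c 2 0 = al) (e3 : c 3 0 = 2 * al) (e4 : c 4 0 = al)
    (hal : al ≠ 0) : 1 ≤ 40 * C * ‖coordDeriv (coordDeriv f 2) 2 0 * al‖ := by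
  set e := coordDeriv (coordDeriv f 2) 2 0 with he
  have hPw := Pw4 e0 e1 e2 e3 e4
  have hd1 := Pw4' hPw
  have hd2 := Pw4'' hPw
  have a1 : deriv (deriv (Pw c)) 0 = 2 * al := by rw [hd2]; ring
  have a2 : deriv (deriv (Pw c)) (-1) = 2 * al := by rw [hd2]; ring
  have a3 : deriv (deriv (Pw c)) (-1 / 2) = -al := by rw [hd2]; ring
  have b1 : Pw c 0 = 0 := by rw [hPw]; ring
  have b2 : Pw c (-1) = 0 := by rw [hPw]; ring
  have b3 : Pw c (-1 / 2) ≠ 0 := by
    rw [hPw]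
    have : al * (-1 / 2 : ℂ) ^ 2 + 2 * al * (-1 / 2) ^ 3 + al * (-1 / 2) ^ 4 = al / 16 := by
      ring
    simp only
    rw [this]
    exact div_ne_zero hal (by norm_num)
  have n1 : (-1 : ℂ) ≠ 0 := by norm_num
  have n2 : (-1 / 2 : ℂ) ≠ 0 := by norm_num
  have n3 : (-1 : ℂ) ≠ -1 / 2 := by norm_num
  obtain ⟨p, hp1, hp2, hp3⟩ := ev_bound (ι := Fin 3) (w := ![0, -1, -1 / 2]) hB f0 crit hX X0 hX1
    hxx (le_refl 1) (by norm_num : 1 * (4 - 2) = 2) hP (by
      intro i j hij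
      fin_cases i <;> fin_cases j
      · rfl
      · exact absurd hij.symm n1
      · exact absurd hij.symm n2
      · exact absurd hij n1
      · rfl
      · exact absurd hij n3
      · exact absurd hij n2
      · exact absurd hij.symm n3
      · rfl) (by
      intro i
      rw [hd1]
      fin_cases i
      · change 2 * al * 0 + 3 * (2 * al) * (0 : ℂ) ^ 2 + 4 * al * (0 : ℂ) ^ 3 = 0
        ring
      · change 2 * al * (-1) + 3 * (2 * al) * (-1 : ℂ) ^ 2 + 4 * al * (-1 : ℂ) ^ 3 = 0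
        ring
      · change 2 * al * (-1 / 2) + 3 * (2 * al) * (-1 / 2 : ℂ) ^ 2 + 4 * al * (-1 / 2 : ℂ) ^ 3 = 0
        ring) (by
      intro i
      fin_cases i
      · change deriv (deriv (Pw c)) 0 ≠ 0
        rw [a1]
        exact mul_ne_zero two_ne_zero hal
      · change deriv (deriv (Pw c)) (-1) ≠ 0
        rw [a2]
        exact mul_ne_zero two_ne_zero hal
      · change deriv (deriv (Pw c)) (-1 / 2) ≠ 0
        rw [a3]
        exact neg_ne_zero.2 hal) (by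
      intro z hz
      rw [hd1] at hz
      simp only at hz
      have h6 : z * ((z + 1) * (z + 1 / 2)) = 0 := by
        have h7 : 4 * al * (z * ((z + 1) * (z + 1 / 2))) = 0 := by
          linear_combination hz
        rcases mul_eq_zero.1 h7 with h | h
        · exact absurd h (mul_ne_zero (by norm_num) hal)
        · exact h
      rcases mul_eq_zero.1 h6 with h7 | h7
      · exact ⟨0, h7⟩
      · rcases mul_eq_zero.1 h7 with h8 | h8
        · exact ⟨1, eq_neg_of_add_eq_zero_left h8⟩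
        · refine ⟨2, ?_⟩
          change z = -1 / 2
          linear_combination h8)
  have q0 : 5 ≤ p 0 := hp2 0 b1
  have q1 : 5 ≤ p 1 := hp2 1 b2
  have q2 : p 2 = 4 := hp1 2 b3
  have w2 : (![(0 : ℂ), -1, -1 / 2] : Fin 3 → ℂ) 2 = -1 / 2 := rfl
  simp only [Fin.sum_univ_three, Matrix.cons_val_zero, Matrix.cons_val_one, w2] at hp3
  rw [a1, a2, a3, q2] at hp3
  have hp0 : (p 0 : ℂ) ≠ 0 := by exact_mod_cast (by omega : p 0 ≠ 0)
  have hp1' : (p 1 : ℂ) ≠ 0 := by exact_mod_cast (by omega : p 1 ≠ 0)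
  have h8 : 1 / ((p 0 : ℂ) * (e * (2 * al))) + 1 / ((p 1 : ℂ) * (e * (2 * al))) +
      1 / (((4 : ℕ) : ℂ) * (e * -al)) =
      -((((1 / 4 - 1 / (p 0 : ℝ)) + (1 / 4 - 1 / (p 1 : ℝ)) : ℝ) : ℂ) / (2 * (e * al))) := by
    have h9 : e ≠ 0 := hxx
    push_cast
    field_simp
    ring
  rw [h8, norm_neg] at hp3
  have hg := gap (A := 4) (p := p 0) (by norm_num) q0
  have hg' := gap (A := 4) (p := p 1) (by norm_num) q1
  have := fin_norm (x := 1 / 20) (mul_ne_zero hxx hal) (by norm_num at hg hg' ⊢; linarith)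
    (by norm_num) hp3
  linarith

end Quartic

end Crest.Agent.R257.EVe_929
end
end

-- ▼ part R257/EVf_929
section

set_option autoImplicit false

/-!
R257 / EVf_929 (helper929): plane germs of order `>= m`; transport of the planar data by a linear
change of the two last coordinates; the quartic case.
-/

open Topology Filter Set Asymptotics
open Crest.AlgGeometry.Germ

noncomputable section

namespace Crest.Agent.R257.EVf_929

open Crest.Agent.R257.Defs_219 Crest.Agent.R257.EVa_929 Crest.Agent.R257.EVb_929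
open Crest.Agent.R257.EVc_929 Crest.Agent.R257.EVd_929 Crest.Agent.R257.EVe_929

/-! ### germs of order `>= m` -/

/-- Hadamard division by the second coordinate -/
theorem hada {G : E2 → ℂ} (hG : AnalyticAt ℂ G 0) :
    ∃ R : E2 → ℂ, AnalyticAt ℂ R 0 ∧ ∀ᶠ q in 𝓝 (0 : E2), G q = G ![q 0, 0] + q 1 * R q := by
  let T : ℂ × ℂ → E2 := fun p => ![p.1, p.2]
  have hT : ∀ p, AnalyticAt ℂ T p := fun p => by
    refine AnalyticAt.pi (f := fun i (p : ℂ × ℂ) => T p i) fun i => ?_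
    fin_cases i
    · exact analyticAt_fst
    · exact analyticAt_snd
  have hT0 : T 0 = 0 := by
    funext i
    fin_cases i <;> rfl
  let S : E2 → ℂ × ℂ := fun q => (q 0, q 1)
  have hS : ∀ q, AnalyticAt ℂ S q := fun q =>
    ((ContinuousLinearMap.proj (R := ℂ) (φ := fun _ : Fin 2 => ℂ) 0).analyticAt q).prod
      ((ContinuousLinearMap.proj (R := ℂ) (φ := fun _ : Fin 2 => ℂ) 1).analyticAt q)
  have hTS : ∀ q, T (S q) = q := fun q => by
    funext i
    fin_cases i <;> rfl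
  have h1 : AnalyticAt ℂ (fun p : ℂ × ℂ => G (T p)) 0 :=
    AnalyticAt.fun_comp (g := G) (f := T) (by rw [hT0]; exact hG) (hT 0)
  obtain ⟨R, hR, hR2⟩ := UI939.hadamard_fun h1
  have hS0 : S 0 = 0 := rfl
  refine ⟨fun q => R (S q), AnalyticAt.fun_comp (g := R) (f := S) (by rw [hS0]; exact hR) (hS 0), ?_⟩
  have hST : Tendsto S (𝓝 0) (𝓝 0) := by
    have := (hS 0).continuousAt.tendsto
    rwa [hS0] at this
  filter_upwards [hST.eventually hR2] with q hq
  have e1 : G (T (S q)) = G q := by rw [hTS]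
  rw [← e1, hq]

theorem one_var {g : ℂ → ℂ} {m : ℕ} (hg : AnalyticAt ℂ g 0) (hO : g =O[𝓝 0] fun y => ‖y‖ ^ m) :
    ∃ k : ℂ → ℂ, AnalyticAt ℂ k 0 ∧ ∀ᶠ y in 𝓝 (0 : ℂ), g y = y ^ m * k y := by
  by_cases htop : analyticOrderAt g 0 = ⊤
  · rw [analyticOrderAt_eq_top] at htop
    exact ⟨fun _ => 0, analyticAt_const, htop.mono fun y hy => by rw [hy, mul_zero]⟩
  · obtain ⟨n, hn⟩ := ENat.ne_top_iff_exists.1 htop
    obtain ⟨k, hk, hk0, hke⟩ := (hg.analyticOrderAt_eq_natCast).1 hn.symm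
    simp only [sub_zero, smul_eq_mul] at hke
    have hmn : m ≤ n := by
      by_contra hcon
      rw [not_le] at hcon
      obtain ⟨C, hC⟩ := hO.bound
      have h1 : ∀ᶠ y in 𝓝[≠] (0 : ℂ), ‖k y‖ ≤ C * ‖y‖ ^ (m - n) := by
        filter_upwards [nhdsWithin_le_nhds hC, nhdsWithin_le_nhds hke, self_mem_nhdsWithin]
          with y a b hy
        have hy0 : 0 < ‖y‖ := norm_pos_iff.2 hy
        rw [b, norm_mul, norm_pow, norm_pow, norm_norm] at a
        have e1 : ‖y‖ ^ m = ‖y‖ ^ n * ‖y‖ ^ (m - n) := by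
          rw [← pow_add]
          congr 1
          omega
        rw [e1] at a
        have e2 : ‖y‖ ^ n * ‖k y‖ ≤ ‖y‖ ^ n * (C * ‖y‖ ^ (m - n)) := by
          calc _ ≤ _ := a
            _ = _ := by ring
        exact le_of_mul_le_mul_left e2 (by positivity)
      have h2 : Tendsto (fun y => ‖k y‖) (𝓝[≠] 0) (𝓝 ‖k 0‖) :=
        hk.continuousAt.norm.tendsto.mono_left nhdsWithin_le_nhds
      have h3 : Tendsto (fun y : ℂ => C * ‖y‖ ^ (m - n)) (𝓝[≠] 0) (𝓝 0) := by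
        have : ContinuousAt (fun y : ℂ => C * ‖y‖ ^ (m - n)) 0 := by fun_prop
        have h4 := this.tendsto
        simp only [norm_zero, zero_pow (by omega : m - n ≠ 0), mul_zero] at h4
        exact h4.mono_left nhdsWithin_le_nhds
      have h5 := le_of_tendsto_of_tendsto h2 h3 h1
      exact hk0 (norm_le_zero_iff.1 h5)
    refine ⟨fun y => y ^ (n - m) * k y, (analyticAt_id.pow _).mul hk, ?_⟩
    filter_upwards [hke] with y hy
    rw [hy, ← mul_assoc, ← pow_add]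
    congr 2
    omega

theorem norm_E2 (q : E2) : ‖q‖ = max ‖q 0‖ ‖q 1‖ := by
  apply le_antisymm
  · rw [pi_norm_le_iff_of_nonneg (by positivity)]
    intro i
    fin_cases i
    · exact le_max_left _ _
    · exact le_max_right _ _
  · exact max_le (norm_le_pi_norm q 0) (norm_le_pi_norm q 1)

/-- the quotient in the Hadamard division has order one less -/
theorem hada_bigO {G R : E2 → ℂ} {m : ℕ} (hR : AnalyticAt ℂ R 0)
    (h : ∀ᶠ q in 𝓝 (0 : E2), G q = G ![q 0, 0] + q 1 * R q)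
    (hO : G =O[𝓝 0] fun q => ‖q‖ ^ (m + 1)) : R =O[𝓝 0] fun q => ‖q‖ ^ m := by
  obtain ⟨C, hC⟩ := hO.bound
  obtain ⟨ε, hε, hball⟩ := Metric.eventually_nhds_iff_ball.1
    ((h.and hC).and hR.eventually_analyticAt)
  refine IsBigO.of_bound (2 * C * 2 ^ m) ?_
  filter_upwards [Metric.ball_mem_nhds (0 : E2) (half_pos hε)] with q hq
  rw [mem_ball_zero_iff] at hq
  by_cases hq0 : q = 0
  · -- at the origin: by continuity (the bound with `m`)
    subst hq0
    rcases Nat.eq_zero_or_pos m with hm | hm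
    · subst hm
      -- limit along `(0, s)`
      have h1 : ∀ᶠ s : ℝ in 𝓝[>] 0, ‖R ![0, (s : ℂ)]‖ ≤ 2 * C * 2 ^ 0 * 1 := by
        have h2 : ∀ᶠ s : ℝ in 𝓝[>] 0, s < ε := nhdsWithin_le_nhds (eventually_lt_nhds hε)
        filter_upwards [self_mem_nhdsWithin, h2] with s hs0 hs
        have hs0' : 0 < s := hs0
        have hn : ‖(![0, (s : ℂ)] : E2)‖ = s := by
          rw [norm_E2]
          simp [abs_of_pos hs0', hs0'.le]
        obtain ⟨⟨a1, a2⟩, -⟩ := hball ![0, (s : ℂ)] (by rw [mem_ball_zero_iff, hn]; exact hs)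
        obtain ⟨⟨-, b2⟩, -⟩ := hball ![0, 0] (by
          have : (![0, 0] : E2) = 0 := by funext i; fin_cases i <;> rfl
          rw [this, mem_ball_zero_iff, norm_zero]
          exact hε)
        have e0 : (![0, 0] : E2) = 0 := by funext i; fin_cases i <;> rfl
        rw [e0, norm_zero, zero_add, pow_one, norm_zero, mul_zero] at b2
        have e1 : G ![((![0, (s : ℂ)] : E2) 0), 0] = 0 := by
          have : (![((![0, (s : ℂ)] : E2) 0), 0] : E2) = 0 := by
            funext i; fin_cases i <;> rfl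
          rw [this]
          exact norm_le_zero_iff.1 b2
        rw [e1, zero_add] at a1
        rw [a1, hn, zero_add, pow_one, norm_mul, Real.norm_eq_abs, abs_of_pos hs0'] at a2
        have e2 : ‖(![0, (s : ℂ)] : E2) 1‖ = s := by
          change ‖(s : ℂ)‖ = s
          rw [Complex.norm_real, Real.norm_eq_abs, abs_of_pos hs0']
        rw [e2] at a2
        have hC0 : ‖R ![0, (s : ℂ)]‖ ≤ C := by
          have : s * ‖R ![0, (s : ℂ)]‖ ≤ s * C := by linarith
          exact le_of_mul_le_mul_left this hs0'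
        have : 0 ≤ C := (norm_nonneg _).trans hC0
        linarith
      have h3 : Tendsto (fun s : ℝ => ‖R ![0, (s : ℂ)]‖) (𝓝[>] 0) (𝓝 ‖R 0‖) := by
        have h4 : Continuous (fun s : ℝ => (![0, (s : ℂ)] : E2)) := by
          refine continuous_pi fun i => ?_
          fin_cases i
          · exact continuous_const
          · exact Complex.continuous_ofReal
        have h5 : Tendsto (fun s : ℝ => (![0, (s : ℂ)] : E2)) (𝓝 0) (𝓝 0) := by
          refine h4.tendsto' _ _ ?_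
          funext i
          fin_cases i
          · rfl
          · exact Complex.ofReal_zero
        exact ((hR.continuousAt.norm.tendsto.comp h5)).mono_left nhdsWithin_le_nhds
      have h6 := le_of_tendsto h3 h1
      simpa using h6
    · -- `m > 0`: the same with the value `0`
      have h1 : ∀ᶠ s : ℝ in 𝓝[>] 0, ‖R ![0, (s : ℂ)]‖ ≤ C * s ^ m := by
        have h2 : ∀ᶠ s : ℝ in 𝓝[>] 0, s < ε := nhdsWithin_le_nhds (eventually_lt_nhds hε)
        filter_upwards [self_mem_nhdsWithin, h2] with s hs0 hs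
        have hs0' : 0 < s := hs0
        have hn : ‖(![0, (s : ℂ)] : E2)‖ = s := by
          rw [norm_E2]
          simp [abs_of_pos hs0', hs0'.le]
        obtain ⟨⟨a1, a2⟩, -⟩ := hball ![0, (s : ℂ)] (by rw [mem_ball_zero_iff, hn]; exact hs)
        obtain ⟨⟨-, b2⟩, -⟩ := hball ![0, 0] (by
          have : (![0, 0] : E2) = 0 := by funext i; fin_cases i <;> rfl
          rw [this, mem_ball_zero_iff, norm_zero]
          exact hε)
        have e0 : (![0, 0] : E2) = 0 := by funext i; fin_cases i <;> rfl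
        rw [e0, norm_zero, zero_pow (by omega), norm_zero, mul_zero] at b2
        have e1 : G ![((![0, (s : ℂ)] : E2) 0), 0] = 0 := by
          have : (![((![0, (s : ℂ)] : E2) 0), 0] : E2) = 0 := by
            funext i; fin_cases i <;> rfl
          rw [this]
          exact norm_le_zero_iff.1 b2
        rw [e1, zero_add] at a1
        rw [a1, norm_pow, norm_norm, hn, norm_mul] at a2
        have e2 : ‖(![0, (s : ℂ)] : E2) 1‖ = s := by
          change ‖(s : ℂ)‖ = s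
          rw [Complex.norm_real, Real.norm_eq_abs, abs_of_pos hs0']
        rw [e2] at a2
        have : s * ‖R ![0, (s : ℂ)]‖ ≤ s * (C * s ^ m) := by
          calc _ ≤ _ := a2
            _ = _ := by ring
        exact le_of_mul_le_mul_left this hs0'
      have h3 : Tendsto (fun s : ℝ => ‖R ![0, (s : ℂ)]‖) (𝓝[>] 0) (𝓝 ‖R 0‖) := by
        have h4 : Continuous (fun s : ℝ => (![0, (s : ℂ)] : E2)) := by
          refine continuous_pi fun i => ?_
          fin_cases i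
          · exact continuous_const
          · exact Complex.continuous_ofReal
        have h5 : Tendsto (fun s : ℝ => (![0, (s : ℂ)] : E2)) (𝓝 0) (𝓝 0) := by
          refine h4.tendsto' _ _ ?_
          funext i
          fin_cases i
          · rfl
          · exact Complex.ofReal_zero
        exact ((hR.continuousAt.norm.tendsto.comp h5)).mono_left nhdsWithin_le_nhds
      have h7 : Tendsto (fun s : ℝ => C * s ^ m) (𝓝[>] 0) (𝓝 0) := by
        have : ContinuousAt (fun s : ℝ => C * s ^ m) 0 := by fun_prop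
        have h8 := this.tendsto
        simp only [zero_pow (by omega : m ≠ 0), mul_zero] at h8
        exact h8.mono_left nhdsWithin_le_nhds
      have h6 := le_of_tendsto_of_tendsto h3 h7 h1
      rw [norm_le_zero_iff.1 h6]
      simp [zero_pow (by omega : m ≠ 0)]
  · have hρ : 0 < ‖q‖ := norm_pos_iff.2 hq0
    set ρ := ‖q‖ with hρd
    have hin : ∀ z : ℂ, ‖z‖ ≤ 2 * ρ → ‖(![q 0, z] : E2)‖ ≤ 2 * ρ := fun z hz => by
      rw [norm_E2]
      refine max_le ?_ hz
      have : ‖q 0‖ ≤ ρ := norm_le_pi_norm q 0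
      change ‖q 0‖ ≤ 2 * ρ
      linarith
    have hmem : ∀ z : ℂ, ‖z‖ ≤ 2 * ρ → (![q 0, z] : E2) ∈ Metric.ball (0 : E2) ε := fun z hz => by
      rw [mem_ball_zero_iff]
      have := hin z hz
      linarith
    have hd : ∀ z : ℂ, ‖z‖ ≤ 2 * ρ → DifferentiableAt ℂ (fun z : ℂ => R ![q 0, z]) z := by
      intro z hz
      have h1 : DifferentiableAt ℂ (fun z : ℂ => (![q 0, z] : E2)) z := by
        rw [differentiableAt_pi]
        intro i
        fin_cases i
        · exact differentiableAt_const _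
        · exact differentiableAt_id
      exact ((hball _ (hmem z hz)).2.differentiableAt).comp z h1
    have hC0 : 0 ≤ C * (2 * ρ) ^ (m + 1) := by
      have h1 := (hball ![q 0, ((2 * ρ : ℝ) : ℂ)] (hmem _ (by
        rw [Complex.norm_real, Real.norm_eq_abs, abs_of_pos (by positivity)]))).1.2
      have h2 : ‖(![q 0, ((2 * ρ : ℝ) : ℂ)] : E2)‖ = 2 * ρ := by
        rw [norm_E2]
        have h3 : ‖(![q 0, ((2 * ρ : ℝ) : ℂ)] : E2) 1‖ = 2 * ρ := by
          change ‖((2 * ρ : ℝ) : ℂ)‖ = 2 * ρ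
          rw [Complex.norm_real, Real.norm_eq_abs, abs_of_pos (by positivity)]
        rw [h3]
        refine max_eq_right ?_
        have : ‖q 0‖ ≤ ρ := norm_le_pi_norm q 0
        change ‖q 0‖ ≤ 2 * ρ
        linarith
      rw [h2, norm_pow, Real.norm_eq_abs, abs_of_pos (by positivity)] at h1
      exact (norm_nonneg _).trans h1
    have hbd : ∀ z ∈ frontier (Metric.ball (0 : ℂ) (2 * ρ)), ‖R ![q 0, z]‖ ≤
        2 * (C * (2 * ρ) ^ (m + 1)) / (2 * ρ) := by
      intro z hz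
      rw [frontier_ball (0 : ℂ) (by positivity : 2 * ρ ≠ 0), mem_sphere_zero_iff_norm] at hz
      obtain ⟨⟨a1, a2⟩, -⟩ := hball _ (hmem z hz.le)
      obtain ⟨⟨-, b2⟩, -⟩ := hball _ (hmem 0 (by rw [norm_zero]; positivity))
      have n1 : ‖(![q 0, z] : E2)‖ ^ (m + 1) ≤ (2 * ρ) ^ (m + 1) :=
        pow_le_pow_left₀ (norm_nonneg _) (hin z hz.le) _
      have n2 : ‖(![q 0, 0] : E2)‖ ^ (m + 1) ≤ (2 * ρ) ^ (m + 1) :=
        pow_le_pow_left₀ (norm_nonneg _) (hin 0 (by rw [norm_zero]; positivity)) _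
      rw [norm_pow, norm_norm] at a2 b2
      have hCn : 0 ≤ C := by
        by_contra hneg
        rw [not_le] at hneg
        have : C * (2 * ρ) ^ (m + 1) < 0 := mul_neg_of_neg_of_pos hneg (by positivity)
        linarith
      have c1 : ‖G ![q 0, z]‖ ≤ C * (2 * ρ) ^ (m + 1) :=
        a2.trans (mul_le_mul_of_nonneg_left n1 hCn)
      have c2 : ‖G ![q 0, 0]‖ ≤ C * (2 * ρ) ^ (m + 1) :=
        b2.trans (mul_le_mul_of_nonneg_left n2 hCn)
      have e1 : z * R ![q 0, z] = G ![q 0, z] - G ![q 0, 0] := by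
        have a1' : G ![q 0, z] = G ![q 0, 0] + z * R ![q 0, z] := a1
        rw [a1']
        ring
      rw [le_div_iff₀ (by positivity), ← hz, mul_comm, ← norm_mul, e1, hz]
      refine (norm_sub_le _ _).trans ?_
      linarith
    have key := Complex.norm_le_of_forall_mem_frontier_norm_le
      (f := fun z : ℂ => R ![q 0, z]) (U := Metric.ball (0 : ℂ) (2 * ρ)) Metric.isBounded_ball
      (DifferentiableOn.diffContOnCl (fun z hz => by
        have hz' : ‖z‖ ≤ 2 * ρ := by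
          have := Metric.closure_ball_subset_closedBall hz
          rwa [mem_closedBall_zero_iff] at this
        exact (hd z hz').differentiableWithinAt)) hbd (z := q 1) (subset_closure (by
        rw [mem_ball_zero_iff]
        have : ‖q 1‖ ≤ ρ := norm_le_pi_norm q 1
        linarith))
    have e0 : (![q 0, q 1] : E2) = q := by
      funext i
      fin_cases i <;> rfl
    simp only [e0] at key
    rw [norm_pow, norm_norm, ← hρd]
    refine key.trans (le_of_eq ?_)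
    field_simp
    ring

/-- a germ of order `>= m` is a combination of the monomials of degree `m` -/
theorem bo (m : ℕ) : ∀ {G : E2 → ℂ}, AnalyticAt ℂ G 0 → (G =O[𝓝 0] fun q => ‖q‖ ^ m) →
    ∃ c : ℕ → E2 → ℂ, (∀ j, AnalyticAt ℂ (c j) 0) ∧
      ∀ᶠ q in 𝓝 (0 : E2), G q = ∑ j ∈ Finset.range (m + 1), q 1 ^ j * q 0 ^ (m - j) * c j q := by
  induction m with
  | zero =>
    intro G hG _
    exact ⟨fun _ => G, fun _ => hG, Eventually.of_forall fun q => by simp⟩
  | succ m ih =>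
    intro G hG hO
    obtain ⟨R, hR, hR2⟩ := hada hG
    have hRO := hada_bigO hR hR2 hO
    obtain ⟨c, hc, hc2⟩ := ih hR hRO
    -- the part on `q 1 = 0`
    have hι : AnalyticAt ℂ (fun y : ℂ => (![y, 0] : E2)) 0 := by
      refine AnalyticAt.pi (f := fun i (y : ℂ) => (![y, 0] : E2) i) fun i => ?_
      fin_cases i
      · exact analyticAt_id
      · exact analyticAt_const
    have hι0 : (![(0 : ℂ), 0] : E2) = 0 := by
      funext i
      fin_cases i <;> rfl
    have hg : AnalyticAt ℂ (fun y : ℂ => G ![y, 0]) 0 :=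
      AnalyticAt.fun_comp (g := G) (f := fun y : ℂ => (![y, 0] : E2)) (by rw [hι0]; exact hG) hι
    have hιT : Tendsto (fun y : ℂ => (![y, 0] : E2)) (𝓝 0) (𝓝 0) := by
      have := hι.continuousAt.tendsto
      rwa [hι0] at this
    have hgO : (fun y : ℂ => G ![y, 0]) =O[𝓝 0] fun y => ‖y‖ ^ (m + 1) := by
      have h1 := hO.comp_tendsto hιT
      refine h1.congr' EventuallyEq.rfl (Eventually.of_forall fun y => ?_)
      change ‖(![y, 0] : E2)‖ ^ (m + 1) = ‖y‖ ^ (m + 1)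
      rw [norm_E2]
      simp
    obtain ⟨k, hk, hk2⟩ := one_var hg hgO
    have hp0 : AnalyticAt ℂ (fun q : E2 => q 0) 0 :=
      (ContinuousLinearMap.proj (R := ℂ) (φ := fun _ : Fin 2 => ℂ) 0).analyticAt 0
    have hp0T : Tendsto (fun q : E2 => q 0) (𝓝 0) (𝓝 0) := hp0.continuousAt.tendsto
    refine ⟨fun j => if j = 0 then fun q => k (q 0) else c (j - 1), fun j => ?_, ?_⟩
    · by_cases hj : j = 0
      · simp only [hj, if_true]
        exact AnalyticAt.fun_comp (g := k) (f := fun q : E2 => q 0) hk hp0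
      · simp only [hj, if_false]
        exact hc _
    · filter_upwards [hR2, hc2, hp0T.eventually hk2] with q a b d
      rw [a, d, b, Finset.sum_range_succ' _ (m + 1), Finset.mul_sum, add_comm]
      simp only [Nat.succ_ne_zero, if_false, if_true, pow_zero, one_mul, Nat.sub_zero,
        Nat.add_sub_cancel]
      congr 1
      refine Finset.sum_congr rfl fun j _ => ?_
      have : m + 1 - (j + 1) = m - j := by omega
      rw [this, pow_succ]
      ring

/-- quartic leading form -/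
theorem pl_quartic {h : E2 → ℂ} {κ : Fin 5 → ℂ} (hh : AnalyticAt ℂ h 0)
    (hO : (fun q : E2 => h q - ∑ j : Fin 5, κ j * q 1 ^ (j : ℕ) * q 0 ^ (4 - (j : ℕ)))
      =O[𝓝 0] fun q => ‖q‖ ^ 5) (h4 : κ 4 ≠ 0) :
    ∃ c : Fin (4 + 1) → E2 → ℂ, Pl h 1 4 c ∧ ∀ j, c j 0 = κ j := by
  have hp : ∀ i : Fin 2, AnalyticAt ℂ (fun q : E2 => q i) 0 := fun i =>
    (ContinuousLinearMap.proj (R := ℂ) (φ := fun _ : Fin 2 => ℂ) i).analyticAt 0
  have hG : AnalyticAt ℂ (fun q : E2 => h q - ∑ j : Fin 5, κ j * q 1 ^ (j : ℕ) *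
      q 0 ^ (4 - (j : ℕ))) 0 := by
    refine hh.sub (Finset.analyticAt_fun_sum _ fun j _ => ?_)
    exact (analyticAt_const.mul ((hp 1).pow _)).mul ((hp 0).pow _)
  obtain ⟨d, hd, hd2⟩ := bo 5 hG hO
  refine ⟨fun j q => κ j + q 0 * d j q + if j = 4 then q 1 * d 5 q else 0, ⟨?_, ?_, ?_⟩, ?_⟩
  · intro j
    refine (analyticAt_const.add ((hp 0).mul (hd _))).add ?_
    by_cases hj : j = 4
    · simp only [hj, if_true]
      exact (hp 1).mul (hd 5)
    · simp only [hj, if_false]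
      exact analyticAt_const
  · filter_upwards [hd2] with q hq
    have e1 : h q = ∑ j : Fin 5, κ j * q 1 ^ (j : ℕ) * q 0 ^ (4 - (j : ℕ)) +
        ∑ j ∈ Finset.range (5 + 1), q 1 ^ j * q 0 ^ (5 - j) * d j q := by
      rw [← hq]
      ring
    rw [e1]
    simp only [Fin.sum_univ_succ, Fin.sum_univ_zero, Finset.sum_range_succ, Finset.sum_range_zero]
    have z0 : ((0 : Fin (4 + 1)) : ℕ) = 0 := rfl
    have z1 : (((0 : Fin 4).succ : Fin (4 + 1)) : ℕ) = 1 := rfl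
    simp only [Fin.val_zero, Fin.val_succ]
    norm_num [Fin.ext_iff]
    ring
  · simpa using h4
  · intro j
    simp

end Crest.Agent.R257.EVf_929
end
end

-- ▼ part R257/EVg_929
section

set_option autoImplicit false

/-!
R257 / EVg_929 (helper929): transport of the planar data by a linear change of the last two
coordinates, the quartic case and the cubic case in the coordinates `(x, y, z)`.
-/

open Topology Filter Set Asymptotics
open Crest.AlgGeometry.Germ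

noncomputable section

namespace Crest.Agent.R257.EVg_929

open Crest.Agent.R257.Defs_219 Crest.Agent.R257.EVa_929 Crest.Agent.R257.EVb_929
open Crest.Agent.R257.EVc_929 Crest.Agent.R257.EVd_929 Crest.Agent.R257.EVe_929
open Crest.Agent.R257.EVf_929

/-- the point `b v + a u`, `q = (b, a)` -/
def mq (v u q : E2) : E2 := ![q 0 * v 0 + q 1 * u 0, q 0 * v 1 + q 1 * u 1]

/-- the matrix `(b, a, x) ↦ (x, b v + a u)` -/
def AM (v u : E2) : Matrix (Fin 3) (Fin 3) ℂ := !![0, 0, 1; v 0, u 0, 0; v 1, u 1, 0]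

theorem det_AM (v u : E2) : (AM v u).det = v 0 * u 1 - u 0 * v 1 := by
  rw [AM, Matrix.det_fin_three]
  simp

theorem AM_mulVec (v u : E2) (p : E3) :
    (AM v u).mulVec p = ![p 2, p 0 * v 0 + p 1 * u 0, p 0 * v 1 + p 1 * u 1] := by
  funext i
  fin_cases i
  · simp [AM, Matrix.mulVec, dotProduct, Fin.sum_univ_three]
  · simp [AM, Matrix.mulVec, dotProduct, Fin.sum_univ_three, mul_comm]
  · simp [AM, Matrix.mulVec, dotProduct, Fin.sum_univ_three, mul_comm]

theorem AM_gp (v u : E2) (X : E2 → ℂ) (q : E2) :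
    (AM v u).mulVec (gp (fun q => X (mq v u q)) q) = Fin.cons (X (mq v u q)) (mq v u q) := by
  rw [AM_mulVec]
  funext i
  fin_cases i <;> rfl

theorem an_mq (v u q : E2) : AnalyticAt ℂ (mq v u) q := by
  have hp : ∀ i : Fin 2, AnalyticAt ℂ (fun q : E2 => q i) q := fun i =>
    (ContinuousLinearMap.proj (R := ℂ) (φ := fun _ : Fin 2 => ℂ) i).analyticAt q
  refine AnalyticAt.pi (f := fun i (q : E2) => mq v u q i) fun i => ?_
  fin_cases i
  · exact ((hp 0).mul analyticAt_const).add ((hp 1).mul analyticAt_const)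
  · exact ((hp 0).mul analyticAt_const).add ((hp 1).mul analyticAt_const)

theorem mq_zero (v u : E2) : mq v u 0 = 0 := by
  funext i
  fin_cases i <;> simp [mq]

theorem tendsto_mq (v u : E2) : Tendsto (mq v u) (𝓝 0) (𝓝 0) := by
  have := (an_mq v u 0).continuousAt.tendsto
  rwa [mq_zero] at this

theorem mq_bigO (v u : E2) : (fun q => ‖mq v u q‖) =O[𝓝 0] fun q : E2 => ‖q‖ := by
  refine IsBigO.of_bound (‖v‖ + ‖u‖) (Eventually.of_forall fun q => ?_)
  rw [norm_norm, norm_norm, pi_norm_le_iff_of_nonneg (by positivity)]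
  intro i
  have key : ∀ j : Fin 2, ‖q 0 * v j + q 1 * u j‖ ≤ (‖v‖ + ‖u‖) * ‖q‖ := fun j => by
    calc ‖q 0 * v j + q 1 * u j‖ ≤ ‖q 0‖ * ‖v j‖ + ‖q 1‖ * ‖u j‖ := by
          refine (norm_add_le _ _).trans ?_
          rw [norm_mul, norm_mul]
      _ ≤ ‖q‖ * ‖v‖ + ‖q‖ * ‖u‖ := by
          refine add_le_add ?_ ?_
          · exact mul_le_mul (norm_le_pi_norm q 0) (norm_le_pi_norm v j) (norm_nonneg _)
              (norm_nonneg _)
          · exact mul_le_mul (norm_le_pi_norm q 1) (norm_le_pi_norm u j) (norm_nonneg _)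
              (norm_nonneg _)
      _ = _ := by ring
  fin_cases i
  · exact key 0
  · exact key 1

section

variable {g : E3 → ℂ} {C : ℝ} {X : E2 → ℂ}

/-- the standing assumptions in the coordinates `(x, y, z)` -/
structure St (g : E3 → ℂ) (C : ℝ) (X : E2 → ℂ) : Prop where
  bd : Bd g C
  zero : g 0 = 0
  crit : ∀ i, coordDeriv g i 0 = 0
  aX : AnalyticAt ℂ X 0
  X0 : X 0 = 0
  X1 : ∀ᶠ q in 𝓝 (0 : E2), coordDeriv g 0 (Fin.cons (X q) q) = 0
  e0 : coordDeriv (coordDeriv g 0) 0 0 ≠ 0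

theorem an_of_bd (h : Bd g C) : AnalyticAt ℂ g 0 := by
  obtain ⟨r, hr, han, -⟩ := h
  exact han 0 (by simpa using hr.le)

theorem AM_zero (v u : E2) : (AM v u).mulVec (0 : E3) = 0 := Matrix.mulVec_zero _

theorem St.crit' (h : St g C X) (v u : E2) (i : Fin 3) :
    coordDeriv (cm g (AM v u)) i 0 = 0 := by
  rw [cd_cm (by rw [AM_zero]; exact an_of_bd h.bd)]
  refine Finset.sum_eq_zero fun k _ => ?_
  rw [AM_zero, h.crit, mul_zero]

theorem St.zero' (h : St g C X) (v u : E2) : cm g (AM v u) 0 = 0 := by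
  rw [cm, AM_zero, h.zero]

theorem St.aX' (h : St g C X) (v u : E2) : AnalyticAt ℂ (fun q => X (mq v u q)) 0 :=
  AnalyticAt.fun_comp (g := X) (f := mq v u) (by rw [mq_zero]; exact h.aX) (an_mq v u 0)

theorem St.X0' (h : St g C X) (v u : E2) : (fun q => X (mq v u q)) 0 = 0 := by
  simp only [mq_zero, h.X0]

theorem St.X1' (h : St g C X) (v u : E2) : ∀ᶠ q in 𝓝 (0 : E2),
    coordDeriv (cm g (AM v u)) 2 (gp (fun q => X (mq v u q)) q) = 0 := by
  have hT : Tendsto (fun q : E2 => (Fin.cons (X (mq v u q)) (mq v u q) : E3)) (𝓝 0) (𝓝 0) := by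
    have h1 := (tendsto_gp (h.aX' v u) (h.X0' v u))
    have h2 : Tendsto (fun p : E3 => (AM v u).mulVec p) (𝓝 0) (𝓝 0) := by
      have : (fun y : E3 => (AM v u).mulVec y) =
          (LinearMap.toContinuousLinearMap (Matrix.toLin' (AM v u))) := funext (mv_eq _)
      rw [this]
      exact (LinearMap.toContinuousLinearMap (Matrix.toLin' (AM v u))).continuous.tendsto' _ _
        (map_zero _)
    have h3 := h2.comp h1
    refine h3.congr fun q => ?_
    exact AM_gp v u X q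
  filter_upwards [(tendsto_mq v u).eventually h.X1, hT.eventually
    (an_of_bd h.bd).eventually_analyticAt] with q h1 h2
  rw [cd_cm (by rw [AM_gp]; exact h2), AM_gp]
  simp only [Fin.sum_univ_three]
  have a0 : AM v u 0 2 = 1 := rfl
  have a1 : AM v u 1 2 = 0 := rfl
  have a2 : AM v u 2 2 = 0 := rfl
  rw [a0, a1, a2, h1]
  ring

theorem St.e' (h : St g C X) (v u : E2) : coordDeriv (coordDeriv (cm g (AM v u)) 2) 2 0 =
    coordDeriv (coordDeriv g 0) 0 0 := by
  rw [cd2_cm (by rw [AM_zero]; exact an_of_bd h.bd)]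
  have a0 : AM v u 0 2 = 1 := rfl
  have a1 : AM v u 1 2 = 0 := rfl
  have a2 : AM v u 2 2 = 0 := rfl
  simp only [Fin.sum_univ_three, a0, a1, a2, AM_zero]
  ring

theorem cm_gp (v u : E2) (q : E2) : cm g (AM v u) (gp (fun q => X (mq v u q)) q) =
    g (Fin.cons (X (mq v u q)) (mq v u q)) := by
  rw [cm, AM_gp]

theorem St.an_h (h : St g C X) (v u : E2) :
    AnalyticAt ℂ (fun q => cm g (AM v u) (gp (fun q => X (mq v u q)) q)) 0 := by
  refine AnalyticAt.fun_comp (g := cm g (AM v u)) (f := gp (fun q => X (mq v u q))) ?_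
    (an_gp (h.aX' v u))
  rw [gp_zero (h.X0' v u)]
  exact cm_an (by rw [AM_zero]; exact an_of_bd h.bd)

/-- the quartic form with coefficients `κ` -/
def Q4 (κ : Fin 5 → ℂ) (q : E2) : ℂ := ∑ j : Fin 5, κ j * q 1 ^ (j : ℕ) * q 0 ^ (4 - (j : ℕ))

/-- the invariant -/
def J4 (κ : Fin 5 → ℂ) : ℂ := 12 * κ 0 * κ 4 - 3 * κ 1 * κ 3 + κ 2 ^ 2

theorem Q4_eq (κ : Fin 5 → ℂ) (q : E2) : Q4 κ q = κ 0 * q 0 ^ 4 + κ 1 * q 1 * q 0 ^ 3 +
    κ 2 * q 1 ^ 2 * q 0 ^ 2 + κ 3 * q 1 ^ 3 * q 0 + κ 4 * q 1 ^ 4 := by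
  rw [Q4, Fin.sum_univ_five]
  have e2 : ((2 : Fin 5) : ℕ) = 2 := rfl
  have e3 : ((3 : Fin 5) : ℕ) = 3 := rfl
  have e4 : ((4 : Fin 5) : ℕ) = 4 := rfl
  have e1 : ((1 : Fin 5) : ℕ) = 1 := rfl
  have e0 : ((0 : Fin 5) : ℕ) = 0 := rfl
  rw [e0, e1, e2, e3, e4]
  ring

/-- the invariant of a quartic form in coordinates where it is `a²(αb² + βab + γa²)` -/
theorem J4_of_form {κ : Fin 5 → ℂ} {v u : E2} {al be ga : ℂ}
    (h : ∀ b a : ℂ, Q4 κ (mq v u ![b, a]) = a ^ 2 * (al * b ^ 2 + be * b * a + ga * a ^ 2)) :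
    al ^ 2 = (v 0 * u 1 - u 0 * v 1) ^ 4 * J4 κ := by
  have hf : ∀ b a : ℂ, Q4 κ (mq v u ![b, a]) = κ 0 * (b * v 0 + a * u 0) ^ 4 +
      κ 1 * (b * v 1 + a * u 1) * (b * v 0 + a * u 0) ^ 3 +
      κ 2 * (b * v 1 + a * u 1) ^ 2 * (b * v 0 + a * u 0) ^ 2 +
      κ 3 * (b * v 1 + a * u 1) ^ 3 * (b * v 0 + a * u 0) + κ 4 * (b * v 1 + a * u 1) ^ 4 := by
    intro b a
    rw [Q4_eq]
    rfl
  set K0 := κ 0 * v 0 ^ 4 + κ 1 * v 0 ^ 3 * v 1 + κ 2 * v 0 ^ 2 * v 1 ^ 2 + κ 3 * v 0 * v 1 ^ 3 +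
    κ 4 * v 1 ^ 4 with hK0
  set K1 := 4 * κ 0 * v 0 ^ 3 * u 0 + κ 1 * v 0 ^ 3 * u 1 + 3 * κ 1 * v 0 ^ 2 * u 0 * v 1 +
    2 * κ 2 * v 0 ^ 2 * v 1 * u 1 + 2 * κ 2 * v 0 * u 0 * v 1 ^ 2 + 3 * κ 3 * v 0 * v 1 ^ 2 * u 1 +
    κ 3 * u 0 * v 1 ^ 3 + 4 * κ 4 * v 1 ^ 3 * u 1 with hK1
  set K2 := 6 * κ 0 * v 0 ^ 2 * u 0 ^ 2 + 3 * κ 1 * v 0 ^ 2 * u 0 * u 1 +
    3 * κ 1 * v 0 * u 0 ^ 2 * v 1 + κ 2 * v 0 ^ 2 * u 1 ^ 2 + 4 * κ 2 * v 0 * u 0 * v 1 * u 1 +
    κ 2 * u 0 ^ 2 * v 1 ^ 2 + 3 * κ 3 * v 0 * v 1 * u 1 ^ 2 + 3 * κ 3 * u 0 * v 1 ^ 2 * u 1 +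
    6 * κ 4 * v 1 ^ 2 * u 1 ^ 2 with hK2
  set K3 := 4 * κ 0 * v 0 * u 0 ^ 3 + 3 * κ 1 * v 0 * u 0 ^ 2 * u 1 + κ 1 * u 0 ^ 3 * v 1 +
    2 * κ 2 * v 0 * u 0 * u 1 ^ 2 + 2 * κ 2 * u 0 ^ 2 * v 1 * u 1 + κ 3 * v 0 * u 1 ^ 3 +
    3 * κ 3 * u 0 * v 1 * u 1 ^ 2 + 4 * κ 4 * v 1 * u 1 ^ 3 with hK3
  set K4 := κ 0 * u 0 ^ 4 + κ 1 * u 0 ^ 3 * u 1 + κ 2 * u 0 ^ 2 * u 1 ^ 2 + κ 3 * u 0 * u 1 ^ 3 +
    κ 4 * u 1 ^ 4 with hK4
  have hE : ∀ a : ℂ, K0 + K1 * a + K2 * a ^ 2 + K3 * a ^ 3 + K4 * a ^ 4 =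
      a ^ 2 * (al + be * a + ga * a ^ 2) := by
    intro a
    have h1 := h 1 a
    rw [hf] at h1
    rw [hK0, hK1, hK2, hK3, hK4]
    linear_combination h1
  have h0 := hE 0
  have h1 := hE 1
  have h2 := hE (-1)
  have h3 := hE 2
  have h4 := hE (-2)
  have k0 : K0 = 0 := by linear_combination h0
  have k4 : K4 = ga := by
    linear_combination (h3 + h4) / 24 - (h1 + h2) / 6 + k0 / 4
  have k2 : K2 = al := by
    linear_combination (h1 + h2) / 2 - k0 - k4
  have k3 : K3 = be := by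
    linear_combination (h3 - h4) / 12 - (h1 - h2) / 6
  have k1 : K1 = 0 := by
    linear_combination (h1 - h2) / 2 - k3
  have hinv : 12 * K0 * K4 - 3 * K1 * K3 + K2 ^ 2 = (v 0 * u 1 - u 0 * v 1) ^ 4 * J4 κ := by
    rw [hK0, hK1, hK2, hK3, hK4, J4]
    ring
  rw [← hinv, k0, k1, k2]
  ring

/-- **the quartic case** -/
theorem ev3 (h : St g C X) {κ : Fin 5 → ℂ}
    (hQ : (fun q => g (Fin.cons (X q) q) - Q4 κ q) =O[𝓝 0] fun q : E2 => ‖q‖ ^ 5)
    {v u : E2} (hdet : v 0 * u 1 - u 0 * v 1 ≠ 0) {al be ga : ℂ} (hal : al ≠ 0)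
    (hform : ∀ b a : ℂ, Q4 κ (mq v u ![b, a]) =
      a ^ 2 * (al * b ^ 2 + be * b * a + ga * a ^ 2)) :
    1 ≤ 1600 * C ^ 2 * ‖coordDeriv (coordDeriv g 0) 0 0‖ ^ 2 * ‖J4 κ‖ := by
  set e := coordDeriv (coordDeriv g 0) 0 0 with he
  -- the shear parameter
  obtain ⟨s, hs⟩ : ∃ s : ℂ, (be ^ 2 ≠ 4 * al * ga ∧ 2 * al * s + be = 0) ∨
      (be ^ 2 = 4 * al * ga ∧ 2 * al * s + be = 2 * al) := by
    by_cases hd : be ^ 2 = 4 * al * ga
    · refine ⟨1 - be / (2 * al), Or.inr ⟨hd, ?_⟩⟩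
      field_simp
      ring
    · refine ⟨-be / (2 * al), Or.inl ⟨hd, ?_⟩⟩
      field_simp
      ring
  set u' : E2 := ![u 0 + s * v 0, u 1 + s * v 1] with hu'
  have hdet' : v 0 * u' 1 - u' 0 * v 1 = v 0 * u 1 - u 0 * v 1 := by
    simp only [hu', Matrix.cons_val_zero, Matrix.cons_val_one]
    ring
  have hmq : ∀ q : E2, mq v u' q = mq v u ![q 0 + s * q 1, q 1] := by
    intro q
    funext i
    fin_cases i
    · simp [mq, hu']
      ring
    · simp [mq, hu']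
      ring
  set be' := 2 * al * s + be with hbe'
  set ga' := al * s ^ 2 + be * s + ga with hga'
  have hform' : ∀ q : E2, Q4 κ (mq v u' q) = Q4 ![0, 0, al, be', ga'] q := by
    intro q
    rw [hmq, hform, Q4_eq]
    simp only [Matrix.cons_val_zero, Matrix.cons_val_one, Matrix.cons_val]
    rw [hbe', hga']
    ring
  have hO : (fun q => cm g (AM v u') (gp (fun q => X (mq v u' q)) q) -
      ∑ j : Fin 5, (![0, 0, al, be', ga'] : Fin 5 → ℂ) j * q 1 ^ (j : ℕ) * q 0 ^ (4 - (j : ℕ)))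
      =O[𝓝 0] fun q : E2 => ‖q‖ ^ 5 := by
    have h1 := hQ.comp_tendsto (tendsto_mq v u')
    have h2 : ((fun q : E2 => ‖q‖ ^ 5) ∘ mq v u') =O[𝓝 0] fun q : E2 => ‖q‖ ^ 5 :=
      (mq_bigO v u').pow 5
    refine (h1.trans h2).congr_left fun q => ?_
    simp only [Function.comp_apply]
    rw [cm_gp, hform']
    rfl
  have hdisc : be' ^ 2 - 4 * al * ga' = be ^ 2 - 4 * al * ga := by
    rw [hbe', hga']
    ring
  have hga0 : ga' ≠ 0 := by
    intro h0
    rcases hs with ⟨h1, h2⟩ | ⟨h1, h2⟩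
    · rw [h0, h2] at hdisc
      apply h1
      linear_combination -hdisc
    · rw [h0, h2, h1] at hdisc
      have : al ^ 2 = 0 := by linear_combination hdisc / 4
      exact hal (pow_eq_zero_iff two_ne_zero |>.1 this)
  obtain ⟨c, hP, hc⟩ := pl_quartic (h.an_h v u') hO hga0
  have c0 : c 0 0 = 0 := hc 0
  have c1 : c 1 0 = 0 := hc 1
  have c2 : c 2 0 = al := hc 2
  have c3 : c 3 0 = be' := hc 3
  have c4 : c 4 0 = ga' := hc 4
  have hB := h.bd.cm (A := AM v u') (by rw [det_AM, hdet']; exact hdet)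
  rw [det_AM, hdet'] at hB
  have hkey : 1 ≤ 40 * (C / ‖v 0 * u 1 - u 0 * v 1‖ ^ 2) * ‖e * al‖ := by
    have h1 : coordDeriv (coordDeriv (cm g (AM v u')) 2) 2 0 = e := h.e' v u'
    rw [← h1]
    rcases hs with ⟨-, h2⟩ | ⟨h1', h2⟩
    · exact ev_q1 hB (h.zero' v u') (h.crit' v u') (h.aX' v u') (h.X0' v u') (h.X1' v u')
        (by rw [h.e']; exact h.e0) hP c0 c1 c2 (by rw [c3, h2]) c4 hal
    · have h3 : ga' = al := by
        rw [h2, h1'] at hdisc
        have : al * (al - ga') = 0 := by linear_combination hdisc / 4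
        rcases mul_eq_zero.1 this with h4 | h4
        · exact absurd h4 hal
        · exact (sub_eq_zero.1 h4).symm
      exact ev_q2 hB (h.zero' v u') (h.crit' v u') (h.aX' v u') (h.X0' v u') (h.X1' v u')
        (by rw [h.e']; exact h.e0) hP c0 c1 c2 (by rw [c3, h2]) (by rw [c4, h3]) hal
  have hJ := J4_of_form hform
  have hΔ : 0 < ‖v 0 * u 1 - u 0 * v 1‖ := norm_pos_iff.2 hdet
  set Δ := ‖v 0 * u 1 - u 0 * v 1‖ with hΔd
  have hJ' : ‖al‖ ^ 2 = Δ ^ 4 * ‖J4 κ‖ := by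
    rw [← norm_pow, hJ, norm_mul, norm_pow]
  have h5 : 1 ≤ (40 * (C / Δ ^ 2) * ‖e * al‖) ^ 2 := by
    have := pow_le_pow_left₀ zero_le_one hkey 2
    rwa [one_pow] at this
  calc (1 : ℝ) ≤ (40 * (C / Δ ^ 2) * ‖e * al‖) ^ 2 := h5
    _ = 1600 * C ^ 2 * ‖e‖ ^ 2 * (‖al‖ ^ 2 / Δ ^ 4) := by
        rw [norm_mul]
        field_simp
        ring
    _ = _ := by
        rw [hJ']
        field_simp

end

end Crest.Agent.R257.EVg_929
end
end

-- ▼ part R257/EVh_929
section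

/-!
R257 / EVh_929 (helper929): the critical value with its critical point (after 475's Cl2E_475).
-/

set_option autoImplicit false
set_option linter.deprecated false

open Topology Filter Set Asymptotics
open Crest.AlgGeometry.Germ

noncomputable section

namespace Crest.Agent.R257.EVh_929

open Crest.Agent.R257.Defs_219 Crest.Agent.R257.LcxDefs_759 Crest.Agent.R257.Kp_405
open Crest.Agent.R257.Cl2_475 Crest.Agent.R257.Cl2D_475 Crest.Agent.R257.Cl2E_475

/-- **the critical value** of a germ in the shape `Dcp` (475's `Cl2E_475.crit_value`, same proof,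
with the critical point `X` exposed) -/
theorem crit_X {f : E3 → ℂ} (hf : AnalyticAt ℂ f 0) (hf0 : f 0 = 0) (A : E3 ≃L[ℂ] E3)
    {u : E3 → ℂ} {v w : E2 → ℂ} (hD : Dcp (fun x => f (A x)) u v w) :
    ∃ X : ℂ × ℂ → ℂ, AnalyticAt ℂ X 0 ∧ X 0 = 0 ∧
      (∀ᶠ q in 𝓝 (0 : ℂ × ℂ), fderiv ℂ (fun q => f (A (kap q))) (q, X q) (0, 1) = 0) ∧
      Red f (fun q => f (A (kap (q, X q)))) ∧
      ((fun q : ℂ × ℂ => f (A (kap (q, X q))) - w (pt q)) =O[𝓝 0] fun q => ‖q‖ ^ 4) ∧
      ((fun q : ℂ × ℂ => Dsc u v w (pt q) - 4 * u (Fin.cons 0 (pt q)) * f (A (kap (q, X q))))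
        =O[𝓝 0] fun q => ‖q‖ ^ 6) := by
  have kap0 : kap 0 = 0 := map_zero kap
  have tk : Tendsto kap (𝓝 0) (𝓝 0) := by
    have := kap.continuous.tendsto 0
    rwa [map_zero] at this
  -- the pieces as functions of `q`
  set uk : (ℂ × ℂ) × ℂ → ℂ := fun q => u (kap q) with huk
  have huka : AnalyticAt ℂ uk 0 :=
    AnalyticAt.comp (g := u) (f := kap) (by rw [map_zero]; exact hD.au) (kap.analyticAt 0)
  have huk0 : uk 0 ≠ 0 := by
    change u (kap 0) ≠ 0
    rw [kap0]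
    exact hD.u0
  set vk : ℂ × ℂ → ℂ := fun q => v (pt q) with hvk
  have hvka : AnalyticAt ℂ vk 0 := an_pt hD.av
  set wk : ℂ × ℂ → ℂ := fun q => w (pt q) with hwk
  have hwka : AnalyticAt ℂ wk 0 := an_pt hD.aw
  have hvO : vk =O[𝓝 0] fun q => ‖q‖ ^ 2 := bigO_of_cf hD.av hD.v0
  have hwO : wk =O[𝓝 0] fun q => ‖q‖ ^ 3 := bigO_of_cf hD.aw hD.w0
  have hv00 : vk 0 = 0 := by
    have := hD.v0 0 0 (by norm_num)
    change v (pt 0) = 0
    rw [map_zero]
    exact this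
  have hw00 : wk 0 = 0 := by
    have := hD.w0 0 0 (by norm_num)
    change w (pt 0) = 0
    rw [map_zero]
    exact this
  set M : (ℂ × ℂ) × ℂ → ℂ := fun q => q.2 ^ 2 * uk q + q.2 * vk q.1 + wk q.1 with hM
  have hG : ∀ᶠ q in 𝓝 (0 : (ℂ × ℂ) × ℂ), f (A (kap q)) = M q := by
    filter_upwards [tk.eventually hD.eq] with q hq
    rw [hq, tail_kap]
    rfl
  set ux : (ℂ × ℂ) × ℂ → ℂ := fun q => fderiv ℂ uk q (0, 1) with hux
  have huxa : AnalyticAt ℂ ux 0 :=
    (ContinuousLinearMap.analyticAt (ContinuousLinearMap.apply ℂ ℂ (((0, 0), 1) : (ℂ × ℂ) × ℂ)) _).comp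
      huka.fderiv
  have tf : Tendsto (Prod.fst : (ℂ × ℂ) × ℂ → ℂ × ℂ) (𝓝 0) (𝓝 0) :=
    continuous_fst.tendsto' _ _ rfl
  set P : (ℂ × ℂ) × ℂ → ℂ := fun q => 2 * q.2 * uk q + q.2 ^ 2 * ux q + vk q.1 with hP
  have hvf : AnalyticAt ℂ (fun q : (ℂ × ℂ) × ℂ => vk q.1) 0 :=
    AnalyticAt.comp (g := vk) (f := Prod.fst) hvka analyticAt_fst
  have hwf : AnalyticAt ℂ (fun q : (ℂ × ℂ) × ℂ => wk q.1) 0 :=
    AnalyticAt.comp (g := wk) (f := Prod.fst) hwka analyticAt_fst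
  have hPa : AnalyticAt ℂ P 0 :=
    (((analyticAt_const.mul analyticAt_snd).mul huka).add ((analyticAt_snd.pow 2).mul huxa)).add hvf
  have hMa : AnalyticAt ℂ M 0 :=
    (((analyticAt_snd.pow 2).mul huka).add (analyticAt_snd.mul hvf)).add hwf
  have hMd : ∀ᶠ q in 𝓝 (0 : (ℂ × ℂ) × ℂ), fderiv ℂ (fun q => f (A (kap q))) q (0, 1) = P q := by
    filter_upwards [hG.eventually_nhds, huka.eventually_analyticAt, hMa.eventually_analyticAt]
      with q h1 h2 h3
    have h4 : (fun q => f (A (kap q))) =ᶠ[𝓝 q] M := h1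
    rw [h4.fderiv_eq]
    apply fd01 h3.differentiableAt
    have e0 : HasDerivAt (fun s : ℂ => q.2 + s) 1 0 := by
      simpa using (hasDerivAt_id (0 : ℂ)).const_add q.2
    have e1 : HasDerivAt (fun s : ℂ => uk (q.1, q.2 + s)) (ux q) 0 := by
      have a1 : HasDerivAt (fun s : ℂ => ((q.1, q.2 + s) : (ℂ × ℂ) × ℂ)) (0, 1) 0 :=
        (hasDerivAt_const (0 : ℂ) q.1).prodMk e0
      have a2 : HasFDerivAt uk (fderiv ℂ uk q)
          ((fun s : ℂ => ((q.1, q.2 + s) : (ℂ × ℂ) × ℂ)) 0) := by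
        simpa using h2.differentiableAt.hasFDerivAt
      exact a2.comp_hasDerivAt 0 a1
    have e2 : HasDerivAt (fun s : ℂ => (q.2 + s) ^ 2) (2 * q.2) 0 := by
      have := e0.fun_pow 2
      simpa using this
    have e3 := ((e2.mul e1).add (e0.mul_const (vk q.1))).add_const (wk q.1)
    have e4 : (2 * q.2 * uk (q.1, q.2 + 0) + (q.2 + 0) ^ 2 * ux q + 1 * vk q.1) = P q := by
      simp only [add_zero, one_mul, hP]
    rw [← e4]
    exact e3
  have hP0 : P 0 = 0 := by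
    simp only [hP, Prod.snd_zero, Prod.fst_zero, hv00]
    ring
  have hPd : ∀ s : ℂ, fderiv ℂ P 0 ((0 : ℂ × ℂ), s) = s * (2 * uk 0) := by
    intro s
    have e1 : fderiv ℂ P 0 (0, 1) = 2 * uk 0 := by
      apply fd01 hPa.differentiableAt
      have a1 : HasDerivAt (fun s : ℂ => (((0 : ℂ × ℂ), 0 + s) : (ℂ × ℂ) × ℂ)) (0, 1) 0 := by
        have := (hasDerivAt_const (0 : ℂ) (0 : ℂ × ℂ)).prodMk
          ((hasDerivAt_id (0 : ℂ)).const_add (0 : ℂ))
        simpa using this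
      have a0 : HasDerivAt (fun s : ℂ => (0 : ℂ) + s) 1 0 := by
        simpa using (hasDerivAt_id (0 : ℂ)).const_add (0 : ℂ)
      have b1 : HasDerivAt (fun s : ℂ => uk ((0 : ℂ × ℂ), 0 + s)) (fderiv ℂ uk 0 (0, 1)) 0 := by
        have a2 : HasFDerivAt uk (fderiv ℂ uk 0)
            ((fun s : ℂ => (((0 : ℂ × ℂ), 0 + s) : (ℂ × ℂ) × ℂ)) 0) := by
          simp only [add_zero]
          exact huka.differentiableAt.hasFDerivAt
        exact a2.comp_hasDerivAt 0 a1
      have b2 : HasDerivAt (fun s : ℂ => ux ((0 : ℂ × ℂ), 0 + s)) (fderiv ℂ ux 0 (0, 1)) 0 := by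
        have a2 : HasFDerivAt ux (fderiv ℂ ux 0)
            ((fun s : ℂ => (((0 : ℂ × ℂ), 0 + s) : (ℂ × ℂ) × ℂ)) 0) := by
          simp only [add_zero]
          exact huxa.differentiableAt.hasFDerivAt
        exact a2.comp_hasDerivAt 0 a1
      have c1 := (((a0.const_mul 2).mul b1).add ((a0.fun_pow 2).mul b2)).add_const (vk 0)
      refine c1.congr_deriv ?_
      simp only [add_zero]
      have : uk ((0 : ℂ × ℂ), (0 : ℂ)) = uk 0 := rfl
      rw [this]
      simp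
    have e2 : (((0 : ℂ × ℂ), s) : (ℂ × ℂ) × ℂ) = s • ((0 : ℂ × ℂ), (1 : ℂ)) := by
      simp
    rw [e2, map_smul, smul_eq_mul]
    congr 1
  obtain ⟨X, hX, hX0, hXe⟩ := LCc_472.ift (E := ℂ × ℂ) (E' := ℂ) (P := P) hPa hP0 (by
    intro s s' hs
    simp only at hs
    have h1 := hPd s
    have h2 := hPd s'
    have h3 : s * (2 * uk 0) = s' * (2 * uk 0) := by
      rw [← h1, ← h2]
      exact hs
    exact mul_right_cancel₀ (mul_ne_zero two_ne_zero huk0) h3)
  have tX : Tendsto (fun q : ℂ × ℂ => (q, X q)) (𝓝 0) (𝓝 (0 : (ℂ × ℂ) × ℂ)) := by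
    have h1 : ContinuousAt (fun q : ℂ × ℂ => (q, X q)) 0 := continuousAt_id.prodMk hX.continuousAt
    have h2 := h1.tendsto
    rw [hX0] at h2
    exact h2
  have hPX : ∀ᶠ q in 𝓝 (0 : ℂ × ℂ), P (q, X q) = 0 := by
    filter_upwards [tX.eventually hXe] with q hq
    exact hq.2 rfl
  -- `X = O(|q|²)`
  have hXO : X =O[𝓝 0] fun q : ℂ × ℂ => ‖q‖ ^ 2 := by
    have h1 : Tendsto (fun q : ℂ × ℂ => 2 * uk (q, X q) + X q * ux (q, X q)) (𝓝 0)
        (𝓝 (2 * uk 0)) := by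
      have a1 := huka.continuousAt.tendsto.comp tX
      have a2 := huxa.continuousAt.tendsto.comp tX
      have a3 : Tendsto X (𝓝 0) (𝓝 0) := by
        have := hX.continuousAt.tendsto
        rwa [hX0] at this
      have a4 := (a1.const_mul 2).add (a3.mul a2)
      simpa using a4
    have h2 : ∀ᶠ q in 𝓝 (0 : ℂ × ℂ), ‖uk 0‖ ≤ ‖2 * uk (q, X q) + X q * ux (q, X q)‖ := by
      have h3 := h1.norm
      have h4 : ‖uk 0‖ < ‖2 * uk 0‖ := by
        rw [norm_mul]
        have : 0 < ‖uk 0‖ := norm_pos_iff.2 huk0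
        norm_num
        linarith
      filter_upwards [h3.eventually (lt_mem_nhds h4)] with q hq
      exact hq.le
    obtain ⟨C, hC⟩ := hvO.bound
    refine IsBigO.of_bound (C / ‖uk 0‖) ?_
    filter_upwards [h2, hC, hPX] with q a b c
    have e1 : X q * (2 * uk (q, X q) + X q * ux (q, X q)) = - vk q := by
      simp only [hP] at c
      linear_combination c
    have e2 : ‖X q‖ * ‖2 * uk (q, X q) + X q * ux (q, X q)‖ = ‖vk q‖ := by
      rw [← norm_mul, e1, norm_neg]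
    have e3 : 0 < ‖uk 0‖ := norm_pos_iff.2 huk0
    rw [div_mul_eq_mul_div, le_div_iff₀ e3]
    calc ‖X q‖ * ‖uk 0‖ ≤ ‖X q‖ * ‖2 * uk (q, X q) + X q * ux (q, X q)‖ := by gcongr
      _ = ‖vk q‖ := e2
      _ ≤ _ := b
  have hu1 : (fun q : ℂ × ℂ => uk (q, X q)) =O[𝓝 0] fun _ => (1 : ℝ) :=
    (huka.continuousAt.tendsto.comp tX).isBigO_one ℝ
  have hux1 : (fun q : ℂ × ℂ => ux (q, X q)) =O[𝓝 0] fun _ => (1 : ℝ) :=
    (huxa.continuousAt.tendsto.comp tX).isBigO_one ℝ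
  have t0 : Tendsto (fun q : ℂ × ℂ => (q, (0 : ℂ))) (𝓝 0) (𝓝 (0 : (ℂ × ℂ) × ℂ)) := tendsto_emb
  have hdu : (fun q : ℂ × ℂ => uk (q, X q) - uk (q, 0)) =O[𝓝 0] fun q => ‖q‖ ^ 2 := by
    have h1 : ∃ K : NNReal, ∃ s ∈ 𝓝 (0 : (ℂ × ℂ) × ℂ), LipschitzOnWith K uk s :=
      (huka.contDiffAt (n := 1)).exists_lipschitzOnWith
    obtain ⟨K, s, hs, hK⟩ := h1
    have h2 : (fun q : ℂ × ℂ => uk (q, X q) - uk (q, 0)) =O[𝓝 0] X := by
      refine IsBigO.of_bound K ?_
      filter_upwards [tX.eventually hs, t0.eventually hs] with q a b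
      have := hK.dist_le_mul _ a _ b
      rw [dist_eq_norm, dist_eq_norm] at this
      refine this.trans (le_of_eq ?_)
      congr 1
      simp [Prod.norm_def]
    exact h2.trans hXO
  refine ⟨X, hX, hX0, ?_, ?_, ?_, ?_⟩
  · filter_upwards [tX.eventually hMd, hPX] with q a b
    rw [a, b]
  · -- reduction
    have hL : LB (fun q : (ℂ × ℂ) × ℂ => A (kap q)) (fun x => kap.symm (A.symm x)) := by
      have := LB.of_equiv (kap.trans A)
      exact this
    refine red_of_crit hf hL hX hX0 ?_ hf0 ?_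
    · filter_upwards [tX.eventually hMd, hPX] with q a b
      rw [a, b]
    · have tz : Tendsto (fun z : ℂ => ((0 : ℂ × ℂ), z)) (𝓝 0) (𝓝 (0 : (ℂ × ℂ) × ℂ)) :=
        (by fun_prop : Continuous (fun z : ℂ => ((0 : ℂ × ℂ), z))).tendsto' _ _ rfl
      have hfa : AnalyticAt ℂ (fun z : ℂ => f (A (kap ((0 : ℂ × ℂ), z)))) 0 := by
        have h1 : AnalyticAt ℂ (fun q => f (A (kap q))) 0 := an_comp_LB hf hL
        exact AnalyticAt.comp (g := fun q => f (A (kap q))) (f := fun z : ℂ => ((0 : ℂ × ℂ), z)) h1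
          (analyticAt_const.prod analyticAt_id)
      have h2 : analyticOrderAt (fun z : ℂ => f (A (kap ((0 : ℂ × ℂ), z)))) 0 = ((2 : ℕ) : ℕ∞) := by
        rw [hfa.analyticOrderAt_eq_natCast]
        refine ⟨fun z => uk ((0 : ℂ × ℂ), z), ?_, huk0, ?_⟩
        · exact AnalyticAt.comp (g := uk) (f := fun z : ℂ => ((0 : ℂ × ℂ), z)) huka
            (analyticAt_const.prod analyticAt_id)
        · filter_upwards [tz.eventually hG] with z hz
          rw [hz]
          simp only [hM, hv00, hw00, sub_zero, smul_eq_mul]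
          ring
      exact_mod_cast h2
  · -- 3-jet
    have h1 : (fun q : ℂ × ℂ => f (A (kap (q, X q))) - wk q) =ᶠ[𝓝 0]
        fun q => X q * X q * uk (q, X q) + X q * vk q := by
      filter_upwards [tX.eventually hG] with q hq
      rw [hq]
      simp only [hM]
      ring
    refine IsBigO.congr' ?_ h1.symm EventuallyEq.rfl
    have h2 : (fun q : ℂ × ℂ => X q * X q * uk (q, X q)) =O[𝓝 0] fun q => ‖q‖ ^ 4 := by
      refine ((hXO.mul hXO).mul hu1).congr_right fun q => ?_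
      ring
    have h3 : (fun q : ℂ × ℂ => X q * vk q) =O[𝓝 0] fun q => ‖q‖ ^ 4 := by
      refine (hXO.mul hvO).congr_right fun q => ?_
      ring
    exact h2.add h3
  · -- the discriminant
    have h1 : (fun q : ℂ × ℂ => Dsc u v w (pt q) -
        4 * u (Fin.cons 0 (pt q)) * f (A (kap (q, X q)))) =ᶠ[𝓝 0]
        fun q => -(4 * (X q * X q * uk (q, X q) * (uk (q, X q) - uk (q, 0)))) -
          4 * (X q * X q * X q * ux (q, X q) * (uk (q, X q) - uk (q, 0))) -
          X q * X q * X q * X q * (ux (q, X q) * ux (q, X q)) := by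
      filter_upwards [tX.eventually hG, hPX] with q hq hp
      rw [hq]
      have e0 : (Fin.cons 0 (pt q) : E3) = kap (q, 0) := rfl
      simp only [hM, Dsc, e0]
      change 4 * uk (q, 0) * wk q - vk q ^ 2 - _ = _
      have e1 : vk q = -(2 * X q * uk (q, X q)) - X q ^ 2 * ux (q, X q) := by
        simp only [hP] at hp
        linear_combination hp
      rw [e1]
      ring
    refine IsBigO.congr' ?_ h1.symm EventuallyEq.rfl
    have h2 : (fun q : ℂ × ℂ => X q * X q * uk (q, X q) * (uk (q, X q) - uk (q, 0))) =O[𝓝 0]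
        fun q => ‖q‖ ^ 6 := by
      refine (((hXO.mul hXO).mul hu1).mul hdu).congr_right fun q => ?_
      ring
    have hle : ∀ m : ℕ, 6 ≤ m → (fun q : ℂ × ℂ => ‖q‖ ^ m) =O[𝓝 0] fun q => ‖q‖ ^ 6 := by
      intro m hm
      refine IsBigO.of_bound 1 ?_
      filter_upwards [Metric.ball_mem_nhds (0 : ℂ × ℂ) one_pos] with q hq
      have hq' : ‖q‖ ≤ 1 := by
        have : ‖q‖ < 1 := by simpa using hq
        exact this.le
      rw [one_mul, norm_pow, norm_pow, norm_norm]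
      exact pow_le_pow_of_le_one (norm_nonneg _) hq' hm
    have h3 : (fun q : ℂ × ℂ => X q * X q * X q * ux (q, X q) * (uk (q, X q) - uk (q, 0)))
        =O[𝓝 0] fun q => ‖q‖ ^ 6 := by
      refine IsBigO.trans ?_ (hle 8 (by norm_num))
      refine ((((hXO.mul hXO).mul hXO).mul hux1).mul hdu).congr_right fun q => ?_
      ring
    have h4 : (fun q : ℂ × ℂ => X q * X q * X q * X q * (ux (q, X q) * ux (q, X q))) =O[𝓝 0]
        fun q => ‖q‖ ^ 6 := by
      refine IsBigO.trans ?_ (hle 8 (by norm_num))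
      refine ((((hXO.mul hXO).mul hXO).mul hXO).mul (hux1.mul hux1)).congr_right fun q => ?_
      ring
    exact ((h2.const_mul_left 4).neg_left.sub (h3.const_mul_left 4)).sub h4


end Crest.Agent.R257.EVh_929
end
end

-- ▼ part R257/EVi_929

/-!
R257 / EVi_929 (helper929): the quartic case `QuartStmt` of `LcxDefs_759`.
-/

set_option autoImplicit false
set_option linter.deprecated false

open Topology Filter Set Asymptotics
open Crest.AlgGeometry.Germ

noncomputable section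

namespace Crest.Agent.R257.EVi_929

open Crest.Agent.R257.Defs_219 Crest.Agent.R257.LcxDefs_759 Crest.Agent.R257.Kp_405
open Crest.Agent.R257.Cl2_475 Crest.Agent.R257.Cl2D_475 Crest.Agent.R257.Cl2E_475
open Crest.Agent.R257.Cl2F_475 Crest.Agent.R257.Cl2G_475
open Crest.Agent.R257.EVa_929 (TB)
open Crest.Agent.R257.EVb_929 (Bd)
open Crest.Agent.R257.EVg_929

theorem kap_cons (q : ℂ × ℂ) (x : ℂ) : kap (q, x) = Fin.cons x (pt q) := rfl

/-- the standing data of `EVg` from `Dcp` and `Good` -/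
theorem st_of {f : E3 → ℂ} (A : E3 ≃L[ℂ] E3) {u : E3 → ℂ} {v w : E2 → ℂ} {r C : ℝ}
    (hf : LC0 f) (hD : Dcp (fun x => f (A x)) u v w) (hG : Good (fun x => f (A x)) r C) :
    ∃ X : E2 → ℂ, St (fun x => f (A x)) C X ∧
      Red f (fun q : ℂ × ℂ => f (A (Fin.cons (X (pt q)) (pt q)))) ∧
      ((fun q : ℂ × ℂ => f (A (Fin.cons (X (pt q)) (pt q))) - w (pt q)) =O[𝓝 0]
        fun q => ‖q‖ ^ 4) ∧
      ((fun q : ℂ × ℂ => Dsc u v w (pt q) -
        4 * u (Fin.cons 0 (pt q)) * f (A (Fin.cons (X (pt q)) (pt q)))) =O[𝓝 0]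
        fun q => ‖q‖ ^ 6) := by
  obtain ⟨X, hX, hX0, hX1, hR, h1, h2⟩ := EVh_929.crit_X hf.iso.an hf.iso.zero A hD
  have hsym : ∀ q : ℂ × ℂ, pt.symm (pt q) = q := fun q => pt.symm_apply_apply q
  refine ⟨fun q => X (pt.symm q), ?_, ?_, ?_, ?_⟩
  · have hX' : AnalyticAt ℂ (fun q => X (pt.symm q)) 0 :=
      AnalyticAt.fun_comp (g := X) (f := pt.symm) (by rw [map_zero]; exact hX)
        (pt.symm.analyticAt 0)
    have hga : AnalyticAt ℂ (fun x => f (A x)) 0 :=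
      AnalyticAt.fun_comp (g := f) (f := A) (by rw [map_zero]; exact hf.iso.an) (A.analyticAt 0)
    refine ⟨⟨r, hG.r_pos, hG.an, hG.crit, hG.tb⟩, hG.zero, hG.crit0, hX', ?_, ?_, ?_⟩
    · simp only [map_zero, hX0]
    · have tX : Tendsto (fun q : ℂ × ℂ => (q, X q)) (𝓝 0) (𝓝 (0 : (ℂ × ℂ) × ℂ)) := by
        have h1 : ContinuousAt (fun q : ℂ × ℂ => (q, X q)) 0 :=
          continuousAt_id.prodMk hX.continuousAt
        have h2 := h1.tendsto
        rw [hX0] at h2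
        exact h2
      have tk : Tendsto kap (𝓝 0) (𝓝 0) := by
        have := kap.continuous.tendsto 0
        rwa [map_zero] at this
      have ts : Tendsto pt.symm (𝓝 0) (𝓝 0) := by
        have := pt.symm.continuous.tendsto 0
        rwa [map_zero] at this
      have h3 := (tk.comp tX).eventually hga.eventually_analyticAt
      filter_upwards [ts.eventually hX1, ts.eventually h3] with q a b
      have e1 : kap (pt.symm q, X (pt.symm q)) = Fin.cons (X (pt.symm q)) q := by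
        rw [kap_cons, pt.apply_symm_apply]
      rw [Function.comp_apply, e1] at b
      have e2 : fderiv ℂ (fun q => f (A (kap q))) (pt.symm q, X (pt.symm q)) (0, 1) =
          coordDeriv (fun x => f (A x)) 0 (Fin.cons (X (pt.symm q)) q) := by
        have h4 : HasFDerivAt (fun x => f (A x)) (fderiv ℂ (fun x => f (A x))
            (Fin.cons (X (pt.symm q)) q)) (kap (pt.symm q, X (pt.symm q))) := by
          rw [e1]
          exact b.differentiableAt.hasFDerivAt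
        have h5 := (h4.comp (pt.symm q, X (pt.symm q)) kap.hasFDerivAt).fderiv
        have h6 : (fun q => f (A (kap q))) = (fun x => f (A x)) ∘ kap := rfl
        rw [h6, h5]
        simp only [ContinuousLinearMap.comp_apply, coordDeriv]
        congr 1
        funext i
        fin_cases i <;> rfl
      rw [← e2]
      exact a
    · have h3 := (LcxD_759.Dq.mk hD.au hD.av hD.aw hD.eq).h00
      unfold LCDefs_472.H2 at h3
      rw [h3]
      exact mul_ne_zero two_ne_zero hD.u0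
  · simp only [hsym]
    exact hR
  · simp only [hsym]
    exact h1
  · simp only [hsym]
    exact h2

/-- `g_00(0) = 2 u(0)` -/
theorem g00 {g : E3 → ℂ} {u : E3 → ℂ} {v w : E2 → ℂ} (hD : Dcp g u v w) :
    coordDeriv (coordDeriv g 0) 0 0 = 2 * u 0 :=
  (LcxD_759.Dq.mk hD.au hD.av hD.aw hD.eq).h00

/-- the discriminant vanishes to order 4 when `w ∈ m⁴` -/
theorem cf_dsc_zero {g : E3 → ℂ} {u : E3 → ℂ} {v w : E2 → ℂ} (hD : Dcp g u v w)
    (h3 : ∀ i j, i + j = 3 → cf w i j = 0) {i j : ℕ} (hij : i + j ≤ 3) :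
    cf (Dsc u v w) i j = 0 := by
  rw [LcxD_759.cf_dsc hD.au hD.av hD.aw]
  have e1 : ∀ a ∈ Finset.HasAntidiagonal.antidiagonal i,
      ∀ b ∈ Finset.HasAntidiagonal.antidiagonal j,
      cf (fun p : Fin 2 → ℂ => u (Fin.cons 0 p)) a.1 b.1 * cf w a.2 b.2 = 0 := by
    intro a ha b hb
    rw [Finset.HasAntidiagonal.mem_antidiagonal] at ha hb
    rcases Nat.lt_or_ge (a.2 + b.2) 3 with h | h
    · rw [hD.w0 _ _ (by omega), mul_zero]
    · rw [h3 _ _ (by omega), mul_zero]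
  have e2 : ∀ a ∈ Finset.HasAntidiagonal.antidiagonal i,
      ∀ b ∈ Finset.HasAntidiagonal.antidiagonal j, cf v a.1 b.1 * cf v a.2 b.2 = 0 := by
    intro a ha b hb
    rw [Finset.HasAntidiagonal.mem_antidiagonal] at ha hb
    rcases Nat.lt_or_ge (a.2 + b.2) 2 with h | h
    · rw [hD.v0 a.2 b.2 (by omega), mul_zero]
    · rw [hD.v0 a.1 b.1 (by omega), zero_mul]
  rw [Finset.sum_eq_zero fun a ha => Finset.sum_eq_zero fun b hb => e1 a ha b hb,
    Finset.sum_eq_zero fun a ha => Finset.sum_eq_zero fun b hb => e2 a ha b hb]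
  ring

/-- the quartic coefficients of a plane germ -/
def qd (δ : E2 → ℂ) : Fin 5 → ℂ := ![cf δ 4 0, cf δ 3 1, cf δ 2 2, cf δ 1 3, cf δ 0 4]

theorem quart_exp {δ : E2 → ℂ} (hδ : AnalyticAt ℂ δ 0) (h : ∀ i j, i + j ≤ 3 → cf δ i j = 0) :
    (fun p : E2 => δ p - Q4 (qd δ) p) =O[𝓝 0] fun p : E2 => ‖p‖ ^ 5 := by
  refine (pol_cf hδ 4).congr_left fun p => ?_
  rw [Q4_eq]
  simp only [Pol, Finset.sum_range_succ, Finset.sum_range_zero, qd, Matrix.cons_val_zero,
    Matrix.cons_val_one, Matrix.cons_val]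
  rw [h 0 0 (by norm_num), h 0 1 (by norm_num), h 0 2 (by norm_num), h 0 3 (by norm_num),
    h 1 0 (by norm_num), h 1 1 (by norm_num), h 1 2 (by norm_num), h 2 0 (by norm_num),
    h 2 1 (by norm_num), h 3 0 (by norm_num)]
  ring

/-- the plane linear isomorphism with columns `(p,r)`, `(s,t)` -/
def ee {p r s t : ℂ} (hD : p * t - s * r ≠ 0) : (ℂ × ℂ) ≃L[ℂ] (ℂ × ℂ) :=
  LinearEquiv.toContinuousLinearEquiv
  { toFun := fun w => (w.1 * p + w.2 * s, w.1 * r + w.2 * t)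
    invFun := fun x => ((x.1 * t - x.2 * s) / (p * t - s * r), (x.2 * p - x.1 * r) / (p * t - s * r))
    map_add' := fun v w => by
      ext
      · simp only [Prod.fst_add, Prod.snd_add]
        ring
      · simp only [Prod.fst_add, Prod.snd_add]
        ring
    map_smul' := fun c w => by
      ext
      · simp only [Prod.smul_fst, Prod.smul_snd, smul_eq_mul, RingHom.id_apply]
        ring
      · simp only [Prod.smul_fst, Prod.smul_snd, smul_eq_mul, RingHom.id_apply]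
        ring
    left_inv := fun w => by
      ext
      · simp only
        rw [div_eq_iff hD]
        ring
      · simp only
        rw [div_eq_iff hD]
        ring
    right_inv := fun w => by
      ext
      · simp only
        rw [div_mul_eq_mul_div, div_mul_eq_mul_div, ← add_div, div_eq_iff hD]
        ring
      · simp only
        rw [div_mul_eq_mul_div, div_mul_eq_mul_div, ← add_div, div_eq_iff hD]
        ring }


/-- the critical value up to order 4 -/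
theorem val_exp {u : E3 → ℂ} {v w : E2 → ℂ} (hu : AnalyticAt ℂ u 0) (u0 : u 0 ≠ 0)
    (hδ : AnalyticAt ℂ (Dsc u v w) 0) (h : ∀ i j, i + j ≤ 3 → cf (Dsc u v w) i j = 0)
    {φ : E2 → ℂ} (hφ : φ =O[𝓝 0] fun q => ‖q‖ ^ 4)
    (h2 : (fun q : E2 => Dsc u v w q - 4 * u (Fin.cons 0 q) * φ q) =O[𝓝 0] fun q => ‖q‖ ^ 6) :
    (fun q : E2 => φ q - Q4 (fun i => qd (Dsc u v w) i / (4 * u 0)) q) =O[𝓝 0]
      fun q : E2 => ‖q‖ ^ 5 := by
  have hua : AnalyticAt ℂ (fun p : E2 => u (Fin.cons 0 p)) 0 := LcxD_759.an_c0 hu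
  have hu1 : (fun p : E2 => u (Fin.cons 0 p) - u 0) =O[𝓝 0] fun p : E2 => ‖p‖ ^ 1 := by
    have h1 := hua.differentiableAt.isBigO_sub
    have e1 : u (Fin.cons 0 (0 : E2)) = u 0 := by
      congr 1
      funext i
      fin_cases i <;> rfl
    refine (IsBigO.congr_left (f₁ := fun p : E2 => u (Fin.cons 0 p) - u (Fin.cons 0 (0 : E2))) h1
      fun p => ?_).trans ?_
    · rw [e1]
    · refine IsBigO.of_bound 1 (Eventually.of_forall fun p => ?_)
      simp
  have h3 : (fun q : E2 => ‖q‖ ^ 6) =O[𝓝 0] fun q : E2 => ‖q‖ ^ 5 := by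
    refine IsBigO.of_bound 1 ?_
    filter_upwards [Metric.ball_mem_nhds (0 : E2) one_pos] with q hq
    have hq' : ‖q‖ ≤ 1 := by
      have : ‖q‖ < 1 := by simpa using hq
      exact this.le
    rw [one_mul, norm_pow, norm_pow, norm_norm]
    exact pow_le_pow_of_le_one (norm_nonneg _) hq' (by norm_num)
  have h4 := (h2.trans h3)
  have h5 := quart_exp hδ h
  have h6 : (fun q : E2 => (u (Fin.cons 0 q) - u 0) * φ q) =O[𝓝 0] fun q : E2 => ‖q‖ ^ 5 := by
    refine (hu1.mul hφ).congr_right fun q => ?_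
    ring
  have h7 := ((h5.sub h4).sub (h6.const_mul_left 4)).const_mul_left (1 / (4 * u 0))
  refine h7.congr_left fun q => ?_
  rw [Q4_eq, Q4_eq]
  field_simp
  ring

/-- **a quartic with a multiple root** -/
theorem mult_case {δ : Fin 5 → ℂ} (hq : ¬ Ub3_472.NoMult δ) {φ : E2 → ℂ} {m : ℂ} (hm : m ≠ 0)
    (hQ : (fun q : E2 => φ q - Q4 (fun i => δ i / m) q) =O[𝓝 0] fun q : E2 => ‖q‖ ^ 5)
    (hns : ∀ e : (ℂ × ℂ) ≃L[ℂ] (ℂ × ℂ), ¬ ∃ C : ℝ, ∀ᶠ w in 𝓝 (0 : ℂ × ℂ),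
      ‖φ (pt (e w))‖ ≤ C * (‖w.2‖ ^ 3 * ‖w‖ + ‖w‖ ^ 5)) :
    ∃ (v u : E2) (al be ga : ℂ), v 0 * u 1 - u 0 * v 1 ≠ 0 ∧ al ≠ 0 ∧
      ∀ b a : ℂ, Q4 (fun i => δ i / m) (mq v u ![b, a]) =
        a ^ 2 * (al * b ^ 2 + be * b * a + ga * a ^ 2) := by
  unfold Ub3_472.NoMult at hq
  push Not at hq
  obtain ⟨p, r, h0, h1, h2⟩ := hq
  have hpr : p ≠ 0 ∨ r ≠ 0 := by
    by_contra hcon
    push Not at hcon
    exact h2 hcon.1 hcon.2
  obtain ⟨s, t, hD⟩ : ∃ s t : ℂ, p * t - s * r ≠ 0 := by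
    rcases hpr with h | h
    · exact ⟨0, 1, by simpa using h⟩
    · exact ⟨1, 0, by simpa using h⟩
  set κ : Fin 5 → ℂ := fun i => δ i / m with hκ
  have hδ : ∀ i, δ i = m * κ i := fun i => by
    rw [hκ]
    field_simp
  unfold Ub3_472.Qy at h0
  unfold Ub3_472.Qz at h1
  simp only [hδ] at h0 h1
  have h0' : 4 * κ 0 * p ^ 3 + 3 * κ 1 * (p ^ 2 * r) + 2 * κ 2 * (p * r ^ 2) + κ 3 * r ^ 3 = 0 := by
    have : m * (4 * κ 0 * p ^ 3 + 3 * κ 1 * (p ^ 2 * r) + 2 * κ 2 * (p * r ^ 2) + κ 3 * r ^ 3) = 0 := by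
      linear_combination h0
    exact (mul_eq_zero.1 this).resolve_left hm
  have h1' : κ 1 * p ^ 3 + 2 * κ 2 * (p ^ 2 * r) + 3 * κ 3 * (p * r ^ 2) + 4 * κ 4 * r ^ 3 = 0 := by
    have : m * (κ 1 * p ^ 3 + 2 * κ 2 * (p ^ 2 * r) + 3 * κ 3 * (p * r ^ 2) + 4 * κ 4 * r ^ 3) = 0 := by
      linear_combination h1
    exact (mul_eq_zero.1 this).resolve_left hm
  set K2 := 6 * κ 0 * p ^ 2 * s ^ 2 + 3 * κ 1 * p ^ 2 * s * t +
    3 * κ 1 * p * s ^ 2 * r + κ 2 * p ^ 2 * t ^ 2 + 4 * κ 2 * p * s * r * t +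
    κ 2 * s ^ 2 * r ^ 2 + 3 * κ 3 * p * r * t ^ 2 + 3 * κ 3 * s * r ^ 2 * t +
    6 * κ 4 * r ^ 2 * t ^ 2 with hK2
  set K3 := 4 * κ 0 * p * s ^ 3 + 3 * κ 1 * p * s ^ 2 * t + κ 1 * s ^ 3 * r +
    2 * κ 2 * p * s * t ^ 2 + 2 * κ 2 * s ^ 2 * r * t + κ 3 * p * t ^ 3 +
    3 * κ 3 * s * r * t ^ 2 + 4 * κ 4 * r * t ^ 3 with hK3
  set K4 := κ 0 * s ^ 4 + κ 1 * s ^ 3 * t + κ 2 * s ^ 2 * t ^ 2 + κ 3 * s * t ^ 3 +
    κ 4 * t ^ 4 with hK4
  have hform : ∀ b a : ℂ, Q4 κ (mq ![p, r] ![s, t] ![b, a]) =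
      a ^ 2 * (K2 * b ^ 2 + K3 * b * a + K4 * a ^ 2) := by
    intro b a
    rw [Q4_eq]
    simp only [mq, Matrix.cons_val_zero, Matrix.cons_val_one]
    rw [hK2, hK3, hK4]
    linear_combination (p * b ^ 4 / 4 + s * b ^ 3 * a) * h0' + (r * b ^ 4 / 4 + t * b ^ 3 * a) * h1'
  refine ⟨![p, r], ![s, t], K2, K3, K4, hD, ?_, hform⟩
  intro hK
  refine hns (ee hD) ?_
  have te : Tendsto (fun w : ℂ × ℂ => pt (ee hD w)) (𝓝 0) (𝓝 0) := by
    have := (pt.continuous.comp (ee hD).continuous).tendsto 0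
    simp only [Function.comp_apply, map_zero] at this
    exact this
  have hO : (fun w : ℂ × ℂ => ‖pt (ee hD w)‖) =O[𝓝 0] fun w => ‖w‖ := by
    have h3 : (fun w : ℂ × ℂ => (ee hD) w) =O[𝓝 0] fun w => w :=
      ((ee hD) : (ℂ × ℂ) →L[ℂ] (ℂ × ℂ)).isBigO_id _
    refine (h3.norm_norm).congr_left fun w => ?_
    rw [norm_pt]
  have h5 := (hQ.comp_tendsto te).trans ((hO.pow 5 : ((fun q : E2 => ‖q‖ ^ 5) ∘
    fun w : ℂ × ℂ => pt (ee hD w)) =O[𝓝 0] fun w : ℂ × ℂ => ‖w‖ ^ 5))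
  obtain ⟨C, hC⟩ := h5.bound
  refine ⟨max (max C 0) (‖K3‖ + ‖K4‖), ?_⟩
  filter_upwards [hC] with w hw
  have e1 : Q4 κ (pt (ee hD w)) = w.2 ^ 3 * (K3 * w.1 + K4 * w.2) := by
    have h6 : pt (ee hD w) = mq ![p, r] ![s, t] ![w.1, w.2] := by
      funext i
      fin_cases i <;> rfl
    rw [h6, hform, hK]
    ring
  rw [Function.comp_apply, e1, norm_pow, norm_norm] at hw
  have h7 : ‖K3 * w.1 + K4 * w.2‖ ≤ (‖K3‖ + ‖K4‖) * ‖w‖ := by
    refine (norm_add_le _ _).trans ?_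
    rw [norm_mul, norm_mul, add_mul]
    exact add_le_add (mul_le_mul_of_nonneg_left (norm_fst_le w) (norm_nonneg _))
      (mul_le_mul_of_nonneg_left (norm_snd_le w) (norm_nonneg _))
  calc ‖φ (pt (ee hD w))‖ = ‖(φ (pt (ee hD w)) - w.2 ^ 3 * (K3 * w.1 + K4 * w.2)) +
        w.2 ^ 3 * (K3 * w.1 + K4 * w.2)‖ := by congr 1; ring
    _ ≤ C * ‖w‖ ^ 5 + ‖w.2‖ ^ 3 * ((‖K3‖ + ‖K4‖) * ‖w‖) := by
        refine (norm_add_le _ _).trans (add_le_add hw ?_)
        rw [norm_mul, norm_pow]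
        exact mul_le_mul_of_nonneg_left h7 (by positivity)
    _ ≤ max (max C 0) (‖K3‖ + ‖K4‖) * ‖w‖ ^ 5 +
        max (max C 0) (‖K3‖ + ‖K4‖) * (‖w.2‖ ^ 3 * ‖w‖) := by
        refine add_le_add ?_ ?_
        · exact mul_le_mul_of_nonneg_right ((le_max_left _ _).trans (le_max_left _ _))
            (by positivity)
        · calc ‖w.2‖ ^ 3 * ((‖K3‖ + ‖K4‖) * ‖w‖) = (‖K3‖ + ‖K4‖) * (‖w.2‖ ^ 3 * ‖w‖) := by ring
            _ ≤ _ := mul_le_mul_of_nonneg_right (le_max_right _ _) (by positivity)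
    _ = _ := by ring

/-- `μ ≤ 9` (472) -/
def QuartMu : Prop := ∀ (f : E3 → ℂ) (A : E3 ≃L[ℂ] E3) (u : E3 → ℂ) (v w : (Fin 2 → ℂ) → ℂ),
  Iso f → Dcp (fun x => f (A x)) u v w → (∀ i j, i + j = 3 → cf w i j = 0) →
  Ub3_472.NoMult ![cf (Dsc u v w) 4 0, cf (Dsc u v w) 3 1, cf (Dsc u v w) 2 2,
    cf (Dsc u v w) 1 3, cf (Dsc u v w) 0 4] → col (par f) ≤ 9

/-- **(B1)** of `LcxDefs_759` -/
theorem quart_of (hmu : QuartMu) : QuartStmt := by
  refine ⟨400, by norm_num, fun f A u v w r C hf hD hG h3 => ?_⟩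
  by_cases hq : Ub3_472.NoMult (qd (Dsc u v w))
  · exact Or.inl (hmu f A u v w hf.iso hD h3 hq)
  · right
    obtain ⟨X, hSt, hR, h1, h2⟩ := st_of A hf hD hG
    have hj := jet_crit hD.aw hD.w0 h1
    have w3 : cf w 3 0 = 0 ∧ cf w 2 1 = 0 ∧ cf w 1 2 = 0 ∧ cf w 0 3 = 0 :=
      ⟨h3 3 0 rfl, h3 2 1 rfl, h3 1 2 rfl, h3 0 3 rfl⟩
    have hns : ∀ e : (ℂ × ℂ) ≃L[ℂ] (ℂ × ℂ), ¬ ∃ C : ℝ, ∀ᶠ w in 𝓝 (0 : ℂ × ℂ),
        ‖f (A (Fin.cons (X (pt (e w))) (pt (e w))))‖ ≤ C * (‖w.2‖ ^ 3 * ‖w‖ + ‖w‖ ^ 5) := by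
      rcases cube_or hf hR hj with ⟨-, -, -, -, h⟩ | ⟨⟨m, α, β, hm, hab, hk⟩, -⟩
      · exact h
      · exfalso
        rw [w3.1, w3.2.1, w3.2.2.1, w3.2.2.2] at hk
        have e1 := hk (1, 0)
        have e2 := hk (0, 1)
        simp only [kf] at e1 e2
        have e3 : m * α ^ 3 = 0 := by linear_combination -e1
        have e4 : m * β ^ 3 = 0 := by linear_combination -e2
        rcases hab with h | h
        · exact (mul_ne_zero hm (pow_ne_zero 3 h)) e3
        · exact (mul_ne_zero hm (pow_ne_zero 3 h)) e4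
    set φ : E2 → ℂ := fun q => f (A (Fin.cons (X q) q)) with hφ
    have ts : Tendsto pt.symm (𝓝 0) (𝓝 0) := by
      have := pt.symm.continuous.tendsto 0
      rwa [map_zero] at this
    have hns' : ∀ q : E2, ‖pt.symm q‖ = ‖q‖ := fun q => by
      rw [← norm_pt, pt.apply_symm_apply]
    have h2' : (fun q : E2 => Dsc u v w q - 4 * u (Fin.cons 0 q) * φ q) =O[𝓝 0]
        fun q => ‖q‖ ^ 6 := by
      refine (h2.comp_tendsto ts).congr (fun q => ?_) fun q => ?_
      · simp only [Function.comp_apply, pt.apply_symm_apply, hφ]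
      · simp only [Function.comp_apply, hns']
    have hφO : φ =O[𝓝 0] fun q => ‖q‖ ^ 4 := by
      have h4 : (fun q : ℂ × ℂ => f (A (Fin.cons (X (pt q)) (pt q)))) =O[𝓝 0]
          fun q => ‖q‖ ^ 4 := by
        refine hj.congr_left fun q => ?_
        simp only [kf, w3.1, w3.2.1, w3.2.2.1, w3.2.2.2]
        ring
      refine (h4.comp_tendsto ts).congr (fun q => ?_) fun q => ?_
      · simp only [Function.comp_apply, pt.apply_symm_apply, hφ]
      · simp only [Function.comp_apply, hns']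
    have hQ := val_exp hD.au hD.u0 (an_Dsc hD.au hD.av hD.aw) (fun i j h => cf_dsc_zero hD h3 h)
      hφO h2'
    obtain ⟨V, U, al, be, ga, hdet, hal, hform⟩ := mult_case hq
      (m := 4 * u 0) (mul_ne_zero (by norm_num) hD.u0) hQ hns
    have h5 := ev3 hSt hQ hdet hal hform
    rw [g00 hD] at h5
    have h6 : J4 (fun i => qd (Dsc u v w) i / (4 * u 0)) = (12 * cf (Dsc u v w) 4 0 *
        cf (Dsc u v w) 0 4 - 3 * cf (Dsc u v w) 3 1 * cf (Dsc u v w) 1 3 +
        cf (Dsc u v w) 2 2 ^ 2) / (4 * u 0) ^ 2 := by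
      simp only [J4, qd, Matrix.cons_val_zero, Matrix.cons_val_one, Matrix.cons_val]
      have := hD.u0
      field_simp
    rw [h6] at h5
    have h7 : 0 < ‖u 0‖ := norm_pos_iff.2 hD.u0
    refine h5.trans (le_of_eq ?_)
    rw [norm_div, norm_mul, norm_pow, norm_mul]
    have e2 : ‖(2 : ℂ)‖ = 2 := by simp
    have e4 : ‖(4 : ℂ)‖ = 4 := by simp
    rw [e2, e4]
    field_simp
    ring

end Crest.Agent.R257.EVi_929
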