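import Mathlib
import Crest.Agent.R276.Lq_464
import Crest.Agent.R257.OtKE_331

-- ▼ part R257/LcP1_980
section

/-!
Row 257 (S0395), leaf LC-POS (helper980), part 1: mean value inequality for `‖G‖ ^ q` on
anisotropic polydiscs `x + A (polydisc of radii ρ)`, `A` a fixed linear isomorphism, with the
constant independent of `ρ`.
-/

set_option autoImplicit false

open MeasureTheory Metric Set Filter Topology
open scoped ENNReal Real NNReal

noncomputable section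

namespace Crest.Agent.R257.LcP1_980

variable {n : ℕ}

/-- diagonal scaling -/
def dg (ρ : Fin n → ℝ) : (Fin n → ℂ) →ₗ[ℂ] (Fin n → ℂ) where
  toFun X := fun i => (ρ i : ℂ) * X i
  map_add' X Y := by ext i; simp [mul_add]
  map_smul' c X := by ext i; simp; ring

@[simp] theorem dg_apply (ρ : Fin n → ℝ) (X : Fin n → ℂ) (i : Fin n) :
    dg ρ X i = (ρ i : ℂ) * X i := rfl

theorem dg_inj {ρ : Fin n → ℝ} (hρ : ∀ i, 0 < ρ i) : Function.Injective (dg ρ) := by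
  intro X Y h
  ext i
  have := congrFun h i
  simp only [dg_apply] at this
  exact mul_left_cancel₀ (by exact_mod_cast (hρ i).ne') this

theorem dg_image {ρ : Fin n → ℝ} (hρ : ∀ i, 0 < ρ i) :
    dg ρ '' (ball (0 : Fin n → ℂ) 1) = Set.pi univ fun i => ball (0 : ℂ) (ρ i) := by
  ext Y
  constructor
  · rintro ⟨X, hX, rfl⟩
    intro i _
    have h1 : ‖X i‖ < 1 := (norm_le_pi_norm X i).trans_lt (by simpa using hX)
    simp only [dg_apply, mem_ball_zero_iff, norm_mul, Complex.norm_real, Real.norm_eq_abs,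
      abs_of_pos (hρ i)]
    exact mul_lt_of_lt_one_right (hρ i) h1
  · intro hY
    refine ⟨fun i => (ρ i : ℂ)⁻¹ * Y i, ?_, ?_⟩
    · rw [mem_ball_zero_iff, pi_norm_lt_iff one_pos]
      intro i
      have h1 : ‖Y i‖ < ρ i := by simpa using hY i (mem_univ i)
      rw [norm_mul, norm_inv, Complex.norm_real, Real.norm_eq_abs, abs_of_pos (hρ i),
        inv_mul_lt_one₀ (hρ i)]
      exact h1
    · ext i
      simp only [dg_apply]
      rw [← mul_assoc, mul_inv_cancel₀ (by exact_mod_cast (hρ i).ne'), one_mul]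

/-- a linear injective map scales the volume -/
theorem map_vol (L : (Fin n → ℂ) →ₗ[ℂ] (Fin n → ℂ)) (hL : Function.Injective L) :
    ∃ c : ℝ≥0, 0 < c ∧ Measure.map L volume = (c : ℝ≥0∞) • (volume : Measure (Fin n → ℂ)) := by
  have hdet : LinearMap.det (L.restrictScalars ℝ) ≠ 0 := by
    have h1 : Function.Injective (L.restrictScalars ℝ) := hL
    have h2 : IsUnit (L.restrictScalars ℝ) :=
      (LinearMap.isUnit_iff_ker_eq_bot _).2 (LinearMap.ker_eq_bot.2 h1)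
    exact (h2.map LinearMap.det).ne_zero
  refine ⟨Real.toNNReal |(LinearMap.det (L.restrictScalars ℝ))⁻¹|, ?_, ?_⟩
  · rw [Real.toNNReal_pos]
    exact abs_pos.2 (inv_ne_zero hdet)
  · have := Measure.map_linearMap_addHaar_eq_smul_addHaar
      (μ := (volume : Measure (Fin n → ℂ))) hdet
    rw [LinearMap.coe_restrictScalars] at this
    rw [this]; rfl

theorem isHomeo (L : (Fin n → ℂ) →ₗ[ℂ] (Fin n → ℂ)) (hL : Function.Injective L) :
    MeasurableEmbedding L := by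
  have h := (LinearEquiv.ofBijective L ⟨hL, LinearMap.injective_iff_surjective.1 hL⟩)
  have e : (Fin n → ℂ) ≃L[ℂ] (Fin n → ℂ) :=
    (LinearEquiv.ofBijective L ⟨hL, LinearMap.injective_iff_surjective.1 hL⟩).toContinuousLinearEquiv
  have h2 : MeasurableEmbedding
      ((LinearEquiv.ofBijective L
        ⟨hL, LinearMap.injective_iff_surjective.1 hL⟩).toContinuousLinearEquiv) :=
    (LinearEquiv.ofBijective L
      ⟨hL, LinearMap.injective_iff_surjective.1 hL⟩).toContinuousLinearEquiv.toHomeomorph.measurableEmbedding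
  exact h2

/-- the constant for the diagonal scaling -/
theorem map_dg {ρ : Fin n → ℝ} (hρ : ∀ i, 0 < ρ i) :
    Measure.map (dg ρ) volume =
      (∏ i, ENNReal.ofReal (ρ i ^ 2))⁻¹ • (volume : Measure (Fin n → ℂ)) := by
  obtain ⟨c, hc, h⟩ := map_vol (dg ρ) (dg_inj hρ)
  rw [h]
  congr 1
  have hme := isHomeo (dg ρ) (dg_inj hρ)
  have h1 : Measure.map (dg ρ) volume (dg ρ '' ball (0 : Fin n → ℂ) 1) =
      volume (ball (0 : Fin n → ℂ) 1) := by
    rw [hme.map_apply, preimage_image_eq _ (dg_inj hρ)]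
  rw [h, dg_image hρ, Measure.smul_apply, smul_eq_mul, volume_pi_pi, volume_pi_ball _ one_pos] at h1
  have h2 : ∀ i, volume (ball (0 : ℂ) (ρ i)) = ENNReal.ofReal (ρ i ^ 2) * volume (ball (0 : ℂ) 1) := by
    intro i
    rw [Complex.volume_ball, Complex.volume_ball, ENNReal.ofReal_pow (hρ i).le]
    simp
  have h3 : (∏ i : Fin n, volume (ball ((0 : Fin n → ℂ) i) 1)) = ∏ i : Fin n, volume (ball (0 : ℂ) 1) := rfl
  rw [Finset.prod_congr rfl fun i _ => h2 i, Finset.prod_mul_distrib, h3] at h1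
  set V := ∏ i : Fin n, volume (ball (0 : ℂ) 1) with hV
  have hV0 : V ≠ 0 := by
    rw [hV, Finset.prod_ne_zero_iff]
    intro i _
    exact (measure_ball_pos volume (0 : ℂ) one_pos).ne'
  have hVt : V ≠ ∞ := by
    rw [hV]
    exact ENNReal.prod_ne_top fun i _ => measure_ball_lt_top.ne
  set P := ∏ i, ENNReal.ofReal (ρ i ^ 2) with hP
  rw [← mul_assoc] at h1
  have h4 : (c : ℝ≥0∞) * P = 1 := by
    have := congrArg (· * V⁻¹) h1
    simpa [mul_assoc, ENNReal.mul_inv_cancel hV0 hVt] using this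
  exact ENNReal.eq_inv_of_mul_eq_one_left h4

/-- the anisotropic polydisc around `x` -/
def box (A : (Fin n → ℂ) →ₗ[ℂ] (Fin n → ℂ)) (x : Fin n → ℂ) (ρ : Fin n → ℝ) :
    Set (Fin n → ℂ) :=
  {y | ∃ X : Fin n → ℂ, (∀ i, ‖X i‖ < ρ i) ∧ y = x + A X}

theorem isOpen_box (A : (Fin n → ℂ) →ₗ[ℂ] (Fin n → ℂ)) (hA : Function.Injective A)
    (x : Fin n → ℂ) {ρ : Fin n → ℝ} (hρ : ∀ i, 0 < ρ i) : IsOpen (box A x ρ) := by
  set L : (Fin n → ℂ) →ₗ[ℂ] (Fin n → ℂ) := A.comp (dg ρ) with hLdef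
  have hLi : Function.Injective L := hA.comp (dg_inj hρ)
  have : box A x ρ = (fun y => x + y) '' (L '' ball (0 : Fin n → ℂ) 1) := by
    ext y
    constructor
    · intro hy
      obtain ⟨X, hX, rfl⟩ := hy
      have h4 : X ∈ dg ρ '' ball (0 : Fin n → ℂ) 1 := by
        rw [dg_image hρ]
        intro i _
        simpa using hX i
      obtain ⟨Z, hZ, rfl⟩ := h4
      exact ⟨L Z, ⟨Z, hZ, rfl⟩, rfl⟩
    · rintro ⟨_, ⟨Z, hZ, rfl⟩, rfl⟩
      refine ⟨dg ρ Z, ?_, rfl⟩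
      have h4 : dg ρ Z ∈ dg ρ '' ball (0 : Fin n → ℂ) 1 := ⟨Z, hZ, rfl⟩
      rw [dg_image hρ] at h4
      intro i
      simpa using h4 i (mem_univ i)
  rw [this]
  have hLo : IsOpenMap L :=
    LinearMap.isOpenMap_of_finiteDimensional L (LinearMap.injective_iff_surjective.1 hLi)
  exact (Homeomorph.addLeft x).isOpenMap _ (hLo _ isOpen_ball)

/-- MEAN VALUE INEQUALITY ON ANISOTROPIC POLYDISCS -/
theorem wsubmean (A : (Fin n → ℂ) →ₗ[ℂ] (Fin n → ℂ)) (hA : Function.Injective A) :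
    ∃ K : ℝ≥0, ∀ (D : Set (Fin n → ℂ)) (G : (Fin n → ℂ) → ℂ) (x : Fin n → ℂ) (ρ : Fin n → ℝ)
      (q : ℝ), IsOpen D → DifferentiableOn ℂ G D → (∀ i, 0 < ρ i) → 0 < q →
      (∀ X : Fin n → ℂ, (∀ i, ‖X i‖ ≤ ρ i) → x + A X ∈ D) →
      (∏ i, ENNReal.ofReal (ρ i ^ 2)) * ‖G x‖ₑ ^ q ≤
        K * ∫⁻ y in box A x ρ, ‖G y‖ₑ ^ q := by
  obtain ⟨c, hc, hmA⟩ := map_vol A hA
  set V := volume (ball (0 : Fin n → ℂ) 1) with hV
  have hV0 : V ≠ 0 := (measure_ball_pos volume (0 : Fin n → ℂ) one_pos).ne'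
  have hVt : V ≠ ∞ := measure_ball_lt_top.ne
  refine ⟨V.toNNReal⁻¹ * c, ?_⟩
  intro D G x ρ q hD hG hρ hq hsub
  set L : (Fin n → ℂ) →ₗ[ℂ] (Fin n → ℂ) := A.comp (dg ρ) with hLdef
  have hLi : Function.Injective L := hA.comp (dg_inj hρ)
  have hLc : Continuous L := LinearMap.continuous_of_finiteDimensional L
  have hAc : Continuous A := LinearMap.continuous_of_finiteDimensional A
  have hdc : Continuous (dg ρ) := LinearMap.continuous_of_finiteDimensional (dg ρ)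
  have hL : MeasurableEmbedding L := isHomeo L hLi
  set P := ∏ i, ENNReal.ofReal (ρ i ^ 2) with hP
  have hP0 : P ≠ 0 := by
    rw [hP, Finset.prod_ne_zero_iff]
    intro i _
    have := hρ i
    simp only [ne_eq, ENNReal.ofReal_eq_zero, not_le]
    positivity
  have hPt : P ≠ ∞ := by
    rw [hP]; exact ENNReal.prod_ne_top fun i _ => ENNReal.ofReal_ne_top
  have hmL : Measure.map L volume = (P⁻¹ * c) • (volume : Measure (Fin n → ℂ)) := by
    have h1 : Measure.map L volume = Measure.map A (Measure.map (dg ρ) volume) := by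
      rw [Measure.map_map hAc.measurable hdc.measurable]; rfl
    rw [h1, map_dg hρ, Measure.map_smul, hmA, smul_smul]
  -- the function on the unit polydisc
  set D' : Set (Fin n → ℂ) := {X | x + L X ∈ D} with hD'
  have hD'o : IsOpen D' := hD.preimage (by fun_prop)
  have hLd : Differentiable ℂ (fun X => x + L X) := by
    have := (LinearMap.toContinuousLinearMap L).differentiable
    exact (differentiable_const x).add this
  have hH : DifferentiableOn ℂ (fun X => G (x + L X)) D' :=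
    hG.comp hLd.differentiableOn (fun X hX => hX)
  have hcb : closedBall (0 : Fin n → ℂ) 1 ⊆ D' := by
    intro X hX
    have hX' : ‖X‖ ≤ 1 := by simpa using hX
    apply hsub (dg ρ X)
    intro i
    rw [dg_apply, norm_mul, Complex.norm_real, Real.norm_eq_abs, abs_of_pos (hρ i)]
    exact mul_le_of_le_one_right (hρ i).le ((norm_le_pi_norm X i).trans hX')
  have h1 := Crest.Agent.R276.Lq_464.submean hD'o hH hcb hq
  simp only [map_zero, add_zero] at h1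
  rw [← hV] at h1
  -- change of variables
  set S : Set (Fin n → ℂ) := box A x ρ with hS
  have hmemS : ∀ X, x + L X ∈ S ↔ X ∈ ball (0 : Fin n → ℂ) 1 := by
    intro X
    constructor
    · rintro ⟨Y, hY, hYX⟩
      have h2 : L X = A Y := add_left_cancel hYX
      have h3 : dg ρ X = Y := hA h2
      have h4 : Y ∈ dg ρ '' ball (0 : Fin n → ℂ) 1 := by
        rw [dg_image hρ]
        intro i _
        simpa using hY i
      obtain ⟨Z, hZ, hZY⟩ := h4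
      have : X = Z := dg_inj hρ (by rw [h3, hZY])
      rw [this]; exact hZ
    · intro hX
      refine ⟨dg ρ X, ?_, rfl⟩
      have h4 : dg ρ X ∈ dg ρ '' ball (0 : Fin n → ℂ) 1 := ⟨X, hX, rfl⟩
      rw [dg_image hρ] at h4
      intro i
      simpa using h4 i (mem_univ i)
  have hSo : IsOpen S := isOpen_box A hA x hρ
  have h2 : ∫⁻ X in ball (0 : Fin n → ℂ) 1, ‖G (x + L X)‖ₑ ^ q =
      ∫⁻ X, S.indicator (fun y => ‖G y‖ₑ ^ q) (x + L X) := by
    rw [← lintegral_indicator isOpen_ball.measurableSet]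
    apply lintegral_congr
    intro X
    by_cases hX : X ∈ ball (0 : Fin n → ℂ) 1
    · rw [indicator_of_mem hX, indicator_of_mem ((hmemS X).2 hX)]
    · rw [indicator_of_notMem hX, indicator_of_notMem (fun h => hX ((hmemS X).1 h))]
  have h3 : ∫⁻ X, S.indicator (fun y => ‖G y‖ₑ ^ q) (x + L X) =
      (P⁻¹ * c) * ∫⁻ y in S, ‖G y‖ₑ ^ q := by
    have h4 : ∫⁻ X, S.indicator (fun y => ‖G y‖ₑ ^ q) (x + L X) =
        ∫⁻ Y, S.indicator (fun y => ‖G y‖ₑ ^ q) (x + Y) ∂(Measure.map L volume) := by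
      rw [hL.lintegral_map]
    rw [h4, hmL, lintegral_smul_measure, lintegral_add_left_eq_self
      (fun y => S.indicator (fun y => ‖G y‖ₑ ^ q) y) x, lintegral_indicator hSo.measurableSet,
      smul_eq_mul]
  rw [h2, h3] at h1
  have hcoe : ((V.toNNReal⁻¹ * c : ℝ≥0) : ℝ≥0∞) = V⁻¹ * c := by
    rw [ENNReal.coe_mul, ENNReal.coe_inv, ENNReal.coe_toNNReal hVt]
    intro h
    rcases (ENNReal.toNNReal_eq_zero_iff V).1 h with h | h
    · exact hV0 h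
    · exact hVt h
  rw [hcoe]
  calc P * ‖G x‖ₑ ^ q = P * (V⁻¹ * (V * ‖G x‖ₑ ^ q)) := by
        rw [← mul_assoc V⁻¹, ENNReal.inv_mul_cancel hV0 hVt, one_mul]
    _ ≤ P * (V⁻¹ * ((P⁻¹ * c) * ∫⁻ y in S, ‖G y‖ₑ ^ q)) := by gcongr
    _ = (P * P⁻¹) * (V⁻¹ * c * ∫⁻ y in S, ‖G y‖ₑ ^ q) := by ring
    _ = V⁻¹ * c * ∫⁻ y in S, ‖G y‖ₑ ^ q := by rw [ENNReal.mul_inv_cancel hP0 hPt, one_mul]

end Crest.Agent.R257.LcP1_980
end
end

-- ▼ part R257/LcP2_980

/-!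
Row 257 (S0395), leaf LC-POS (helper980), part 2: growth of the functions of `J_p(f)` on
`V = {f = 0}` when `f` has weighted order `≥ 1` for weights of sum `< 1`
(from the Ohsawa-Takegoshi extension (D3) of helper331 at all scales `r`).
-/

set_option autoImplicit false

open MeasureTheory Metric Set Filter Topology
open scoped ENNReal Real NNReal

noncomputable section

namespace Crest.Agent.R257.LcP2_980

open Crest.Agent.R257.OtK_331 Crest.Agent.R257.LcP1_980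

variable {n : ℕ}

theorem growth (d : Dat n) (A : (Fin (n + 1) → ℂ) →ₗ[ℂ] (Fin (n + 1) → ℂ))
    (hA : Function.Injective A) (w : Fin (n + 1) → ℝ) {κ Kf s₀ : ℝ} (hκ : 0 < κ)
    (hbox : ∀ s : ℝ, 0 < s → s ≤ s₀ → ∀ X : Fin (n + 1) → ℂ, (∀ i, ‖X i‖ ≤ κ * s ^ w i) →
      A X ∈ Pd d.R ∧ ‖d.h (A X)‖ ≤ Kf * s)
    {q : ℝ} (hq0 : 0 < q) (hq1 : q ≤ 1)
    {G0 : (Fin (n + 1) → ℂ) → ℂ} (hG0 : DifferentiableOn ℂ G0 (Pd d.R))
    (hB : ∃ B, ∀ x ∈ Pd d.R, ‖G0 x‖ ≤ B)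
    (hS : Sh d (fun x => ENNReal.ofReal (‖G0 x‖ ^ (2 * q) * (‖d0 d.h x‖ ^ 2)⁻¹)) ≠ ∞) :
    ∃ C : ℝ, 0 ≤ C ∧ ∀ s : ℝ, 0 < s → s ≤ s₀ → ∀ X : Fin (n + 1) → ℂ,
      (∀ i, ‖X i‖ ≤ κ / 2 * s ^ w i) → d.h (A X) = 0 → d0 d.h (A X) ≠ 0 →
      ‖G0 (A X)‖ ^ (2 * q) ≤ C * s ^ (2 * (1 - ∑ i, w i)) := by
  obtain ⟨KA, hKA⟩ := wsubmean A hA
  set K : ℝ≥0∞ := Sh d (fun x => ENNReal.ofReal (‖G0 x‖ ^ (2 * q) * (‖d0 d.h x‖ ^ 2)⁻¹)) with hK
  set M : ℝ := (C0 + 1) * (K + 1).toReal with hM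
  have hC0 := C0_nonneg
  have hM0 : 0 ≤ M := by positivity
  refine ⟨KA * ((Kf ^ 2 + 1) ^ 2 * M) / (κ / 2) ^ (2 * (n + 1)), by positivity, ?_⟩
  intro s hs hs0 X hX hx0 hx1
  have hKt : K + 1 ≠ ∞ := ENNReal.add_ne_top.2 ⟨hS, ENNReal.one_ne_top⟩
  have hs2 : 0 < s ^ 2 := by positivity
  -- the extension at scale `s`
  have hlt : ENNReal.ofReal (C0 * (s ^ 2)⁻¹) * K < ENNReal.ofReal (M * (s ^ 2)⁻¹) := by
    have e1 : ENNReal.ofReal (M * (s ^ 2)⁻¹) =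
        ENNReal.ofReal ((C0 + 1) * (s ^ 2)⁻¹) * (K + 1) := by
      conv_rhs => rw [← ENNReal.ofReal_toReal hKt, ← ENNReal.ofReal_mul (by positivity)]
      congr 1
      rw [hM]; ring
    rw [e1]
    have e2 : ENNReal.ofReal (C0 * (s ^ 2)⁻¹) * K ≤ ENNReal.ofReal ((C0 + 1) * (s ^ 2)⁻¹) * K := by
      gcongr
      linarith
    refine e2.trans_lt ?_
    refine ENNReal.mul_lt_mul_right ?_ ENNReal.ofReal_ne_top ?_
    · simp only [ne_eq, ENNReal.ofReal_eq_zero, not_le]; positivity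
    · exact ENNReal.lt_add_right hS one_ne_zero
  obtain ⟨G, hG, hG1, hG2⟩ := d3 d hq0 hq1 hs hG0 hB hS le_rfl hlt
  have hκs : ∀ i, 0 < κ / 2 * s ^ w i := fun i => by positivity
  have hAX : A X ∈ Pd d.R := (hbox s hs hs0 X (fun i => (hX i).trans (by
    have : 0 < s ^ w i := by positivity
    nlinarith))).1
  have hxU : A X ∈ d.U := ⟨hAX, hx1⟩
  have hGx : G (A X) = G0 (A X) := hG1 _ hxU hx0
  have hin : ∀ Y : Fin (n + 1) → ℂ, (∀ i, ‖Y i‖ ≤ κ / 2 * s ^ w i) →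
      A X + A Y ∈ Pd d.R ∧ ‖d.h (A X + A Y)‖ ≤ Kf * s := by
    intro Y hY
    have : A X + A Y = A (X + Y) := (map_add A X Y).symm
    rw [this]
    apply hbox s hs hs0
    intro i
    calc ‖(X + Y) i‖ ≤ ‖X i‖ + ‖Y i‖ := norm_add_le _ _
      _ ≤ κ / 2 * s ^ w i + κ / 2 * s ^ w i := add_le_add (hX i) (hY i)
      _ = κ * s ^ w i := by ring
  have h1 := hKA (Pd d.R) G (A X) (fun i => κ / 2 * s ^ w i) (2 * q) (isOpen_Pd _) hG hκs
    (by positivity) (fun Y hY => (hin Y hY).1)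
  have hbm : MeasurableSet (box A (A X) fun i => κ / 2 * s ^ w i) :=
    (isOpen_box A hA (A X) hκs).measurableSet
  have hbs : (box A (A X) fun i => κ / 2 * s ^ w i) ⊆ Pd d.R := by
    rintro y ⟨Y, hY, rfl⟩
    exact (hin Y fun i => (hY i).le).1
  have h2 : ∫⁻ y in box A (A X) fun i => κ / 2 * s ^ w i, ‖G y‖ₑ ^ (2 * q) ≤
      ENNReal.ofReal ((Kf ^ 2 + 1) ^ 2 * M * s ^ 2) := by
    calc ∫⁻ y in box A (A X) fun i => κ / 2 * s ^ w i, ‖G y‖ₑ ^ (2 * q)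
        ≤ ∫⁻ y in box A (A X) fun i => κ / 2 * s ^ w i,
            ENNReal.ofReal ((Kf ^ 2 + 1) ^ 2 * s ^ 4) *
              ENNReal.ofReal (‖G y‖ ^ (2 * q) * ((‖d.h y‖ ^ 2 + s ^ 2) ^ 2)⁻¹) := by
          refine setLIntegral_mono' hbm ?_
          rintro y ⟨Y, hY, rfl⟩
          obtain ⟨_, hh⟩ := hin Y fun i => (hY i).le
          set y := A X + A Y with hy
          rw [← ofReal_norm, ENNReal.ofReal_rpow_of_nonneg (norm_nonneg _) (by positivity),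
            ← ENNReal.ofReal_mul (by positivity)]
          apply ENNReal.ofReal_le_ofReal
          have h3 : (‖d.h y‖ ^ 2 + s ^ 2) ^ 2 ≤ (Kf ^ 2 + 1) ^ 2 * s ^ 4 := by
            have h4 : ‖d.h y‖ ^ 2 + s ^ 2 ≤ (Kf ^ 2 + 1) * s ^ 2 := by
              have : ‖d.h y‖ ^ 2 ≤ (Kf * s) ^ 2 := by gcongr
              nlinarith
            calc (‖d.h y‖ ^ 2 + s ^ 2) ^ 2 ≤ ((Kf ^ 2 + 1) * s ^ 2) ^ 2 := by gcongr
              _ = (Kf ^ 2 + 1) ^ 2 * s ^ 4 := by ring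
          have h5 : 0 < (‖d.h y‖ ^ 2 + s ^ 2) ^ 2 := by positivity
          calc ‖G y‖ ^ (2 * q) = ‖G y‖ ^ (2 * q) * ((‖d.h y‖ ^ 2 + s ^ 2) ^ 2 *
                ((‖d.h y‖ ^ 2 + s ^ 2) ^ 2)⁻¹) := by
                rw [mul_inv_cancel₀ h5.ne', mul_one]
            _ ≤ ‖G y‖ ^ (2 * q) * (((Kf ^ 2 + 1) ^ 2 * s ^ 4) *
                ((‖d.h y‖ ^ 2 + s ^ 2) ^ 2)⁻¹) := by gcongr
            _ = _ := by ring
      _ = ENNReal.ofReal ((Kf ^ 2 + 1) ^ 2 * s ^ 4) *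
            ∫⁻ y in box A (A X) fun i => κ / 2 * s ^ w i,
              ENNReal.ofReal (‖G y‖ ^ (2 * q) * ((‖d.h y‖ ^ 2 + s ^ 2) ^ 2)⁻¹) := by
          rw [lintegral_const_mul' _ _ ENNReal.ofReal_ne_top]
      _ ≤ ENNReal.ofReal ((Kf ^ 2 + 1) ^ 2 * s ^ 4) * ENNReal.ofReal (M * (s ^ 2)⁻¹) := by
          gcongr
          exact (lintegral_mono_set hbs).trans hG2
      _ = ENNReal.ofReal ((Kf ^ 2 + 1) ^ 2 * M * s ^ 2) := by
          rw [← ENNReal.ofReal_mul (by positivity)]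
          congr 1
          field_simp
  have hprod : (∏ i : Fin (n + 1), ENNReal.ofReal ((κ / 2 * s ^ w i) ^ 2)) =
      ENNReal.ofReal ((κ / 2) ^ (2 * (n + 1)) * s ^ (2 * ∑ i, w i)) := by
    rw [← ENNReal.ofReal_prod_of_nonneg (fun i _ => by positivity)]
    congr 1
    rw [Finset.prod_pow, Finset.prod_mul_distrib, mul_pow]
    congr 1
    · rw [Finset.prod_const, Finset.card_univ, Fintype.card_fin, ← pow_mul, mul_comm]
    · rw [← Real.rpow_sum_of_pos hs, ← Real.rpow_natCast, ← Real.rpow_mul hs.le]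
      congr 1
      push_cast; ring
  rw [hprod, hGx, ← ofReal_norm, ENNReal.ofReal_rpow_of_nonneg (norm_nonneg _) (by positivity),
    ← ENNReal.ofReal_mul (by positivity)] at h1
  have h6 := h1.trans (mul_le_mul_right h2 (KA : ℝ≥0∞))
  rw [← ENNReal.ofReal_coe_nnreal, ← ENNReal.ofReal_mul (by positivity),
    ENNReal.ofReal_le_ofReal_iff (by positivity)] at h6
  have h7 : s ^ (2 * (1 - ∑ i, w i)) = s ^ 2 / s ^ (2 * ∑ i, w i) := by
    rw [mul_sub, Real.rpow_sub hs]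
    norm_num
  rw [h7]
  have h8 : 0 < s ^ (2 * ∑ i, w i) := by positivity
  have h9 : 0 < (κ / 2) ^ (2 * (n + 1)) := by positivity
  rw [div_mul_div_comm, le_div_iff₀ (by positivity)]
  calc ‖G0 (A X)‖ ^ (2 * q) * ((κ / 2) ^ (2 * (n + 1)) * s ^ (2 * ∑ i, w i))
      = (κ / 2) ^ (2 * (n + 1)) * s ^ (2 * ∑ i, w i) * ‖G0 (A X)‖ ^ (2 * q) := by ring
    _ ≤ KA * ((Kf ^ 2 + 1) ^ 2 * M * s ^ 2) := h6
    _ = KA * ((Kf ^ 2 + 1) ^ 2 * M) * s ^ 2 := by ring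

/-- the same in terms of the norm -/
theorem growth_norm (d : Dat n) (A : (Fin (n + 1) → ℂ) →ₗ[ℂ] (Fin (n + 1) → ℂ))
    (hA : Function.Injective A) (w : Fin (n + 1) → ℝ) {κ Kf s₀ W : ℝ} (hκ : 0 < κ) (hs₀ : 0 < s₀)
    (hW : 0 < W) (hwW : ∀ i, w i ≤ W)
    (hbox : ∀ s : ℝ, 0 < s → s ≤ s₀ → ∀ X : Fin (n + 1) → ℂ, (∀ i, ‖X i‖ ≤ κ * s ^ w i) →
      A X ∈ Pd d.R ∧ ‖d.h (A X)‖ ≤ Kf * s)
    {q : ℝ} (hq0 : 0 < q) (hq1 : q ≤ 1)
    {G0 : (Fin (n + 1) → ℂ) → ℂ} (hG0 : DifferentiableOn ℂ G0 (Pd d.R))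
    (hB : ∃ B, ∀ x ∈ Pd d.R, ‖G0 x‖ ≤ B)
    (hS : Sh d (fun x => ENNReal.ofReal (‖G0 x‖ ^ (2 * q) * (‖d0 d.h x‖ ^ 2)⁻¹)) ≠ ∞) :
    ∃ C : ℝ, 0 ≤ C ∧ ∀ᶠ x in 𝓝 (0 : Fin (n + 1) → ℂ), x ≠ 0 → d.h x = 0 → d0 d.h x ≠ 0 →
      ‖G0 x‖ ≤ C * ‖x‖ ^ ((1 - ∑ i, w i) / (q * W)) := by
  obtain ⟨C, hC, hmain⟩ := growth d A hA w hκ hbox hq0 hq1 hG0 hB hS
  have hsurj : Function.Surjective A := LinearMap.injective_iff_surjective.1 hA
  set e : (Fin (n + 1) → ℂ) ≃ₗ[ℂ] (Fin (n + 1) → ℂ) := LinearEquiv.ofBijective A ⟨hA, hsurj⟩ with he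
  set L : (Fin (n + 1) → ℂ) →L[ℂ] (Fin (n + 1) → ℂ) :=
    LinearMap.toContinuousLinearMap (e.symm : (Fin (n + 1) → ℂ) →ₗ[ℂ] (Fin (n + 1) → ℂ)) with hL
  set c : ℝ := ‖L‖ + 1 with hc
  have hc0 : 0 < c := by positivity
  have hLb : ∀ x, ‖e.symm x‖ ≤ c * ‖x‖ := by
    intro x
    calc ‖e.symm x‖ = ‖L x‖ := rfl
      _ ≤ ‖L‖ * ‖x‖ := L.le_opNorm x
      _ ≤ c * ‖x‖ := by gcongr; rw [hc]; linarith
  set m : ℝ := min s₀ 1 with hm
  have hm0 : 0 < m := lt_min hs₀ one_pos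
  refine ⟨C ^ (2 * q)⁻¹ * (2 * c / κ) ^ ((1 - ∑ i, w i) / (q * W)), by positivity, ?_⟩
  have hsmall : ∀ᶠ x in 𝓝 (0 : Fin (n + 1) → ℂ), 2 * c / κ * ‖x‖ < m ^ W := by
    have : Tendsto (fun x : Fin (n + 1) → ℂ => 2 * c / κ * ‖x‖) (𝓝 0) (𝓝 (2 * c / κ * ‖(0 : Fin (n + 1) → ℂ)‖)) :=
      (continuous_const.mul continuous_norm).tendsto _
    rw [norm_zero, mul_zero] at this
    exact this.eventually (gt_mem_nhds (by positivity))
  filter_upwards [hsmall] with x hx hxn hx0 hx1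
  have hxp : 0 < ‖x‖ := norm_pos_iff.2 hxn
  set s : ℝ := (2 * c / κ * ‖x‖) ^ W⁻¹ with hs
  have hs0 : 0 < s := by positivity
  have hsW : s ^ W = 2 * c / κ * ‖x‖ := by
    rw [hs, ← Real.rpow_mul (by positivity), inv_mul_cancel₀ hW.ne', Real.rpow_one]
  have hsm : s ≤ m := by
    have : s ^ W ≤ m ^ W := by rw [hsW]; exact hx.le
    exact (Real.rpow_le_rpow_iff hs0.le hm0.le hW).1 this
  have hs1 : s ≤ 1 := hsm.trans (min_le_right _ _)
  have hAx : A (e.symm x) = x := e.apply_symm_apply x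
  have h1 := hmain s hs0 (hsm.trans (min_le_left _ _)) (e.symm x) (by
    intro i
    calc ‖e.symm x i‖ ≤ ‖e.symm x‖ := norm_le_pi_norm _ i
      _ ≤ c * ‖x‖ := hLb x
      _ = κ / 2 * s ^ W := by rw [hsW]; field_simp
      _ ≤ κ / 2 * s ^ w i := by
        apply mul_le_mul_of_nonneg_left _ (by positivity)
        exact Real.rpow_le_rpow_of_exponent_ge hs0 hs1 (hwW i)) (by rw [hAx]; exact hx0)
    (by rw [hAx]; exact hx1)
  rw [hAx] at h1
  have h2q : 0 < 2 * q := by positivity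
  have h2 : ‖G0 x‖ = (‖G0 x‖ ^ (2 * q)) ^ (2 * q)⁻¹ := by
    rw [← Real.rpow_mul (norm_nonneg _), mul_inv_cancel₀ h2q.ne', Real.rpow_one]
  rw [h2]
  calc (‖G0 x‖ ^ (2 * q)) ^ (2 * q)⁻¹ ≤ (C * s ^ (2 * (1 - ∑ i, w i))) ^ (2 * q)⁻¹ := by
        gcongr
    _ = C ^ (2 * q)⁻¹ * (2 * c / κ * ‖x‖) ^ ((1 - ∑ i, w i) / (q * W)) := by
        rw [Real.mul_rpow hC (by positivity), hs, ← Real.rpow_mul (by positivity),
          ← Real.rpow_mul (by positivity)]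
        congr 2
        field_simp
    _ = C ^ (2 * q)⁻¹ * (2 * c / κ) ^ ((1 - ∑ i, w i) / (q * W)) *
          ‖x‖ ^ ((1 - ∑ i, w i) / (q * W)) := by
        rw [Real.mul_rpow (by positivity) (norm_nonneg _), mul_assoc]

end Crest.Agent.R257.LcP2_980
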