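import Crest.Agent.R257.UI5_939

-- ▼ part R257/UI6_939
section

/-!
Row 257 (S0395), leaf CNF (helper939): semicontinuity of the multiplicity, and the uniform
inclusion / conservation of number from a FREQUENT lower bound for the multiplicity.
-/

set_option autoImplicit false
set_option linter.unusedSectionVars false

open Set Filter Topology Metric Complex
open Crest.Agent.R275.Loc2879

noncomputable section

namespace Crest.Agent.R257.UI939

universe u v w

variable {n : ℕ}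

section Alg

variable {A : Type v} [CommRing A] [IsLocalRing A] [Algebra ℂ A]

open Polynomial in
/-- a nonunit annihilated by a nonzero polynomial modulo `I` is nilpotent modulo `I` -/
lemma pow_mem_of_aeval (x : A) (hx : ¬ IsUnit x) (I : Ideal A) : ∀ (m j : ℕ) (P : ℂ[X]), P ≠ 0 →
    P.natDegree + j ≤ m → x ^ j * aeval x P ∈ I → x ^ m ∈ I := by
  intro m j P
  induction hd : P.natDegree using Nat.strong_induction_on generalizing P j with
  | _ d ih =>
  intro hP hdeg hmem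
  by_cases h0 : P.coeff 0 = 0
  · have hPX : P = X * P.divX := by
      conv_lhs => rw [← Polynomial.divX_mul_X_add P, h0, map_zero, add_zero, mul_comm]
    have hne : P.divX ≠ 0 := by
      intro h; rw [h, mul_zero] at hPX; exact hP hPX
    have hdeg' : P.natDegree = P.divX.natDegree + 1 := by
      conv_lhs => rw [hPX]
      rw [Polynomial.natDegree_X_mul hne]
    refine ih P.divX.natDegree (by omega) (j + 1) P.divX rfl hne (by omega) ?_
    rw [hPX, map_mul, aeval_X, ← mul_assoc, ← pow_succ] at hmem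
    exact hmem
  · have hu : IsUnit (aeval x P) := by
      rw [← Polynomial.divX_mul_X_add P, map_add, map_mul, aeval_X, aeval_C]
      by_contra hcon
      have h1 : ¬ IsUnit (aeval x P.divX * x) := fun h => hx (isUnit_of_mul_isUnit_right h)
      have h2 : IsUnit (algebraMap ℂ A (P.coeff 0)) := (IsUnit.mk0 _ h0).map _
      have h3 : algebraMap ℂ A (P.coeff 0) =
          (aeval x P.divX * x + algebraMap ℂ A (P.coeff 0)) + (-(aeval x P.divX * x)) := by ring
      rw [h3] at h2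
      refine IsLocalRing.nonunits_add hcon ?_ h2
      rw [mem_nonunits_iff, IsUnit.neg_iff]
      exact h1
    have h1 : x ^ j ∈ I := by
      obtain ⟨u, hu⟩ := hu
      rw [← hu] at hmem
      have := I.mul_mem_right (↑u⁻¹ : A) hmem
      rwa [mul_assoc, Units.mul_inv, mul_one] at this
    have h2 : m = j + (m - j) := by omega
    rw [h2, pow_add]
    exact I.mul_mem_right _ h1

/-- finitely many relations bound the multiplicity -/
theorem span_of_rel (x : Fin n → A) (hx : ∀ i, ¬ IsUnit (x i))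
    (had : ∀ a : A, ∃ (c : ℂ) (y : Fin n → A), a = algebraMap ℂ A c + ∑ i, y i * x i)
    (I : Ideal A) {N : ℕ} (e : Fin N → A)
    (hrel : ∀ β : Fin n → ℕ, ∑ i, β i ≤ n * N → ∃ c : Fin N → ℂ,
      mon x β - ∑ i, algebraMap ℂ A (c i) * e i ∈ I) :
    ⊤ ≤ Submodule.span ℂ (Set.range fun i => (Ideal.Quotient.mkₐ ℂ I).toLinearMap (e i)) := by
  classical
  let π : A →ₗ[ℂ] (A ⧸ I) := (Ideal.Quotient.mkₐ ℂ I).toLinearMap
  have hπ : ∀ a, π a = 0 ↔ a ∈ I := fun a => Ideal.Quotient.eq_zero_iff_mem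
  have hrel' : ∀ β : Fin n → ℕ, ∑ i, β i ≤ n * N → ∃ c : Fin N → ℂ,
      π (mon x β) = ∑ i, c i • π (e i) := by
    intro β hβ
    obtain ⟨c, hc⟩ := hrel β hβ
    refine ⟨c, ?_⟩
    rw [← hπ, map_sub, sub_eq_zero] at hc
    rw [hc, map_sum]
    refine Finset.sum_congr rfl fun i _ => ?_
    rw [← Algebra.smul_def, map_smul]
  -- powers of the coordinates
  have hpow : ∀ i : Fin n, x i ^ N ∈ I := by
    intro i
    have hn : 0 < n := Fin.pos i
    have hc1 : ∀ k : Fin (N + 1), ∃ c : Fin N → ℂ, π (x i ^ (k : ℕ)) = ∑ j, c j • π (e j) := by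
      intro k
      have h1 : mon x (Pi.single i (k : ℕ)) = x i ^ (k : ℕ) := by
        unfold mon
        rw [Finset.prod_eq_single i]
        · simp
        · intro j _ hj
          simp [Pi.single_eq_of_ne hj]
        · intro h; exact absurd (Finset.mem_univ _) h
      have h2 : ∑ j, (Pi.single i (k : ℕ) : Fin n → ℕ) j ≤ n * N := by
        simp only [Finset.sum_pi_single', Finset.mem_univ, if_true]
        have := k.2
        nlinarith
      obtain ⟨c, hc⟩ := hrel' _ h2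
      exact ⟨c, by rw [← h1]; exact hc⟩
    choose c hc using hc1
    have hdep : ¬ LinearIndependent ℂ c := by
      intro h
      have := h.fintype_card_le_finrank
      simp at this
    rw [Fintype.not_linearIndependent_iff] at hdep
    obtain ⟨g, hg, k0, hk0⟩ := hdep
    let P : Polynomial ℂ := ∑ k : Fin (N + 1), Polynomial.C (g k) * Polynomial.X ^ (k : ℕ)
    have hPc : ∀ k : Fin (N + 1), P.coeff (k : ℕ) = g k := by
      intro k
      simp only [P, Polynomial.finsetSum_coeff, Polynomial.coeff_C_mul, Polynomial.coeff_X_pow]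
      rw [Finset.sum_eq_single k]
      · simp
      · intro j _ hj
        have : (k : ℕ) ≠ (j : ℕ) := fun h => hj (Fin.ext h.symm)
        simp [this]
      · intro h; exact absurd (Finset.mem_univ _) h
    have hP0 : P ≠ 0 := by
      intro h
      apply hk0
      rw [← hPc k0, h, Polynomial.coeff_zero]
    have hPd : P.natDegree ≤ N := by
      refine Polynomial.natDegree_sum_le_of_forall_le _ _ fun k _ => ?_
      exact (Polynomial.natDegree_C_mul_X_pow_le _ _).trans (Nat.lt_succ_iff.1 k.2)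
    refine pow_mem_of_aeval (x i) (hx i) I N 0 P hP0 (by omega) ?_
    rw [pow_zero, one_mul, ← hπ]
    simp only [P, map_sum, map_mul, Polynomial.aeval_C, Polynomial.aeval_X, map_pow]
    have h5 : ∀ k : Fin (N + 1), π (algebraMap ℂ A (g k) * x i ^ (k : ℕ)) =
        ∑ j, (g k * c k j) • π (e j) := by
      intro k
      rw [← Algebra.smul_def, map_smul, hc k, Finset.smul_sum]
      simp only [smul_smul]
    simp only [h5]
    rw [Finset.sum_comm]
    refine Finset.sum_eq_zero fun j _ => ?_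
    rw [← Finset.sum_smul]
    have h6 := congrFun hg j
    simp only [Finset.sum_apply, Pi.smul_apply, smul_eq_mul, Pi.zero_apply] at h6
    rw [h6, zero_smul]
  have hJ : JJ x (n * N + 1) ≤ I := by
    refine Ideal.span_le.2 ?_
    rintro a ⟨β, h1, rfl⟩
    obtain ⟨i, hi⟩ : ∃ i, N ≤ β i := by
      by_contra hcon
      push Not at hcon
      have h2 : ∑ i, β i ≤ ∑ _i : Fin n, N := Finset.sum_le_sum fun i _ => (hcon i).le
      rw [Finset.sum_const, Finset.card_univ, Fintype.card_fin, smul_eq_mul] at h2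
      omega
    have h2 : mon x β = x i ^ β i * ∏ j ∈ Finset.univ.erase i, x j ^ β j :=
      (Finset.mul_prod_erase _ (fun j => x j ^ β j) (Finset.mem_univ i)).symm
    rw [h2]
    refine I.mul_mem_right _ ?_
    have h3 : β i = N + (β i - N) := by omega
    rw [h3, pow_add]
    exact I.mul_mem_right _ (hpow i)
  intro q hq
  clear hq
  obtain ⟨a, rfl⟩ := Ideal.Quotient.mk_surjective q
  change π a ∈ _
  obtain ⟨v, hv, w, hw, rfl⟩ := Submodule.mem_sup.1 (mem_VV_sup x had (n * N + 1) a)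
  have hw0 : π w = 0 := (hπ w).2 (hJ hw)
  rw [map_add, hw0, add_zero]
  clear hw hw0
  unfold VV at hv
  induction hv using Submodule.span_induction with
  | mem z hz =>
    obtain ⟨β, h1, rfl⟩ := hz
    obtain ⟨c, hc⟩ := hrel' β (by omega)
    rw [hc]
    exact Submodule.sum_mem _ fun i _ =>
      Submodule.smul_mem _ _ (Submodule.subset_span ⟨i, rfl⟩)
  | zero => rw [map_zero]; exact Submodule.zero_mem _
  | add y z _ _ h1 h2 => rw [map_add]; exact Submodule.add_mem _ h1 h2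
  | smul s z _ hz => rw [map_smul]; exact Submodule.smul_mem _ _ hz

theorem finite_of_span {I : Ideal A} {N : ℕ} {e : Fin N → A}
    (h : ⊤ ≤ Submodule.span ℂ
      (Set.range fun i => (Ideal.Quotient.mkₐ ℂ I).toLinearMap (e i))) :
    Module.Finite ℂ (A ⧸ I) ∧ Module.finrank ℂ (A ⧸ I) ≤ N := by
  classical
  have h1 : Submodule.span ℂ
      (Set.range fun i => (Ideal.Quotient.mkₐ ℂ I).toLinearMap (e i)) = ⊤ := top_le_iff.1 h
  refine ⟨⟨?_⟩, ?_⟩
  · rw [← h1]
    exact Submodule.fg_span (Set.finite_range _)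
  · have h2 := finrank_range_le_card (R := ℂ)
      (b := fun i => (Ideal.Quotient.mkₐ ℂ I).toLinearMap (e i))
    rw [Set.finrank, h1, finrank_top, Fintype.card_fin] at h2
    exact h2

end Alg

end Crest.Agent.R257.UI939
end
end

-- ▼ part R257/UI7_939
section

/-!
Row 257 (S0395), leaf CNF (helper939), part 2: data at `t = 0`, semicontinuity, uniform inclusion
from a frequent lower bound.
-/

set_option autoImplicit false
set_option linter.unusedSectionVars false

open Set Filter Topology Metric Complex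
open Crest.Agent.R275.Loc2879

noncomputable section

namespace Crest.Agent.R257.UI939

universe u v w

variable {n : ℕ} {κ : Type*} [Fintype κ]

lemma an_slice {f : (Fin n → ℂ) × ℂ → ℂ} {t : ℂ} (hf : AnalyticAt ℂ f (0, t)) :
    AnalyticAt ℂ (fun x => f (x, t)) (0 : Fin n → ℂ) :=
  AnalyticAt.comp (g := f) (f := fun x : Fin n → ℂ => (x, t)) hf
      (analyticAt_id.prod analyticAt_const)

lemma tendsto_0t : Tendsto (fun t : ℂ => ((0, t) : (Fin n → ℂ) × ℂ)) (𝓝 0) (𝓝 0) := by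
  have : Continuous (fun t : ℂ => ((0, t) : (Fin n → ℂ) × ℂ)) := by fun_prop
  exact this.tendsto' _ _ rfl

/-- the quotient of the slice at `t` -/
abbrev QQ (G : κ → (Fin n → ℂ) × ℂ → ℂ) (t : ℂ) : Type :=
  BB n ⧸ Idl (0 : Fin n → ℂ) (fun j x => G j (x, t))

set_option maxHeartbeats 4000000 in
set_option synthInstance.maxHeartbeats 200000 in
/-- DATA: lifts of a basis at `t = 0` generate over the germs in the parameter -/
theorem exists_data (G : κ → (Fin n → ℂ) × ℂ → ℂ) (hG : ∀ j, AnalyticAt ℂ (G j) 0) (μ : ℕ)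
    (hf0 : Module.Finite ℂ (QQ G 0)) (hd0 : Module.finrank ℂ (QQ G 0) = μ) :
    ∃ Ef : Fin μ → (Fin n → ℂ) → ℂ, (∀ i, AnalyticAt ℂ (Ef i) 0) ∧
      ∀ f : (Fin n → ℂ) × ℂ → ℂ, AnalyticAt ℂ f 0 →
      ∃ (c : Fin μ → ℂ → ℂ) (b : κ → (Fin n → ℂ) × ℂ → ℂ),
      (∀ i, AnalyticAt ℂ (c i) 0) ∧ (∀ j, AnalyticAt ℂ (b j) 0) ∧
      ∀ᶠ p in 𝓝 (0 : (Fin n → ℂ) × ℂ),
        f p = ∑ i, c i p.2 * Ef i p.1 + ∑ j, b j p * G j p := by
  classical
  set I0 : Ideal (BB n) := Idl (0 : Fin n → ℂ) (fun j x => G j (x, 0)) with hI0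
  have hfree : Module.Free ℂ (BB n ⧸ I0) := Module.Free.of_divisionRing _ _
  let bas : Module.Basis (Fin μ) ℂ (BB n ⧸ I0) := Module.finBasisOfFinrankEq _ _ hd0
  choose e he using fun i => Ideal.Quotient.mk_surjective (I := I0) (bas i)
  choose Ef hEf hEe using fun i => exists_gm (e i)
  set I : Ideal (AA n) := Ideal.span (Set.range fun j => gm (G j) (hG j)) with hI
  have hGI : ∀ j, gm (G j) (hG j) ∈ I := fun j => Ideal.subset_span ⟨j, rfl⟩
  have hres : ∀ j, res0 n (gm (G j) (hG j)) = gm (fun x => G j (x, 0)) (an_slice (hG j)) :=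
    fun j => rfl
  have hI0I : ∀ a ∈ I0, ∃ a1 : AA n, emb n a + Tv n * a1 ∈ I := by
    intro a ha
    rw [hI0, mem_Idl (fun j => an_slice (hG j))] at ha
    obtain ⟨c, hc⟩ := ha
    choose H hH using fun j => split_T' (gm (G j) (hG j))
    refine ⟨∑ j, emb n (c j) * H j, ?_⟩
    have : emb n a + Tv n * ∑ j, emb n (c j) * H j = ∑ j, emb n (c j) * gm (G j) (hG j) := by
      rw [hc, map_sum, Finset.mul_sum, ← Finset.sum_add_distrib]
      refine Finset.sum_congr rfl (fun j _ => ?_)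
      conv_rhs => rw [hH j, hres j]
      rw [map_mul]
      ring
    rw [this]
    exact Ideal.sum_mem _ fun j _ => Ideal.mul_mem_left _ _ (hGI j)
  have hJ0 : JJ (xB (n := n)) μ ≤ I0 := by
    have := JJ_le_of_finrank (xB (n := n)) xB_not_unit I0
    rwa [hd0] at this
  have hfin1 : FG (RingHom.id (AA n)) (AA n ⧸ I) := by
    refine ⟨1, fun _ => 1, fun m => ?_⟩
    obtain ⟨a, rfl⟩ := Ideal.Quotient.mk_surjective m
    refine ⟨fun _ => a, ?_⟩
    simp only [RingHom.id_apply, Finset.univ_unique, Finset.sum_singleton]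
    rw [← map_one (Ideal.Quotient.mk I)]
    change _ = Ideal.Quotient.mk I (a • (1 : AA n))
    rw [smul_eq_mul, mul_one]
  have hfin2 : FG (par n) (AA n ⧸ I) := by
    refine fin_all hfin1 (fun i => ⟨μ, fun m => ?_⟩)
    obtain ⟨a, rfl⟩ := Ideal.Quotient.mk_surjective m
    have h1 : xB i ^ μ ∈ I0 := by
      refine hJ0 (Ideal.subset_span ⟨Pi.single i μ, by simp, ?_⟩)
      unfold mon
      rw [Finset.prod_eq_single i]
      · simp
      · intro j _ hj
        simp [Pi.single_eq_of_ne hj]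
      · intro h; exact absurd (Finset.mem_univ _) h
    obtain ⟨a1, ha1⟩ := hI0I _ h1
    rw [map_pow, emb_xB] at ha1
    refine ⟨Ideal.Quotient.mk I (-(a1 * a)), ?_⟩
    change Ideal.Quotient.mk I (Xv i ^ μ • a) = Ideal.Quotient.mk I (Tv n • (-(a1 * a)))
    rw [Ideal.Quotient.eq, smul_eq_mul, smul_eq_mul]
    have : Xv i ^ μ * a - Tv n * (-(a1 * a)) = a * (Xv i ^ μ + Tv n * a1) := by ring
    rw [this]
    exact Ideal.mul_mem_left _ _ ha1
  have hgen : ∀ a : AA n, ∃ c : Fin μ → OO (0 : ℂ),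
      a - ∑ i, par n (c i) * emb n (e i) ∈ I := by
    have := nak hfin2 (fun i => Ideal.Quotient.mk I (emb n (e i))) ?_
    · intro a
      obtain ⟨c, hc⟩ := this (Ideal.Quotient.mk I a)
      refine ⟨c, ?_⟩
      rw [← Ideal.Quotient.eq, hc, map_sum]
      rfl
    · intro m
      obtain ⟨a, rfl⟩ := Ideal.Quotient.mk_surjective m
      obtain ⟨a0, a1, rfl⟩ := split_T a
      have h1 : a0 - ∑ i, algebraMap ℂ (BB n) (bas.repr (Ideal.Quotient.mk I0 a0) i) * e i ∈ I0 := by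
        rw [← Ideal.Quotient.eq, map_sum]
        conv_lhs => rw [← bas.sum_repr (Ideal.Quotient.mk I0 a0)]
        refine Finset.sum_congr rfl (fun i _ => ?_)
        rw [map_mul, he i, Algebra.smul_def]
        rfl
      obtain ⟨a2, ha2⟩ := hI0I _ h1
      refine ⟨fun i => bas.repr (Ideal.Quotient.mk I0 a0) i, Ideal.Quotient.mk I (a1 - a2), ?_⟩
      have e1 : ∑ i, algebraMap ℂ (AA n) (bas.repr (Ideal.Quotient.mk I0 a0) i) •
          Ideal.Quotient.mk I (emb n (e i)) + Tv n • Ideal.Quotient.mk I (a1 - a2) =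
          Ideal.Quotient.mk I (∑ i, algebraMap ℂ (AA n) (bas.repr (Ideal.Quotient.mk I0 a0) i) *
          emb n (e i) + Tv n * (a1 - a2)) := by
        rw [map_add, map_sum]
        rfl
      rw [e1, Ideal.Quotient.eq]
      rw [map_sub, map_sum] at ha2
      simp only [map_mul, emb_algebraMap] at ha2
      have e2 : emb n a0 + Tv n * a1 - (∑ i, algebraMap ℂ (AA n)
          (bas.repr (Ideal.Quotient.mk I0 a0) i) * emb n (e i) + Tv n * (a1 - a2)) =
          emb n a0 - ∑ i, algebraMap ℂ (AA n) (bas.repr (Ideal.Quotient.mk I0 a0) i) *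
            emb n (e i) + Tv n * a2 := by ring
      rw [e2]
      exact ha2
  refine ⟨Ef, hEf, fun f hf => ?_⟩
  obtain ⟨c, hc⟩ := hgen (gm f hf)
  rw [hI, Ideal.mem_span_range_iff_exists_fun] at hc
  obtain ⟨b, hb⟩ := hc
  choose cf hcf hce using fun i => exists_gm (c i)
  choose bf hbf hbe using fun j => exists_gm (b j)
  obtain rfl : (fun i => gm (cf i) (hcf i)) = c := funext hce
  obtain rfl : (fun j => gm (bf j) (hbf j)) = b := funext hbe
  obtain rfl : (fun i => gm (Ef i) (hEf i)) = e := funext hEe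
  refine ⟨cf, bf, hcf, hbf, ?_⟩
  obtain ⟨h1, e1⟩ := exists_sum_gm' Finset.univ bf G hbf hG
  obtain ⟨h2, e2⟩ := exists_sum_gm' Finset.univ (fun i (p : (Fin n → ℂ) × ℂ) => cf i p.2)
    (fun i (p : (Fin n → ℂ) × ℂ) => Ef i p.1) (p := 0)
    (fun i => AnalyticAt.comp (g := cf i) (f := Prod.snd) (hcf i) analyticAt_snd)
    (fun i => AnalyticAt.comp (g := Ef i) (f := Prod.fst) (hEf i) analyticAt_fst)
  have e4 : gm f hf = ∑ i, par n (gm (cf i) (hcf i)) * emb n (gm (Ef i) (hEf i)) +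
      ∑ j, gm (bf j) (hbf j) * gm (G j) (hG j) := by
    rw [hb]; ring
  have e6 : ∑ i, par n (gm (cf i) (hcf i)) * emb n (gm (Ef i) (hEf i)) =
      gm (fun x => ∑ i, cf i x.2 * Ef i x.1) h2 := e2
  rw [e6, e1, gm_add, gm_eq_gm] at e4
  exact e4

/-- slices of a relation -/
theorem slice_rel (G : κ → (Fin n → ℂ) × ℂ → ℂ) (hG : ∀ j, AnalyticAt ℂ (G j) 0) {μ : ℕ}
    {Ef : Fin μ → (Fin n → ℂ) → ℂ} (hEf : ∀ i, AnalyticAt ℂ (Ef i) 0)
    {f : (Fin n → ℂ) × ℂ → ℂ} (hf : AnalyticAt ℂ f 0)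
    {c : Fin μ → ℂ → ℂ} {b : κ → (Fin n → ℂ) × ℂ → ℂ}
    (hb : ∀ j, AnalyticAt ℂ (b j) 0)
    (hid : ∀ᶠ p in 𝓝 (0 : (Fin n → ℂ) × ℂ),
        f p = ∑ i, c i p.2 * Ef i p.1 + ∑ j, b j p * G j p) :
    ∀ᶠ t in 𝓝 (0 : ℂ), (gz (fun x => f (x, t)) : BB n) -
      ∑ i, algebraMap ℂ (BB n) (c i t) * gm (Ef i) (hEf i) ∈
        Idl (0 : Fin n → ℂ) (fun j x => G j (x, t)) := by
  have h1 : ∀ᶠ t in 𝓝 (0 : ℂ), AnalyticAt ℂ f (0, t) :=
    tendsto_0t.eventually hf.eventually_analyticAt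
  have h2 : ∀ᶠ t in 𝓝 (0 : ℂ), ∀ j, AnalyticAt ℂ (b j) (0, t) :=
    tendsto_0t.eventually (Filter.eventually_all.2 fun j => (hb j).eventually_analyticAt)
  have h3 : ∀ᶠ t in 𝓝 (0 : ℂ), ∀ j, AnalyticAt ℂ (G j) (0, t) :=
    tendsto_0t.eventually (Filter.eventually_all.2 fun j => (hG j).eventually_analyticAt)
  have h4 := tendsto_0t.eventually (eventually_eventually_nhds.2 hid)
  filter_upwards [h1, h2, h3, h4] with t k1 k2 k3 k4
  have k5 : Tendsto (fun x : Fin n → ℂ => ((x, t) : (Fin n → ℂ) × ℂ)) (𝓝 0) (𝓝 (0, t)) := by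
    have : Continuous (fun x : Fin n → ℂ => ((x, t) : (Fin n → ℂ) × ℂ)) := by fun_prop
    exact this.tendsto' _ _ rfl
  have k6 := k5.eventually k4
  rw [gz_eq (an_slice k1), mem_Idl (fun j => an_slice (k3 j))]
  refine ⟨fun j => gm (fun x => b j (x, t)) (an_slice (k2 j)), ?_⟩
  obtain ⟨h5, e5⟩ := exists_sum_gm' (p := (0 : Fin n → ℂ)) Finset.univ
    (fun j x => b j (x, t)) (fun j x => G j (x, t)) (fun j => an_slice (k2 j))
    (fun j => an_slice (k3 j))
  obtain ⟨h6, e6⟩ := exists_sum_gm' (p := (0 : Fin n → ℂ)) Finset.univ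
    (fun i _ => c i t) Ef (fun i => analyticAt_const) hEf
  have e9 : ∑ i, algebraMap ℂ (BB n) (c i t) * gm (Ef i) (hEf i) =
    gm (fun x => ∑ i, c i t * Ef i x) h6 := e6
  rw [e5, e9, gm_sub, gm_eq_gm]
  filter_upwards [k6] with x hx
  simp only [Pi.sub_apply]
  rw [hx]
  ring

lemma gz_mon (β : Fin n → ℕ) :
    (gz (fun x : Fin n → ℂ => ∏ i, x i ^ β i) : BB n) = mon xB β := by
  obtain ⟨h7, e7⟩ := gm_mon (p := (0 : Fin n → ℂ)) (fun i x => x i) (fun i => an_coord i 0) β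
  rw [gz_eq h7]
  exact e7.symm

lemma an_mon (β : Fin n → ℕ) (p : (Fin n → ℂ) × ℂ) :
    AnalyticAt ℂ (fun p : (Fin n → ℂ) × ℂ => ∏ i, p.1 i ^ β i) p :=
  Finset.analyticAt_fun_prod _ fun i _ => (an_x i p).pow _

/-- SEMICONTINUITY with generators -/
theorem usc_aux (G : κ → (Fin n → ℂ) × ℂ → ℂ) (hG : ∀ j, AnalyticAt ℂ (G j) 0) {μ : ℕ}
    {Ef : Fin μ → (Fin n → ℂ) → ℂ} (hEf : ∀ i, AnalyticAt ℂ (Ef i) 0)
    (hrel : ∀ f : (Fin n → ℂ) × ℂ → ℂ, AnalyticAt ℂ f 0 →
      ∃ (c : Fin μ → ℂ → ℂ) (b : κ → (Fin n → ℂ) × ℂ → ℂ),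
      (∀ i, AnalyticAt ℂ (c i) 0) ∧ (∀ j, AnalyticAt ℂ (b j) 0) ∧
      ∀ᶠ p in 𝓝 (0 : (Fin n → ℂ) × ℂ),
        f p = ∑ i, c i p.2 * Ef i p.1 + ∑ j, b j p * G j p) :
    ∀ᶠ t in 𝓝 (0 : ℂ), ⊤ ≤ Submodule.span ℂ (Set.range fun i =>
      (Ideal.Quotient.mkₐ ℂ (Idl (0 : Fin n → ℂ) (fun j x => G j (x, t)))).toLinearMap
        (gm (Ef i) (hEf i))) := by
  classical
  have hfinset : {β : Fin n → ℕ | ∑ i, β i ≤ n * μ}.Finite := by
    refine (Set.Finite.subset (Set.finite_Iic (fun _ : Fin n => n * μ)) ?_)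
    intro β hβ
    rw [Set.mem_Iic]
    intro i
    exact (Finset.single_le_sum (fun j _ => Nat.zero_le (β j)) (Finset.mem_univ i)).trans hβ
  have hall : ∀ᶠ t in 𝓝 (0 : ℂ), ∀ β ∈ {β : Fin n → ℕ | ∑ i, β i ≤ n * μ},
      ∃ c : Fin μ → ℂ, mon xB β - ∑ i, algebraMap ℂ (BB n) (c i) * gm (Ef i) (hEf i) ∈
        Idl (0 : Fin n → ℂ) (fun j x => G j (x, t)) := by
    rw [Filter.eventually_all_finite hfinset]
    intro β _
    obtain ⟨c, b, _, hb, hid⟩ := hrel _ (an_mon β 0)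
    filter_upwards [slice_rel G hG hEf (an_mon β 0) hb hid] with t ht
    exact ⟨fun i => c i t, by rw [gz_mon] at ht; exact ht⟩
  filter_upwards [hall] with t ht
  exact span_of_rel (xB (n := n)) xB_not_unit hadamard _ _ ht

/-- **UPPER SEMICONTINUITY of the multiplicity** -/
theorem usc (G : κ → (Fin n → ℂ) × ℂ → ℂ) (hG : ∀ j, AnalyticAt ℂ (G j) 0) (μ : ℕ)
    (hf0 : Module.Finite ℂ (QQ G 0)) (hd0 : Module.finrank ℂ (QQ G 0) = μ) :
    ∀ᶠ t in 𝓝 (0 : ℂ), Module.Finite ℂ (QQ G t) ∧ Module.finrank ℂ (QQ G t) ≤ μ := by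
  obtain ⟨Ef, hEf, hrel⟩ := exists_data G hG μ hf0 hd0
  filter_upwards [usc_aux G hG hEf hrel] with t ht
  exact finite_of_span ht

/-- FREENESS: coefficients of a relation vanish -/
theorem free_aux (G : κ → (Fin n → ℂ) × ℂ → ℂ) (hG : ∀ j, AnalyticAt ℂ (G j) 0) {μ : ℕ}
    {Ef : Fin μ → (Fin n → ℂ) → ℂ} (hEf : ∀ i, AnalyticAt ℂ (Ef i) 0)
    (hrel : ∀ f : (Fin n → ℂ) × ℂ → ℂ, AnalyticAt ℂ f 0 →
      ∃ (c : Fin μ → ℂ → ℂ) (b : κ → (Fin n → ℂ) × ℂ → ℂ),
      (∀ i, AnalyticAt ℂ (c i) 0) ∧ (∀ j, AnalyticAt ℂ (b j) 0) ∧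
      ∀ᶠ p in 𝓝 (0 : (Fin n → ℂ) × ℂ),
        f p = ∑ i, c i p.2 * Ef i p.1 + ∑ j, b j p * G j p)
    (hfr : ∃ᶠ t in 𝓝[≠] (0 : ℂ), Module.Finite ℂ (QQ G t) → μ ≤ Module.finrank ℂ (QQ G t))
    {c : Fin μ → ℂ → ℂ} (hc : ∀ i, AnalyticAt ℂ (c i) 0)
    (hz : ∀ᶠ t in 𝓝 (0 : ℂ), Module.Finite ℂ (QQ G t) → Module.finrank ℂ (QQ G t) = μ →
      ∑ i, algebraMap ℂ (BB n) (c i t) * gm (Ef i) (hEf i) ∈
        Idl (0 : Fin n → ℂ) (fun j x => G j (x, t))) (i : Fin μ) :
    ∀ᶠ t in 𝓝 (0 : ℂ), c i t = 0 := by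
  rw [← (hc i).frequently_zero_iff_eventually_zero]
  have h1 := (usc_aux G hG hEf hrel).filter_mono (nhdsWithin_le_nhds (s := {(0 : ℂ)}ᶜ))
  have h2 := hz.filter_mono (nhdsWithin_le_nhds (s := {(0 : ℂ)}ᶜ))
  refine (hfr.and_eventually (h1.and h2)).mono ?_
  rintro t ⟨k1, k2, k3⟩
  obtain ⟨k4, k5⟩ := finite_of_span k2
  have k6 : Module.finrank ℂ (QQ G t) = μ := le_antisymm k5 (k1 k4)
  have k7 := k3 k4 k6
  have hli : LinearIndependent ℂ (fun i =>
      (Ideal.Quotient.mkₐ ℂ (Idl (0 : Fin n → ℂ) (fun j x => G j (x, t)))).toLinearMap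
        (gm (Ef i) (hEf i))) := by
    refine linearIndependent_of_top_le_span_of_card_eq_finrank k2 ?_
    rw [Fintype.card_fin]
    exact k6.symm
  have k8 : ∑ i, c i t •
      (Ideal.Quotient.mkₐ ℂ (Idl (0 : Fin n → ℂ) (fun j x => G j (x, t)))).toLinearMap
        (gm (Ef i) (hEf i)) = 0 := by
    have k9 := (Ideal.Quotient.eq_zero_iff_mem
      (I := Idl (0 : Fin n → ℂ) (fun j x => G j (x, t)))).2 k7
    rw [map_sum] at k9
    rw [← k9]
    refine Finset.sum_congr rfl fun i _ => ?_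
    rw [← map_smul, Algebra.smul_def]
    rfl
  exact (Fintype.linearIndependent_iff.1 hli) _ k8 i

/-- **UNIFORM INCLUSION from a frequent lower bound** -/
theorem ui_freq (G : κ → (Fin n → ℂ) × ℂ → ℂ) (hG : ∀ j, AnalyticAt ℂ (G j) 0) (μ : ℕ)
    (hf0 : Module.Finite ℂ (QQ G 0)) (hd0 : Module.finrank ℂ (QQ G 0) = μ)
    (hfr : ∃ᶠ t in 𝓝[≠] (0 : ℂ), Module.Finite ℂ (QQ G t) → μ ≤ Module.finrank ℂ (QQ G t))
    (α : Fin n → ℕ) (hα : ∑ i, α i = μ) :
    ∃ b : κ → (Fin n → ℂ) × ℂ → ℂ, (∀ j, AnalyticAt ℂ (b j) 0) ∧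
      ∀ᶠ p in 𝓝 (0 : (Fin n → ℂ) × ℂ), ∏ i, p.1 i ^ α i = ∑ j, b j p * G j p := by
  obtain ⟨Ef, hEf, hrel⟩ := exists_data G hG μ hf0 hd0
  obtain ⟨c, b, hc, hb, hid⟩ := hrel _ (an_mon α 0)
  have hsl := slice_rel G hG hEf (an_mon α 0) hb hid
  have hz : ∀ i, ∀ᶠ t in 𝓝 (0 : ℂ), c i t = 0 := by
    refine free_aux G hG hEf hrel hfr hc ?_
    filter_upwards [hsl] with t ht hfin hdim
    rw [gz_mon] at ht
    have h1 : mon xB α ∈ Idl (0 : Fin n → ℂ) (fun j x => G j (x, t)) := by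
      have h2 := JJ_le_of_finrank (xB (n := n)) xB_not_unit
        (Idl (0 : Fin n → ℂ) (fun j x => G j (x, t)))
      rw [hdim] at h2
      exact h2 (Ideal.subset_span ⟨α, hα, rfl⟩)
    have h3 := (Idl (0 : Fin n → ℂ) (fun j x => G j (x, t))).sub_mem h1 ht
    rwa [sub_sub_cancel] at h3
  refine ⟨b, hb, ?_⟩
  have h2 : Tendsto (fun p : (Fin n → ℂ) × ℂ => p.2) (𝓝 0) (𝓝 0) :=
    continuous_snd.tendsto' _ _ rfl
  filter_upwards [hid, h2.eventually (Filter.eventually_all.2 hz)] with p h3 h4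
  rw [h3]
  simp [h4]

end Crest.Agent.R257.UI939
end
end

-- ▼ part R257/UI8_939

/-!
Row 257 (S0395), leaf CNF (helper939), part 3: rank of analytic families of vectors; the
multiplicity is constant for ALL small `t`; conservation of number, lower bound; dictionary.
-/

set_option autoImplicit false
set_option linter.unusedSectionVars false

open Set Filter Topology Metric Complex
open Crest.Agent.R275.Loc2879
open Crest.AlgGeometry

noncomputable section

namespace Crest.Agent.R257.UI939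

universe u v w

variable {n : ℕ}

/-- the rank of an analytic family of vectors: a frequent upper bound is an upper bound -/
theorem rank_freq {V : Type v} [AddCommGroup V] [Module ℂ V] [FiniteDimensional ℂ V]
    {ι : Type w} [Fintype ι] {D : ℕ} (τ : Fin D → V) (c : ι → Fin D → ℂ → ℂ)
    (hc : ∀ k i, AnalyticAt ℂ (c k i) 0) (ρ : ℕ)
    (h : ∃ᶠ t in 𝓝[≠] (0 : ℂ),
      Module.finrank ℂ (Submodule.span ℂ (Set.range fun k => ∑ i, c k i t • τ i)) ≤ ρ) :
    ∀ᶠ t in 𝓝 (0 : ℂ),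
      Module.finrank ℂ (Submodule.span ℂ (Set.range fun k => ∑ i, c k i t • τ i)) ≤ ρ := by
  classical
  have h1 : ∀ᶠ t in 𝓝 (0 : ℂ), ∀ k i, AnalyticAt ℂ (c k i) t :=
    Filter.eventually_all.2 fun k => Filter.eventually_all.2 fun i => (hc k i).eventually_analyticAt
  obtain ⟨r, hr, h2⟩ := Metric.eventually_nhds_iff_ball.1 h1
  filter_upwards [Metric.ball_mem_nhds (0 : ℂ) hr] with t1 ht1
  by_contra hcon
  push Not at hcon
  obtain ⟨f, hf1, hf2, hf3⟩ := Submodule.exists_fun_fin_finrank_span_eq ℂ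
    (Set.range fun k => ∑ i, c k i t1 • τ i)
  -- a linearly independent subfamily of length ρ + 1
  have hcast : ρ + 1 ≤ Module.finrank ℂ (Submodule.span ℂ
    (Set.range fun k => ∑ i, c k i t1 • τ i)) := hcon
  have hw : LinearIndependent ℂ (fun a : Fin (ρ + 1) => f (Fin.castLE hcast a)) :=
    hf3.comp _ (Fin.castLE_injective hcast)
  choose k hk using fun a : Fin (ρ + 1) => hf1 (Fin.castLE hcast a)
  have hinj : Function.Injective (Fintype.linearCombination ℂ
      (fun a : Fin (ρ + 1) => f (Fin.castLE hcast a))) :=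
    linearIndependent_iff_injective_fintypeLinearCombination.1 hw
  obtain ⟨P, hP⟩ := LinearMap.exists_leftInverse_of_injective _ (LinearMap.ker_eq_bot.2 hinj)
  let M : ℂ → Matrix (Fin (ρ + 1)) (Fin (ρ + 1)) ℂ :=
    fun t => Matrix.of fun a b => P (∑ i, c (k b) i t • τ i) a
  have hM1 : M t1 = 1 := by
    ext a b
    have e1 : P (∑ i, c (k b) i t1 • τ i) = Pi.single b 1 := by
      have e2 : (∑ i, c (k b) i t1 • τ i) = Fintype.linearCombination ℂ
          (fun a : Fin (ρ + 1) => f (Fin.castLE hcast a)) (Pi.single b 1) := by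
        rw [Fintype.linearCombination_apply_single, one_smul]
        exact hk b
      rw [e2]
      exact LinearMap.congr_fun hP _
    simp only [M, Matrix.of_apply, e1, Matrix.one_apply, Pi.single_apply]
  have hMan : ∀ t ∈ ball (0 : ℂ) r, ∀ a b, AnalyticAt ℂ (fun t => M t a b) t := by
    intro t ht a b
    have e1 : (fun t => M t a b) = fun t => ∑ i, c (k b) i t * P (τ i) a := by
      funext t
      simp only [M, Matrix.of_apply, map_sum, map_smul, Finset.sum_apply, Pi.smul_apply,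
        smul_eq_mul]
    rw [e1]
    exact Finset.analyticAt_fun_sum _ fun i _ => (h2 t ht (k b) i).mul analyticAt_const
  have hdan : AnalyticOnNhd ℂ (fun t => (M t).det) (ball (0 : ℂ) r) := by
    intro t ht
    simp only [Matrix.det_apply]
    refine Finset.analyticAt_fun_sum _ fun σ _ => ?_
    refine AnalyticAt.const_smul ?_
    exact Finset.analyticAt_fun_prod _ fun i _ => hMan t ht _ _
  have hne : ¬ ∀ᶠ t in 𝓝 (0 : ℂ), (M t).det = 0 := by
    intro h0
    have h3 := hdan.eqOn_zero_of_preconnected_of_eventuallyEq_zero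
      (convex_ball (0 : ℂ) r).isPreconnected (mem_ball_self hr) h0 ht1
    simp only [Pi.zero_apply] at h3
    rw [hM1, Matrix.det_one] at h3
    exact one_ne_zero h3
  rcases (hdan 0 (mem_ball_self hr)).eventually_eq_zero_or_eventually_ne_zero with h3 | h3
  · exact hne h3
  · obtain ⟨t, ht1, ht2⟩ := (h.and_eventually h3).exists
    have hli : LinearIndependent ℂ (fun b : Fin (ρ + 1) => ∑ i, c (k b) i t • τ i) := by
      rw [Fintype.linearIndependent_iff]
      intro g hg b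
      have h4 : (M t).mulVec g = 0 := by
        ext a
        have h5 := congrFun (congrArg P hg) a
        rw [map_sum] at h5
        simp only [map_smul, Finset.sum_apply, Pi.smul_apply, smul_eq_mul, map_zero,
          Pi.zero_apply] at h5
        simp only [Matrix.mulVec, dotProduct, M, Matrix.of_apply, Pi.zero_apply]
        rw [← h5]
        exact Finset.sum_congr rfl fun b _ => mul_comm _ _
      have h5 := Matrix.eq_zero_of_mulVec_eq_zero ht2 h4
      exact congrFun h5 b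
    have h6 : ρ + 1 ≤ Module.finrank ℂ (Submodule.span ℂ
        (Set.range fun k => ∑ i, c k i t • τ i)) := by
      have h7 := finrank_span_eq_card hli
      rw [Fintype.card_fin] at h7
      rw [← h7]
      refine Submodule.finrank_mono (Submodule.span_mono ?_)
      rintro _ ⟨b, rfl⟩
      exact ⟨k b, rfl⟩
    omega

section Dim

variable {κ : Type*} [Fintype κ]

lemma JJ_le_freq (G : κ → (Fin n → ℂ) × ℂ → ℂ) (hG : ∀ j, AnalyticAt ℂ (G j) 0) (μ : ℕ)
    (h : ∀ α : Fin n → ℕ, ∑ i, α i = μ →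
      ∃ b : κ → (Fin n → ℂ) × ℂ → ℂ, (∀ j, AnalyticAt ℂ (b j) 0) ∧
      ∀ᶠ p in 𝓝 (0 : (Fin n → ℂ) × ℂ), ∏ i, p.1 i ^ α i = ∑ j, b j p * G j p) :
    ∀ᶠ t in 𝓝 (0 : ℂ), JJ (xB (n := n)) μ ≤ Idl (0 : Fin n → ℂ) (fun j x => G j (x, t)) := by
  classical
  have hfinset : {β : Fin n → ℕ | ∑ i, β i = μ}.Finite := by
    refine (Set.Finite.subset (Set.finite_Iic (fun _ : Fin n => μ)) ?_)
    intro β hβ
    rw [Set.mem_Iic]
    intro i
    exact (Finset.single_le_sum (fun j _ => Nat.zero_le (β j)) (Finset.mem_univ i)).trans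
      (le_of_eq hβ)
  have hall : ∀ᶠ t in 𝓝 (0 : ℂ), ∀ β ∈ {β : Fin n → ℕ | ∑ i, β i = μ},
      mon xB β ∈ Idl (0 : Fin n → ℂ) (fun j x => G j (x, t)) := by
    rw [Filter.eventually_all_finite hfinset]
    intro β hβ
    obtain ⟨b, hb, hid⟩ := h β hβ
    have := slice_rel G hG (μ := 0) (Ef := fun i => i.elim0) (fun i => i.elim0) (an_mon β 0)
      (c := fun i => i.elim0) hb (by simpa using hid)
    filter_upwards [this] with t ht
    rw [gz_mon] at ht
    simpa using ht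
  filter_upwards [hall] with t ht
  refine Ideal.span_le.2 ?_
  rintro a ⟨β, h1, rfl⟩
  exact ht β h1

lemma finite_quot_JJ (μ : ℕ) : Module.Finite ℂ (BB n ⧸ JJ (xB (n := n)) μ) := by
  classical
  have hfinset : {β : Fin n → ℕ | ∑ i, β i < μ}.Finite := by
    refine (Set.Finite.subset (Set.finite_Iic (fun _ : Fin n => μ)) ?_)
    intro β hβ
    rw [Set.mem_Iic]
    intro i
    exact (Finset.single_le_sum (fun j _ => Nat.zero_le (β j)) (Finset.mem_univ i)).trans
      (le_of_lt hβ)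
  have hf2 : {a : BB n | ∃ β : Fin n → ℕ, ∑ i, β i < μ ∧ mon xB β = a}.Finite := by
    refine (hfinset.image (fun β => mon xB β)).subset ?_
    rintro a ⟨β, h1, rfl⟩
    exact ⟨β, h1, rfl⟩
  let π : BB n →ₗ[ℂ] (BB n ⧸ JJ (xB (n := n)) μ) :=
    (Ideal.Quotient.mkₐ ℂ (JJ (xB (n := n)) μ)).toLinearMap
  have h1 : (VV (xB (n := n)) μ).map π = ⊤ := by
    rw [eq_top_iff]
    intro q _
    obtain ⟨a, rfl⟩ := Ideal.Quotient.mk_surjective q
    obtain ⟨v, hv, w, hw, rfl⟩ := Submodule.mem_sup.1 (mem_VV_sup (xB (n := n)) hadamard μ a)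
    refine ⟨v, hv, ?_⟩
    have hw0 : π w = 0 := (Ideal.Quotient.eq_zero_iff_mem (I := JJ (xB (n := n)) μ)).2 hw
    change π v = π (v + w)
    rw [map_add, hw0, add_zero]
  refine ⟨?_⟩
  rw [← h1]
  exact (Submodule.fg_span hf2).map π

set_option maxHeartbeats 4000000 in
set_option synthInstance.maxHeartbeats 200000 in
/-- **THE MULTIPLICITY IS CONSTANT FOR ALL SMALL `t`** -/
theorem dim_eq (G : κ → (Fin n → ℂ) × ℂ → ℂ) (hG : ∀ j, AnalyticAt ℂ (G j) 0) (μ : ℕ)
    (hf0 : Module.Finite ℂ (QQ G 0)) (hd0 : Module.finrank ℂ (QQ G 0) = μ)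
    (hfr : ∃ᶠ t in 𝓝[≠] (0 : ℂ), Module.Finite ℂ (QQ G t) → μ ≤ Module.finrank ℂ (QQ G t)) :
    ∀ᶠ t in 𝓝 (0 : ℂ), Module.Finite ℂ (QQ G t) ∧ Module.finrank ℂ (QQ G t) = μ := by
  classical
  set J : Ideal (BB n) := JJ (xB (n := n)) μ with hJ
  have husc := usc G hG μ hf0 hd0
  have hJt := JJ_le_freq G hG μ (fun α hα => ui_freq G hG μ hf0 hd0 hfr α hα)
  rw [← hJ] at hJt
  have hTfin : Module.Finite ℂ (BB n ⧸ J) := finite_quot_JJ μ
  -- the family of monomials of degree μ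
  have hfinset : {β : Fin n → ℕ | ∑ i, β i = μ}.Finite := by
    refine (Set.Finite.subset (Set.finite_Iic (fun _ : Fin n => μ)) ?_)
    intro β hβ
    rw [Set.mem_Iic]
    intro i
    exact (Finset.single_le_sum (fun j _ => Nat.zero_le (β j)) (Finset.mem_univ i)).trans
      (le_of_eq hβ)
  have hfinset2 : {β : Fin n → ℕ | ∑ i, β i < μ}.Finite := by
    refine (Set.Finite.subset (Set.finite_Iic (fun _ : Fin n => μ)) ?_)
    intro β hβ
    rw [Set.mem_Iic]
    intro i
    exact (Finset.single_le_sum (fun j _ => Nat.zero_le (β j)) (Finset.mem_univ i)).trans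
      (le_of_lt hβ)
  let _ : Fintype {β : Fin n → ℕ // ∑ i, β i = μ} := hfinset.fintype
  let _ : Fintype {β : Fin n → ℕ // ∑ i, β i < μ} := hfinset2.fintype
  let G' : {β : Fin n → ℕ // ∑ i, β i = μ} → (Fin n → ℂ) × ℂ → ℂ :=
    fun β p => ∏ i, p.1 i ^ β.1 i
  have hG' : ∀ β, AnalyticAt ℂ (G' β) 0 := fun β => an_mon β.1 0
  have hIdl : ∀ t : ℂ, Idl (0 : Fin n → ℂ) (fun β x => G' β (x, t)) = J := by
    intro t
    rw [hJ, Idl, JJ]
    congr 1
    ext a
    constructor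
    · rintro ⟨β, rfl⟩
      exact ⟨β.1, β.2, (gz_mon β.1).symm⟩
    · rintro ⟨β, h1, rfl⟩
      exact ⟨⟨β, h1⟩, gz_mon β⟩
  have hf' : Module.Finite ℂ (QQ G' 0) := by
    unfold QQ; rw [hIdl]; exact hTfin
  obtain ⟨D, hD⟩ : ∃ D, Module.finrank ℂ (QQ G' 0) = D := ⟨_, rfl⟩
  obtain ⟨E', hE', hrel'⟩ := exists_data G' hG' D hf' hD
  -- the vectors
  have hfan : ∀ k : {β : Fin n → ℕ // ∑ i, β i < μ} × κ,
      AnalyticAt ℂ (fun p : (Fin n → ℂ) × ℂ => (∏ i, p.1 i ^ k.1.1 i) * G k.2 p) 0 :=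
    fun k => (an_mon k.1.1 0).mul (hG k.2)
  choose c b hc hb hid using fun k => hrel' _ (hfan k)
  let π : BB n →ₗ[ℂ] (BB n ⧸ J) := (Ideal.Quotient.mkₐ ℂ J).toLinearMap
  have hπ : ∀ a, π a = 0 ↔ a ∈ J := fun a => Ideal.Quotient.eq_zero_iff_mem
  let τ : Fin D → BB n ⧸ J := fun i => π (gm (E' i) (hE' i))
  have hGt : ∀ᶠ t in 𝓝 (0 : ℂ), ∀ j, AnalyticAt ℂ (G j) (0, t) :=
    tendsto_0t.eventually (Filter.eventually_all.2 fun j => (hG j).eventually_analyticAt)
  have hvec : ∀ᶠ t in 𝓝 (0 : ℂ), ∀ k : {β : Fin n → ℕ // ∑ i, β i < μ} × κ,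
      π (mon xB k.1.1 * gz (fun x => G k.2 (x, t))) = ∑ i, c k i t • τ i := by
    refine Filter.eventually_all.2 fun k => ?_
    filter_upwards [slice_rel G' hG' hE' (hfan k) (hb k) (hid k), hGt] with t ht hGtt
    rw [hIdl, ← hπ, map_sub, sub_eq_zero] at ht
    have e1 : (gz (fun x => (∏ i, (x, t).1 i ^ k.1.1 i) * G k.2 (x, t)) : BB n) =
        mon xB k.1.1 * gz (fun x => G k.2 (x, t)) := by
      rw [← gz_mon, gz_eq (an_slice (hGtt k.2)), gz_eq (an_slice (an_mon k.1.1 (0, t))), gm_mul]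
      exact gz_eq _
    rw [← e1, ht, map_sum]
    refine Finset.sum_congr rfl fun i _ => ?_
    rw [← Algebra.smul_def, map_smul]
  -- dimension formula
  have hform : ∀ᶠ t in 𝓝 (0 : ℂ), Module.finrank ℂ (QQ G t) +
      Module.finrank ℂ (Submodule.span ℂ (Set.range fun k => ∑ i, c k i t • τ i)) =
        Module.finrank ℂ (BB n ⧸ J) := by
    filter_upwards [hJt, hvec, hGt] with t k1 k2 k3
    set It : Ideal (BB n) := Idl (0 : Fin n → ℂ) (fun j x => G j (x, t)) with hIt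
    let q : (BB n ⧸ J) →ₗ[ℂ] (BB n ⧸ It) := (Ideal.Quotient.factorₐ ℂ k1).toLinearMap
    have hq : ∀ a, q (π a) = Ideal.Quotient.mk It a := fun a => rfl
    have hsurj : Function.Surjective q := by
      intro y
      obtain ⟨a, rfl⟩ := Ideal.Quotient.mk_surjective y
      exact ⟨π a, hq a⟩
    have hker : LinearMap.ker q =
        Submodule.span ℂ (Set.range fun k => ∑ i, c k i t • τ i) := by
      apply le_antisymm
      · intro y hy
        obtain ⟨a, rfl⟩ := Ideal.Quotient.mk_surjective y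
        have ha : a ∈ It := by
          rw [LinearMap.mem_ker] at hy
          exact (Ideal.Quotient.eq_zero_iff_mem (I := It)).1 hy
        change π a ∈ _
        rw [hIt, mem_Idl (fun j => an_slice (k3 j))] at ha
        obtain ⟨d, rfl⟩ := ha
        rw [map_sum]
        refine Submodule.sum_mem _ fun j _ => ?_
        obtain ⟨v, hv, w', hw', hvw⟩ := Submodule.mem_sup.1
          (mem_VV_sup (xB (n := n)) hadamard μ (d j))
        rw [← hvw, add_mul, map_add]
        have h0 : π (w' * gm (fun x => G j (x, t)) (an_slice (k3 j))) = 0 :=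
          (hπ _).2 (J.mul_mem_right _ hw')
        rw [h0, add_zero]
        clear h0 hw' hvw
        unfold VV at hv
        induction hv using Submodule.span_induction with
        | mem z hz =>
          obtain ⟨β, h1, rfl⟩ := hz
          rw [← gz_eq (an_slice (k3 j))]
          rw [k2 (⟨β, h1⟩, j)]
          exact Submodule.subset_span ⟨(⟨β, h1⟩, j), rfl⟩
        | zero => rw [zero_mul, map_zero]; exact Submodule.zero_mem _
        | add y z _ _ h1 h2 => rw [add_mul, map_add]; exact Submodule.add_mem _ h1 h2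
        | smul s z _ hz => rw [smul_mul_assoc, map_smul]; exact Submodule.smul_mem _ _ hz
      · rw [Submodule.span_le]
        rintro _ ⟨k, rfl⟩
        rw [SetLike.mem_coe, LinearMap.mem_ker]
        change q (∑ i, c k i t • τ i) = 0
        rw [← k2 k, hq]
        refine (Ideal.Quotient.eq_zero_iff_mem (I := It)).2 ?_
        refine It.mul_mem_left _ ?_
        exact Ideal.subset_span ⟨k.2, rfl⟩
    have h1 := LinearMap.finrank_range_add_finrank_ker q
    rw [LinearMap.range_eq_top.2 hsurj, finrank_top, hker] at h1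
    exact h1
  have hrank := rank_freq τ c hc (Module.finrank ℂ (BB n ⧸ J) - μ) (by
    refine (hfr.and_eventually ((husc.filter_mono (nhdsWithin_le_nhds (s := {(0 : ℂ)}ᶜ))).and
      (hform.filter_mono (nhdsWithin_le_nhds (s := {(0 : ℂ)}ᶜ))))).mono ?_
    rintro t ⟨k1, k2, k3⟩
    have := k1 k2.1
    omega)
  have hD0 : μ ≤ Module.finrank ℂ (BB n ⧸ J) := by
    have := hform.self_of_nhds
    omega
  filter_upwards [husc, hform, hrank] with t k1 k2 k3
  refine ⟨k1.1, ?_⟩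
  have := k1.2
  omega




end Dim

/-! ### dictionary for an arbitrary finite family -/

/-- germs in the ideal of a finite family, as a subspace of `analyticAtOrigin n` (same shape as
`Germ.jacobianGerms`) -/
def colGerms (n : ℕ) {κ : Type*} [Fintype κ] (g : κ → (Fin n → ℂ) → ℂ) :
    Submodule ℂ (Germ.analyticAtOrigin n) where
  carrier := {f | ∃ a : κ → (Fin n → ℂ) → ℂ, (∀ i, AnalyticAt ℂ (a i) 0) ∧
    (f : (Fin n → ℂ) → ℂ) =ᶠ[𝓝 0] fun x => ∑ i, a i x * g i x}
  add_mem' := by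
    rintro g k ⟨a, ha, hg⟩ ⟨b, hb, hk⟩
    refine ⟨fun i => a i + b i, fun i => (ha i).add (hb i), ?_⟩
    filter_upwards [hg, hk] with x hx hy
    simp only [Submodule.coe_add, Pi.add_apply, hx, hy, ← Finset.sum_add_distrib, add_mul]
  zero_mem' := ⟨fun _ => 0, fun _ => analyticAt_const, Eventually.of_forall fun x => by simp⟩
  smul_mem' := by
    rintro c g ⟨a, ha, hg⟩
    refine ⟨fun i => c • a i, fun i => (ha i).const_smul, ?_⟩
    filter_upwards [hg] with x hx
    simp only [Submodule.coe_smul, Pi.smul_apply, smul_eq_mul, hx, Finset.mul_sum, mul_assoc]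

theorem dictG {κ : Type*} [Fintype κ] {g : κ → (Fin n → ℂ) → ℂ}
    (hf : ∀ i, AnalyticAt ℂ (g i) 0) :
    Nonempty ((Germ.analyticAtOrigin n ⧸ colGerms n g) ≃ₗ[ℂ]
      (BB n ⧸ Idl (0 : Fin n → ℂ) g)) := by
  set I := Idl (0 : Fin n → ℂ) g with hI
  let φ : Germ.analyticAtOrigin n →ₗ[ℂ] (BB n ⧸ I) :=
    (Ideal.Quotient.mkₐ ℂ I).toLinearMap ∘ₗ toOO n
  have hφ : ∀ g, φ g = Ideal.Quotient.mk I (toOO n g) := fun _ => rfl
  have hsurj : Function.Surjective φ := by
    intro q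
    obtain ⟨a, rfl⟩ := Ideal.Quotient.mk_surjective q
    obtain ⟨g, hg, rfl⟩ := exists_gm a
    exact ⟨⟨g, hg⟩, rfl⟩
  have hker : colGerms n g = LinearMap.ker φ := by
    ext f
    rw [LinearMap.mem_ker, hφ, Ideal.Quotient.eq_zero_iff_mem, hI, mem_Idl hf]
    constructor
    · rintro ⟨a, ha, hg⟩
      refine ⟨fun i => gm (a i) (ha i), ?_⟩
      obtain ⟨h, e⟩ := exists_sum_gm' Finset.univ a g ha hf
      rw [e, toOO_apply, gm_eq_gm]
      exact hg
    · rintro ⟨c, hc⟩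
      choose a ha hac using fun i => exists_gm (c i)
      obtain rfl : (fun i => gm (a i) (ha i)) = c := funext hac
      obtain ⟨h, e⟩ := exists_sum_gm' Finset.univ a g ha hf
      rw [e, toOO_apply, gm_eq_gm] at hc
      exact ⟨a, ha, hc⟩
  exact ⟨(Submodule.quotEquivOfEq _ _ hker).trans (φ.quotKerEquivOfSurjective hsurj)⟩

end Crest.Agent.R257.UI939
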