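import Crest.Agent.R257.NodeA_547
import Crest.Agent.R257.LcA_980
import Crest.Agent.R257.LcV_980
import Crest.Agent.R257.LcP2_980

-- ▼ part R257/NodeB_547
section

/-!
R257 / NodeB_547: `node : NodeStmt` of LCDefs_472 (task M3-NODE).

If `v` is a singular point of the cubic `D3 f_0 v v v` of a family with isolated critical point `0`
and `T(v,v) ≠ 0`, the equations `∂_i F(z u, t) = z² (s L_i(u,t) + q_i(u,t,z))`, `s = t^a / z`,
`ℓ u = 1`, are solved by `(u,s) = (U, σ)(z,t)`, and `z σ(z,t) = t^a` would have the isolated solution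
`(0,0)`.
-/

set_option autoImplicit false

open Topology Filter Set Metric
open scoped ContDiff
open Crest.AlgGeometry.Germ

noncomputable section

namespace Crest.Agent.R257.Node_547

open Crest.Agent.R257.Defs_219 Crest.Agent.R257.LCDefs_472

/-- a sum over three indices, cyclic permutation -/
theorem D3_cyc {f : E3 → ℂ} (hf : AnalyticAt ℂ f 0) (u v w : E3) : D3 f u v w = D3 f v w u := by
  have hp : ∀ i j k, H3 f i j k = H3 f j k i := fun i j k => by
    rw [H3_symm12 hf i j k, H3_symm23 hf j i k]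
  unfold D3
  calc ∑ i, ∑ j, ∑ k, H3 f i j k * u i * v j * w k
      = ∑ j, ∑ i, ∑ k, H3 f i j k * u i * v j * w k := Finset.sum_comm
    _ = ∑ j, ∑ k, ∑ i, H3 f i j k * u i * v j * w k :=
        Finset.sum_congr rfl fun j _ => Finset.sum_comm
    _ = _ := by
        refine Finset.sum_congr rfl fun j _ => Finset.sum_congr rfl fun k _ =>
          Finset.sum_congr rfl fun i _ => ?_
        rw [hp i j k]; ring

theorem D3_single (f : E3 → ℂ) (i : Fin 3) (u v : E3) :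
    D3 f (Pi.single i 1) u v = ∑ j, ∑ k, H3 f i j k * u j * v k := by
  unfold D3
  rw [Finset.sum_eq_single i]
  · simp
  · intro b _ hb
    simp [Pi.single_eq_of_ne hb]
  · simp

theorem D3_lin (f : E3 → ℂ) (w u v : E3) :
    D3 f w u v = ∑ i, w i * D3 f (Pi.single i 1) u v := by
  simp only [D3_single, Finset.mul_sum]
  unfold D3
  refine Finset.sum_congr rfl fun i _ => Finset.sum_congr rfl fun j _ =>
    Finset.sum_congr rfl fun k _ => ?_
  ring

theorem D3_swap {f : E3 → ℂ} (hf : AnalyticAt ℂ f 0) (w u v : E3) : D3 f w u v = D3 f w v u := by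
  unfold D3
  refine Finset.sum_congr rfl fun i _ => ?_
  rw [Finset.sum_comm]
  refine Finset.sum_congr rfl fun j _ => Finset.sum_congr rfl fun k _ => ?_
  rw [H3_symm23 hf i k j]; ring

theorem node : NodeStmt := by
  intro F μ hF h2 hN a T hT hTe v hv hv3
  by_contra hne
  have hf0 : AnalyticAt ℂ (sl F 0) 0 := an_sl hF.an
  -- `a ≥ 1`
  have ha : a ≠ 0 := by
    rintro rfl
    refine hne (Finset.sum_eq_zero fun i _ => Finset.sum_eq_zero fun j _ => ?_)
    have h1 := hTe.self_of_nhds i j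
    rw [h2 i j, pow_zero, one_mul] at h1
    rw [← h1]; ring
  -- a coordinate with `v k ≠ 0`
  obtain ⟨k, hk⟩ : ∃ k, v k ≠ 0 := by
    by_contra h
    exact hv (funext fun k => not_not.1 fun hk => h ⟨k, hk⟩)
  choose q hq hqd hq0 using fun i => ray_div hF.an hF.crit h2 v i
  -- the equations
  set Ψ : (ℂ × ℂ) × (E3 × ℂ) → E3 × ℂ := fun x =>
    (fun i => x.2.2 * ∑ j, T i j x.1.2 * x.2.1 j + q i ((x.2.1, x.1.2), x.1.1),
      x.2.1 k / v k - 1) with hΨ
  have hva : AnalyticAt ℂ (fun x : (ℂ × ℂ) × (E3 × ℂ) => x.2.1) ((0, 0), (v, 0)) :=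
    analyticAt_fst.comp analyticAt_snd
  have hvs : AnalyticAt ℂ (fun x : (ℂ × ℂ) × (E3 × ℂ) => x.2.2) ((0, 0), (v, 0)) :=
    analyticAt_snd.comp analyticAt_snd
  have hvt : AnalyticAt ℂ (fun x : (ℂ × ℂ) × (E3 × ℂ) => x.1.2) ((0, 0), (v, 0)) :=
    analyticAt_snd.comp analyticAt_fst
  have hvz : AnalyticAt ℂ (fun x : (ℂ × ℂ) × (E3 × ℂ) => x.1.1) ((0, 0), (v, 0)) :=
    analyticAt_fst.comp analyticAt_fst
  have hvj : ∀ j, AnalyticAt ℂ (fun x : (ℂ × ℂ) × (E3 × ℂ) => x.2.1 j) ((0, 0), (v, 0)) := by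
    intro j
    exact ((ContinuousLinearMap.proj (R := ℂ) (φ := fun _ : Fin 3 => ℂ) j).analyticAt _).comp hva
  have hΨa : AnalyticAt ℂ Ψ ((0, 0), (v, 0)) := by
    refine AnalyticAt.prod (AnalyticAt.pi fun i => ?_) (((hvj k).div_const).sub analyticAt_const)
    refine (hvs.mul (Finset.analyticAt_fun_sum _ fun j _ => ?_)).add ?_
    · exact ((hT i j).comp_of_eq hvt rfl).mul (hvj j)
    · exact (hq i).comp_of_eq ((hva.prod hvt).prod hvz) rfl
  have hq0v : ∀ i, q i ((v, 0), 0) = 0 := by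
    intro i
    rw [(hq0 i).self_of_nhds]
    have h3 : D3 (sl F 0) (Pi.single i 1) v v = 0 := by
      rw [D3_cyc hf0]; exact hv3 _
    rw [← D3_single, h3, mul_zero]
  have hΨ0 : Ψ ((0, 0), (v, 0)) = 0 := by
    simp only [hΨ]
    ext i
    · simp [hq0v i]
    · simp [hk]
  -- the partial derivative
  have hinj : ∀ y, fderiv ℂ Ψ ((0, 0), (v, 0)) (0, y) = 0 → y = 0 := by
    rintro ⟨u, s⟩ hy
    -- the path
    have hpath : HasDerivAt (fun τ : ℂ => (((0 : ℂ), (0 : ℂ)), (v + τ • u, τ * s)))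
        (0, (u, s)) 0 := by
      have h1 : HasDerivAt (fun τ : ℂ => v + τ • u) u 0 := by
        simpa using ((hasDerivAt_id' (0 : ℂ)).smul_const u).const_add v
      have h3 : HasDerivAt (fun τ : ℂ => τ * s) s 0 := by
        simpa using (hasDerivAt_id' (0 : ℂ)).mul_const s
      exact (hasDerivAt_const (0 : ℂ) ((0 : ℂ), (0 : ℂ))).prodMk (h1.prodMk h3)
    have hΨd : HasFDerivAt Ψ (fderiv ℂ Ψ ((0, 0), (v, 0)))
        ((fun τ : ℂ => (((0 : ℂ), (0 : ℂ)), (v + τ • u, τ * s))) 0) := by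
      simpa using hΨa.differentiableAt.hasFDerivAt
    have hcomp := hΨd.comp_hasDerivAt (0 : ℂ) hpath
    rw [hy] at hcomp
    -- the equations
    have hu0 : u k / v k = 0 := by
      have h1 : HasDerivAt (fun τ : ℂ => (v k + τ * u k) / v k - 1) (u k / v k) 0 := by
        have := ((((hasDerivAt_id' (0 : ℂ)).mul_const (u k)).const_add (v k)).div_const
          (v k)).sub_const 1
        simpa using this
      have h3 : HasDerivAt (fun τ : ℂ => (v k + τ * u k) / v k - 1) 0 0 := by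
        have := (ContinuousLinearMap.snd ℂ E3 ℂ).hasFDerivAt.comp_hasDerivAt (0 : ℂ) hcomp
        simpa [hΨ, Function.comp_def] using this
      exact h1.unique h3
    have huk : u k = 0 := by
      rcases div_eq_zero_iff.1 hu0 with h | h
      · exact h
      · exact absurd h hk
    have hEq : ∀ i, s * ∑ j, T i j 0 * v j + D3 (sl F 0) (Pi.single i 1) v u = 0 := by
      intro i
      have hb : ∀ j, HasDerivAt (fun τ : ℂ => v j + τ * u j) (u j) 0 := by
        intro j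
        simpa using ((hasDerivAt_id' (0 : ℂ)).mul_const (u j)).const_add (v j)
      have h1 : HasDerivAt (fun τ : ℂ => τ * s * ∑ j, T i j 0 * (v j + τ * u j) +
          (1 / 2) * ∑ j, ∑ k, H3 (sl F 0) i j k * (v j + τ * u j) * (v k + τ * u k))
          (s * ∑ j, T i j 0 * v j + D3 (sl F 0) (Pi.single i 1) v u) 0 := by
        have h3 := (((hasDerivAt_id' (0 : ℂ)).mul_const s).fun_mul
          (HasDerivAt.fun_sum fun j (_ : j ∈ Finset.univ) => (hb j).const_mul (T i j 0))).fun_add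
          ((HasDerivAt.fun_sum fun j (_ : j ∈ Finset.univ) =>
            HasDerivAt.fun_sum fun k (_ : k ∈ Finset.univ) =>
              ((hb j).const_mul (H3 (sl F 0) i j k)).fun_mul (hb k)).const_mul (1 / 2 : ℂ))
        refine h3.congr_deriv ?_
        simp only [one_mul, zero_mul, add_zero, Finset.sum_add_distrib, mul_add]
        have e1 : ∑ j, ∑ k, H3 (sl F 0) i j k * u j * v k =
            D3 (sl F 0) (Pi.single i 1) v u := by
          rw [D3_swap hf0, D3_single]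
        have e2 : ∑ j, ∑ k, H3 (sl F 0) i j k * v j * u k =
            D3 (sl F 0) (Pi.single i 1) v u := by
          rw [D3_single]
        rw [e1, e2]
        ring
      have h4 : HasDerivAt (fun τ : ℂ => (Ψ ((0, 0), (v + τ • u, τ * s))).1 i) 0 0 := by
        have := (hasDerivAt_pi.1 hcomp.fst) i
        simpa [Function.comp_def] using this
      refine (h1.congr_of_eventuallyEq ?_).unique h4
      have h5 : Tendsto (fun τ : ℂ => v + τ • u) (𝓝 0) (𝓝 v) := by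
        have : ContinuousAt (fun τ : ℂ => v + τ • u) 0 := by fun_prop
        simpa [ContinuousAt] using this
      filter_upwards [h5.eventually (hq0 i)] with τ hτ
      simp only [hΨ]
      rw [hτ]
      simp
    have hsum : s * ∑ i, ∑ j, T i j 0 * v i * v j = 0 := by
      have h1 : ∑ i, v i * (s * ∑ j, T i j 0 * v j + D3 (sl F 0) (Pi.single i 1) v u) = 0 :=
        Finset.sum_eq_zero fun i _ => by rw [hEq i, mul_zero]
      simp only [mul_add, Finset.sum_add_distrib] at h1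
      rw [← D3_lin, hv3 u, add_zero] at h1
      refine Eq.trans ?_ h1
      rw [Finset.mul_sum]
      refine Finset.sum_congr rfl fun i _ => ?_
      rw [Finset.mul_sum, Finset.mul_sum, Finset.mul_sum]
      refine Finset.sum_congr rfl fun j _ => ?_
      ring
    have hs : s = 0 := by
      rcases mul_eq_zero.1 hsum with h | h
      · exact h
      · exact absurd h hne
    have hD : ∀ w, D3 (sl F 0) v u w = 0 := by
      intro w
      rw [← D3_cyc hf0, D3_lin]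
      refine Finset.sum_eq_zero fun i _ => ?_
      have := hEq i
      rw [hs, zero_mul, zero_add] at this
      rw [this, mul_zero]
    obtain ⟨c, hc⟩ := hN v u hv hv3 hD
    have hc0 : c = 0 := by
      have h1 : c * v k = 0 := by
        have := congrFun hc k
        rw [huk] at this
        simpa using this.symm
      rcases mul_eq_zero.1 h1 with h | h
      · exact h
      · exact absurd h hk
    rw [hc, hc0, hs, zero_smul]
    rfl
  obtain ⟨ψ, hψ, hψ0, hψe⟩ := ift hΨa hinj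
  rw [hΨ0] at hψe
  -- `K(z,t) = z σ(z,t) - t^a`
  refine no_isolated (K := fun p => p.1 * (ψ p).2 - p.2 ^ a) ?_ ?_ ?_
  · exact (analyticAt_fst.mul (analyticAt_snd.comp hψ)).sub (analyticAt_snd.pow a)
  · simp [ha]
  · have hψc : Tendsto ψ (𝓝 (0, 0)) (𝓝 (v, 0)) := by
      have := hψ.continuousAt
      rw [ContinuousAt, hψ0] at this
      exact this
    have hU : Tendsto (fun p : ℂ × ℂ => (((ψ p).1, p.2), p.1)) (𝓝 (0, 0)) (𝓝 ((v, 0), 0)) := by
      have h1 : Tendsto (fun p : ℂ × ℂ => (ψ p).1) (𝓝 (0, 0)) (𝓝 v) :=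
        (continuous_fst.tendsto _).comp hψc
      exact (h1.prodMk_nhds (continuous_snd.tendsto _)).prodMk_nhds (continuous_fst.tendsto _)
    have hX : Tendsto (fun p : ℂ × ℂ => (p.1 • (ψ p).1, p.2)) (𝓝 (0, 0)) (𝓝 (0, 0)) := by
      have h1 : Tendsto (fun p : ℂ × ℂ => (ψ p).1) (𝓝 (0, 0)) (𝓝 v) :=
        (continuous_fst.tendsto _).comp hψc
      have h3 : Tendsto (fun p : ℂ × ℂ => p.1 • (ψ p).1) (𝓝 (0, 0)) (𝓝 ((0 : ℂ) • v)) :=
        (continuous_fst.tendsto _).smul h1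
      rw [zero_smul] at h3
      exact h3.prodMk_nhds (continuous_snd.tendsto _)
    have hdd : ∀ᶠ p in 𝓝 ((0 : ℂ), (0 : ℂ)), ∀ i, coordDeriv (sl F p.2) i (p.1 • (ψ p).1) =
        p.1 * ∑ j, H2 (sl F p.2) i j * (ψ p).1 j + p.1 ^ 2 * q i (((ψ p).1, p.2), p.1) :=
      Filter.eventually_all.2 fun i => hU.eventually (hqd i)
    filter_upwards [hψe, hdd, hX.eventually hF.iso,
      (continuous_snd.tendsto ((0 : ℂ), (0 : ℂ))).eventually hTe] with p hp hpd hpi hpT hK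
    obtain ⟨z, t⟩ := p
    simp only at hp hpd hpi hpT hK
    by_cases hz : z = 0
    · subst hz
      rw [zero_mul, zero_sub, neg_eq_zero] at hK
      rw [pow_eq_zero_iff ha |>.1 hK]
    · exfalso
      have hcr : ∀ i, coordDeriv (sl F t) i (z • (ψ (z, t)).1) = 0 := by
        intro i
        have h1 := congrFun (congrArg Prod.fst hp) i
        simp only [hΨ, Prod.fst_zero, Pi.zero_apply] at h1
        rw [hpd i]
        have h3 : ∑ j, H2 (sl F t) i j * (ψ (z, t)).1 j =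
            z * ((ψ (z, t)).2 * ∑ j, T i j t * (ψ (z, t)).1 j) := by
          rw [← mul_assoc, sub_eq_zero.1 hK, Finset.mul_sum]
          refine Finset.sum_congr rfl fun j _ => ?_
          rw [hpT i j]; ring
        rw [h3]
        calc z * (z * ((ψ (z, t)).2 * ∑ j, T i j t * (ψ (z, t)).1 j)) +
              z ^ 2 * q i (((ψ (z, t)).1, t), z)
            = z ^ 2 * ((ψ (z, t)).2 * ∑ j, T i j t * (ψ (z, t)).1 j +
              q i (((ψ (z, t)).1, t), z)) := by ring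
          _ = 0 := by rw [h1, mul_zero]
      have hx := hpi hcr
      have hx2 : (ψ (z, t)).1 = 0 := (smul_eq_zero.1 hx).resolve_left hz
      have h1 := congrArg Prod.snd hp
      simp only [hΨ, Prod.snd_zero] at h1
      rw [hx2] at h1
      simp at h1

end Crest.Agent.R257.Node_547
end
end

-- ▼ part R257/LcL_980
section

/-!
Row 257 (S0395), leaf LC-POS (helper980): lower bound for `col (f, g, h)` from the growth of `g`, `h`
on `V = {f = 0}`.
-/

set_option autoImplicit false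

open Topology Filter Set Metric
open Crest.AlgGeometry Crest.AlgGeometry.Germ Crest.Agent.R257.Defs_219

noncomputable section

namespace Crest.Agent.R257.LcL_980

open Crest.Agent.R257.LcV_980 Crest.Agent.R257.LcA_980

theorem poly1 {p : Polynomial ℂ} {N : ℕ} {K : ℝ} (hdeg : p.natDegree < N)
    (h : ∀ᶠ τ in 𝓝 (0 : ℂ), ‖p.eval τ‖ ≤ K * ‖τ‖ ^ N) : p = 0 := by
  by_contra hp
  set k := p.rootMultiplicity 0 with hk
  obtain ⟨q, hq, hq0⟩ := Polynomial.exists_eq_pow_rootMultiplicity_mul_and_not_dvd p hp 0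
  rw [← hk, Polynomial.C_0, sub_zero] at hq
  have hq0' : q.eval 0 ≠ 0 := by
    intro h0
    exact hq0 (Polynomial.dvd_iff_isRoot.2 h0)
  have hkN : k < N := by
    have hq1 : q ≠ 0 := by rintro rfl; simp at hq0'
    have : p.natDegree = k + q.natDegree := by
      conv_lhs => rw [hq]
      rw [Polynomial.natDegree_mul (pow_ne_zero _ Polynomial.X_ne_zero) hq1,
        Polynomial.natDegree_X_pow]
    omega
  have h1 : ∀ᶠ τ in 𝓝[≠] (0 : ℂ), ‖q.eval τ‖ ≤ K * ‖τ‖ ^ (N - k) := by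
    filter_upwards [h.filter_mono nhdsWithin_le_nhds, self_mem_nhdsWithin] with τ hτ hτ0
    have hτ1 : 0 < ‖τ‖ := norm_pos_iff.2 hτ0
    rw [hq, Polynomial.eval_mul, Polynomial.eval_pow, Polynomial.eval_X, norm_mul, norm_pow] at hτ
    have h2 : ‖τ‖ ^ N = ‖τ‖ ^ k * ‖τ‖ ^ (N - k) := by rw [← pow_add, Nat.add_sub_cancel' hkN.le]
    rw [h2] at hτ
    have h3 : 0 < ‖τ‖ ^ k := by positivity
    nlinarith
  have h2 : Tendsto (fun τ : ℂ => ‖q.eval τ‖) (𝓝[≠] 0) (𝓝 ‖q.eval 0‖) :=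
    ((q.continuous.norm).tendsto 0).mono_left nhdsWithin_le_nhds
  have h3 : Tendsto (fun τ : ℂ => K * ‖τ‖ ^ (N - k)) (𝓝[≠] 0) (𝓝 0) := by
    have hc : Continuous (fun τ : ℂ => K * ‖τ‖ ^ (N - k)) := by fun_prop
    have := (hc.tendsto 0).mono_left (nhdsWithin_le_nhds (s := {0}ᶜ))
    rwa [norm_zero, zero_pow (by omega), mul_zero] at this
  have h4 := le_of_tendsto_of_tendsto h2 h3 h1
  exact hq0' (norm_le_zero_iff.1 h4)

theorem coef_zero {D : ℕ} {a : Fin D → ℂ} (h : ∀ z : ℂ, ∑ i, a i * z ^ (i : ℕ) = 0) : a = 0 := by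
  have hp : (∑ i : Fin D, Polynomial.C (a i) * Polynomial.X ^ (i : ℕ)) = 0 := by
    apply Polynomial.funext
    intro z
    rw [Polynomial.eval_finsetSum]
    simpa using h z
  ext j
  have := congrArg (fun p : Polynomial ℂ => p.coeff (j : ℕ)) hp
  simp only [Polynomial.finsetSum_coeff, Polynomial.coeff_C_mul, Polynomial.coeff_X_pow,
    Polynomial.coeff_zero] at this
  rw [Finset.sum_eq_single j] at this
  · simpa using this
  · intro i _ hij
    have : (j : ℕ) ≠ i := fun h => hij (Fin.ext h.symm)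
    simp [this]
  · intro h; exact absurd (Finset.mem_univ _) h

/-- a small polynomial in two variables vanishes -/
theorem poly2 {D : ℕ} {c : Fin D × Fin D → ℂ} {K : ℝ}
    (h : ∀ᶠ y in 𝓝 (0 : Fin 2 → ℂ), ‖∑ p, c p * (y 0 ^ (p.1 : ℕ) * y 1 ^ (p.2 : ℕ))‖ ≤
      K * ‖y‖ ^ (2 * D)) : c = 0 := by
  rcases Nat.eq_zero_or_pos D with hD | hD
  · subst hD
    ext p
    exact p.1.elim0
  -- vanishing of the function
  have hz : ∀ y : Fin 2 → ℂ, ∑ p, c p * (y 0 ^ (p.1 : ℕ) * y 1 ^ (p.2 : ℕ)) = 0 := by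
    intro y
    set P : Polynomial ℂ := ∑ p : Fin D × Fin D,
      Polynomial.C (c p * (y 0 ^ (p.1 : ℕ) * y 1 ^ (p.2 : ℕ))) *
        Polynomial.X ^ ((p.1 : ℕ) + (p.2 : ℕ)) with hP
    have hPe : ∀ τ, P.eval τ = ∑ p, c p * ((τ • y) 0 ^ (p.1 : ℕ) * (τ • y) 1 ^ (p.2 : ℕ)) := by
      intro τ
      rw [hP, Polynomial.eval_finsetSum]
      refine Finset.sum_congr rfl fun p _ => ?_
      simp only [Polynomial.eval_mul, Polynomial.eval_C, Polynomial.eval_pow, Polynomial.eval_X,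
        Pi.smul_apply, smul_eq_mul, mul_pow, pow_add]
      ring
    have hdeg : P.natDegree < 2 * D := by
      rw [hP]
      refine lt_of_le_of_lt (Polynomial.natDegree_sum_le_of_forall_le (n := 2 * D - 1) _ _ ?_)
        (by omega)
      intro p _
      refine (Polynomial.natDegree_C_mul_X_pow_le _ _).trans ?_
      have h1 := p.1.2
      have h2 := p.2.2
      omega
    have hev : ∀ᶠ τ in 𝓝 (0 : ℂ), ‖P.eval τ‖ ≤ (K * ‖y‖ ^ (2 * D)) * ‖τ‖ ^ (2 * D) := by
      have ht : Tendsto (fun τ : ℂ => τ • y) (𝓝 0) (𝓝 0) := by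
        have : Continuous (fun τ : ℂ => τ • y) := by fun_prop
        simpa using this.tendsto 0
      filter_upwards [ht.eventually h] with τ hτ
      rw [hPe]
      refine hτ.trans (le_of_eq ?_)
      rw [norm_smul, mul_pow]; ring
    have hP0 := poly1 hdeg hev
    have := hPe 1
    rw [hP0, Polynomial.eval_zero, one_smul] at this
    exact this.symm
  have h1 : ∀ w : ℂ, (fun i : Fin D => ∑ j : Fin D, c (i, j) * w ^ (j : ℕ)) = 0 := by
    intro w
    apply coef_zero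
    intro z
    have := hz ![z, w]
    rw [Fintype.sum_prod_type] at this
    simp only [Matrix.cons_val_zero, Matrix.cons_val_one] at this
    rw [← this]
    refine Finset.sum_congr rfl fun i _ => ?_
    rw [Finset.sum_mul]
    refine Finset.sum_congr rfl fun j _ => ?_
    ring
  ext ⟨i, j⟩
  have h2 : (fun j : Fin D => c (i, j)) = 0 := by
    apply coef_zero
    intro w
    exact congrFun (h1 w) i
  exact congrFun h2 j

/-- growth of `g` on the (simple part of the) surface -/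
def Grow (f g : E3 → ℂ) (M : ℝ) : Prop :=
  ∃ K : ℝ, 0 ≤ K ∧ ∀ᶠ x in 𝓝 (0 : E3), x ≠ 0 → f x = 0 → coordDeriv f 0 x ≠ 0 →
    ‖g x‖ ≤ K * ‖x‖ ^ M

theorem Grow.pow {f g : E3 → ℂ} {M : ℝ} (h : Grow f g M) (k : ℕ) : Grow f (g ^ k) (k * M) := by
  obtain ⟨K, hK, h⟩ := h
  refine ⟨K ^ k, by positivity, ?_⟩
  filter_upwards [h] with x hx h0 h1 h2
  rw [Pi.pow_apply, norm_pow]
  calc ‖g x‖ ^ k ≤ (K * ‖x‖ ^ M) ^ k := by gcongr; exact hx h0 h1 h2
    _ = K ^ k * ‖x‖ ^ (k * M) := by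
      rw [mul_pow, ← Real.rpow_natCast (‖x‖ ^ M), ← Real.rpow_mul (norm_nonneg _), mul_comm M]

theorem Grow.mono {f g : E3 → ℂ} {M M' : ℝ} (h : Grow f g M) (hM : M' ≤ M) : Grow f g M' := by
  obtain ⟨K, hK, h⟩ := h
  refine ⟨K, hK, ?_⟩
  filter_upwards [h, ball_mem_nhds (0 : E3) one_pos] with x hx hx1 h0 h1 h2
  exact (hx h0 h1 h2).trans (mul_le_mul_of_nonneg_left
    (Real.rpow_le_rpow_of_exponent_ge (norm_pos_iff.2 h0) (mem_ball_zero_iff.1 hx1).le hM) hK)

theorem indep {f g h : E3 → ℂ} (hf : Iso f) {ν : ℕ} {C : ℝ} (hν : 1 ≤ ν) (hC : 0 ≤ C)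
    (hsh : ∀ δ > 0, ∀ᶠ x' in 𝓝 (0 : Fin 2 → ℂ), ∃ᶠ x'' in 𝓝 x', ∃ z : ℂ,
        ‖(Fin.cons z x'' : E3)‖ < δ ∧ f (Fin.cons z x'') = 0 ∧
        coordDeriv f 0 (Fin.cons z x'') ≠ 0 ∧
        ‖(Fin.cons z x'' : E3)‖ ≤ C * ‖x''‖ ^ ((ν : ℝ)⁻¹))
    {M : ℝ} (hM : 0 ≤ M) (hg : Grow f g M) (hh : Grow f h M) (hfin : ColFin ![f, g, h]) {D : ℕ}
    (hD : (2 * D : ℝ) ≤ M / ν) : D ^ 2 ≤ col ![f, g, h] := by
  have hν0 : (0 : ℝ) < ν := by exact_mod_cast hν
  -- the monomials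
  set mon : Fin D × Fin D → analyticAtOrigin 3 := fun p =>
    ⟨fun x => x 1 ^ (p.1 : ℕ) * x 2 ^ (p.2 : ℕ), by
      have h1 : AnalyticAt ℂ (fun x : Fin 3 → ℂ => x 1) 0 :=
        (ContinuousLinearMap.proj (R := ℂ) (φ := fun _ : Fin 3 => ℂ) 1).analyticAt 0
      have h2 : AnalyticAt ℂ (fun x : Fin 3 → ℂ => x 2) 0 :=
        (ContinuousLinearMap.proj (R := ℂ) (φ := fun _ : Fin 3 => ℂ) 2).analyticAt 0
      exact (h1.pow _).mul (h2.pow _)⟩ with hmon
  have hli : LinearIndependent ℂ (fun p => (gens ![f, g, h]).mkQ (mon p)) := by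
    rw [Fintype.linearIndependent_iff]
    intro c hc
    have hc' : (gens ![f, g, h]).mkQ (∑ p, c p • mon p) = 0 := by
      rw [map_sum]
      simpa only [map_smul] using hc
    rw [Submodule.mkQ_apply, Submodule.Quotient.mk_eq_zero] at hc'
    obtain ⟨a, b, b', ha, hb, hb', hu⟩ := mem_gens3.1 hc'
    have hu' : ∀ᶠ x in 𝓝 (0 : E3), ∑ p, c p * (x 1 ^ (p.1 : ℕ) * x 2 ^ (p.2 : ℕ)) =
        a x * f x + b x * g x + b' x * h x := by
      filter_upwards [hu] with x hx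
      rw [← hx, Submodule.coe_sum, Finset.sum_apply]
      rfl
    obtain ⟨Kg, hKg, hg⟩ := hg
    obtain ⟨Kh, hKh, hh⟩ := hh
    set K : ℝ := (‖b 0‖ + 1) * Kg + (‖b' 0‖ + 1) * Kh with hK
    have hK0 : 0 ≤ K := by positivity
    have hall : ∀ᶠ x in 𝓝 (0 : E3), f x = 0 → coordDeriv f 0 x ≠ 0 →
        ‖∑ p, c p * (x 1 ^ (p.1 : ℕ) * x 2 ^ (p.2 : ℕ))‖ ≤ K * ‖x‖ ^ M := by
      have hb1 : ∀ᶠ x in 𝓝 (0 : E3), ‖b x‖ < ‖b 0‖ + 1 :=
        hb.continuousAt.norm.eventually_lt_const (by linarith)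
      have hb2 : ∀ᶠ x in 𝓝 (0 : E3), ‖b' x‖ < ‖b' 0‖ + 1 :=
        hb'.continuousAt.norm.eventually_lt_const (by linarith)
      filter_upwards [hu', hg, hh, hb1, hb2] with x hx hgx hhx hbx hbx' h1 h2
      have hx0 : x ≠ 0 := by
        rintro rfl
        exact h2 (hf.crit 0)
      rw [hx, h1, mul_zero, zero_add]
      have e1 := hgx hx0 h1 h2
      have e2 := hhx hx0 h1 h2
      calc ‖b x * g x + b' x * h x‖ ≤ ‖b x‖ * ‖g x‖ + ‖b' x‖ * ‖h x‖ := by
            rw [← norm_mul, ← norm_mul]; exact norm_add_le _ _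
        _ ≤ (‖b 0‖ + 1) * (Kg * ‖x‖ ^ M) + (‖b' 0‖ + 1) * (Kh * ‖x‖ ^ M) := by gcongr
        _ = K * ‖x‖ ^ M := by rw [hK]; ring
    obtain ⟨δ, hδ, hball⟩ := Metric.eventually_nhds_iff_ball.1 hall
    -- on the base
    have hbase : ∀ᶠ y in 𝓝 (0 : Fin 2 → ℂ),
        ‖∑ p, c p * (y 0 ^ (p.1 : ℕ) * y 1 ^ (p.2 : ℕ))‖ ≤ (K * C ^ M) * ‖y‖ ^ (2 * D) := by
      filter_upwards [hsh δ hδ, ball_mem_nhds (0 : Fin 2 → ℂ) one_pos] with y hy hy1
      have hcl : IsClosed {y : Fin 2 → ℂ | ‖∑ p, c p * (y 0 ^ (p.1 : ℕ) * y 1 ^ (p.2 : ℕ))‖ ≤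
          (K * C ^ M) * ‖y‖ ^ (2 * D)} := by
        apply isClosed_le
        · refine Continuous.norm ?_
          refine continuous_finsetSum _ fun p _ => ?_
          fun_prop
        · fun_prop
      refine hcl.mem_of_frequently_of_tendsto ?_ tendsto_id
      have hy1' : ∀ᶠ y'' in 𝓝 y, ‖y''‖ ≤ 1 := by
        filter_upwards [isOpen_ball.mem_nhds hy1] with y'' h3
        exact (mem_ball_zero_iff.1 h3).le
      refine (hy.and_eventually hy1').mono ?_
      rintro y'' ⟨⟨z, hz1, hz2, hz3, hz4⟩, hy''⟩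
      have h3 := hball _ (by simpa using hz1) hz2 hz3
      have e1 : (Fin.cons z y'' : E3) 1 = y'' 0 := rfl
      have e2 : (Fin.cons z y'' : E3) 2 = y'' 1 := rfl
      rw [e1, e2] at h3
      show ‖∑ p, c p * (y'' 0 ^ (p.1 : ℕ) * y'' 1 ^ (p.2 : ℕ))‖ ≤ _
      refine h3.trans ?_
      calc K * ‖(Fin.cons z y'' : E3)‖ ^ M ≤ K * (C * ‖y''‖ ^ ((ν : ℝ)⁻¹)) ^ M := by gcongr
        _ = (K * C ^ M) * ‖y''‖ ^ (M / ν) := by
            rw [Real.mul_rpow hC (by positivity), ← Real.rpow_mul (norm_nonneg _), mul_assoc,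
              div_eq_inv_mul]
        _ ≤ (K * C ^ M) * ‖y''‖ ^ (2 * D) := by
            gcongr
            rcases (norm_nonneg y'').eq_or_lt with h0 | h0
            · rw [← h0]
              rcases Nat.eq_zero_or_pos D with hD0 | hD0
              · rw [hD0]; simp only [mul_zero, pow_zero]
                exact Real.zero_rpow_le_one _
              · have : (0 : ℝ) < M / ν := by
                  have : (0 : ℝ) < 2 * D := by positivity
                  linarith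
                rw [Real.zero_rpow this.ne']
                positivity
            · rw [← Real.rpow_natCast]
              apply Real.rpow_le_rpow_of_exponent_ge h0 hy''
              push_cast
              exact hD
    have := poly2 hbase
    intro p
    exact congrFun this p
  have hmf : Module.Finite ℂ (analyticAtOrigin 3 ⧸ gens ![f, g, h]) := hfin
  have := hli.fintype_card_le_finrank
  rw [Fintype.card_prod, Fintype.card_fin, ← sq] at this
  exact this

/-- **lower bound for the colength from the growth on the surface** -/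
theorem col_lower {f : E3 → ℂ} (hf : Iso f) : ∃ κ : ℝ, 0 < κ ∧
    ∀ (g h : E3 → ℂ) (α β : ℝ), AnalyticAt ℂ g 0 → AnalyticAt ℂ h 0 → 0 < α → 0 < β →
      Grow f g α → Grow f h β → ColFin ![f, g, h] → κ * (α * β) ≤ (col ![f, g, h] : ℝ) := by
  obtain ⟨ν, C, hν, hC, hsh⟩ := sheet_dense hf
  have hν0 : (0 : ℝ) < ν := by exact_mod_cast hν
  refine ⟨(1 / (2 * ν)) ^ 2, by positivity, ?_⟩
  intro g h α β hg hh hα hβ hgα hhβ hfin
  -- the inequality at height `T`
  have key : ∀ T : ℝ, 2 * ν ≤ T →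
      (1 / (2 * ν) - 1 / T) ^ 2 ≤ (1 / α + 1 / T) * (1 / β + 1 / T) * (col ![f, g, h] : ℝ) := by
    intro T hT
    have hT0 : 0 < T := by linarith
    set k : ℕ := ⌈T / α⌉₊ with hk
    set l : ℕ := ⌈T / β⌉₊ with hl
    set D : ℕ := ⌊T / (2 * ν)⌋₊ with hD
    have hk1 : 1 ≤ k := Nat.one_le_iff_ne_zero.2 (by rw [hk]; exact (Nat.ceil_pos.2 (by positivity)).ne')
    have hl1 : 1 ≤ l := Nat.one_le_iff_ne_zero.2 (by rw [hl]; exact (Nat.ceil_pos.2 (by positivity)).ne')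
    obtain ⟨h1, h2⟩ := pow_both hg hh hfin hk1 hl1
    have hkα : T ≤ k * α := by
      have := Nat.le_ceil (T / α)
      rw [div_le_iff₀ hα] at this
      exact this
    have hlβ : T ≤ l * β := by
      have := Nat.le_ceil (T / β)
      rw [div_le_iff₀ hβ] at this
      exact this
    have hDT : (2 * D : ℝ) ≤ T / ν := by
      have := Nat.floor_le (a := T / (2 * ν)) (by positivity)
      rw [← hD] at this
      calc (2 * D : ℝ) ≤ 2 * (T / (2 * ν)) := by linarith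
        _ = T / ν := by field_simp
    have h3 := indep hf hν hC hsh hT0.le ((hgα.pow k).mono hkα) ((hhβ.pow l).mono hlβ) h1 hDT
    have h4 : (D : ℝ) ^ 2 ≤ (k : ℝ) * l * (col ![f, g, h] : ℝ) := by
      exact_mod_cast h3.trans h2
    have h5 : (k : ℝ) ≤ T / α + 1 := (Nat.ceil_lt_add_one (by positivity)).le
    have h6 : (l : ℝ) ≤ T / β + 1 := (Nat.ceil_lt_add_one (by positivity)).le
    have h7 : T / (2 * ν) - 1 ≤ (D : ℝ) := (Nat.sub_one_lt_floor _).le
    have h8 : 0 ≤ T / (2 * ν) - 1 := by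
      rw [sub_nonneg, le_div_iff₀ (by positivity), one_mul]; exact hT
    have h9 : (T / (2 * ν) - 1) ^ 2 ≤ (T / α + 1) * (T / β + 1) * (col ![f, g, h] : ℝ) := by
      calc (T / (2 * ν) - 1) ^ 2 ≤ (D : ℝ) ^ 2 := by gcongr
        _ ≤ (k : ℝ) * l * (col ![f, g, h] : ℝ) := h4
        _ ≤ _ := by gcongr
    have e1 : (1 / (2 * ν) - 1 / T) ^ 2 = (T / (2 * ν) - 1) ^ 2 / T ^ 2 := by
      field_simp
    have e2 : (1 / α + 1 / T) * (1 / β + 1 / T) * (col ![f, g, h] : ℝ) =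
        (T / α + 1) * (T / β + 1) * (col ![f, g, h] : ℝ) / T ^ 2 := by
      field_simp
    rw [e1, e2]
    gcongr
  -- the limit
  have hinv : Tendsto (fun T : ℝ => 1 / T) atTop (𝓝 0) := by
    simpa using tendsto_inv_atTop_zero (𝕜 := ℝ)
  have hl1 : Tendsto (fun T : ℝ => (1 / (2 * ν : ℝ) - 1 / T) ^ 2) atTop
      (𝓝 ((1 / (2 * ν : ℝ) - 0) ^ 2)) := (tendsto_const_nhds.sub hinv).pow 2
  have hl2 : Tendsto (fun T : ℝ => (1 / α + 1 / T) * (1 / β + 1 / T) * (col ![f, g, h] : ℝ)) atTop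
      (𝓝 ((1 / α + 0) * (1 / β + 0) * (col ![f, g, h] : ℝ))) :=
    ((tendsto_const_nhds.add hinv).mul (tendsto_const_nhds.add hinv)).mul_const _
  have hle := le_of_tendsto_of_tendsto hl1 hl2 ((eventually_ge_atTop (2 * (ν : ℝ))).mono key)
  rw [sub_zero, add_zero, add_zero] at hle
  calc (1 / (2 * ν : ℝ)) ^ 2 * (α * β) ≤ (1 / α * (1 / β) * (col ![f, g, h] : ℝ)) * (α * β) := by
        gcongr
    _ = (col ![f, g, h] : ℝ) := by field_simp

end Crest.Agent.R257.LcL_980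
end
end

-- ▼ part R257/LcM_980
section

/-!
Row 257 (S0395), leaf LC-POS (helper980): `0 < mstar f` if `f` has weighted order `≥ 1` for weights
with sum `< 1`.
-/

set_option autoImplicit false

open Topology Filter Set Metric MeasureTheory
open scoped ENNReal
open Crest.AlgGeometry Crest.AlgGeometry.Germ Crest.Agent.R257.Defs_219

noncomputable section

namespace Crest.Agent.R257.LcM_980

open Crest.Agent.R257.LcL_980 Crest.Agent.R257.OtK_331

/-- weighted order `≥ 1` in some linear coordinates, sum of the weights `< 1` -/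
def WBox (f : E3 → ℂ) : Prop :=
  ∃ (A : (Fin 3 → ℂ) →ₗ[ℂ] (Fin 3 → ℂ)) (w : Fin 3 → ℝ) (κ K s₀ : ℝ), Function.Injective A ∧
    (∀ i, 0 < w i) ∧ ∑ i, w i < 1 ∧ 0 < κ ∧ 0 < s₀ ∧
    ∀ s : ℝ, 0 < s → s ≤ s₀ → ∀ X : Fin 3 → ℂ, (∀ i, ‖X i‖ ≤ κ * s ^ w i) → ‖f (A X)‖ ≤ K * s

theorem sh_le {f g : E3 → ℂ} {r r' p : ℝ} (hr : r' ≤ r)
    (hol : DifferentiableOn ℂ f (Pd (fun _ : Fin 3 => r'))) :
    Sh (n := 2) ⟨fun _ => r', f, hol⟩ (fun x => ENNReal.ofReal (‖g x‖ ^ (2 * (1 / p)) *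
      (‖d0 f x‖ ^ 2)⁻¹)) ≤ Jint p (fun _ => r) f g := by
  unfold Sh Jint
  have hbox : MeasurableSet {x' : Fin 2 → ℂ | ∀ i, ‖x' i‖ < r} := by
    have : {x' : Fin 2 → ℂ | ∀ i, ‖x' i‖ < r} = Pd (fun _ : Fin 2 => r) := rfl
    rw [this]
    exact (isOpen_Pd _).measurableSet
  rw [← lintegral_indicator hbox]
  refine lintegral_mono fun x' => ?_
  by_cases hx : x' ∈ {x' : Fin 2 → ℂ | ∀ i, ‖x' i‖ < r}
  · rw [indicator_of_mem hx]
    set S := {z : ℂ // (Fin.cons z x' : Fin 3 → ℂ) ∈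
      (⟨fun _ => r', f, hol⟩ : Dat 2).U ∧ (⟨fun _ => r', f, hol⟩ : Dat 2).h (Fin.cons z x') = 0}
    set T := {z : ℂ // ‖z‖ < r ∧ f (Fin.cons z x') = 0 ∧ coordDeriv f 0 (Fin.cons z x') ≠ 0}
    have hST : ∀ z : S, ‖z.1‖ < r ∧ f (Fin.cons z.1 x') = 0 ∧
        coordDeriv f 0 (Fin.cons z.1 x') ≠ 0 := by
      rintro ⟨z, ⟨h1, h2⟩, h3⟩
      refine ⟨?_, h3, h2⟩
      have := h1 0
      simp only [Fin.cons_zero] at this
      exact this.trans_le hr
    let φ : S → T := fun z => ⟨z.1, hST z⟩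
    have hφ : Function.Injective φ := by
      intro a b hab
      exact Subtype.ext (congrArg (fun t : T => t.1) hab)
    have e1 : ∀ z : S, ENNReal.ofReal (‖g (Fin.cons z.1 x')‖ ^ (2 * (1 / p)) *
        (‖d0 f (Fin.cons z.1 x')‖ ^ 2)⁻¹) = ENNReal.ofReal (‖g (Fin.cons (φ z).1 x')‖ ^ (2 / p) /
          ‖coordDeriv f 0 (Fin.cons (φ z).1 x')‖ ^ 2) := by
      intro z
      congr 1
      rw [mul_one_div, div_eq_mul_inv]
      rfl
    calc ∑' z : S, ENNReal.ofReal (‖g (Fin.cons z.1 x')‖ ^ (2 * (1 / p)) *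
          (‖d0 f (Fin.cons z.1 x')‖ ^ 2)⁻¹)
        = ∑' z : S, (fun t : T => ENNReal.ofReal (‖g (Fin.cons t.1 x')‖ ^ (2 / p) /
          ‖coordDeriv f 0 (Fin.cons t.1 x')‖ ^ 2)) (φ z) := tsum_congr e1
      _ ≤ _ := ENNReal.tsum_comp_le_tsum_of_injective hφ _
  · rw [indicator_of_notMem hx]
    have hE : IsEmpty {z : ℂ // (Fin.cons z x' : Fin 3 → ℂ) ∈
      (⟨fun _ => r', f, hol⟩ : Dat 2).U ∧ (⟨fun _ => r', f, hol⟩ : Dat 2).h (Fin.cons z x') = 0} := by
      refine ⟨?_⟩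
      rintro ⟨z, ⟨h1, -⟩, -⟩
      apply hx
      intro i
      have := h1 i.succ
      simp only [Fin.cons_succ] at this
      exact this.trans_le hr
    rw [tsum_empty]

theorem grow_of_inJ {f : E3 → ℂ} (hf : AnalyticAt ℂ f 0) (hw : WBox f) :
    ∃ c : ℝ, 0 < c ∧ ∀ (a : ℝ) (g : E3 → ℂ), 1 ≤ a → AnalyticAt ℂ g 0 → InJ a f g →
      Grow f g (c * a) := by
  obtain ⟨A, w, κ, K, s₀, hA, hw0, hws, hκ, hs₀, hbox⟩ := hw
  set W : ℝ := ∑ i, w i with hW
  have hW0 : 0 < W := by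
    rw [hW]; exact Finset.sum_pos (fun i _ => hw0 i) Finset.univ_nonempty
  have hwW : ∀ i, w i ≤ W := by
    intro i
    rw [hW]
    exact Finset.single_le_sum (fun j _ => (hw0 j).le) (Finset.mem_univ i)
  refine ⟨(1 - ∑ i, w i) / W, by rw [← hW]; exact div_pos (by linarith) hW0, ?_⟩
  intro a g ha hg hJ
  obtain ⟨r, hr, hJ⟩ := hJ
  have ha0 : 0 < a := by linarith
  -- a small polydisc on which everything is holomorphic and bounded
  have hgb : ∀ᶠ x in 𝓝 (0 : E3), AnalyticAt ℂ f x ∧ AnalyticAt ℂ g x ∧ ‖g x‖ < ‖g 0‖ + 1 := by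
    filter_upwards [hf.eventually_analyticAt, hg.eventually_analyticAt,
      hg.continuousAt.norm.eventually_lt_const (show ‖g 0‖ < ‖g 0‖ + 1 by linarith)] with x h1 h2 h3
    exact ⟨h1, h2, h3⟩
  obtain ⟨ε, hε, hball⟩ := Metric.eventually_nhds_iff_ball.1 hgb
  set r' : ℝ := min r ε with hr'
  have hr'0 : 0 < r' := lt_min hr hε
  have hPd : ∀ x ∈ Pd (fun _ : Fin 3 => r'), x ∈ ball (0 : E3) ε := by
    intro x hx
    rw [mem_ball_zero_iff, pi_norm_lt_iff hε]
    intro i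
    exact (hx i).trans_le (min_le_right _ _)
  have hol : DifferentiableOn ℂ f (Pd (fun _ : Fin 3 => r')) := fun x hx =>
    (hball x (hPd x hx)).1.differentiableAt.differentiableWithinAt
  have holg : DifferentiableOn ℂ g (Pd (fun _ : Fin 3 => r')) := fun x hx =>
    (hball x (hPd x hx)).2.1.differentiableAt.differentiableWithinAt
  set d : Dat 2 := ⟨fun _ => r', f, hol⟩ with hd
  have hS : Sh d (fun x => ENNReal.ofReal (‖g x‖ ^ (2 * (1 / a)) * (‖d0 d.h x‖ ^ 2)⁻¹)) ≠ ∞ :=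
    ((sh_le (p := a) (g := g) (min_le_left _ _) hol).trans_lt hJ).ne
  -- the box is inside the polydisc
  have hAc : Continuous A := LinearMap.continuous_of_finiteDimensional A
  obtain ⟨η, hη, hηA⟩ : ∃ η > 0, ∀ X : Fin 3 → ℂ, ‖X‖ < η → A X ∈ Pd (fun _ : Fin 3 => r') := by
    have h1 : A ⁻¹' (Pd (fun _ : Fin 3 => r')) ∈ 𝓝 (0 : Fin 3 → ℂ) := by
      apply hAc.continuousAt.preimage_mem_nhds
      rw [map_zero]
      apply (isOpen_Pd _).mem_nhds
      intro i; simpa using hr'0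
    obtain ⟨η, hη, h2⟩ := Metric.mem_nhds_iff.1 h1
    exact ⟨η, hη, fun X hX => h2 (by simpa using hX)⟩
  have hsm : ∀ᶠ s in 𝓝[>] (0 : ℝ), ∀ i, κ * s ^ w i < η := by
    rw [Filter.eventually_all]
    intro i
    have hc : ContinuousAt (fun s : ℝ => κ * s ^ w i) 0 :=
      continuousAt_const.mul (Real.continuousAt_rpow_const _ _ (Or.inr (hw0 i).le))
    have ht := hc.tendsto
    rw [Real.zero_rpow (hw0 i).ne', mul_zero] at ht
    exact (ht.eventually (gt_mem_nhds hη)).filter_mono nhdsWithin_le_nhds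
  obtain ⟨s₁, hs₁, hs₁'⟩ := (mem_nhdsGT_iff_exists_Ioo_subset).1 hsm
  have hs₁0 : (0 : ℝ) < s₁ := hs₁
  have hbox' : ∀ s : ℝ, 0 < s → s ≤ min s₀ (s₁ / 2) → ∀ X : Fin (2 + 1) → ℂ,
      (∀ i, ‖X i‖ ≤ κ * s ^ w i) → A X ∈ Pd d.R ∧ ‖d.h (A X)‖ ≤ K * s := by
    intro s hs hs' X hX
    refine ⟨hηA X ?_, hbox s hs (hs'.trans (min_le_left _ _)) X hX⟩
    rw [pi_norm_lt_iff hη]
    intro i
    refine (hX i).trans_lt (hs₁' ⟨hs, ?_⟩ i)
    have := hs'.trans (min_le_right _ _)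
    linarith
  obtain ⟨C, hC, hev⟩ := LcP2_980.growth_norm d A hA w hκ (lt_min hs₀ (by positivity)) hW0 hwW hbox'
    (q := 1 / a) (by positivity) (by rw [div_le_one ha0]; exact ha) holg
    ⟨‖g 0‖ + 1, fun x hx => (hball x (hPd x hx)).2.2.le⟩ hS
  refine ⟨C, hC, ?_⟩
  filter_upwards [hev] with x hx h0 h1 h2
  have h3 := hx h0 h1 h2
  have e : (1 - ∑ i, w i) / (1 / a * W) = (1 - ∑ i, w i) / W * a := by
    field_simp
  rw [e] at h3
  exact h3

/-- **LC-POS**: positivity of `mstar` -/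
theorem mstar_pos {f : E3 → ℂ} (hf : Iso f) (hw : WBox f) (hne : (mset f).Nonempty) :
    0 < mstar f := by
  obtain ⟨κ, hκ, hκ'⟩ := col_lower hf
  obtain ⟨c, hc, hc'⟩ := grow_of_inJ hf.an hw
  have h1 : κ * c ^ 2 ≤ mstar f := by
    refine le_csInf hne ?_
    rintro _ ⟨a, b, ha, hb, g, h, hg, hh, hgJ, hhJ, hfin, rfl⟩
    have ha0 : 0 < a := by linarith
    have hb0 : 0 < b := by linarith
    rw [le_div_iff₀ (by positivity)]
    have := hκ' g h (c * a) (c * b) hg hh (by positivity) (by positivity)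
      (hc' a g ha hg hgJ) (hc' b h hb hh hhJ) hfin
    calc κ * c ^ 2 * (a * b) = κ * (c * a * (c * b)) := by ring
      _ ≤ _ := this
  have : 0 < κ * c ^ 2 := by positivity
  linarith

end Crest.Agent.R257.LcM_980
end
end

-- ▼ part R257/LcN_980

/-!
Row 257 (S0395), leaf LC-POS (helper980): a critical germ with vanishing 2-jet whose cubic form is
not nodal has weighted order `≥ 1` for the weights `(1/3, 3/8, 1/4)` in suitable linear
coordinates (`wbox_of_not_nodal`).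
-/

set_option autoImplicit false

open Topology Filter Set Metric
open scoped ContDiff Nat
open Crest.AlgGeometry.Germ

noncomputable section

namespace Crest.Agent.R257.LcN_980

open Crest.Agent.R257.Defs_219 Crest.Agent.R257.LCDefs_472 Crest.Agent.R257.Node_547
  Crest.Agent.R257.LcM_980

variable {n : ℕ}

/-- iterated derivatives along a fixed direction, one step -/
theorem iter_succ {f : (Fin n → ℂ) → ℂ} {x : Fin n → ℂ} (hf : AnalyticAt ℂ f x) (m : ℕ)
    (y : Fin n → ℂ) : iteratedFDeriv ℂ (m + 1) f x (fun _ => y) =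
      ∑ i, y i * iteratedFDeriv ℂ m (coordDeriv f i) x (fun _ => y) := by
  have hc : ContDiffAt ℂ ω (fun z => fderiv ℂ f z) x := hf.fderiv.contDiffAt
  have h1 : ∀ v : Fin n → ℂ, iteratedFDeriv ℂ m (fun z => fderiv ℂ f z) x (fun _ => y) v =
      iteratedFDeriv ℂ m (fun z => fderiv ℂ f z v) x (fun _ => y) := by
    intro v
    have h2 := ContinuousLinearMap.iteratedFDeriv_comp_left
      (ContinuousLinearMap.apply ℂ ℂ v) hc (i := m) le_top
    have h3 := congrArg (fun T => T (fun _ : Fin m => y)) h2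
    exact h3.symm
  have h4 : iteratedFDeriv ℂ (m + 1) f x (fun _ => y) =
      iteratedFDeriv ℂ m (fun z => fderiv ℂ f z) x (fun _ => y) y := by
    rw [iteratedFDeriv_succ_apply_right]
    rfl
  have h5 : ∀ (L : (Fin n → ℂ) →L[ℂ] ℂ), L y = ∑ i, y i * L (Pi.single i 1) := by
    intro L
    conv_lhs => rw [pi_eq_sum_univ' y, map_sum]
    refine Finset.sum_congr rfl fun j _ => ?_
    rw [map_smul, smul_eq_mul]
  rw [h4, h5]
  refine Finset.sum_congr rfl fun j _ => ?_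
  rw [h1]
  rfl

/-- Taylor's formula of order 3 for a germ with vanishing 2-jet -/
theorem taylor3 {f : E3 → ℂ} (hf : AnalyticAt ℂ f 0) (h0 : f 0 = 0)
    (h1 : ∀ i, coordDeriv f i 0 = 0) (h2 : ∀ i j, H2 f i j = 0) :
    (fun y => f y - D3 f y y y / 6) =O[𝓝 0] fun y : E3 => ‖y‖ ^ 4 := by
  obtain ⟨p, hp⟩ := id hf
  obtain ⟨r, hr⟩ := id hp
  have e0 : ∀ (g : E3 → ℂ) (y : E3), iteratedFDeriv ℂ 0 g 0 (fun _ => y) = g 0 := fun g y => by
    rw [iteratedFDeriv_zero_apply]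
  have ea : ∀ i, AnalyticAt ℂ (coordDeriv f i) 0 := fun i => an_cd hf i
  have eb : ∀ i j, AnalyticAt ℂ (coordDeriv (coordDeriv f i) j) 0 := fun i j => an_cd (ea i) j
  have q0 : ∀ y, p 0 (fun _ => y) = 0 := fun y => by
    have := hr.factorial_smul y 0
    rw [e0, h0] at this
    simpa using this
  have q1 : ∀ y, p 1 (fun _ => y) = 0 := fun y => by
    have := hr.factorial_smul y 1
    rw [iter_succ hf] at this
    simp only [e0, h1, mul_zero, Finset.sum_const_zero] at this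
    simpa using this
  have q2 : ∀ y, p 2 (fun _ => y) = 0 := fun y => by
    have := hr.factorial_smul y 2
    rw [iter_succ hf] at this
    simp only [iter_succ (ea _), e0] at this
    have h3 : ∀ i j, coordDeriv (coordDeriv f i) j 0 = 0 := h2
    simp only [h3, mul_zero, Finset.sum_const_zero] at this
    simpa [Nat.factorial] using this
  have q3 : ∀ y, p 3 (fun _ => y) = D3 f y y y / 6 := fun y => by
    have := hr.factorial_smul y 3
    rw [iter_succ hf] at this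
    simp only [iter_succ (ea _), iter_succ (eb _ _), e0] at this
    have h4 : (∑ i, y i * ∑ j, y j * ∑ k, y k * coordDeriv (coordDeriv (coordDeriv f i) j) k 0) =
        D3 f y y y := by
      unfold D3 H3
      simp only [Finset.mul_sum]
      refine Finset.sum_congr rfl fun i _ => Finset.sum_congr rfl fun j _ =>
        Finset.sum_congr rfl fun k _ => ?_
      ring
    rw [h4] at this
    rw [← this]
    simp [Nat.factorial]
  have := hp.isBigO_sub_partialSum_pow 4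
  refine this.congr_left fun y => ?_
  rw [zero_add, FormalMultilinearSeries.partialSum, Finset.sum_range_succ, Finset.sum_range_succ,
    Finset.sum_range_succ, Finset.sum_range_one, q0, q1, q2, q3]
  ring

theorem D3_add (f : E3 → ℂ) (x y v w : E3) : D3 f (x + y) v w = D3 f x v w + D3 f y v w := by
  unfold D3
  simp only [← Finset.sum_add_distrib]
  refine Finset.sum_congr rfl fun i _ => Finset.sum_congr rfl fun j _ =>
    Finset.sum_congr rfl fun k _ => ?_
  rw [Pi.add_apply]; ring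

theorem D3_smul (f : E3 → ℂ) (c : ℂ) (x v w : E3) : D3 f (c • x) v w = c * D3 f x v w := by
  unfold D3
  simp only [Finset.mul_sum]
  refine Finset.sum_congr rfl fun i _ => Finset.sum_congr rfl fun j _ =>
    Finset.sum_congr rfl fun k _ => ?_
  rw [Pi.smul_apply, smul_eq_mul]; ring

theorem D3_add2 {f : E3 → ℂ} (hf : AnalyticAt ℂ f 0) (x y v w : E3) :
    D3 f v (x + y) w = D3 f v x w + D3 f v y w := by
  rw [D3_cyc hf v (x + y) w, D3_cyc hf v x w, D3_cyc hf v y w, D3_add]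

theorem D3_smul2 {f : E3 → ℂ} (hf : AnalyticAt ℂ f 0) (c : ℂ) (x v w : E3) :
    D3 f v (c • x) w = c * D3 f v x w := by
  rw [D3_cyc hf v (c • x) w, D3_cyc hf v x w, D3_smul]

theorem D3_add3 {f : E3 → ℂ} (hf : AnalyticAt ℂ f 0) (x y v w : E3) :
    D3 f v w (x + y) = D3 f v w x + D3 f v w y := by
  rw [D3_swap hf v w, D3_swap hf v w, D3_swap hf v w, D3_add2 hf]

theorem D3_smul3 {f : E3 → ℂ} (hf : AnalyticAt ℂ f 0) (c : ℂ) (x v w : E3) :
    D3 f v w (c • x) = c * D3 f v w x := by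
  rw [D3_swap hf v w, D3_swap hf v w, D3_smul2 hf]

theorem D3_cube {f : E3 → ℂ} (hf : AnalyticAt ℂ f 0) (x v : E3) (c : ℂ) :
    D3 f (x + c • v) (x + c • v) (x + c • v) =
      D3 f x x x + 3 * c * D3 f v x x + 3 * c ^ 2 * D3 f v v x + c ^ 3 * D3 f v v v := by
  simp only [D3_add, D3_add2 hf, D3_add3 hf, D3_smul, D3_smul2 hf, D3_smul3 hf]
  have e1 : D3 f x x v = D3 f v x x := (D3_cyc hf v x x).symm
  have e2 : D3 f x v x = D3 f v x x := by rw [D3_swap hf x v x, e1]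
  have e3 : D3 f x v v = D3 f v v x := D3_cyc hf x v v
  have e4 : D3 f v x v = D3 f v v x := D3_swap hf v x v
  rw [e1, e2, e3, e4]
  ring

theorem D3_quad {f : E3 → ℂ} (hf : AnalyticAt ℂ f 0) (v e u : E3) (b a : ℂ) :
    D3 f v (b • e + a • u) (b • e + a • u) =
      b ^ 2 * D3 f v e e + 2 * a * b * D3 f v u e + a ^ 2 * D3 f v u u := by
  simp only [D3_add2 hf, D3_add3 hf, D3_smul2 hf, D3_smul3 hf]
  rw [D3_swap hf v e u]
  ring

theorem D3_bound (f : E3 → ℂ) : ∃ M : ℝ, 0 ≤ M ∧ ∀ x : E3, ‖D3 f x x x‖ ≤ M * ‖x‖ ^ 3 := by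
  refine ⟨∑ i, ∑ j, ∑ k, ‖H3 f i j k‖, by positivity, fun x => ?_⟩
  unfold D3
  simp only [Finset.sum_mul]
  refine (norm_sum_le _ _).trans (Finset.sum_le_sum fun i _ => ?_)
  refine (norm_sum_le _ _).trans (Finset.sum_le_sum fun j _ => ?_)
  refine (norm_sum_le _ _).trans (Finset.sum_le_sum fun k _ => ?_)
  rw [norm_mul, norm_mul, norm_mul]
  have h1 := norm_le_pi_norm x i
  have h2 := norm_le_pi_norm x j
  have h3 := norm_le_pi_norm x k
  calc ‖H3 f i j k‖ * ‖x i‖ * ‖x j‖ * ‖x k‖ ≤ ‖H3 f i j k‖ * ‖x‖ * ‖x‖ * ‖x‖ := by gcongr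
    _ = ‖H3 f i j k‖ * ‖x‖ ^ 3 := by ring

/-- not nodal implies weighted order `≥ 1` for the weights `(3/8, 1/4, 1/3)` -/
theorem wbox_of_not_nodal {f : E3 → ℂ} (hf : AnalyticAt ℂ f 0) (h0 : f 0 = 0)
    (h1 : ∀ i, coordDeriv f i 0 = 0) (h2 : ∀ i j, H2 f i j = 0) (hN : ¬ Nodal f) : WBox f := by
  unfold Nodal at hN
  push Not at hN
  obtain ⟨v, u, hv, hvv, hvu, huv⟩ := hN
  have hli : LinearIndependent ℂ ![v, u] := by
    rw [LinearIndependent.pair_iff' hv]
    exact fun c h => huv c h.symm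
  obtain ⟨e, he⟩ := exists_linearIndependent_cons_of_lt_finrank hli
    (by rw [Module.finrank_fintype_fun_eq_card]; decide)
  set A : (Fin 3 → ℂ) →ₗ[ℂ] E3 := Fintype.linearCombination ℂ ![e, v, u] with hA
  have hAi : Function.Injective A := fun x y hxy => by
    have := Fintype.linearIndependent_iff.1 he (x - y) (by
      have h3 : A (x - y) = 0 := by rw [map_sub, hxy, sub_self]
      rw [hA, Fintype.linearCombination_apply] at h3
      exact h3)
    exact funext fun i => sub_eq_zero.1 (this i)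
  have hAX : ∀ X, A X = X 0 • e + X 1 • v + X 2 • u := fun X => by
    rw [hA, Fintype.linearCombination_apply, Fin.sum_univ_three]; rfl
  obtain ⟨C, hC⟩ := (taylor3 hf h0 h1 h2).bound
  obtain ⟨δ, hδ, hball⟩ := Metric.eventually_nhds_iff_ball.1 hC
  obtain ⟨M, hM, hD⟩ := D3_bound f
  set L : ℝ := ‖e‖ + ‖v‖ + ‖u‖ with hL
  have hL0 : 0 ≤ L := by positivity
  have hC' : ∀ y ∈ ball (0 : E3) δ, ‖f y - D3 f y y y / 6‖ ≤ |C| * ‖y‖ ^ 4 := fun y hy => by
    refine (hball y hy).trans ?_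
    rw [norm_pow, norm_norm]
    gcongr
    exact le_abs_self C
  refine ⟨A, ![3 / 8, 1 / 4, 1 / 3], 1, |C| * L ^ 4 + (M * L ^ 3 + 3 * ‖D3 f v e e‖) / 6,
    min 1 ((δ / (L + 1)) ^ 4) / 2, hAi, ?_, ?_, one_pos, by positivity, ?_⟩
  · intro i
    fin_cases i <;> norm_num
  · rw [Fin.sum_univ_three]
    show (3 / 8 : ℝ) + 1 / 4 + 1 / 3 < 1
    norm_num
  · intro s hs hss X hX
    have hs1 : s < 1 := by
      have : min 1 ((δ / (L + 1)) ^ 4) ≤ 1 := min_le_left _ _
      linarith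
    have hs2 : s < (δ / (L + 1)) ^ 4 := by
      have h3 : min 1 ((δ / (L + 1)) ^ 4) ≤ (δ / (L + 1)) ^ 4 := min_le_right _ _
      have h4 : 0 < min 1 ((δ / (L + 1)) ^ 4) := by positivity
      linarith
    have hX0 : ‖X 0‖ ≤ s ^ (3 / 8 : ℝ) := by simpa using hX 0
    have hX1 : ‖X 1‖ ≤ s ^ (1 / 4 : ℝ) := by simpa using hX 1
    have hX2 : ‖X 2‖ ≤ s ^ (1 / 3 : ℝ) := by simpa using hX 2
    have m1 : s ^ (3 / 8 : ℝ) ≤ s ^ (1 / 4 : ℝ) :=
      Real.rpow_le_rpow_of_exponent_ge hs hs1.le (by norm_num)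
    have m2 : s ^ (1 / 3 : ℝ) ≤ s ^ (1 / 4 : ℝ) :=
      Real.rpow_le_rpow_of_exponent_ge hs hs1.le (by norm_num)
    have m3 : s ^ (3 / 8 : ℝ) ≤ s ^ (1 / 3 : ℝ) :=
      Real.rpow_le_rpow_of_exponent_ge hs hs1.le (by norm_num)
    have p1 : (s ^ (1 / 4 : ℝ)) ^ 4 = s := by
      rw [← Real.rpow_natCast, ← Real.rpow_mul hs.le]; norm_num
    have p2 : (s ^ (1 / 3 : ℝ)) ^ 3 = s := by
      rw [← Real.rpow_natCast, ← Real.rpow_mul hs.le]; norm_num
    have p3 : s ^ (1 / 4 : ℝ) * (s ^ (3 / 8 : ℝ)) ^ 2 = s := by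
      rw [← Real.rpow_natCast, ← Real.rpow_mul hs.le, ← Real.rpow_add hs]; norm_num
    have hs0 : 0 < s ^ (1 / 4 : ℝ) := Real.rpow_pos_of_pos hs _
    -- the norm of `y = A X`
    have hy : ‖A X‖ ≤ L * s ^ (1 / 4 : ℝ) := by
      rw [hAX]
      calc ‖X 0 • e + X 1 • v + X 2 • u‖ ≤ ‖X 0‖ * ‖e‖ + ‖X 1‖ * ‖v‖ + ‖X 2‖ * ‖u‖ := by
            refine (norm_add₃_le).trans ?_
            rw [norm_smul, norm_smul, norm_smul]
        _ ≤ s ^ (1 / 4 : ℝ) * ‖e‖ + s ^ (1 / 4 : ℝ) * ‖v‖ + s ^ (1 / 4 : ℝ) * ‖u‖ := by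
            gcongr
            · exact hX0.trans m1
            · exact hX2.trans m2
        _ = L * s ^ (1 / 4 : ℝ) := by rw [hL]; ring
    have hyb : A X ∈ ball (0 : E3) δ := by
      rw [mem_ball_zero_iff]
      refine hy.trans_lt ?_
      have h3 : s ^ (1 / 4 : ℝ) < δ / (L + 1) := by
        refine lt_of_pow_lt_pow_left₀ 4 (by positivity) ?_
        rw [p1]; exact hs2
      calc L * s ^ (1 / 4 : ℝ) ≤ (L + 1) * s ^ (1 / 4 : ℝ) := by gcongr; linarith
        _ < (L + 1) * (δ / (L + 1)) := by gcongr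
        _ = δ := by field_simp
    have hT := hC' _ hyb
    -- the cubic form
    have hcub : D3 f (A X) (A X) (A X) = D3 f (X 0 • e + X 2 • u) (X 0 • e + X 2 • u)
        (X 0 • e + X 2 • u) + 3 * X 1 * (X 0 ^ 2 * D3 f v e e) := by
      have e1 : A X = (X 0 • e + X 2 • u) + X 1 • v := by rw [hAX]; abel
      rw [e1, D3_cube hf, hvv, hvv, D3_quad hf v, hvu, hvu]
      ring
    have hx : ‖X 0 • e + X 2 • u‖ ≤ L * s ^ (1 / 3 : ℝ) := by
      calc ‖X 0 • e + X 2 • u‖ ≤ ‖X 0‖ * ‖e‖ + ‖X 2‖ * ‖u‖ := by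
            refine (norm_add_le _ _).trans ?_
            rw [norm_smul, norm_smul]
        _ ≤ s ^ (1 / 3 : ℝ) * ‖e‖ + s ^ (1 / 3 : ℝ) * ‖u‖ := by
            gcongr
            exact hX0.trans m3
        _ ≤ L * s ^ (1 / 3 : ℝ) := by
            have : 0 ≤ s ^ (1 / 3 : ℝ) * ‖v‖ := by positivity
            rw [hL]; nlinarith
    have hcb : ‖D3 f (A X) (A X) (A X)‖ ≤ (M * L ^ 3 + 3 * ‖D3 f v e e‖) * s := by
      rw [hcub]
      have b1 : ‖D3 f (X 0 • e + X 2 • u) (X 0 • e + X 2 • u) (X 0 • e + X 2 • u)‖ ≤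
          M * L ^ 3 * s := by
        refine (hD _).trans ?_
        calc M * ‖X 0 • e + X 2 • u‖ ^ 3 ≤ M * (L * s ^ (1 / 3 : ℝ)) ^ 3 := by gcongr
          _ = M * L ^ 3 * (s ^ (1 / 3 : ℝ)) ^ 3 := by ring
          _ = M * L ^ 3 * s := by rw [p2]
      have b2 : ‖3 * X 1 * (X 0 ^ 2 * D3 f v e e)‖ ≤ 3 * ‖D3 f v e e‖ * s := by
        rw [norm_mul, norm_mul, norm_mul, norm_pow]
        have h3 : ‖(3 : ℂ)‖ = 3 := by norm_num
        rw [h3]
        calc 3 * ‖X 1‖ * (‖X 0‖ ^ 2 * ‖D3 f v e e‖) ≤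
              3 * s ^ (1 / 4 : ℝ) * ((s ^ (3 / 8 : ℝ)) ^ 2 * ‖D3 f v e e‖) := by gcongr
          _ = 3 * ‖D3 f v e e‖ * (s ^ (1 / 4 : ℝ) * (s ^ (3 / 8 : ℝ)) ^ 2) := by ring
          _ = 3 * ‖D3 f v e e‖ * s := by rw [p3]
      calc _ ≤ M * L ^ 3 * s + 3 * ‖D3 f v e e‖ * s := (norm_add_le _ _).trans (add_le_add b1 b2)
        _ = _ := by ring
    calc ‖f (A X)‖ = ‖(f (A X) - D3 f (A X) (A X) (A X) / 6) + D3 f (A X) (A X) (A X) / 6‖ := by
          rw [sub_add_cancel]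
      _ ≤ |C| * ‖A X‖ ^ 4 + ‖D3 f (A X) (A X) (A X)‖ / 6 := by
          refine (norm_add_le _ _).trans (add_le_add hT (le_of_eq ?_))
          rw [norm_div]; norm_num
      _ ≤ |C| * (L * s ^ (1 / 4 : ℝ)) ^ 4 + (M * L ^ 3 + 3 * ‖D3 f v e e‖) * s / 6 := by gcongr
      _ = |C| * L ^ 4 * (s ^ (1 / 4 : ℝ)) ^ 4 + (M * L ^ 3 + 3 * ‖D3 f v e e‖) * s / 6 := by ring
      _ = _ := by rw [p1]; ring

end Crest.Agent.R257.LcN_980
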