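import Crest.Agent.R257.LCc_472
import Crest.Agent.R257.LcN_980
import Crest.Agent.R257.EVa_929
import Crest.Agent.R257.LcxDefs_759

-- ▼ part R257/Ev1_838
section

/-!
# R257 (S0395), leaf LCX3 (helper838), part 1: the arcs of the polar curve of a germ with vanishing
2-jet whose polar conics meet in simple points
-/

set_option autoImplicit false
set_option linter.unusedSectionVars false

open Set Filter Topology Complex
open scoped ContDiff

namespace Crest.Agent.R257.Ev1_838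

open Defs_219 LCDefs_472 Node_547 LcN_980 LCc_472
open Crest.AlgGeometry.Germ

noncomputable section

/-- the partial derivative of the cubic form -/
def pq (f : E3 → ℂ) (i : Fin 3) (u : E3) : ℂ := (1 / 2) * ∑ j, ∑ k, H3 f i j k * u j * u k

/-- the linear form `∂_i∂_j` of the cubic form -/
def lq (f : E3 → ℂ) (i j : Fin 3) (u : E3) : ℂ := ∑ k, H3 f i j k * u k

theorem pq_add {f : E3 → ℂ} (hf : AnalyticAt ℂ f 0) (i : Fin 3) (a b : E3) (x : ℂ) :
    pq f i (a + x • b) = pq f i a + x * (∑ j, lq f i j a * b j) + x ^ 2 * pq f i b := by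
  unfold pq lq
  have h : ∀ j k, H3 f i j k = H3 f i k j := fun j k => H3_symm23 hf i j k
  simp only [Fin.sum_univ_three, Pi.add_apply, Pi.smul_apply, smul_eq_mul]
  rw [h 1 0, h 2 0, h 2 1]
  ring



theorem lq_symm {f : E3 → ℂ} (hf : AnalyticAt ℂ f 0) (i j : Fin 3) (a : E3) :
    lq f i j a = lq f j i a := by
  unfold lq
  exact Finset.sum_congr rfl fun k _ => by rw [H3_symm12 hf i j k]


/-- blow-up of the partial derivatives -/
theorem blow {f : E3 → ℂ} (hf : AnalyticAt ℂ f 0) (h1 : ∀ i, coordDeriv f i 0 = 0)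
    (h2 : ∀ i j, H2 f i j = 0) (v : E3) (i : Fin 3) :
    ∃ U : E3 × ℂ → ℂ, AnalyticAt ℂ U (v, 0) ∧
      (∀ᶠ p in 𝓝 (v, (0 : ℂ)), coordDeriv f i (p.2 • p.1) = p.2 ^ 2 * U p) ∧
      ∀ᶠ u in 𝓝 v, U (u, 0) = pq f i u := by
  have hF : AnalyticAt ℂ (fun p : E3 × ℂ => f p.1) ((0 : E3), (0 : ℂ)) :=
    AnalyticAt.fun_comp (g := f) (f := fun p : E3 × ℂ => p.1) (x := ((0 : E3), (0 : ℂ))) hf
      analyticAt_fst
  obtain ⟨q, hq, hq1, hq2⟩ := ray_div hF (Eventually.of_forall fun _ => h1) h2 v i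
  refine ⟨fun p => q ((p.1, 0), p.2), ?_, ?_, ?_⟩
  · exact AnalyticAt.fun_comp (g := q) (f := fun p : E3 × ℂ => ((p.1, (0 : ℂ)), p.2)) hq
      ((analyticAt_fst.prod analyticAt_const).prod analyticAt_snd)
  · have ht : Tendsto (fun p : E3 × ℂ => ((p.1, (0 : ℂ)), p.2)) (𝓝 (v, 0)) (𝓝 ((v, 0), 0)) := by
      have : Continuous (fun p : E3 × ℂ => ((p.1, (0 : ℂ)), p.2)) := by fun_prop
      exact this.tendsto' _ _ rfl
    filter_upwards [ht.eventually hq1] with p hp
    have h3 : ∀ j, H2 (sl (fun p : E3 × ℂ => f p.1) 0) i j = 0 := fun j => h2 i j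
    simp only [h3, zero_mul, Finset.sum_const_zero, mul_zero, zero_add] at hp
    exact hp
  · exact hq2

/-- the vector `(1, w)` -/
def vec (w : ℂ × ℂ) : E3 := ![1, w.1, w.2]

theorem vec_zero (w : ℂ × ℂ) : vec w 0 = 1 := rfl

theorem vec_add (w v : ℂ × ℂ) (x : ℂ) : vec (w + x • v) = vec w + x • ![0, v.1, v.2] := by
  ext i
  fin_cases i <;> simp [vec]

theorem an_vec (w : ℂ × ℂ) : AnalyticAt ℂ vec w := by
  refine AnalyticAt.pi fun i => ?_
  fin_cases i
  · exact analyticAt_const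
  · exact analyticAt_fst
  · exact analyticAt_snd

theorem eq_smul_vec {u : E3} (h : u 0 ≠ 0) : u = u 0 • vec (u 1 / u 0, u 2 / u 0) := by
  ext i
  fin_cases i
  · simp [vec]
  · simp [vec]; field_simp
  · simp [vec]; field_simp

/-- the Hessian minor of the cubic form -/
def dl (f : E3 → ℂ) (u : E3) : ℂ := lq f 1 1 u * lq f 2 2 u - lq f 1 2 u ^ 2

/-- one arc -/
theorem arc {f : E3 → ℂ} (hf : AnalyticAt ℂ f 0) (h1 : ∀ i, coordDeriv f i 0 = 0)
    (h2 : ∀ i j, H2 f i j = 0) {w : ℂ × ℂ} (hq1 : pq f 1 (vec w) = 0) (hq2 : pq f 2 (vec w) = 0)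
    (hd : dl f (vec w) ≠ 0) :
    ∃ Z : ℂ → ℂ × ℂ, AnalyticAt ℂ Z 0 ∧ Z 0 = w ∧
      ∀ᶠ p : ℂ × (ℂ × ℂ) in 𝓝 (0, w), p.1 ≠ 0 →
        ((coordDeriv f 1 (p.1 • vec p.2) = 0 ∧ coordDeriv f 2 (p.1 • vec p.2) = 0) ↔
          p.2 = Z p.1) := by
  obtain ⟨U1, hU1, hU1e, hU1z⟩ := blow hf h1 h2 (vec w) 1
  obtain ⟨U2, hU2, hU2e, hU2z⟩ := blow hf h1 h2 (vec w) 2
  set m : ℂ × (ℂ × ℂ) → E3 × ℂ := fun q => (vec (w + q.2), q.1) with hm
  have hma : AnalyticAt ℂ m (0, 0) := by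
    refine AnalyticAt.prod ?_ analyticAt_fst
    refine AnalyticAt.fun_comp (g := vec) (f := fun q : ℂ × (ℂ × ℂ) => w + q.2) ?_
      (analyticAt_const.add analyticAt_snd)
    exact an_vec _
  have hm0 : m (0, 0) = (vec w, 0) := by simp [hm]
  set Pf : ℂ × (ℂ × ℂ) → ℂ × ℂ := fun q => (U1 (m q), U2 (m q)) with hPf
  have hPa : AnalyticAt ℂ Pf (0, 0) := by
    refine AnalyticAt.prod ?_ ?_
    · exact AnalyticAt.fun_comp (g := U1) (by rw [hm0]; exact hU1) hma
    · exact AnalyticAt.fun_comp (g := U2) (by rw [hm0]; exact hU2) hma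
  have hP0 : Pf (0, 0) = 0 := by
    simp only [hPf, hm0, hU1z.self_of_nhds, hU2z.self_of_nhds, hq1, hq2]
    rfl
  have hder : ∀ v : ℂ × ℂ, fderiv ℂ Pf (0, 0) ((0 : ℂ), v) =
      (lq f 1 1 (vec w) * v.1 + lq f 1 2 (vec w) * v.2,
        lq f 2 1 (vec w) * v.1 + lq f 2 2 (vec w) * v.2) := by
    intro v
    have hc : HasDerivAt (fun x : ℂ => ((0 : ℂ), x • v)) ((0 : ℂ), v) 0 := by
      have h3 : HasDerivAt (fun x : ℂ => x • v) v 0 := by
        simpa using (hasDerivAt_id (0 : ℂ)).smul_const v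
      exact (hasDerivAt_const (0 : ℂ) (0 : ℂ)).prodMk h3
    have hP' : HasFDerivAt Pf (fderiv ℂ Pf (0, 0)) ((0 : ℂ), (0 : ℂ) • v) := by
      rw [zero_smul]; exact hPa.differentiableAt.hasFDerivAt
    have h4 : HasDerivAt (fun x : ℂ => Pf ((0 : ℂ), x • v)) (fderiv ℂ Pf (0, 0) ((0 : ℂ), v)) 0 :=
      HasFDerivAt.comp_hasDerivAt (0 : ℂ) hP' hc
    have hcont : Tendsto (fun x : ℂ => vec (w + x • v)) (𝓝 0) (𝓝 (vec w)) := by
      have : Continuous (fun x : ℂ => vec (w + x • v)) := by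
        simp_rw [vec_add]
        fun_prop
      exact this.tendsto' _ _ (by simp)
    have hpoly : ∀ (i : Fin 3), HasDerivAt (fun x : ℂ => pq f i (vec (w + x • v)))
        (lq f i 1 (vec w) * v.1 + lq f i 2 (vec w) * v.2) 0 := by
      intro i
      have h5 : (fun x : ℂ => pq f i (vec (w + x • v))) = fun x =>
          pq f i (vec w) + x * (lq f i 1 (vec w) * v.1 + lq f i 2 (vec w) * v.2) +
            x ^ 2 * pq f i ![0, v.1, v.2] := by
        funext x
        rw [vec_add, pq_add hf]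
        congr 3
        simp [Fin.sum_univ_three]
      rw [h5]
      have h6 := (((hasDerivAt_id (0 : ℂ)).mul_const
        (lq f i 1 (vec w) * v.1 + lq f i 2 (vec w) * v.2)).const_add (pq f i (vec w))).add
          ((hasDerivAt_pow 2 (0 : ℂ)).mul_const (pq f i ![0, v.1, v.2]))
      refine h6.congr_deriv ?_
      simp
    have h7 : HasDerivAt (fun x : ℂ => Pf ((0 : ℂ), x • v))
        (lq f 1 1 (vec w) * v.1 + lq f 1 2 (vec w) * v.2,
          lq f 2 1 (vec w) * v.1 + lq f 2 2 (vec w) * v.2) 0 := by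
      refine ((hpoly 1).prodMk (hpoly 2)).congr_of_eventuallyEq ?_
      filter_upwards [hcont.eventually hU1z, hcont.eventually hU2z] with x e1 e2
      simp only [hPf, hm]
      rw [e1, e2]
    exact h4.unique h7
  have hinj : Function.Injective (fun v : ℂ × ℂ => fderiv ℂ Pf (0, 0) ((0 : ℂ), v)) := by
    intro v v' hvv
    simp only [hder, Prod.mk.injEq] at hvv
    obtain ⟨e1, e2⟩ := hvv
    rw [lq_symm hf 2 1] at e2
    have hd' : lq f 1 1 (vec w) * lq f 2 2 (vec w) - lq f 1 2 (vec w) ^ 2 ≠ 0 := hd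
    have k1 : (lq f 1 1 (vec w) * lq f 2 2 (vec w) - lq f 1 2 (vec w) ^ 2) * (v.1 - v'.1) = 0 := by
      linear_combination lq f 2 2 (vec w) * e1 - lq f 1 2 (vec w) * e2
    have k2 : (lq f 1 1 (vec w) * lq f 2 2 (vec w) - lq f 1 2 (vec w) ^ 2) * (v.2 - v'.2) = 0 := by
      linear_combination lq f 1 1 (vec w) * e2 - lq f 1 2 (vec w) * e1
    exact Prod.ext (sub_eq_zero.1 ((mul_eq_zero.1 k1).resolve_left hd'))
      (sub_eq_zero.1 ((mul_eq_zero.1 k2).resolve_left hd'))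
  obtain ⟨Z, hZ, hZ0, hZe⟩ := LCc_472.ift hPa hP0 hinj
  refine ⟨fun s => w + Z s, analyticAt_const.add hZ, by simp [hZ0], ?_⟩
  have ht1 : Tendsto (fun p : ℂ × (ℂ × ℂ) => ((p.1, p.2 - w) : ℂ × (ℂ × ℂ))) (𝓝 (0, w))
      (𝓝 (0, 0)) := by
    have : Continuous (fun p : ℂ × (ℂ × ℂ) => ((p.1, p.2 - w) : ℂ × (ℂ × ℂ))) := by fun_prop
    exact this.tendsto' _ _ (by simp)
  have ht2 : Tendsto (fun p : ℂ × (ℂ × ℂ) => ((vec p.2, p.1) : E3 × ℂ)) (𝓝 (0, w))
      (𝓝 (vec w, 0)) := by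
    have h3 : ContinuousAt (fun p : ℂ × (ℂ × ℂ) => ((vec p.2, p.1) : E3 × ℂ)) (0, w) := by
      refine ContinuousAt.prodMk ?_ continuousAt_fst
      exact ContinuousAt.comp (g := vec) (f := fun p : ℂ × (ℂ × ℂ) => p.2) (an_vec w).continuousAt
        continuousAt_snd
    exact h3
  filter_upwards [ht1.eventually hZe, ht2.eventually hU1e, ht2.eventually hU2e] with p e0 e1 e2 hp
  have hp2 : p.1 ^ 2 ≠ 0 := pow_ne_zero 2 hp
  rw [e1, e2, mul_eq_zero, mul_eq_zero, or_iff_right hp2, or_iff_right hp2]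
  have hmp : m (p.1, p.2 - w) = (vec p.2, p.1) := by simp [hm]
  have h3 : Pf (p.1, p.2 - w) = (U1 (vec p.2, p.1), U2 (vec p.2, p.1)) := by
    simp only [hPf, hmp]
  rw [h3] at e0
  have h4 : (U1 (vec p.2, p.1) = 0 ∧ U2 (vec p.2, p.1) = 0) ↔
      (U1 (vec p.2, p.1), U2 (vec p.2, p.1)) = ((0 : ℂ), (0 : ℂ)) := by
    rw [Prod.mk.injEq]
  rw [h4]
  refine (e0.trans ?_)
  constructor
  · intro h; rw [← h]; abel
  · intro h; rw [h]; abel

end

end Crest.Agent.R257.Ev1_838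
end

-- ▼ part R257/Ev2_838
section

/-!
# R257 (S0395), leaf LCX3 (helper838), part 2: the structure `Arcs` of EVa_929 for a germ with
vanishing 2-jet whose polar conics meet in simple points
-/

set_option autoImplicit false
set_option linter.unusedSectionVars false

open Set Filter Topology Complex
open scoped ContDiff

namespace Crest.Agent.R257.Ev2_838

open Defs_219 LCDefs_472 Node_547 LcN_980 LCc_472 Ev1_838 EVa_929
open Crest.AlgGeometry.Germ

noncomputable section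

theorem fderiv_cd2 (f : E3 → ℂ) (j k : Fin 3) (v : E3) :
    fderiv ℂ (coordDeriv (coordDeriv f j) k) 0 v = lq f j k v := by
  rw [fderiv_apply_eq]
  unfold lq H3
  exact Finset.sum_congr rfl fun l _ => mul_comm _ _

/-- the structure `Arcs` -/
theorem arcs {f : E3 → ℂ} (hf : AnalyticAt ℂ f 0) (h1 : ∀ i, coordDeriv f i 0 = 0)
    (h2 : ∀ i j, H2 f i j = 0) {ι : Type} [Nonempty ι] (W : ι → ℂ × ℂ)
    (hW : Function.Injective W) (hq1 : ∀ i, pq f 1 (vec (W i)) = 0)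
    (hq2 : ∀ i, pq f 2 (vec (W i)) = 0) (hd : ∀ i, dl f (vec (W i)) ≠ 0)
    (hz : ∀ u : E3, u ≠ 0 → pq f 1 u = 0 → pq f 2 u = 0 → ∃ i, u = u 0 • vec (W i)) :
    ∃ (γ : ι → ℂ → E3) (D : ι → ℂ → ℂ), Arcs f γ D ∧ (∀ i, D i 0 = dl f (vec (W i))) ∧
      ∀ i, HasDerivAt (γ i) (vec (W i)) 0 := by
  classical
  choose Z hZ hZ0 hZe using fun i => arc hf h1 h2 (hq1 i) (hq2 i) (hd i)
  set γ : ι → ℂ → E3 := fun i τ => τ • vec (Z i τ) with hγ
  have hvZ : ∀ i, AnalyticAt ℂ (fun τ => vec (Z i τ)) 0 := fun i =>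
    AnalyticAt.fun_comp (g := vec) (an_vec _) (hZ i)
  have hγan : ∀ i, AnalyticAt ℂ (γ i) 0 := fun i => analyticAt_id.smul (hvZ i)
  have hγ0 : ∀ i, γ i 0 = 0 := fun i => by simp [hγ]
  have hγd : ∀ i, HasDerivAt (γ i) (vec (W i)) 0 := by
    intro i
    have h3 := (hasDerivAt_id (0 : ℂ)).smul (hvZ i).differentiableAt.hasDerivAt
    refine h3.congr_deriv ?_
    simp [hZ0]
  -- zeros on the arcs
  have hc : ∀ i, ∀ᶠ τ in 𝓝 (0 : ℂ), coordDeriv f 1 (γ i τ) = 0 ∧ coordDeriv f 2 (γ i τ) = 0 := by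
    intro i
    have ht : Tendsto (fun τ : ℂ => (τ, Z i τ)) (𝓝 0) (𝓝 (0, W i)) := by
      have : ContinuousAt (fun τ : ℂ => (τ, Z i τ)) 0 := continuousAt_id.prodMk (hZ i).continuousAt
      have h3 := this.tendsto
      rwa [hZ0 i] at h3
    filter_upwards [ht.eventually (hZe i)] with τ hτ
    by_cases h0 : τ = 0
    · subst h0
      rw [hγ0]
      exact ⟨h1 1, h1 2⟩
    · exact (hτ h0).2 rfl
  -- second derivatives on the arcs
  have hs2 : ∀ i j k, Tendsto (fun τ : ℂ => τ⁻¹ * coordDeriv (coordDeriv f j) k (γ i τ)) (𝓝[≠] 0)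
      (𝓝 (lq f j k (vec (W i)))) := by
    intro i j k
    have ha : AnalyticAt ℂ (coordDeriv (coordDeriv f j) k) 0 := EVa_929.an_cd (EVa_929.an_cd hf j) k
    have h3 : HasFDerivAt (coordDeriv (coordDeriv f j) k)
        (fderiv ℂ (coordDeriv (coordDeriv f j) k) 0) (γ i 0) := by
      rw [hγ0]; exact ha.differentiableAt.hasFDerivAt
    have h4 := h3.comp_hasDerivAt (0 : ℂ) (hγd i)
    rw [fderiv_cd2] at h4
    have h5 := h4.tendsto_slope_zero
    refine h5.congr fun τ => ?_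
    have h6 : coordDeriv (coordDeriv f j) k 0 = 0 := h2 j k
    simp only [Function.comp, zero_add, hγ0, h6, sub_zero, smul_eq_mul]
  have hmi : ∀ i, Tendsto (fun τ : ℂ => mi f (γ i τ) / τ ^ 2) (𝓝[≠] 0)
      (𝓝 (dl f (vec (W i)))) := by
    intro i
    have h3 := ((hs2 i 1 1).mul (hs2 i 2 2)).sub ((hs2 i 1 2).mul (hs2 i 2 1))
    have h4 : lq f 1 1 (vec (W i)) * lq f 2 2 (vec (W i)) - lq f 1 2 (vec (W i)) *
        lq f 2 1 (vec (W i)) = dl f (vec (W i)) := by
      unfold dl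
      rw [lq_symm hf 2 1]; ring
    rw [h4] at h3
    refine h3.congr' ?_
    filter_upwards [self_mem_nhdsWithin] with τ hτ
    have hτ' : τ ≠ 0 := hτ
    unfold mi
    field_simp
  set D : ι → ℂ → ℂ := fun i τ => if τ = 0 then dl f (vec (W i)) else mi f (γ i τ) / τ ^ 2 with hD
  have hD0 : ∀ i, D i 0 = dl f (vec (W i)) := fun i => by simp [hD]
  refine ⟨γ, D, ⟨hγan, hγ0, ?_, fun i => (hc i).mono fun _ h => h.1,
    fun i => (hc i).mono fun _ h => h.2, ?_, ?_, ?_, ?_, fun i => by rw [hD0]; exact hd i⟩, hD0, hγd⟩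
  · -- par
    intro i
    exact Eventually.of_forall fun τ => by simp [hγ, vec]
  · -- full
    have key : ∀ u ∈ Metric.sphere (0 : E3) 1, ∀ᶠ z : ℂ × E3 in 𝓝 (0, u), z.1 ≠ 0 →
        coordDeriv f 1 (z.1 • z.2) = 0 → coordDeriv f 2 (z.1 • z.2) = 0 →
          ∃ i, z.1 • z.2 = γ i ((z.1 • z.2) 0) := by
      intro u hu
      have hu1 : ‖u‖ = 1 := by simpa using hu
      have hu0 : u ≠ 0 := by
        intro h
        rw [h, norm_zero] at hu1
        exact zero_ne_one hu1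
      have hsw : Tendsto (fun z : ℂ × E3 => (z.2, z.1)) (𝓝 (0, u)) (𝓝 (u, 0)) :=
        continuous_swap.tendsto _
      have hne : ∀ j, pq f j u ≠ 0 → ∀ᶠ z : ℂ × E3 in 𝓝 (0, u), z.1 ≠ 0 →
          coordDeriv f j (z.1 • z.2) ≠ 0 := by
        intro j hj
        obtain ⟨U, hU, hUe, hUz⟩ := blow hf h1 h2 u j
        have hU0 : U (u, 0) ≠ 0 := by rw [hUz.self_of_nhds]; exact hj
        filter_upwards [hsw.eventually hUe, hsw.eventually (hU.continuousAt.eventually_ne hU0)]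
          with z e1 e2 hz0
        rw [e1]
        exact mul_ne_zero (pow_ne_zero 2 hz0) e2
      by_cases h3 : pq f 1 u = 0
      · by_cases h4 : pq f 2 u = 0
        · obtain ⟨i, hi⟩ := hz u hu0 h3 h4
          have hui : u 0 ≠ 0 := by
            intro h
            rw [h, zero_smul] at hi
            exact hu0 hi
          have hw : (u 1 / u 0, u 2 / u 0) = W i := by
            have e1 : u 1 = u 0 * (W i).1 := by
              have := congrFun hi 1
              simpa [vec] using this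
            have e2 : u 2 = u 0 * (W i).2 := by
              have := congrFun hi 2
              simpa [vec] using this
            rw [e1, e2]
            ext <;> simp <;> field_simp
          have ht : Tendsto (fun z : ℂ × E3 => (z.1 * z.2 0, (z.2 1 / z.2 0, z.2 2 / z.2 0)))
              (𝓝 (0, u)) (𝓝 (0, W i)) := by
            have c0 : ∀ j, ContinuousAt (fun z : ℂ × E3 => z.2 j) (0, u) := fun j =>
              ((continuous_apply j).comp continuous_snd).continuousAt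
            have hcont : ContinuousAt
                (fun z : ℂ × E3 => (z.1 * z.2 0, (z.2 1 / z.2 0, z.2 2 / z.2 0))) (0, u) :=
              (continuousAt_fst.mul (c0 0)).prodMk
                (((c0 1).div (c0 0) hui).prodMk ((c0 2).div (c0 0) hui))
            have h5 := hcont.tendsto
            simp only [zero_mul] at h5
            rwa [hw] at h5
          have hne0 : ∀ᶠ z : ℂ × E3 in 𝓝 (0, u), z.2 0 ≠ 0 := by
            have c0 : ContinuousAt (fun z : ℂ × E3 => z.2 0) (0, u) :=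
              ((continuous_apply 0).comp continuous_snd).continuousAt
            exact c0.eventually_ne hui
          filter_upwards [ht.eventually (hZe i), hne0] with z e1 e2 hz1 e3 e4
          have hzv : z.1 • z.2 = (z.1 * z.2 0) • vec (z.2 1 / z.2 0, z.2 2 / z.2 0) := by
            conv_lhs => rw [eq_smul_vec e2]
            rw [smul_smul]
          rw [hzv] at e3 e4
          have h6 := (e1 (mul_ne_zero hz1 e2)).1 ⟨e3, e4⟩
          refine ⟨i, ?_⟩
          have h7 : (z.1 • z.2) 0 = z.1 * z.2 0 := by simp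
          rw [h7]
          simp only [hγ]
          rw [hzv, ← h6]
        · filter_upwards [hne 2 h4] with z e1 hz1 _ e3
          exact absurd e3 (e1 hz1)
      · filter_upwards [hne 1 h3] with z e1 hz1 e3 _
        exact absurd e3 (e1 hz1)
    have hall := (isCompact_sphere (0 : E3) 1).eventually_forall_of_forall_eventually
      (P := fun (s : ℂ) (v : E3) => s ≠ 0 → coordDeriv f 1 (s • v) = 0 →
        coordDeriv f 2 (s • v) = 0 → ∃ i, s • v = γ i ((s • v) 0)) key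
    have ht : Tendsto (fun p : E3 => ((‖p‖ : ℝ) : ℂ)) (𝓝 0) (𝓝 0) := by
      have : Continuous (fun p : E3 => ((‖p‖ : ℝ) : ℂ)) := by fun_prop
      exact this.tendsto' _ _ (by simp)
    filter_upwards [ht.eventually hall] with p hp e1 e2
    by_cases h0 : p = 0
    · refine ⟨Classical.arbitrary ι, ?_⟩
      rw [h0]
      simp [hγ0]
    · have hn : ((‖p‖ : ℝ) : ℂ) ≠ 0 := by
        rw [Ne, Complex.ofReal_eq_zero]
        exact norm_ne_zero_iff.2 h0
      have hv : ((‖p‖ : ℝ) : ℂ) • (((‖p‖ : ℝ) : ℂ)⁻¹ • p) = p := by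
        rw [smul_smul, mul_inv_cancel₀ hn, one_smul]
      have h3 := hp (((‖p‖ : ℝ) : ℂ)⁻¹ • p) (by
        rw [mem_sphere_zero_iff_norm, norm_smul, norm_inv, Complex.norm_real, norm_norm]
        exact inv_mul_cancel₀ (norm_ne_zero_iff.2 h0)) hn
      rw [hv] at h3
      exact h3 e1 e2
  · -- inj
    intro i j hij
    have h3 : Z i 0 ≠ Z j 0 := by
      rw [hZ0, hZ0]
      exact fun h => hij (hW h)
    have h4 : ∀ᶠ τ in 𝓝 (0 : ℂ), Z i τ ≠ Z j τ :=
      ((hZ i).continuousAt.sub (hZ j).continuousAt).eventually_ne (sub_ne_zero.2 h3) |>.mono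
        fun τ h5 h6 => h5 (sub_eq_zero.2 h6)
    filter_upwards [nhdsWithin_le_nhds h4, self_mem_nhdsWithin] with τ h5 h6 h7
    refine h5 ?_
    have h8 : vec (Z i τ) = vec (Z j τ) := smul_right_injective E3 h6 h7
    have e1 := congrFun h8 1
    have e2 := congrFun h8 2
    exact Prod.ext (by simpa [vec] using e1) (by simpa [vec] using e2)
  · -- minor
    intro i
    refine Eventually.of_forall fun τ => ?_
    by_cases h0 : τ = 0
    · subst h0
      rw [hγ0]
      have h3 : ∀ j k, coordDeriv (coordDeriv f j) k 0 = 0 := h2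
      unfold mi
      rw [h3, h3, h3]; ring
    · simp only [hD, if_neg h0]
      field_simp
  · -- continuity
    intro i
    rw [continuousAt_iff_punctured_nhds]
    rw [hD0]
    refine (hmi i).congr' ?_
    filter_upwards [self_mem_nhdsWithin] with τ hτ
    have hτ' : τ ≠ 0 := hτ
    simp only [hD, if_neg hτ']

end

end Crest.Agent.R257.Ev2_838
end

-- ▼ part R257/Ev3_838
section

/-!
# R257 (S0395), leaf LCX3 (helper838), part 3: linear changes of coordinates (derivatives, `hs`,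
`Good`), orders on the arcs
-/

set_option autoImplicit false
set_option linter.unusedSectionVars false

open Set Filter Topology Complex
open scoped ContDiff

namespace Crest.Agent.R257.Ev3_838

open Defs_219 LCDefs_472 Node_547 LcN_980 LCc_472 Ev1_838 EVa_929 LcxDefs_759
open Crest.AlgGeometry.Germ

noncomputable section

theorem cd_sum {κ : Type} (s : Finset κ) {c : κ → ℂ} {h : κ → E3 → ℂ} {x : E3}
    (hh : ∀ j ∈ s, DifferentiableAt ℂ (h j) x) (k : Fin 3) :
    coordDeriv (fun y => ∑ j ∈ s, c j * h j y) k x = ∑ j ∈ s, c j * coordDeriv (h j) k x := by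
  unfold coordDeriv
  have h1 : HasFDerivAt (fun y => ∑ j ∈ s, c j * h j y) (∑ j ∈ s, c j • fderiv ℂ (h j) x) x :=
    HasFDerivAt.fun_sum fun j hj => (hh j hj).hasFDerivAt.const_mul (c j)
  rw [h1.fderiv, sum_apply]
  rfl

theorem cd_lin (f : E3 → ℂ) (A : E3 ≃L[ℂ] E3) (i : Fin 3) :
    coordDeriv (fun x => f (A x)) i = fun x => ∑ j, A (Pi.single i 1) j * coordDeriv f j (A x) := by
  funext x
  rw [← fderiv_apply_eq]
  unfold coordDeriv
  have : fderiv ℂ (f ∘ A) x = (fderiv ℂ f (A x)).comp (A : E3 →L[ℂ] E3) := A.comp_right_fderiv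
  change fderiv ℂ (f ∘ A) x _ = _
  rw [this]
  rfl

theorem cd2_lin {f : E3 → ℂ} {A : E3 ≃L[ℂ] E3} {x : E3} (hf : AnalyticAt ℂ f (A x)) (i k : Fin 3) :
    coordDeriv (coordDeriv (fun x => f (A x)) i) k x =
      ∑ j, ∑ l, A (Pi.single i 1) j * A (Pi.single k 1) l * coordDeriv (coordDeriv f j) l (A x) := by
  rw [cd_lin, cd_sum]
  · refine Finset.sum_congr rfl fun j _ => ?_
    have := congrFun (cd_lin (coordDeriv f j) A k) x
    rw [this, Finset.mul_sum]
    exact Finset.sum_congr rfl fun l _ => by ring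
  · intro j _
    exact (EVa_929.an_cd hf j).differentiableAt.comp x A.differentiableAt

theorem H2_lin {f : E3 → ℂ} {A : E3 ≃L[ℂ] E3} (hf : AnalyticAt ℂ f 0) (h2 : ∀ i j, H2 f i j = 0)
    (i j : Fin 3) : H2 (fun x => f (A x)) i j = 0 := by
  unfold H2
  rw [cd2_lin (by rw [map_zero]; exact hf), map_zero]
  have h3 : ∀ i j, coordDeriv (coordDeriv f i) j 0 = 0 := h2
  simp [h3]

theorem H3_lin {f : E3 → ℂ} {A : E3 ≃L[ℂ] E3} (hf : AnalyticAt ℂ f 0) (i j k : Fin 3) :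
    H3 (fun x => f (A x)) i j k = D3 f (A (Pi.single i 1)) (A (Pi.single j 1)) (A (Pi.single k 1)) := by
  have hA : Tendsto (fun x : E3 => A x) (𝓝 0) (𝓝 0) := by
    have := A.continuous.tendsto 0
    rwa [map_zero] at this
  have h1 : coordDeriv (coordDeriv (fun x => f (A x)) i) j =ᶠ[𝓝 0] fun x =>
      ∑ a, A (Pi.single i 1) a * (∑ b, A (Pi.single j 1) b * coordDeriv (coordDeriv f a) b (A x)) := by
    filter_upwards [hA.eventually hf.eventually_analyticAt] with x hx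
    rw [cd2_lin hx]
    simp only [Finset.mul_sum, mul_assoc]
  have h2 : ∀ a b, AnalyticAt ℂ (coordDeriv (coordDeriv f a) b) (A 0) := fun a b => by
    rw [map_zero]; exact EVa_929.an_cd (EVa_929.an_cd hf a) b
  have h3 : ∀ a b, DifferentiableAt ℂ (fun x => coordDeriv (coordDeriv f a) b (A x)) 0 := fun a b =>
    (h2 a b).differentiableAt.comp 0 A.differentiableAt
  unfold H3
  have h4 : coordDeriv (coordDeriv (coordDeriv (fun x => f (A x)) i) j) k 0 =
      coordDeriv (fun x => ∑ a, A (Pi.single i 1) a *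
        (∑ b, A (Pi.single j 1) b * coordDeriv (coordDeriv f a) b (A x))) k 0 := by
    rw [coordDeriv, coordDeriv, h1.fderiv_eq]
  rw [h4, cd_sum]
  · unfold D3 H3
    refine Finset.sum_congr rfl fun a _ => ?_
    rw [cd_sum _ fun b _ => h3 a b, Finset.mul_sum]
    refine Finset.sum_congr rfl fun b _ => ?_
    have := congrFun (cd_lin (coordDeriv (coordDeriv f a) b) A k) 0
    rw [this, map_zero, Finset.mul_sum, Finset.mul_sum]
    exact Finset.sum_congr rfl fun c _ => by ring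
  · intro a _
    exact DifferentiableAt.fun_sum fun b _ => (h3 a b).const_mul _

/-- the matrix of `A` -/
def mt (A : E3 ≃L[ℂ] E3) : Matrix (Fin 3) (Fin 3) ℂ := Matrix.of fun j i => A (Pi.single i 1) j

theorem mt_toMatrix (A : E3 ≃L[ℂ] E3) : mt A = LinearMap.toMatrix' (A : E3 →ₗ[ℂ] E3) := by
  ext i j
  rw [LinearMap.toMatrix'_apply]
  simp only [mt, Matrix.of_apply]
  congr 2


theorem mt_det (A : E3 ≃L[ℂ] E3) : (mt A).det ≠ 0 := by
  rw [mt_toMatrix, LinearMap.det_toMatrix']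
  exact (LinearEquiv.isUnit_det' A.toLinearEquiv).ne_zero

theorem hs_lin {f : E3 → ℂ} {A : E3 ≃L[ℂ] E3} {x : E3} (hf : AnalyticAt ℂ f (A x)) :
    hs (fun x => f (A x)) x = (mt A).det ^ 2 * hs f (A x) := by
  unfold hs
  have h1 : (Matrix.of fun i j : Fin 3 => coordDeriv (coordDeriv (fun x => f (A x)) j) i x) =
      (mt A).transpose * (Matrix.of fun i j : Fin 3 => coordDeriv (coordDeriv f j) i (A x)) *
        mt A := by
    ext i j
    rw [Matrix.of_apply, cd2_lin hf, Matrix.mul_apply]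
    refine Finset.sum_congr rfl fun a _ => ?_
    rw [Matrix.mul_apply, Finset.sum_mul]
    refine Finset.sum_congr rfl fun b _ => ?_
    simp only [mt, Matrix.transpose_apply, Matrix.of_apply]
    ring
  rw [h1, Matrix.det_mul, Matrix.det_mul, Matrix.det_transpose]
  ring

/-- small gradients are attained near the origin only -/
theorem proper' {f : E3 → ℂ} {r ε : ℝ} (hε : 0 < ε)
    (han : ∀ x : E3, ‖x‖ ≤ r → AnalyticAt ℂ f x)
    (hcr : ∀ x : E3, ‖x‖ ≤ r → (∀ i, coordDeriv f i x = 0) → x = 0) :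
    ∃ δ > 0, ∀ y : E3, ‖y‖ < δ → ∀ x : E3, ‖x‖ ≤ r → (∀ i, coordDeriv f i x = y i) →
      ‖x‖ < ε := by
  have hK : IsCompact {x : E3 | ‖x‖ ≤ r ∧ ε ≤ ‖x‖} := by
    refine (isCompact_closedBall (0 : E3) r).of_isClosed_subset ?_ ?_
    · exact (isClosed_le continuous_norm continuous_const).inter
        (isClosed_le continuous_const continuous_norm)
    · rintro x ⟨hx, -⟩
      simpa using hx
  by_cases hne : {x : E3 | ‖x‖ ≤ r ∧ ε ≤ ‖x‖}.Nonempty
  · have hcont : ContinuousOn (fun x => ‖gr f x‖) {x : E3 | ‖x‖ ≤ r ∧ ε ≤ ‖x‖} := by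
      intro x hx
      have : ContinuousAt (gr f) x :=
        continuousAt_pi.2 fun i => (EVa_929.an_cd (han x hx.1) i).continuousAt
      exact this.norm.continuousWithinAt
    obtain ⟨x₀, hx₀, hmin⟩ := hK.exists_isMinOn hne hcont
    have hpos : 0 < ‖gr f x₀‖ := by
      rw [norm_pos_iff]
      intro h0
      have h1 := hcr x₀ hx₀.1 fun i => congrFun h0 i
      have h2 : ε ≤ ‖x₀‖ := hx₀.2
      rw [h1, norm_zero] at h2
      exact absurd h2 (not_le.2 hε)
    refine ⟨‖gr f x₀‖, hpos, fun y hy x hx hg => ?_⟩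
    by_contra hcon
    have h2 : ‖gr f x₀‖ ≤ ‖gr f x‖ := hmin (show x ∈ {x : E3 | ‖x‖ ≤ r ∧ ε ≤ ‖x‖} from
      ⟨hx, not_lt.1 hcon⟩)
    have h3 : gr f x = y := funext hg
    rw [h3] at h2
    linarith
  · refine ⟨1, one_pos, fun y _ x hx _ => ?_⟩
    by_contra hcon
    exact hne ⟨x, hx, not_lt.1 hcon⟩

theorem grad_lin (f : E3 → ℂ) (A : E3 ≃L[ℂ] E3) (x y : E3) :
    (∀ i, coordDeriv (fun x => f (A x)) i x = (mt A).transpose.mulVec y i) ↔
      ∀ i, coordDeriv f i (A x) = y i := by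
  have h1 : ∀ i, coordDeriv (fun x => f (A x)) i x = (mt A).transpose.mulVec (gr f (A x)) i := by
    intro i
    rw [cd_lin]
    simp only [Matrix.mulVec, dotProduct, Matrix.transpose_apply, mt, Matrix.of_apply, gr]
  constructor
  · intro h
    have h2 : (mt A).transpose.mulVec (gr f (A x)) = (mt A).transpose.mulVec y :=
      funext fun i => by rw [← h1, h]
    have h3 : Function.Injective (mt A).transpose.mulVec :=
      Matrix.mulVec_injective_iff_isUnit.2 ((Matrix.isUnit_iff_isUnit_det _).2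
        (by rw [Matrix.det_transpose]; exact (mt_det A).isUnit))
    exact fun i => congrFun (h3 h2) i
  · intro h i
    rw [h1]
    have : gr f (A x) = y := funext h
    rw [this]

/-- `Good` under linear changes -/
theorem good_lin {f : E3 → ℂ} {r C : ℝ} (hG : Good f r C) (A : E3 ≃L[ℂ] E3) :
    ∃ r', Good (fun x => f (A x)) r' (C / ‖(mt A).det‖ ^ 2) := by
  have hdet : 0 < ‖(mt A).det‖ := norm_pos_iff.2 (mt_det A)
  set r' : ℝ := r / (‖(A : E3 →L[ℂ] E3)‖ + 1) with hr'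
  have hr0 := hG.r_pos
  have hr'0 : 0 < r' := by positivity
  have hAr : ∀ x, ‖x‖ ≤ r' → ‖A x‖ < r := by
    intro x hx
    have h1 : ‖A x‖ ≤ ‖(A : E3 →L[ℂ] E3)‖ * ‖x‖ := (A : E3 →L[ℂ] E3).le_opNorm x
    have h2 : ‖(A : E3 →L[ℂ] E3)‖ * ‖x‖ ≤ ‖(A : E3 →L[ℂ] E3)‖ * r' := by gcongr
    have h3 : ‖(A : E3 →L[ℂ] E3)‖ * r' < r := by
      rw [hr', ← mul_div_assoc, div_lt_iff₀ (by positivity)]
      nlinarith [norm_nonneg (A : E3 →L[ℂ] E3)]
    linarith
  set ε : ℝ := r' / (‖(A.symm : E3 →L[ℂ] E3)‖ + 1) with hε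
  have hε0 : 0 < ε := by positivity
  have hAε : ∀ x, ‖x‖ < ε → ‖A.symm x‖ < r' := by
    intro x hx
    have h1 : ‖A.symm x‖ ≤ ‖(A.symm : E3 →L[ℂ] E3)‖ * ‖x‖ := (A.symm : E3 →L[ℂ] E3).le_opNorm x
    have h2 : ‖(A.symm : E3 →L[ℂ] E3)‖ * ‖x‖ ≤ ‖(A.symm : E3 →L[ℂ] E3)‖ * ε := by gcongr
    have h3 : ‖(A.symm : E3 →L[ℂ] E3)‖ * ε < r' := by
      rw [hε, ← mul_div_assoc, div_lt_iff₀ (by positivity)]
      nlinarith [norm_nonneg (A.symm : E3 →L[ℂ] E3)]
    linarith
  have han : ∀ x, ‖x‖ ≤ r' → AnalyticAt ℂ (fun x => f (A x)) x := fun x hx =>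
    AnalyticAt.fun_comp (g := f) (hG.an _ (hAr x hx).le) ((A : E3 →L[ℂ] E3).analyticAt x)
  refine ⟨r', hr'0, han, by simp only [map_zero, hG.zero], ?_, ?_, ?_⟩
  · intro i
    rw [cd_lin]
    simp only [map_zero, hG.crit0, mul_zero, Finset.sum_const_zero]
  · intro x hx h1
    have h2 : ∀ i, coordDeriv f i (A x) = (0 : E3) i := by
      refine (grad_lin f A x 0).1 fun i => ?_
      rw [h1 i, Matrix.mulVec_zero]; rfl
    have h3 := hG.crit (A x) (hAr x hx).le h2
    simpa using h3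
  · obtain ⟨δ, hδ, hb⟩ := hG.tb
    obtain ⟨δ1, hδ1, hp⟩ := proper' (r := r) hε0 hG.an hG.crit
    -- the inverse of the transpose
    set B : Matrix (Fin 3) (Fin 3) ℂ := ((mt A).transpose)⁻¹ with hB
    have hBc : Tendsto (fun y : E3 => B.mulVec y) (𝓝 0) (𝓝 0) := by
      have : Continuous (fun y : E3 => B.mulVec y) := Continuous.matrix_mulVec continuous_const
        continuous_id
      exact this.tendsto' _ _ (Matrix.mulVec_zero _)
    have hBB : ∀ y, (mt A).transpose.mulVec (B.mulVec y) = y := by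
      intro y
      rw [Matrix.mulVec_mulVec, hB, Matrix.mul_nonsing_inv, Matrix.one_mulVec]
      rw [Matrix.det_transpose]
      exact (mt_det A).isUnit
    obtain ⟨δ2, hδ2, hB2⟩ := Metric.eventually_nhds_iff_ball.1
      (hBc.eventually (Metric.ball_mem_nhds (0 : E3) (lt_min hδ hδ1)))
    refine ⟨δ2, hδ2, fun y hy hreg Z hZ => ?_⟩
    have hy2 := hB2 y (by rwa [mem_ball_zero_iff])
    rw [dist_zero_right, lt_min_iff] at hy2
    set y' := B.mulVec y with hy'
    have hiff : ∀ x : E3, (∀ i, coordDeriv (fun x => f (A x)) i x = y i) ↔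
        ∀ i, coordDeriv f i (A x) = y' i := by
      intro x
      have := grad_lin f A x y'
      rw [hBB] at this
      exact this
    have hinj : Function.Injective A := A.injective
    have hsol : ∀ x : E3, x ∈ Metric.ball (0 : E3) r → (∀ i, coordDeriv f i x = y' i) →
        A.symm x ∈ Metric.ball (0 : E3) r' ∧
          ∀ i, coordDeriv (fun x => f (A x)) i (A.symm x) = y i := by
      intro x hx h1
      have h2 : ‖x‖ < r := mem_ball_zero_iff.1 hx
      refine ⟨mem_ball_zero_iff.2 (hAε x (hp y' hy2.2 x h2.le h1)), ?_⟩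
      rw [hiff, A.apply_symm_apply]
      exact h1
    have hh : ∀ x, x ∈ Metric.ball (0 : E3) r' → hs (fun x => f (A x)) x =
        (mt A).det ^ 2 * hs f (A x) := fun x hx =>
      hs_lin (hG.an _ (hAr x (mem_ball_zero_iff.1 hx).le).le)
    have hb' := hb y' hy2.1 ?_ (Z.map ⟨A, hinj⟩) ?_
    · rw [Finset.sum_map] at hb'
      have hsum : ∑ x ∈ Z, (fun x => f (A x)) x / hs (fun x => f (A x)) x =
          ((mt A).det ^ 2)⁻¹ * ∑ x ∈ Z, f ((⟨A, hinj⟩ : E3 ↪ E3) x) /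
            hs f ((⟨A, hinj⟩ : E3 ↪ E3) x) := by
        rw [Finset.mul_sum]
        refine Finset.sum_congr rfl fun x hx => ?_
        have h1 := ((hZ x).1 hx).1
        rw [hh x h1]
        simp only [Function.Embedding.coeFn_mk]
        have hd := mt_det A
        have h2 : hs f (A x) ≠ 0 := by
          intro h0
          have h3 := hreg x h1 ((hZ x).1 hx).2
          rw [hh x h1, h0, mul_zero] at h3
          exact h3 rfl
        field_simp
      rw [hsum, norm_mul, norm_inv, norm_pow, inv_mul_eq_div]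
      gcongr
    · intro x hx h1
      obtain ⟨h2, h3⟩ := hsol x hx h1
      have h4 := hreg _ h2 h3
      rw [hh _ h2, A.apply_symm_apply] at h4
      exact right_ne_zero_of_mul h4
    · intro x
      rw [Finset.mem_map]
      constructor
      · rintro ⟨z, hz, rfl⟩
        have h1 := (hZ z).1 hz
        refine ⟨mem_ball_zero_iff.2 (hAr z (mem_ball_zero_iff.1 h1.1).le), ?_⟩
        exact (hiff z).1 h1.2
      · rintro ⟨h1, h2⟩
        exact ⟨A.symm x, (hZ _).2 (hsol x h1 h2), A.apply_symm_apply x⟩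

/-- the cubic term on an arc -/
theorem lim3 {f : E3 → ℂ} (hf : AnalyticAt ℂ f 0) (h0 : f 0 = 0)
    (h1 : ∀ i, coordDeriv f i 0 = 0) (h2 : ∀ i j, H2 f i j = 0) {γ : ℂ → E3} {v : E3}
    (hγ : HasDerivAt γ v 0) (hγ0 : γ 0 = 0) :
    Tendsto (fun τ => f (γ τ) / τ ^ 3) (𝓝[≠] 0) (𝓝 (D3 f v v v / 6)) := by
  have hsl : Tendsto (fun τ : ℂ => τ⁻¹ • γ τ) (𝓝[≠] 0) (𝓝 v) := by
    have := hγ.tendsto_slope_zero
    simpa [hγ0] using this
  have hD : Continuous fun x : E3 => D3 f x x x := by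
    unfold D3
    fun_prop
  have hD1 : Tendsto (fun τ : ℂ => D3 f (τ⁻¹ • γ τ) (τ⁻¹ • γ τ) (τ⁻¹ • γ τ) / 6) (𝓝[≠] 0)
      (𝓝 (D3 f v v v / 6)) := ((hD.tendsto v).comp hsl).div_const 6
  -- the remainder
  have hO := taylor3 hf h0 h1 h2
  have hγt : Tendsto γ (𝓝[≠] 0) (𝓝 0) := by
    have := hγ.continuousAt.tendsto
    rw [hγ0] at this
    exact this.mono_left nhdsWithin_le_nhds
  have hO2 := hO.comp_tendsto hγt
  have hrem : Tendsto (fun τ : ℂ => (f (γ τ) - D3 f (γ τ) (γ τ) (γ τ) / 6) / τ ^ 3) (𝓝[≠] 0)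
      (𝓝 0) := by
    have h3 : (fun τ : ℂ => (f (γ τ) - D3 f (γ τ) (γ τ) (γ τ) / 6) / τ ^ 3) =O[𝓝[≠] 0]
        fun τ : ℂ => ‖γ τ‖ ^ 4 / ‖τ‖ ^ 3 := by
      have h4 : (fun τ : ℂ => ((τ : ℂ) ^ 3)⁻¹) =O[𝓝[≠] 0] fun τ : ℂ => (‖τ‖ ^ 3)⁻¹ := by
        refine Asymptotics.IsBigO.of_bound 1 (Eventually.of_forall fun τ => ?_)
        rw [norm_inv, norm_inv, norm_pow, norm_pow, norm_norm, one_mul]
      refine (hO2.mul h4).congr_left fun τ => ?_
      simp only [Function.comp, div_eq_mul_inv]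
    refine h3.trans_tendsto ?_
    have h5 : Tendsto (fun τ : ℂ => ‖τ⁻¹ • γ τ‖ ^ 4 * ‖τ‖) (𝓝[≠] 0) (𝓝 (‖v‖ ^ 4 * 0)) := by
      refine (hsl.norm.pow 4).mul ?_
      have : Tendsto (fun τ : ℂ => ‖τ‖) (𝓝 0) (𝓝 0) := by
        simpa using (continuous_norm (E := ℂ)).tendsto 0
      exact this.mono_left nhdsWithin_le_nhds
    rw [mul_zero] at h5
    refine h5.congr' ?_
    filter_upwards [self_mem_nhdsWithin] with τ hτ
    have hτ' : ‖τ‖ ≠ 0 := norm_ne_zero_iff.2 hτ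
    rw [norm_smul, norm_inv]
    field_simp
  have h6 := hrem.add hD1
  rw [zero_add] at h6
  refine h6.congr' ?_
  filter_upwards [self_mem_nhdsWithin] with τ hτ
  have hτ' : τ ≠ 0 := hτ
  have h7 : D3 f (τ⁻¹ • γ τ) (τ⁻¹ • γ τ) (τ⁻¹ • γ τ) = (τ ^ 3)⁻¹ * D3 f (γ τ) (γ τ) (γ τ) := by
    rw [D3_smul, D3_smul2 hf, D3_smul3 hf]
    field_simp
  rw [h7]
  field_simp
  ring

/-- the order of `f` on an arc -/
theorem ord3 {q : ℂ → ℂ} {g : ℂ → ℂ} {c : ℂ} {p : ℕ} (hg : AnalyticAt ℂ g 0) (hg0 : g 0 ≠ 0)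
    (hq : ∀ᶠ τ in 𝓝 (0 : ℂ), q τ = τ ^ p * g τ)
    (hl : Tendsto (fun τ => q τ / τ ^ 3) (𝓝[≠] 0) (𝓝 c)) :
    (c ≠ 0 → p = 3) ∧ (c = 0 → 4 ≤ p) := by
  have hgt : Tendsto g (𝓝[≠] 0) (𝓝 (g 0)) := hg.continuousAt.tendsto.mono_left nhdsWithin_le_nhds
  have hid : Tendsto (fun τ : ℂ => τ) (𝓝[≠] 0) (𝓝 0) := tendsto_id.mono_left nhdsWithin_le_nhds
  rcases lt_trichotomy p 3 with h | h | h
  · exfalso
    have h1 : Tendsto (fun τ => τ ^ (3 - p) * (q τ / τ ^ 3)) (𝓝[≠] 0) (𝓝 (0 ^ (3 - p) * c)) :=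
      (hid.pow _).mul hl
    rw [zero_pow (by omega), zero_mul] at h1
    refine hg0 (tendsto_nhds_unique (hgt.congr' ?_) h1)
    filter_upwards [nhdsWithin_le_nhds hq, self_mem_nhdsWithin] with τ h2 h3
    have h3' : τ ≠ 0 := h3
    rw [h2]
    have h4 : τ ^ 3 = τ ^ (3 - p) * τ ^ p := by rw [← pow_add]; congr 1; omega
    have h5 : τ ^ (3 - p) ≠ 0 := pow_ne_zero _ h3'
    have h6 : τ ^ p ≠ 0 := pow_ne_zero _ h3'
    rw [h4]
    field_simp
  · subst h
    refine ⟨fun _ => rfl, fun hc => ?_⟩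
    exfalso
    subst hc
    refine hg0 (tendsto_nhds_unique (hgt.congr' ?_) hl)
    filter_upwards [nhdsWithin_le_nhds hq, self_mem_nhdsWithin] with τ h2 h3
    have h3' : τ ≠ 0 := h3
    rw [h2]
    field_simp
  · refine ⟨fun hc => ?_, fun _ => h⟩
    exfalso
    have h1 : Tendsto (fun τ => τ ^ (p - 3) * g τ) (𝓝[≠] 0) (𝓝 (0 ^ (p - 3) * g 0)) :=
      (hid.pow _).mul hgt
    rw [zero_pow (by omega), zero_mul] at h1
    refine hc (tendsto_nhds_unique (hl.congr' ?_) h1)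
    filter_upwards [nhdsWithin_le_nhds hq, self_mem_nhdsWithin] with τ h2 h3
    have h3' : τ ≠ 0 := h3
    rw [h2]
    have h4 : τ ^ p = τ ^ (p - 3) * τ ^ 3 := by rw [← pow_add]; congr 1; omega
    rw [h4]
    field_simp

/-- the evaluation of the trace bound for `f ∘ A` -/
theorem evalA {f : E3 → ℂ} {r C : ℝ} (hG : Good f r C) (h2 : ∀ i j, H2 f i j = 0)
    (A : E3 ≃L[ℂ] E3) {ι : Type} [Fintype ι] [Nonempty ι] (W : ι → ℂ × ℂ)
    (hW : Function.Injective W) (hq1 : ∀ i, pq (fun x => f (A x)) 1 (vec (W i)) = 0)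
    (hq2 : ∀ i, pq (fun x => f (A x)) 2 (vec (W i)) = 0)
    (hd : ∀ i, dl (fun x => f (A x)) (vec (W i)) ≠ 0)
    (hz : ∀ u : E3, u ≠ 0 → pq (fun x => f (A x)) 1 u = 0 → pq (fun x => f (A x)) 2 u = 0 →
      ∃ i, u = u 0 • vec (W i)) :
    ∃ p : ι → ℕ, (∀ i, D3 (fun x => f (A x)) (vec (W i)) (vec (W i)) (vec (W i)) ≠ 0 → p i = 3) ∧
      (∀ i, D3 (fun x => f (A x)) (vec (W i)) (vec (W i)) (vec (W i)) = 0 → 4 ≤ p i) ∧
      ‖∑ i, 1 / (p i * dl (fun x => f (A x)) (vec (W i)))‖ ≤ C / ‖(mt A).det‖ ^ 2 := by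
  obtain ⟨r', hg⟩ := good_lin hG A
  have hf0 : AnalyticAt ℂ f 0 := hG.an 0 (by simpa using hG.r_pos.le)
  have hf : AnalyticAt ℂ (fun x => f (A x)) 0 := hg.an 0 (by simpa using hg.r_pos.le)
  obtain ⟨γ, D, hA, hD, hγ⟩ := Ev2_838.arcs hf hg.crit0 (H2_lin hf0 h2) W hW hq1 hq2 hd hz
  obtain ⟨p, hp, hgi, hb⟩ := arc_bound hf hg.zero hg.crit0 hA hg.r_pos hg.an hg.crit hg.tb
  have hord : ∀ i, (D3 (fun x => f (A x)) (vec (W i)) (vec (W i)) (vec (W i)) / 6 ≠ 0 → p i = 3) ∧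
      (D3 (fun x => f (A x)) (vec (W i)) (vec (W i)) (vec (W i)) / 6 = 0 → 4 ≤ p i) := by
    intro i
    obtain ⟨g, hga, hg0, hge⟩ := hgi i
    exact ord3 hga hg0 hge (lim3 hf hg.zero hg.crit0 (H2_lin hf0 h2) (hγ i) (hA.z0 i))
  refine ⟨p, fun i h => (hord i).1 (div_ne_zero h (by norm_num)),
    fun i h => (hord i).2 (by rw [h]; simp), ?_⟩
  simp only [hD] at hb
  exact hb

end

end Crest.Agent.R257.Ev3_838
end

-- ▼ part R257/Ev4_838

/-!
# R257 (S0395), leaf LCX3 (helper838), part 4: the normal form `xyz + a y³ + b z³` of a nodal cubic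
with a node; the inequality `NodalStmt` of LcxDefs_759
-/

set_option autoImplicit false
set_option linter.unusedSectionVars false

open Set Filter Topology Complex
open scoped ContDiff

namespace Crest.Agent.R257.Ev4_838

open Defs_219 LCDefs_472 Node_547 LcN_980 LCc_472 Ev1_838 EVa_929 LcxDefs_759 Ev3_838
open Crest.AlgGeometry.Germ

noncomputable section

/-- the matrix with columns `v, u, w` -/
def P3 (v u w : E3) : Matrix (Fin 3) (Fin 3) ℂ := Matrix.of fun j i => (![v, u, w] : Fin 3 → E3) i j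

/-- adapted basis: the cubic form is `x y z + a y³ + b z³` in the basis `v, u, w` -/
structure Bs (f : E3 → ℂ) (v u w : E3) (a b : ℂ) : Prop where
  vv : ∀ x, D3 f v v x = 0
  vuu : D3 f v u u = 0
  vww : D3 f v w w = 0
  vuw : D3 f v u w = 1
  uuw : D3 f u u w = 0
  uww : D3 f u w w = 0
  uuu : D3 f u u u = 6 * a
  www : D3 f w w w = 6 * b
  det : (P3 v u w).det ≠ 0

/-- linear combination -/
def cmb (v u w : E3) (X : E3) : E3 := X 0 • v + X 1 • u + X 2 • w

variable {f : E3 → ℂ} {v u w : E3} {a b : ℂ}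

theorem P3_mulVec (v u w X : E3) : (P3 v u w).mulVec X = cmb v u w X := by
  ext j
  simp only [P3, cmb, Matrix.mulVec, dotProduct, Fin.sum_univ_three, Matrix.of_apply, Pi.add_apply,
    Pi.smul_apply, smul_eq_mul, Matrix.cons_val_zero, Matrix.cons_val_one, Matrix.cons_val]
  ring

theorem D3_p12 (hf : AnalyticAt ℂ f 0) (x y z : E3) : D3 f x y z = D3 f y x z := by
  rw [D3_cyc hf, D3_swap hf]

theorem Bs.tri (h : Bs f v u w a b) (hf : AnalyticAt ℂ f 0) (X Y Z : E3) :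
    D3 f (cmb v u w X) (cmb v u w Y) (cmb v u w Z) =
      X 0 * (Y 1 * Z 2 + Y 2 * Z 1) + X 1 * (Y 0 * Z 2 + Y 2 * Z 0) +
        X 2 * (Y 0 * Z 1 + Y 1 * Z 0) + 6 * a * X 1 * Y 1 * Z 1 + 6 * b * X 2 * Y 2 * Z 2 := by
  have s := D3_swap hf
  have c := D3_p12 hf
  have v2 : ∀ x, D3 f v x v = 0 := fun x => by rw [s v x v, h.vv]
  have v3 : ∀ x, D3 f x v v = 0 := fun x => by rw [c x v v, v2]
  have a2 : D3 f u v u = 0 := by rw [c u v u, h.vuu]
  have a3 : D3 f u u v = 0 := by rw [s u u v, a2]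
  have b2 : D3 f w v w = 0 := by rw [c w v w, h.vww]
  have b3 : D3 f w w v = 0 := by rw [s w w v, b2]
  have c2 : D3 f v w u = 1 := by rw [s v w u, h.vuw]
  have c3 : D3 f u v w = 1 := by rw [c u v w, h.vuw]
  have c4 : D3 f u w v = 1 := by rw [s u w v, c3]
  have c5 : D3 f w v u = 1 := by rw [c w v u, c2]
  have c6 : D3 f w u v = 1 := by rw [s w u v, c5]
  have d2 : D3 f u w u = 0 := by rw [s u w u, h.uuw]
  have d3 : D3 f w u u = 0 := by rw [c w u u, d2]
  have e2 : D3 f w u w = 0 := by rw [c w u w, h.uww]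
  have e3 : D3 f w w u = 0 := by rw [s w w u, e2]
  unfold cmb
  simp only [D3_add, D3_add2 hf, D3_add3 hf, D3_smul, D3_smul2 hf, D3_smul3 hf, h.vv, v2, v3,
    h.vuu, a2, a3, h.vww, b2, b3, h.vuw, c2, c3, c4, c5, c6, h.uuw, d2, d3, h.uww, e2, e3,
    h.uuu, h.www]
  ring

theorem Bs.swap (h : Bs f v u w a b) (hf : AnalyticAt ℂ f 0) : Bs f v w u b a where
  vv := h.vv
  vuu := h.vww
  vww := h.vuu
  vuw := by rw [D3_swap hf, h.vuw]
  uuw := by
    have := h.uww
    rw [D3_p12 hf, D3_swap hf] at this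
    exact this
  uww := by
    have := h.uuw
    rw [D3_swap hf, D3_p12 hf] at this
    exact this
  uuu := h.www
  www := h.uuu
  det := by
    have h1 : (P3 v w u).det = -(P3 v u w).det := by
      simp only [P3, Matrix.det_fin_three, Matrix.of_apply, Matrix.cons_val_zero,
        Matrix.cons_val_one, Matrix.cons_val]
      ring
    rw [h1]
    exact neg_ne_zero.2 h.det

theorem Bs.scale (h : Bs f v u w a b) (hf : AnalyticAt ℂ f 0) {s : ℂ} (hs : s ≠ 0) :
    Bs f (s • v) (s⁻¹ • u) w (a / s ^ 3) b ∧ (P3 (s • v) (s⁻¹ • u) w).det = (P3 v u w).det := by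
  have h1 : (P3 (s • v) (s⁻¹ • u) w).det = (P3 v u w).det := by
    simp only [P3, Matrix.det_fin_three, Matrix.of_apply, Matrix.cons_val_zero,
      Matrix.cons_val_one, Matrix.cons_val, Pi.smul_apply, smul_eq_mul]
    field_simp
  refine ⟨⟨?_, ?_, ?_, ?_, ?_, ?_, ?_, h.www, by rw [h1]; exact h.det⟩, h1⟩
  · intro x
    rw [D3_smul, D3_smul2 hf, h.vv]; ring
  · rw [D3_smul, D3_smul2 hf, D3_smul3 hf, h.vuu]; ring
  · rw [D3_smul, h.vww]; ring
  · rw [D3_smul, D3_smul2 hf, h.vuw]; field_simp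
  · rw [D3_smul, D3_smul2 hf, h.uuw]; ring
  · rw [D3_smul, h.uww]; ring
  · rw [D3_smul, D3_smul2 hf, D3_smul3 hf, h.uuu]; field_simp

/-- reduction to `a ∈ {0, 1}` -/
theorem Bs.norm1 (h : Bs f v u w a b) (hf : AnalyticAt ℂ f 0) :
    ∃ v' u' a', Bs f v' u' w a' b ∧ (a' = 0 ∨ a' = 1) ∧ (a' = 0 ↔ a = 0) ∧
      (P3 v' u' w).det = (P3 v u w).det := by
  by_cases ha : a = 0
  · exact ⟨v, u, a, h, Or.inl ha, Iff.rfl, rfl⟩
  · obtain ⟨s, hs⟩ := IsAlgClosed.exists_pow_nat_eq a (n := 3) (by norm_num)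
    have hs0 : s ≠ 0 := by
      rintro rfl
      exact ha (by rw [← hs]; ring)
    obtain ⟨h1, h2⟩ := h.scale hf hs0
    have h3 : a / s ^ 3 = 1 := by rw [hs]; exact div_self ha
    rw [h3] at h1
    exact ⟨_, _, 1, h1, Or.inr rfl, by simp [ha], h2⟩

/-- three shapes -/
theorem Bs.norm (h : Bs f v u w a b) (hf : AnalyticAt ℂ f 0) :
    ∃ v' u' w' a' b', Bs f v' u' w' a' b' ∧ ((a' = 0 ∧ b' = 0) ∨ (a' = 1 ∧ b' = 0) ∨
      (a' = 1 ∧ b' = 1)) ∧ ‖(P3 v' u' w').det‖ = ‖(P3 v u w).det‖ := by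
  obtain ⟨v1, u1, a1, h1, c1, -, d1⟩ := h.norm1 hf
  obtain ⟨v2, w2, b2, h2, c2, -, d2⟩ := (h1.swap hf).norm1 hf
  have dsw : ∀ v u w : E3, ‖(P3 v w u).det‖ = ‖(P3 v u w).det‖ := by
    intro v u w
    have h1 : (P3 v w u).det = -(P3 v u w).det := by
      simp only [P3, Matrix.det_fin_three, Matrix.of_apply, Matrix.cons_val_zero,
        Matrix.cons_val_one, Matrix.cons_val]
      ring
    rw [h1, norm_neg]
  have e : ‖(P3 v2 w2 u1).det‖ = ‖(P3 v u w).det‖ := by rw [d2, dsw, d1]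
  rcases c1 with c1 | c1
  · rcases c2 with c2 | c2
    · exact ⟨v2, w2, u1, b2, a1, h2, Or.inl ⟨c2, c1⟩, e⟩
    · exact ⟨v2, w2, u1, b2, a1, h2, Or.inr (Or.inl ⟨c2, c1⟩), e⟩
  · rcases c2 with c2 | c2
    · exact ⟨v2, u1, w2, a1, b2, h2.swap hf, Or.inr (Or.inl ⟨c1, c2⟩), by rw [dsw, e]⟩
    · exact ⟨v2, w2, u1, b2, a1, h2, Or.inr (Or.inr ⟨c2, c1⟩), e⟩

/-- existence of an adapted basis at an ordinary node -/
theorem exists_bs (hf : AnalyticAt ℂ f 0) {v : E3} (hv : v ≠ 0) (hvv : ∀ x, D3 f v v x = 0)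
    (hk : ∀ y : E3, (∀ x, D3 f v y x = 0) → ∃ c : ℂ, y = c • v) :
    ∃ v' u w a b, Bs f v' u w a b := by
  have s := D3_swap hf
  have c := D3_p12 hf
  -- an isotropic vector
  obtain ⟨u, huu, hu⟩ : ∃ u : E3, D3 f v u u = 0 ∧ ¬ ∃ c : ℂ, u = c • v := by
    obtain ⟨e, he⟩ : ∃ e : E3, LinearIndependent ℂ ![v, e] := by
      have h1 : LinearIndependent ℂ ![v] := LinearIndependent.of_subsingleton (ι := Fin 1) 0 hv
      obtain ⟨e, he⟩ := exists_linearIndependent_cons_of_lt_finrank h1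
        (by rw [Module.finrank_fintype_fun_eq_card]; decide)
      refine ⟨e, ?_⟩
      rw [LinearIndependent.pair_symm_iff]
      exact he
    obtain ⟨e', he'⟩ := exists_linearIndependent_cons_of_lt_finrank he
      (by rw [Module.finrank_fintype_fun_eq_card]; decide)
    have hli : ∀ x y z : ℂ, x • e' + y • v + z • e = 0 → x = 0 ∧ y = 0 ∧ z = 0 := by
      intro x y z h
      have := Fintype.linearIndependent_iff.1 he' ![x, y, z] (by
        rw [Fin.sum_univ_three]; exact h)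
      exact ⟨this 0, this 1, this 2⟩
    by_cases hA : D3 f v e e = 0
    · refine ⟨e, hA, ?_⟩
      rintro ⟨k, hk⟩
      have := hli 0 (-k) 1 (by rw [hk]; simp)
      exact one_ne_zero this.2.2
    · -- a root of `A x² + 2 B x + C`
      obtain ⟨r, hr⟩ := IsAlgClosed.exists_pow_nat_eq
        ((D3 f v e e' ) ^ 2 - D3 f v e e * D3 f v e' e') (n := 2) (by norm_num)
      set x := (-(D3 f v e e') + r) / D3 f v e e with hx
      refine ⟨x • e + e', ?_, ?_⟩
      · have h1 : D3 f v (x • e + e') (x • e + e') =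
            x ^ 2 * D3 f v e e + 2 * x * D3 f v e e' + D3 f v e' e' := by
          rw [D3_add2 hf, D3_add3 hf, D3_add3 hf, D3_smul2 hf, D3_smul2 hf, D3_smul3 hf,
            D3_smul3 hf, s v e' e]
          ring
        rw [h1, hx]
        field_simp
        linear_combination hr
      · rintro ⟨k, hk⟩
        have := hli 1 (-k) x (by
          have : (1 : ℂ) • e' + (-k) • v + x • e = (x • e + e') - k • v := by
            simp only [one_smul, neg_smul]; abel
          rw [this, hk, sub_self])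
        exact one_ne_zero this.1
  -- a partner
  obtain ⟨w', hw'⟩ : ∃ w', D3 f v u w' ≠ 0 := by
    by_contra h
    push Not at h
    exact hu (hk u h)
  set β := D3 f v u w' with hβ
  set w1 : E3 := w' - (D3 f v w' w' / (2 * β)) • u with hw1
  have hsub : w1 = w' + (-(D3 f v w' w' / (2 * β))) • u := by rw [hw1, neg_smul, sub_eq_add_neg]
  have hw1w1 : D3 f v w1 w1 = 0 := by
    rw [hsub, D3_add2 hf, D3_add3 hf, D3_add3 hf, D3_smul2 hf, D3_smul2 hf, D3_smul3 hf,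
      D3_smul3 hf, s v w' u, huu, ← hβ]
    field_simp
    ring
  have hvuw1 : D3 f v u w1 = β := by
    rw [hsub, D3_add3 hf, D3_smul3 hf, huu, ← hβ]; ring
  set w2 : E3 := β⁻¹ • w1 with hw2
  have hvuw2 : D3 f v u w2 = 1 := by
    rw [hw2, D3_smul3 hf, hvuw1, inv_mul_cancel₀ hw']
  have hw2w2 : D3 f v w2 w2 = 0 := by
    rw [hw2, D3_smul2 hf, D3_smul3 hf, hw1w1]; ring
  -- the correction by `v`
  set u3 : E3 := u + (-(D3 f u u w2 / 2)) • v with hu3
  set w3 : E3 := w2 + (-(D3 f u w2 w2 / 2)) • v with hw3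
  have v2 : ∀ x, D3 f v x v = 0 := fun x => by rw [s v x v, hvv]
  have v3 : ∀ x, D3 f x v v = 0 := fun x => by rw [c x v v, v2]
  have a2 : D3 f u v u = 0 := by rw [c u v u, huu]
  have a3 : D3 f u u v = 0 := by rw [s u u v, a2]
  have b2 : D3 f w2 v w2 = 0 := by rw [c w2 v w2, hw2w2]
  have b3 : D3 f w2 w2 v = 0 := by rw [s w2 w2 v, b2]
  have c3 : D3 f u v w2 = 1 := by rw [c u v w2, hvuw2]
  have c4 : D3 f u w2 v = 1 := by rw [s u w2 v, c3]
  refine ⟨v, u3, w3, D3 f u3 u3 u3 / 6, D3 f w3 w3 w3 / 6, hvv, ?_, ?_, ?_, ?_, ?_, by ring,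
    by ring, ?_⟩
  · simp only [hu3, D3_add2 hf, D3_add3 hf, D3_smul2 hf, D3_smul3 hf, hvv, v2, huu]; ring
  · simp only [hw3, D3_add2 hf, D3_add3 hf, D3_smul2 hf, D3_smul3 hf, hvv, v2, hw2w2]; ring
  · simp only [hu3, hw3, D3_add2 hf, D3_add3 hf, D3_smul2 hf, D3_smul3 hf, hvv, v2, hvuw2]; ring
  · simp only [hu3, hw3, D3_add, D3_smul, D3_add2 hf, D3_add3 hf, D3_smul2 hf, D3_smul3 hf, hvv,
      v2, v3, a3, hvuw2, c3]
    ring
  · simp only [hu3, hw3, D3_add, D3_smul, D3_add2 hf, D3_add3 hf, D3_smul2 hf, D3_smul3 hf, hvv,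
      v2, v3, hw2w2, c3, c4]
    ring
  · -- linear independence
    intro hdet
    obtain ⟨X, hX0, hX⟩ := Matrix.exists_mulVec_eq_zero_iff.2 hdet
    rw [P3_mulVec] at hX
    have e1 : D3 f v (cmb v u3 w3 X) u3 = 0 := by
      rw [hX]
      have := D3_smul2 hf (0 : ℂ) (0 : E3) v u3
      simpa using this
    have e2 : D3 f v (cmb v u3 w3 X) w3 = 0 := by
      rw [hX]
      have := D3_smul2 hf (0 : ℂ) (0 : E3) v w3
      simpa using this
    have c2 : D3 f v w2 u = 1 := by rw [s v w2 u, hvuw2]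
    have f1 : D3 f v (cmb v u3 w3 X) u3 = X 2 := by
      simp only [cmb, hu3, hw3, D3_add2 hf, D3_add3 hf, D3_smul2 hf, D3_smul3 hf, hvv, v2, huu, c2]
      ring
    have f2 : D3 f v (cmb v u3 w3 X) w3 = X 1 := by
      simp only [cmb, hu3, hw3, D3_add2 hf, D3_add3 hf, D3_smul2 hf, D3_smul3 hf, hvv, v2, hw2w2,
        hvuw2]
      ring
    rw [f1] at e1
    rw [f2] at e2
    have e0 : X 0 = 0 := by
      unfold cmb at hX
      rw [e1, e2, zero_smul, zero_smul, add_zero, add_zero] at hX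
      exact (smul_eq_zero.1 hX).resolve_right hv
    exact hX0 (funext fun i => by fin_cases i <;> assumption)

end

end Crest.Agent.R257.Ev4_838
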