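import Crest.Agent.R257.Fr7_808
import Crest.Agent.R257.Fr10_808

-- ▼ part R257/Fr8_808
section

/-!
R257 / Fr8_808: (E3) and the final statement `ep_of : EPof`.
-/

set_option autoImplicit false

open Topology Filter MeasureTheory Set Function
open Crest.AlgGeometry.Germ

noncomputable section

namespace Crest.Agent.R257.Fr_808

open Crest.Agent.R257.Defs_219
open Crest.Agent.R257.Gr1_157

theorem fderiv_01 {K : ℂ × ℂ → ℂ} {p : ℂ × ℂ} (h : DifferentiableAt ℂ K p) :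
    HasDerivAt (fun z => K (p.1, z)) (fderiv ℂ K p (0, 1)) p.2 := by
  have h1 : HasDerivAt (fun z : ℂ => (p.1, z)) ((0 : ℂ), (1 : ℂ)) p.2 :=
    (hasDerivAt_const p.2 p.1).prodMk (hasDerivAt_id p.2)
  exact h.hasFDerivAt.comp_hasDerivAt_of_eq p.2 h1 rfl

/-- the local form of (E3) -/
theorem e3_loc {f g h : E3 → ℂ} {θ : ℂ × ℂ → E3} {p₁ : ℂ × ℂ} (h1 : p₁.1 = 0)
    (hθ : AnalyticAt ℂ θ p₁)
    (hf : AnalyticAt ℂ f (θ p₁)) (hg : AnalyticAt ℂ g (θ p₁)) (hh : AnalyticAt ℂ h (θ p₁))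
    (hz : ∀ᶠ p in 𝓝 p₁, f (θ p) = 0) {ν : ℤ} {U : ℂ × ℂ → ℂ} (hU : ContinuousAt U p₁)
    (hj : ∀ᶠ p in 𝓝 p₁, p.1 ≠ 0 → coordDeriv f 0 (θ p) ≠ 0 ∧
      jac2 θ p = coordDeriv f 0 (θ p) * p.1 ^ (-ν - 1) * U p)
    {a k : ℕ} (ha : 0 < a) (hak : (a : ℤ) = k * ν) {G H : ℂ × ℂ → ℂ} (hG : AnalyticAt ℂ G p₁)
    (hH : AnalyticAt ℂ H p₁) (hgG : ∀ᶠ p in 𝓝 p₁, g (θ p) = p.1 ^ a * G p)
    (hhH : ∀ᶠ p in 𝓝 p₁, h (θ p) = p.1 ^ a * H p)
    (hG0 : G p₁ = 0) (hG' : fderiv ℂ G p₁ (0, 1) ≠ 0) (hH0 : H p₁ ≠ 0) :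
    ∃ C : ℝ, 0 ≤ C ∧ ∀ᶠ p in 𝓝 p₁, p.1 ≠ 0 →
      ‖h (θ p)‖ ^ (2 * k + 1) ≤ C * ‖Dt f g h (θ p)‖ ^ k := by
  obtain ⟨b, hb, hlow⟩ := dt_low h1 hθ hf hg hh hz hU hj ha hG hH hgG hhH hG0 hG' hH0
  have hHb : ∀ᶠ p in 𝓝 p₁, ‖H p‖ < ‖H p₁‖ + 1 :=
    hH.continuousAt.norm.eventually_lt continuousAt_const (by simp)
  refine ⟨(‖H p₁‖ + 1) ^ (2 * k + 1) / b ^ k, by positivity, ?_⟩
  filter_upwards [hlow, hHb, hhH] with p h2 h3 h4 hp
  have hx : 0 < ‖p.1‖ := norm_pos_iff.2 hp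
  have e1 : (‖p.1‖ ^ a) ^ (2 * k + 1) = (‖p.1‖ ^ (2 * (a : ℤ) + ν)) ^ k := by
    rw [← zpow_natCast, ← zpow_natCast, ← zpow_natCast, ← zpow_mul, ← zpow_mul]
    congr 1
    rw [hak]
    push_cast
    ring
  have e2 : b ^ k * (‖p.1‖ ^ (2 * (a : ℤ) + ν)) ^ k ≤ ‖Dt f g h (θ p)‖ ^ k := by
    rw [← mul_pow]
    exact pow_le_pow_left₀ (by positivity) (h2 hp) k
  calc ‖h (θ p)‖ ^ (2 * k + 1) = (‖p.1‖ ^ a) ^ (2 * k + 1) * ‖H p‖ ^ (2 * k + 1) := by
        rw [h4, norm_mul, norm_pow, mul_pow]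
    _ ≤ (‖p.1‖ ^ (2 * (a : ℤ) + ν)) ^ k * (‖H p₁‖ + 1) ^ (2 * k + 1) := by
        rw [e1]
        exact mul_le_mul_of_nonneg_left (pow_le_pow_left₀ (norm_nonneg _) h3.le _) (by positivity)
    _ = (‖H p₁‖ + 1) ^ (2 * k + 1) / b ^ k * (b ^ k * (‖p.1‖ ^ (2 * (a : ℤ) + ν)) ^ k) := by
        field_simp
    _ ≤ _ := mul_le_mul_of_nonneg_left e2 (by positivity)

namespace Frame

variable {f : E3 → ℂ} {F : Frame f}

/-- the first function is not `0` on `V` -/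
theorem PairD.freq {q : F.I → ℝ} {k : ℕ} {m : F.I → ℕ} {g h : E3 → ℂ} (hI : Nonempty F.I)
    (P : F.PairD q k m g h) : ∃ᶠ x in 𝓝 (0 : E3), f x = 0 ∧ g x ≠ 0 := by
  obtain ⟨i⟩ := hI
  obtain ⟨c, -⟩ := F.surj i
  have hp : ((0 : ℂ), (0 : ℂ)) ∈ F.SF c := F.mem_SF1 c (by simp)
  obtain ⟨G, H, hG, -, hor⟩ := P.loc c _ hp
  have hG0 : G (0, 0) ≠ 0 := by
    rcases hor with h | ⟨-, ⟨-, h, -⟩ | ⟨-, -, h, -⟩⟩
    · exact h
    · exact absurd rfl h
    · exact absurd rfl h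
  have h2 : Tendsto (F.th c) (𝓝 (0, 0)) (𝓝 0) := by
    have := (F.an c _ hp.1).continuousAt.tendsto
    rwa [F.th_SF hp] at this
  refine h2.frequently ?_
  have hBD : ∀ᶠ p in 𝓝 ((0 : ℂ), (0 : ℂ)), p ∈ BD := by
    have h1 : ∀ᶠ p in 𝓝 ((0 : ℂ), (0 : ℂ)), ‖p.1‖ < 1 :=
      (continuousAt_fst.norm).eventually_lt continuousAt_const (by simp)
    have h2 : ∀ᶠ p in 𝓝 ((0 : ℂ), (0 : ℂ)), ‖p.2‖ < 1 :=
      (continuousAt_snd.norm).eventually_lt continuousAt_const (by simp)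
    filter_upwards [h1, h2] with p h3 h4 using ⟨h3.le, h4.le⟩
  refine ((freq2 (0, 0)).and_eventually
    ((hG.2.and (hG.1.continuousAt.eventually_ne hG0)).and hBD)).mono ?_
  rintro p ⟨⟨h3, h4⟩, ⟨h5, h6⟩, h7⟩
  exact ⟨F.onV c p h7, by rw [h5]; exact mul_ne_zero (F.mo_ne' m h3 h4) h6⟩

/-- the orders of the first function are `m` -/
theorem PairD.ordg {q : F.I → ℝ} {k : ℕ} {m : F.I → ℕ} {g h : E3 → ℂ} (hI : Nonempty F.I)
    (P : F.PairD q k m g h) : F.Ord g m := by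
  obtain ⟨v, hv⟩ := F.exists_Ord P.ang (P.freq hI)
  have hvm : v = m := by
    funext i
    refine le_antisymm (hv.ge_of fun c hc => ?_) (hv.ge P.geg i)
    have hp : ((0 : ℂ), (0 : ℂ)) ∈ F.SF c := F.mem_SF1 c (by simp)
    obtain ⟨G, H, hG, -, hor⟩ := P.loc c _ hp
    have hG0 : G (0, 0) ≠ 0 := by
      rcases hor with h | ⟨-, ⟨-, h, -⟩ | ⟨-, -, h, -⟩⟩
      · exact h
      · exact absurd rfl h
      · exact absurd rfl h
    have h5 : Tendsto (fun z : ℂ => ((0 : ℂ), z)) (𝓝[≠] 0) (𝓝 (0, 0)) := by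
      have : ContinuousAt (fun z : ℂ => ((0 : ℂ), z)) 0 := by fun_prop
      exact this.tendsto.mono_left nhdsWithin_le_nhds
    filter_upwards [h5.eventually (hG.eventually.and (hG.1.continuousAt.eventually_ne hG0)),
      self_mem_nhdsWithin] with z hz hz0
    obtain ⟨H, hH, hH0, hHe⟩ := hz.1.lead hz.2 hz0
    rw [hc] at hHe
    exact ⟨H, hH.continuousAt, hH0, hHe⟩
  rw [hvm] at hv
  exact hv

theorem PairD.dgm {q : F.I → ℝ} {k : ℕ} {m : F.I → ℕ} {g h : E3 → ℂ}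
    (P : F.PairD q k m g h) (i : F.I) :
    dg F.M (fun i => (m i : ℝ)) i = k * dg F.M q i := by
  have h1 : (fun i => (m i : ℝ)) = (k : ℝ) • q := by
    funext i
    rw [P.hm i]; rfl
  rw [h1, dg_smul]

/-- at a component where `dg m ≠ 0` the order is `k nu` -/
theorem PairD.eq_nu {q : F.I → ℝ} {k : ℕ} {m : F.I → ℕ} {g h : E3 → ℂ}
    (P : F.PairD q k m g h) {i : F.I} (hi : dg F.M (fun i => (m i : ℝ)) i ≠ 0) :
    (m i : ℤ) = k * F.nu i := by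
  have h1 : q i = F.nu i := by
    by_contra h
    apply hi
    rw [P.dgm, P.isP.dg_eq i h, mul_zero]
  have h2 := P.hm i
  rw [h1] at h2
  exact_mod_cast h2

/-- (E3) near every point of the special fibre -/
theorem PairD.e3_near (hf : AnalyticAt ℂ f 0) {q : F.I → ℝ} {k : ℕ} {m : F.I → ℕ}
    {g h : E3 → ℂ} (hI : Nonempty F.I) (P : F.PairD q k m g h) {c : F.K} {p₀ : ℂ × ℂ}
    (hp : p₀ ∈ F.SF c) : ∃ C : ℝ, ∀ᶠ p in 𝓝 p₀, p ∈ BD → p ∉ F.SF c →
      ‖h (F.th c p)‖ ^ (2 * k + 1) ≤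
        C * (‖g (F.th c p)‖ ^ (2 * k + 1) + ‖Dt f g h (F.th c p)‖ ^ k) := by
  obtain ⟨G, H, hG, hH, hor⟩ := P.loc c p₀ hp
  have hth0 := F.th_SF hp
  by_cases hG0 : G p₀ ≠ 0
  · -- `|h| ≤ C |g|`
    have hGpos : 0 < ‖G p₀‖ := norm_pos_iff.2 hG0
    have h1 : ∀ᶠ p in 𝓝 p₀, ‖G p₀‖ / 2 < ‖G p‖ :=
      continuousAt_const.eventually_lt hG.1.continuousAt.norm (by linarith)
    have h2 : ∀ᶠ p in 𝓝 p₀, ‖H p‖ < ‖H p₀‖ + 1 :=
      hH.1.continuousAt.norm.eventually_lt continuousAt_const (by simp)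
    refine ⟨((‖H p₀‖ + 1) / (‖G p₀‖ / 2)) ^ (2 * k + 1), ?_⟩
    filter_upwards [h1, h2, hG.2, hH.2] with p h3 h4 h5 h6 _ _
    have e1 : ‖h (F.th c p)‖ ≤ (‖H p₀‖ + 1) / (‖G p₀‖ / 2) * ‖g (F.th c p)‖ := by
      rw [h5, h6, norm_mul, norm_mul, div_mul_eq_mul_div, le_div_iff₀ (by positivity)]
      have h7 : ‖H p‖ * (‖G p₀‖ / 2) ≤ (‖H p₀‖ + 1) * ‖G p‖ :=
        mul_le_mul h4.le h3.le (by positivity) (by positivity)
      have h8 := mul_le_mul_of_nonneg_left h7 (norm_nonneg (F.mo m c p))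
      linarith
    calc ‖h (F.th c p)‖ ^ (2 * k + 1)
        ≤ ((‖H p₀‖ + 1) / (‖G p₀‖ / 2) * ‖g (F.th c p)‖) ^ (2 * k + 1) :=
          pow_le_pow_left₀ (norm_nonneg _) e1 _
      _ = ((‖H p₀‖ + 1) / (‖G p₀‖ / 2)) ^ (2 * k + 1) * ‖g (F.th c p)‖ ^ (2 * k + 1) :=
          mul_pow _ _ _
      _ ≤ _ := by
          refine mul_le_mul_of_nonneg_left ?_ (by positivity)
          have : 0 ≤ ‖Dt f g h (F.th c p)‖ ^ k := by positivity
          linarith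
  · have hG0' : G p₀ = 0 := not_not.1 hG0
    obtain ⟨hH0, hSm⟩ := hor.resolve_left hG0
    have hord := P.ordg hI
    obtain ⟨G1, hG1, hG1a, hG1b⟩ := hord.2 c p₀ hp
    have hG1e : G1 p₀ = 0 := (hG1.unique hG).trans hG0'
    rcases hSm with ⟨h1, h2, h3⟩ | ⟨h0, h1, h2, h3⟩
    · -- the point is on `{α = 0}`, `β ≠ 0`
      have hdg : dg F.M (fun i => (m i : ℝ)) (F.e1 c) ≠ 0 := fun h => (hG1a h1).2 h hG1e
      have hpe : p₀ = (0, p₀.2) := Prod.ext h1 rfl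
      obtain ⟨U, hU, hU0, hj⟩ := F.smooth1 hp h2
      set b : ℕ := ex2 m (F.e2 c) with hb
      have hGt : AnalyticAt ℂ (fun p : ℂ × ℂ => p.2 ^ b * G p) p₀ := (analyticAt_snd.pow _).mul hG.1
      have hHt : AnalyticAt ℂ (fun p : ℂ × ℂ => p.2 ^ b * H p) p₀ := (analyticAt_snd.pow _).mul hH.1
      have hder : fderiv ℂ (fun p : ℂ × ℂ => p.2 ^ b * G p) p₀ (0, 1) ≠ 0 := by
        have e1 := fderiv_01 hGt.differentiableAt
        have e2 : HasDerivAt (fun z => G (0, z)) (deriv (fun z => G (0, z)) p₀.2) p₀.2 := by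
          refine (diff1 ?_).hasDerivAt
          rw [← hpe]; exact hG.1
        have e3 : HasDerivAt (fun z : ℂ => z ^ b * G (0, z)) _ p₀.2 :=
          (hasDerivAt_pow b p₀.2).mul e2
        have e4 : (fun z => (fun p : ℂ × ℂ => p.2 ^ b * G p) (p₀.1, z)) =
            fun z : ℂ => z ^ b * G (0, z) := by
          funext z
          simp only [h1]
        rw [e4] at e1
        have hG00 : G (0, p₀.2) = 0 := by rw [← hpe]; exact hG0'
        rw [e1.unique e3, hG00, mul_zero, zero_add]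
        exact mul_ne_zero (pow_ne_zero _ h2) h3
      obtain ⟨C, hC0, hC⟩ := e3_loc (θ := F.th c) h1 (F.an c _ hp.1) (by rwa [hth0])
        (by rw [hth0]; exact P.ang) (by rw [hth0]; exact P.anh) (F.onV' hf hp)
        hU.continuousAt hj (P.m_pos (F.e1 c)) (P.eq_nu hdg) hGt hHt
        (by filter_upwards [hG.2] with p hp'; rw [hp', mo, mul_assoc])
        (by filter_upwards [hH.2] with p hp'; rw [hp', mo, mul_assoc])
        (by simp only [hG0', mul_zero]) hder (mul_ne_zero (pow_ne_zero _ h2) hH0)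
      refine ⟨C, ?_⟩
      filter_upwards [hC] with p h4 h5 h6
      refine (h4 (F.off h5 h6).1).trans (mul_le_mul_of_nonneg_left ?_ hC0)
      have : 0 ≤ ‖g (F.th c p)‖ ^ (2 * k + 1) := by positivity
      linarith
    · -- the point is on `{β = 0}`, `α ≠ 0`
      obtain ⟨i, hi⟩ := Option.ne_none_iff_exists'.1 h0
      have hdg : dg F.M (fun i => (m i : ℝ)) i ≠ 0 := fun h => (hG1b i hi h1).2 h hG1e
      have hpe : p₀ = (p₀.1, 0) := Prod.ext rfl h1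
      have hex : ex2 m (F.e2 c) = m i := by rw [hi]; rfl
      obtain ⟨U, hU, hU0, hj⟩ := F.jac c p₀ hp
      set p₁ : ℂ × ℂ := p₀.swap with hp₁
      have hsw : p₁.swap = p₀ := Prod.swap_swap p₀
      have hsa : ∀ p : ℂ × ℂ, AnalyticAt ℂ (Prod.swap : ℂ × ℂ → ℂ × ℂ) p := fun p =>
        (analyticAt_snd.prod analyticAt_fst)
      have hst : Tendsto (Prod.swap : ℂ × ℂ → ℂ × ℂ) (𝓝 p₁) (𝓝 p₀) := by
        have := (hsa p₁).continuousAt.tendsto
        rwa [hsw] at this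
      have hst' : Tendsto (Prod.swap : ℂ × ℂ → ℂ × ℂ) (𝓝 p₀) (𝓝 p₁) :=
        (hsa p₀).continuousAt.tendsto
      set θ : ℂ × ℂ → E3 := fun p => F.th c p.swap with hθ
      have hθa : AnalyticAt ℂ θ p₁ :=
        AnalyticAt.comp (g := F.th c) (f := (Prod.swap : ℂ × ℂ → ℂ × ℂ))
          (by rw [hsw]; exact F.an c _ hp.1) (hsa p₁)
      have hθ0 : θ p₁ = 0 := by rw [hθ]; simp only; rw [hsw, hth0]
      have hU' : AnalyticAt ℂ (fun p : ℂ × ℂ => U p.swap) p₁ :=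
        AnalyticAt.comp (g := U) (f := (Prod.swap : ℂ × ℂ → ℂ × ℂ)) (by rw [hsw]; exact hU) (hsa p₁)
      have hGs : AnalyticAt ℂ (fun p : ℂ × ℂ => G p.swap) p₁ :=
        AnalyticAt.comp (g := G) (f := (Prod.swap : ℂ × ℂ → ℂ × ℂ))
          (by rw [hsw]; exact hG.1) (hsa p₁)
      have hHs : AnalyticAt ℂ (fun p : ℂ × ℂ => H p.swap) p₁ :=
        AnalyticAt.comp (g := H) (f := (Prod.swap : ℂ × ℂ → ℂ × ℂ))
          (by rw [hsw]; exact hH.1) (hsa p₁)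
      have h2' : p₁.2 ≠ 0 := h2
      have hUt : AnalyticAt ℂ (fun p : ℂ × ℂ => -(p.2 ^ (-F.nu (F.e1 c) - 1) * U p.swap)) p₁ :=
        ((analyticAt_snd.zpow h2').mul hU').neg
      -- the Jacobian
      have hjs : ∀ᶠ p in 𝓝 p₁, jac2 θ p = - jac2 (F.th c) p.swap := by
        have hd : ∀ᶠ p in 𝓝 p₁, AnalyticAt ℂ (F.th c) p.swap :=
          hst.eventually (F.an c _ hp.1).eventually_analyticAt
        filter_upwards [hd] with p hpd
        have e1 : ∀ v : ℂ × ℂ, fderiv ℂ θ p v = fderiv ℂ (F.th c) p.swap v.swap := by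
          intro v
          have e2 : HasFDerivAt (Prod.swap : ℂ × ℂ → ℂ × ℂ)
              ((ContinuousLinearMap.snd ℂ ℂ ℂ).prod (ContinuousLinearMap.fst ℂ ℂ ℂ)) p :=
            hasFDerivAt_snd.prodMk hasFDerivAt_fst
          have e3 : HasFDerivAt θ ((fderiv ℂ (F.th c) p.swap).comp
              ((ContinuousLinearMap.snd ℂ ℂ ℂ).prod (ContinuousLinearMap.fst ℂ ℂ ℂ))) p :=
            hpd.differentiableAt.hasFDerivAt.comp p e2
          rw [e3.fderiv]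
          rfl
        rw [jac2, jac2, e1, e1]
        simp only [Prod.swap_prod_mk]
        ring
      have hj' : ∀ᶠ p in 𝓝 p₁, p.1 ≠ 0 → coordDeriv f 0 (θ p) ≠ 0 ∧
          jac2 θ p = coordDeriv f 0 (θ p) * p.1 ^ (-F.nu i - 1) *
            (-(p.2 ^ (-F.nu (F.e1 c) - 1) * U p.swap)) := by
        filter_upwards [hjs, hst.eventually hj, continuousAt_snd.eventually_ne h2'] with
          p h4 h5 h6 h7
        obtain ⟨h8, h9⟩ := h5 h6 h7
        refine ⟨h8, ?_⟩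
        rw [h4, h9, F.nu2_some c i hi]
        simp only [hθ, Prod.fst_swap, Prod.snd_swap]
        ring
      set b : ℕ := m (F.e1 c) with hb
      have hGt : AnalyticAt ℂ (fun p : ℂ × ℂ => p.2 ^ b * G p.swap) p₁ :=
        (analyticAt_snd.pow _).mul hGs
      have hHt : AnalyticAt ℂ (fun p : ℂ × ℂ => p.2 ^ b * H p.swap) p₁ :=
        (analyticAt_snd.pow _).mul hHs
      have hp11 : p₁.1 = 0 := h1
      have hder : fderiv ℂ (fun p : ℂ × ℂ => p.2 ^ b * G p.swap) p₁ (0, 1) ≠ 0 := by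
        have e1 := fderiv_01 hGt.differentiableAt
        have e2 : HasDerivAt (fun z => G (z, 0)) (deriv (fun z => G (z, 0)) p₀.1) p₀.1 := by
          refine (diff2 ?_).hasDerivAt
          rw [← hpe]; exact hG.1
        have e3 : HasDerivAt (fun z : ℂ => z ^ b * G (z, 0)) _ p₀.1 :=
          (hasDerivAt_pow b p₀.1).mul e2
        have e4 : (fun z => (fun p : ℂ × ℂ => p.2 ^ b * G p.swap) (p₁.1, z)) =
            fun z : ℂ => z ^ b * G (z, 0) := by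
          funext z
          simp only [hp11, Prod.swap_prod_mk]
        rw [e4] at e1
        have e1' : HasDerivAt (fun z : ℂ => z ^ b * G (z, 0))
            (fderiv ℂ (fun p : ℂ × ℂ => p.2 ^ b * G p.swap) p₁ (0, 1)) p₀.1 := e1
        have hG00 : G (p₀.1, 0) = 0 := by rw [← hpe]; exact hG0'
        rw [e1'.unique e3, hG00, mul_zero, zero_add]
        exact mul_ne_zero (pow_ne_zero _ h2) h3
      have hz : ∀ᶠ p in 𝓝 p₁, f (θ p) = 0 := hst.eventually (F.onV' hf hp)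
      obtain ⟨C, hC0, hC⟩ := e3_loc (θ := θ) (g := g) (h := h) (a := m i) (k := k) hp11 hθa
        (by rwa [hθ0])
        (by rw [hθ0]; exact P.ang) (by rw [hθ0]; exact P.anh) hz
        hUt.continuousAt hj' (P.m_pos i) (P.eq_nu hdg) hGt hHt
        (by
          filter_upwards [hst.eventually hG.2] with p hp'
          rw [hθ]
          simp only
          rw [hp', mo, hex]
          simp only [Prod.fst_swap, Prod.snd_swap]
          ring)
        (by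
          filter_upwards [hst.eventually hH.2] with p hp'
          rw [hθ]
          simp only
          rw [hp', mo, hex]
          simp only [Prod.fst_swap, Prod.snd_swap]
          ring)
        (by simp only [hsw, hG0', mul_zero]) hder
        (by
          simp only [hsw]
          exact mul_ne_zero (pow_ne_zero _ h2') hH0)
      refine ⟨C, ?_⟩
      filter_upwards [hst'.eventually hC] with p h4 h5 h6
      have h7 : p.2 ≠ 0 := by
        rcases (F.off h5 h6).2 with h | h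
        · exact absurd h h0
        · exact h
      have h8 := h4 h7
      simp only [hθ, Prod.swap_swap] at h8
      refine h8.trans (mul_le_mul_of_nonneg_left ?_ hC0)
      have : 0 ≤ ‖g (F.th c p)‖ ^ (2 * k + 1) := by positivity
      linarith

/-- (E3) -/
theorem PairD.e3 (hf : AnalyticAt ℂ f 0) {q : F.I → ℝ} {k : ℕ} {m : F.I → ℕ}
    {g h : E3 → ℂ} (hI : Nonempty F.I) (P : F.PairD q k m g h) :
    ∃ C r : ℝ, 0 < r ∧ ∀ x, ‖x‖ < r → f x = 0 →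
      ‖h x‖ ^ (2 * k + 1) ≤ C * (‖g x‖ ^ (2 * k + 1) + ‖Dt f g h x‖ ^ k) := by
  obtain ⟨C, hC⟩ := F.glob
    (fun C x => ‖h x‖ ^ (2 * k + 1) ≤ C * (‖g x‖ ^ (2 * k + 1) + ‖Dt f g h x‖ ^ k))
    (fun C C' x hCC h => h.trans (mul_le_mul_of_nonneg_right hCC (by positivity)))
    (fun c p₀ hp => P.e3_near hf hI hp)
  obtain ⟨r, hr, hball⟩ := Metric.eventually_nhds_iff_ball.1 hC
  refine ⟨max C 0, r, hr, fun x hx hfx => ?_⟩
  by_cases hx0 : x = 0
  · have hh0 : h 0 = 0 := Fac.vanish P.m_pos P.geh hI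
    rw [hx0, hh0, norm_zero, zero_pow (by omega)]
    have : 0 ≤ max C 0 := le_max_right _ _
    positivity
  · exact (hball x (by simpa using hx) hx0 hfx).trans
      (mul_le_mul_of_nonneg_right (le_max_left _ _) (by positivity))

end Frame


end Crest.Agent.R257.Fr_808
end
end

-- ▼ part R257/Fr11_808
section

/-!
R257 / Fr11_808: inequality (i) of C-LOG, frame level.

* `pl_jc`, `pl_sum` : the Pluecker inequality at one point;
* `J2_le_of`        : `|E|² J2 ≤ C a2` at `θ p`;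
-/

set_option autoImplicit false

open Topology Filter MeasureTheory Set Function
open Crest.AlgGeometry.Germ

noncomputable section

namespace Crest.Agent.R257.Fr_808

open Crest.Agent.R257.Defs_219
open Crest.Agent.R257.Gr1_157
open Crest.Agent.R257.CLog_68 (sq phq J2 a2 Sys CI fib)

theorem fderiv_pair (u : ℂ × ℂ → ℂ) (p v : ℂ × ℂ) :
    fderiv ℂ u p v = v.1 * fderiv ℂ u p (1, 0) + v.2 * fderiv ℂ u p (0, 1) := by
  have h1 : v = v.1 • ((1 : ℂ), (0 : ℂ)) + v.2 • ((0 : ℂ), (1 : ℂ)) := by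
    ext <;> simp
  conv_lhs => rw [h1]
  rw [map_add, map_smul, map_smul, smul_eq_mul, smul_eq_mul]

/-- Pluecker identity -/
theorem pl_jc (g a b : ℂ × ℂ → ℂ) (p v : ℂ × ℂ) :
    fderiv ℂ g p v * jc a b p = fderiv ℂ a p v * jc g b p - fderiv ℂ b p v * jc g a p := by
  rw [fderiv_pair g, fderiv_pair a p v, fderiv_pair b p v, jc, jc, jc]
  ring

theorem pl_sum {L : ℕ} (w : Fin L → ℝ) (hw : ∀ l, 0 ≤ w l) (Q : Fin L → ℂ × ℂ → ℂ)
    (g : ℂ × ℂ → ℂ) (p v : ℂ × ℂ) {C E : ℝ} (hC : 0 ≤ C) (hE : 0 ≤ E)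
    (h1 : ∀ l, ‖fderiv ℂ (Q l) p v‖ ≤ C * ‖Q l p‖) (h2 : ∀ l, w l * ‖Q l p‖ ^ 2 ≤ 1)
    (h3 : E ≤ ‖fderiv ℂ g p v‖) :
    E ^ 2 * ∑ l, ∑ m, w l * w m * ‖jc (Q l) (Q m) p‖ ^ 2 ≤
      4 * L * C ^ 2 * ∑ l, w l * ‖jc g (Q l) p‖ ^ 2 := by
  have h4 : ∀ l, w l * ‖fderiv ℂ (Q l) p v‖ ^ 2 ≤ C ^ 2 := by
    intro l
    calc w l * ‖fderiv ℂ (Q l) p v‖ ^ 2 ≤ w l * (C * ‖Q l p‖) ^ 2 := by
          refine mul_le_mul_of_nonneg_left ?_ (hw l)
          exact pow_le_pow_left₀ (norm_nonneg _) (h1 l) 2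
      _ = C ^ 2 * (w l * ‖Q l p‖ ^ 2) := by ring
      _ ≤ C ^ 2 * 1 := mul_le_mul_of_nonneg_left (h2 l) (by positivity)
      _ = C ^ 2 := mul_one _
  have h5 : ∀ l m, E ^ 2 * (w l * w m * ‖jc (Q l) (Q m) p‖ ^ 2) ≤
      2 * C ^ 2 * (w m * ‖jc g (Q m) p‖ ^ 2) + 2 * C ^ 2 * (w l * ‖jc g (Q l) p‖ ^ 2) := by
    intro l m
    have e1 := congrArg norm (pl_jc g (Q l) (Q m) p v)
    rw [norm_mul] at e1
    have e2 : ‖fderiv ℂ (Q l) p v * jc g (Q m) p - fderiv ℂ (Q m) p v * jc g (Q l) p‖ ≤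
        ‖fderiv ℂ (Q l) p v‖ * ‖jc g (Q m) p‖ + ‖fderiv ℂ (Q m) p v‖ * ‖jc g (Q l) p‖ := by
      refine (norm_sub_le _ _).trans ?_
      rw [norm_mul, norm_mul]
    rw [← e1] at e2
    have e3 : E * ‖jc (Q l) (Q m) p‖ ≤
        ‖fderiv ℂ (Q l) p v‖ * ‖jc g (Q m) p‖ + ‖fderiv ℂ (Q m) p v‖ * ‖jc g (Q l) p‖ :=
      (mul_le_mul_of_nonneg_right h3 (norm_nonneg _)).trans e2
    have e4 : (E * ‖jc (Q l) (Q m) p‖) ^ 2 ≤
        2 * (‖fderiv ℂ (Q l) p v‖ ^ 2 * ‖jc g (Q m) p‖ ^ 2) +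
          2 * (‖fderiv ℂ (Q m) p v‖ ^ 2 * ‖jc g (Q l) p‖ ^ 2) := by
      refine (pow_le_pow_left₀ (by positivity) e3 2).trans ?_
      nlinarith [sq_nonneg (‖fderiv ℂ (Q l) p v‖ * ‖jc g (Q m) p‖ -
        ‖fderiv ℂ (Q m) p v‖ * ‖jc g (Q l) p‖)]
    have h6 : 0 ≤ w l * w m := mul_nonneg (hw l) (hw m)
    calc E ^ 2 * (w l * w m * ‖jc (Q l) (Q m) p‖ ^ 2)
        = w l * w m * (E * ‖jc (Q l) (Q m) p‖) ^ 2 := by ring
      _ ≤ w l * w m * (2 * (‖fderiv ℂ (Q l) p v‖ ^ 2 * ‖jc g (Q m) p‖ ^ 2) +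
          2 * (‖fderiv ℂ (Q m) p v‖ ^ 2 * ‖jc g (Q l) p‖ ^ 2)) :=
          mul_le_mul_of_nonneg_left e4 h6
      _ = 2 * (w l * ‖fderiv ℂ (Q l) p v‖ ^ 2) * (w m * ‖jc g (Q m) p‖ ^ 2) +
          2 * (w m * ‖fderiv ℂ (Q m) p v‖ ^ 2) * (w l * ‖jc g (Q l) p‖ ^ 2) := by ring
      _ ≤ _ := by
          have a1 : 0 ≤ w m * ‖jc g (Q m) p‖ ^ 2 := mul_nonneg (hw m) (by positivity)
          have a2 : 0 ≤ w l * ‖jc g (Q l) p‖ ^ 2 := mul_nonneg (hw l) (by positivity)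
          have a3 := h4 l
          have a4 := h4 m
          have a5 := mul_le_mul_of_nonneg_right a3 a1
          have a6 := mul_le_mul_of_nonneg_right a4 a2
          linarith
  rw [Finset.mul_sum]
  calc ∑ l, E ^ 2 * ∑ m, w l * w m * ‖jc (Q l) (Q m) p‖ ^ 2
      = ∑ l, ∑ m, E ^ 2 * (w l * w m * ‖jc (Q l) (Q m) p‖ ^ 2) := by
        refine Finset.sum_congr rfl fun l _ => ?_
        rw [Finset.mul_sum]
    _ ≤ ∑ l : Fin L, ∑ m : Fin L, (2 * C ^ 2 * (w m * ‖jc g (Q m) p‖ ^ 2) +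
          2 * C ^ 2 * (w l * ‖jc g (Q l) p‖ ^ 2)) :=
        Finset.sum_le_sum fun l _ => Finset.sum_le_sum fun m _ => h5 l m
    _ = 4 * L * C ^ 2 * ∑ l, w l * ‖jc g (Q l) p‖ ^ 2 := by
        have hA : ∀ A : Fin L → ℝ, ∑ l : Fin L, ∑ m : Fin L, (A m + A l) =
            2 * L * ∑ m, A m := by
          intro A
          simp only [Finset.sum_add_distrib, Finset.sum_const, Finset.card_univ,
            Fintype.card_fin, nsmul_eq_mul, ← Finset.mul_sum]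
          ring
        rw [hA, ← Finset.mul_sum]
        ring

section Sys

variable {f : E3 → ℂ} {L : ℕ} {q : Fin L → E3 → ℂ} {s : Fin L → ℕ}


theorem le_sq (q : Fin L → E3 → ℂ) (s : Fin L → ℕ) (l : Fin L) (x : E3) :
    ‖q l x‖ ^ 2 ≤ sq q s l x := by
  have h : l ∈ fib s l := by simp [fib]
  exact Finset.single_le_sum (f := fun m => ‖q m x‖ ^ 2) (fun _ _ => by positivity) h

theorem exp_phq {x : E3} {l : Fin L} (h : 0 < sq q s l x) :
    Real.exp (-phq q s l x) = (sq q s l x)⁻¹ := by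
  rw [Real.exp_neg, phq, Real.exp_log h]

theorem exp_phq2 {x : E3} {l m : Fin L} (h : 0 < sq q s l x) (h' : 0 < sq q s m x) :
    Real.exp (-(phq q s l x + phq q s m x)) = (sq q s l x)⁻¹ * (sq q s m x)⁻¹ := by
  rw [neg_add, Real.exp_add, exp_phq h, exp_phq h']

theorem a2_nonneg (f g : E3 → ℂ) (q : Fin L → E3 → ℂ) (s : Fin L → ℕ) (x : E3) :
    0 ≤ a2 f g q s x := Finset.sum_nonneg fun _ _ => by positivity

theorem J2_nonneg (f : E3 → ℂ) (q : Fin L → E3 → ℂ) (s : Fin L → ℕ) (x : E3) :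
    0 ≤ J2 f q s x :=
  div_nonneg (Finset.sum_nonneg fun _ _ => Finset.sum_nonneg fun _ _ => by positivity) (by norm_num)

/-- the inequality at one point of a chart, given a good vector -/
theorem J2_le_of {g : E3 → ℂ} {θ : ℂ × ℂ → E3} {p v : ℂ × ℂ} (hθ : DifferentiableAt ℂ θ p)
    (hf : DifferentiableAt ℂ f (θ p)) (hg : DifferentiableAt ℂ g (θ p))
    (hq : ∀ l, DifferentiableAt ℂ (q l) (θ p)) (hz : ∀ᶠ p' in 𝓝 p, f (θ p') = 0)
    (hj : jac2 θ p ≠ 0) (hs : ∀ l, 0 < sq q s l (θ p)) {C E : ℝ} (hC : 0 ≤ C) (hE : 0 ≤ E)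
    (h1 : ∀ l, ‖fderiv ℂ (fun p => q l (θ p)) p v‖ ≤ C * ‖q l (θ p)‖)
    (h3 : E ≤ ‖fderiv ℂ (fun p => g (θ p)) p v‖) :
    E ^ 2 * J2 f q s (θ p) ≤ 2 * L * C ^ 2 * a2 f g q s (θ p) := by
  set K : ℂ := coordDeriv f 0 (θ p) / jac2 θ p with hK
  have hdt : ∀ {u w : E3 → ℂ}, DifferentiableAt ℂ u (θ p) → DifferentiableAt ℂ w (θ p) →
      Dt f u w (θ p) = K * jc (fun p => u (θ p)) (fun p => w (θ p)) p := by
    intro u w hu hw
    have h4 := jc_eq hθ hf hu hw hz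
    rw [hK]
    field_simp
    linear_combination -h4
  have h5 : J2 f q s (θ p) = ‖K‖ ^ 2 * (∑ l, ∑ m, (sq q s l (θ p))⁻¹ * (sq q s m (θ p))⁻¹ *
      ‖jc (fun p => q l (θ p)) (fun p => q m (θ p)) p‖ ^ 2) / 2 := by
    rw [J2]
    congr 1
    rw [Finset.mul_sum]
    refine Finset.sum_congr rfl fun l _ => ?_
    rw [Finset.mul_sum]
    refine Finset.sum_congr rfl fun m _ => ?_
    rw [exp_phq2 (hs l) (hs m), hdt (hq l) (hq m), norm_mul]
    ring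
  have h6 : a2 f g q s (θ p) = ‖K‖ ^ 2 * ∑ l, (sq q s l (θ p))⁻¹ *
      ‖jc (fun p => g (θ p)) (fun p => q l (θ p)) p‖ ^ 2 := by
    rw [a2, Finset.mul_sum]
    refine Finset.sum_congr rfl fun l _ => ?_
    rw [exp_phq (hs l), hdt hg (hq l), norm_mul]
    ring
  have h7 := pl_sum (fun l => (sq q s l (θ p))⁻¹) (fun l => (inv_pos.2 (hs l)).le)
    (fun l p => q l (θ p)) (fun p => g (θ p)) p v hC hE h1
    (fun l => by
      rw [inv_mul_le_iff₀ (hs l), mul_one]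
      exact le_sq q s l (θ p)) h3
  rw [h5, h6]
  have h8 := mul_le_mul_of_nonneg_left h7 (sq_nonneg ‖K‖)
  linarith

end Sys

end Crest.Agent.R257.Fr_808
end
end

-- ▼ part R257/Fr12_808
section

/-!
R257 / Fr12_808: good vectors.

* `GV Q g h p₀` : near `p₀`, off the axes, there are vectors `v` with `|dQ_j(v)| ≤ C |Q_j|` and
  `|g| + |h| ≤ C |dg(v)|`;
* `GV.of_swap`, `gv_nv`, `gv_sm`.
-/

set_option autoImplicit false

open Topology Filter MeasureTheory Set Function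
open Crest.AlgGeometry.Germ

noncomputable section

namespace Crest.Agent.R257.Fr_808

open Crest.Agent.R257.Defs_219
open Crest.Agent.R257.Gr1_157

/-- good vectors exist near `p₀` -/
def GV {J : Type} (Q : J → ℂ × ℂ → ℂ) (g h : ℂ × ℂ → ℂ) (p₀ : ℂ × ℂ) : Prop :=
  ∃ C₁ C₂ : ℝ, 0 ≤ C₁ ∧ ∀ᶠ p in 𝓝 p₀, p.1 ≠ 0 → p.2 ≠ 0 → ∃ v : ℂ × ℂ,
    (∀ j, ‖fderiv ℂ (Q j) p v‖ ≤ C₁ * ‖Q j p‖) ∧ ‖g p‖ + ‖h p‖ ≤ C₂ * ‖fderiv ℂ g p v‖

theorem fderiv_swap (u : ℂ × ℂ → ℂ) (p v : ℂ × ℂ) :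
    fderiv ℂ (fun p : ℂ × ℂ => u p.swap) p v = fderiv ℂ u p.swap v.swap := by
  have h1 := (ContinuousLinearEquiv.prodComm ℂ ℂ ℂ).comp_right_fderiv (f := u) (x := p)
  have h2 : (u ∘ ⇑(ContinuousLinearEquiv.prodComm ℂ ℂ ℂ)) = fun p : ℂ × ℂ => u p.swap := by
    funext p; rfl
  rw [h2] at h1
  rw [h1]
  rfl

theorem GV.of_swap {J : Type} {Q : J → ℂ × ℂ → ℂ} {g h : ℂ × ℂ → ℂ} {p₀ : ℂ × ℂ}
    (H : GV (fun j p => Q j p.swap) (fun p => g p.swap) (fun p => h p.swap) p₀.swap) :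
    GV Q g h p₀ := by
  obtain ⟨C₁, C₂, hC, hev⟩ := H
  refine ⟨C₁, C₂, hC, ?_⟩
  have h1 : Tendsto (fun p : ℂ × ℂ => p.swap) (𝓝 p₀) (𝓝 p₀.swap) := continuous_swap.continuousAt
  filter_upwards [h1.eventually hev] with p hp h2 h3
  obtain ⟨v, h4, h5⟩ := hp h3 h2
  refine ⟨v.swap, fun j => ?_, ?_⟩
  · have h6 := h4 j
    rw [fderiv_swap, Prod.swap_swap] at h6
    exact h6
  · rw [fderiv_swap, Prod.swap_swap] at h5
    exact h5

/-- at the points where the leading coefficient of `g` does not vanish -/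
theorem gv_nv (hNV : CLog_68.NVStmt) {J : Type} [Fintype J] {Q : J → ℂ × ℂ → ℂ}
    {g h : ℂ × ℂ → ℂ} {p₀ : ℂ × ℂ} (h1 : p₀.1 = 0) {m₁ m₂ : ℕ} (hm : m₂ = 0 ∨ p₀.2 = 0)
    (hm1 : 0 < m₁) (hQ : ∀ j, AnalyticAt ℂ (Q j) p₀) {U H : ℂ × ℂ → ℂ} (hU : AnalyticAt ℂ U p₀)
    (hU0 : U p₀ ≠ 0) (hH : ContinuousAt H p₀) (hg : ∀ᶠ p in 𝓝 p₀, g p = p.1 ^ m₁ * p.2 ^ m₂ * U p)
    (hh : ∀ᶠ p in 𝓝 p₀, h p = p.1 ^ m₁ * p.2 ^ m₂ * H p) : GV Q g h p₀ := by
  have hpe : p₀ = (0, p₀.2) := Prod.ext h1 rfl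
  obtain ⟨c, C, hc, hev⟩ := hNV J inferInstance Q g p₀.2 m₁ m₂ (by rwa [← hpe]) hm hm1
    ⟨U, by rwa [← hpe], by rwa [← hpe], by rwa [← hpe]⟩
  rw [← hpe] at hev
  have hUpos : 0 < ‖U p₀‖ := norm_pos_iff.2 hU0
  have e1 : ∀ᶠ p in 𝓝 p₀, ‖U p₀‖ / 2 < ‖U p‖ :=
    continuousAt_const.eventually_lt hU.continuousAt.norm (by linarith)
  have e2 : ∀ᶠ p in 𝓝 p₀, ‖H p‖ < ‖H p₀‖ + 1 :=
    hH.norm.eventually_lt continuousAt_const (by linarith)
  set D : ℝ := (‖H p₀‖ + 1) / (‖U p₀‖ / 2) with hD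
  have hD0 : 0 ≤ D := by positivity
  refine ⟨max C 0, (1 + D) / c, le_max_right _ _, ?_⟩
  filter_upwards [hev, hg, hh, e1, e2] with p h2 h3 h4 h5 h6 h7 _
  obtain ⟨v, h8, h9⟩ := h2 h7
  refine ⟨v, fun j => (h8 j).trans (mul_le_mul_of_nonneg_right (le_max_left _ _)
    (norm_nonneg _)), ?_⟩
  have h10 : ‖h p‖ ≤ D * ‖g p‖ := by
    rw [h3, h4, norm_mul, norm_mul _ (U p)]
    have h11 : ‖H p‖ ≤ D * ‖U p‖ := by
      calc ‖H p‖ ≤ ‖H p₀‖ + 1 := h6.le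
        _ = D * (‖U p₀‖ / 2) := by
          rw [hD]; field_simp
        _ ≤ D * ‖U p‖ := mul_le_mul_of_nonneg_left h5.le hD0
    calc ‖p.1 ^ m₁ * p.2 ^ m₂‖ * ‖H p‖ ≤ ‖p.1 ^ m₁ * p.2 ^ m₂‖ * (D * ‖U p‖) :=
          mul_le_mul_of_nonneg_left h11 (norm_nonneg _)
      _ = D * (‖p.1 ^ m₁ * p.2 ^ m₂‖ * ‖U p‖) := by ring
  calc ‖g p‖ + ‖h p‖ ≤ (1 + D) * ‖g p‖ := by linarith
    _ = (1 + D) / c * (c * ‖g p‖) := by field_simp
    _ ≤ (1 + D) / c * ‖fderiv ℂ g p v‖ :=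
        mul_le_mul_of_nonneg_left h9 (by positivity)

theorem fd_an {G : ℂ × ℂ → ℂ} {p : ℂ × ℂ} (hG : AnalyticAt ℂ G p) (v : ℂ × ℂ) :
    AnalyticAt ℂ (fun p => fderiv ℂ G p v) p := by
  have h1 : AnalyticAt ℂ (fderiv ℂ G) p := hG.fderiv
  have h2 := (ContinuousLinearMap.apply ℂ ℂ v).analyticAt (fderiv ℂ G p)
  exact h2.comp h1

/-- derivative along `β` of `α ^ a * W` -/
theorem fd_beta {u W : ℂ × ℂ → ℂ} {a : ℕ} {p₀ : ℂ × ℂ} (hW : AnalyticAt ℂ W p₀)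
    (hu : ∀ᶠ p in 𝓝 p₀, u p = p.1 ^ a * W p) :
    ∀ᶠ p in 𝓝 p₀, fderiv ℂ u p (0, 1) = p.1 ^ a * fderiv ℂ W p (0, 1) := by
  filter_upwards [hW.eventually_analyticAt, hu.eventually_nhds] with p h1 h2
  have h3 : u =ᶠ[𝓝 p] fun p => p.1 ^ a * W p := h2
  rw [h3.fderiv_eq, fderiv_powmul h1.differentiableAt]
  simp

/-- at a simple zero of the leading coefficient of `g`, list monomial -/
theorem gv_sm {J : Type} [Fintype J] {Q : J → ℂ × ℂ → ℂ}
    {g h : ℂ × ℂ → ℂ} {p₀ : ℂ × ℂ} {m : ℕ}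
    (hQ : ∀ j, (∀ᶠ p in 𝓝 p₀, Q j p = 0) ∨ ∃ (a : ℕ) (W : ℂ × ℂ → ℂ), AnalyticAt ℂ W p₀ ∧
      W p₀ ≠ 0 ∧ ∀ᶠ p in 𝓝 p₀, Q j p = p.1 ^ a * W p) {G H : ℂ × ℂ → ℂ}
    (hG : AnalyticAt ℂ G p₀) (hG' : fderiv ℂ G p₀ (0, 1) ≠ 0) (hH : ContinuousAt H p₀)
    (hg : ∀ᶠ p in 𝓝 p₀, g p = p.1 ^ m * G p)
    (hh : ∀ᶠ p in 𝓝 p₀, h p = p.1 ^ m * H p) : GV Q g h p₀ := by
  have key : ∀ j, ∃ C : ℝ, 0 ≤ C ∧ ∀ᶠ p in 𝓝 p₀, ‖fderiv ℂ (Q j) p (0, 1)‖ ≤ C * ‖Q j p‖ := by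
    intro j
    rcases hQ j with h0 | ⟨a, W, hW, hW0, hWQ⟩
    · refine ⟨0, le_rfl, ?_⟩
      filter_upwards [h0.eventually_nhds] with p hp
      have h3 : Q j =ᶠ[𝓝 p] fun _ => (0 : ℂ) := hp
      rw [h3.fderiv_eq]
      simp
    · have hWpos : 0 < ‖W p₀‖ := norm_pos_iff.2 hW0
      have e1 : ∀ᶠ p in 𝓝 p₀, ‖W p₀‖ / 2 < ‖W p‖ :=
        continuousAt_const.eventually_lt hW.continuousAt.norm (by linarith)
      have e2 : ∀ᶠ p in 𝓝 p₀, ‖fderiv ℂ W p (0, 1)‖ < ‖fderiv ℂ W p₀ (0, 1)‖ + 1 :=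
        (fd_an hW (0, 1)).continuousAt.norm.eventually_lt continuousAt_const (by linarith)
      set D : ℝ := (‖fderiv ℂ W p₀ (0, 1)‖ + 1) / (‖W p₀‖ / 2) with hD
      have hD0 : 0 ≤ D := by positivity
      refine ⟨D, hD0, ?_⟩
      filter_upwards [fd_beta hW hWQ, hWQ, e1, e2] with p h1 h2 h3 h4
      rw [h1, h2, norm_mul, norm_mul]
      have h11 : ‖fderiv ℂ W p (0, 1)‖ ≤ D * ‖W p‖ := by
        calc ‖fderiv ℂ W p (0, 1)‖ ≤ ‖fderiv ℂ W p₀ (0, 1)‖ + 1 := h4.le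
          _ = D * (‖W p₀‖ / 2) := by
            rw [hD]; field_simp
          _ ≤ D * ‖W p‖ := mul_le_mul_of_nonneg_left h3.le hD0
      calc ‖p.1 ^ a‖ * ‖fderiv ℂ W p (0, 1)‖ ≤ ‖p.1 ^ a‖ * (D * ‖W p‖) :=
            mul_le_mul_of_nonneg_left h11 (norm_nonneg _)
        _ = D * (‖p.1 ^ a‖ * ‖W p‖) := by ring
  choose C hC hCe using key
  have hGpos : 0 < ‖fderiv ℂ G p₀ (0, 1)‖ := norm_pos_iff.2 hG'
  have e1 : ∀ᶠ p in 𝓝 p₀, ‖fderiv ℂ G p₀ (0, 1)‖ / 2 < ‖fderiv ℂ G p (0, 1)‖ :=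
    continuousAt_const.eventually_lt (fd_an hG (0, 1)).continuousAt.norm (by linarith)
  have e2 : ∀ᶠ p in 𝓝 p₀, ‖G p‖ + ‖H p‖ < ‖G p₀‖ + ‖H p₀‖ + 1 :=
    (hG.continuousAt.norm.add hH.norm).eventually_lt continuousAt_const (by simp)
  set D : ℝ := (‖G p₀‖ + ‖H p₀‖ + 1) / (‖fderiv ℂ G p₀ (0, 1)‖ / 2) with hD
  have hD0 : 0 ≤ D := by positivity
  refine ⟨∑ j, C j, D, Finset.sum_nonneg fun j _ => hC j, ?_⟩
  filter_upwards [Filter.eventually_all.2 hCe, e1, e2, fd_beta hG hg, hg, hh] with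
    p h1 h2 h3 h4 h5 h6 _ _
  refine ⟨(0, 1), fun j => (h1 j).trans (mul_le_mul_of_nonneg_right
    (Finset.single_le_sum (f := C) (fun j _ => hC j) (Finset.mem_univ j)) (norm_nonneg _)), ?_⟩
  rw [h4, h5, h6, norm_mul, norm_mul, norm_mul]
  calc ‖p.1 ^ m‖ * ‖G p‖ + ‖p.1 ^ m‖ * ‖H p‖ = ‖p.1 ^ m‖ * (‖G p‖ + ‖H p‖) := by ring
    _ ≤ ‖p.1 ^ m‖ * (‖G p₀‖ + ‖H p₀‖ + 1) := mul_le_mul_of_nonneg_left h3.le (norm_nonneg _)
    _ = ‖p.1 ^ m‖ * (D * (‖fderiv ℂ G p₀ (0, 1)‖ / 2)) := by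
        rw [hD]; field_simp
    _ ≤ ‖p.1 ^ m‖ * (D * ‖fderiv ℂ G p (0, 1)‖) :=
        mul_le_mul_of_nonneg_left (mul_le_mul_of_nonneg_left h2.le hD0) (norm_nonneg _)
    _ = D * (‖p.1 ^ m‖ * ‖fderiv ℂ G p (0, 1)‖) := by ring

end Crest.Agent.R257.Fr_808
end
end

-- ▼ part R257/Fr13_808

/-!
R257 / Fr13_808: inequality (i) of C-LOG from a frame.

* `Frame.gv` : good vectors at every point of the special fibre for a pair generic w.r.t. a list;
* `Frame.ci_near` : from good vectors to the inequality;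
* `ci_of` : the last conjunct of `CLogStmt` from a frame with base point freeness.
-/

set_option autoImplicit false

open Topology Filter MeasureTheory Set Function
open Crest.AlgGeometry.Germ

noncomputable section

namespace Crest.Agent.R257.Fr_808

open Crest.Agent.R257.Defs_219
open Crest.Agent.R257.Gr1_157
open Crest.Agent.R257.CLog_68 (sq phq J2 a2 Sys CI fib)

section Cont

variable {f g : E3 → ℂ} {L : ℕ} {q : Fin L → E3 → ℂ} {s : Fin L → ℕ} {x : E3}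

theorem phq_cont (hq : ∀ l, AnalyticAt ℂ (q l) x) {l : Fin L} (hs : 0 < sq q s l x) :
    ContinuousAt (phq q s l) x := by
  have h1 : ContinuousAt (sq q s l) x := by
    unfold CLog_68.sq
    exact tendsto_finsetSum _ fun m _ => ((hq m).continuousAt.norm.pow 2)
  exact h1.log hs.ne'

theorem J2_cont (hf : AnalyticAt ℂ f x) (hq : ∀ l, AnalyticAt ℂ (q l) x)
    (hs : ∀ l, 0 < sq q s l x) : ContinuousAt (J2 f q s) x := by
  unfold J2
  refine ContinuousAt.div_const ?_ _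
  refine tendsto_finsetSum _ fun l _ => tendsto_finsetSum _ fun m _ => ?_
  exact ((((phq_cont hq (hs l)).add (phq_cont hq (hs m))).neg).rexp).mul
    ((dt0_an hf (hq l) (hq m)).continuousAt.norm.pow 2)

theorem a2_cont (hf : AnalyticAt ℂ f x) (hg : AnalyticAt ℂ g x) (hq : ∀ l, AnalyticAt ℂ (q l) x)
    (hs : ∀ l, 0 < sq q s l x) : ContinuousAt (a2 f g q s) x := by
  unfold a2
  refine tendsto_finsetSum _ fun l _ => ?_
  exact (((phq_cont hq (hs l)).neg).rexp).mul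
    ((dt0_an hf hg (hq l)).continuousAt.norm.pow 2)

theorem sys_pos (hS : Sys f q s) : ∀ᶠ x in 𝓝 (0 : E3), x ≠ 0 → f x = 0 → ∀ l, 0 < sq q s l x := by
  obtain ⟨N, c, r, hc, hr, h⟩ := hS.lo
  filter_upwards [Metric.ball_mem_nhds (0 : E3) hr] with x hx h0 hfx l
  have h1 : 0 < ‖x‖ := norm_pos_iff.2 h0
  exact lt_of_lt_of_le (by positivity) (h x (by simpa using hx) hfx l)

end Cont

namespace Frame

variable {f : E3 → ℂ} {F : Frame f}

/-- from good vectors to the inequality -/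
theorem ci_near (hf : AnalyticAt ℂ f 0) {g h : E3 → ℂ} (hg : AnalyticAt ℂ g 0)
    (hh : AnalyticAt ℂ h 0) {L : ℕ} {q : Fin L → E3 → ℂ} {s : Fin L → ℕ} (hS : Sys f q s)
    {c : F.K} {p₀ : ℂ × ℂ} (hp₀ : p₀ ∈ F.SF c)
    (hgv : GV (fun l p => q l (F.th c p)) (fun p => g (F.th c p)) (fun p => h (F.th c p)) p₀) :
    ∃ C : ℝ, ∀ᶠ p in 𝓝 p₀, p ∈ BD → p ∉ F.SF c →
      (‖g (F.th c p)‖ ^ 2 + ‖h (F.th c p)‖ ^ 2) * J2 f q s (F.th c p) ≤
        C * a2 f g q s (F.th c p) := by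
  obtain ⟨C₁, C₂, hC₁, hev⟩ := hgv
  set D : ℝ := max C₂ 1 with hD
  have hD0 : 0 < D := lt_of_lt_of_le one_pos (le_max_right _ _)
  refine ⟨D ^ 2 * (2 * L * C₁ ^ 2), ?_⟩
  have hcont : ContinuousAt (F.th c) p₀ := (F.an c _ hp₀.1).continuousAt
  have hth0 := F.th_SF hp₀
  have hto : ∀ {P : E3 → Prop}, (∀ᶠ x in 𝓝 (0 : E3), P x) → ∀ᶠ p in 𝓝 p₀, P (F.th c p) := by
    intro P hP
    rw [← hth0] at hP
    exact hcont.eventually hP
  obtain ⟨U, hU, hU0, hj⟩ := F.jac c p₀ hp₀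
  -- off the axes
  have hmain : ∀ᶠ p in 𝓝 p₀, p.1 ≠ 0 → p.2 ≠ 0 → p ∈ BD →
      (‖g (F.th c p)‖ ^ 2 + ‖h (F.th c p)‖ ^ 2) * J2 f q s (F.th c p) ≤
        D ^ 2 * (2 * L * C₁ ^ 2) * a2 f g q s (F.th c p) := by
    filter_upwards [hev, hj, hU.continuousAt.eventually_ne hU0, (F.an c _ hp₀.1).eventually_analyticAt,
      hto hf.eventually_analyticAt, hto hg.eventually_analyticAt,
      hto (Filter.eventually_all.2 fun l => (hS.an l).eventually_analyticAt),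
      (F.onV' hf hp₀).eventually_nhds, hto (sys_pos hS)] with p h1 h2 h3 h4 h5 h6 h7 h8 h9 hp1 hp2 hB
    obtain ⟨v, hv1, hv2⟩ := h1 hp1 hp2
    obtain ⟨h10, h11⟩ := h2 hp1 hp2
    have hjac : jac2 (F.th c) p ≠ 0 := by
      rw [h11]
      exact mul_ne_zero (mul_ne_zero (mul_ne_zero h10 (zpow_ne_zero _ hp1))
        (zpow_ne_zero _ hp2)) h3
    have hne : F.th c p ≠ 0 := by
      refine F.th_ne hB fun hS' => ?_
      rcases hS'.2 with h | h
      · exact hp1 h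
      · exact hp2 h.2
    have hs := h9 hne (F.onV c p hB)
    set E : ℝ := (‖g (F.th c p)‖ + ‖h (F.th c p)‖) / D with hE
    have hE0 : 0 ≤ E := by positivity
    have h12 := J2_le_of (q := q) (s := s) h4.differentiableAt h5.differentiableAt
      h6.differentiableAt (fun l => (h7 l).differentiableAt) h8 hjac hs hC₁ hE0 hv1
      (by
        rw [hE, div_le_iff₀ hD0, mul_comm]
        exact hv2.trans (mul_le_mul_of_nonneg_right (le_max_left _ _) (norm_nonneg _)))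
    have hJ := J2_nonneg f q s (F.th c p)
    have h13 : (‖g (F.th c p)‖ ^ 2 + ‖h (F.th c p)‖ ^ 2) ≤ D ^ 2 * E ^ 2 := by
      have : D * E = ‖g (F.th c p)‖ + ‖h (F.th c p)‖ := by
        rw [hE]; field_simp
      rw [← mul_pow, this]
      nlinarith [norm_nonneg (g (F.th c p)), norm_nonneg (h (F.th c p))]
    calc (‖g (F.th c p)‖ ^ 2 + ‖h (F.th c p)‖ ^ 2) * J2 f q s (F.th c p)
        ≤ D ^ 2 * E ^ 2 * J2 f q s (F.th c p) := mul_le_mul_of_nonneg_right h13 hJ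
      _ = D ^ 2 * (E ^ 2 * J2 f q s (F.th c p)) := by ring
      _ ≤ D ^ 2 * (2 * L * C₁ ^ 2 * a2 f g q s (F.th c p)) :=
          mul_le_mul_of_nonneg_left h12 (by positivity)
      _ = _ := by ring
  filter_upwards [hmain, hmain.eventually_nhds, (F.an c _ hp₀.1).eventually_analyticAt,
    hto hf.eventually_analyticAt, hto hg.eventually_analyticAt, hto hh.eventually_analyticAt,
    hto (Filter.eventually_all.2 fun l => (hS.an l).eventually_analyticAt),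
    hto (sys_pos hS)] with p h1 h1' h2 h3 h4 h5 h6 h7 hB hSF
  obtain ⟨hp1, -⟩ := F.off hB hSF
  by_cases hp2 : p.2 ≠ 0
  · exact h1 hp1 hp2 hB
  · -- by continuity
    have hp2' : p.2 = 0 := not_not.1 hp2
    have hs := h7 (F.th_ne hB hSF) (F.onV c p hB)
    have hc1 : ContinuousAt (fun p => (‖g (F.th c p)‖ ^ 2 + ‖h (F.th c p)‖ ^ 2) *
        J2 f q s (F.th c p)) p := by
      refine ContinuousAt.mul (ContinuousAt.add ?_ ?_) ?_
      · exact (ContinuousAt.comp (g := g) (f := F.th c) h4.continuousAt h2.continuousAt).norm.pow 2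
      · exact (ContinuousAt.comp (g := h) (f := F.th c) h5.continuousAt h2.continuousAt).norm.pow 2
      · exact ContinuousAt.comp (g := J2 f q s) (f := F.th c) (J2_cont h3 h6 hs) h2.continuousAt
    have hc2 : ContinuousAt (fun p => D ^ 2 * (2 * L * C₁ ^ 2) * a2 f g q s (F.th c p)) p :=
      continuousAt_const.mul
        (ContinuousAt.comp (g := a2 f g q s) (f := F.th c) (a2_cont h3 h4 h6 hs) h2.continuousAt)
    have hto' : Tendsto (fun t : ℝ => (p.1, (t : ℂ))) (𝓝[>] 0) (𝓝 p) := by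
      have h8 : ContinuousAt (fun t : ℝ => (p.1, (t : ℂ))) 0 := by fun_prop
      have h9 : (p.1, ((0 : ℝ) : ℂ)) = p := Prod.ext rfl (by simp [hp2'])
      have h10 := h8.tendsto
      simp only [h9] at h10
      exact h10.mono_left nhdsWithin_le_nhds
    refine le_of_tendsto_of_tendsto (hc1.tendsto.comp hto') (hc2.tendsto.comp hto') ?_
    have h8 : ∀ᶠ t : ℝ in 𝓝[>] 0, t < 1 :=
      Filter.Eventually.filter_mono nhdsWithin_le_nhds (eventually_lt_nhds one_pos)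
    filter_upwards [hto'.eventually h1', h8, self_mem_nhdsWithin] with t h9 h10 h11
    have h11' : (0 : ℝ) < t := h11
    refine h9 hp1 (by simpa using h11'.ne') ⟨hB.1, ?_⟩
    simp only [Complex.norm_real, Real.norm_eq_abs, abs_of_pos h11']
    exact h10.le

/-- good vectors at every point of the special fibre -/
theorem gv (hNV : CLog_68.NVStmt) (hf : AnalyticAt ℂ f 0) {g h : E3 → ℂ}
    {m : F.I → ℕ} (hm : ∀ i, 0 < m i) {L : ℕ} {Q : Fin L → E3 → ℂ}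
    (hQ : ∀ l, AnalyticAt ℂ (Q l) 0) {c : F.K} {p₀ : ℂ × ℂ} (hp₀ : p₀ ∈ F.SF c)
    {G H : ℂ × ℂ → ℂ} (hG : F.Fac g m c p₀ G) (hH : F.Fac h m c p₀ H)
    (hor : G p₀ ≠ 0 ∨ H p₀ ≠ 0 ∧
        ((p₀.1 = 0 ∧ p₀.2 ≠ 0 ∧ deriv (fun z => G (0, z)) p₀.2 ≠ 0) ∨
          (F.e2 c ≠ none ∧ p₀.2 = 0 ∧ p₀.1 ≠ 0 ∧ deriv (fun z => G (z, 0)) p₀.1 ≠ 0)) ∧
        ∀ l, (∀ᶠ x in 𝓝 (0 : E3), f x = 0 → Q l x = 0) ∨ ∃ v : F.I → ℕ, F.Gen (Q l) v c p₀) :
    GV (fun l p => Q l (F.th c p)) (fun p => g (F.th c p)) (fun p => h (F.th c p)) p₀ := by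
  have hcont : ContinuousAt (F.th c) p₀ := (F.an c _ hp₀.1).continuousAt
  have hth0 := F.th_SF hp₀
  have hQan : ∀ l, AnalyticAt ℂ (fun p => Q l (F.th c p)) p₀ := fun l =>
    AnalyticAt.comp (g := Q l) (f := F.th c) (by rw [hth0]; exact hQ l) (F.an c _ hp₀.1)
  have hto : ∀ {P : E3 → Prop}, (∀ᶠ x in 𝓝 (0 : E3), P x) → ∀ᶠ p in 𝓝 p₀, P (F.th c p) := by
    intro P hP
    rw [← hth0] at hP
    exact hcont.eventually hP
  have hQ0 : ∀ l, (∀ᶠ x in 𝓝 (0 : E3), f x = 0 → Q l x = 0) →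
      ∀ᶠ p in 𝓝 p₀, Q l (F.th c p) = 0 := by
    intro l h0
    filter_upwards [hto h0, F.onV' hf hp₀] with p h1 h2
    exact h1 h2
  by_cases hG0 : G p₀ = 0
  · obtain ⟨hH0, hSm, hQl⟩ := hor.resolve_left (fun h => h hG0)
    rcases hSm with ⟨h1, h2, h3⟩ | ⟨he, h2, h1, h3⟩
    · -- on `{α = 0}`
      have hpe : p₀ = (0, p₀.2) := Prod.ext h1 rfl
      set b : ℕ := ex2 m (F.e2 c) with hb
      refine gv_sm (m := m (F.e1 c)) (G := fun p => p.2 ^ b * G p) (H := fun p => p.2 ^ b * H p)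
        (fun l => ?_) ((analyticAt_snd.pow _).mul hG.1) ?_
        (((analyticAt_snd.pow _).mul hH.1).continuousAt) ?_ ?_
      · rcases hQl l with h0 | ⟨v, W, hW, hW0⟩
        · exact Or.inl (hQ0 l h0)
        · refine Or.inr ⟨v (F.e1 c), fun p => p.2 ^ ex2 v (F.e2 c) * W p,
            (analyticAt_snd.pow _).mul hW.1, mul_ne_zero (pow_ne_zero _ h2) hW0, ?_⟩
          filter_upwards [hW.2] with p hp
          rw [hp, mo]; ring
      · -- the derivative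
        have hda : DifferentiableAt ℂ (fun p : ℂ × ℂ => p.2 ^ b * G p) p₀ :=
          ((analyticAt_snd.pow _).mul hG.1).differentiableAt
        have e1 := fderiv_01 hda
        have e2 : HasDerivAt (fun z => G (0, z)) (deriv (fun z => G (0, z)) p₀.2) p₀.2 :=
          (diff1 (by rw [← hpe]; exact hG.1)).hasDerivAt
        have e3 := (hasDerivAt_pow b p₀.2).mul e2
        have e4 : (fun z : ℂ => (fun p : ℂ × ℂ => p.2 ^ b * G p) (p₀.1, z)) =
            fun z => z ^ b * G (0, z) := by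
          funext z
          simp only [h1]
        rw [e4] at e1
        have e5 : HasDerivAt (fun z : ℂ => z ^ b * G (0, z))
            (fderiv ℂ (fun p : ℂ × ℂ => p.2 ^ b * G p) p₀ (0, 1)) p₀.2 := e1
        have hG00 : G (0, p₀.2) = 0 := by rw [← hpe]; exact hG0
        have e6 := e5.unique e3
        rw [e6, hG00, mul_zero, zero_add]
        exact mul_ne_zero (pow_ne_zero _ h2) h3
      · filter_upwards [hG.2] with p hp
        rw [hp, mo]; ring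
      · filter_upwards [hH.2] with p hp
        rw [hp, mo]; ring
    · -- on `{β = 0}`
      obtain ⟨i, hi⟩ := Option.ne_none_iff_exists'.1 he
      have hpe : p₀ = (p₀.1, 0) := Prod.ext rfl h2
      have hsw : Tendsto (fun p : ℂ × ℂ => p.swap) (𝓝 p₀.swap) (𝓝 p₀) := by
        have : ContinuousAt (fun p : ℂ × ℂ => p.swap) p₀.swap := continuous_swap.continuousAt
        have h4 := this.tendsto
        rwa [Prod.swap_swap] at h4
      have hswa : ∀ {W : ℂ × ℂ → ℂ}, AnalyticAt ℂ W p₀ → AnalyticAt ℂ (fun p => W p.swap) p₀.swap := by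
        intro W hW
        have h5 : AnalyticAt ℂ (fun p : ℂ × ℂ => p.swap) p₀.swap :=
          analyticAt_snd.prod analyticAt_fst
        exact AnalyticAt.comp_of_eq (g := W) hW h5 (Prod.swap_swap p₀)
      set b : ℕ := m (F.e1 c) with hb
      refine GV.of_swap (gv_sm (m := m i) (G := fun p => p.2 ^ b * G p.swap)
        (H := fun p => p.2 ^ b * H p.swap)
        (fun l => ?_) ((analyticAt_snd.pow _).mul (hswa hG.1)) ?_
        (((analyticAt_snd.pow _).mul (hswa hH.1)).continuousAt) ?_ ?_)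
      · rcases hQl l with h0 | ⟨v, W, hW, hW0⟩
        · exact Or.inl (hsw.eventually (hQ0 l h0))
        · refine Or.inr ⟨v i, fun p => p.2 ^ v (F.e1 c) * W p.swap,
            (analyticAt_snd.pow _).mul (hswa hW.1), ?_, ?_⟩
          · simp only [Prod.swap_swap, Prod.snd_swap]
            exact mul_ne_zero (pow_ne_zero _ h1) hW0
          · filter_upwards [hsw.eventually hW.2] with p hp
            rw [hp, mo, hi]
            simp only [ex2, Option.elim, Prod.fst_swap, Prod.snd_swap]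
            ring
      · have hda : DifferentiableAt ℂ (fun p : ℂ × ℂ => p.2 ^ b * G p.swap) p₀.swap :=
          ((analyticAt_snd.pow _).mul (hswa hG.1)).differentiableAt
        have e1 := fderiv_01 hda
        have e2 : HasDerivAt (fun z => G (z, 0)) (deriv (fun z => G (z, 0)) p₀.1) p₀.1 :=
          (diff2 (by rw [← hpe]; exact hG.1)).hasDerivAt
        have e3 := (hasDerivAt_pow b p₀.1).mul e2
        have e4 : (fun z : ℂ => (fun p : ℂ × ℂ => p.2 ^ b * G p.swap) (p₀.swap.1, z)) =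
            fun z => z ^ b * G (z, 0) := by
          funext z
          simp only [Prod.fst_swap, h2, Prod.swap_prod_mk]
        rw [e4] at e1
        have e5 : HasDerivAt (fun z : ℂ => z ^ b * G (z, 0))
            (fderiv ℂ (fun p : ℂ × ℂ => p.2 ^ b * G p.swap) p₀.swap (0, 1)) p₀.1 := e1
        have hG00 : G (p₀.1, 0) = 0 := by rw [← hpe]; exact hG0
        have e6 := e5.unique e3
        rw [e6, hG00, mul_zero, zero_add]
        exact mul_ne_zero (pow_ne_zero _ h1) h3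
      · filter_upwards [hsw.eventually hG.2] with p hp
        rw [hp, mo, hi]
        simp only [ex2, Option.elim, Prod.fst_swap, Prod.snd_swap]
        ring
      · filter_upwards [hsw.eventually hH.2] with p hp
        rw [hp, mo, hi]
        simp only [ex2, Option.elim, Prod.fst_swap, Prod.snd_swap]
        ring
  · -- nearest branch vectors
    by_cases h1 : p₀.1 = 0
    · by_cases h2 : p₀.2 = 0
      · exact gv_nv hNV h1 (m₁ := m (F.e1 c)) (m₂ := ex2 m (F.e2 c)) (Or.inr h2) (hm _) hQan hG.1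
          hG0 hH.1.continuousAt hG.2 hH.2
      · refine gv_nv hNV h1 (m₁ := m (F.e1 c)) (m₂ := 0) (Or.inl rfl) (hm _) hQan
          (U := fun p => p.2 ^ ex2 m (F.e2 c) * G p) (H := fun p => p.2 ^ ex2 m (F.e2 c) * H p)
          ((analyticAt_snd.pow _).mul hG.1) (mul_ne_zero (pow_ne_zero _ h2) hG0)
          ((analyticAt_snd.pow _).mul hH.1).continuousAt ?_ ?_
        · filter_upwards [hG.2] with p hp
          rw [hp, mo]; ring
        · filter_upwards [hH.2] with p hp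
          rw [hp, mo]; ring
    · obtain ⟨he, h2⟩ : F.e2 c ≠ none ∧ p₀.2 = 0 := hp₀.2.resolve_left h1
      obtain ⟨i, hi⟩ := Option.ne_none_iff_exists'.1 he
      have hsw : Tendsto (fun p : ℂ × ℂ => p.swap) (𝓝 p₀.swap) (𝓝 p₀) := by
        have : ContinuousAt (fun p : ℂ × ℂ => p.swap) p₀.swap := continuous_swap.continuousAt
        have h4 := this.tendsto
        rwa [Prod.swap_swap] at h4
      have hswa : ∀ {W : ℂ × ℂ → ℂ}, AnalyticAt ℂ W p₀ → AnalyticAt ℂ (fun p => W p.swap) p₀.swap := by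
        intro W hW
        have h5 : AnalyticAt ℂ (fun p : ℂ × ℂ => p.swap) p₀.swap :=
          analyticAt_snd.prod analyticAt_fst
        exact AnalyticAt.comp_of_eq (g := W) hW h5 (Prod.swap_swap p₀)
      refine GV.of_swap (gv_nv hNV (by simpa using h2) (m₁ := m i) (m₂ := 0) (Or.inl rfl) (hm _)
          (fun l => hswa (hQan l))
          (U := fun p => p.2 ^ m (F.e1 c) * G p.swap) (H := fun p => p.2 ^ m (F.e1 c) * H p.swap)
          ((analyticAt_snd.pow _).mul (hswa hG.1)) ?_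
          ((analyticAt_snd.pow _).mul (hswa hH.1)).continuousAt ?_ ?_)
      · simp only [Prod.swap_swap, Prod.snd_swap]
        exact mul_ne_zero (pow_ne_zero _ h1) hG0
      · filter_upwards [hsw.eventually hG.2] with p hp
        rw [hp, mo, hi]
        simp only [ex2, Option.elim, Prod.fst_swap, Prod.snd_swap]
        ring
      · filter_upwards [hsw.eventually hH.2] with p hp
        rw [hp, mo, hi]
        simp only [ex2, Option.elim, Prod.fst_swap, Prod.snd_swap]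
        ring

end Frame

/-- **(i) of C-LOG from a frame** -/
theorem ci_of (hNV : CLog_68.NVStmt) {f : E3 → ℂ} (hf : Iso f) (hm : 0 < mstar f) (F : Frame f)
    (hb : F.BPF) {L : ℕ} (q : Fin L → E3 → ℂ) (s : Fin L → ℕ) (hS : Sys f q s) :
    ∃ (k : ℕ) (g h : E3 → ℂ), XF_157.Exact f k g h ∧ JU f k g h ∧ CI f g h q s := by
  obtain ⟨y, k, m, hy, hk, hkm, hbp⟩ := hb
  obtain ⟨i₀, -⟩ := F.exists_pos_nu hf hm
  have hI : Nonempty F.I := ⟨i₀⟩
  have hpos := hy.pos hf hm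
  obtain ⟨g, h, hg, hh, hloc⟩ := genQStmt f F y k m hy hpos hk hkm hbp L q hS.an
  have P : F.PairD y k m g h := ⟨hy, hpos, hk, hkm, hg, hh, fun c p₀ hp => by
    obtain ⟨G, H, h1, h2, h3⟩ := hloc c p₀ hp
    exact ⟨G, H, h1, h2, h3.imp_right fun h4 => ⟨h4.1, h4.2.1⟩⟩⟩
  refine ⟨k, g, h, ⟨hk, P.ang, P.anh, Frame.Fac.vanish P.m_pos P.geg hI,
    Frame.Fac.vanish P.m_pos P.geh hI, ?_, ?_, P.e3 hf.an hI, P.e4⟩, P.ju hf.an hI, ?_⟩
  · intro p hp hpk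
    exact ⟨Frame.InJ_of_ge hf.an hy hpos hkm P.ang P.geg hp hpk,
      Frame.InJ_of_ge hf.an hy hpos hkm P.anh P.geh hp hpk⟩
  · intro a ha u hu h1 h2
    exact P.e2 hf.an hI ha hu h1 h2
  · obtain ⟨C, hC⟩ := F.glob
      (fun C x => (‖g x‖ ^ 2 + ‖h x‖ ^ 2) * J2 f q s x ≤ C * a2 f g q s x)
      (fun C C' x hCC h => h.trans (mul_le_mul_of_nonneg_right hCC (a2_nonneg f g q s x)))
      (fun c p₀ hp => by
        obtain ⟨G, H, hG, hH, hor⟩ := hloc c p₀ hp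
        exact Frame.ci_near hf.an hg hh hS hp (Frame.gv hNV hf.an P.m_pos hS.an hp hG hH hor))
    obtain ⟨r, hr, hball⟩ := Metric.eventually_nhds_iff_ball.1 hC
    have hD : 0 < max C 1 := lt_of_lt_of_le one_pos (le_max_right _ _)
    refine ⟨(max C 1)⁻¹, r, inv_pos.2 hD, hr, fun x hx hfx hx0 => ?_⟩
    have h1 := hball x (by simpa using hx) hx0 hfx
    rw [mul_assoc, inv_mul_le_iff₀ hD]
    exact h1.trans (mul_le_mul_of_nonneg_right (le_max_left _ _) (a2_nonneg f g q s x))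

end Crest.Agent.R257.Fr_808
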