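import Crest.Agent.R257.NV_980_Mg
import Crest.Agent.R257.ExF_121
import Crest.Agent.R257.Fr13_808
import Crest.Agent.R257.CLogG_68
import Crest.Agent.R257.Fr10_808
import Crest.Agent.R257.T9_387
import Crest.Agent.R257.OrdL_578
import Crest.Agent.R257.T0_939
import Crest.Agent.R257.FrmB_547
import Crest.Agent.R257.CLogDefs_68
import Crest.Agent.R257.T11_387
import Crest.Agent.R257.ExBD_843

-- ▼ part R257/FrBP8_808
section

/-!
R257 / FrBP8_808: base point freeness of the frame `D.fr`, and the existence of an exact pair.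
-/

set_option autoImplicit false
set_option linter.unusedSectionVars false

open Polynomial Set Filter Topology Metric
open Crest.AlgGeometry.Germ

noncomputable section

namespace Crest.Agent.R257.FrBP_808

open Crest.Agent.R257.Defs_219 Crest.Agent.R257.AJ387 Crest.Agent.R257.T387
open Crest.Agent.R257.BP_258 Crest.Agent.R257.FrmF_547
open Crest.Agent.R257.Gr1_157 Crest.Agent.R257.GrH_547
open Crest.Agent.R257.Fr_808 Crest.Agent.R257.Rot1_558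

variable {f : (Fin 3 → ℂ) → ℂ} {T : TB f} {hC : Clo T} {S : Sh T} {L : Lab (Tb_941.tub T hC) S}
  {nu : II (Tb_941.tub T hC) → ℤ} {n1 n2 : Ch T.m → Fin T.d → ℤ}

/-- the output of one Hoermander step, for the frame `D.fr` (files `ExG_121`, `ExH_82`) -/
structure ExAll (D : FrIn L nu n1 n2) (hG : GalPt T) : Prop where
  pe : ∃ B : ℝ, Ex_121.ExP D.fr (ExF_121.GG D hG) B (KiD_121.Dv T) ∧
    Ex_121.ExE D.fr (ExF_121.GG D hG) B (KiD_121.Dv T)
  nt : ∃ Th : D.fr.I → Prop, Ex_121.ExN D.fr (ExF_121.GG D hG) (KiD_121.Dv T) Th ∧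
    Ex_121.ExT D.fr (ExF_121.GG D hG) Th

theorem Dv_pos (T : TB f) : 0 < KiD_121.Dv T :=
  Nat.mul_pos T.N_pos (Nat.mul_pos T.M_pos (Nat.factorial_pos _))

/-- **base point freeness** -/
theorem bpf_fr (D : FrIn L nu n1 n2) {hG : GalPt T} (h : ExAll D hG) : D.fr.BPF := by
  obtain ⟨B, hP, hE⟩ := h.pe
  obtain ⟨Th, hN, hT⟩ := h.nt
  exact Ex_121.bpf_of f D.hf.an D.fr (ExF_121.GG D hG) B (KiD_121.Dv T) Th D.adj
    (ExF_121.rot_fr D hG) (Dv_pos T) hP hE hN hT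


end Crest.Agent.R257.FrBP_808
end
end

-- ▼ part R257/CLogH_68
section

/-!
R257 / CLogH_68 (C-LOG, helper68): from the charts of `T` to the charts of a frame.

* `CR T F`  : the charts of `F` are scaled charts of `T`;
* `Bm F c`  : `‖p.1‖ ^ (2 nu) * ‖p.2‖ ^ (2 nu')`;
* `bridge`  : Jacobians in the charts of `T` against `Dt` in the charts of `F`;
* `concl`   : from a bound for the Jacobian to a bound for `Tm`.
-/

set_option autoImplicit false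
set_option linter.unusedSectionVars false

open Polynomial Set Filter Topology Metric
open Crest.AlgGeometry.Germ Crest.Agent.R257.AJ387 Crest.Agent.R257.T387

noncomputable section

namespace Crest.Agent.R257.CLog_68

open Crest.Agent.R257.Defs_219
open Crest.Agent.R257.Fr_808 (jc jc_eq jac2 dt0_an Frame)

variable {f : (Fin 3 → ℂ) → ℂ} {T : TB f}

/-- the charts of the frame are scaled charts of `T` -/
def CR (T : TB f) (F : Frame f) : Prop := ∀ c : F.K, ∃ (c' : Ch T.m) (r R : ℝ)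
  (ζ : Fin T.d → ℂ × ℂ → ℂ) (j : Fin T.d), T.Valid c' ∧ T.Sheets c' r ζ ∧ 0 < R ∧ R < r ∧
    (∀ p, F.th c p = T.thS c' R (ζ j) p) ∧ (F.e2 c = none ↔ T.NE c') ∧
    (T.IsTop c' → F.nu2 c ≤ -(T.N : ℤ))


/-- `‖p.1‖ ^ (2 nu) * ‖p.2‖ ^ (2 nu')` -/
def Bm (F : Frame f) (c : F.K) (p : ℂ × ℂ) : ℝ :=
  ‖p.1‖ ^ (2 * F.nu (F.e1 c)) * (if F.e2 c = none then 1 else ‖p.2‖ ^ (2 * F.nu2 c))

theorem Bm_pos (F : Frame f) (c : F.K) {p : ℂ × ℂ} (h1 : p.1 ≠ 0) (h2 : p.2 ≠ 0) :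
    0 < Bm F c p := by
  have e1 := norm_pos_iff.2 h1
  have e2 := norm_pos_iff.2 h2
  unfold Bm
  split_ifs <;> positivity

/-- good members of a list -/
def Good (a : ℕ × (E3 → ℂ)) : Prop := 0 < a.1 ∧ AnalyticAt ℂ a.2 0 ∧ a.2 0 = 0

/-- the local statement -/
def LocB (T : TB f) (F : Frame f) (c : F.K) (p₀ : ℂ × ℂ) : Prop :=
  ∃ S : Set (ℕ × (E3 → ℂ)), S.Finite ∧ (∀ a ∈ S, Good a) ∧ ∃ κ : ℝ, 0 < κ ∧
    ∀ᶠ p in 𝓝 p₀, p.1 ≠ 0 → p.2 ≠ 0 → ∃ a ∈ S, ∃ b ∈ S,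
      κ * Bm F c p ≤ Tm T a.1 a.2 b.1 b.2 (F.th c p)

/-- Jacobians in the charts of `T` against `Dt` in the charts of `F` -/
theorem bridge (hf : Iso f) (F : Frame f) {c : F.K} {p₀ : ℂ × ℂ} (hp₀ : p₀ ∈ F.SF c)
    {c' : Ch T.m} {r R : ℝ} {ζ : Fin T.d → ℂ × ℂ → ℂ} (hS : T.Sheets c' r ζ) (hR : 0 < R)
    (hRr : R < r) (j : Fin T.d) (hth : ∀ p, F.th c p = T.thS c' R (ζ j) p) {Q Q' : E3 → ℂ}
    (hQ : AnalyticAt ℂ Q 0) (hQ' : AnalyticAt ℂ Q' 0) :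
    ∃ C : ℝ, 0 < C ∧ ∀ᶠ p in 𝓝 p₀, p.1 ≠ 0 → p.2 ≠ 0 →
      ‖jc (fun p => Q (T.th c' (ζ j) p)) (fun p => Q' (T.th c' (ζ j) p)) (T.sg c' R p)‖ ≤
        C * (‖Dt f Q Q' (F.th c p)‖ *
          (‖p.1‖ ^ (-F.nu (F.e1 c) - 1) * ‖p.2‖ ^ (-F.nu2 c - 1))) := by
  obtain ⟨U, hU, -, hjac⟩ := F.jac c p₀ hp₀
  obtain ⟨C, hC, hUb⟩ := bd_near hU.continuousAt
  have hR' : (R : ℂ) ≠ 0 := by exact_mod_cast hR.ne'
  have hsgc : Continuous (T.sg c' R) := by
    have : T.sg c' R = fun p => T.sgL c' R p := by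
      funext p; rw [TB.sgL_apply]
    rw [this]
    exact (T.sgL c' R).continuous
  -- a slightly larger bidisc
  have hbd : ∀ᶠ p in 𝓝 p₀, T.sg c' R p ∈ BD r r := by
    have h1 : ∀ᶠ p in 𝓝 p₀, p ∈ BD (r / R) (r / R) := by
      refine (isOpen_BD _ _).mem_nhds ?_
      have h2 : 1 < r / R := by rw [one_lt_div hR]; exact hRr
      exact ⟨lt_of_le_of_lt hp₀.1.1 h2, lt_of_le_of_lt hp₀.1.2 h2⟩
    filter_upwards [h1] with p hp
    have h3 := T.sg_mem c' hR hp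
    rwa [mul_div_cancel₀ r hR.ne'] at h3
  refine ⟨(R ^ 2)⁻¹ * (C + 1), by positivity, ?_⟩
  filter_upwards [hjac, hUb, hbd, F.an_near hf.an hQ hp₀, F.an_near hf.an hQ' hp₀]
    with p h1 h2 h3 h4 h5 hp1 hp2
  obtain ⟨h6, h7⟩ := h1 hp1 hp2
  set q := T.sg c' R p with hq
  have hθ := hS.th_an j h3
  have e1 : F.th c p = T.th c' (ζ j) q := hth p
  have e2 : jac2 (F.th c) p = (if T.IsTop c' then -(R : ℂ) ^ 2 else (R : ℂ) ^ 2) *
      jac2 (T.th c' (ζ j)) q := by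
    have h8 : F.th c = fun p => T.th c' (ζ j) (T.sg c' R p) := funext hth
    rw [h8]
    exact T.jac2_sg c' R hθ.differentiableAt
  have e3 := jc_eq (f := f) (g := Q) (h := Q') (θ := T.th c' (ζ j)) (p := q) hθ.differentiableAt
    (hS.f_an j h3).differentiableAt (by rw [← e1]; exact h4.2.2.differentiableAt)
    (by rw [← e1]; exact h5.2.2.differentiableAt) (by
      filter_upwards [(isOpen_BD r r).mem_nhds h3] with p' hp' using hS.th_V j hp')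
  rw [← e1] at e3
  set J := jc (fun p => Q (T.th c' (ζ j) p)) (fun p => Q' (T.th c' (ζ j) p)) q with hJ
  set ε : ℂ := if T.IsTop c' then -(R : ℂ) ^ 2 else (R : ℂ) ^ 2 with hε
  have hεn : ‖ε‖ = R ^ 2 := by
    rw [hε]
    split_ifs
    · rw [norm_neg, norm_pow, Complex.norm_real, Real.norm_of_nonneg hR.le]
    · rw [norm_pow, Complex.norm_real, Real.norm_of_nonneg hR.le]
  have e4 : ε * J = Dt f Q Q' (F.th c p) *
      (p.1 ^ (-F.nu (F.e1 c) - 1) * p.2 ^ (-F.nu2 c - 1) * U p) := by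
    apply mul_left_cancel₀ h6
    have e5 : coordDeriv f 0 (F.th c p) * (ε * J) = Dt f Q Q' (F.th c p) * jac2 (F.th c) p := by
      rw [e2]
      linear_combination ε * e3
    rw [e5, h7]
    ring
  have e6 : R ^ 2 * ‖J‖ = ‖Dt f Q Q' (F.th c p)‖ *
      (‖p.1‖ ^ (-F.nu (F.e1 c) - 1) * ‖p.2‖ ^ (-F.nu2 c - 1) * ‖U p‖) := by
    rw [← hεn, ← norm_mul, e4, norm_mul, norm_mul, norm_mul, norm_zpow, norm_zpow]
  have hR2 : 0 < R ^ 2 := by positivity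
  have e7 : ‖J‖ = (R ^ 2)⁻¹ * (‖Dt f Q Q' (F.th c p)‖ *
      (‖p.1‖ ^ (-F.nu (F.e1 c) - 1) * ‖p.2‖ ^ (-F.nu2 c - 1) * ‖U p‖)) := by
    rw [← e6, ← mul_assoc, inv_mul_cancel₀ hR2.ne', one_mul]
  have hX : 0 ≤ ‖Dt f Q Q' (F.th c p)‖ *
      (‖p.1‖ ^ (-F.nu (F.e1 c) - 1) * ‖p.2‖ ^ (-F.nu2 c - 1)) := by positivity
  have e8 : ‖Dt f Q Q' (F.th c p)‖ *
        (‖p.1‖ ^ (-F.nu (F.e1 c) - 1) * ‖p.2‖ ^ (-F.nu2 c - 1) * ‖U p‖) ≤
      (C + 1) * (‖Dt f Q Q' (F.th c p)‖ *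
        (‖p.1‖ ^ (-F.nu (F.e1 c) - 1) * ‖p.2‖ ^ (-F.nu2 c - 1))) := by
    calc _ = ‖U p‖ * (‖Dt f Q Q' (F.th c p)‖ *
          (‖p.1‖ ^ (-F.nu (F.e1 c) - 1) * ‖p.2‖ ^ (-F.nu2 c - 1))) := by ring
      _ ≤ _ := mul_le_mul_of_nonneg_right (by linarith) hX
  calc ‖J‖ = _ := e7
    _ ≤ (R ^ 2)⁻¹ * ((C + 1) * (‖Dt f Q Q' (F.th c p)‖ *
          (‖p.1‖ ^ (-F.nu (F.e1 c) - 1) * ‖p.2‖ ^ (-F.nu2 c - 1)))) :=
        mul_le_mul_of_nonneg_left e8 (inv_nonneg.2 hR2.le)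
    _ = _ := by ring

/-- from a bound for the Jacobian to a bound for `Tm` -/
theorem concl (hf : Iso f) (F : Frame f) {c : F.K} {p₀ : ℂ × ℂ} (hp₀ : p₀ ∈ F.SF c)
    {c' : Ch T.m} {r R : ℝ} {ζ : Fin T.d → ℂ × ℂ → ℂ} (hS : T.Sheets c' r ζ) (hR : 0 < R)
    (hRr : R < r) (j : Fin T.d) (hth : ∀ p, F.th c p = T.thS c' R (ζ j) p) {Q Q' : E3 → ℂ}
    (hQ : AnalyticAt ℂ Q 0) (hQ' : AnalyticAt ℂ Q' 0) {M₁ M₂ : ℕ} {κ C' : ℝ} (hκ : 0 < κ)
    {Rg : ℂ × ℂ → Prop} {V S : ℂ × ℂ → ℝ} (hV : ∀ p : ℂ × ℂ, p.1 ≠ 0 → p.2 ≠ 0 → 0 < V p)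
    (hS0 : ∀ p, 0 ≤ S p)
    (h1 : ∀ᶠ p in 𝓝 p₀, p.1 ≠ 0 → p.2 ≠ 0 → Rg p → κ * V p ≤
      (‖jc (fun p => Q (T.th c' (ζ j) p)) (fun p => Q' (T.th c' (ζ j) p)) (T.sg c' R p)‖ * S p) ^ 2 /
        (WT T M₁ Q (F.th c p) * WT T M₂ Q' (F.th c p)))
    (h2 : ∀ᶠ p in 𝓝 p₀, p.1 ≠ 0 → p.2 ≠ 0 →
      (‖p.1‖ ^ (-F.nu (F.e1 c) - 1) * ‖p.2‖ ^ (-F.nu2 c - 1) * S p) ^ 2 * Bm F c p ≤ C' * V p) :
    ∃ κ' : ℝ, 0 < κ' ∧ ∀ᶠ p in 𝓝 p₀, p.1 ≠ 0 → p.2 ≠ 0 → Rg p →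
      κ' * Bm F c p ≤ Tm T M₁ Q M₂ Q' (F.th c p) := by
  obtain ⟨C, hC, hb⟩ := bridge hf F hp₀ hS hR hRr j hth hQ hQ'
  set D : ℝ := max C' 1 with hD
  have hD0 : 0 < D := lt_of_lt_of_le one_pos (le_max_right _ _)
  refine ⟨κ / (C ^ 2 * D), by positivity, ?_⟩
  filter_upwards [h1, h2, hb] with p g1 g2 g3 hp1 hp2 hRg
  have k1 := g1 hp1 hp2 hRg
  have k2 := g2 hp1 hp2
  have k3 := g3 hp1 hp2
  have hVp := hV p hp1 hp2
  have hBp := Bm_pos F c hp1 hp2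
  have hSp := hS0 p
  set J := ‖jc (fun p => Q (T.th c' (ζ j) p)) (fun p => Q' (T.th c' (ζ j) p)) (T.sg c' R p)‖ with hJ
  set dt := ‖Dt f Q Q' (F.th c p)‖ with hdt
  set X := ‖p.1‖ ^ (-F.nu (F.e1 c) - 1) * ‖p.2‖ ^ (-F.nu2 c - 1) with hX
  set W := WT T M₁ Q (F.th c p) * WT T M₂ Q' (F.th c p) with hW
  have hW0 : 0 ≤ W := mul_nonneg (WT_nonneg _ _ _) (WT_nonneg _ _ _)
  have hX0 : 0 ≤ X := by positivity
  have k4 : (J * S p) ^ 2 ≤ (C * (dt * X) * S p) ^ 2 :=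
    pow_le_pow_left₀ (by positivity) (mul_le_mul_of_nonneg_right k3 hSp) 2
  have k5 : κ * V p ≤ C ^ 2 * (X * S p) ^ 2 * (dt ^ 2 / W) := by
    refine k1.trans ((div_le_div_of_nonneg_right k4 hW0).trans (le_of_eq ?_))
    ring
  have k6 : κ * V p * Bm F c p ≤ C ^ 2 * D * (dt ^ 2 / W) * V p := by
    have hT : 0 ≤ dt ^ 2 / W := by positivity
    calc κ * V p * Bm F c p ≤ C ^ 2 * (X * S p) ^ 2 * (dt ^ 2 / W) * Bm F c p :=
          mul_le_mul_of_nonneg_right k5 hBp.le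
      _ = C ^ 2 * (dt ^ 2 / W) * ((X * S p) ^ 2 * Bm F c p) := by ring
      _ ≤ C ^ 2 * (dt ^ 2 / W) * (C' * V p) := mul_le_mul_of_nonneg_left k2 (by positivity)
      _ ≤ C ^ 2 * (dt ^ 2 / W) * (D * V p) := by
          refine mul_le_mul_of_nonneg_left (mul_le_mul_of_nonneg_right (le_max_left _ _) hVp.le)
            (by positivity)
      _ = _ := by ring
  have k7 : κ * Bm F c p ≤ C ^ 2 * D * (dt ^ 2 / W) := by
    refine le_of_mul_le_mul_right (a := V p) ?_ hVp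
    calc κ * Bm F c p * V p = κ * V p * Bm F c p := by ring
      _ ≤ _ := k6
  have k8 : Tm T M₁ Q M₂ Q' (F.th c p) = dt ^ 2 / W := rfl
  rw [k8, div_mul_eq_mul_div, div_le_iff₀ (by positivity)]
  calc κ * Bm F c p ≤ C ^ 2 * D * (dt ^ 2 / W) := k7
    _ = _ := by ring

end Crest.Agent.R257.CLog_68
end
namespace Crest.Agent.R257.CLog_68.CR
end Crest.Agent.R257.CLog_68.CR
end

-- ▼ part R257/CLogI_68
section

/-!
R257 / CLogI_68 (C-LOG, helper68): the local statement at every point of the special fibre of a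
frame whose charts are scaled charts of `T`.
-/

set_option autoImplicit false
set_option linter.unusedSectionVars false

open Polynomial Set Filter Topology Metric
open Crest.AlgGeometry.Germ Crest.Agent.R257.AJ387 Crest.Agent.R257.T387

noncomputable section

namespace Crest.Agent.R257.CLog_68

open Crest.Agent.R257.Defs_219
open Crest.Agent.R257.Fr_808 (jc jc_eq jac2 dt0_an Frame)

variable {f : (Fin 3 → ℂ) → ℂ} {T : TB f}

/-! ### exponents -/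

theorem z0 {a : ℝ} (ha : 0 < a) (n : ℤ) : a ^ (-n - 1) * a = a ^ (-n) := by
  have h1 : -n = -n - 1 + 1 := by ring
  conv_rhs => rw [h1, zpow_add_one₀ ha.ne']

theorem z1 {a : ℝ} (ha : 0 < a) (n : ℤ) : (a ^ (-n - 1) * a) ^ 2 * a ^ (2 * n) = 1 := by
  rw [z0 ha, ← zpow_natCast, ← zpow_mul, ← zpow_add₀ ha.ne']
  have : -n * ((2 : ℕ) : ℤ) + 2 * n = 0 := by push_cast; ring
  rw [this, zpow_zero]

theorem zb {b C : ℝ} (hb : 0 ≤ b) (hbC : b ≤ C) {n : ℤ} (hn : 0 ≤ n) : b ^ n ≤ C ^ n := by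
  obtain ⟨m, rfl⟩ := Int.eq_ofNat_of_zero_le hn
  rw [zpow_natCast, zpow_natCast]
  exact pow_le_pow_left₀ hb hbC m

/-! ### members -/

theorem good_X1 (T : TB f) : Good (T.N₀, X1 T) := ⟨T.N₀_pos, X1_an T 0, X1_zero T⟩

theorem card_Ai_le (i : Fin T.m) (k : ℕ) : (Ai T i k).card ≤ T.m := by
  have := Finset.card_le_univ (Ai T i k)
  rwa [Fintype.card_fin] at this

theorem QA_good {Dp : ℂ → ℂ[X]} (hD : DpD T Dp) {i : Fin T.m} {k : ℕ} (hk : 0 < k) :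
    Good (eA T i k, QA T Dp i k) := by
  refine ⟨hk.trans_le (le_eA i k), pl_an0 T (Dl_an0 hD _), ?_⟩
  have h1 := card_Ai_le i k
  have h2 := card_Ai_pos T i k
  show pl T (Dl Dp _) 0 = 0
  rw [pl_zero]
  exact Dl_zero hD (by omega)

theorem QD_good {Dp : ℂ → ℂ[X]} (hD : DpD T Dp) {M' : ℕ} (hM : 0 < M') :
    Good (M', QD T Dp) := by
  refine ⟨hM, pl_an0 T (Dl_an0 hD _), ?_⟩
  show pl T (Dl Dp _) 0 = 0
  rw [pl_zero]
  exact Dl_zero hD T.m_pos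

/-- two members suffice -/
theorem LocB.of_pair {F : Frame f} {c : F.K} {p₀ : ℂ × ℂ} {M₁ M₂ : ℕ} {Q Q' : E3 → ℂ}
    (h1 : Good (M₁, Q)) (h2 : Good (M₂, Q')) {κ : ℝ} (hκ : 0 < κ)
    (h : ∀ᶠ p in 𝓝 p₀, p.1 ≠ 0 → p.2 ≠ 0 → κ * Bm F c p ≤ Tm T M₁ Q M₂ Q' (F.th c p)) :
    LocB T F c p₀ := by
  refine ⟨{(M₁, Q), (M₂, Q')}, (Set.finite_singleton _).insert _, ?_, κ, hκ, ?_⟩
  · rintro a (rfl | ha)
    · exact h1
    · rw [mem_singleton_iff.1 ha]; exact h2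
  · filter_upwards [h] with p hp h3 h4
    exact ⟨_, Or.inl rfl, _, Or.inr rfl, hp h3 h4⟩

section charts

variable {F : Frame f} {c : F.K} {p₀ : ℂ × ℂ} {c' : Ch T.m} {r R : ℝ}
  {ζ : Fin T.d → ℂ × ℂ → ℂ} {j : Fin T.d}

theorem sg_cont (c' : Ch T.m) (R : ℝ) : Continuous (T.sg c' R) := by
  have : T.sg c' R = fun p => T.sgL c' R p := by
    funext p; rw [TB.sgL_apply]
  rw [this]
  exact (T.sgL c' R).continuous

/-- the local statement from `locA` -/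
theorem LocB.of_A (hf : Iso f) (hp₀ : p₀ ∈ F.SF c) (hS : T.Sheets c' r ζ) (hR : 0 < R)
    (hRr : R < r) (hth : ∀ p, F.th c p = T.thS c' R (ζ j) p) {Dp : ℂ → ℂ[X]} (hD : DpD T Dp)
    {i : Fin T.m} {k : ℕ} (hk : 0 < k) {σ W : ℂ × ℂ → ℂ} (hσ : AnalyticAt ℂ σ (T.sg c' R p₀))
    (hW : AnalyticAt ℂ W (T.sg c' R p₀)) (hσ0 : σ (T.sg c' R p₀) = 0)
    (hmap : ∀ᶠ p in 𝓝 (T.sg c' R p₀),
      T.map c' p = (σ p, T.φ i (σ p ^ T.M) + σ p ^ (T.M * k) * W p))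
    (hjc : jc σ W (T.sg c' R p₀) ≠ 0) {C' : ℝ}
    (hσne : ∀ᶠ p in 𝓝 p₀, p.1 ≠ 0 → p.2 ≠ 0 → σ (T.sg c' R p) ≠ 0)
    (h2 : ∀ᶠ p in 𝓝 p₀, p.1 ≠ 0 → p.2 ≠ 0 →
      (‖p.1‖ ^ (-F.nu (F.e1 c) - 1) * ‖p.2‖ ^ (-F.nu2 c - 1) * ‖σ (T.sg c' R p)‖) ^ 2 *
        Bm F c p ≤ C') : LocB T F c p₀ := by
  obtain ⟨κ, hκ, h1⟩ := locA (z := ζ j) hD hk hσ hW hσ0 hmap hjc
  have hsg : Tendsto (T.sg c' R) (𝓝 p₀) (𝓝 (T.sg c' R p₀)) := (sg_cont c' R).tendsto p₀
  obtain ⟨κ', hκ', h3⟩ := concl hf F hp₀ hS hR hRr j hth (Q := X1 T) (Q' := QA T Dp i k)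
    (X1_an T 0) (QA_good hD (i := i) hk).2.1 (M₁ := T.N₀) (M₂ := eA T i k) hκ
    (Rg := fun _ => True) (V := fun _ => 1) (S := fun p => ‖σ (T.sg c' R p)‖) (C' := C')
    (fun _ _ _ => one_pos) (fun _ => norm_nonneg _)
    (by
      filter_upwards [hsg.eventually h1, hσne] with p h4 h5 hp1 hp2 _
      have h6 := h4 (h5 hp1 hp2)
      rw [mul_one, hth p]
      exact h6)
    (by
      filter_upwards [h2] with p h4 hp1 hp2
      rw [mul_one]
      exact h4 hp1 hp2)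
  refine LocB.of_pair (good_X1 T) (QA_good hD (i := i) hk) hκ' ?_
  filter_upwards [h3] with p h4 hp1 hp2 using h4 hp1 hp2 trivial

theorem sg_nt (h : ¬ T.IsTop c') (p : ℂ × ℂ) : T.sg c' R p = ((R : ℂ) * p.1, (R : ℂ) * p.2) := by
  rw [TB.sg, if_neg h]

theorem sg_top (h : T.IsTop c') (p : ℂ × ℂ) : T.sg c' R p = ((R : ℂ) * p.2, (R : ℂ) * p.1) := by
  rw [TB.sg, if_pos h]

theorem norm_R (hR : 0 < R) (z : ℂ) : ‖(R : ℂ) * z‖ = R * ‖z‖ := by
  rw [norm_mul, Complex.norm_real, Real.norm_of_nonneg hR.le]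

theorem near2 (hp₀ : p₀ ∈ F.SF c) : ∀ᶠ p in 𝓝 p₀, ‖p.1‖ ≤ 2 ∧ ‖p.2‖ ≤ 2 := by
  have h1 : ∀ᶠ p in 𝓝 p₀, ‖p.1‖ < 2 := by
    have : ContinuousAt (fun p : ℂ × ℂ => ‖p.1‖) p₀ := by fun_prop
    exact this.eventually_lt continuousAt_const (by have := hp₀.1.1; linarith)
  have h2 : ∀ᶠ p in 𝓝 p₀, ‖p.2‖ < 2 := by
    have : ContinuousAt (fun p : ℂ × ℂ => ‖p.2‖) p₀ := by fun_prop
    exact this.eventually_lt continuousAt_const (by have := hp₀.1.2; linarith)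
  filter_upwards [h1, h2] with p a b using ⟨a.le, b.le⟩

/-- exponents of the non exceptional second axis, `σ = s` -/
theorem bd_a (hp₀ : p₀ ∈ F.SF c) (hR : 0 < R) (he : F.e2 c = none) :
    ∀ᶠ p in 𝓝 p₀, p.1 ≠ 0 → p.2 ≠ 0 →
      (‖p.1‖ ^ (-F.nu (F.e1 c) - 1) * ‖p.2‖ ^ (-F.nu2 c - 1) * (R * ‖p.1‖)) ^ 2 *
        Bm F c p ≤ R ^ 2 * ((2 : ℝ) ^ (-F.nu2 c - 1)) ^ 2 := by
  have hn := F.nu2_none c he
  filter_upwards [near2 hp₀] with p h1 hp1 hp2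
  have e1 := norm_pos_iff.2 hp1
  have e2 := norm_pos_iff.2 hp2
  rw [Bm, if_pos he, mul_one]
  have h3 : (‖p.1‖ ^ (-F.nu (F.e1 c) - 1) * ‖p.2‖ ^ (-F.nu2 c - 1) * (R * ‖p.1‖)) ^ 2 *
      ‖p.1‖ ^ (2 * F.nu (F.e1 c)) = R ^ 2 * (‖p.2‖ ^ (-F.nu2 c - 1)) ^ 2 *
        ((‖p.1‖ ^ (-F.nu (F.e1 c) - 1) * ‖p.1‖) ^ 2 * ‖p.1‖ ^ (2 * F.nu (F.e1 c))) := by ring
  rw [h3, z1 e1, mul_one]
  exact mul_le_mul_of_nonneg_left (pow_le_pow_left₀ (by positivity)
    (zb e2.le h1.2 (by omega)) 2) (by positivity)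

/-- exponents of interior edges, `σ = αβ` -/
theorem bd_b (he : F.e2 c ≠ none) :
    ∀ᶠ p in 𝓝 p₀, p.1 ≠ 0 → p.2 ≠ 0 →
      (‖p.1‖ ^ (-F.nu (F.e1 c) - 1) * ‖p.2‖ ^ (-F.nu2 c - 1) * ((R * ‖p.1‖) * (R * ‖p.2‖))) ^ 2 *
        Bm F c p ≤ R ^ 4 := by
  refine Eventually.of_forall fun p hp1 hp2 => le_of_eq ?_
  have e1 := norm_pos_iff.2 hp1
  have e2 := norm_pos_iff.2 hp2
  rw [Bm, if_neg he]
  have h3 : (‖p.1‖ ^ (-F.nu (F.e1 c) - 1) * ‖p.2‖ ^ (-F.nu2 c - 1) *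
      ((R * ‖p.1‖) * (R * ‖p.2‖))) ^ 2 * (‖p.1‖ ^ (2 * F.nu (F.e1 c)) * ‖p.2‖ ^ (2 * F.nu2 c)) =
      R ^ 4 * ((‖p.1‖ ^ (-F.nu (F.e1 c) - 1) * ‖p.1‖) ^ 2 * ‖p.1‖ ^ (2 * F.nu (F.e1 c))) *
        ((‖p.2‖ ^ (-F.nu2 c - 1) * ‖p.2‖) ^ 2 * ‖p.2‖ ^ (2 * F.nu2 c)) := by ring
  rw [h3, z1 e1, z1 e2, mul_one, mul_one]

/-- exponents of top edges, `σ = αβ` -/
theorem bd_c (hp₀ : p₀ ∈ F.SF c) (hR : 0 < R) (he : F.e2 c = none) :
    ∀ᶠ p in 𝓝 p₀, p.1 ≠ 0 → p.2 ≠ 0 →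
      (‖p.1‖ ^ (-F.nu (F.e1 c) - 1) * ‖p.2‖ ^ (-F.nu2 c - 1) * ((R * ‖p.2‖) * (R * ‖p.1‖))) ^ 2 *
        Bm F c p ≤ R ^ 4 * ((2 : ℝ) ^ (-F.nu2 c)) ^ 2 := by
  have hn := F.nu2_none c he
  filter_upwards [near2 hp₀] with p h1 hp1 hp2
  have e1 := norm_pos_iff.2 hp1
  have e2 := norm_pos_iff.2 hp2
  rw [Bm, if_pos he, mul_one]
  have h3 : (‖p.1‖ ^ (-F.nu (F.e1 c) - 1) * ‖p.2‖ ^ (-F.nu2 c - 1) *
      ((R * ‖p.2‖) * (R * ‖p.1‖))) ^ 2 * ‖p.1‖ ^ (2 * F.nu (F.e1 c)) =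
      R ^ 4 * (‖p.2‖ ^ (-F.nu2 c - 1) * ‖p.2‖) ^ 2 *
        ((‖p.1‖ ^ (-F.nu (F.e1 c) - 1) * ‖p.1‖) ^ 2 * ‖p.1‖ ^ (2 * F.nu (F.e1 c))) := by ring
  rw [h3, z1 e1, z0 e2, mul_one]
  exact mul_le_mul_of_nonneg_left (pow_le_pow_left₀ (by positivity)
    (zb e2.le h1.2 (by omega)) 2) (by positivity)

end charts

/-! ### the functions `σ`, `W` -/

theorem jc_ab (q : ℂ × ℂ) (n : ℕ) :
    jc (fun q : ℂ × ℂ => q.1 * q.2) (fun q : ℂ × ℂ => q.2 ^ n) q = n * q.2 ^ n := by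
  rw [jc_mul]
  have h2 : HasFDerivAt (fun p : ℂ × ℂ => p.2 ^ n)
      ((n • q.2 ^ (n - 1)) • (ContinuousLinearMap.snd ℂ ℂ ℂ)) q :=
    (hasFDerivAt_snd (𝕜 := ℂ) (p := q)).pow n
  rw [h2.fderiv]
  simp only [smul_apply, smul_eq_mul, nsmul_eq_mul, ContinuousLinearMap.coe_snd']
  rcases Nat.eq_zero_or_pos n with h | h
  · subst h; simp
  · have : q.2 ^ n = q.2 ^ (n - 1) * q.2 := by rw [← pow_succ]; congr 1; omega
    rw [this]; ring

theorem jc_ab' {q : ℂ × ℂ} (hq : q.1 ≠ 0) (n : ℕ) :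
    jc (fun q : ℂ × ℂ => q.1 * q.2) (fun q : ℂ × ℂ => (q.1⁻¹) ^ n) q = n * (q.1⁻¹) ^ n := by
  rw [jc_mul]
  have h1 : HasDerivAt (fun z : ℂ => (z⁻¹) ^ n) (n * (q.1⁻¹) ^ (n - 1) * (-(q.1 ^ 2)⁻¹)) q.1 :=
    (hasDerivAt_inv hq).pow n
  have h2 : HasFDerivAt (fun p : ℂ × ℂ => (p.1⁻¹) ^ n)
      ((n * (q.1⁻¹) ^ (n - 1) * (-(q.1 ^ 2)⁻¹)) • (ContinuousLinearMap.fst ℂ ℂ ℂ)) q :=
    HasDerivAt.comp_hasFDerivAt (f := fun p : ℂ × ℂ => p.1) q h1 hasFDerivAt_fst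
  rw [h2.fderiv]
  simp only [smul_apply, smul_eq_mul, ContinuousLinearMap.coe_fst', mul_zero, mul_one]
  rcases Nat.eq_zero_or_pos n with h | h
  · subst h; simp
  · have e1 : (q.1⁻¹) ^ n = (q.1⁻¹) ^ (n - 1) * q.1⁻¹ := by rw [← pow_succ]; congr 1; omega
    rw [e1]
    field_simp
    ring

theorem jc_leg (q : ℂ × ℂ) (n : ℕ) :
    jc (fun q : ℂ × ℂ => q.1) (fun q : ℂ × ℂ => q.2 ^ n) q = n * q.2 ^ (n - 1) := by
  rw [jc_fst]
  have h2 : HasFDerivAt (fun p : ℂ × ℂ => p.2 ^ n)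
      ((n • q.2 ^ (n - 1)) • (ContinuousLinearMap.snd ℂ ℂ ℂ)) q :=
    (hasFDerivAt_snd (𝕜 := ℂ) (p := q)).pow n
  rw [h2.fderiv]
  simp only [smul_apply, smul_eq_mul, nsmul_eq_mul, ContinuousLinearMap.coe_snd', mul_one]

theorem jc_vert (q : ℂ × ℂ) (w₀ : ℂ) :
    jc (fun q : ℂ × ℂ => q.1) (fun q : ℂ × ℂ => w₀ + q.2) q = 1 := by
  rw [jc_fst]
  have h2 : HasFDerivAt (fun p : ℂ × ℂ => w₀ + p.2) (ContinuousLinearMap.snd ℂ ℂ ℂ) q :=
    (hasFDerivAt_snd (𝕜 := ℂ) (p := q)).const_add w₀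
  rw [h2.fderiv]
  rfl

end Crest.Agent.R257.CLog_68
end
end

-- ▼ part R257/CLogJ_68
section

/-!
R257 / CLogJ_68 (C-LOG, helper68): the local statement at every point of the special fibre.
-/

set_option autoImplicit false
set_option linter.unusedSectionVars false

open Polynomial Set Filter Topology Metric
open Crest.AlgGeometry.Germ Crest.Agent.R257.AJ387 Crest.Agent.R257.T387

noncomputable section

namespace Crest.Agent.R257.CLog_68

open Crest.Agent.R257.Defs_219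
open Crest.Agent.R257.Fr_808 (jc jc_eq jac2 dt0_an Frame)

variable {f : (Fin 3 → ℂ) → ℂ} {T : TB f}

variable {F : Frame f} {c : F.K} {p₀ : ℂ × ℂ} {r R : ℝ}
  {ζ : Fin T.d → ℂ × ℂ → ℂ} {j : Fin T.d}

theorem SF_none (hp₀ : p₀ ∈ F.SF c) (he : F.e2 c = none) : p₀.1 = 0 := by
  rcases hp₀.2 with h | h
  · exact h
  · exact absurd he h.1

theorem fst_an (q : ℂ × ℂ) : AnalyticAt ℂ (fun q : ℂ × ℂ => q.1) q := analyticAt_fst

theorem snd_an (q : ℂ × ℂ) : AnalyticAt ℂ (fun q : ℂ × ℂ => q.2) q := analyticAt_snd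

/-- vertex charts -/
theorem LocB.vert (hf : Iso f) (hp₀ : p₀ ∈ F.SF c) {i : Fin T.m} {k : ℕ} {w₀ : ℂ}
    (hc : T.Valid (.vert i k w₀)) (hS : T.Sheets (.vert i k w₀) r ζ) (hR : 0 < R) (hRr : R < r)
    (hth : ∀ p, F.th c p = T.thS (.vert i k w₀) R (ζ j) p) (he : F.e2 c = none)
    {Dp : ℂ → ℂ[X]} (hD : DpD T Dp) : LocB T F c p₀ := by
  have hk : 0 < k := T.lev_pos hc.1
  have hnt : ¬ T.IsTop (.vert i k w₀) := by simp [TB.IsTop]
  have hsg := sg_nt (T := T) (R := R) hnt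
  have h10 := SF_none hp₀ he
  refine LocB.of_A hf hp₀ hS hR hRr hth hD (i := i) hk (σ := fun q => q.1)
    (W := fun q => w₀ + q.2) (C' := R ^ 2 * ((2 : ℝ) ^ (-F.nu2 c - 1)) ^ 2) (fst_an _)
    (analyticAt_const.add (snd_an _)) ?_ ?_ ?_ ?_ ?_
  · rw [hsg, h10]; simp
  · exact Eventually.of_forall fun p => rfl
  · rw [jc_vert]; exact one_ne_zero
  · refine Eventually.of_forall fun p hp1 _ => ?_
    rw [hsg]
    exact mul_ne_zero (by exact_mod_cast hR.ne') hp1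
  · filter_upwards [bd_a hp₀ hR he] with p h hp1 hp2
    rw [hsg]
    simp only
    rw [norm_R hR]
    exact h hp1 hp2

/-- smooth points of legs -/
theorem LocB.leg_sm (hf : Iso f) (hp₀ : p₀ ∈ F.SF c) {i : Fin T.m}
    (hS : T.Sheets (.leg i) r ζ) (hR : 0 < R) (hRr : R < r)
    (hth : ∀ p, F.th c p = T.thS (.leg i) R (ζ j) p) (he : F.e2 c = none) (h20 : p₀.2 ≠ 0)
    {Dp : ℂ → ℂ[X]} (hD : DpD T Dp) : LocB T F c p₀ := by
  have hk : 0 < T.top i := T.lev_pos (Finset.max'_mem _ _)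
  have hnt : ¬ T.IsTop (.leg i) := by simp [TB.IsTop]
  have hsg := sg_nt (T := T) (R := R) hnt
  have hRc : (R : ℂ) ≠ 0 := by exact_mod_cast hR.ne'
  have h10 := SF_none hp₀ he
  refine LocB.of_A hf hp₀ hS hR hRr hth hD (i := i) hk (σ := fun q => q.1)
    (W := fun q => q.2 ^ T.M) (C' := R ^ 2 * ((2 : ℝ) ^ (-F.nu2 c - 1)) ^ 2) (fst_an _)
    ((snd_an _).pow _) ?_ ?_ ?_ ?_ ?_
  · rw [hsg, h10]; simp
  · exact Eventually.of_forall fun p => rfl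
  · rw [jc_leg, hsg]
    exact mul_ne_zero (by exact_mod_cast T.M_pos.ne') (pow_ne_zero _ (mul_ne_zero hRc h20))
  · refine Eventually.of_forall fun p hp1 _ => ?_
    rw [hsg]
    exact mul_ne_zero hRc hp1
  · filter_upwards [bd_a hp₀ hR he] with p h hp1 hp2
    rw [hsg]
    simp only
    rw [norm_R hR]
    exact h hp1 hp2

/-- smooth points of `{α = 0}` on edges, vertex `(i, k)` -/
theorem LocB.edge_a (hf : Iso f) (hp₀ : p₀ ∈ F.SF c) {i : Fin T.m} {k k' : ℕ}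
    (hc : T.Valid (.edge i k k')) (hk : 0 < k) (hS : T.Sheets (.edge i k k') r ζ) (hR : 0 < R)
    (hRr : R < r) (hth : ∀ p, F.th c p = T.thS (.edge i k k') R (ζ j) p) (he : F.e2 c ≠ none)
    (h10 : p₀.1 = 0) (h20 : p₀.2 ≠ 0) {Dp : ℂ → ℂ[X]} (hD : DpD T Dp) : LocB T F c p₀ := by
  have hkk : k < k' := hc.2.2.1
  have hnt : ¬ T.IsTop (.edge i k k') := hk.ne'
  have hsg := sg_nt (T := T) (R := R) hnt
  have hRc : (R : ℂ) ≠ 0 := by exact_mod_cast hR.ne'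
  refine LocB.of_A hf hp₀ hS hR hRr hth hD (i := i) hk (σ := fun q => q.1 * q.2)
    (W := fun q => q.2 ^ (T.M * (k' - k))) (C' := R ^ 4) ((fst_an _).mul (snd_an _))
    ((snd_an _).pow _) ?_ ?_ ?_ ?_ ?_
  · rw [hsg, h10]; simp
  · refine Eventually.of_forall fun p => ?_
    show ((p.1 * p.2, T.φ i ((p.1 * p.2) ^ T.M) + p.1 ^ (T.M * k) * p.2 ^ (T.M * k')) : ℂ × ℂ) = _
    have h1 : p.2 ^ (T.M * k') = p.2 ^ (T.M * k) * p.2 ^ (T.M * (k' - k)) := by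
      rw [← pow_add, ← Nat.mul_add, Nat.add_sub_cancel' hkk.le]
    simp only [Prod.mk.injEq, true_and]
    rw [h1, mul_pow]
    ring
  · rw [jc_ab, hsg]
    refine mul_ne_zero ?_ (pow_ne_zero _ (mul_ne_zero hRc h20))
    have : T.M * (k' - k) ≠ 0 := (Nat.mul_pos T.M_pos (by omega)).ne'
    exact_mod_cast this
  · refine Eventually.of_forall fun p hp1 hp2 => ?_
    rw [hsg]
    exact mul_ne_zero (mul_ne_zero hRc hp1) (mul_ne_zero hRc hp2)
  · filter_upwards [bd_b (p₀ := p₀) (R := R) he] with p h hp1 hp2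
    rw [hsg]
    simp only
    rw [norm_mul, norm_R hR, norm_R hR]
    exact h hp1 hp2

/-- smooth points of `{β = 0}` on interior edges, vertex `(i, k')` -/
theorem LocB.edge_b (hf : Iso f) (hp₀ : p₀ ∈ F.SF c) {i : Fin T.m} {k k' : ℕ}
    (hc : T.Valid (.edge i k k')) (hk : 0 < k) (hS : T.Sheets (.edge i k k') r ζ) (hR : 0 < R)
    (hRr : R < r) (hth : ∀ p, F.th c p = T.thS (.edge i k k') R (ζ j) p) (he : F.e2 c ≠ none)
    (h10 : p₀.1 ≠ 0) (h20 : p₀.2 = 0) {Dp : ℂ → ℂ[X]} (hD : DpD T Dp) : LocB T F c p₀ := by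
  have hkk : k < k' := hc.2.2.1
  have hnt : ¬ T.IsTop (.edge i k k') := hk.ne'
  have hsg := sg_nt (T := T) (R := R) hnt
  have hRc : (R : ℂ) ≠ 0 := by exact_mod_cast hR.ne'
  have hq1 : (T.sg (.edge i k k') R p₀).1 ≠ 0 := by rw [hsg]; exact mul_ne_zero hRc h10
  refine LocB.of_A hf hp₀ hS hR hRr hth hD (i := i) (k := k') (by omega)
    (σ := fun q => q.1 * q.2) (W := fun q => (q.1⁻¹) ^ (T.M * (k' - k))) (C' := R ^ 4)
    ((fst_an _).mul (snd_an _)) (((fst_an _).inv hq1).pow _) ?_ ?_ ?_ ?_ ?_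
  · rw [hsg, h20]; simp
  · filter_upwards [(fst_an _).continuousAt.eventually_ne hq1] with p hp
    show ((p.1 * p.2, T.φ i ((p.1 * p.2) ^ T.M) + p.1 ^ (T.M * k) * p.2 ^ (T.M * k')) : ℂ × ℂ) = _
    have h1 : p.1 ^ (T.M * k') = p.1 ^ (T.M * k) * p.1 ^ (T.M * (k' - k)) := by
      rw [← pow_add, ← Nat.mul_add, Nat.add_sub_cancel' hkk.le]
    have h2 : p.1 ^ (T.M * (k' - k)) * (p.1⁻¹) ^ (T.M * (k' - k)) = 1 := by
      rw [← mul_pow, mul_inv_cancel₀ hp, one_pow]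
    simp only [Prod.mk.injEq, true_and]
    rw [mul_pow _ _ (T.M * k'), h1]
    linear_combination (-(p.1 ^ (T.M * k) * p.2 ^ (T.M * k'))) * h2
  · rw [jc_ab' hq1]
    refine mul_ne_zero ?_ (pow_ne_zero _ (inv_ne_zero hq1))
    have : T.M * (k' - k) ≠ 0 := (Nat.mul_pos T.M_pos (by omega)).ne'
    exact_mod_cast this
  · refine Eventually.of_forall fun p hp1 hp2 => ?_
    rw [hsg]
    exact mul_ne_zero (mul_ne_zero hRc hp1) (mul_ne_zero hRc hp2)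
  · filter_upwards [bd_b (p₀ := p₀) (R := R) he] with p h hp1 hp2
    rw [hsg]
    simp only
    rw [norm_mul, norm_R hR, norm_R hR]
    exact h hp1 hp2

/-- smooth points of top edges, vertex `(i, k')` -/
theorem LocB.top_sm (hf : Iso f) (hp₀ : p₀ ∈ F.SF c) {i : Fin T.m} {k' : ℕ}
    (hc : T.Valid (.edge i 0 k')) (hS : T.Sheets (.edge i 0 k') r ζ) (hR : 0 < R)
    (hRr : R < r) (hth : ∀ p, F.th c p = T.thS (.edge i 0 k') R (ζ j) p) (he : F.e2 c = none)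
    (h20 : p₀.2 ≠ 0) {Dp : ℂ → ℂ[X]} (hD : DpD T Dp) : LocB T F c p₀ := by
  have hkk : 0 < k' := hc.2.2.1
  have ht : T.IsTop (.edge i 0 k') := rfl
  have hsg := sg_top (T := T) (R := R) ht
  have hRc : (R : ℂ) ≠ 0 := by exact_mod_cast hR.ne'
  have h10 := SF_none hp₀ he
  have hq1 : (T.sg (.edge i 0 k') R p₀).1 ≠ 0 := by rw [hsg]; exact mul_ne_zero hRc h20
  refine LocB.of_A hf hp₀ hS hR hRr hth hD (i := i) (k := k') hkk
    (σ := fun q => q.1 * q.2) (W := fun q => (q.1⁻¹) ^ (T.M * k'))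
    (C' := R ^ 4 * ((2 : ℝ) ^ (-F.nu2 c)) ^ 2)
    ((fst_an _).mul (snd_an _)) (((fst_an _).inv hq1).pow _) ?_ ?_ ?_ ?_ ?_
  · rw [hsg, h10]; simp
  · filter_upwards [(fst_an _).continuousAt.eventually_ne hq1] with p hp
    show ((p.1 * p.2, T.φ i ((p.1 * p.2) ^ T.M) + p.1 ^ (T.M * 0) * p.2 ^ (T.M * k')) : ℂ × ℂ) = _
    have h2 : p.1 ^ (T.M * k') * (p.1⁻¹) ^ (T.M * k') = 1 := by
      rw [← mul_pow, mul_inv_cancel₀ hp, one_pow]
    simp only [Prod.mk.injEq, true_and, mul_zero, pow_zero, one_mul]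
    rw [mul_pow _ _ (T.M * k')]
    linear_combination (-(p.2 ^ (T.M * k'))) * h2
  · rw [jc_ab' hq1]
    refine mul_ne_zero ?_ (pow_ne_zero _ (inv_ne_zero hq1))
    have : T.M * k' ≠ 0 := (Nat.mul_pos T.M_pos hkk).ne'
    exact_mod_cast this
  · refine Eventually.of_forall fun p hp1 hp2 => ?_
    rw [hsg]
    exact mul_ne_zero (mul_ne_zero hRc hp2) (mul_ne_zero hRc hp1)
  · filter_upwards [bd_c hp₀ hR he] with p h hp1 hp2
    rw [hsg]
    simp only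
    rw [norm_mul, norm_R hR, norm_R hR]
    exact h hp1 hp2

/-- nodes of interior edges -/
theorem LocB.node (hf : Iso f) (hp₀ : p₀ ∈ F.SF c) {i : Fin T.m} {k k' : ℕ}
    (hc : T.Valid (.edge i k k')) (hk : 0 < k) (hS : T.Sheets (.edge i k k') r ζ) (hR : 0 < R)
    (hRr : R < r) (hth : ∀ p, F.th c p = T.thS (.edge i k k') R (ζ j) p) (he : F.e2 c ≠ none)
    (h10 : p₀.1 = 0) (h20 : p₀.2 = 0) {Dp : ℂ → ℂ[X]} (hD : DpD T Dp) : LocB T F c p₀ := by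
  have hnt : ¬ T.IsTop (.edge i k k') := hk.ne'
  have hsg := sg_nt (T := T) (R := R) hnt
  have hRc : (R : ℂ) ≠ 0 := by exact_mod_cast hR.ne'
  obtain ⟨M', κ, hM', hκ, h1⟩ := locB hD hc hk (ζ j)
  have hsg0 : T.sg (.edge i k k') R p₀ = 0 := by
    rw [hsg, h10, h20, mul_zero]; rfl
  have hsgt : Tendsto (T.sg (.edge i k k') R) (𝓝 p₀) (𝓝 0) := by
    have := (sg_cont (T := T) (.edge i k k') R).tendsto p₀
    rwa [hsg0] at this
  obtain ⟨κ', hκ', h3⟩ := concl hf F hp₀ hS hR hRr j hth (Q := X1 T) (Q' := QD T Dp)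
    (X1_an T 0) (QD_good hD hM').2.1 (M₁ := T.N₀) (M₂ := M') hκ
    (Rg := fun _ => True) (V := fun _ => 1) (S := fun p => (R * ‖p.1‖) * (R * ‖p.2‖))
    (C' := R ^ 4) (fun _ _ _ => one_pos) (fun _ => by positivity)
    (by
      filter_upwards [hsgt.eventually h1] with p h4 hp1 hp2 _
      have h6 := h4 (by rw [hsg]; exact mul_ne_zero hRc hp1) (by rw [hsg]; exact mul_ne_zero hRc hp2)
      have h7 : ‖(T.sg (.edge i k k') R p).1‖ * ‖(T.sg (.edge i k k') R p).2‖ =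
          (R * ‖p.1‖) * (R * ‖p.2‖) := by
        rw [hsg]; simp only; rw [norm_R hR, norm_R hR]
      rw [h7] at h6
      rw [mul_one, hth p]
      exact h6)
    (by
      filter_upwards [bd_b (p₀ := p₀) (R := R) he] with p h4 hp1 hp2
      rw [mul_one]
      exact h4 hp1 hp2)
  refine LocB.of_pair (good_X1 T) (QD_good hD hM') hκ' ?_
  filter_upwards [h3] with p h4 hp1 hp2 using h4 hp1 hp2 trivial

/-- nodes of top edges -/
theorem LocB.top (hf : Iso f) (hp₀ : p₀ ∈ F.SF c) {i : Fin T.m} {k' : ℕ}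
    (hc : T.Valid (.edge i 0 k')) (hS : T.Sheets (.edge i 0 k') r ζ) (hR : 0 < R)
    (hRr : R < r) (hth : ∀ p, F.th c p = T.thS (.edge i 0 k') R (ζ j) p) (he : F.e2 c = none)
    (hnu : F.nu2 c ≤ -(T.N : ℤ)) (h20 : p₀.2 = 0) {Dp : ℂ → ℂ[X]} (hD : DpD T Dp) :
    LocB T F c p₀ := by
  have ht : T.IsTop (.edge i 0 k') := rfl
  have hsg := sg_top (T := T) (R := R) ht
  have hRc : (R : ℂ) ≠ 0 := by exact_mod_cast hR.ne'
  have h10 := SF_none hp₀ he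
  have hN := T.N_pos
  obtain ⟨M', κ, hM', hκ, h1⟩ := locTop hD hc (ζ j)
  have hsg0 : T.sg (.edge i 0 k') R p₀ = 0 := by
    rw [hsg, h10, h20, mul_zero]; rfl
  have hsgt : Tendsto (T.sg (.edge i 0 k') R) (𝓝 p₀) (𝓝 0) := by
    have := (sg_cont (T := T) (.edge i 0 k') R).tendsto p₀
    rwa [hsg0] at this
  have h2 : ∀ᶠ p in 𝓝 p₀, ‖p.2‖ ≤ 1 := by
    have h1 : p₀ = 0 := Prod.ext h10 h20
    rw [h1]
    filter_upwards [small1] with p hp using hp.2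
  obtain ⟨κ', hκ', h3⟩ := concl hf F hp₀ hS hR hRr j hth (Q := X1 T) (Q' := QD T Dp)
    (X1_an T 0) (QD_good hD hM').2.1 (M₁ := T.N₀) (M₂ := M') hκ
    (Rg := fun _ => True) (V := fun p => ((R * ‖p.2‖) ^ (T.N - 1)) ^ 2) (S := fun p => R * ‖p.1‖)
    (C' := R ^ 2 / (R ^ (T.N - 1)) ^ 2)
    (fun p _ hp2 => by have := norm_pos_iff.2 hp2; positivity) (fun _ => by positivity)
    (by
      filter_upwards [hsgt.eventually h1] with p h4 hp1 hp2 _
      have h6 := h4 (by rw [hsg]; exact mul_ne_zero hRc hp2) (by rw [hsg]; exact mul_ne_zero hRc hp1)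
      have h7 : ‖(T.sg (.edge i 0 k') R p).1‖ = R * ‖p.2‖ := by
        rw [hsg]; simp only; rw [norm_R hR]
      have h8 : ‖(T.sg (.edge i 0 k') R p).2‖ = R * ‖p.1‖ := by
        rw [hsg]; simp only; rw [norm_R hR]
      rw [h7, h8] at h6
      rw [hth p]
      exact h6)
    (by
      filter_upwards [h2] with p h4 hp1 hp2
      have e1 := norm_pos_iff.2 hp1
      have e2 := norm_pos_iff.2 hp2
      rw [Bm, if_pos he, mul_one]
      have h3 : (‖p.1‖ ^ (-F.nu (F.e1 c) - 1) * ‖p.2‖ ^ (-F.nu2 c - 1) * (R * ‖p.1‖)) ^ 2 *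
          ‖p.1‖ ^ (2 * F.nu (F.e1 c)) = R ^ 2 * (‖p.2‖ ^ (-F.nu2 c - 1)) ^ 2 *
            ((‖p.1‖ ^ (-F.nu (F.e1 c) - 1) * ‖p.1‖) ^ 2 * ‖p.1‖ ^ (2 * F.nu (F.e1 c))) := by ring
      rw [h3, z1 e1, mul_one]
      have h5 : ‖p.2‖ ^ (-F.nu2 c - 1) ≤ ‖p.2‖ ^ (T.N - 1) := by
        rw [← zpow_natCast]
        refine zpow_le_zpow_right_of_le_one₀ e2 h4 ?_
        have : ((T.N - 1 : ℕ) : ℤ) = (T.N : ℤ) - 1 := by
          rw [Nat.cast_sub hN]; simp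
        rw [this]; omega
      have h6 : R ^ 2 / (R ^ (T.N - 1)) ^ 2 * ((R * ‖p.2‖) ^ (T.N - 1)) ^ 2 =
          R ^ 2 * (‖p.2‖ ^ (T.N - 1)) ^ 2 := by
        have hRp : (R ^ (T.N - 1)) ^ 2 ≠ 0 := by positivity
        rw [mul_pow R, mul_pow, ← mul_assoc, div_mul_cancel₀ _ hRp]
      rw [h6]
      exact mul_le_mul_of_nonneg_left (pow_le_pow_left₀ (by positivity) h5 2) (by positivity))
  refine LocB.of_pair (good_X1 T) (QD_good hD hM') hκ' ?_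
  filter_upwards [h3] with p h4 hp1 hp2 using h4 hp1 hp2 trivial

/-- the origin of a leg -/
theorem LocB.leg (hf : Iso f) (hp₀ : p₀ ∈ F.SF c) {i : Fin T.m}
    (hS : T.Sheets (.leg i) r ζ) (hR : 0 < R) (hRr : R < r)
    (hth : ∀ p, F.th c p = T.thS (.leg i) R (ζ j) p) (he : F.e2 c = none) (h20 : p₀.2 = 0)
    {Dp : ℂ → ℂ[X]} (hD : DpD T Dp) : LocB T F c p₀ := by
  have hnt : ¬ T.IsTop (.leg i) := by simp [TB.IsTop]
  have hsg := sg_nt (T := T) (R := R) hnt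
  have hRc : (R : ℂ) ≠ 0 := by exact_mod_cast hR.ne'
  have h10 := SF_none hp₀ he
  have hsg0 : T.sg (.leg i) R p₀ = 0 := by
    rw [hsg, h10, h20, mul_zero]; rfl
  have hsgt : Tendsto (T.sg (.leg i) R) (𝓝 p₀) (𝓝 0) := by
    have := (sg_cont (T := T) (.leg i) R).tendsto p₀
    rwa [hsg0] at this
  have h2 : ∀ᶠ p in 𝓝 p₀, ‖p.1‖ ≤ 1 := by
    have h1 : p₀ = 0 := Prod.ext h10 h20
    rw [h1]
    filter_upwards [small1] with p hp using hp.1
  have hs1 : ∀ p : ℂ × ℂ, ‖(T.sg (.leg i) R p).1‖ = R * ‖p.1‖ := by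
    intro p; rw [hsg]; simp only; rw [norm_R hR]
  -- region I
  obtain ⟨q, hq, hq0, hq1, hq2⟩ := legQ hf hD hS j
  set E : ℕ := (-F.nu (F.e1 c)).toNat with hE
  obtain ⟨M₁, Lx, κ₁, hM₁, hκ₁, hI⟩ := legI hf hS j hq hq1 hq2 E
  -- region II
  obtain ⟨M', κ₂, hM', hκ₂, hII⟩ := locLeg hD i (ζ j) Lx
  obtain ⟨κ', hκ', h3⟩ := concl hf F hp₀ hS hR hRr j hth (Q := X1 T) (Q' := QD T Dp)
    (X1_an T 0) (QD_good hD hM').2.1 (M₁ := T.N₀) (M₂ := M') hκ₂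
    (Rg := fun p => ‖(T.sg (.leg i) R p).1‖ ^ Lx ≤ ‖(T.sg (.leg i) R p).2‖) (V := fun _ => 1)
    (S := fun p => R * ‖p.1‖) (C' := R ^ 2 * ((2 : ℝ) ^ (-F.nu2 c - 1)) ^ 2)
    (fun _ _ _ => one_pos) (fun _ => by positivity)
    (by
      filter_upwards [hsgt.eventually hII] with p h4 hp1 hp2 hRg
      have h6 := h4 (by rw [hsg]; exact mul_ne_zero hRc hp1) (by rw [hsg]; exact mul_ne_zero hRc hp2)
        hRg
      rw [hs1] at h6
      rw [mul_one, hth p]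
      exact h6)
    (by
      filter_upwards [bd_a hp₀ hR he] with p h4 hp1 hp2
      rw [mul_one]
      exact h4 hp1 hp2)
  have hg1 := good_X1 T
  have hg2 : Good (M₁, q) := ⟨hM₁, hq, hq0⟩
  have hg3 := QD_good hD hM'
  refine ⟨{(T.N₀, X1 T), (M₁, q), (M', QD T Dp)}, ((Set.finite_singleton _).insert _).insert _,
    ?_, min κ' (κ₁ / R ^ (2 * E)), lt_min hκ' (by positivity), ?_⟩
  · rintro a (rfl | rfl | ha)
    · exact hg1
    · exact hg2
    · rw [mem_singleton_iff.1 ha]; exact hg3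
  · filter_upwards [h3, hsgt.eventually hI, h2] with p h4 h5 h6 hp1 hp2
    have e1 := norm_pos_iff.2 hp1
    have hB := Bm_pos F c hp1 hp2
    rcases le_total (‖(T.sg (.leg i) R p).1‖ ^ Lx) ‖(T.sg (.leg i) R p).2‖ with h7 | h7
    · refine ⟨_, Or.inl rfl, _, Or.inr (Or.inr rfl), ?_⟩
      exact (mul_le_mul_of_nonneg_right (min_le_left _ _) hB.le).trans (h4 hp1 hp2 h7)
    · refine ⟨_, Or.inl rfl, _, Or.inr (Or.inl rfl), ?_⟩
      have h8 := h5 (by rw [hsg]; exact mul_ne_zero hRc hp1) h7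
      rw [hs1] at h8
      have e2 : T.th (.leg i) (ζ j) (T.sg (.leg i) R p) = F.th c p := (hth p).symm
      rw [e2] at h8
      simp only
      have h9 : κ₁ ≤ Tm T T.N₀ (X1 T) M₁ q (F.th c p) * (R ^ (2 * E) * ‖p.1‖ ^ (2 * E)) := by
        refine h8.trans (le_of_eq ?_)
        unfold Tm
        rw [mul_pow, div_mul_eq_mul_div]
        congr 2
        rw [mul_pow, mul_pow, ← pow_mul, ← pow_mul, mul_comm E 2]
      have hTm : 0 ≤ Tm T T.N₀ (X1 T) M₁ q (F.th c p) :=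
        div_nonneg (by positivity) (mul_nonneg (WT_nonneg _ _ _) (WT_nonneg _ _ _))
      have h11 : ‖p.1‖ ^ (2 * E) * ‖p.1‖ ^ (2 * F.nu (F.e1 c)) ≤ 1 := by
        rw [← zpow_natCast, ← zpow_add₀ e1.ne', ← zpow_zero ‖p.1‖]
        refine zpow_le_zpow_right_of_le_one₀ e1 h6 ?_
        push_cast
        have := Int.self_le_toNat (-F.nu (F.e1 c))
        omega
      rw [Bm, if_pos he, mul_one]
      have hRE : 0 < R ^ (2 * E) := by positivity
      calc min κ' (κ₁ / R ^ (2 * E)) * ‖p.1‖ ^ (2 * F.nu (F.e1 c))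
          ≤ κ₁ / R ^ (2 * E) * ‖p.1‖ ^ (2 * F.nu (F.e1 c)) :=
            mul_le_mul_of_nonneg_right (min_le_right _ _) (by positivity)
        _ ≤ Tm T T.N₀ (X1 T) M₁ q (F.th c p) * (R ^ (2 * E) * ‖p.1‖ ^ (2 * E)) / R ^ (2 * E) *
            ‖p.1‖ ^ (2 * F.nu (F.e1 c)) := by
            refine mul_le_mul_of_nonneg_right (div_le_div_of_nonneg_right h9 hRE.le) (by positivity)
        _ = Tm T T.N₀ (X1 T) M₁ q (F.th c p) *
            (‖p.1‖ ^ (2 * E) * ‖p.1‖ ^ (2 * F.nu (F.e1 c))) := by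
            field_simp
        _ ≤ Tm T T.N₀ (X1 T) M₁ q (F.th c p) * 1 := mul_le_mul_of_nonneg_left h11 hTm
        _ = _ := mul_one _

/-- **the local statement at every point of the special fibre** -/
theorem locB_all (hf : Iso f) {Dp : ℂ → ℂ[X]} (hD : DpD T Dp) (hCR : CR T F) (c : F.K)
    (hp₀ : p₀ ∈ F.SF c) : LocB T F c p₀ := by
  obtain ⟨c', r, R, ζ, j, hc, hS, hR, hRr, hth, hNE, htop⟩ := hCR c
  cases c' with
  | vert i k w₀ => exact LocB.vert hf hp₀ hc hS hR hRr hth (hNE.2 trivial) hD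
  | leg i =>
    by_cases h2 : p₀.2 = 0
    · exact LocB.leg hf hp₀ hS hR hRr hth (hNE.2 trivial) h2 hD
    · exact LocB.leg_sm hf hp₀ hS hR hRr hth (hNE.2 trivial) h2 hD
  | edge i k k' =>
    rcases Nat.eq_zero_or_pos k with hk | hk
    · subst hk
      have he : F.e2 c = none := hNE.2 rfl
      by_cases h2 : p₀.2 = 0
      · exact LocB.top hf hp₀ hc hS hR hRr hth he (htop rfl) h2 hD
      · exact LocB.top_sm hf hp₀ hc hS hR hRr hth he h2 hD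
    · have he : F.e2 c ≠ none := fun h => hk.ne' (hNE.1 h)
      by_cases h1 : p₀.1 = 0
      · by_cases h2 : p₀.2 = 0
        · exact LocB.node hf hp₀ hc hk hS hR hRr hth he h1 h2 hD
        · exact LocB.edge_a hf hp₀ hc hk hS hR hRr hth he h1 h2 hD
      · rcases hp₀.2 with h3 | h3
        · exact absurd h3 h1
        · exact LocB.edge_b hf hp₀ hc hk hS hR hRr hth he h1 h3.2 hD

end Crest.Agent.R257.CLog_68
end
end

-- ▼ part R257/NV1_790
section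

/-!
# Row 257, C-LOG-NV (helper790), part 1: the nearest branch vector field

`V φ i (t,y) = (t, t φ_i'(t))`; `Adm φ F`: `‖dF(V_i)‖ ≤ C ‖F‖` near `0` when `φ_i(t)` is a nearest
branch to `y`.
-/

set_option autoImplicit false
set_option linter.unusedSectionVars false

open Set Filter Topology Complex Metric Polynomial

noncomputable section

namespace Crest.Agent.R257.NV_790

open Crest.Agent.R257.Sh_297

/-- the logarithmic derivative of an analytic function of one variable -/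
theorem logd {g : ℂ → ℂ} (hg : AnalyticAt ℂ g 0) :
    ∃ k : ℕ, ∀ ε : ℝ, 0 < ε → ∀ᶠ t in 𝓝 (0 : ℂ), ‖t * deriv g t - k * g t‖ ≤ ε * ‖g t‖ := by
  by_cases htop : analyticOrderAt g 0 = ⊤
  · rw [analyticOrderAt_eq_top] at htop
    refine ⟨0, fun ε hε => ?_⟩
    filter_upwards [htop, htop.eventually_nhds] with t h1 h2
    have h3 : deriv g t = 0 := by
      have : g =ᶠ[𝓝 t] fun _ => (0 : ℂ) := h2
      rw [this.deriv_eq, deriv_const]
    rw [h1, h3]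
    simp
  · obtain ⟨k, hk⟩ := ENat.ne_top_iff_exists.1 htop
    obtain ⟨u, hu, hu0, he⟩ := (hg.analyticOrderAt_eq_natCast).1 hk.symm
    refine ⟨k, fun ε hε => ?_⟩
    have h1 : ContinuousAt (fun t : ℂ => ‖t * deriv u t‖) 0 :=
      (continuousAt_id.mul hu.deriv.continuousAt).norm
    have h2 : ContinuousAt (fun t : ℂ => ε * ‖u t‖) 0 := continuousAt_const.mul hu.continuousAt.norm
    have h3 : ∀ᶠ t in 𝓝 (0 : ℂ), ‖t * deriv u t‖ < ε * ‖u t‖ := by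
      refine h1.eventually_lt h2 ?_
      simp only [zero_mul, norm_zero]
      positivity
    filter_upwards [h3, he, he.eventually_nhds, hu.eventually_analyticAt] with t h4 h5 h6 h7
    have h8 : g =ᶠ[𝓝 t] fun s => s ^ k * u s := by
      filter_upwards [h6] with s hs
      rw [hs, sub_zero, smul_eq_mul]
    have h9 : HasDerivAt (fun s : ℂ => s ^ k * u s) ((k : ℂ) * t ^ (k - 1) * u t + t ^ k * deriv u t) t :=
      (hasDerivAt_pow k t).mul h7.differentiableAt.hasDerivAt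
    rw [h8.deriv_eq, h9.deriv, h5, sub_zero, smul_eq_mul]
    have h10 : t * ((k : ℂ) * t ^ (k - 1) * u t + t ^ k * deriv u t) - k * (t ^ k * u t) =
        t ^ k * (t * deriv u t) := by
      rcases Nat.eq_zero_or_pos k with h | h
      · subst h; simp
      · obtain ⟨k', rfl⟩ : ∃ k', k = k' + 1 := ⟨k - 1, by omega⟩
        simp only [Nat.add_sub_cancel]
        ring
    rw [h10, norm_mul, norm_mul (t ^ k) (u t)]
    calc ‖t ^ k‖ * ‖t * deriv u t‖ ≤ ‖t ^ k‖ * (ε * ‖u t‖) :=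
          mul_le_mul_of_nonneg_left h4.le (norm_nonneg _)
      _ = ε * (‖t ^ k‖ * ‖u t‖) := by ring

variable {ι : Type*} [Fintype ι]

/-- `φ i` is a nearest branch -/
def Near (φ : ι → ℂ → ℂ) (p : ℂ × ℂ) (i : ι) : Prop := ∀ l, ‖p.2 - φ i p.1‖ ≤ ‖p.2 - φ l p.1‖

/-- the branch vector field -/
def V (φ : ι → ℂ → ℂ) (i : ι) (p : ℂ × ℂ) : ℂ × ℂ := (p.1, p.1 * deriv (φ i) p.1)

/-- `‖dF(V_i)‖ ≤ C ‖F‖` if `i` is nearest -/
def Adm (φ : ι → ℂ → ℂ) (F : ℂ × ℂ → ℂ) : Prop :=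
  AnalyticAt ℂ F 0 ∧ ∃ C : ℝ, 0 ≤ C ∧ ∀ᶠ p in 𝓝 (0 : ℂ × ℂ), ∀ i, Near φ p i →
    ‖fderiv ℂ F p (V φ i p)‖ ≤ C * ‖F p‖

variable {φ : ι → ℂ → ℂ}

theorem Adm.mul {F G : ℂ × ℂ → ℂ} (hF : Adm φ F) (hG : Adm φ G) : Adm φ fun p => F p * G p := by
  obtain ⟨hFa, C, hC, hF⟩ := hF
  obtain ⟨hGa, D, hD, hG⟩ := hG
  refine ⟨hFa.mul hGa, C + D, by positivity, ?_⟩
  filter_upwards [hF, hG, hFa.eventually_analyticAt, hGa.eventually_analyticAt] with p h1 h2 h3 h4 i hi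
  have h5 := h3.differentiableAt.hasFDerivAt.mul h4.differentiableAt.hasFDerivAt
  have h6 : fderiv ℂ (fun p => F p * G p) p = F p • fderiv ℂ G p + G p • fderiv ℂ F p := h5.fderiv
  rw [h6]
  simp only [ContinuousLinearMap.add_apply, ContinuousLinearMap.smul_apply, smul_eq_mul]
  refine (norm_add_le _ _).trans ?_
  rw [norm_mul, norm_mul, norm_mul]
  have h7 := mul_le_mul_of_nonneg_left (h2 i hi) (norm_nonneg (F p))
  have h8 := mul_le_mul_of_nonneg_left (h1 i hi) (norm_nonneg (G p))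
  nlinarith

theorem Adm.congr {F G : ℂ × ℂ → ℂ} (hF : Adm φ F) (h : ∀ᶠ p in 𝓝 (0 : ℂ × ℂ), F p = G p) : Adm φ G := by
  obtain ⟨hFa, C, hC, hF⟩ := hF
  refine ⟨hFa.congr h, C, hC, ?_⟩
  filter_upwards [hF, h, h.eventually_nhds] with p h1 h2 h3 i hi
  have h4 : G =ᶠ[𝓝 p] F := by
    filter_upwards [h3] with x hx using hx.symm
  rw [h4.fderiv_eq, ← h2]
  exact h1 i hi

theorem Adm.zero {F : ℂ × ℂ → ℂ} (h : ∀ᶠ p in 𝓝 (0 : ℂ × ℂ), F p = 0) : Adm φ F := by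
  have h1 : Adm φ fun _ => (0 : ℂ) := by
    refine ⟨analyticAt_const, 0, le_rfl, Eventually.of_forall fun p i _ => ?_⟩
    simp
  refine h1.congr ?_
  filter_upwards [h] with p hp using hp.symm

theorem an_V (hφ : ∀ i, AnalyticAt ℂ (φ i) 0) (i : ι) : ContinuousAt (V φ i) (0 : ℂ × ℂ) := by
  have h1 : ContinuousAt (fun p : ℂ × ℂ => deriv (φ i) p.1) (0 : ℂ × ℂ) :=
    ContinuousAt.comp (f := Prod.fst) (g := deriv (φ i)) (x := (0 : ℂ × ℂ))
      (hφ i).deriv.continuousAt continuousAt_fst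
  exact continuousAt_fst.prodMk (continuousAt_fst.mul h1)

theorem Adm.unit (hφ : ∀ i, AnalyticAt ℂ (φ i) 0) {F : ℂ × ℂ → ℂ} (hF : AnalyticAt ℂ F 0)
    (h0 : F 0 ≠ 0) : Adm φ F := by
  refine ⟨hF, 1, zero_le_one, ?_⟩
  have h1 : ∀ i, ∀ᶠ p in 𝓝 (0 : ℂ × ℂ), ‖fderiv ℂ F p (V φ i p)‖ < ‖F p‖ := by
    intro i
    have h2 : ContinuousAt (fun p => fderiv ℂ F p (V φ i p)) 0 :=
      hF.fderiv.continuousAt.clm_apply (an_V hφ i)
    refine h2.norm.eventually_lt hF.continuousAt.norm ?_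
    have h3 : V φ i (0 : ℂ × ℂ) = 0 := by
      simp [V]
    rw [h3, map_zero, norm_zero]
    exact norm_pos_iff.2 h0
  filter_upwards [eventually_all.2 h1] with p hp i _
  rw [one_mul]
  exact (hp i).le

theorem Adm.fst : Adm φ fun p => p.1 := by
  refine ⟨analyticAt_fst, 1, zero_le_one, Eventually.of_forall fun p i _ => ?_⟩
  have h1 : fderiv ℂ (fun p : ℂ × ℂ => p.1) p = ContinuousLinearMap.fst ℂ ℂ ℂ := fderiv_fst
  rw [h1]
  simp [V]

theorem Adm.pow {F : ℂ × ℂ → ℂ} (hφ : ∀ i, AnalyticAt ℂ (φ i) 0) (hF : Adm φ F) (n : ℕ) :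
    Adm φ fun p => F p ^ n := by
  induction n with
  | zero =>
    simp only [pow_zero]
    exact Adm.unit hφ analyticAt_const one_ne_zero
  | succ n ih =>
    simp only [pow_succ]
    exact ih.mul hF

theorem Adm.lin (hφ : ∀ i, AnalyticAt ℂ (φ i) 0) (l : ι) : Adm φ fun p => p.2 - φ l p.1 := by
  have hcomp : ∀ i, AnalyticAt ℂ (fun p : ℂ × ℂ => φ i p.1) 0 := fun i =>
    AnalyticAt.comp (g := φ i) (f := Prod.fst) (x := (0 : ℂ × ℂ)) (hφ i) analyticAt_fst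
  refine ⟨analyticAt_snd.sub (hcomp l), ?_⟩
  have h1 : ∀ i, ∃ C : ℝ, 0 ≤ C ∧ ∀ᶠ t in 𝓝 (0 : ℂ),
      ‖t * deriv (φ i) t - t * deriv (φ l) t‖ ≤ C * ‖φ i t - φ l t‖ := by
    intro i
    obtain ⟨k, hk⟩ := logd (g := fun t => φ i t - φ l t) ((hφ i).sub (hφ l))
    refine ⟨k + 1, by positivity, ?_⟩
    filter_upwards [hk 1 one_pos, (hφ i).eventually_analyticAt, (hφ l).eventually_analyticAt] with
      t h2 h3 h4
    have h5 : deriv (fun t => φ i t - φ l t) t = deriv (φ i) t - deriv (φ l) t :=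
      deriv_fun_sub h3.differentiableAt h4.differentiableAt
    rw [h5] at h2
    have h6 : t * deriv (φ i) t - t * deriv (φ l) t =
        (t * (deriv (φ i) t - deriv (φ l) t) - k * (φ i t - φ l t)) + k * (φ i t - φ l t) := by ring
    rw [h6]
    refine (norm_add_le _ _).trans ?_
    have h7 : ‖(k : ℂ) * (φ i t - φ l t)‖ = k * ‖φ i t - φ l t‖ := by
      rw [norm_mul, Complex.norm_natCast]
    rw [h7]
    linarith
  choose C hC0 hC using h1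
  refine ⟨2 * ∑ i, C i, by positivity [Finset.sum_nonneg fun i (_ : i ∈ Finset.univ) => hC0 i], ?_⟩
  have hfst : Tendsto (Prod.fst : ℂ × ℂ → ℂ) (𝓝 0) (𝓝 0) := continuous_fst.tendsto' _ _ rfl
  filter_upwards [hfst.eventually (eventually_all.2 hC), hfst.eventually (hφ l).eventually_analyticAt]
    with p h2 h3 i hi
  have h4 : HasFDerivAt (fun p : ℂ × ℂ => φ l p.1)
      ((deriv (φ l) p.1) • ContinuousLinearMap.fst ℂ ℂ ℂ) p := by
    have h5 : HasDerivAt (φ l) (deriv (φ l) p.1) p.1 := h3.differentiableAt.hasDerivAt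
    exact h5.comp_hasFDerivAt p hasFDerivAt_fst
  have h6 : fderiv ℂ (fun p : ℂ × ℂ => p.2 - φ l p.1) p =
      ContinuousLinearMap.snd ℂ ℂ ℂ - (deriv (φ l) p.1) • ContinuousLinearMap.fst ℂ ℂ ℂ :=
    (hasFDerivAt_snd.sub h4).fderiv
  rw [h6]
  simp only [ContinuousLinearMap.sub_apply, ContinuousLinearMap.smul_apply,
    ContinuousLinearMap.coe_snd', ContinuousLinearMap.coe_fst', V, smul_eq_mul]
  have h7 : p.1 * deriv (φ i) p.1 - deriv (φ l) p.1 * p.1 =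
      p.1 * deriv (φ i) p.1 - p.1 * deriv (φ l) p.1 := by ring
  rw [h7]
  have h8 : ‖φ i p.1 - φ l p.1‖ ≤ 2 * ‖p.2 - φ l p.1‖ := by
    have h9 : φ i p.1 - φ l p.1 = (p.2 - φ l p.1) - (p.2 - φ i p.1) := by ring
    rw [h9]
    refine (norm_sub_le _ _).trans ?_
    linarith [hi l]
  have h9 : C i ≤ ∑ i, C i := Finset.single_le_sum (fun i _ => hC0 i) (Finset.mem_univ i)
  calc ‖p.1 * deriv (φ i) p.1 - p.1 * deriv (φ l) p.1‖ ≤ C i * ‖φ i p.1 - φ l p.1‖ := h2 i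
    _ ≤ (∑ i, C i) * (2 * ‖p.2 - φ l p.1‖) :=
        mul_le_mul h9 h8 (norm_nonneg _) ((hC0 i).trans h9)
    _ = 2 * (∑ i, C i) * ‖p.2 - φ l p.1‖ := by ring

end Crest.Agent.R257.NV_790
end
end

-- ▼ part R257/NV2_790
section

/-!
# Row 257, C-LOG-NV (helper790), part 2: analytic functions with zeros on the branches are `Adm`
-/

set_option autoImplicit false
set_option linter.unusedSectionVars false

open Set Filter Topology Complex Metric Polynomial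

noncomputable section

namespace Crest.Agent.R257.NV_790

open Crest.Agent.R257.Sh_297

variable {ι : Type*} [Fintype ι] {φ : ι → ℂ → ℂ}

/-- if `F(0,·)` vanishes to positive finite order and the zeros of `F` lie on the branches, one
branch lies in the zero set -/
theorem exists_branch_zero (hφ : ∀ i, AnalyticAt ℂ (φ i) 0) (hφ0 : ∀ i, φ i 0 = 0)
    {F : ℂ × ℂ → ℂ} (hF : AnalyticAt ℂ F 0) {d : ℕ} (hd : 0 < d)
    (hord : analyticOrderAt (fun y => F (0, y)) 0 = d)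
    (hz : ∀ᶠ p in 𝓝 (0 : ℂ × ℂ), F p = 0 → ∃ i, p.2 = φ i p.1) :
    ∃ i, ∀ᶠ t in 𝓝 (0 : ℂ), F (t, φ i t) = 0 := by
  classical
  obtain ⟨w, v, hwa, hw1, hw0, hwz, hv, hv0, hFe⟩ := exists_wpoly (y₀ := (0 : ℂ)) (F := F) hF hord
  have hFe' : ∀ᶠ p in 𝓝 (0 : ℂ × ℂ), F p = v p * Wf w d p.1 p.2 := hFe
  obtain ⟨ε, hε, hεb⟩ := Metric.eventually_nhds_iff_ball.1 (hFe'.and hz)
  have hWm : ∀ x, (Wp w d x).Monic := fun x => by
    refine monic_of_natDegree_le_of_coeff_eq_one d (degree_Wp_le w d x) ?_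
    rw [coeff_Wp, if_pos (Nat.lt_succ_self d), hw1]
  have hWn : ∀ x, (Wp w d x).natDegree = d := fun x => by
    refine le_antisymm (degree_Wp_le w d x) (le_natDegree_of_ne_zero ?_)
    rw [coeff_Wp, if_pos (Nat.lt_succ_self d), hw1]
    exact one_ne_zero
  set ρ : ℝ := ε / 2 with hρdef
  have hρ : 0 < ρ := by positivity
  have hw2 : ∀ᶠ y in 𝓝 (0 : ℂ), (∀ j ∈ Finset.range d, ‖w j y‖ < ρ ^ (d - j) / (d + 1)) ∧
      y ∈ ball (0 : ℂ) ε := by
    refine ((Finset.eventually_all _).2 fun j hj => ?_).and (ball_mem_nhds _ hε)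
    rw [Finset.mem_range] at hj
    refine (hwa j).continuousAt.norm.tendsto.eventually (gt_mem_nhds ?_)
    rw [hw0 j hj, norm_zero]
    positivity
  have h1 : ∀ᶠ t in 𝓝 (0 : ℂ), ∏ i, F (t, φ i t) = 0 := by
    filter_upwards [hw2] with t ht
    obtain ⟨z, hz⟩ := IsAlgClosed.exists_root (Wp w d t) (by
      rw [degree_eq_natDegree (hWm t).ne_zero, hWn]
      exact_mod_cast hd.ne')
    have hz' : Wf w d t z = 0 := by
      rw [← eval_Wp]; exact hz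
    have hzρ : ‖z‖ < ρ := root_bound (hw1 t) hρ (fun j hj => ht.1 j (Finset.mem_range.2 hj)) hz'
    have hm : ((t, z) : ℂ × ℂ) ∈ ball (0 : ℂ × ℂ) ε := by
      rw [mem_ball, Prod.dist_eq, max_lt_iff]
      refine ⟨ht.2, ?_⟩
      show dist z 0 < ε
      rw [dist_zero_right]
      linarith
    obtain ⟨h2, h3⟩ := hεb _ hm
    have h4 : F (t, z) = 0 := by
      rw [h2]
      show v (t, z) * Wf w d t z = 0
      rw [hz', mul_zero]
    obtain ⟨i, hi⟩ := h3 h4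
    refine Finset.prod_eq_zero (Finset.mem_univ i) ?_
    have hi' : z = φ i t := hi
    rw [← hi']
    exact h4
  obtain ⟨i, -, hi⟩ := Crest.Agent.R257.Frm_547.prod_ev Finset.univ (g := fun i t => F (t, φ i t))
    (fun i _ => by
      refine AnalyticAt.comp (g := F) (f := fun t : ℂ => (t, φ i t)) ?_
        (analyticAt_id.prod (hφ i))
      rw [hφ0 i]
      exact hF) h1
  exact ⟨i, hi⟩

/-- division by a branch -/
theorem exists_div_branch {f : ℂ → ℂ} (hf : AnalyticAt ℂ f 0) (hf0 : f 0 = 0)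
    {F : ℂ × ℂ → ℂ} (hF : AnalyticAt ℂ F 0) (h0 : ∀ᶠ t in 𝓝 (0 : ℂ), F (t, f t) = 0) :
    ∃ F₁ : ℂ × ℂ → ℂ, AnalyticAt ℂ F₁ 0 ∧ ∀ᶠ p in 𝓝 (0 : ℂ × ℂ), F p = (p.2 - f p.1) * F₁ p := by
  have hfs : AnalyticAt ℂ (fun q : ℂ × ℂ => f q.2) (0 : ℂ × ℂ) :=
    AnalyticAt.comp (g := f) (f := Prod.snd) (x := (0 : ℂ × ℂ)) hf analyticAt_snd
  have hff : AnalyticAt ℂ (fun q : ℂ × ℂ => f q.1) (0 : ℂ × ℂ) :=
    AnalyticAt.comp (g := f) (f := Prod.fst) (x := (0 : ℂ × ℂ)) hf analyticAt_fst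
  have h1 : AnalyticAt ℂ (fun q : ℂ × ℂ => F (q.2, q.1 + f q.2)) (0, 0) := by
    refine AnalyticAt.comp (g := F) (f := fun q : ℂ × ℂ => (q.2, q.1 + f q.2)) (x := (0 : ℂ × ℂ)) ?_
      (analyticAt_snd.prod (analyticAt_fst.add hfs))
    have h2 : ((0 : ℂ × ℂ).2, (0 : ℂ × ℂ).1 + f (0 : ℂ × ℂ).2) = (0 : ℂ × ℂ) := by
      simp [hf0]
    rw [h2]
    exact hF
  obtain ⟨G, hG, hGe⟩ := OrdL_578.exists_div h1 (by
    filter_upwards [h0] with t ht
    simpa using ht)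
  have hmap : AnalyticAt ℂ (fun p : ℂ × ℂ => (p.2 - f p.1, p.1)) (0 : ℂ × ℂ) :=
    (analyticAt_snd.sub hff).prod analyticAt_fst
  have hmap0 : ((0 : ℂ × ℂ).2 - f (0 : ℂ × ℂ).1, (0 : ℂ × ℂ).1) = ((0 : ℂ), (0 : ℂ)) := by
    simp [hf0]
  have ht : Tendsto (fun p : ℂ × ℂ => (p.2 - f p.1, p.1)) (𝓝 (0 : ℂ × ℂ)) (𝓝 ((0 : ℂ), (0 : ℂ))) := by
    have := hmap.continuousAt.tendsto
    rwa [hmap0] at this
  refine ⟨fun p => G (p.2 - f p.1, p.1), ?_, ?_⟩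
  · refine AnalyticAt.comp (g := G) (f := fun p : ℂ × ℂ => (p.2 - f p.1, p.1)) (x := (0 : ℂ × ℂ)) ?_ hmap
    rw [hmap0]
    exact hG
  · filter_upwards [ht.eventually hGe] with p hp
    simpa using hp

/-- **the class `Adm` contains all functions with zeros on the branches** -/
theorem adm_of_zeros (hφ : ∀ i, AnalyticAt ℂ (φ i) 0) (hφ0 : ∀ i, φ i 0 = 0) (d : ℕ) :
    ∀ F : ℂ × ℂ → ℂ, AnalyticAt ℂ F 0 → analyticOrderAt (fun y => F (0, y)) 0 = d →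
    (∀ᶠ p in 𝓝 (0 : ℂ × ℂ), F p = 0 → ∃ i, p.2 = φ i p.1) → Adm φ F := by
  have hax : ∀ {F : ℂ × ℂ → ℂ}, AnalyticAt ℂ F 0 → AnalyticAt ℂ (fun y => F (0, y)) (0 : ℂ) :=
    fun {F} hF => AnalyticAt.comp (g := F) (f := fun y : ℂ => ((0 : ℂ), y)) (x := (0 : ℂ)) hF
      (analyticAt_const.prod analyticAt_id)
  induction d with
  | zero =>
    intro F hF hord _
    refine Adm.unit hφ hF ?_
    have h2 : (fun y : ℂ => F (0, y)) 0 ≠ 0 := (hax hF).analyticOrderAt_eq_zero.1 (by simpa using hord)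
    exact h2
  | succ d ih =>
    intro F hF hord hz
    obtain ⟨i, hi⟩ := exists_branch_zero hφ hφ0 hF (Nat.succ_pos d) hord hz
    obtain ⟨F₁, hF₁, he⟩ := exists_div_branch (hφ i) (hφ0 i) hF hi
    have h1 : Adm φ F₁ := by
      refine ih F₁ hF₁ ?_ ?_
      · have h2 : (fun y => F (0, y)) =ᶠ[𝓝 (0 : ℂ)] (fun y => y) * fun y => F₁ (0, y) := by
          have h3 : Tendsto (fun y : ℂ => ((0 : ℂ), y)) (𝓝 0) (𝓝 (0 : ℂ × ℂ)) :=
            (by fun_prop : Continuous fun y : ℂ => ((0 : ℂ), y)).tendsto' _ _ rfl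
          filter_upwards [h3.eventually he] with y hy
          rw [hy]
          simp [hφ0 i]
        rw [analyticOrderAt_congr h2, analyticOrderAt_mul (by exact analyticAt_id) (hax hF₁)] at hord
        have h4 : analyticOrderAt (fun y : ℂ => y) 0 = 1 := by
          have := (analyticAt_id (𝕜 := ℂ) (z := (0 : ℂ))).analyticOrderAt_eq_natCast (n := 1)
          rw [show ((1 : ℕ) : ℕ∞) = 1 from rfl] at this
          refine this.2 ⟨fun _ => 1, analyticAt_const, one_ne_zero, ?_⟩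
          exact Eventually.of_forall fun z => by simp
        rw [h4] at hord
        have h5 : (1 : ℕ∞) + analyticOrderAt (fun y => F₁ (0, y)) 0 = 1 + (d : ℕ∞) := by
          rw [hord]; push_cast; ring
        exact ENat.add_right_injective_of_ne_top (n := 1) (by simp) h5
      · filter_upwards [he, hz] with p h3 h4 h5
        exact h4 (by rw [h3, h5, mul_zero])
    refine ((Adm.lin hφ i).mul h1).congr ?_
    filter_upwards [he] with p hp using hp.symm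

end Crest.Agent.R257.NV_790
end
end

-- ▼ part R257/NV3_790
section

/-!
# Row 257, C-LOG-NV (helper790), part 3: `NVStmt`
-/

set_option autoImplicit false
set_option linter.unusedSectionVars false

open Set Filter Topology Complex Metric Polynomial

noncomputable section

namespace Crest.Agent.R257.NV_790

open Crest.Agent.R257.Sh_297

section G

variable {ι : Type*} [Fintype ι] {φ : ι → ℂ → ℂ}

/-- Leibniz -/
theorem fd_mul {F G : ℂ × ℂ → ℂ} {p : ℂ × ℂ} (hF : DifferentiableAt ℂ F p)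
    (hG : DifferentiableAt ℂ G p) (v : ℂ × ℂ) :
    fderiv ℂ (fun p => F p * G p) p v = F p * fderiv ℂ G p v + G p * fderiv ℂ F p v := by
  have h6 : fderiv ℂ (fun p => F p * G p) p = F p • fderiv ℂ G p + G p • fderiv ℂ F p :=
    (hF.hasFDerivAt.mul hG.hasFDerivAt).fderiv
  rw [h6]
  rfl

theorem fd_fst (M : ℕ) (p v : ℂ × ℂ) :
    fderiv ℂ (fun p : ℂ × ℂ => p.1 ^ M) p v = M * p.1 ^ (M - 1) * v.1 := by
  have h1 : HasFDerivAt (fun p : ℂ × ℂ => p.1 ^ M)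
      (((M : ℂ) * p.1 ^ (M - 1)) • ContinuousLinearMap.fst ℂ ℂ ℂ) p :=
    (hasDerivAt_pow M p.1).comp_hasFDerivAt p hasFDerivAt_fst
  rw [h1.fderiv]
  rfl

theorem fd_snd (M : ℕ) (b : ℂ) (p v : ℂ × ℂ) :
    fderiv ℂ (fun p : ℂ × ℂ => (b + p.2) ^ M) p v = M * (b + p.2) ^ (M - 1) * v.2 := by
  have h0 : HasFDerivAt (fun p : ℂ × ℂ => b + p.2) (ContinuousLinearMap.snd ℂ ℂ ℂ) p :=
    hasFDerivAt_snd.const_add b
  have h1 : HasFDerivAt (fun p : ℂ × ℂ => (b + p.2) ^ M)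
      (((M : ℂ) * (b + p.2) ^ (M - 1)) • ContinuousLinearMap.snd ℂ ℂ ℂ) p :=
    (hasDerivAt_pow M (b + p.2)).comp_hasFDerivAt p h0
  rw [h1.fderiv]
  rfl

theorem small_unit (hφ : ∀ i, AnalyticAt ℂ (φ i) 0) {u : ℂ × ℂ → ℂ} (hu : AnalyticAt ℂ u 0)
    (h0 : u 0 ≠ 0) {ε : ℝ} (hε : 0 < ε) :
    ∀ᶠ p in 𝓝 (0 : ℂ × ℂ), ∀ i, ‖fderiv ℂ u p (V φ i p)‖ ≤ ε * ‖u p‖ := by
  have h1 : ∀ i, ∀ᶠ p in 𝓝 (0 : ℂ × ℂ), ‖fderiv ℂ u p (V φ i p)‖ < ε * ‖u p‖ := by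
    intro i
    have h2 : ContinuousAt (fun p => fderiv ℂ u p (V φ i p)) 0 :=
      hu.fderiv.continuousAt.clm_apply (an_V hφ i)
    refine h2.norm.eventually_lt (continuousAt_const.mul hu.continuousAt.norm) ?_
    have h3 : V φ i (0 : ℂ × ℂ) = 0 := by
      simp [V]
    rw [h3, map_zero, norm_zero]
    have := norm_pos_iff.2 h0
    positivity
  filter_upwards [eventually_all.2 h1] with p hp i
  exact (hp i).le

/-- the lower bound for `t ^ M (b + y) ^ n u` -/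
theorem lower (hφ : ∀ i, AnalyticAt ℂ (φ i) 0) {o : ι} (ho : ∀ t, φ o t = 0)
    {u : ℂ × ℂ → ℂ} (hu : AnalyticAt ℂ u 0) (hu0 : u 0 ≠ 0) {M n : ℕ} (hM : 0 < M) {b : ℂ}
    (hb : n = 0 ∨ b = 0) :
    ∀ᶠ p in 𝓝 (0 : ℂ × ℂ), ∀ i, Near φ p i →
      1 / 2 * ‖p.1 ^ M * (b + p.2) ^ n * u p‖ ≤
        ‖fderiv ℂ (fun p : ℂ × ℂ => p.1 ^ M * (b + p.2) ^ n * u p) p (V φ i p)‖ := by
  have h1 : ∀ i, ∃ k : ℕ, ∀ ε : ℝ, 0 < ε → ∀ᶠ t in 𝓝 (0 : ℂ),
      ‖t * deriv (φ i) t - k * φ i t‖ ≤ ε * ‖φ i t‖ := fun i => logd (hφ i)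
  choose k hk using h1
  have hfst : Tendsto (Prod.fst : ℂ × ℂ → ℂ) (𝓝 0) (𝓝 0) := continuous_fst.tendsto' _ _ rfl
  have hε : (0 : ℝ) < 1 / (8 * (n + 1)) := by positivity
  filter_upwards [small_unit hφ hu hu0 (ε := 1 / 4) (by norm_num), hu.eventually_analyticAt,
    hu.continuousAt.eventually_ne hu0, hfst.eventually (eventually_all.2 fun i => hk i _ hε)]
    with p h2 h3 h4 h5 i hi
  have hd1 : DifferentiableAt ℂ (fun p : ℂ × ℂ => p.1 ^ M) p := by fun_prop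
  have hd2 : DifferentiableAt ℂ (fun p : ℂ × ℂ => (b + p.2) ^ n) p := by fun_prop
  have h6 : fderiv ℂ (fun p : ℂ × ℂ => p.1 ^ M * (b + p.2) ^ n * u p) p (V φ i p) =
      p.1 ^ M * (M * (b + p.2) ^ n * u p + n * (b + p.2) ^ (n - 1) * (p.1 * deriv (φ i) p.1) * u p
        + (b + p.2) ^ n * fderiv ℂ u p (V φ i p)) := by
    have hd12 : DifferentiableAt ℂ (fun p : ℂ × ℂ => p.1 ^ M * (b + p.2) ^ n) p := hd1.mul hd2
    rw [fd_mul hd12 h3.differentiableAt, fd_mul hd1 hd2, fd_fst, fd_snd]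
    obtain ⟨M', rfl⟩ : ∃ M', M = M' + 1 := ⟨M - 1, by omega⟩
    simp only [V, Nat.add_sub_cancel]
    ring
  rw [h6, mul_assoc, norm_mul (p.1 ^ M), norm_mul (p.1 ^ M), ← mul_assoc, mul_comm (1 / 2 : ℝ), mul_assoc]
  refine mul_le_mul_of_nonneg_left ?_ (norm_nonneg _)
  have hM1 : (1 : ℝ) ≤ M := by exact_mod_cast hM
  have hupos : 0 < ‖u p‖ := norm_pos_iff.2 h4
  rcases Nat.eq_zero_or_pos n with hn | hn
  · subst hn
    simp only [pow_zero, mul_one, one_mul, Nat.cast_zero, zero_mul, add_zero]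
    have h7 := h2 i
    have h8 : ‖(M : ℂ) * u p‖ = M * ‖u p‖ := by rw [norm_mul, Complex.norm_natCast]
    have h9 := norm_sub_le_norm_add ((M : ℂ) * u p) (fderiv ℂ u p (V φ i p))
    rw [h8] at h9
    nlinarith
  · have hb0 : b = 0 := by
      rcases hb with h | h
      · omega
      · exact h
    subst hb0
    simp only [zero_add]
    by_cases hy : p.2 = 0
    · have h7 : p.2 ^ n = 0 := by rw [hy, zero_pow hn.ne']
      rw [h7, zero_mul, norm_zero, mul_zero]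
      exact norm_nonneg _
    · -- the main case
      set y := p.2 with hydef
      set t := p.1 with htdef
      have h7 : ‖y - φ i t‖ ≤ ‖y‖ := by
        have := hi o
        rwa [ho, sub_zero] at this
      have h8 : ‖φ i t‖ ≤ 2 * ‖y‖ := by
        have h9 : φ i t = y - (y - φ i t) := by ring
        rw [h9]
        refine (norm_sub_le _ _).trans ?_
        linarith
      have hy0 : 0 < ‖y‖ := norm_pos_iff.2 hy
      set r : ℂ := φ i t / y with hr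
      have h9 : ‖1 - r‖ ≤ 1 := by
        have h10 : 1 - r = (y - φ i t) / y := by
          rw [hr]; field_simp
        rw [h10, norm_div]
        exact div_le_one_of_le₀ h7 (norm_nonneg _)
      have h10 : 0 ≤ r.re := by
        have h11 := Complex.re_le_norm (1 - r)
        simp only [Complex.sub_re, Complex.one_re] at h11
        linarith
      set δ : ℂ := (t * deriv (φ i) t - k i * φ i t) / y with hδ
      have h11 : ‖δ‖ ≤ 1 / (4 * (n + 1)) := by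
        rw [hδ, norm_div, div_le_iff₀ hy0]
        refine (h5 i).trans ?_
        calc 1 / (8 * ((n : ℝ) + 1)) * ‖φ i t‖ ≤ 1 / (8 * ((n : ℝ) + 1)) * (2 * ‖y‖) :=
              mul_le_mul_of_nonneg_left h8 hε.le
          _ = 1 / (4 * ((n : ℝ) + 1)) * ‖y‖ := by field_simp; ring
      set τ : ℂ := fderiv ℂ u p (V φ i p) / u p with hτ
      have h12 : ‖τ‖ ≤ 1 / 4 := by
        rw [hτ, norm_div, div_le_iff₀ hupos]
        exact h2 i
      have h13 : (M * y ^ n * u p + n * y ^ (n - 1) * (t * deriv (φ i) t) * u p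
          + y ^ n * fderiv ℂ u p (V φ i p)) = (y ^ n * u p) * (M + n * (k i) * r + n * δ + τ) := by
        rw [hτ, hδ, hr]
        obtain ⟨n', rfl⟩ : ∃ n', n = n' + 1 := ⟨n - 1, by omega⟩
        simp only [Nat.add_sub_cancel]
        field_simp
        ring
      rw [h13, norm_mul (y ^ n * u p)]
      rw [mul_comm (1 / 2 : ℝ)]
      refine mul_le_mul_of_nonneg_left ?_ (norm_nonneg _)
      have h14 := Complex.re_le_norm (M + n * (k i) * r + n * δ + τ)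
      have h15 : ((M : ℂ) + n * (k i) * r + n * δ + τ).re = M + n * k i * r.re + n * δ.re + τ.re := by
        simp [Complex.add_re, Complex.mul_re]
      rw [h15] at h14
      have h16 : -‖τ‖ ≤ τ.re := by
        have := Complex.abs_re_le_norm τ
        exact (abs_le.1 this).1
      have h17 : -‖δ‖ ≤ δ.re := by
        have := Complex.abs_re_le_norm δ
        exact (abs_le.1 this).1
      have h18 : (0 : ℝ) ≤ n * k i * r.re := by positivity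
      have h19 : (n : ℝ) * ‖δ‖ ≤ 1 / 4 := by
        calc (n : ℝ) * ‖δ‖ ≤ n * (1 / (4 * (n + 1))) :=
              mul_le_mul_of_nonneg_left h11 (Nat.cast_nonneg _)
          _ ≤ 1 / 4 := by
              rw [mul_one_div, div_le_div_iff₀ (by positivity) (by norm_num)]
              linarith
      have h20 : -(n * ‖δ‖) ≤ n * δ.re := by
        have := mul_le_mul_of_nonneg_left h17 (Nat.cast_nonneg n : (0 : ℝ) ≤ n)
        linarith
      linarith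

end G

end Crest.Agent.R257.NV_790
end
end

-- ▼ part R257/NV_790
section

/-!
# Row 257, C-LOG-NV (helper790): proof of `CLog_68.NVStmt`
-/

set_option autoImplicit false
set_option linter.unusedSectionVars false

open Set Filter Topology Complex Metric Polynomial

noncomputable section

namespace Crest.Agent.R257.NV_790

open Crest.Agent.R257.Sh_297 Crest.Agent.R257.OrdL_578

/-- the power map -/
def pm (N : ℕ) (b : ℂ) (p : ℂ × ℂ) : ℂ × ℂ := (p.1 ^ N, b + p.2)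

theorem an_pm (N : ℕ) (b : ℂ) (p : ℂ × ℂ) : AnalyticAt ℂ (pm N b) p :=
  (analyticAt_fst.pow N).prod (analyticAt_const.add analyticAt_snd)

theorem pm_zero {N : ℕ} (hN : 0 < N) (b : ℂ) : pm N b 0 = (0, b) := by
  simp [pm, hN.ne']

theorem tendsto_pm {N : ℕ} (hN : 0 < N) (b : ℂ) : Tendsto (pm N b) (𝓝 0) (𝓝 ((0 : ℂ), b)) := by
  have := (an_pm N b 0).continuousAt.tendsto
  rwa [pm_zero hN] at this

theorem an_comp {N : ℕ} (hN : 0 < N) {b : ℂ} {F : ℂ × ℂ → ℂ} (hF : AnalyticAt ℂ F (0, b)) :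
    AnalyticAt ℂ (fun p => F (pm N b p)) 0 := by
  refine AnalyticAt.comp (g := F) (f := pm N b) (x := (0 : ℂ × ℂ)) ?_ (an_pm N b 0)
  rw [pm_zero hN]
  exact hF

theorem open_pm {N : ℕ} (hN : 0 < N) {b : ℂ} {P : ℂ × ℂ → Prop}
    (h : ∀ᶠ p in 𝓝 (0 : ℂ × ℂ), P p) : ∀ᶠ q in 𝓝 ((0 : ℂ), b), ∃ p, pm N b p = q ∧ P p := by
  obtain ⟨ε, hε, hb⟩ := Metric.eventually_nhds_iff_ball.1 h
  have h1 : ∀ᶠ q in 𝓝 ((0 : ℂ), b), ‖q.1‖ < ε ^ N := by
    have h2 : Tendsto (fun q : ℂ × ℂ => ‖q.1‖) (𝓝 ((0 : ℂ), b)) (𝓝 ‖(0 : ℂ)‖) :=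
      (continuous_fst.norm : Continuous fun q : ℂ × ℂ => ‖q.1‖).tendsto _
    refine h2.eventually (gt_mem_nhds ?_)
    rw [norm_zero]
    positivity
  have h2 : ∀ᶠ q in 𝓝 ((0 : ℂ), b), ‖q.2 - b‖ < ε := by
    have h3 : Tendsto (fun q : ℂ × ℂ => ‖q.2 - b‖) (𝓝 ((0 : ℂ), b)) (𝓝 ‖b - b‖) :=
      (by fun_prop : Continuous fun q : ℂ × ℂ => ‖q.2 - b‖).tendsto _
    refine h3.eventually (gt_mem_nhds ?_)
    rw [sub_self, norm_zero]
    exact hε
  filter_upwards [h1, h2] with q hq1 hq2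
  obtain ⟨t, ht⟩ := IsAlgClosed.exists_pow_nat_eq q.1 hN
  refine ⟨(t, q.2 - b), ?_, hb _ ?_⟩
  · simp only [pm, ht]
    ext <;> simp
  · rw [mem_ball, Prod.dist_eq, max_lt_iff]
    refine ⟨?_, ?_⟩
    · show dist t 0 < ε
      rw [dist_zero_right]
      rw [← ht, norm_pow] at hq1
      exact lt_of_pow_lt_pow_left₀ N hε.le hq1
    · show dist (q.2 - b) 0 < ε
      rw [dist_zero_right]
      exact hq2

/-- **branches of a finite family** -/
theorem exists_phi {J : Type} [Fintype J] {q : J → ℂ × ℂ → ℂ} {b : ℂ}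
    (hq : ∀ j, AnalyticAt ℂ (q j) (0, b)) :
    ∃ (N m : ℕ) (ψ : Option (Fin m) → ℂ → ℂ), 0 < N ∧ (∀ i, AnalyticAt ℂ (ψ i) 0) ∧
      (∀ t, ψ none t = 0) ∧ ∀ j, Adm ψ fun p => q j (pm N b p) := by
  classical
  let S : Finset J := Finset.univ.filter fun j => ¬ ∀ᶠ p in 𝓝 ((0 : ℂ), b), q j p = 0
  have h1 : ∀ j, ∃ (n : ℕ) (G : ℂ × ℂ → ℂ), j ∈ S → Quo (q j) b n G ∧ ∃ᶠ z in 𝓝 b, G (0, z) ≠ 0 := by
    intro j
    by_cases hj : ∀ᶠ p in 𝓝 ((0 : ℂ), b), q j p = 0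
    · exact ⟨0, 0, fun h => absurd hj (Finset.mem_filter.1 h).2⟩
    · obtain ⟨n, G, h⟩ := exists_ord (hq j) hj
      exact ⟨n, G, fun _ => h⟩
  choose n G hG using h1
  have htr : Tendsto (fun p : ℂ × ℂ => (p.1, b + p.2)) (𝓝 0) (𝓝 ((0 : ℂ), b)) :=
    (by fun_prop : Continuous fun p : ℂ × ℂ => (p.1, b + p.2)).tendsto' _ _ (by simp)
  have hGa : ∀ j ∈ S, AnalyticAt ℂ (fun p : ℂ × ℂ => G j (p.1, b + p.2)) 0 := by
    intro j hj
    refine AnalyticAt.comp (g := G j) (f := fun p : ℂ × ℂ => (p.1, b + p.2)) (x := (0 : ℂ × ℂ)) ?_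
      (analyticAt_fst.prod (analyticAt_const.add analyticAt_snd))
    have : ((0 : ℂ × ℂ).1, b + (0 : ℂ × ℂ).2) = ((0 : ℂ), b) := by simp
    rw [this]
    exact (hG j hj).1.1
  have hGax : ∀ j ∈ S, AnalyticAt ℂ (fun y : ℂ => G j (0, b + y)) 0 := by
    intro j hj
    exact AnalyticAt.comp (g := fun p : ℂ × ℂ => G j (p.1, b + p.2)) (f := fun y : ℂ => ((0 : ℂ), y))
      (x := (0 : ℂ)) (hGa j hj) (analyticAt_const.prod analyticAt_id)
  have hadd : Tendsto (fun y : ℂ => b + y) (𝓝 0) (𝓝 b) :=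
    (by fun_prop : Continuous fun y : ℂ => b + y).tendsto' _ _ (by simp)
  have hsub : Tendsto (fun z : ℂ => z - b) (𝓝 b) (𝓝 0) :=
    (by fun_prop : Continuous fun z : ℂ => z - b).tendsto' _ _ (by simp)
  have hGne : ∀ j ∈ S, ¬ ∀ᶠ y in 𝓝 (0 : ℂ), G j (0, b + y) = 0 := by
    intro j hj h
    refine (hG j hj).2 ?_
    filter_upwards [hsub.eventually h] with z hz hne
    refine hne ?_
    rwa [add_sub_cancel] at hz
  let D : ℂ × ℂ → ℂ := fun p => ∏ j ∈ S, G j (p.1, b + p.2)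
  have hD : AnalyticAt ℂ D 0 := Finset.analyticAt_fun_prod _ hGa
  have hreg : ∃ᶠ y in 𝓝 (0 : ℂ), D (0, y) ≠ 0 := by
    by_contra hcon
    rw [not_frequently] at hcon
    obtain ⟨j, hj, h⟩ := Crest.Agent.R257.Frm_547.prod_ev S (g := fun j (y : ℂ) => G j (0, b + y))
      hGax (by filter_upwards [hcon] with y hy using not_not.1 hy)
    exact hGne j hj h
  obtain ⟨N, m, R₀, hN, hm, hR₀, hbr⟩ := T0_939.exists_branches hD hreg
  obtain ⟨ρ, φ, hρ0, hρ1, hρR, hφ, hφ0, hφR, hinj, hDφ, -⟩ := hbr R₀ hR₀ le_rfl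
  let ψ : Option (Fin m) → ℂ → ℂ := fun o => match o with
    | none => fun _ => 0
    | some i => φ i
  have hψ : ∀ i, AnalyticAt ℂ (ψ i) 0 := by
    intro i
    cases i with
    | none => exact analyticAt_const
    | some i => exact hφ i 0 (mem_ball_self hρ0)
  have hψ0 : ∀ i, ψ i 0 = 0 := by
    intro i
    cases i with
    | none => rfl
    | some i => exact hφ0 i
  refine ⟨N, m, ψ, hN, hψ, fun t => rfl, fun j => ?_⟩
  by_cases hj : ∀ᶠ p in 𝓝 ((0 : ℂ), b), q j p = 0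
  · exact Adm.zero ((tendsto_pm hN b).eventually hj)
  have hjS : j ∈ S := Finset.mem_filter.2 ⟨Finset.mem_univ _, hj⟩
  obtain ⟨⟨hGan, hQe⟩, hGf⟩ := hG j hjS
  have hF : AnalyticAt ℂ (fun p => G j (pm N b p)) 0 := an_comp hN hGan
  have hord : analyticOrderAt (fun y : ℂ => G j (pm N b (0, y))) 0 ≠ ⊤ := by
    rw [Ne, analyticOrderAt_eq_top]
    intro h
    refine hGne j hjS ?_
    filter_upwards [h] with y hy
    simpa [pm, hN.ne'] using hy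
  obtain ⟨d, hd⟩ := ENat.ne_top_iff_exists.1 hord
  have h2 : Adm ψ fun p => G j (pm N b p) := by
    refine adm_of_zeros hψ hψ0 d _ hF hd.symm ?_
    have h3 : ∀ᶠ p in 𝓝 (0 : ℂ × ℂ), p.1 ∈ ball (0 : ℂ) ρ ∧ p.2 ∈ ball (0 : ℂ) R₀ := by
      have h4 : Tendsto (Prod.fst : ℂ × ℂ → ℂ) (𝓝 0) (𝓝 0) := continuous_fst.tendsto' _ _ rfl
      have h5 : Tendsto (Prod.snd : ℂ × ℂ → ℂ) (𝓝 0) (𝓝 0) := continuous_snd.tendsto' _ _ rfl
      exact (h4.eventually (ball_mem_nhds _ hρ0)).and (h5.eventually (ball_mem_nhds _ hR₀))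
    filter_upwards [h3] with p hp hz
    by_contra hcon
    push Not at hcon
    refine hDφ p.1 hp.1 p.2 hp.2 (fun i => hcon (some i)) ?_
    exact Finset.prod_eq_zero hjS hz
  refine (((Adm.fst (φ := ψ)).pow hψ (N * n j)).mul h2).congr ?_
  filter_upwards [(tendsto_pm hN b).eventually hQe] with p hp
  rw [hp]
  simp only [pm, pow_mul]

/-- chain rule -/
theorem fd_comp {N : ℕ} {b : ℂ} {F : ℂ × ℂ → ℂ} {p : ℂ × ℂ} (hF : DifferentiableAt ℂ F (pm N b p))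
    (v : ℂ × ℂ) :
    fderiv ℂ (fun p => F (pm N b p)) p v = fderiv ℂ F (pm N b p) (fderiv ℂ (pm N b) p v) := by
  have h1 : HasFDerivAt (fun p => F (pm N b p)) ((fderiv ℂ F (pm N b p)).comp (fderiv ℂ (pm N b) p)) p :=
    hF.hasFDerivAt.comp p (an_pm N b p).differentiableAt.hasFDerivAt
  rw [h1.fderiv]
  rfl

/-- **C-LOG-NV** -/
theorem nv : CLog_68.NVStmt := by
  intro J _ q g b m₁ m₂ hq hb hm ⟨U, hU, hU0, hg⟩
  classical
  obtain ⟨N, m, ψ, hN, hψ, hψ0, hadm⟩ := exists_phi hq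
  choose hqa C hC0 hC using hadm
  have hUc : AnalyticAt ℂ (fun p => U (pm N b p)) 0 := an_comp hN hU
  have hUc0 : (fun p => U (pm N b p)) 0 ≠ 0 := by
    show U (pm N b 0) ≠ 0
    rw [pm_zero hN]
    exact hU0
  have hlow := lower hψ (o := none) hψ0 hUc hUc0 (M := N * m₁) (n := m₂) (b := b)
    (Nat.mul_pos hN hm) hb
  have hge : ∀ᶠ p in 𝓝 (0 : ℂ × ℂ), g (pm N b p) =
      p.1 ^ (N * m₁) * (b + p.2) ^ m₂ * U (pm N b p) := by
    filter_upwards [(tendsto_pm hN b).eventually hg] with p hp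
    rw [hp]
    simp only [pm, pow_mul]
  have hgan : ∀ᶠ p in 𝓝 ((0 : ℂ), b), AnalyticAt ℂ g p := by
    have h1 : AnalyticAt ℂ (fun p : ℂ × ℂ => p.1 ^ m₁ * p.2 ^ m₂ * U p) (0, b) :=
      ((analyticAt_fst.pow m₁).mul (analyticAt_snd.pow m₂)).mul hU
    have h2 : AnalyticAt ℂ g (0, b) := h1.congr (by filter_upwards [hg] with p hp using hp.symm)
    exact h2.eventually_analyticAt
  refine ⟨1 / 2, ∑ j, C j, by norm_num, ?_⟩
  have hall : ∀ᶠ p in 𝓝 (0 : ℂ × ℂ), ∃ v : ℂ × ℂ,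
      (∀ j, ‖fderiv ℂ (q j) (pm N b p) v‖ ≤ (∑ j, C j) * ‖q j (pm N b p)‖) ∧
      1 / 2 * ‖g (pm N b p)‖ ≤ ‖fderiv ℂ g (pm N b p) v‖ := by
    filter_upwards [eventually_all.2 hC, hlow, hge, hge.eventually_nhds,
      (tendsto_pm hN b).eventually hgan,
      (tendsto_pm hN b).eventually (eventually_all.2 fun j => (hq j).eventually_analyticAt)]
      with p h1 h2 h3 h4 h5 h6
    obtain ⟨i, hi⟩ := Finite.exists_min fun i => ‖p.2 - ψ i p.1‖
    refine ⟨fderiv ℂ (pm N b) p (V ψ i p), fun j => ?_, ?_⟩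
    · rw [← fd_comp (h6 j).differentiableAt]
      refine (h1 j i hi).trans ?_
      exact mul_le_mul_of_nonneg_right
        (Finset.single_le_sum (fun j _ => hC0 j) (Finset.mem_univ j)) (norm_nonneg _)
    · rw [← fd_comp h5.differentiableAt, h3]
      have h7 : (fun p => g (pm N b p)) =ᶠ[𝓝 p]
          fun p : ℂ × ℂ => p.1 ^ (N * m₁) * (b + p.2) ^ m₂ * U (pm N b p) := h4
      rw [h7.fderiv_eq]
      exact h2 i hi
  filter_upwards [open_pm hN (b := b) hall] with q' hq' _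
  obtain ⟨p, hp, h⟩ := hq'
  rw [← hp]
  exact h

end Crest.Agent.R257.NV_790
end
end

-- ▼ part R257/CLogK_68
section

/-!
R257 / CLogK_68 (C-LOG, helper68): from the local statements to the list; inequality (ii);
**C-LOG from a frame**.
-/

set_option autoImplicit false
set_option linter.unusedSectionVars false

open Polynomial Set Filter Topology Metric
open Crest.AlgGeometry.Germ Crest.Agent.R257.AJ387 Crest.Agent.R257.T387
open Crest.Agent.R257.T0_939 (GalPt)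

noncomputable section

namespace Crest.Agent.R257.CLog_68

open Crest.Agent.R257.Defs_219
open Crest.Agent.R257.Fr_808 (jc jc_eq jac2 dt0_an Frame exp_phq2 J2_nonneg sys_pos J2_cont)

variable {f : (Fin 3 → ℂ) → ℂ} {T : TB f}

/-! ### a finite set of members for all points -/

/-- a finite set which works near every point of `t` -/
def Works (T : TB f) (F : Frame f) (c : F.K) (S : Set (ℕ × (E3 → ℂ))) (t : Set (ℂ × ℂ)) : Prop :=
  ∀ p₁ ∈ t, ∃ κ : ℝ, 0 < κ ∧ ∀ᶠ p in 𝓝 p₁, p.1 ≠ 0 → p.2 ≠ 0 → ∃ a ∈ S, ∃ b ∈ S,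
      κ * Bm F c p ≤ Tm T a.1 a.2 b.1 b.2 (F.th c p)

theorem Works.mono {F : Frame f} {c : F.K} {S S' : Set (ℕ × (E3 → ℂ))} {t : Set (ℂ × ℂ)}
    (h : Works T F c S t) (hS : S ⊆ S') : Works T F c S' t := by
  intro p₁ hp
  obtain ⟨κ, hκ, h1⟩ := h p₁ hp
  refine ⟨κ, hκ, ?_⟩
  filter_upwards [h1] with p h2 h3 h4
  obtain ⟨a, ha, b, hb, h5⟩ := h2 h3 h4
  exact ⟨a, hS ha, b, hS hb, h5⟩

theorem exists_S (hf : Iso f) {Dp : ℂ → ℂ[X]} (hD : DpD T Dp) {F : Frame f} (hCR : CR T F) :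
    ∃ S : Set (ℕ × (E3 → ℂ)), S.Finite ∧ (∀ a ∈ S, Good a) ∧ ∀ c, Works T F c S (F.SF c) := by
  have key : ∀ c, ∃ S : Set (ℕ × (E3 → ℂ)), S.Finite ∧ (∀ a ∈ S, Good a) ∧
      Works T F c S (F.SF c) := by
    intro c
    refine (F.isCompact_SF c).induction_on (p := fun t => ∃ S : Set (ℕ × (E3 → ℂ)), S.Finite ∧
      (∀ a ∈ S, Good a) ∧ Works T F c S t) ?_ ?_ ?_ ?_
    · exact ⟨∅, finite_empty, fun a ha => absurd ha (notMem_empty a), fun p hp =>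
        absurd hp (notMem_empty p)⟩
    · rintro s t hst ⟨S, h1, h2, h3⟩
      exact ⟨S, h1, h2, fun p hp => h3 p (hst hp)⟩
    · rintro s t ⟨S, h1, h2, h3⟩ ⟨S', h1', h2', h3'⟩
      refine ⟨S ∪ S', h1.union h1', ?_, ?_⟩
      · rintro a (ha | ha)
        · exact h2 a ha
        · exact h2' a ha
      · rintro p (hp | hp)
        · exact (h3.mono subset_union_left) p hp
        · exact (h3'.mono subset_union_right) p hp
    · intro p₀ hp₀
      obtain ⟨S, h1, h2, κ, hκ, h3⟩ := locB_all hf hD hCR c hp₀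
      refine ⟨{p₁ : ℂ × ℂ | ∀ᶠ p : ℂ × ℂ in 𝓝 p₁, p.1 ≠ 0 → p.2 ≠ 0 → ∃ a ∈ S, ∃ b ∈ S,
        κ * Bm F c p ≤ Tm T a.1 a.2 b.1 b.2 (F.th c p)},
        mem_nhdsWithin_of_mem_nhds h3.eventually_nhds, S, h1, h2, fun p₁ hp₁ => ⟨κ, hκ, hp₁⟩⟩
  choose S h1 h2 h3 using key
  refine ⟨⋃ c, S c, finite_iUnion h1, ?_, fun c => (h3 c).mono (subset_iUnion S c)⟩
  intro a ha
  obtain ⟨c, hc⟩ := mem_iUnion.1 ha
  exact h2 c a hc

/-! ### the list -/

/-- the list of a family of members -/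
def ql (T : TB f) {n : ℕ} (e : Fin n → ℕ × (E3 → ℂ)) (l : Fin (n * 3)) : E3 → ℂ :=
  ![(e (finProdFinEquiv.symm l).1).2, fun x => X1 T x ^ (e (finProdFinEquiv.symm l).1).1,
    fun x => Y1 T x ^ (e (finProdFinEquiv.symm l).1).1] (finProdFinEquiv.symm l).2

/-- the systems -/
def sl {n : ℕ} (l : Fin (n * 3)) : ℕ := ((finProdFinEquiv.symm l).1 : ℕ)

theorem sq_ql {n : ℕ} (e : Fin n → ℕ × (E3 → ℂ)) (l : Fin (n * 3)) (x : E3) :
    sq (ql T e) sl l x =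
      WT T (e (finProdFinEquiv.symm l).1).1 (e (finProdFinEquiv.symm l).1).2 x := by
  unfold sq fib
  rw [Finset.sum_filter, ← finProdFinEquiv.sum_comp, Fintype.sum_prod_type]
  simp only [sl, ql, Equiv.symm_apply_apply]
  rw [Finset.sum_eq_single (finProdFinEquiv.symm l).1]
  · simp only [if_true, Fin.sum_univ_three, Matrix.cons_val_zero, Matrix.cons_val_one,
      Matrix.cons_val, WT]
  · intro i _ hi
    refine Finset.sum_eq_zero fun j _ => ?_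
    rw [if_neg]
    exact fun h => hi (Fin.ext h)
  · intro h
    exact absurd (Finset.mem_univ _) h

theorem ql_zero {n : ℕ} (e : Fin n → ℕ × (E3 → ℂ)) (i : Fin n) :
    ql T e (finProdFinEquiv (i, 0)) = (e i).2 := by
  unfold ql
  rw [Equiv.symm_apply_apply]
  rfl

/-- `J2` against `Tm` -/
theorem J2_ge_Tm {n : ℕ} (e : Fin n → ℕ × (E3 → ℂ)) {x : E3}
    (hs : ∀ l, 0 < sq (ql T e) sl l x) (i i' : Fin n) :
    Tm T (e i).1 (e i).2 (e i').1 (e i').2 x / 2 ≤ J2 f (ql T e) sl x := by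
  unfold J2
  refine div_le_div_of_nonneg_right ?_ (by norm_num)
  set l : Fin (n * 3) := finProdFinEquiv (i, 0) with hl
  set l' : Fin (n * 3) := finProdFinEquiv (i', 0) with hl'
  have h1 : Tm T (e i).1 (e i).2 (e i').1 (e i').2 x =
      Real.exp (-(phq (ql T e) sl l x + phq (ql T e) sl l' x)) *
        ‖Dt f (ql T e l) (ql T e l') x‖ ^ 2 := by
    rw [exp_phq2 (hs l) (hs l'), sq_ql, sq_ql, hl, hl', ql_zero, ql_zero,
      Equiv.symm_apply_apply, Equiv.symm_apply_apply, Tm, div_eq_inv_mul, mul_inv]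
  rw [h1]
  refine le_trans ?_ (Finset.single_le_sum (f := fun l => ∑ m,
    Real.exp (-(phq (ql T e) sl l x + phq (ql T e) sl m x)) *
      ‖Dt f (ql T e l) (ql T e m) x‖ ^ 2)
    (fun _ _ => Finset.sum_nonneg fun _ _ => by positivity) (Finset.mem_univ l))
  exact Finset.single_le_sum (f := fun m =>
    Real.exp (-(phq (ql T e) sl l x + phq (ql T e) sl m x)) *
      ‖Dt f (ql T e l) (ql T e m) x‖ ^ 2) (fun _ _ => by positivity) (Finset.mem_univ l')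

/-! ### no common zeros -/

theorem pt_SL (x : E3) : x = pt (x 0) (T.A (SL T x)) := by
  rw [SL_apply, ContinuousLinearEquiv.apply_symm_apply]
  funext i
  fin_cases i <;> rfl

/-- on `{f = 0}` the coordinate `z` is integral over `(x', y')` -/
theorem V_lo (T : TB f) : ∃ (C r : ℝ), 1 ≤ C ∧ 0 < r ∧ r ≤ 1 ∧ ∀ x : E3, ‖x‖ < r → f x = 0 →
    ‖x‖ ^ T.d ≤ C * ‖SL T x‖ := by
  -- coefficients
  have hcoef : ∀ i, i < T.d → ∃ C : ℝ, 0 ≤ C ∧ ∀ᶠ q in 𝓝 (0 : ℂ × ℂ),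
      ‖(T.P q).coeff i‖ ≤ C * ‖q‖ := by
    intro i hi
    have h0 : (0 : ℂ × ℂ) ∈ BD T.R T.R := ⟨by simpa using T.R_pos, by simpa using T.R_pos⟩
    have h1 : DifferentiableAt ℂ (fun q => (T.P q).coeff i) 0 :=
      (T.coeff_an i 0 h0).differentiableAt
    obtain ⟨C, hC⟩ := h1.isBigO_sub.bound
    refine ⟨max C 0, le_max_right _ _, ?_⟩
    filter_upwards [hC] with q hq
    rw [T.P_zero, coeff_X_pow, if_neg hi.ne, sub_zero, sub_zero] at hq
    exact hq.trans (mul_le_mul_of_nonneg_right (le_max_left _ _) (norm_nonneg _))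
  choose! Cf hCf hcf using hcoef
  set C₁ : ℝ := ∑ i ∈ Finset.range T.d, Cf i with hC₁
  have hC₁0 : 0 ≤ C₁ := Finset.sum_nonneg fun i hi => hCf i (Finset.mem_range.1 hi)
  have hall : ∀ᶠ q in 𝓝 (0 : ℂ × ℂ), ∀ i ∈ Finset.range T.d, ‖(T.P q).coeff i‖ ≤ Cf i * ‖q‖ := by
    rw [Filter.eventually_all_finset]
    intro i hi
    exact hcf i (Finset.mem_range.1 hi)
  have hBD : ∀ᶠ q in 𝓝 (0 : ℂ × ℂ), q ∈ BD T.R T.R :=
    (isOpen_BD _ _).mem_nhds ⟨by simpa using T.R_pos, by simpa using T.R_pos⟩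
  have hSL : Tendsto (SL T) (𝓝 0) (𝓝 0) := by
    have := (SL T).continuous.tendsto 0
    rwa [map_zero] at this
  have hq1 : ∀ᶠ q in 𝓝 (0 : ℂ × ℂ), ‖q‖ ≤ 1 := by
    filter_upwards [Metric.ball_mem_nhds (0 : ℂ × ℂ) one_pos] with q hq
    exact (mem_ball_zero_iff.1 hq).le
  have hx0 : ∀ᶠ x in 𝓝 (0 : E3), ‖x‖ < min 1 T.rz := by
    filter_upwards [Metric.ball_mem_nhds (0 : E3) (lt_min one_pos T.rz_pos)] with x hx
    exact mem_ball_zero_iff.1 hx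
  obtain ⟨r, hr, hball⟩ := Metric.eventually_nhds_iff_ball.1
    ((hSL.eventually (hall.and (hBD.and hq1))).and hx0)
  set A := ‖(T.A : ℂ × ℂ →L[ℂ] ℂ × ℂ)‖ with hA
  refine ⟨max (C₁ + (A + 1) ^ T.d) 1, min r 1, le_max_right _ _, lt_min hr one_pos, min_le_right _ _, ?_⟩
  intro x hx hfx
  have hxr : x ∈ ball (0 : E3) r := mem_ball_zero_iff.2 (hx.trans_le (min_le_left _ _))
  obtain ⟨⟨h1, h2, h3⟩, h4⟩ := hball x hxr
  set q := SL T x with hq
  have hx1 : ‖x‖ ≤ 1 := (h4.trans_le (min_le_left _ _)).le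
  have hz : ‖x 0‖ ≤ ‖x‖ := norm_le_pi_norm x 0
  have hzr : ‖x 0‖ ≤ T.rz := hz.trans (h4.trans_le (min_le_right _ _)).le
  have hroot : (T.P q).eval (x 0) = 0 := by
    have h5 := T.f_eq q h2 (x 0) hzr
    rw [← pt_SL x, hfx] at h5
    exact (mul_eq_zero.1 h5.symm).resolve_left (T.v_ne q h2 _ hzr)
  -- the bound of the root
  have hzd : ‖x 0‖ ^ T.d ≤ C₁ * ‖q‖ := by
    have h5 : (T.P q).eval (x 0) = ∑ i ∈ Finset.range T.d, (T.P q).coeff i * x 0 ^ i + x 0 ^ T.d := by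
      rw [eval_eq_sum_range, T.deg _ h2, Finset.sum_range_succ]
      congr 1
      have h6 : (T.P q).coeff T.d = 1 := by
        have := T.monic _ h2
        rw [Monic, leadingCoeff, T.deg _ h2] at this
        exact this
      rw [h6, one_mul]
    rw [hroot] at h5
    have h6 : x 0 ^ T.d = -∑ i ∈ Finset.range T.d, (T.P q).coeff i * x 0 ^ i := by
      linear_combination -h5
    rw [← norm_pow, h6, norm_neg, hC₁, Finset.sum_mul]
    refine (norm_sum_le _ _).trans (Finset.sum_le_sum fun i hi => ?_)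
    rw [norm_mul, norm_pow]
    calc ‖(T.P q).coeff i‖ * ‖x 0‖ ^ i ≤ Cf i * ‖q‖ * 1 :=
          mul_le_mul (h1 i hi) (pow_le_one₀ (norm_nonneg _) (hz.trans hx1)) (by positivity)
            (mul_nonneg (hCf i (Finset.mem_range.1 hi)) (norm_nonneg _))
      _ = _ := mul_one _
  -- the other coordinates
  have hA1 : ‖T.A q‖ ≤ (A + 1) * ‖q‖ := by
    have := (T.A : ℂ × ℂ →L[ℂ] ℂ × ℂ).le_opNorm q
    have h5 : ‖T.A q‖ ≤ A * ‖q‖ := this
    nlinarith [norm_nonneg q]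
  have hAq : T.A q = (x 1, x 2) := by
    rw [hq, SL_apply, ContinuousLinearEquiv.apply_symm_apply]
  have hx12 : ‖x 1‖ ≤ (A + 1) * ‖q‖ ∧ ‖x 2‖ ≤ (A + 1) * ‖q‖ := by
    rw [hAq] at hA1
    exact ⟨(norm_fst_le (x 1, x 2)).trans hA1, (norm_snd_le (x 1, x 2)).trans hA1⟩
  have hA0 : 0 ≤ A := norm_nonneg _
  have hd := T.d_pos
  have hmain : ∀ i, ‖x i‖ ^ T.d ≤ (C₁ + (A + 1) ^ T.d) * ‖q‖ := by
    have hB : ((A + 1) * ‖q‖) ^ T.d ≤ (A + 1) ^ T.d * ‖q‖ := by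
      rw [mul_pow]
      refine mul_le_mul_of_nonneg_left ?_ (by positivity)
      calc ‖q‖ ^ T.d ≤ ‖q‖ ^ 1 := pow_le_pow_of_le_one (norm_nonneg _) h3 hd
        _ = _ := pow_one _
    have hq0 := norm_nonneg q
    have hAd : 0 ≤ (A + 1) ^ T.d := by positivity
    intro i
    fin_cases i
    · refine hzd.trans ?_
      nlinarith [mul_nonneg hAd hq0]
    · refine ((pow_le_pow_left₀ (norm_nonneg _) hx12.1 _).trans hB).trans ?_
      nlinarith [mul_nonneg hC₁0 hq0]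
    · refine ((pow_le_pow_left₀ (norm_nonneg _) hx12.2 _).trans hB).trans ?_
      nlinarith [mul_nonneg hC₁0 hq0]
  obtain ⟨i, hi⟩ : ∃ i, ‖x‖ = ‖x i‖ := by
    obtain ⟨i, -, hi⟩ := Finset.exists_mem_eq_sup' (s := Finset.univ) ⟨0, Finset.mem_univ _⟩
      (fun i => ‖x i‖)
    refine ⟨i, le_antisymm ?_ (norm_le_pi_norm x i)⟩
    rw [pi_norm_le_iff_of_nonneg (norm_nonneg _)]
    intro l
    rw [← hi]
    exact Finset.le_sup' (fun i => ‖x i‖) (Finset.mem_univ l)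
  rw [hi]
  exact (hmain i).trans (mul_le_mul_of_nonneg_right (le_max_left _ _) (norm_nonneg _))

theorem WT_ge_SL (M : ℕ) (Q : E3 → ℂ) (x : E3) : (‖SL T x‖ ^ M) ^ 2 ≤ WT T M Q x := by
  have h1 : ‖SL T x‖ = max ‖X1 T x‖ ‖Y1 T x‖ := rfl
  unfold WT
  rcases le_total ‖X1 T x‖ ‖Y1 T x‖ with h | h
  · rw [h1, max_eq_right h, norm_pow (Y1 T x)]
    have : 0 ≤ ‖Q x‖ ^ 2 + ‖X1 T x ^ M‖ ^ 2 := by positivity
    linarith
  · rw [h1, max_eq_left h, norm_pow (X1 T x)]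
    have : 0 ≤ ‖Q x‖ ^ 2 + ‖Y1 T x ^ M‖ ^ 2 := by positivity
    linarith

/-- **the list is admissible** -/
theorem sys_ql {n : ℕ} {e : Fin n → ℕ × (E3 → ℂ)} (he : ∀ i, Good (e i)) :
    Sys f (ql T e) sl := by
  have hcase : ∀ (P : (E3 → ℂ) → Prop), (∀ i, P (e i).2) → (∀ i, P fun x => X1 T x ^ (e i).1) →
      (∀ i, P fun x => Y1 T x ^ (e i).1) → ∀ l, P (ql T e l) := by
    intro P h1 h2 h3 l
    unfold ql
    generalize (finProdFinEquiv.symm l).1 = i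
    generalize (finProdFinEquiv.symm l).2 = j
    fin_cases j
    · exact h1 i
    · exact h2 i
    · exact h3 i
  refine ⟨?_, ?_, ?_⟩
  · exact hcase (fun q => AnalyticAt ℂ q 0) (fun i => (he i).2.1) (fun i => (X1_an T 0).pow _)
      (fun i => (Y1_an T 0).pow _)
  · refine hcase (fun q => q 0 = 0) (fun i => (he i).2.2) (fun i => ?_) (fun i => ?_)
    · simp only
      rw [X1_zero, zero_pow (he i).1.ne']
    · simp only
      rw [Y1_zero, zero_pow (he i).1.ne']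
  · obtain ⟨C, r, hC, hr, hr1, h⟩ := V_lo T
    set Mx : ℕ := ∑ i, (e i).1 with hMx
    have hle : ∀ i, (e i).1 ≤ Mx := fun i =>
      Finset.single_le_sum (f := fun i => (e i).1) (fun _ _ => Nat.zero_le _) (Finset.mem_univ i)
    refine ⟨T.d * (Mx * 2), ((C ^ Mx) ^ 2)⁻¹, r, by positivity, hr, fun x hx hfx l => ?_⟩
    have h1 := h x hx hfx
    rw [sq_ql]
    set i := (finProdFinEquiv.symm l).1 with hi
    refine le_trans ?_ (WT_ge_SL _ _ _)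
    rw [inv_mul_le_iff₀ (by positivity)]
    have hC0 : 0 ≤ C := by linarith
    calc ‖x‖ ^ (T.d * (Mx * 2)) ≤ ‖x‖ ^ (T.d * ((e i).1 * 2)) :=
          pow_le_pow_of_le_one (norm_nonneg _) (hx.trans_le hr1).le
            (Nat.mul_le_mul_left _ (Nat.mul_le_mul_right _ (hle i)))
      _ = ((‖x‖ ^ T.d) ^ (e i).1) ^ 2 := by rw [← pow_mul, ← pow_mul]
      _ ≤ ((C * ‖SL T x‖) ^ (e i).1) ^ 2 :=
          pow_le_pow_left₀ (by positivity) (pow_le_pow_left₀ (by positivity) h1 _) _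
      _ = (C ^ (e i).1) ^ 2 * (‖SL T x‖ ^ (e i).1) ^ 2 := by rw [mul_pow, mul_pow]
      _ ≤ (C ^ Mx) ^ 2 * (‖SL T x‖ ^ (e i).1) ^ 2 := by
          refine mul_le_mul_of_nonneg_right (pow_le_pow_left₀ (by positivity) ?_ _) (by positivity)
          exact pow_le_pow_right₀ hC (hle i)

end Crest.Agent.R257.CLog_68
end
end

-- ▼ part R257/CLog_68
section

/-!
R257 / CLog_68 (C-LOG, helper68): inequality (ii) and **C-LOG from a frame**.

* `FrEx`    : frames with base point freeness, whose charts are scaled charts of `T`, exist;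
* `clog_of` : `FrEx → CLogStmt`.
-/

set_option autoImplicit false
set_option linter.unusedSectionVars false

open Polynomial Set Filter Topology Metric
open Crest.AlgGeometry.Germ Crest.Agent.R257.AJ387 Crest.Agent.R257.T387
open Crest.Agent.R257.T0_939 (GalPt)

noncomputable section

namespace Crest.Agent.R257.CLog_68

open Crest.Agent.R257.Defs_219
open Crest.Agent.R257.Fr_808 (jc jc_eq jac2 dt0_an Frame exp_phq2 J2_nonneg sys_pos J2_cont JU)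

variable {f : (Fin 3 → ℂ) → ℂ} {T : TB f}

/-- the order of a member of `⋂ p < k, J_p` -/
theorem ord_bd (hf : Iso f) {F : Frame f} {y : F.I → ℝ} (hy : F.IsP y) {k : ℕ} (hk : 2 ≤ k)
    {g : E3 → ℂ} (hg : AnalyticAt ℂ g 0) (hJ : ∀ p : ℝ, 1 ≤ p → p < k → InJ p f g) {c : F.K}
    {p₀ : ℂ × ℂ} (hp₀ : p₀ ∈ F.SF c) : ∃ C : ℝ, 0 ≤ C ∧ ∀ᶠ p in 𝓝 p₀, p ∈ Fr_808.BD →
      p.1 ≠ 0 → p.2 ≠ 0 → ‖g (F.th c p)‖ ^ 2 ≤ C * Bm F c p ^ k := by
  by_cases hne : ∃ᶠ x in 𝓝 (0 : E3), f x = 0 ∧ g x ≠ 0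
  · obtain ⟨v, hv⟩ := F.exists_Ord hg hne
    have hge := fun i => hv.ge_of_InJ hf.an hy hg (a := (k : ℝ))
      (by have : (2 : ℝ) ≤ k := by exact_mod_cast hk
          linarith)
      (fun h => by
        exfalso
        have : (2 : ℝ) ≤ k := by exact_mod_cast hk
        linarith) hJ i
    have hvn : ∀ i, (k : ℤ) * F.nu i ≤ v i := by
      intro i
      have h1 := hge i
      have h2 := hy.ge i
      have h3 : (k : ℝ) * F.nu i ≤ k * y i := mul_le_mul_of_nonneg_left h2 (by positivity)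
      have h4 : (k : ℝ) * F.nu i ≤ v i := h3.trans h1
      exact_mod_cast h4
    obtain ⟨G, hG, -⟩ := hv.2 c p₀ hp₀
    obtain ⟨C, hC, hCb⟩ := bd_near hG.1.continuousAt
    refine ⟨C ^ 2, by positivity, ?_⟩
    filter_upwards [hG.2, hCb] with p h1 h2 hB hp1 hp2
    have e1 := norm_pos_iff.2 hp1
    have e2 := norm_pos_iff.2 hp2
    rw [h1, norm_mul, mul_pow, mul_comm]
    refine mul_le_mul (pow_le_pow_left₀ (norm_nonneg _) h2 2) ?_ (by positivity) (by positivity)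
    -- the monomial
    have hz : ∀ {a : ℝ} (_ : 0 < a) (_ : a ≤ 1) {m : ℕ} {n : ℤ}, (k : ℤ) * n ≤ m →
        (a ^ m) ^ 2 ≤ (a ^ (2 * n)) ^ k := by
      intro a ha ha1 m n hmn
      rw [← pow_mul, ← zpow_natCast (a ^ (2 * n)) k, ← zpow_mul, ← zpow_natCast]
      refine zpow_le_zpow_right_of_le_one₀ ha ha1 ?_
      push_cast
      linarith
    unfold Frame.mo Bm
    rw [norm_mul, norm_pow, norm_pow, mul_pow, mul_pow]
    refine mul_le_mul (hz e1 hB.1 (hvn _)) ?_ (by positivity) (by positivity)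
    rcases h3 : F.e2 c with _ | i
    · simp [Fr_808.ex2]
    · have h4 : F.nu2 c = F.nu i := F.nu2_some c i h3
      rw [if_neg (by simp), h4]
      exact hz e2 hB.2 (hvn i)
  · refine ⟨0, le_rfl, ?_⟩
    rw [not_frequently] at hne
    have hcont : Tendsto (F.th c) (𝓝 p₀) (𝓝 0) := by
      have := (F.an c _ hp₀.1).continuousAt.tendsto
      rwa [F.th_SF hp₀] at this
    filter_upwards [hcont.eventually hne, F.onV' hf.an hp₀] with p h1 h2 _ _ _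
    have h3 : g (F.th c p) = 0 := by
      by_contra h
      exact h1 ⟨h2, h⟩
    rw [h3, norm_zero, zero_mul]
    norm_num

/-- **inequality (ii) near a point of the special fibre** -/
theorem cii_near (hf : Iso f) {F : Frame f} {n : ℕ} {e : Fin n → ℕ × (E3 → ℂ)}
    (he : ∀ i, Good (e i)) (hW : ∀ c, Works T F c (range e) (F.SF c)) {k : ℕ} (hk : 2 ≤ k)
    {g h : E3 → ℂ} (hg : AnalyticAt ℂ g 0) (hh : AnalyticAt ℂ h 0)
    (hJ : ∀ p : ℝ, 1 ≤ p → p < k → InJ p f g ∧ InJ p f h) {c : F.K} {p₀ : ℂ × ℂ}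
    (hp₀ : p₀ ∈ F.SF c) : ∃ C : ℝ, ∀ᶠ p in 𝓝 p₀, p ∈ Fr_808.BD → p ∉ F.SF c →
      (‖g (F.th c p)‖ ^ 2 + ‖h (F.th c p)‖ ^ 2) ^ (1 / (k : ℝ)) ≤
        C * J2 f (ql T e) sl (F.th c p) := by
  obtain ⟨y, hy⟩ := F.exists_P
  obtain ⟨C₁, hC₁, h1⟩ := ord_bd hf hy hk hg (fun p a b => (hJ p a b).1) hp₀
  obtain ⟨C₂, hC₂, h2⟩ := ord_bd hf hy hk hh (fun p a b => (hJ p a b).2) hp₀
  obtain ⟨κ, hκ, h3⟩ := hW c p₀ hp₀
  have hS : Sys f (ql T e) sl := sys_ql he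
  have hcont : ContinuousAt (F.th c) p₀ := (F.an c _ hp₀.1).continuousAt
  have hth0 := F.th_SF hp₀
  have hto : ∀ {P : E3 → Prop}, (∀ᶠ x in 𝓝 (0 : E3), P x) → ∀ᶠ p in 𝓝 p₀, P (F.th c p) := by
    intro P hP
    rw [← hth0] at hP
    exact hcont.eventually hP
  have hkpos : 0 < k := by omega
  have hk0 : (0 : ℝ) ≤ 1 / (k : ℝ) := by positivity
  set D : ℝ := (C₁ + C₂) ^ (1 / (k : ℝ)) * (2 / κ) with hD
  refine ⟨D, ?_⟩
  have hmain : ∀ᶠ p in 𝓝 p₀, p.1 ≠ 0 → p.2 ≠ 0 → p ∈ Fr_808.BD →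
      (‖g (F.th c p)‖ ^ 2 + ‖h (F.th c p)‖ ^ 2) ^ (1 / (k : ℝ)) ≤
        D * J2 f (ql T e) sl (F.th c p) := by
    filter_upwards [h1, h2, h3, hto (sys_pos hS)] with p a1 a2 a3 a4 hp1 hp2 hB
    have b1 := a1 hB hp1 hp2
    have b2 := a2 hB hp1 hp2
    obtain ⟨a, ⟨i, rfl⟩, b, ⟨i', rfl⟩, b3⟩ := a3 hp1 hp2
    have hne : F.th c p ≠ 0 := by
      refine F.th_ne hB fun hS' => ?_
      rcases hS'.2 with h | h
      · exact hp1 h
      · exact hp2 h.2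
    have hs := a4 hne (F.onV c p hB)
    have b4 := J2_ge_Tm (f := f) e hs i i'
    have hBm := Bm_pos F c hp1 hp2
    have b5 : (‖g (F.th c p)‖ ^ 2 + ‖h (F.th c p)‖ ^ 2) ^ (1 / (k : ℝ)) ≤
        (C₁ + C₂) ^ (1 / (k : ℝ)) * Bm F c p := by
      calc (‖g (F.th c p)‖ ^ 2 + ‖h (F.th c p)‖ ^ 2) ^ (1 / (k : ℝ))
          ≤ ((C₁ + C₂) * Bm F c p ^ k) ^ (1 / (k : ℝ)) := by
            refine Real.rpow_le_rpow (by positivity) ?_ hk0
            rw [add_mul]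
            exact add_le_add b1 b2
        _ = _ := by
            rw [Real.mul_rpow (by positivity) (by positivity)]
            congr 1
            rw [one_div]
            exact Real.pow_rpow_inv_natCast hBm.le hkpos.ne'
    have b6 : Bm F c p ≤ 2 / κ * J2 f (ql T e) sl (F.th c p) := by
      have : κ * Bm F c p ≤ 2 * J2 f (ql T e) sl (F.th c p) := by linarith
      rw [div_mul_eq_mul_div, le_div_iff₀ hκ]
      linarith
    have hC0 : 0 ≤ (C₁ + C₂) ^ (1 / (k : ℝ)) := Real.rpow_nonneg (by positivity) _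
    calc _ ≤ (C₁ + C₂) ^ (1 / (k : ℝ)) * Bm F c p := b5
      _ ≤ (C₁ + C₂) ^ (1 / (k : ℝ)) * (2 / κ * J2 f (ql T e) sl (F.th c p)) :=
          mul_le_mul_of_nonneg_left b6 hC0
      _ = _ := by rw [hD]; ring
  filter_upwards [hmain, hmain.eventually_nhds, (F.an c _ hp₀.1).eventually_analyticAt,
    hto hf.an.eventually_analyticAt, hto hg.eventually_analyticAt, hto hh.eventually_analyticAt,
    hto (Filter.eventually_all.2 fun l => (hS.an l).eventually_analyticAt),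
    hto (sys_pos hS)] with p h1 h1' h2 h3 h4 h5 h6 h7 hB hSF
  obtain ⟨hp1, -⟩ := F.off hB hSF
  by_cases hp2 : p.2 ≠ 0
  · exact h1 hp1 hp2 hB
  · -- by continuity
    have hp2' : p.2 = 0 := not_not.1 hp2
    have hs := h7 (F.th_ne hB hSF) (F.onV c p hB)
    have hc1 : ContinuousAt (fun p => (‖g (F.th c p)‖ ^ 2 + ‖h (F.th c p)‖ ^ 2) ^
        (1 / (k : ℝ))) p := by
      refine ContinuousAt.rpow_const (ContinuousAt.add ?_ ?_) (Or.inr hk0)
      · exact (ContinuousAt.comp (g := g) (f := F.th c) h4.continuousAt h2.continuousAt).norm.pow 2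
      · exact (ContinuousAt.comp (g := h) (f := F.th c) h5.continuousAt h2.continuousAt).norm.pow 2
    have hc2 : ContinuousAt (fun p => D * J2 f (ql T e) sl (F.th c p)) p :=
      continuousAt_const.mul (ContinuousAt.comp (g := J2 f (ql T e) sl) (f := F.th c)
        (J2_cont h3 h6 hs) h2.continuousAt)
    have hto' : Tendsto (fun t : ℝ => (p.1, (t : ℂ))) (𝓝[>] 0) (𝓝 p) := by
      have h8 : ContinuousAt (fun t : ℝ => (p.1, (t : ℂ))) 0 := by fun_prop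
      have h9 : (p.1, ((0 : ℝ) : ℂ)) = p := Prod.ext rfl (by simp [hp2'])
      have h10 := h8.tendsto
      simp only [h9] at h10
      exact h10.mono_left nhdsWithin_le_nhds
    refine le_of_tendsto_of_tendsto (hc1.tendsto.comp hto') (hc2.tendsto.comp hto') ?_
    have h8 : ∀ᶠ t : ℝ in 𝓝[>] 0, t < 1 :=
      Filter.Eventually.filter_mono nhdsWithin_le_nhds (eventually_lt_nhds one_pos)
    filter_upwards [hto'.eventually h1', h8, self_mem_nhdsWithin] with t h9 h10 h11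
    have h11' : (0 : ℝ) < t := h11
    refine h9 hp1 (by simpa using h11'.ne') ⟨hB.1, ?_⟩
    simp only [Complex.norm_real, Real.norm_eq_abs, abs_of_pos h11']
    exact h10.le

/-- **inequality (ii)** -/
theorem cii_of (hf : Iso f) {F : Frame f} {n : ℕ} {e : Fin n → ℕ × (E3 → ℂ)}
    (he : ∀ i, Good (e i)) (hW : ∀ c, Works T F c (range e) (F.SF c)) {k : ℕ} (hk : 2 ≤ k)
    {g h : E3 → ℂ} (hg : AnalyticAt ℂ g 0) (hh : AnalyticAt ℂ h 0)
    (hJ : ∀ p : ℝ, 1 ≤ p → p < k → InJ p f g ∧ InJ p f h) : CII f g h k (ql T e) sl := by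
  obtain ⟨C, hC⟩ := F.glob
    (fun C x => (‖g x‖ ^ 2 + ‖h x‖ ^ 2) ^ (1 / (k : ℝ)) ≤ C * J2 f (ql T e) sl x)
    (fun C C' x hCC h => h.trans (mul_le_mul_of_nonneg_right hCC (J2_nonneg _ _ _ _)))
    (fun c p₀ hp => cii_near hf he hW hk hg hh hJ hp)
  obtain ⟨r, hr, hball⟩ := Metric.eventually_nhds_iff_ball.1 hC
  have hD : 0 < max C 1 := lt_of_lt_of_le one_pos (le_max_right _ _)
  refine ⟨(max C 1)⁻¹, r, inv_pos.2 hD, hr, fun x hx hfx hx0 => ?_⟩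
  have h1 := hball x (by simpa using hx) hx0 hfx
  rw [inv_mul_le_iff₀ hD]
  exact h1.trans (mul_le_mul_of_nonneg_right (le_max_left _ _) (J2_nonneg _ _ _ _))

/-- **C-LOG from a frame** -/
theorem clog_frame (hf : Iso f) (hm : 0 < mstar f) (hG : GalPt T) (F : Frame f) (hb : F.BPF)
    (hCR : CR T F) : ∃ (L : ℕ) (q : Fin L → E3 → ℂ) (s : Fin L → ℕ), Sys f q s ∧
    (∀ (k : ℕ) (g h : E3 → ℂ), 2 ≤ k → AnalyticAt ℂ g 0 → AnalyticAt ℂ h 0 →
      (∀ p : ℝ, 1 ≤ p → p < k → InJ p f g ∧ InJ p f h) → CII f g h k q s) ∧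
    ∃ (k : ℕ) (g h : E3 → ℂ), XF_157.Exact f k g h ∧ JU f k g h ∧ CI f g h q s := by
  obtain ⟨Dp, hD⟩ := exists_DpD T hG
  obtain ⟨S, hSf, hSg, hSW⟩ := exists_S hf hD hCR
  obtain ⟨n, e, -, rfl⟩ := hSf.fin_param
  have he : ∀ i, Good (e i) := fun i => hSg _ ⟨i, rfl⟩
  exact ⟨n * 3, ql T e, sl, sys_ql he,
    fun k g h hk hg hh hJ => cii_of hf he hSW hk hg hh hJ,
    Fr_808.ci_of NV_790.nv hf hm F hb _ _ (sys_ql he)⟩

/-- frames with base point freeness, whose charts are scaled charts of `T`, exist -/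
def FrEx : Prop := ∀ f : E3 → ℂ, Iso f → 0 < mstar f →
  ∃ (T : TB f) (F : Frame f), GalPt T ∧ F.BPF ∧ CR T F

/-- **C-LOG** -/
theorem clog_of (h : FrEx) : CLogStmt := by
  intro f hf hm
  obtain ⟨T, F, hG, hb, hCR⟩ := h f hf hm
  exact clog_frame hf hm hG F hb hCR

end Crest.Agent.R257.CLog_68
end
end

-- ▼ part R257/FrBP9_808
section

/-!
R257 / FrBP9_808: the charts of `D.fr` are scaled charts of `T` (`CLog_68.CR`), and the last steps
of C-LOG: `CLogStmt` from `ExAll`.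
-/

set_option autoImplicit false
set_option linter.unusedSectionVars false

open Polynomial Set Filter Topology Metric
open Crest.AlgGeometry.Germ

noncomputable section

namespace Crest.Agent.R257.FrBP_808

open Crest.Agent.R257.Defs_219 Crest.Agent.R257.AJ387 Crest.Agent.R257.T387
open Crest.Agent.R257.BP_258 Crest.Agent.R257.FrmF_547
open Crest.Agent.R257.Gr1_157 Crest.Agent.R257.GrH_547
open Crest.Agent.R257.Fr_808 Crest.Agent.R257.Rot1_558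

variable {f : (Fin 3 → ℂ) → ℂ} {T : TB f}

section

variable {U : Tub T} {S : Sh T} {L : Lab U S} {nu : II U → ℤ} {n1 n2 : Ch T.m → Fin T.d → ℤ}

/-- the order of the residue form along the axis `{x' = 0}` of a top edge -/
theorem m2_top (hf : Iso f) (hJ : Jac L nu n1 n2) {c : Ch T.m} (hc : Ok S c) (j : Fin T.d)
    (hT : T.IsTop c) : m2 n1 n2 c j = -(T.N : ℤ) := by
  obtain ⟨V, hV, hV0, h⟩ := jac_thS hf hJ hc j
  have h1 := TB.thS_top (S.pos c) (S.sheets c hc.1) hc.1 j hT hV hV0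
    (fun p hp h1 h2 => (h p hp h1 h2).2)
  omega

variable [Fintype (II U)]

/-- **the charts of the frame are scaled charts of `T`** -/
theorem FrIn.cr (D : FrIn L nu n1 n2) : CLog_68.CR T D.fr := by
  intro a
  refine ⟨D.ch a, 2 * S.r (D.ch a), S.r (D.ch a), S.ζ (D.ch a), D.sh a, (D.okK a).1,
    D.sheetsK a, S.pos _, by have := S.pos (D.ch a); linarith, fun p => rfl, ?_, ?_⟩
  · show D.e2 a = none ↔ _
    rw [D.e2_none_iff, l2_none_iff (D.okK a)]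
  · intro hT
    exact (m2_top D.hf D.jac (D.okK a) (D.sh a) hT).le

end

/-- what is still wanted: the four existence statements for the frames `D.fr` -/
def ExAllStmt : Prop := ∀ (f : E3 → ℂ) (_ : Iso f) (_ : 0 < mstar f) (T : TB f) (hC : Clo T)
  (hG : GalPt T) (S : Sh T) (L : Lab (Tb_941.tub T hC) S) (nu : II (Tb_941.tub T hC) → ℤ)
  (n1 n2 : Ch T.m → Fin T.d → ℤ), (∀ c, T.Valid c → T.MonoC c (S.r c)) →
  ∀ D : FrIn L nu n1 n2, ExAll D hG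

/-- frames with base point freeness exist -/
theorem frEx_of (h : ExAllStmt) : CLog_68.FrEx := by
  intro f hf hm
  obtain ⟨T, hC⟩ := exists_clo hf
  obtain ⟨S, L, nu, n1, n2, -, hM, -, ⟨D⟩⟩ := exists_E hf hC (fun _ => 1) (fun _ => one_pos)
  exact ⟨T, D.fr, Vt1_558.galPt hC, bpf_fr D (h f hf hm T hC (Vt1_558.galPt hC) S L nu n1 n2 hM D),
    D.cr⟩

/-- **C-LOG** -/
theorem clog_of_exAll (h : ExAllStmt) : CLog_68.CLogStmt := CLog_68.clog_of (frEx_of h)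

end Crest.Agent.R257.FrBP_808
end
end

-- ▼ part R257/ExH_82

/-!
# Row 257 (S0395), C-EXT (helper82), (g6): `ExN` and `ExT` of the frame `D.fr` from the statements at the
level of `BPDefs_258`

* `lo_of_lov`, `ex_of_exv` : orders in the vertex charts ⟹ `Lo`, `Ex` of the frame;
* `exN_of : ExNBPStmt ⟹ ExN D.fr (GG D hG) (Dv T) (Th)`, `exT_of : ExTBPStmt ⟹ ExT D.fr (GG D hG) (Th)`,
  `Th i := ThE hG (iU i)`.
-/

set_option autoImplicit false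
set_option linter.unusedSectionVars false

open Polynomial Set Filter Topology Metric
open Crest.AlgGeometry.Germ Crest.Agent.R257.AJ387 Crest.Agent.R257.T387
open Crest.Agent.R257.Defs_219 Crest.Agent.R257.Gr1_157
open Crest.Agent.R257.BP_258 Crest.Agent.R257.Rot1_558
open Crest.Agent.R257.Tb_941 Crest.Agent.R257.Tb3_941
open Crest.Agent.R257.FrBP_808 Crest.Agent.R257.ExF_121 Crest.Agent.R257.Exf_843
open Crest.Agent.R257.KiD_121

noncomputable section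

namespace Crest.Agent.R257.ExH_82

variable {f : (Fin 3 → ℂ) → ℂ} {T : TB f} {U : Tub T} {S : Sh T}
variable {L : Lab U S} {nu : II U → ℤ} {n1 n2 : Ch T.m → Fin T.d → ℤ} [Fintype (II U)]
  (D : FrIn L nu n1 n2) (hG : GalPt T)

/-- a vertex chart of the frame with a given first label -/
theorem exists_chart (i : D.fr.I) : ∃ (c : Ch T.m) (j : Fin T.d) (a : D.fr.K), Ok S c ∧ IsV c ∧
    L.e1 c j = some (iU i) ∧ D.fr.e1 a = i ∧
    ∀ p, D.fr.th a p = T.th c (S.ζ c j) ((S.r c : ℂ) * p.1, (S.r c : ℂ) * p.2) := by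
  obtain ⟨c, hc, hV, j, hj⟩ := D.vert (iU i)
  refine ⟨c, j, D.mkK hc j (Or.inl hj) (iU_mem D i), D.ok c hc, hV, hj, ?_, fun p => ?_⟩
  · have h2 : l1 L c j = some (iU i) := by
      rw [l1_not (not_top_of_V hV)]
      exact hj
    have h3 := D.e1_of (a := D.mkK hc j (Or.inl hj) (iU_mem D i)) (E := iU i) h2
    exact Subtype.ext h3
  · show T.th c (S.ζ c j) (T.sg c (S.r c) p) = _
    rw [show T.sg c (S.r c) p = ((S.r c : ℂ) * p.1, (S.r c : ℂ) * p.2) from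
      if_neg (not_top_of_V hV)]

variable {D} in
/-- orders `> r` -/
theorem lo_of_lov {g : (Fin 3 → ℂ) → ℂ} {i : D.fr.I} {r : ℝ} (h : Lov L g (iU i) r) :
    Ex_121.Lo D.fr g i r := by
  obtain ⟨c, j, a, hc, hV, hj, ha, hth⟩ := exists_chart D i
  refine ⟨a, ha, ?_⟩
  have hr := S.pos c
  have hR : (S.r c : ℂ) ≠ 0 := by exact_mod_cast hr.ne'
  have h1 : ∀ᶠ z in 𝓝[≠] (0 : ℂ), ‖z‖ < 1 :=
    Filter.Eventually.filter_mono nhdsWithin_le_nhds
      (continuous_norm.continuousAt.eventually (gt_mem_nhds (by simp)))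
  refine h1.frequently.mono fun z hz => ?_
  obtain ⟨n, H, hn, hH, hev⟩ := h c hc hV j hj ((S.r c : ℂ) * z) (by
    rw [norm_mul, Complex.norm_real, Real.norm_of_nonneg hr.le]
    nlinarith)
  have hT : Continuous (fun p : ℂ × ℂ => (((S.r c : ℂ) * p.1, (S.r c : ℂ) * p.2) : ℂ × ℂ)) := by
    fun_prop
  have hT0 : Tendsto (fun p : ℂ × ℂ => (((S.r c : ℂ) * p.1, (S.r c : ℂ) * p.2) : ℂ × ℂ))
      (𝓝 ((0 : ℂ), z)) (𝓝 ((0 : ℂ), (S.r c : ℂ) * z)) := hT.tendsto' _ _ (by simp)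
  refine ⟨n, fun p => (S.r c : ℂ) ^ n * H ((S.r c : ℂ) * p.1, (S.r c : ℂ) * p.2), hn, ?_, ?_⟩
  · refine continuousAt_const.mul ?_
    refine ContinuousAt.comp (g := H) ?_ hT.continuousAt
    simpa using hH.continuousAt
  · filter_upwards [hT0.eventually hev] with p hp
    rw [hth, hp, mul_pow]
    ring

variable {D} in
/-- orders `= n` -/
theorem ex_of_exv {g : (Fin 3 → ℂ) → ℂ} {i : D.fr.I} {n : ℕ} (h : Exv L g (iU i) n) :
    Ex_121.Ex D.fr g i n := by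
  obtain ⟨c, j, a, hc, hV, hj, ha, hth⟩ := exists_chart D i
  refine ⟨a, ha, ?_⟩
  have hr := S.pos c
  have hR : (S.r c : ℂ) ≠ 0 := by exact_mod_cast hr.ne'
  obtain ⟨H, hH, hev, hne⟩ := h c hc hV j hj 0 (by simpa using hr)
  have hT : Continuous (fun p : ℂ × ℂ => (((S.r c : ℂ) * p.1, (S.r c : ℂ) * p.2) : ℂ × ℂ)) := by
    fun_prop
  -- zeros of `H (0, ·)` are isolated
  have hHa : AnalyticAt ℂ (fun w : ℂ => H (0, w)) 0 :=
    AnalyticAt.comp (g := H) (f := fun w : ℂ => ((0 : ℂ), w)) hH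
      (analyticAt_const.prod analyticAt_id)
  have hz : ∀ᶠ w in 𝓝[≠] (0 : ℂ), H (0, w) ≠ 0 := by
    rcases hHa.eventually_eq_zero_or_eventually_ne_zero with h0 | h0
    · exact absurd (h0.mono fun w hw h1 => h1 hw) hne
    · exact h0
  have hs1 : Tendsto (fun z : ℂ => (S.r c : ℂ) * z) (𝓝[≠] 0) (𝓝[≠] 0) := by
    refine tendsto_nhdsWithin_iff.2 ⟨?_, ?_⟩
    · have : Continuous fun z : ℂ => (S.r c : ℂ) * z := by fun_prop
      exact (this.tendsto' _ _ (mul_zero _)).mono_left nhdsWithin_le_nhds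
    · filter_upwards [self_mem_nhdsWithin] with z hz
      exact mul_ne_zero hR hz
  have hs2 : Tendsto (fun z : ℂ => ((0 : ℂ), (S.r c : ℂ) * z)) (𝓝[≠] 0)
      (𝓝 ((0 : ℂ), (0 : ℂ))) := by
    have : Continuous fun z : ℂ => ((0 : ℂ), (S.r c : ℂ) * z) := by fun_prop
    exact (this.tendsto' _ _ (by simp)).mono_left nhdsWithin_le_nhds
  have hall : ∀ᶠ z in 𝓝[≠] (0 : ℂ), H (0, (S.r c : ℂ) * z) ≠ 0 ∧
      AnalyticAt ℂ H (0, (S.r c : ℂ) * z) ∧ ∀ᶠ p in 𝓝 ((0 : ℂ), (S.r c : ℂ) * z),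
        g (T.th c (S.ζ c j) p) = p.1 ^ n * H p := by
    filter_upwards [hs1.eventually hz, hs2.eventually hH.eventually_analyticAt,
      hs2.eventually hev.eventually_nhds] with z a1 a2 a3 using ⟨a1, a2, a3⟩
  refine hall.frequently.mono fun z hz => ?_
  obtain ⟨a1, a2, a3⟩ := hz
  have hT0 : Tendsto (fun p : ℂ × ℂ => (((S.r c : ℂ) * p.1, (S.r c : ℂ) * p.2) : ℂ × ℂ))
      (𝓝 ((0 : ℂ), z)) (𝓝 ((0 : ℂ), (S.r c : ℂ) * z)) := hT.tendsto' _ _ (by simp)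
  refine ⟨fun p => (S.r c : ℂ) ^ n * H ((S.r c : ℂ) * p.1, (S.r c : ℂ) * p.2), ?_, ?_, ?_⟩
  · refine continuousAt_const.mul ?_
    refine ContinuousAt.comp (g := H) ?_ hT.continuousAt
    simpa using a2.continuousAt
  · simpa using ⟨fun h => absurd h hr.ne', a1⟩
  · filter_upwards [hT0.eventually a3] with p hp
    rw [hth, hp, mul_pow]
    ring

/-- `Th` at the level of the frame -/
def Th (i : D.fr.I) : Prop := ThE hG (iU i)

theorem inv_zero : Ex_121.Inv (GG D hG) (fun _ : D.fr.I => (0 : ℝ)) := fun _ _ _ => rfl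

theorem ex_zero (E : II U) : ex D hG (fun _ => (0 : ℝ)) (fun _ => 0) E = 0 := by
  refine ex_all (D := D) (hG := hG) (P := fun E => ex D hG (fun _ => (0 : ℝ)) (fun _ => 0) E = 0)
    (fun γ E h => ?_) (fun i => ?_) (fun E h => ?_) E
  · rwa [ex_inv (inv_zero D hG) (fun _ _ => rfl)] at h
  · exact ex_coe (inv_zero D hG) i
  · exact ex_not h

/-- **`ExN` of the frame** -/
theorem exN_of (h : ExNBPStmt hG L nu) : Ex_121.ExN D.fr (GG D hG) (Dv T) (Th D hG) := by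
  intro i₀ hTh m y hd hm hy hdg hyo hyn hdy
  have hdv : 0 < Dv T :=
    Nat.mul_pos T.N_pos (Nat.mul_pos T.M_pos (Nat.factorial_pos _))
  obtain ⟨mt, yt, a1, a2, a3, a4, a5, a6, a7⟩ := exists_ext D hG hdv hd hm hy
  have hself : i₀ ∈ Ex_121.orb (GG D hG) i₀ := ⟨1, (GG D hG).one_mem, rfl⟩
  have hdgt : ∀ E, dg (Mx L) yt E < 0 := fun E => by
    have h1 := a7 (fun _ => 0) (inv_zero D hG) (fun j => by simpa using hdy j) E
    rw [ex_zero] at h1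
    simpa using h1
  have hmt : dg (Mx L) (fun E => (mt E : ℝ)) (iU i₀) = 0 := by
    have h1 := D.fr_dg (fun E => (mt E : ℝ)) i₀
    have h2 : (fun j : D.I0 => (mt j : ℝ)) = fun j : D.fr.I => (m j : ℝ) := by
      funext j
      have := a4 j
      exact_mod_cast this
    rw [h2] at h1
    rw [← hdg i₀ hself]
    exact h1.symm
  have hnu : ∀ γ E, nu (piH hG γ E) = nu E := fun γ E => nu_piH D hG γ E
  obtain ⟨g, hg, h1, h2⟩ := h (iU i₀) hTh mt yt a1 a2 a3 hmt (by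
    rw [a4, a5]; exact hyo i₀ hself) (fun E hE => by
    by_cases hex : ∃ γ, piH hG γ E ∈ D.I0
    · obtain ⟨γ, hγ⟩ := hex
      set j : D.fr.I := ⟨piH hG γ E, hγ⟩ with hj
      have hjU : iU j = piH hG γ E := rfl
      have hnot : j ∉ Ex_121.orb (GG D hG) i₀ := by
        rw [mem_orb_iff]
        rintro ⟨δ, hδ⟩
        refine hE (γ⁻¹ * δ) ?_
        rw [map_mul, Equiv.Perm.mul_apply, hδ, hjU, inv_self]
      have h3 := hyn j hnot
      rw [← a3 γ E, ← a2 γ E, ← hnu γ E, ← hjU, a4, a5]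
      exact h3
    · exact a6 E hex) hdgt
  refine ⟨g, hg, fun j hj => ?_, fun j hj => ?_⟩
  · have h3 := h1 (iU j) (fun γ hγ => hj ((mem_orb_iff D hG i₀ j).2 ⟨γ, hγ⟩))
    rw [a5] at h3
    exact lo_of_lov h3
  · obtain ⟨γ, hγ⟩ := (mem_orb_iff D hG i₀ j).1 hj
    have h3 := h2 γ
    rw [hγ, ← a2 γ (iU i₀), hγ, a4] at h3
    exact ex_of_exv h3

/-- **`ExT` of the frame** -/
theorem exT_of (h : ExTBPStmt hG L nu) : Ex_121.ExT D.fr (GG D hG) (Th D hG) := by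
  intro i₀ hTh n hn
  obtain ⟨ε, hε, hε'⟩ := h (iU i₀) hTh n hn
  refine ⟨ε, hε, fun y hy hdy hlt => ?_⟩
  obtain ⟨mt, yt, a1, a2, a3, a4, a5, a6, a7⟩ := exists_ext D hG one_pos (m := fun _ => 0)
    (fun _ => one_dvd _) (fun _ _ _ => rfl) hy
  have hdgt : ∀ E, dg (Mx L) yt E < 0 := fun E => by
    have h1 := a7 (fun _ => 0) (inv_zero D hG) (fun j => by simpa using hdy j) E
    rw [ex_zero] at h1
    simpa using h1
  obtain ⟨g, hg, h1, h2⟩ := hε' yt a3 hdgt (fun E hE => by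
    have hmem : E ∈ D.I0 := by
      rcases hE with rfl | hE
      · exact iU_mem D i₀
      · exact cls_step (iU_mem D i₀) hE
    have h3 := a5 ⟨E, hmem⟩
    have h4 : iU (D := D) ⟨E, hmem⟩ = E := rfl
    rw [h4] at h3
    rw [h3]
    exact hlt _)
  refine ⟨g, hg, fun j hj => ?_, fun j hj => ?_⟩
  · have h3 := h1 (iU j) (fun γ hγ => hj ((mem_orb_iff D hG i₀ j).2 ⟨γ, hγ⟩))
    rw [a5] at h3
    exact lo_of_lov h3
  · obtain ⟨γ, hγ⟩ := (mem_orb_iff D hG i₀ j).1 hj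
    have h3 := h2 γ
    rw [hγ] at h3
    exact ex_of_exv h3

end Crest.Agent.R257.ExH_82
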