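import Crest.Agent.R257.BPDefs_258
import Crest.Agent.R257.FrmB_547
import Crest.Agent.R257.OrdT7_578
import Crest.Agent.R257.Vx_331

-- ▼ part R257/Br_578
section

/-!
# Row 257, part C, the bridge (BR) (helper578): the curve `XV U v` against the points of the special
fibre `X T i k`

`Rel U v i q x`  : the point `x` (a germ at `s = 0`) retracts to `q`;
`rel_cl`         : `Rel` matches connected components of `XV U v` with `Cmp T i k`;
`cmpEquiv`       : `ConnectedComponents (XV U v) ≃ Cmp T i v.1`;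
`att_ret`        : a sheet attached to `x` retracts to the component of `x`.
-/

set_option autoImplicit false
set_option linter.unusedSectionVars false

open Polynomial Set Filter Topology Metric
open Crest.AlgGeometry.Germ Crest.Agent.R257.AJ387 Crest.Agent.R257.T387

noncomputable section

namespace Crest.Agent.R257.Br_578

open Crest.Agent.R257.BP_258
open Crest.Agent.R257.Frm_547 (Z2 Sh1 Step Cmp cl Att bm)

/-- locally constant functions on preconnected sets are constant -/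
theorem const_of_loc {α : Type*} {K : Set ℂ} (hK : IsPreconnected K) {F : ℂ → α}
    (h : ∀ z ∈ K, ∀ᶠ z' in 𝓝[K] z, F z' = F z) {a b : ℂ} (ha : a ∈ K) (hb : b ∈ K) : F a = F b := by
  let _ : TopologicalSpace α := ⊥
  have : DiscreteTopology α := ⟨rfl⟩
  refine hK.constant (f := F) ?_ ha hb
  intro z hz
  refine ContinuousWithinAt.congr_of_eventuallyEq (f := fun _ => F z)
    continuousWithinAt_const ?_ rfl
  exact h z hz

variable {f : (Fin 3 → ℂ) → ℂ} {T : TB f} (U : Tub T)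

/-- the point `x` retracts to `q` -/
def Rel (v : Vtx) (i : Fin T.m) (q : XV U v) (x : Frm_547.X T i v.1) : Prop :=
  x.1.1 = q.1.1 ∧ ∃ γ : ℂ × ℂ → ℂ, x.1.2 = (γ : Z2) ∧
    ∀ᶠ s in 𝓝[≠] (0 : ℂ), IsRet U v (pt (γ (s, 0)) (s, yv T v (s, q.1.1))) q

/-- the standing hypotheses -/
structure Hyp (v : Vtx) (i : Fin T.m) : Prop where
  hv : v ∈ Vs T
  hk : v.1 ∈ T.lev i
  hi : ∀ s ∈ ball (0 : ℂ) T.ρ, T.φ i s = v.2.eval s
  hsp : ∀ w, w ∈ sp T v ↔ w ∈ T.Sp i v.1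
  hS : T.SheetsStmt
  hR : RetStmt U

variable {U} {v : Vtx} {i : Fin T.m}

theorem yv_bm (h : Hyp U v i) {s w : ℂ} (hs : ‖s‖ ^ T.M < T.ρ) :
    bm T i v.1 (s, w) = (s, yv T v (s, w)) := by
  have h1 := h.hi (s ^ T.M) (by rwa [mem_ball, dist_zero_right, norm_pow])
  simp only [bm, yv]
  rw [h1]

/-- the local data of `RetStmt` at `w₀` -/
structure Loc (U : Tub T) (v : Vtx) (w₀ : ℂ) (r R : ℝ) (Z : Fin T.d → ℂ × ℂ → ℂ)
    (σ : Fin T.d → ℂ → XV U v) : Prop where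
  r_pos : 0 < r
  R_pos : 0 < R
  nsp : ∀ w ∈ ball w₀ r, w ∉ sp T v ∧ U.ρ v w < R
  an : ∀ j, AnalyticOnNhd ℂ (Z j) (ball 0 R ×ˢ ball w₀ r)
  split : ∀ q ∈ ball (0 : ℂ) R ×ˢ ball w₀ r, (q.1, yv T v q) ∈ BD 1 T.R ∧ ‖q.1‖ ^ T.M < T.ρ ∧
    T.Q (q.1, yv T v q) = ∏ j, (X - C (Z j q))
  inj : ∀ q ∈ ball (0 : ℂ) R ×ˢ ball w₀ r, q.1 ≠ 0 → Function.Injective fun j => Z j q
  cont : ∀ j, ContinuousOn (σ j) (ball w₀ r)
  pV : ∀ j, ∀ w ∈ ball w₀ r, pV U v (σ j w) = w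
  σinj : ∀ w ∈ ball w₀ r, Function.Injective fun j => σ j w
  surj : ∀ q, BP_258.pV U v q ∈ ball w₀ r → ∃ j, σ j (BP_258.pV U v q) = q
  ret : ∀ j, ∀ w ∈ ball w₀ r, ∀ s, s ≠ 0 → ‖s‖ < U.ρ v w →
    IsRet U v (pt (Z j (s, w)) (s, yv T v (s, w))) (σ j w)

theorem exists_loc (h : Hyp U v i) {w₀ : ℂ} (hw : w₀ ∉ sp T v) :
    ∃ r R Z σ, Loc U v w₀ r R Z σ := by
  obtain ⟨r, hr, R, hR, Z, σ, h1, h2, h3, h4, h5, h6, h7, h8, h9⟩ := (h.hR v h.hv).2 w₀ hw
  exact ⟨r, R, Z, σ, hr, hR, h1, h2, h3, h4, h5, h6, h7, h8, h9⟩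

variable {w₀ : ℂ} {r R : ℝ} {Z : Fin T.d → ℂ × ℂ → ℂ} {σ : Fin T.d → ℂ → XV U v}

theorem Loc.sh1 (h : Hyp U v i) (L : Loc U v w₀ r R Z σ) (j : Fin T.d) {w : ℂ}
    (hw : w ∈ ball w₀ r) :
    Sh1 T i v.1 w (min R (r - dist w w₀)) (fun p => Z j (p.1, w + p.2)) := by
  have hw' : dist w w₀ < r := hw
  have hmem : ∀ p ∈ BD (min R (r - dist w w₀)) (min R (r - dist w w₀)),
      ((p.1, w + p.2) : ℂ × ℂ) ∈ ball (0 : ℂ) R ×ˢ ball w₀ r := by
    intro p hp
    refine ⟨?_, ?_⟩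
    · rw [mem_ball_zero_iff]
      exact hp.1.trans_le (min_le_left _ _)
    · show dist (w + p.2) w₀ < r
      have h1 : ‖p.2‖ < r - dist w w₀ := hp.2.trans_le (min_le_right _ _)
      have h2 : dist (w + p.2) w₀ ≤ dist w w₀ + ‖p.2‖ := by
        rw [dist_eq_norm, dist_eq_norm]
        calc ‖w + p.2 - w₀‖ = ‖(w - w₀) + p.2‖ := by ring_nf
          _ ≤ _ := norm_add_le _ _
      linarith
  have hmap : ∀ p : ℂ × ℂ, ‖p.1‖ ^ T.M < T.ρ →
      T.map (.vert i v.1 w) p = (p.1, yv T v (p.1, w + p.2)) := by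
    intro p hp
    rw [Frm_547.map_vert, yv_bm h hp]
  refine ⟨lt_min L.R_pos (by linarith), ?_, ?_, ?_, ?_⟩
  · intro β hβ
    rw [← h.hsp]
    refine (L.nsp _ ?_).1
    have := hmem (0, β) ⟨by rw [norm_zero]; exact lt_min L.R_pos (sub_pos.2 hw'), hβ⟩
    exact this.2
  · intro p hp
    obtain ⟨h1, h2, -⟩ := L.split _ (hmem p hp)
    rw [hmap p h2]
    exact ⟨h1, h2⟩
  · intro p hp
    exact AnalyticAt.comp (g := Z j) (f := fun p : ℂ × ℂ => (p.1, w + p.2)) (L.an j _ (hmem p hp))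
      (analyticAt_fst.prod (analyticAt_const.add analyticAt_snd))
  · intro p hp
    obtain ⟨h1, h2, h3⟩ := L.split _ (hmem p hp)
    rw [hmap p h2, h3, eval_prod]
    exact Finset.prod_eq_zero (Finset.mem_univ j) (by simp)

/-- the point of the sheet `j` over `w` -/
def Loc.zpt (h : Hyp U v i) (L : Loc U v w₀ r R Z σ) (j : Fin T.d) {w : ℂ}
    (hw : w ∈ ball w₀ r) : Frm_547.X T i v.1 := (L.sh1 h j hw).pt

theorem Loc.rel (h : Hyp U v i) (L : Loc U v w₀ r R Z σ) (j : Fin T.d) {w : ℂ}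
    (hw : w ∈ ball w₀ r) : Rel U v i (σ j w) (L.zpt h j hw) := by
  have h1 : (σ j w).1.1 = w := L.pV j w hw
  refine ⟨h1.symm, fun p => Z j (p.1, w + p.2), rfl, ?_⟩
  have h2 : 0 < U.ρ v w := U.pos v h.hv w (L.nsp w hw).1
  have h3 : ∀ᶠ s in 𝓝[≠] (0 : ℂ), ‖s‖ < U.ρ v w :=
    nhdsWithin_le_nhds (by
      have := ball_mem_nhds (0 : ℂ) h2
      filter_upwards [this] with s hs
      simpa using hs)
  filter_upwards [h3, self_mem_nhdsWithin] with s hs hs0
  rw [h1]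
  have := L.ret j w hw s hs0 hs
  simpa using this

/-- every point over the ball is on one of the sheets -/
theorem Loc.eq_zpt (h : Hyp U v i) (L : Loc U v w₀ r R Z σ) (x : Frm_547.X T i v.1)
    (hw : x.1.1 ∈ ball w₀ r) : ∃ j, x = L.zpt h j hw := by
  obtain ⟨hx1, r', ξ, hξ, hx2⟩ := x.2
  have hpos : 0 < min R (r - dist x.1.1 w₀) := (L.sh1 h ⟨0, T.d_pos⟩ hw).r_pos
  have hev : ∀ᶠ p in 𝓝 (0 : ℂ × ℂ), p ∈ BD r' r' ∧
      p ∈ BD (min R (r - dist x.1.1 w₀)) (min R (r - dist x.1.1 w₀)) :=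
    Filter.inter_mem (Frm_547.BD_nhds hξ.r_pos) (Frm_547.BD_nhds hpos)
  have h1 : ∀ᶠ p in 𝓝 (0 : ℂ × ℂ), ∏ j, (ξ p - Z j (p.1, x.1.1 + p.2)) = 0 := by
    filter_upwards [hev] with p hp
    have h2 := hξ.root p hp.1
    have h3 := (hξ.mem p hp.1).2
    have hmem : ((p.1, x.1.1 + p.2) : ℂ × ℂ) ∈ ball (0 : ℂ) R ×ˢ ball w₀ r := by
      refine ⟨?_, ?_⟩
      · rw [mem_ball_zero_iff]
        exact hp.2.1.trans_le (min_le_left _ _)
      · show dist (x.1.1 + p.2) w₀ < r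
        have h1 : ‖p.2‖ < r - dist x.1.1 w₀ := hp.2.2.trans_le (min_le_right _ _)
        have h2 : dist (x.1.1 + p.2) w₀ ≤ dist x.1.1 w₀ + ‖p.2‖ := by
          rw [dist_eq_norm, dist_eq_norm]
          calc ‖x.1.1 + p.2 - w₀‖ = ‖(x.1.1 - w₀) + p.2‖ := by ring_nf
            _ ≤ _ := norm_add_le _ _
        linarith
    obtain ⟨-, h4, h5⟩ := L.split _ hmem
    rw [Frm_547.map_vert, yv_bm h h4, h5, eval_prod] at h2
    simpa using h2
  obtain ⟨j, -, hj⟩ := Frm_547.prod_ev Finset.univ (fun j _ =>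
    (hξ.an 0 (Frm_547.zero_mem_BD hξ.r_pos)).sub
      ((L.sh1 h j hw).an 0 (Frm_547.zero_mem_BD (L.sh1 h j hw).r_pos))) h1
  refine ⟨j, Subtype.ext (Prod.ext rfl ?_)⟩
  rw [hx2]
  refine Germ.coe_eq.2 ?_
  filter_upwards [hj] with p hp using sub_eq_zero.1 hp

theorem rel_unique (h : Hyp U v i) {q q' : XV U v} {x : Frm_547.X T i v.1} (h1 : Rel U v i q x)
    (h2 : Rel U v i q' x) : q = q' := by
  obtain ⟨a1, γ, a2, a3⟩ := h1
  obtain ⟨b1, γ', b2, b3⟩ := h2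
  have h3 : γ =ᶠ[𝓝 (0 : ℂ × ℂ)] γ' := Germ.coe_eq.1 (a2.symm.trans b2)
  have h4 : ∀ᶠ s in 𝓝[≠] (0 : ℂ), γ (s, 0) = γ' (s, 0) := by
    have h5 : Tendsto (fun s : ℂ => ((s, 0) : ℂ × ℂ)) (𝓝 0) (𝓝 0) :=
      (by fun_prop : Continuous fun s : ℂ => ((s, 0) : ℂ × ℂ)).tendsto' _ _ rfl
    exact (h5.eventually h3).filter_mono nhdsWithin_le_nhds
  obtain ⟨s, c1, c2, c3⟩ := (a3.and (b3.and h4)).exists
  rw [← b1, a1, ← c3] at c2
  exact ((h.hR v h.hv).1 _ c1.1).unique c1 c2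

theorem rel_exists (h : Hyp U v i) (x : Frm_547.X T i v.1) : ∃ q, Rel U v i q x := by
  have hw : x.1.1 ∉ sp T v := by
    rw [h.hsp]
    exact x.2.1
  obtain ⟨r, R, Z, σ, L⟩ := exists_loc h hw
  have hm : x.1.1 ∈ ball x.1.1 r := mem_ball_self L.r_pos
  obtain ⟨j, hj⟩ := L.eq_zpt h x hm
  exact ⟨σ j x.1.1, by
    have := L.rel h j hm
    rwa [← hj] at this⟩

theorem rel_exists' (h : Hyp U v i) (q : XV U v) : ∃ x, Rel U v i q x := by
  have hw : q.1.1 ∉ sp T v := q.2.2.1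
  obtain ⟨r, R, Z, σ, L⟩ := exists_loc h hw
  have hm : q.1.1 ∈ ball q.1.1 r := mem_ball_self L.r_pos
  obtain ⟨j, hj⟩ := L.surj q hm
  refine ⟨L.zpt h j hm, ?_⟩
  have := L.rel h j hm
  have h2 : σ j q.1.1 = q := hj
  rwa [h2] at this

theorem rel_unique' (h : Hyp U v i) {q : XV U v} {x x' : Frm_547.X T i v.1} (h1 : Rel U v i q x)
    (h2 : Rel U v i q x') : x = x' := by
  have hw : q.1.1 ∉ sp T v := q.2.2.1
  obtain ⟨r, R, Z, σ, L⟩ := exists_loc h hw
  have hm : q.1.1 ∈ ball q.1.1 r := mem_ball_self L.r_pos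
  have hx : x.1.1 ∈ ball q.1.1 r := by rw [h1.1]; exact hm
  have hx' : x'.1.1 ∈ ball q.1.1 r := by rw [h2.1]; exact hm
  obtain ⟨j, hj⟩ := L.eq_zpt h x hx
  obtain ⟨j', hj'⟩ := L.eq_zpt h x' hx'
  have e1 : Rel U v i (σ j x.1.1) x := by
    have := L.rel h j hx
    rwa [← hj] at this
  have e2 : Rel U v i (σ j' x'.1.1) x' := by
    have := L.rel h j' hx'
    rwa [← hj'] at this
  have e3 := rel_unique h h1 e1
  have e4 := rel_unique h h2 e2
  have hxx : x.1.1 = x'.1.1 := h1.1.trans h2.1.symm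
  rw [← hxx] at e4
  have e5 : j = j' := L.σinj _ hx (e3.symm.trans e4)
  subst e5
  rw [hj, hj']
  refine Subtype.ext (Prod.ext hxx ?_)
  refine Germ.coe_eq.2 (Eventually.of_forall fun p => ?_)
  show Z j (p.1, x.1.1 + p.2) = Z j (p.1, x'.1.1 + p.2)
  rw [hxx]

/-- sheets over a disc stay in one component -/
theorem Loc.conn (L : Loc U v w₀ r R Z σ) (j : Fin T.d) {w w' : ℂ} (hw : w ∈ ball w₀ r)
    (hw' : w' ∈ ball w₀ r) :
    ((σ j w : XV U v) : ConnectedComponents (XV U v)) = (σ j w' : XV U v) := by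
  have h1 : IsPreconnected (σ j '' ball w₀ r) :=
    (convex_ball w₀ r).isPreconnected.image _ (L.cont j)
  rw [ConnectedComponents.coe_eq_coe']
  exact h1.subset_connectedComponent (mem_image_of_mem _ hw') (mem_image_of_mem _ hw)

/-- steps stay in one component -/
theorem rel_step (h : Hyp U v i) {x y : Frm_547.X T i v.1} (hxy : Step T i v.1 x y) {q q' : XV U v}
    (h1 : Rel U v i q x) (h2 : Rel U v i q' y) :
    (q : ConnectedComponents (XV U v)) = q' := by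
  classical
  obtain ⟨r', ζ, hζ, hxζ, β, hβ, hy1, hy2⟩ := hxy
  -- the points along the disc
  have hQ : ∀ b : ℂ, ∃ q : XV U v, ∀ hb : ‖b‖ < r', Rel U v i q (hζ.shift hb).pt := by
    intro b
    by_cases hb : ‖b‖ < r'
    · obtain ⟨q, hq⟩ := rel_exists h (hζ.shift hb).pt
      exact ⟨q, fun _ => hq⟩
    · exact ⟨q, fun hb' => absurd hb' hb⟩
  choose Qf hQf using hQ
  have key : ∀ b ∈ ball (0 : ℂ) r', ∀ᶠ b' in 𝓝[ball (0 : ℂ) r'] b,
      ((Qf b' : XV U v) : ConnectedComponents (XV U v)) = (Qf b : XV U v) := by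
    intro b hb
    have hb' : ‖b‖ < r' := by simpa using hb
    have hw : x.1.1 + b ∉ sp T v := by
      rw [h.hsp]
      exact hζ.sp b hb'
    obtain ⟨r, R, Z, σ, L⟩ := exists_loc h hw
    have hm : (hζ.shift hb').pt.1.1 ∈ ball (x.1.1 + b) r := mem_ball_self L.r_pos
    obtain ⟨j, hj⟩ := L.eq_zpt h _ hm
    -- germs agree
    have hg : (fun p : ℂ × ℂ => ζ (p.1, p.2 + b)) =ᶠ[𝓝 0] fun p => Z j (p.1, x.1.1 + b + p.2) := by
      have := congrArg (fun y : Frm_547.X T i v.1 => y.1.2) hj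
      exact Germ.coe_eq.1 this
    have hg2 := hg.eventually_nhds
    have ht : Tendsto (fun b' : ℂ => ((0 : ℂ), b' - b)) (𝓝 b) (𝓝 0) := by
      have : Continuous fun b' : ℂ => ((0 : ℂ), b' - b) := by fun_prop
      exact this.tendsto' _ _ (by simp)
    have hball : ∀ᶠ b' in 𝓝 b, x.1.1 + b' ∈ ball (x.1.1 + b) r := by
      have : Continuous fun b' : ℂ => x.1.1 + b' := by fun_prop
      exact this.continuousAt.eventually (ball_mem_nhds _ L.r_pos)
    filter_upwards [self_mem_nhdsWithin, nhdsWithin_le_nhds (ht.eventually hg2),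
      nhdsWithin_le_nhds hball] with b' c1 c2 c3
    have c1' : ‖b'‖ < r' := by simpa using c1
    -- the point at `b'` is on the sheet `j`
    have hpt : (hζ.shift c1').pt = L.zpt h j c3 := by
      refine Subtype.ext (Prod.ext rfl ?_)
      refine Germ.coe_eq.2 ?_
      have ht2 : Tendsto (fun p : ℂ × ℂ => ((p.1, p.2 + (b' - b)) : ℂ × ℂ)) (𝓝 0)
          (𝓝 ((0 : ℂ), b' - b)) := by
        have : Continuous fun p : ℂ × ℂ => ((p.1, p.2 + (b' - b)) : ℂ × ℂ) := by fun_prop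
        exact this.tendsto' _ _ (by simp)
      filter_upwards [ht2.eventually c2] with p hp
      have e1 : p.2 + (b' - b) + b = p.2 + b' := by ring
      have e2 : x.1.1 + b + (p.2 + (b' - b)) = x.1.1 + b' + p.2 := by ring
      simp only [e1, e2] at hp
      exact hp
    have r1 : Qf b' = σ j (x.1.1 + b') := by
      refine rel_unique h (hQf b' c1') ?_
      rw [hpt]
      exact L.rel h j c3
    have r2 : Qf b = σ j (x.1.1 + b) := by
      refine rel_unique h (hQf b hb') ?_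
      rw [hj]
      exact L.rel h j hm
    rw [r1, r2]
    exact L.conn j c3 (mem_ball_self L.r_pos)
  have h0 : (0 : ℂ) ∈ ball (0 : ℂ) r' := mem_ball_self hζ.r_pos
  have hβm : β ∈ ball (0 : ℂ) r' := by simpa using hβ
  have hconst := const_of_loc (convex_ball (0 : ℂ) r').isPreconnected
    (F := fun b => ((Qf b : XV U v) : ConnectedComponents (XV U v))) key h0 hβm
  have e1 : Qf 0 = q := by
    refine rel_unique h (hQf 0 (by simpa using h0)) ?_
    have : (hζ.shift (by simpa using h0 : ‖(0 : ℂ)‖ < r')).pt = x := by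
      refine Subtype.ext (Prod.ext (add_zero _) ?_)
      rw [hxζ]
      refine Germ.coe_eq.2 (Eventually.of_forall fun p => ?_)
      simp
    rw [this]
    exact h1
  have e2 : Qf β = q' := by
    refine rel_unique h (hQf β hβ) ?_
    have : (hζ.shift hβ).pt = y := Subtype.ext (Prod.ext hy1.symm hy2.symm)
    rw [this]
    exact h2
  simp only [e1, e2] at hconst
  exact hconst

theorem rel_of_cl (h : Hyp U v i) {x y : Frm_547.X T i v.1} (hxy : cl T x = cl T y) {q q' : XV U v}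
    (h1 : Rel U v i q x) (h2 : Rel U v i q' y) :
    (q : ConnectedComponents (XV U v)) = q' := by
  choose F hF using rel_exists h
  have h3 : ∀ x y, Relation.EqvGen (Step T i v.1) x y →
      ((F x : XV U v) : ConnectedComponents (XV U v)) = (F y : XV U v) := by
    intro x y h4
    induction h4 with
    | rel x y h => exact rel_step ‹_› h (hF x) (hF y)
    | refl x => rfl
    | symm x y _ ih => exact ih.symm
    | trans x y z _ _ ih1 ih2 => exact ih1.trans ih2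
  rw [rel_unique h h1 (hF x), rel_unique h h2 (hF y)]
  exact h3 x y (Quot.eqvGen_exact hxy)

theorem t2_XV : T2Space (XV U v) := inferInstanceAs (T2Space (Subtype _))

/-- the class is locally constant on `XV` -/
theorem cl_loc (h : Hyp U v i) {F : XV U v → Frm_547.X T i v.1} (hF : ∀ q, Rel U v i q (F q))
    (q₀ : XV U v) : ∀ᶠ q in 𝓝 q₀, cl T (F q) = cl T (F q₀) := by
  have hw : q₀.1.1 ∉ sp T v := q₀.2.2.1
  obtain ⟨r, R, Z, σ, L⟩ := exists_loc h hw
  have hm : q₀.1.1 ∈ ball q₀.1.1 r := mem_ball_self L.r_pos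
  obtain ⟨j₀, hj₀⟩ := L.surj q₀ hm
  have hpc : Continuous (pV U v) := continuous_fst.comp continuous_subtype_val
  have hev1 : ∀ᶠ q in 𝓝 q₀, pV U v q ∈ ball q₀.1.1 r :=
    hpc.continuousAt.eventually (isOpen_ball.mem_nhds hm)
  have hev3 : ∀ᶠ q in 𝓝 q₀, pV U v q ∈ ball q₀.1.1 R :=
    hpc.continuousAt.eventually (isOpen_ball.mem_nhds (mem_ball_self L.R_pos))
  have hev2 : ∀ᶠ q in 𝓝 q₀, ∀ j, j ≠ j₀ → σ j (pV U v q) ≠ q := by
    rw [Filter.eventually_all]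
    intro j
    by_cases hj : j = j₀
    · exact Eventually.of_forall fun q h => absurd hj h
    · have h1 : Tendsto (fun q => σ j (pV U v q)) (𝓝 q₀) (𝓝 (σ j q₀.1.1)) := by
        have h2 : ContinuousAt (σ j) (pV U v q₀) :=
          (L.cont j).continuousAt (isOpen_ball.mem_nhds hm)
        exact (h2.comp hpc.continuousAt)
      have h3 : σ j q₀.1.1 ≠ q₀ := by
        intro h4
        exact hj (L.σinj _ hm (h4.trans hj₀.symm))
      have := t2_XV (U := U) (v := v)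
      have h5 := (h1.prodMk_nhds (tendsto_id (x := 𝓝 q₀))).eventually
        (isClosed_diagonal.isOpen_compl.mem_nhds (show (σ j q₀.1.1, q₀) ∉ diagonal _ from h3))
      filter_upwards [h5] with q hq _
      exact hq
  filter_upwards [hev1, hev2, hev3] with q hq1 hq2 hq3
  obtain ⟨j, hj⟩ := L.surj q hq1
  have hjj : j = j₀ := by
    by_contra hne
    exact hq2 j hne hj
  subst hjj
  have e1 : F q = L.zpt h j hq1 := by
    refine rel_unique' h (hF q) ?_
    have := L.rel h j hq1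
    rwa [hj] at this
  have e2 : F q₀ = L.zpt h j hm := by
    refine rel_unique' h (hF q₀) ?_
    have := L.rel h j hm
    have h6 : σ j q₀.1.1 = q₀ := hj₀
    rwa [h6] at this
  rw [e1, e2]
  -- the step
  symm
  refine Quot.sound ?_
  have hβ : ‖pV U v q - q₀.1.1‖ < min R (r - dist q₀.1.1 q₀.1.1) := by
    rw [dist_self, sub_zero]
    rw [mem_ball, dist_eq_norm] at hq1 hq3
    exact lt_min hq3 hq1
  refine ⟨_, _, L.sh1 h j hm, rfl, pV U v q - q₀.1.1, hβ, ?_, ?_⟩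
  · show pV U v q = q₀.1.1 + (pV U v q - q₀.1.1)
    ring
  · refine Germ.coe_eq.2 (Eventually.of_forall fun p => ?_)
    show Z j (p.1, pV U v q + p.2) = Z j (p.1, q₀.1.1 + (p.2 + (pV U v q - q₀.1.1)))
    congr 2
    ring

theorem cl_of_conn (h : Hyp U v i) {q q' : XV U v} {x x' : Frm_547.X T i v.1}
    (h1 : Rel U v i q x) (h2 : Rel U v i q' x')
    (hq : (q : ConnectedComponents (XV U v)) = q') : cl T x = cl T x' := by
  choose F hF using rel_exists' h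
  rw [rel_unique' h h1 (hF q), rel_unique' h h2 (hF q')]
  have hlc : IsLocallyConstant fun q => cl T (F q) := by
    rw [IsLocallyConstant.iff_eventually_eq]
    exact fun q₀ => cl_loc h hF q₀
  rw [ConnectedComponents.coe_eq_coe'] at hq
  exact hlc.apply_eq_of_isPreconnected isPreconnected_connectedComponent hq
    mem_connectedComponent

/-- **`Rel` matches connected components and classes** -/
theorem rel_cl (h : Hyp U v i) {q q' : XV U v} {x x' : Frm_547.X T i v.1} (h1 : Rel U v i q x)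
    (h2 : Rel U v i q' x') : (q : ConnectedComponents (XV U v)) = q' ↔ cl T x = cl T x' :=
  ⟨cl_of_conn h h1 h2, fun hc => rel_of_cl h hc h1 h2⟩

/-- the component of `X T i k` of a connected component of `XV` -/
def cmpFun (h : Hyp U v i) (E : ConnectedComponents (XV U v)) : Cmp T i v.1 :=
  cl T (rel_exists' h (Quotient.out E)).choose

theorem cmpFun_mk (h : Hyp U v i) {q : XV U v} {x : Frm_547.X T i v.1} (h1 : Rel U v i q x) :
    cmpFun h (q : ConnectedComponents (XV U v)) = cl T x := by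
  have h2 := (rel_exists' h (Quotient.out (q : ConnectedComponents (XV U v)))).choose_spec
  have h3 : ((Quotient.out (q : ConnectedComponents (XV U v)) : XV U v) :
      ConnectedComponents (XV U v)) = q := Quotient.out_eq _
  exact (rel_cl h h2 h1).1 h3

theorem cmpFun_bij (h : Hyp U v i) : Function.Bijective (cmpFun h) := by
  constructor
  · intro E E' hEE
    obtain ⟨q, rfl⟩ := ConnectedComponents.surjective_coe E
    obtain ⟨q', rfl⟩ := ConnectedComponents.surjective_coe E'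
    obtain ⟨x, hx⟩ := rel_exists' h q
    obtain ⟨x', hx'⟩ := rel_exists' h q'
    rw [cmpFun_mk h hx, cmpFun_mk h hx'] at hEE
    exact (rel_cl h hx hx').2 hEE
  · intro e
    obtain ⟨x, rfl⟩ := Quot.exists_rep e
    obtain ⟨q, hq⟩ := rel_exists h x
    exact ⟨q, cmpFun_mk h hq⟩

/-- the components of `XV U v` are the components over the vertex `(i, k)` -/
def cmpEquiv (h : Hyp U v i) : ConnectedComponents (XV U v) ≃ Cmp T i v.1 :=
  Equiv.ofBijective _ (cmpFun_bij h)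

theorem cmpEquiv_mk (h : Hyp U v i) {q : XV U v} {x : Frm_547.X T i v.1} (h1 : Rel U v i q x) :
    cmpEquiv h (q : ConnectedComponents (XV U v)) = cl T x := cmpFun_mk h h1

/-- **retraction of an attached sheet** -/
theorem att_ret (h : Hyp U v i) {μ : ℂ × ℂ → ℂ × ℂ} {ζ : ℂ × ℂ → ℂ} {p : ℂ × ℂ}
    (hμ : ContinuousAt (fun q => (μ q).1) p) {x : Frm_547.X T i v.1} (ha : Att T i v.1 x μ ζ p) :
    ∀ᶠ q in 𝓝 p, (μ q).1 ≠ 0 → ∃ q' : XV U v, q'.1.1 = wv T v (μ q) ∧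
      IsRet U v (pt (ζ q) (μ q)) q' ∧ cmpEquiv h (q' : ConnectedComponents (XV U v)) = cl T x := by
  obtain ⟨hs0, W, γ, hW, hWp, hγ, hxγ, he⟩ := ha
  have hw : x.1.1 ∉ sp T v := by
    rw [h.hsp]
    exact x.2.1
  obtain ⟨r, R, Z, σ, L⟩ := exists_loc h hw
  have hm : x.1.1 ∈ ball x.1.1 r := mem_ball_self L.r_pos
  obtain ⟨j, hj⟩ := L.eq_zpt h x hm
  have hg : γ =ᶠ[𝓝 (0 : ℂ × ℂ)] fun p => Z j (p.1, x.1.1 + p.2) := by
    have h1 := congrArg (fun y : Frm_547.X T i v.1 => y.1.2) hj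
    exact Germ.coe_eq.1 (hxγ.symm.trans h1)
  have hcl : ∀ w ∈ ball x.1.1 r,
      cmpEquiv h ((σ j w : XV U v) : ConnectedComponents (XV U v)) = cl T x := by
    intro w hw'
    rw [L.conn j hw' hm]
    refine cmpEquiv_mk h ?_
    have := L.rel h j hm
    rwa [← hj] at this
  have hWt : Tendsto W (𝓝 p) (𝓝 x.1.1) := by
    have := hW.continuousAt.tendsto
    rwa [hWp] at this
  have hμt : Tendsto (fun q => (μ q).1) (𝓝 p) (𝓝 0) := by
    have := hμ.tendsto
    rwa [hs0] at this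
  have ht : Tendsto (fun q => ((μ q).1, W q - x.1.1)) (𝓝 p) (𝓝 0) := by
    have h1 := hμt.prodMk_nhds (hWt.sub_const x.1.1)
    rw [sub_self] at h1
    exact h1
  -- the tube radius is bounded below
  have hρpos : 0 < U.ρ v x.1.1 := U.pos v h.hv _ hw
  have hρc : ContinuousAt (U.ρ v) x.1.1 := by
    refine (U.cont v h.hv).continuousAt ?_
    exact (sp T v).finite_toSet.isClosed.isOpen_compl.mem_nhds hw
  have hρ : ∀ᶠ q in 𝓝 p, U.ρ v x.1.1 / 2 < U.ρ v (W q) :=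
    (hWt.eventually (hρc.eventually_const_lt (by linarith)))
  have hs1 : ∀ᶠ q in 𝓝 p, ‖(μ q).1‖ < U.ρ v x.1.1 / 2 := by
    have h1 := hμt.eventually (ball_mem_nhds (0 : ℂ) (half_pos hρpos))
    filter_upwards [h1] with q hq
    simpa using hq
  have hs2 : ∀ᶠ q in 𝓝 p, ‖(μ q).1‖ ^ T.M < T.ρ := by
    have h1 : Tendsto (fun q => ‖(μ q).1‖ ^ T.M) (𝓝 p) (𝓝 (‖(0 : ℂ)‖ ^ T.M)) := (hμt.norm).pow _
    refine h1.eventually_lt_const ?_
    rw [norm_zero, zero_pow T.M_pos.ne']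
    exact T.ρ_pos
  filter_upwards [he, ht.eventually hg, hWt.eventually (isOpen_ball.mem_nhds hm), hρ, hs1, hs2]
    with q a1 a2 a3 a4 a5 a6 hq0
  have e1 : μ q = ((μ q).1, yv T v ((μ q).1, W q)) := by
    conv_lhs => rw [a1.1, Frm_547.map_vert_sub]
    rw [yv_bm h a6]
  have e2 : ζ q = Z j ((μ q).1, W q) := by
    rw [a1.2, a2]
    simp
  have e3 := L.ret j (W q) a3 (μ q).1 hq0 (a5.trans a4)
  rw [← e2, ← e1] at e3
  refine ⟨σ j (W q), ?_, e3, hcl _ a3⟩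
  exact e3.2.1

end Crest.Agent.R257.Br_578
end
end

-- ▼ part R257/OrdA_578
section

/-!
# Row 257, part C, `OrdStmt` (helper578), part A: the branches of the canonical charts and their labels

`hyp`, `cmpE`   : the component `Cmp T (ci v) v.1` of a component `E : II U`;
`lab1`, `lab2`  : the labels;
`brp1`, `brp2`  : `BrP` along the branches of the canonical charts;
`label1`, `label2` : attached points lie on the component given by the label.
-/

set_option autoImplicit false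
set_option linter.unusedSectionVars false

open Polynomial Set Filter Topology Metric
open Crest.AlgGeometry.Germ Crest.Agent.R257.AJ387

noncomputable section

namespace Crest.Agent.R257.OrdA_578

open Crest.Agent.R257.T387 Crest.Agent.R257.OrdL_578 Crest.Agent.R257.Deg_578
open Crest.Agent.R257.OrdT_578 Crest.Agent.R257.BP_258 Crest.Agent.R257.Br_578
open Crest.Agent.R257.Frm_547 (Z2 Sh1 Step Cmp cl fib Att LocBr Eqv)

variable {f : (Fin 3 → ℂ) → ℂ} {T : TB f} {U : Tub T} {S : Sh T}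

/-- the hypotheses of the bridge -/
theorem hyp (S : Sh T) (hS : T.SheetsStmt) (hR : RetStmt U) {v : Vtx} (hv : v ∈ Vs T) :
    Hyp U v (S.ci v) where
  hv := hv
  hk := Vx_331.ci_lev S hv
  hi := S.ci_eq v hv
  hsp := fun _ => Vx_331.ci_mem_sp S hv
  hS := hS
  hR := hR

/-- the factor of `s` -/
def uf {m : ℕ} : Ch m → ℂ × ℂ → ℂ
  | .edge _ _ _, q => q.2
  | .leg _, _ => 1
  | .vert _ _ _, _ => 1

theorem shD_ci {v : Vtx} (hv : v ∈ Vs T) {l : Fin T.m} (he : Eqv T v.1 (S.ci v) l) :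
    shD T v.1 (S.ci v) l 0 = co T l v.1 := by
  rw [shD_zero_eq he, Vx_331.sh_zero T he, Vx_331.ci_co S hv]
  ring

/-- shift of the special points -/
theorem sp_shD {v : Vtx} {l : Fin T.m} (he : Eqv T v.1 (S.ci v) l) {w : ℂ}
    (hw : w ∉ T.Sp l v.1) : shD T v.1 (S.ci v) l 0 + w ∉ T.Sp (S.ci v) v.1 := by
  have h1 := Frm_547.sp_shift T he.symm (w := w)
  have h2 := sh_eq_shD (T := T) v.1 (S.ci v) l (0 : ℂ)
  rw [zero_pow T.M_pos.ne'] at h2
  rw [← h2, add_comm, ← h1]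
  exact hw

theorem v1_cases {c : Ch T.m} (hc : Ok S c) {v : Vtx} (h1 : v1 T c = some v) :
    (∃ l k k', c = .edge l k k' ∧ k ≠ 0 ∧ v = vx T l k ∧ T.Cons l k k') ∨
    (∃ l, c = .leg l ∧ v = vx T l (T.top l)) ∨
    ∃ l k w, c = .vert l k w ∧ v = vx T l k ∧ k ∈ T.lev l ∧ w ∉ T.Sp l k := by
  cases c with
  | edge l k k' =>
    left
    simp only [v1] at h1
    split_ifs at h1 with h0
    exact ⟨l, k, k', rfl, h0, (Option.some.inj h1).symm, hc.1⟩
  | leg l =>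
    right; left
    exact ⟨l, rfl, (Option.some.inj h1).symm⟩
  | vert l k w =>
    right; right
    exact ⟨l, k, w, rfl, (Option.some.inj h1).symm, hc.1.1, hc.1.2⟩

/-- the branch `{α = 0}` of a canonical chart -/
theorem brp1 {c : Ch T.m} (hc : Ok S c) {v : Vtx} (h1 : v1 T c = some v) {b : ℂ}
    (hb : ‖b‖ < 2 * S.r c) (hb0 : b ≠ 0 ∨ IsV c) :
    BrP (T := T) (S.ci v) v.1 (T.map c) (Wf T (S.ci v) v.1 c) (uf c) (S.ζ c) b := by
  have hsh := S.sheets c hc.1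
  rcases v1_cases hc h1 with ⟨l, k, k', rfl, h0, rfl, hcons⟩ | ⟨l, rfl, rfl⟩ | ⟨l, k, w, rfl, rfl, hk, hw⟩
  · have hkl : k ∈ T.lev l := hcons.1.resolve_left h0
    have he : Eqv T k (S.ci (vx T l k)) l := (Vx_331.ci_eqv S hkl).symm
    have hb1 : b ≠ 0 := hb0.resolve_right (fun h => h)
    refine brp_edge1 (Nat.pos_of_ne_zero h0) he hcons.2.2.1 hsh hb hb1 ?_
    exact sp_shD (S := S) (v := vx T l k) he (S.fare l k k' hc.1 b hb1 hb.le).1
  · have hkl : T.top l ∈ T.lev l := T.top_mem l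
    have he : Eqv T (T.top l) (S.ci (vx T l (T.top l))) l := (Vx_331.ci_eqv S hkl).symm
    have hb1 : b ≠ 0 := hb0.resolve_right (fun h => h)
    refine brp_leg he rfl hsh hb hb1 ?_
    exact sp_shD (S := S) (v := vx T l (T.top l)) he (S.farl l b hb1 hb.le)
  · have he : Eqv T k (S.ci (vx T l k)) l := (Vx_331.ci_eqv S hk).symm
    refine brp_vert (T.lev_pos hk) he hsh hb ?_
    refine sp_shD (S := S) (v := vx T l k) he (S.far l k w hc.1 (w + b) ?_)
    rw [add_sub_cancel_left]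
    exact hb.le

theorem v2_cases {c : Ch T.m} (hc : Ok S c) {v : Vtx} (h2 : v2 T c = some v) :
    v ∈ Vs T ∧ c = ec S v := by
  cases c with
  | edge l k k' =>
    obtain ⟨u, hu, rfl, rfl, rfl⟩ := hc.2
    have h3 : vx T (S.ci u) u.1 = v := Option.some.inj h2
    rw [Vx_331.ci_vx S hu] at h3
    subst h3
    exact ⟨hu, rfl⟩
  | leg l => exact absurd h2 (by simp [v2])
  | vert l k w => exact absurd h2 (by simp [v2])

/-- the branch `{β = 0}` of a canonical chart -/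
theorem brp2 {v : Vtx} (hv : v ∈ Vs T) {a : ℂ}
    (ha : ‖a‖ < 2 * S.r (ec S v)) (ha0 : a ≠ 0) :
    BrP (T := T) (S.ci v) v.1 (fun q => T.map (ec S v) (q.2, q.1))
      (fun q => Wf T (S.ci v) v.1 (ec S v) (q.2, q.1)) (fun q => q.2)
      (fun j q => S.ζ (ec S v) j (q.2, q.1)) a := by
  have hcons := S.kp_cons v hv
  refine brp_edge2 (Frm_547.Eqv.refl T _ _) hcons.2.2.1 (S.sheets (ec S v) hcons) ha ha0 ?_
  rw [shD_self, zero_add]
  exact (S.fare _ _ _ hcons a ha0 ha.le).2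

/-- the component of `Cmp` -/
def cmpE (S : Sh T) (hS : T.SheetsStmt) (hR : RetStmt U) (E : II U) :
    Cmp T (S.ci E.1.1) E.1.1.1 := cmpEquiv (hyp S hS hR E.1.2) E.2

variable (L : Lab U S)

theorem ok_ec {v : Vtx} (hv : v ∈ Vs T) : Ok S (ec S v) := ⟨S.kp_cons v hv, v, hv, rfl, rfl, rfl⟩

theorem lab1 {c : Ch T.m} (hc : Ok S c) (j : Fin T.d) {v : Vtx} (hv : v ∈ Vs T)
    (h1 : v1 T c = some v) : ∃ E' : ConnectedComponents (XV U v), L.e1 c j = some ⟨⟨v, hv⟩, E'⟩ := by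
  have h2 := L.v_e1 c hc j
  rw [h1] at h2
  obtain ⟨E, h3, h4⟩ := Option.map_eq_some_iff.1 h2
  obtain ⟨⟨v', hv'⟩, E'⟩ := E
  simp only at h4
  subst h4
  exact ⟨E', h3⟩

theorem lab2 {c : Ch T.m} (hc : Ok S c) (j : Fin T.d) {v : Vtx} (hv : v ∈ Vs T)
    (h1 : v2 T c = some v) : ∃ E' : ConnectedComponents (XV U v), L.e2 c j = some ⟨⟨v, hv⟩, E'⟩ := by
  have h2 := L.v_e2 c hc j
  rw [h1] at h2
  obtain ⟨E, h3, h4⟩ := Option.map_eq_some_iff.1 h2
  obtain ⟨⟨v', hv'⟩, E'⟩ := E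
  simp only at h4
  subst h4
  exact ⟨E', h3⟩

theorem v1_of {c : Ch T.m} (hc : Ok S c) {j : Fin T.d} {E : II U} (h : L.e1 c j = some E) :
    v1 T c = some E.1.1 := by
  rw [← L.v_e1 c hc j, h]
  rfl

theorem v2_of {c : Ch T.m} (hc : Ok S c) {j : Fin T.d} {E : II U} (h : L.e2 c j = some E) :
    v2 T c = some E.1.1 := by
  rw [← L.v_e2 c hc j, h]
  rfl

theorem fst_cont (c : Ch T.m) (p : ℂ × ℂ) : ContinuousAt (fun q => (T.map c q).1) p := by
  cases c with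
  | edge i k k' => exact continuousAt_fst.mul continuousAt_snd
  | leg i => exact continuousAt_fst
  | vert i k w => exact continuousAt_fst

/-- attached points lie on the component of the label, first branch -/
theorem label1 (hS : T.SheetsStmt) (hR : RetStmt U) {c : Ch T.m} (hc : Ok S c) {j : Fin T.d}
    {E : II U} (hE : L.e1 c j = some E) {b : ℂ} (hb : ‖b‖ ≤ S.r c) (hb0 : b ≠ 0 ∨ IsV c)
    {x : Frm_547.X T (S.ci E.1.1) E.1.1.1}
    (hx : Att T (S.ci E.1.1) E.1.1.1 x (T.map c) (S.ζ c j) (0, b)) : cl T x = cmpE S hS hR E := by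
  have h1 := att_ret (hyp S hS hR E.1.2) (fst_cont c _) hx
  obtain ⟨a, ha, hnear⟩ := L.near1 c hc j E hE (if b = 0 then 1 else ‖b‖)
    (by split_ifs with h; exacts [one_pos, norm_pos_iff.2 h])
  have ht : Tendsto (fun t : ℂ => ((t, b) : ℂ × ℂ)) (𝓝[≠] 0) (𝓝 ((0 : ℂ), b)) :=
    (OrdL_578.tendsto_fst b).mono_left nhdsWithin_le_nhds
  have h3 : ∀ᶠ t in 𝓝[≠] (0 : ℂ), ‖t‖ < a := by
    refine nhdsWithin_le_nhds ?_
    filter_upwards [ball_mem_nhds (0 : ℂ) ha] with t ht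
    simpa using ht
  obtain ⟨t, c1, c2, c3⟩ := ((ht.eventually h1).and (h3.and self_mem_nhdsWithin)).exists
  have c3' : t ≠ 0 := c3
  have hs : (T.map c (t, b)).1 ≠ 0 := by
    cases c with
    | edge i k k' => exact mul_ne_zero c3' (hb0.resolve_right (fun h => h))
    | leg i => exact c3'
    | vert i k w => exact c3'
  obtain ⟨q', -, h5, h6⟩ := c1 hs
  have h7 := (hnear (t, b) (norm_pos_iff.2 c3') c2 hb (by
    rcases hb0 with h | h
    · right
      rw [if_neg h]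
    · exact Or.inl h)).2 q' h5
  rw [← h6, h7]
  rfl

/-- attached points lie on the component of the label, second branch -/
theorem label2 (hS : T.SheetsStmt) (hR : RetStmt U) {c : Ch T.m} (hc : Ok S c) {j : Fin T.d}
    {E : II U} (hE : L.e2 c j = some E) {a : ℂ} (ha : ‖a‖ ≤ S.r c) (ha0 : a ≠ 0)
    {x : Frm_547.X T (S.ci E.1.1) E.1.1.1}
    (hx : Att T (S.ci E.1.1) E.1.1.1 x (fun q => T.map c (q.2, q.1)) (fun q => S.ζ c j (q.2, q.1))
      (0, a)) : cl T x = cmpE S hS hR E := by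
  have hcont : ContinuousAt (fun q : ℂ × ℂ => (T.map c (q.2, q.1)).1) (0, a) :=
    ContinuousAt.comp (g := fun q => (T.map c q).1) (f := fun q : ℂ × ℂ => ((q.2, q.1) : ℂ × ℂ))
      (fst_cont c _) (by fun_prop)
  have h1 := att_ret (hyp S hS hR E.1.2) hcont hx
  obtain ⟨e, he, hnear⟩ := L.near2 c hc j E hE ‖a‖ (norm_pos_iff.2 ha0)
  have ht : Tendsto (fun t : ℂ => ((t, a) : ℂ × ℂ)) (𝓝[≠] 0) (𝓝 ((0 : ℂ), a)) :=
    (OrdL_578.tendsto_fst a).mono_left nhdsWithin_le_nhds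
  have h3 : ∀ᶠ t in 𝓝[≠] (0 : ℂ), ‖t‖ < e := by
    refine nhdsWithin_le_nhds ?_
    filter_upwards [ball_mem_nhds (0 : ℂ) he] with t ht
    simpa using ht
  obtain ⟨t, c1, c2, c3⟩ := ((ht.eventually h1).and (h3.and self_mem_nhdsWithin)).exists
  have c3' : t ≠ 0 := c3
  obtain ⟨-, rfl⟩ := v2_cases hc (v2_of L hc hE)
  have hs : (T.map (ec S E.1.1) (a, t)).1 ≠ 0 := mul_ne_zero ha0 c3'
  obtain ⟨q', -, h5, h6⟩ := c1 hs
  have h7 := (hnear (a, t) (norm_pos_iff.2 c3') c2 ha le_rfl).2 q' h5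
  rw [← h6, h7]
  rfl

end Crest.Agent.R257.OrdA_578
end
end

-- ▼ part R257/OrdB_578
section

/-!
# Row 257, part C, `OrdStmt` (helper578), part B: factorisations at the points of the special fibre

`ord1`, `ord2` : the orders along the branches of a chart are the orders `vo`;
`PFac`         : factorisation of `g ∘ th` at a point; `exists_pfac`; `PFac.unique`;
`nv1`, `nv2`   : non-vanishing at ordinary points from the leading coefficient.
-/

set_option autoImplicit false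
set_option linter.unusedSectionVars false

open Polynomial Set Filter Topology Metric
open Crest.AlgGeometry.Germ Crest.Agent.R257.AJ387

noncomputable section

namespace Crest.Agent.R257.OrdA_578

open Crest.Agent.R257.T387 Crest.Agent.R257.OrdL_578 Crest.Agent.R257.Deg_578
open Crest.Agent.R257.OrdT_578 Crest.Agent.R257.BP_258 Crest.Agent.R257.Br_578
open Crest.Agent.R257.Frm_547 (Z2 Sh1 Step Cmp cl fib Att LocBr Eqv)

/-! ### local lemmas -/

theorem fac1 {h : ℂ × ℂ → ℂ} {b : ℂ} {n m : ℕ} (hn : HasOrd h b n) (hb : b ≠ 0 ∨ m = 0) :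
    ∃ G : ℂ × ℂ → ℂ, AnalyticAt ℂ G (0, b) ∧
      (∀ᶠ p in 𝓝 ((0 : ℂ), b), h p = p.1 ^ n * p.2 ^ m * G p) ∧ ∃ᶠ z in 𝓝 b, G (0, z) ≠ 0 := by
  obtain ⟨G', hG', hne⟩ := hn
  rcases hb with hb | hm
  · refine ⟨fun p => (p.2 ^ m)⁻¹ * G' p, ((analyticAt_snd.pow m).inv (pow_ne_zero _ hb)).mul hG'.1,
      ?_, ?_⟩
    · filter_upwards [hG'.2, (continuousAt_snd (p := ((0 : ℂ), b))).eventually_ne hb] with p h1 h2
      have h3 : p.2 ^ m ≠ 0 := pow_ne_zero _ h2
      rw [h1, mul_assoc, ← mul_assoc (p.2 ^ m), mul_inv_cancel₀ h3, one_mul]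
    · have h1 : ∀ᶠ z in 𝓝 b, z ≠ 0 := continuousAt_id.eventually_ne hb
      refine (hne.and_eventually h1).mono ?_
      rintro z ⟨h2, h3⟩
      exact mul_ne_zero (inv_ne_zero (pow_ne_zero _ h3)) h2
  · subst hm
    refine ⟨G', hG'.1, ?_, hne⟩
    filter_upwards [hG'.2] with p h1
    rw [h1, pow_zero, mul_one]

theorem fac2 {h : ℂ × ℂ → ℂ} {a : ℂ} {n m : ℕ} (hm : HasOrd (sw h) a m) (ha : a ≠ 0 ∨ n = 0) :
    ∃ G : ℂ × ℂ → ℂ, AnalyticAt ℂ G (a, 0) ∧
      (∀ᶠ p in 𝓝 (a, (0 : ℂ)), h p = p.1 ^ n * p.2 ^ m * G p) ∧ ∃ᶠ z in 𝓝 a, G (z, 0) ≠ 0 := by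
  obtain ⟨G, h1, h2, h3⟩ := fac1 hm ha
  refine ⟨sw G, sw_an' h1, ?_, h3⟩
  filter_upwards [(sw_tendsto (a, (0 : ℂ))).eventually h2] with p hp
  have h4 : sw h (p.2, p.1) = h p := rfl
  rw [← h4, hp]
  show p.2 ^ m * p.1 ^ n * G (p.2, p.1) = _
  rw [mul_comm (p.2 ^ m)]
  rfl

/-- the leading coefficient from a factorisation -/
theorem lc_of_fac {h : ℂ × ℂ → ℂ} {b : ℂ} {n m : ℕ} {G : ℂ × ℂ → ℂ} (hG : AnalyticAt ℂ G (0, b))
    (he : ∀ᶠ p in 𝓝 ((0 : ℂ), b), h p = p.1 ^ n * p.2 ^ m * G p) :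
    ∀ᶠ z in 𝓝 b, lc h n z = z ^ m * G (0, z) := by
  have h1 : Quo h b n (fun q => q.2 ^ m * G q) := by
    refine ⟨(analyticAt_snd.pow m).mul hG, ?_⟩
    filter_upwards [he] with q hq
    rw [hq, mul_assoc]
  exact h1.lc_eq

/-- uniqueness of the factor -/
theorem fac_unique {h : ℂ × ℂ → ℂ} {p₀ : ℂ × ℂ} {n m : ℕ} {G G' : ℂ × ℂ → ℂ}
    (hG : AnalyticAt ℂ G p₀) (hG' : AnalyticAt ℂ G' p₀)
    (he : ∀ᶠ p in 𝓝 p₀, h p = p.1 ^ n * p.2 ^ m * G p)
    (he' : ∀ᶠ p in 𝓝 p₀, h p = p.1 ^ n * p.2 ^ m * G' p) : ∀ᶠ p in 𝓝 p₀, G p = G' p := by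
  have h1 : ∀ᶠ p in 𝓝 p₀, (p.1 ^ n * p.2 ^ m) * (G p - G' p) = 0 := by
    filter_upwards [he, he'] with p h1 h2
    rw [mul_sub, ← h1, ← h2, sub_self]
  have hm : AnalyticAt ℂ (fun p : ℂ × ℂ => p.1 ^ n * p.2 ^ m) p₀ :=
    (analyticAt_fst.pow n).mul (analyticAt_snd.pow m)
  rcases germ_mul hm (hG.sub hG') h1 with h2 | h2
  · exfalso
    rcases germ_mul (analyticAt_fst.pow n) (analyticAt_snd.pow m) h2 with h3 | h3
    · obtain ⟨x, y⟩ := p₀
      have ht : Tendsto (fun t : ℂ => ((x + t, y) : ℂ × ℂ)) (𝓝 0) (𝓝 (x, y)) := by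
        have : Continuous fun t : ℂ => ((x + t, y) : ℂ × ℂ) := by fun_prop
        exact this.tendsto' _ _ (by simp)
      have h4 : ∀ᶠ t in 𝓝[≠] (0 : ℂ), x + t ≠ 0 := by
        by_cases hx : x = 0
        · filter_upwards [self_mem_nhdsWithin] with t ht
          rw [hx, zero_add]
          exact ht
        · have : ContinuousAt (fun t : ℂ => x + t) 0 := by fun_prop
          exact (this.eventually_ne (by simpa using hx)).filter_mono nhdsWithin_le_nhds
      obtain ⟨t, ht1, ht2⟩ := (((ht.eventually h3).filter_mono nhdsWithin_le_nhds).and h4).exists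
      exact pow_ne_zero _ ht2 ht1
    · obtain ⟨x, y⟩ := p₀
      have ht : Tendsto (fun t : ℂ => ((x, y + t) : ℂ × ℂ)) (𝓝 0) (𝓝 (x, y)) := by
        have : Continuous fun t : ℂ => ((x, y + t) : ℂ × ℂ) := by fun_prop
        exact this.tendsto' _ _ (by simp)
      have h4 : ∀ᶠ t in 𝓝[≠] (0 : ℂ), y + t ≠ 0 := by
        by_cases hx : y = 0
        · filter_upwards [self_mem_nhdsWithin] with t ht
          rw [hx, zero_add]
          exact ht
        · have : ContinuousAt (fun t : ℂ => y + t) 0 := by fun_prop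
          exact (this.eventually_ne (by simpa using hx)).filter_mono nhdsWithin_le_nhds
      obtain ⟨t, ht1, ht2⟩ := (((ht.eventually h3).filter_mono nhdsWithin_le_nhds).and h4).exists
      exact pow_ne_zero _ ht2 ht1
  · filter_upwards [h2] with p hp using sub_eq_zero.1 hp

variable {f : (Fin 3 → ℂ) → ℂ} {T : TB f} {U : Tub T} {S : Sh T}

variable (S) in
/-- `g ∘ th` -/
def gc (g : (Fin 3 → ℂ) → ℂ) (c : Ch T.m) (j : Fin T.d) : ℂ × ℂ → ℂ := gm T g (T.map c) (S.ζ c j)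

theorem gc_an1 {g : (Fin 3 → ℂ) → ℂ} (hg : AnalyticAt ℂ g 0) {c : Ch T.m} (hc : Ok S c)
    (j : Fin T.d) {v : Vtx} (h1 : v1 T c = some v) {z : ℂ} (hz : ‖z‖ < 2 * S.r c) :
    AnalyticAt ℂ (gc S g c j) (0, z) := by
  have hr : 0 < 2 * S.r c := by have := S.pos c; linarith
  refine gth_an hg (S.sheets c hc.1) (p := ((0 : ℂ), z)) ⟨by simpa using hr, hz⟩ ?_ j
  rcases v1_cases hc h1 with ⟨l, k, k', rfl, h0, rfl, hcons⟩ | ⟨l, rfl, rfl⟩ | ⟨l, k, w, rfl, rfl, hk, hw⟩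
  · exact map_edge1 (Nat.pos_of_ne_zero h0) z
  · exact map_leg l z
  · exact OrdT_578.map_vert (T.lev_pos hk) w z

theorem gc_an2 {g : (Fin 3 → ℂ) → ℂ} (hg : AnalyticAt ℂ g 0) {v : Vtx} (hv : v ∈ Vs T)
    (j : Fin T.d) {z : ℂ} (hz : ‖z‖ < 2 * S.r (ec S v)) :
    AnalyticAt ℂ (gc S g (ec S v) j) (z, 0) := by
  have hr : 0 < 2 * S.r (ec S v) := by have := S.pos (ec S v); linarith
  refine gth_an hg (S.sheets (ec S v) (S.kp_cons v hv)) (p := (z, (0 : ℂ)))
    ⟨hz, by simpa using hr⟩ ?_ j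
  exact map_edge2 (T.lev_pos (Vx_331.ci_lev S hv)) z

theorem swgc_eq (g : (Fin 3 → ℂ) → ℂ) (c : Ch T.m) (j : Fin T.d) :
    sw (gc S g c j) = gm T g (fun q => T.map c (q.2, q.1)) (fun q => S.ζ c j (q.2, q.1)) := rfl

/-- orders of `g` on all components -/
def IsVo (S : Sh T) (hS : T.SheetsStmt) (hR : RetStmt U) (g : (Fin 3 → ℂ) → ℂ) (vo : II U → ℕ) :
    Prop := ∀ E : II U, Oc g (cmpE S hS hR E) (vo E)

variable (L : Lab U S) {hS : T.SheetsStmt} {hR : RetStmt U} {g : (Fin 3 → ℂ) → ℂ} {vo : II U → ℕ}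

theorem vk_pos {v : Vtx} (hv : v ∈ Vs T) (S : Sh T) : 0 < v.1 := T.lev_pos (Vx_331.ci_lev S hv)

theorem exists_b {r : ℝ} (hr : 0 < r) : ∃ b : ℂ, b ≠ 0 ∧ ‖b‖ ≤ r ∧ ‖b‖ < 2 * r := by
  have h : ‖(r : ℂ)‖ = r := by rw [Complex.norm_real, Real.norm_eq_abs, abs_of_pos hr]
  exact ⟨(r : ℂ), by exact_mod_cast hr.ne', h.le, by rw [h]; linarith⟩

/-- the order along the first branch -/
theorem ord1 (hg : AnalyticAt ℂ g 0) (hvo : IsVo S hS hR g vo) {c : Ch T.m} (hc : Ok S c)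
    {j : Fin T.d} {E : II U} (hE : L.e1 c j = some E) {b : ℂ} (hb : ‖b‖ < 2 * S.r c) :
    HasOrd (gc S g c j) b (vo E) := by
  obtain ⟨b₀, h0, h1, h2⟩ := exists_b (S.pos c)
  have hv1 := v1_of L hc hE
  have hbr := brp1 hc hv1 h2 (Or.inl h0)
  obtain ⟨ξ, hatt, -⟩ := hbr.loc.pts hS (Vx_331.ci_lev S E.1.2)
  have hcl := label1 L hS hR hc hE h1 (Or.inl h0) (hatt j)
  have hO : Ox g (ξ j) (vo E) := (hvo E).all hg (vk_pos E.1.2 S) hcl
  have hn := (hbr.hasOrd_iff hg (vk_pos E.1.2 S) (hatt j)).2 hO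
  exact ord_ball (fun z hz => gc_an1 hg hc j hv1 hz) h2 hb hn

/-- the order along the second branch -/
theorem ord2 (hg : AnalyticAt ℂ g 0) (hvo : IsVo S hS hR g vo) {c : Ch T.m} (hc : Ok S c)
    {j : Fin T.d} {E : II U} (hE : L.e2 c j = some E) {a : ℂ} (ha : ‖a‖ < 2 * S.r c) :
    HasOrd (sw (gc S g c j)) a (vo E) := by
  obtain ⟨hv, rfl⟩ := v2_cases hc (v2_of L hc hE)
  obtain ⟨b₀, h0, h1, h2⟩ := exists_b (S.pos (ec S E.1.1))
  have hbr := brp2 hv h2 h0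
  obtain ⟨ξ, hatt, -⟩ := hbr.loc.pts hS (Vx_331.ci_lev S E.1.2)
  have hcl := label2 L hS hR hc hE h1 h0 (hatt j)
  have hO : Ox g (ξ j) (vo E) := (hvo E).all hg (vk_pos E.1.2 S) hcl
  have hn := (hbr.hasOrd_iff hg (vk_pos E.1.2 S) (hatt j)).2 hO
  exact ord_ball (fun z hz => sw_an' (gc_an2 hg hv j hz)) h2 ha hn

/-- factorisation at a point -/
structure PFac (g : (Fin 3 → ℂ) → ℂ) (vo : II U → ℕ) (c : Ch T.m) (j : Fin T.d) (p₀ : ℂ × ℂ)
    (G : ℂ × ℂ → ℂ) : Prop where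
  an : AnalyticAt ℂ G p₀
  eq : ∀ᶠ p in 𝓝 p₀, gc S g c j p = p.1 ^ yn vo (L.e1 c j) * p.2 ^ yn vo (L.e2 c j) * G p
  ne1 : p₀.1 = 0 → L.e1 c j ≠ none → ∃ᶠ z in 𝓝 p₀.2, G (0, z) ≠ 0
  ne2 : p₀.2 = 0 → L.e2 c j ≠ none → ∃ᶠ z in 𝓝 p₀.1, G (z, 0) ≠ 0

theorem exists_pfac (hg : AnalyticAt ℂ g 0) (hvo : IsVo S hS hR g vo) {c : Ch T.m} (hc : Ok S c)
    (j : Fin T.d) {p₀ : ℂ × ℂ} (hp1 : ‖p₀.1‖ < 2 * S.r c) (hp2 : ‖p₀.2‖ < 2 * S.r c)
    (h : (L.e1 c j ≠ none ∧ p₀.1 = 0) ∨ (L.e2 c j ≠ none ∧ p₀.2 = 0)) :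
    ∃ G, PFac L g vo c j p₀ G := by
  obtain ⟨a, b⟩ := p₀
  simp only at hp1 hp2 h
  -- both branches
  by_cases hboth : L.e1 c j ≠ none ∧ L.e2 c j ≠ none ∧ a = 0 ∧ b = 0
  · obtain ⟨h1, h2, rfl, rfl⟩ := hboth
    obtain ⟨E₁, hE₁⟩ := Option.ne_none_iff_exists'.1 h1
    obtain ⟨E₂, hE₂⟩ := Option.ne_none_iff_exists'.1 h2
    obtain ⟨G, hG⟩ := exists_cross_of (gc_an1 hg hc j (v1_of L hc hE₁) hp2)
      (ord1 L hg hvo hc hE₁ hp2) (ord2 L hg hvo hc hE₂ hp1)
    refine ⟨G, hG.an, ?_, fun _ _ => hG.ne1, fun _ _ => hG.ne2⟩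
    rw [hE₁, hE₂]
    exact hG.eq
  · by_cases h1 : L.e1 c j ≠ none ∧ a = 0
    · obtain ⟨h1, rfl⟩ := h1
      obtain ⟨E₁, hE₁⟩ := Option.ne_none_iff_exists'.1 h1
      have hb : b ≠ 0 ∨ yn vo (L.e2 c j) = 0 := by
        by_cases hb : b = 0
        · right
          have : L.e2 c j = none := by
            by_contra h2
            exact hboth ⟨h1, h2, rfl, hb⟩
          rw [this]
          rfl
        · exact Or.inl hb
      obtain ⟨G, g1, g2, g3⟩ := fac1 (ord1 L hg hvo hc hE₁ hp2) hb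
      refine ⟨G, g1, ?_, fun _ _ => g3, fun h2 h3 => absurd ⟨h1, h3, rfl, h2⟩ hboth⟩
      rw [hE₁]
      exact g2
    · have h2 := h.resolve_left h1
      obtain ⟨h2, rfl⟩ := h2
      obtain ⟨E₂, hE₂⟩ := Option.ne_none_iff_exists'.1 h2
      have ha : a ≠ 0 ∨ yn vo (L.e1 c j) = 0 := by
        by_cases ha : a = 0
        · right
          have : L.e1 c j = none := by
            by_contra h3
            exact h1 ⟨h3, ha⟩
          rw [this]
          rfl
        · exact Or.inl ha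
      obtain ⟨G, g1, g2, g3⟩ := fac2 (ord2 L hg hvo hc hE₂ hp1) ha
      refine ⟨G, g1, ?_, fun h3 h4 => absurd ⟨h4, h3⟩ h1, fun _ _ => g3⟩
      rw [hE₂]
      exact g2

theorem PFac.val {c : Ch T.m} {j : Fin T.d} {p₀ : ℂ × ℂ} {G G' : ℂ × ℂ → ℂ}
    (h : PFac L g vo c j p₀ G) (h' : PFac L g vo c j p₀ G') : G p₀ = G' p₀ :=
  (fac_unique h.an h'.an h.eq h'.eq).self_of_nhds

/-- non-vanishing at ordinary points, first branch -/
theorem nv1 (hg : AnalyticAt ℂ g 0) (hvo : IsVo S hS hR g vo) {c : Ch T.m} (hc : Ok S c)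
    {j : Fin T.d} {E : II U} (hE : L.e1 c j = some E) {b : ℂ} (hb : ‖b‖ ≤ S.r c)
    (hb0 : b ≠ 0 ∨ IsV c) {G : ℂ × ℂ → ℂ} (hG : PFac L g vo c j (0, b) G)
    (hL : ∀ x : Frm_547.X T (S.ci E.1.1) E.1.1.1, cl T x = cmpE S hS hR E →
      Lw T g (S.ci E.1.1) E.1.1.1 (vo E) x.1.1 x.1.2 ≠ 0) : G (0, b) ≠ 0 := by
  have hb2 : ‖b‖ < 2 * S.r c := by have := S.pos c; linarith
  have hv1 := v1_of L hc hE
  have hbr := brp1 hc hv1 hb2 hb0
  obtain ⟨ξ, hatt, -⟩ := hbr.loc.pts hS (Vx_331.ci_lev S E.1.2)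
  have hcl := label1 L hS hR hc hE hb hb0 (hatt j)
  have hO : Ox g (ξ j) (vo E) := (hvo E).all hg (vk_pos E.1.2 S) hcl
  have h1 := hbr.lc_eq (hatt j) hO
  have heq := hG.eq
  rw [hE] at heq
  have h2 := (lc_of_fac hG.an heq).self_of_nhds
  have h3 : gm T g (T.map c) (S.ζ c j) = gc S g c j := rfl
  rw [h3, show (vo E) = yn vo (some E) from rfl, h2] at h1
  intro h0
  rw [h0, mul_zero] at h1
  exact mul_ne_zero (pow_ne_zero _ hbr.une) (hL (ξ j) hcl) h1.symm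

/-- non-vanishing at ordinary points, second branch -/
theorem nv2 (hg : AnalyticAt ℂ g 0) (hvo : IsVo S hS hR g vo) {c : Ch T.m} (hc : Ok S c)
    {j : Fin T.d} {E : II U} (hE : L.e2 c j = some E) {a : ℂ} (ha : ‖a‖ ≤ S.r c)
    (ha0 : a ≠ 0) {G : ℂ × ℂ → ℂ} (hG : PFac L g vo c j (a, 0) G)
    (hL : ∀ x : Frm_547.X T (S.ci E.1.1) E.1.1.1, cl T x = cmpE S hS hR E →
      Lw T g (S.ci E.1.1) E.1.1.1 (vo E) x.1.1 x.1.2 ≠ 0) : G (a, 0) ≠ 0 := by
  obtain ⟨hv, rfl⟩ := v2_cases hc (v2_of L hc hE)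
  have ha2 : ‖a‖ < 2 * S.r (ec S E.1.1) := by have := S.pos (ec S E.1.1); linarith
  have hbr := brp2 hv ha2 ha0
  obtain ⟨ξ, hatt, -⟩ := hbr.loc.pts hS (Vx_331.ci_lev S E.1.2)
  have hcl := label2 L hS hR hc hE ha ha0 (hatt j)
  have hO : Ox g (ξ j) (vo E) := (hvo E).all hg (vk_pos E.1.2 S) hcl
  have h1 := hbr.lc_eq (hatt j) hO
  have heq : ∀ᶠ p in 𝓝 ((0 : ℂ), a), sw (gc S g (ec S E.1.1) j) p =
      p.1 ^ vo E * p.2 ^ yn vo (L.e1 (ec S E.1.1) j) * sw G p := by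
    have h3 := (sw_tendsto ((0 : ℂ), a)).eventually hG.eq
    rw [hE] at h3
    filter_upwards [h3] with p hp
    show gc S g (ec S E.1.1) j (p.2, p.1) = _
    rw [hp]
    show p.2 ^ _ * p.1 ^ vo E * _ = _
    rw [mul_comm (p.2 ^ _)]
    rfl
  have h2 := (lc_of_fac (sw_an' hG.an) heq).self_of_nhds
  rw [← swgc_eq, h2] at h1
  intro h0
  have h4 : sw G (0, a) = 0 := h0
  rw [h4, mul_zero] at h1
  exact mul_ne_zero (pow_ne_zero _ hbr.une) (hL (ξ j) hcl) h1.symm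

end Crest.Agent.R257.OrdA_578
end
end

-- ▼ part R257/OrdC_578

/-!
# Row 257, part C, `OrdStmt` (helper578), part C: special points and charts; the branches as `Raw`

`SC v c₀ c`     : the chart `c` ends at the special point `c₀` of `v`; `exists_SC`, `SC.unique`;
`raw1`, `raw2`  : the `Raw` data of the branches.
`dg_Mx`         : the Laplacian as a sum over the sheets of the edges.
-/

set_option autoImplicit false
set_option linter.unusedSectionVars false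

open Polynomial Set Filter Topology Metric
open Crest.AlgGeometry.Germ Crest.Agent.R257.AJ387

noncomputable section

namespace Crest.Agent.R257.OrdA_578

open Crest.Agent.R257.T387 Crest.Agent.R257.OrdL_578 Crest.Agent.R257.Deg_578
open Crest.Agent.R257.OrdT_578 Crest.Agent.R257.BP_258 Crest.Agent.R257.Br_578
open Crest.Agent.R257.Gr1_157
open Crest.Agent.R257.Frm_547 (Z2 Sh1 Step Cmp cl fib Att LocBr Eqv)

variable {f : (Fin 3 → ℂ) → ℂ} {T : TB f} {U : Tub T} {S : Sh T}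

/-- the index of the centre of a chart -/
def cen {m : ℕ} : Ch m → Fin m
  | .edge i _ _ => i
  | .leg i => i
  | .vert i _ _ => i

variable (S) in
/-- the chart `c` (edge or leg) ends at the special point `c₀` of `v` -/
structure SC (v : Vtx) (c₀ : ℂ) (c : Ch T.m) : Prop where
  ok : Ok S c
  v1 : v1 T c = some v
  nv : ¬ IsV c
  co : co T (cen c) v.1 = c₀

/-! ### levels -/

theorem cons_left {i : Fin T.m} {k k₁ k' : ℕ} (h : T.Cons i k k') (h' : T.Cons i k₁ k') : k = k₁ := by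
  obtain ⟨a1, a2, a3, a4⟩ := h
  obtain ⟨b1, b2, b3, b4⟩ := h'
  rcases lt_trichotomy k k₁ with h | h | h
  · have hk1 : k₁ ∈ T.lev i := b1.resolve_left (by omega)
    rcases a4 _ hk1 with h1 | h1 <;> omega
  · exact h
  · have hk1 : k ∈ T.lev i := a1.resolve_left (by omega)
    rcases b4 _ hk1 with h1 | h1 <;> omega

theorem exists_next {i : Fin T.m} {k : ℕ} (hk : k ∈ T.lev i) (h : T.top i ≠ k) :
    ∃ k', T.Cons i k k' := by
  have hlt : k < T.top i := lt_of_le_of_ne (Finset.le_max' _ _ hk) (Ne.symm h)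
  have hne : ((T.lev i).filter fun l => k < l).Nonempty :=
    ⟨T.top i, Finset.mem_filter.2 ⟨T.top_mem i, hlt⟩⟩
  refine ⟨((T.lev i).filter fun l => k < l).min' hne, Or.inr hk, ?_, ?_, ?_⟩
  · exact (Finset.mem_filter.1 (Finset.min'_mem _ hne)).1
  · exact (Finset.mem_filter.1 (Finset.min'_mem _ hne)).2
  · intro l hl
    rcases le_or_gt l k with h1 | h1
    · exact Or.inl h1
    · exact Or.inr (Finset.min'_le _ _ (Finset.mem_filter.2 ⟨hl, h1⟩))

theorem cons_eqv {i j : Fin T.m} {k k' : ℕ} (h : T.Cons i k k') (he : Eqv T k' i j) :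
    T.Cons j k k' := by
  obtain ⟨a1, a2, a3, a4⟩ := h
  refine ⟨?_, Frm_547.lev_of_eqv T he a2, a3, ?_⟩
  · rcases a1 with h | h
    · exact Or.inl h
    · exact Or.inr (Frm_547.lev_of_eqv T (he.mono a3.le) h)
  · intro l hl
    by_cases hlk : k' ≤ l
    · exact Or.inr hlk
    · exact a4 l (Frm_547.lev_of_eqv T ((he.mono (by omega : l ≤ k')).symm) hl)

/-- equality of one more Taylor coefficient -/
theorem eqv_succ {i j : Fin T.m} {k : ℕ} (h1 : tr T i k = tr T j k) (h2 : co T i k = co T j k) :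
    Eqv T (k + 1) i j := by
  rw [← Vx_331.tr_eq_iff]
  unfold tr at h1 ⊢
  rw [Finset.sum_range_succ, Finset.sum_range_succ, h1, h2]

theorem co_of_eqv {i j : Fin T.m} {k k' : ℕ} (h : Eqv T k' i j) (hk : k < k') :
    co T i k = co T j k := by
  rw [← Vx_331.tr_eq_iff] at h
  rw [← Vx_331.coeff_tr T hk, ← Vx_331.coeff_tr T hk, h]

theorem del_lev {i j : Fin T.m} (h : i ≠ j) : T.del i j ∈ T.lev i := by
  classical
  unfold TB.lev
  exact Finset.mem_insert_of_mem (Finset.mem_image.2 ⟨j, Finset.mem_erase.2 ⟨Ne.symm h, Finset.mem_univ _⟩, rfl⟩)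

theorem eqv_succ_top {i j : Fin T.m} {k : ℕ} (h : Eqv T (k + 1) i j) (hi : T.top i = k) : i = j := by
  by_contra hne
  have h1 := h.resolve_left hne
  have h2 : T.del i j ≤ T.top i := Finset.le_max' _ _ (del_lev hne)
  omega

/-- every special point is the end of a chart -/
theorem exists_SC (S : Sh T) {v : Vtx} {c₀ : ℂ} (hc₀ : c₀ ∈ sp T v) (hv : v ∈ Vs T) :
    ∃ c, SC S v c₀ c := by
  obtain ⟨l, hl, hco⟩ := (Vx_331.mem_sp_iff T).1 hc₀
  have hvx : vx T l v.1 = v := Prod.ext rfl hl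
  have hkl : v.1 ∈ T.lev l := by
    have h1 := Vx_331.ci_vx S hv
    rw [← hvx] at h1
    have h2 : Eqv T v.1 (S.ci (vx T l v.1)) l := (Vx_331.vx_eq_iff T _ _ _).1 (by
      rw [← hvx] at hv ⊢
      exact h1)
    have h3 := Vx_331.ci_lev S hv
    rw [hvx] at h2
    exact Frm_547.lev_of_eqv T h2 h3
  by_cases htop : T.top l = v.1
  · refine ⟨.leg l, ⟨trivial, trivial⟩, ?_, fun h => h, hco.symm⟩
    show some (vx T l (T.top l)) = some v
    rw [htop, hvx]
  · obtain ⟨k', hk'⟩ := exists_next hkl htop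
    have hε : vx T l k' ∈ Vs T := (Vx_331.mem_Vs T).2 ⟨l, k', hk'.2.1, rfl⟩
    have he : Eqv T k' l (S.ci (vx T l k')) := Vx_331.ci_eqv S hk'.2.1
    have hkp : S.kp (vx T l k') = v.1 := cons_left (S.kp_cons _ hε) (cons_eqv hk' he)
    refine ⟨ec S (vx T l k'), ok_ec hε, ?_, fun h => h, ?_⟩
    · show (if S.kp (vx T l k') = 0 then none else some (vx T (S.ci (vx T l k')) (S.kp (vx T l k')))) = _
      rw [hkp, if_neg (T.lev_pos hkl).ne']
      rw [← (Vx_331.vx_eq_iff T l _ v.1).2 (he.mono hk'.2.2.1.le), hvx]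
    · show co T (S.ci (vx T l k')) v.1 = c₀
      rw [hco]
      exact (co_of_eqv he hk'.2.2.1).symm

theorem SC.tr {v : Vtx} {c₀ : ℂ} {c : Ch T.m} (h : SC S v c₀ c) : tr T (cen c) v.1 = v.2 := by
  rcases v1_cases h.ok h.v1 with ⟨l, k, k', rfl, h0, rfl, hcons⟩ | ⟨l, rfl, rfl⟩ |
    ⟨l, k, w, rfl, rfl, hk, hw⟩ <;> rfl

theorem SC.mem {v : Vtx} {c₀ : ℂ} {c : Ch T.m} (h : SC S v c₀ c) : c₀ ∈ sp T v :=
  (Vx_331.mem_sp_iff T).2 ⟨cen c, h.tr, h.co.symm⟩

theorem SC.eqv {v : Vtx} {c₀ : ℂ} {c c' : Ch T.m} (h : SC S v c₀ c) (h' : SC S v c₀ c') :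
    Eqv T (v.1 + 1) (cen c) (cen c') :=
  eqv_succ (h.tr.trans h'.tr.symm) (h.co.trans h'.co.symm)

theorem SC.cases {v : Vtx} {c₀ : ℂ} {c : Ch T.m} (h : SC S v c₀ c) :
    (∃ ε ∈ Vs T, c = ec S ε ∧ T.Cons (cen c) v.1 ε.1) ∨ (c = .leg (cen c) ∧ T.top (cen c) = v.1) := by
  rcases v1_cases h.ok h.v1 with ⟨l, k, k', rfl, h0, rfl, hcons⟩ | ⟨l, rfl, rfl⟩ |
    ⟨l, k, w, rfl, rfl, hk, hw⟩
  · left
    obtain ⟨u, hu, rfl, rfl, rfl⟩ := h.ok.2
    exact ⟨u, hu, rfl, hcons⟩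
  · right
    exact ⟨rfl, rfl⟩
  · exact absurd trivial h.nv

/-- the chart at a special point is unique -/
theorem SC.unique {v : Vtx} {c₀ : ℂ} {c c' : Ch T.m} (h : SC S v c₀ c) (h' : SC S v c₀ c') :
    c = c' := by
  have he := h.eqv h'
  rcases h.cases with ⟨ε, hε, hc, hcons⟩ | ⟨hc, htop⟩ <;>
  rcases h'.cases with ⟨ε', hε', hc', hcons'⟩ | ⟨hc', htop'⟩
  · -- two edges
    have key : ∀ {l l' : Fin T.m} {k k₁ k₂ : ℕ}, Eqv T (k + 1) l l' → T.Cons l k k₁ →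
        T.Cons l' k k₂ → Eqv T k₁ l l' ∧ k₂ ≤ k₁ := by
      intro l l' k k₁ k₂ he h1 h2
      have he1 : Eqv T k₁ l l' := by
        rcases he with he | he
        · exact Or.inl he
        · by_cases hll : l = l'
          · exact Or.inl hll
          · right
            rcases h1.2.2.2 _ (del_lev hll) with h3 | h3
            · omega
            · exact h3
      refine ⟨he1, ?_⟩
      rcases h2.2.2.2 _ (Frm_547.lev_of_eqv T he1 h1.2.1) with h3 | h3
      · have := h1.2.2.1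
        omega
      · exact h3
    obtain ⟨e1, e2⟩ := key he hcons hcons'
    obtain ⟨e3, e4⟩ := key he.symm hcons' hcons
    have e5 : ε.1 = ε'.1 := le_antisymm e4 e2
    have hε1 : vx T (cen c) ε.1 = ε := by
      have h1 : cen c = S.ci ε := by rw [hc]; rfl
      rw [h1]
      exact Vx_331.ci_vx S hε
    have hε2 : vx T (cen c') ε'.1 = ε' := by
      have h1 : cen c' = S.ci ε' := by rw [hc']; rfl
      rw [h1]
      exact Vx_331.ci_vx S hε'
    have e6 : ε = ε' := by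
      rw [← hε1, ← hε2, ← e5]
      exact (Vx_331.vx_eq_iff T _ _ _).2 e1
    rw [hc, hc', e6]
  · -- edge, leg
    exfalso
    have h1 := eqv_succ_top he.symm htop'
    rw [← h1] at hcons
    have h2 : ε.1 ≤ T.top (cen c') := Finset.le_max' _ _ hcons.2.1
    have := hcons.2.2.1
    omega
  · exfalso
    have h1 := eqv_succ_top he htop
    rw [← h1] at hcons'
    have h2 : ε'.1 ≤ T.top (cen c) := Finset.le_max' _ _ hcons'.2.1
    have := hcons'.2.2.1
    omega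
  · have h1 := eqv_succ_top he htop
    rw [hc, hc', h1]

/-! ### the sum over the special points -/

open Classical in
theorem sum_sp {v : Vtx} (hv : v ∈ Vs T) {ch : ℂ → Ch T.m}
    (hch : ∀ c₀ ∈ T.Sp (S.ci v) v.1, SC S v c₀ (ch c₀)) (F : Ch T.m → ℝ)
    (hleg : ∀ l, F (.leg l) = 0) : ∑ c₀ ∈ T.Sp (S.ci v) v.1, F (ch c₀) =
      ∑ ε ∈ Vs T, if v1 T (ec S ε) = some v then F (ec S ε) else 0 := by
  rw [← Finset.sum_filter]
  have hSC : ∀ ε ∈ (Vs T).filter (fun ε => v1 T (ec S ε) = some v),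
      SC S v (co T (S.ci ε) v.1) (ec S ε) := by
    intro ε hε
    obtain ⟨h1, h2⟩ := Finset.mem_filter.1 hε
    exact ⟨ok_ec h1, h2, fun h => h, rfl⟩
  have hinj : Set.InjOn (fun ε : Vtx => co T (S.ci ε) v.1)
      ((Vs T).filter (fun ε => v1 T (ec S ε) = some v) : Finset Vtx) := by
    intro ε hε ε' hε' hee
    have h1 := hSC ε hε
    have h2 := hSC ε' hε'
    simp only at hee
    rw [hee] at h1
    have h3 := h1.unique h2
    have m1 := (Finset.mem_filter.1 hε).1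
    have m2 := (Finset.mem_filter.1 hε').1
    rw [← Vx_331.ci_vx S m1, ← Vx_331.ci_vx S m2]
    injection h3 with a1 a2 a3
    rw [a1, a3]
  have hmem : ∀ ε ∈ (Vs T).filter (fun ε => v1 T (ec S ε) = some v),
      co T (S.ci ε) v.1 ∈ T.Sp (S.ci v) v.1 := fun ε hε =>
    (Vx_331.ci_mem_sp S hv).1 (hSC ε hε).mem
  have e1 : ∑ ε ∈ (Vs T).filter (fun ε => v1 T (ec S ε) = some v), F (ec S ε) =
      ∑ c₀ ∈ ((Vs T).filter (fun ε => v1 T (ec S ε) = some v)).image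
        (fun ε : Vtx => co T (S.ci ε) v.1), F (ch c₀) := by
    rw [Finset.sum_image hinj]
    refine Finset.sum_congr rfl fun ε hε => ?_
    rw [(hch _ (hmem ε hε)).unique (hSC ε hε)]
  rw [e1]
  symm
  refine Finset.sum_subset ?_ ?_
  · intro c₀ hc₀
    obtain ⟨ε, hε, rfl⟩ := Finset.mem_image.1 hc₀
    exact hmem ε hε
  · intro c₀ hc₀ hn
    have h1 := hch c₀ hc₀
    rcases h1.cases with ⟨ε, hε, hc, hcons⟩ | ⟨hc, htop⟩
    · exfalso
      refine hn (Finset.mem_image.2 ⟨ε, Finset.mem_filter.2 ⟨hε, ?_⟩, ?_⟩)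
      · rw [← hc]
        exact h1.v1
      · have h2 := h1.co
        rw [hc] at h2
        exact h2
    · rw [hc]
      exact hleg _

/-! ### the Laplacian -/

variable (L : Lab U S)

open Classical in
theorem sum_yo [Fintype (II U)] (x : II U → ℝ) (o : Option (II U)) :
    ∑ E', (if o = some E' then (1 : ℝ) else 0) * x E' = yo x o := by
  cases o with
  | none => simp [yo]
  | some a =>
    simp only [Option.some.injEq, ite_mul, one_mul, zero_mul, Finset.sum_ite_eq, Finset.mem_univ,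
      if_true]
    rfl

open Classical in
theorem dg_Mx [Fintype (II U)] (x : II U → ℝ) (E : II U) : dg (Mx L) x E =
    ∑ v ∈ Vs T, ∑ j, cd S v * ((if L.e1 (ec S v) j = some E then
      yo x (L.e2 (ec S v) j) - x E else 0) +
      (if L.e2 (ec S v) j = some E then yo x (L.e1 (ec S v) j) - x E else 0)) := by
  have key : ∀ (P : Prop) [Decidable P] (o : Option (II U)),
      ∑ E', (if P then ((if o = some E' then (1 : ℝ) else 0) - (if E = E' then 1 else 0)) else 0) *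
        x E' = if P then yo x o - x E else 0 := by
    intro P _ o
    by_cases hP : P
    · simp only [hP, if_true, sub_mul, Finset.sum_sub_distrib]
      rw [sum_yo]
      simp
    · simp [hP]
  unfold dg Mx
  simp only [Finset.sum_mul]
  rw [Finset.sum_comm]
  refine Finset.sum_congr rfl fun v _ => ?_
  rw [Finset.sum_comm]
  refine Finset.sum_congr rfl fun j _ => ?_
  simp only [mul_assoc, ← Finset.mul_sum, add_mul, Finset.sum_add_distrib]
  congr 2
  · convert key (L.e1 (ec S v) j = some E) (L.e2 (ec S v) j) using 1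
  · convert key (L.e2 (ec S v) j = some E) (L.e1 (ec S v) j) using 1

end Crest.Agent.R257.OrdA_578
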