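import Crest.Agent.R257.Exf1_843
import Crest.Agent.R257.HvS_636
import Crest.Agent.R257.OrdC_578
import Crest.Agent.R257.EndB_636
import Crest.Agent.R257.ExNC_843

-- ▼ part R257/Exf2_843
section

/-!
# Row 257, ExN (helper843), file 2: the invariant zero free function on a null component

* `exists_att` : charts at the special points; `extX` : extension by `0` off a component;
* `exf_N`      : the function, from `RSNStmt`.
-/

set_option autoImplicit false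
set_option linter.unusedSectionVars false

open Polynomial Set Filter Topology Metric
open Crest.AlgGeometry.Germ Crest.Agent.R257.AJ387 Crest.Agent.R257.T387
open Crest.Agent.R257.Gr1_157 Crest.Agent.R257.HoB_843 Crest.Agent.R257.BP_258
open Crest.Agent.R257.Wt_258 Crest.Agent.R257.Cpt1_419 Crest.Agent.R257.Hv_174
open Crest.Agent.R257.Rsn_843 Crest.Agent.R257.Tb3_941 Crest.Agent.R257.Rot1_558
open Crest.Agent.R257.Vt1_558 Crest.Agent.R257.Vt4_558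

noncomputable section

namespace Crest.Agent.R257.Exf_843

variable {f : (Fin 3 → ℂ) → ℂ} {T : TB f} {S : Sh T} {U : Tub T}

/-- the chart at a special point -/
lemma exists_att (S : Sh T) {v : Vtx} (hv : v ∈ Vs T) {c₀ : ℂ} (hc₀ : c₀ ∈ sp T v) :
    ∃ c, Ok S c ∧ ¬ IsV c ∧ v1 T c = some v ∧ cx T c = c₀ := by
  obtain ⟨c, hc⟩ := OrdA_578.exists_SC S hc₀ hv
  refine ⟨c, hc.ok, hc.nv, hc.v1, ?_⟩
  have h1 := hc.v1
  have h2 := hc.co
  cases c with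
  | edge i k k' =>
    simp only [v1] at h1
    split_ifs at h1 with hk
    have h3 : k = v.1 := congrArg Prod.fst (Option.some.inj h1)
    show co T i k = c₀
    rw [h3]; exact h2
  | leg i =>
    have h3 : T.top i = v.1 := congrArg Prod.fst (Option.some.inj h1)
    show co T i (T.top i) = c₀
    rw [h3]; exact h2
  | vert i k w => exact absurd trivial hc.nv

/-! ### extension by `0` -/

/-- a point of the component -/
def mkX {E : II U} (q : XV U E.1.1) (h : (q : ConnectedComponents (XV U E.1.1)) = E.2) : XE E :=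
  ⟨q, h⟩


/-- the inclusion of the component -/
def vaX {E : II U} (x : XE E) : XV U E.1.1 := x.1

lemma ind_vaX (E : II U) : IsInducing (vaX : XE E → XV U E.1.1) := ⟨rfl⟩

lemma vaX_comp {E : II U} (x : XE E) :
    (vaX x : ConnectedComponents (XV U E.1.1)) = E.2 := x.2

lemma XE_ext {E : II U} {x y : XE E} (h : vaX x = vaX y) : x = y := Subtype.ext h

open Classical in
/-- extension by `0` off the component -/
def extX {E : II U} (g : XE E → ℂ) (q : XV U E.1.1) : ℂ :=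
  if h : (q : ConnectedComponents (XV U E.1.1)) = E.2 then g (mkX q h) else 0

lemma extX_of {E : II U} (g : XE E → ℂ) {q : XV U E.1.1}
    (h : (q : ConnectedComponents (XV U E.1.1)) = E.2) : extX g q = g (mkX q h) := dif_pos h

lemma extX_va {E : II U} (g : XE E → ℂ) (x : XE E) : extX g (vaX x) = g x := extX_of g x.2

lemma extX_not {E : II U} (g : XE E → ℂ) {q : XV U E.1.1}
    (h : (q : ConnectedComponents (XV U E.1.1)) ≠ E.2) : extX g q = 0 := dif_neg h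

lemma comp_sec {E : II U} {w₀ : ℂ} {ρ : ℝ} {σ : ℂ → XV U E.1.1} (hρ : 0 < ρ)
    (hσ : ContinuousOn σ (ball w₀ ρ)) {w : ℂ} (hw : w ∈ ball w₀ ρ) :
    (σ w : ConnectedComponents (XV U E.1.1)) = (σ w₀ : ConnectedComponents (XV U E.1.1)) := by
  have h1 : IsPreconnected (σ '' ball w₀ ρ) := (convex_ball w₀ ρ).isPreconnected.image σ hσ
  have h2 := h1.subset_connectedComponent (mem_image_of_mem σ (mem_ball_self hρ))
    (mem_image_of_mem σ hw)
  rw [ConnectedComponents.coe_eq_coe']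
  exact h2

lemma holX_ext {E : II U} {g : XE E → ℂ} (hg : HolX (fun x => ((covE E).p x).1) g) :
    HolX (pV U E.1.1) (extX g) := by
  classical
  intro w₀ ρ σ hρ hσ hpr
  by_cases h0 : (σ w₀ : ConnectedComponents (XV U E.1.1)) = E.2
  · have hb : ∀ w ∈ ball w₀ ρ, (σ w : ConnectedComponents (XV U E.1.1)) = E.2 := fun w hw =>
      (comp_sec hρ hσ hw).trans h0
    set σ' : ℂ → XE E := fun w =>
      if h : (σ w : ConnectedComponents (XV U E.1.1)) = E.2 then mkX (σ w) h else mkX (σ w₀) h0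
      with hσ'
    have e1 : ∀ w ∈ ball w₀ ρ, vaX (σ' w) = σ w := fun w hw => by
      simp only [hσ']
      rw [dif_pos (hb w hw)]
      rfl
    have hc : ContinuousOn σ' (ball w₀ ρ) := by
      rw [(ind_vaX E).continuousOn_iff]
      exact hσ.congr fun w hw => e1 w hw
    have h2 := hg w₀ ρ σ' hρ hc (fun w hw => by
      show pV U E.1.1 (vaX (σ' w)) = w
      rw [e1 w hw]; exact hpr w hw)
    refine h2.congr ?_
    filter_upwards [ball_mem_nhds w₀ hρ] with w hw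
    show g (σ' w) = extX g (σ w)
    rw [extX_of g (hb w hw)]
    congr 1
    exact XE_ext (e1 w hw)
  · have h1 : (fun _ : ℂ => (0 : ℂ)) =ᶠ[𝓝 w₀] extX g ∘ σ := by
      filter_upwards [ball_mem_nhds w₀ hρ] with w hw
      show 0 = extX g (σ w)
      rw [extX_not]
      rw [comp_sec hρ hσ hw]
      exact h0
    exact analyticAt_const.congr h1

/-- the fibres have at most `d` points -/
lemma fib_card (E : II U) (w : {w : ℂ // w ∉ ((sp T E.1.1 : Finset ℂ) : Set ℂ)}) :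
    ((covE E).p ⁻¹' {w}).ncard ≤ T.d := by
  classical
  obtain ⟨r, R, Z, h⟩ := Tb_941.exists_LS (U := U) E.1.2 w.2
  obtain ⟨q₀, hq₀⟩ := exists_comp E
  set g : Fin T.d → XE E := fun j =>
    if hj : (h.sg E.1.2 j w.1 : ConnectedComponents (XV U E.1.1)) = E.2
      then mkX (h.sg E.1.2 j w.1) hj else mkX q₀ hq₀ with hg
  have h1 : (covE E).p ⁻¹' {w} ⊆ g '' Set.univ := by
    intro x hx
    have hx1 : pV U E.1.1 (vaX x) = w.1 := congrArg Subtype.val (show (covE E).p x = w from hx)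
    obtain ⟨j, hj⟩ := h.sg_surj E.1.2 (vaX x) (by rw [hx1]; exact mem_ball_self h.r_pos)
    rw [hx1] at hj
    refine ⟨j, Set.mem_univ _, ?_⟩
    have h3 : (h.sg E.1.2 j w.1 : ConnectedComponents (XV U E.1.1)) = E.2 := by
      rw [hj]; exact vaX_comp x
    simp only [hg]
    rw [dif_pos h3]
    exact XE_ext hj
  have h2 : (g '' Set.univ).ncard ≤ T.d := by
    have h3 := Set.ncard_image_le (f := g) (Set.toFinite (Set.univ))
    rwa [Set.ncard_univ, Nat.card_eq_fintype_card, Fintype.card_fin] at h3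
  exact (Set.ncard_le_ncard h1 (Set.toFinite _)).trans h2

end Crest.Agent.R257.Exf_843
end
end

-- ▼ part R257/Exf3_843
section

/-!
# Row 257, ExN (helper843), file 3: `exf_N`, the invariant zero free function on a null component
-/

set_option autoImplicit false
set_option linter.unusedSectionVars false

open Polynomial Set Filter Topology Metric
open Crest.AlgGeometry.Germ Crest.Agent.R257.AJ387 Crest.Agent.R257.T387
open Crest.Agent.R257.Gr1_157 Crest.Agent.R257.HoB_843 Crest.Agent.R257.BP_258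
open Crest.Agent.R257.Wt_258 Crest.Agent.R257.Cpt1_419 Crest.Agent.R257.Hv_174
open Crest.Agent.R257.Rsn_843 Crest.Agent.R257.Tb3_941 Crest.Agent.R257.Rot1_558
open Crest.Agent.R257.Vt1_558 Crest.Agent.R257.Vt4_558

noncomputable section

namespace Crest.Agent.R257.Exf_843

variable {f : (Fin 3 → ℂ) → ℂ} {T : TB f} {S : Sh T} {U : Tub T}

/-- fibre sums of integral functions on the component -/
lemma cast_sum {E : II U} (mu : XE E → ℤ) (lam : XV U E.1.1 → ℝ) (w₀ : ℂ)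
    (h : ∀ x : XE E, pV U E.1.1 (vaX x) = w₀ → (mu x : ℝ) = lam (vaX x)) :
    ((∑ᶠ x ∈ {x : XE E | ((covE E).p x).1 = w₀}, mu x : ℤ) : ℝ) =
      ∑ᶠ x ∈ {x : XV U E.1.1 | pV U E.1.1 x = w₀ ∧
        (x : ConnectedComponents (XV U E.1.1)) = E.2}, lam x := by
  have hfin : {x : XE E | ((covE E).p x).1 = w₀}.Finite := by
    by_cases hw : w₀ ∈ ((sp T E.1.1 : Finset ℂ) : Set ℂ)
    · have : {x : XE E | ((covE E).p x).1 = w₀} = ∅ := by
        ext x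
        simp only [Set.mem_ofPred_eq, Set.mem_empty_iff_false, iff_false]
        intro hx
        exact ((covE E).p x).2 (by rw [hx]; exact hw)
      rw [this]; exact Set.finite_empty
    · refine ((covE E).fin ⟨w₀, hw⟩).subset fun x hx => ?_
      exact Subtype.ext hx
  have h1 := AddMonoidHom.map_finsum_mem' (s := {x : XE E | ((covE E).p x).1 = w₀})
    (f := mu) (g := Int.castAddHom ℝ) (hfin.inter_of_left _)
  have h2 : {x : XV U E.1.1 | pV U E.1.1 x = w₀ ∧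
      (x : ConnectedComponents (XV U E.1.1)) = E.2} = vaX '' {x : XE E | ((covE E).p x).1 = w₀} := by
    ext x
    constructor
    · rintro ⟨h3, h4⟩
      exact ⟨mkX x h4, h3, rfl⟩
    · rintro ⟨y, h3, rfl⟩
      exact ⟨h3, vaX_comp y⟩
  rw [h2, finsum_mem_image (fun a _ b _ hab => XE_ext hab)]
  have h3 : ((∑ᶠ x ∈ {x : XE E | ((covE E).p x).1 = w₀}, mu x : ℤ) : ℝ) =
      ∑ᶠ x ∈ {x : XE E | ((covE E).p x).1 = w₀}, ((mu x : ℤ) : ℝ) := h1
  rw [h3]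
  exact finsum_mem_congr rfl fun x hx => h x hx

lemma rm_pow_norm {ξ : ℂ} (hξ : ξ ^ T.N = 1) (c : Ch T.m) (b : ℂ) :
    ‖(rm T ξ c).2 * b‖ = ‖b‖ := by rw [norm_mul, (rm_norm hξ c).2, one_mul]

lemma rm_pow_norm1 {ξ : ℂ} (hξ : ξ ^ T.N = 1) (c : Ch T.m) (b : ℂ) :
    ‖(rm T ξ c).1 * b‖ = ‖b‖ := by rw [norm_mul, (rm_norm hξ c).1, one_mul]

lemma lx_rc (ξ : ℂ) (c : Ch T.m) : lx T (rc T ξ c) = lx T c := by
  cases c <;> rfl

/-- the exponents are invariant -/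
lemma z1_rc {hG : GalPt T} {L : Lab U S} {m : II U → ℕ}
    (hm : ∀ (γ : Ru T) (E : II U), m (piH hG γ E) = m E) (γ : Ru T) {c : Ch T.m} (hc : Ok S c)
    {j j' : Fin T.d} (hjj : ∀ p : ℂ × ℂ, ‖p.1‖ < 2 * min (S.r c) (S.r (rc T (vl γ) c)) →
      ‖p.2‖ < 2 * min (S.r c) (S.r (rc T (vl γ) c)) →
      rot (vl γ) (wc S c j p) = wc S (rc T (vl γ) c) j' (rp T (vl γ) c p)) :
    z1 L m (rc T (vl γ) c) j' = z1 L m c j ∧ z2 L m (rc T (vl γ) c) j' = z2 L m c j := by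
  classical
  have h1 := lab1 hG (Tb_941.retStmt U) (vl_pow γ) L hc hjj
  have h2 := lab2 hG (Tb_941.retStmt U) (vl_pow γ) L hc hjj
  have key : ∀ e : Option (II U),
      yn m (e.map (Vt3_558.pi hG (Tb_941.retStmt U) (vl_pow γ))) = yn m e := by
    intro e
    cases e with
    | none => rfl
    | some E => exact hm γ E
  have hE : IsE (rc T (vl γ) c) ↔ IsE c := isE_rc _ c
  unfold z1 z2
  rw [h1, h2, key, key]
  refine ⟨?_, rfl⟩
  by_cases h : IsE c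
  · rw [if_pos h, if_pos (hE.2 h)]
  · rw [if_neg h, if_neg fun h' => h (hE.1 h')]

/-- small radii -/
lemma ev_small {x : ℝ} (hx : 0 < x) : ∀ᶠ r in 𝓝[>] (0 : ℝ), r < x :=
  nhdsWithin_le_nhds (gt_mem_nhds hx)

/-- separated radii -/
lemma ev_sep (A : Finset ℂ) : ∀ᶠ r in 𝓝[>] (0 : ℝ), Wt_258.Sep A r := by
  have hinv : Tendsto (fun r : ℝ => r⁻¹) (𝓝[>] 0) atTop := tendsto_inv_nhdsGT_zero
  have h : ∀ᶠ r in 𝓝[>] (0 : ℝ), 0 < r ∧ (∀ c ∈ A, ∀ c' ∈ A, c ≠ c' → 2 * r ≤ ‖c - c'‖) ∧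
      (∀ c ∈ A, ‖c‖ + 2 * r ≤ r⁻¹) := by
    refine Eventually.and self_mem_nhdsWithin (Eventually.and ?_ ?_)
    · rw [Finset.eventually_all]
      intro c hc
      rw [Finset.eventually_all]
      intro c' hc'
      by_cases h : c = c'
      · exact Eventually.of_forall fun r h' => absurd h h'
      · have h1 : 0 < ‖c - c'‖ := norm_pos_iff.2 (sub_ne_zero.2 h)
        filter_upwards [ev_small (x := ‖c - c'‖ / 2) (by linarith)] with r hr _
        linarith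
    · rw [Finset.eventually_all]
      intro c hc
      filter_upwards [ev_small (x := 1 / 2) (by norm_num), hinv.eventually_ge_atTop (‖c‖ + 1)]
        with r h1 h2
      linarith
  exact h.mono fun r hr => ⟨hr.1, hr.2.1, hr.2.2⟩

/-- the local data of the exponents on a component -/
structure LamD (L : Lab U S) (m : II U → ℕ) (v : Vtx) (r : ℝ) (lam : XV U v → ℝ) : Prop where
  sep : Wt_258.Sep (sp T v) r
  lt1 : r < 1
  rad : ∀ c ∈ NC S, ∀ c' ∈ NC S, r < (S.r c') ^ (lx T c)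
  loc : ∀ x, ((∃ c ∈ sp T v, ‖pV U v x - c‖ < r) ∨ r⁻¹ < ‖pV U v x‖) →
    ∀ᶠ x' in 𝓝 x, lam x' = lam x
  e1 : ∀ c, Ok S c → ¬ IsV c → v1 T c = some v → ∀ γ, End1 U S c v γ → ∀ j, ∀ b : ℂ, 0 < ‖b‖ →
    ‖b‖ ^ lx T c < r → lam (γ j b) * lx T c = z1 L m c j
  e2 : ∀ c, Ok S c → v2 T c = some v → ∀ γ, End2 U S c v γ → ∀ j, ∀ b : ℂ, 0 < ‖b‖ →
    ‖b‖ ^ lx T c < r → lam (γ j b) * lx T c = z2 L m c j
  zero : ∀ x, ¬ ((∃ c ∈ sp T v, ‖pV U v x - c‖ < r) ∨ r⁻¹ < ‖pV U v x‖) → lam x = 0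
  deg : ∀ (hv : v ∈ Vs T) [Fintype (II U)] (E : ConnectedComponents (XV U v)),
    (∑ c ∈ sp T v, ∑ᶠ x ∈ {x : XV U v | pV U v x = c + (r / 2 : ℝ) ∧
      (x : ConnectedComponents (XV U v)) = E}, lam x) +
    (∑ᶠ x ∈ {x : XV U v | pV U v x = ((2 * r⁻¹ : ℝ) : ℂ) ∧
      (x : ConnectedComponents (XV U v)) = E}, lam x) = dg (Mx L) (fun E => (m E : ℝ)) ⟨⟨v, hv⟩, E⟩

variable (S) in
/-- no kills, final form -/
def empD : DKill S (∅ : Finset (Ch T.m)) where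
  κ := ∅
  t := fun _ => 0
  a := fun _ => 0
  b := fun _ => 0
  t_pos := fun _ h => absurd h (Set.notMem_empty _)
  ab_pos := fun _ h => absurd h (Set.notMem_empty _)
  mem := fun _ h => absurd h (Set.notMem_empty _)
  ex := ⟨1, one_pos, fun _ h => absurd h (Set.notMem_empty _)⟩

lemma d1_empD (L : Lab U S) (y : II U → ℝ) (c : Ch T.m) (j : Fin T.d) :
    d1 L y (empD S) c j = s1 L y (emp S) c j := by
  classical
  unfold d1 s1
  have h1 : dk1 (empD S) c j = 0 := by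
    unfold dk1
    exact if_neg (Set.notMem_empty _)
  rw [h1, tk_emp]

lemma d2_empD (L : Lab U S) (y : II U → ℝ) (c : Ch T.m) (j : Fin T.d) :
    d2 L y (empD S) c j = s2 L y (emp S) c j := by
  classical
  unfold d2 s2
  have h1 : dk2 (empD S) c j = 0 := by
    unfold dk2
    exact if_neg (Set.notMem_empty _)
  rw [h1, tk_emp]

/-- the exponents exist -/
theorem exists_lamD {L : Lab U S} (hW : LabWD L) (m : II U → ℕ) {v : Vtx} (hv : v ∈ Vs T) :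
    ∃ r lam, LamD L m v r lam := by
  classical
  have hE : EndStmt L := End_636.endStmt L
  set y : II U → ℝ := fun E => (m E : ℝ) with hy
  have hP1 : ∀ c₀ : ℂ, ∃ (lam : XV U v → ℝ) (r₀ : ℝ), c₀ ∈ sp T v → 0 < r₀ ∧
      (∀ x, ‖pV U v x - c₀‖ < r₀ → ∀ᶠ x' in 𝓝 x, lam x' = lam x) ∧
      (∀ c, Ok S c → ¬ IsV c → v1 T c = some v → cx T c = c₀ → ∀ γ, End1 U S c v γ → ∀ j,
        ∀ b : ℂ, 0 < ‖b‖ → ‖b‖ ^ lx T c < r₀ → ‖b‖ < 2 * S.r c →
        lam (γ j b) * lx T c = s1 L y (emp S) c j + 0) ∧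
      (∀ w : ℂ, 0 < ‖w - c₀‖ → ‖w - c₀‖ < r₀ → ∀ E : ConnectedComponents (XV U v),
        ∑ᶠ x ∈ {x : XV U v | pV U v x = w ∧ (x : ConnectedComponents (XV U v)) = E}, lam x =
          ∑ c ∈ (NC S).filter (fun c => v1 T c = some v ∧ cx T c = c₀), ∑ j,
            if L.e1 c j = some ⟨⟨v, hv⟩, E⟩ then (s1 L y (emp S) c j + 0) / lx T c
              else 0) := by
    intro c₀
    by_cases hc₀ : c₀ ∈ sp T v
    · obtain ⟨lam, r₀, q1, q2, q3, q4⟩ := P1 hE hW y (empD S) 0 hv hc₀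
      refine ⟨lam, r₀, fun _ => ⟨q1, q2, fun c hc hn h1 h2 γ hγ j b e1 e2 e3 => ?_,
        fun w h1 h2 E => ?_⟩⟩
      · rw [q3 c hc hn h1 h2 γ hγ j b e1 e2 e3, d1_empD]
      · rw [q4 w h1 h2 E]
        simp only [d1_empD]
    · exact ⟨fun _ => 0, 0, fun h => absurd h hc₀⟩
  choose lam₁ r₁ hP1 using hP1
  obtain ⟨lam₂, r₂, hr₂, a1, a2', a3'⟩ := P2 hE hW y (empD S) 0 hv
  have a2 : ∀ c, Ok S c → v2 T c = some v → ∀ γ, End2 U S c v γ → ∀ j,
      ∀ b : ℂ, 0 < ‖b‖ → ‖b‖ ^ lx T c < r₂ → ‖b‖ < 2 * S.r c →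
      lam₂ (γ j b) * lx T c = s2 L y (emp S) c j + 0 := by
    intro c hc h1 γ hγ j b e1 e2 e3
    rw [a2' c hc h1 γ hγ j b e1 e2 e3, d2_empD]
  have a3 : ∀ w : ℂ, r₂⁻¹ < ‖w‖ → ∀ E : ConnectedComponents (XV U v),
      ∑ᶠ x ∈ {x : XV U v | pV U v x = w ∧ (x : ConnectedComponents (XV U v)) = E}, lam₂ x =
        ∑ j, if L.e2 (ec S v) j = some ⟨⟨v, hv⟩, E⟩ then
          (s2 L y (emp S) (ec S v) j + 0) / lx T (ec S v) else 0 := by
    intro w hw E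
    rw [a3' w hw E]
    simp only [d2_empD]
  have hr : ∀ᶠ r in 𝓝[>] (0 : ℝ), Wt_258.Sep (sp T v) r ∧ r < 1 ∧
      (∀ c ∈ NC S, ∀ c' ∈ NC S, r < (S.r c') ^ (lx T c)) ∧ (∀ c ∈ sp T v, r < r₁ c) ∧ r < r₂ := by
    refine (ev_sep _).and (Eventually.and (ev_small one_pos) (Eventually.and ?_
      (Eventually.and ?_ (ev_small hr₂))))
    · rw [Finset.eventually_all]
      intro c hc
      rw [Finset.eventually_all]
      intro c' hc'
      exact ev_small (pow_pos (S.pos c') _)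
    · rw [Finset.eventually_all]
      intro c hc
      exact ev_small (hP1 c hc).1
  obtain ⟨r, hs, hr1, hrad, hr3, hr4⟩ := hr.exists
  have hr0 := hs.pos
  have hri : 0 < r⁻¹ := inv_pos.2 hr0
  set lam : XV U v → ℝ := fun x => if h : ∃ c ∈ sp T v, ‖pV U v x - c‖ < r then
    lam₁ h.choose x else if r⁻¹ < ‖pV U v x‖ then lam₂ x else 0 with hlam
  have G1 : ∀ c ∈ sp T v, ∀ x, ‖pV U v x - c‖ < r → lam x = lam₁ c x := by
    intro c hc x hx
    have hex : ∃ c ∈ sp T v, ‖pV U v x - c‖ < r := ⟨c, hc, hx⟩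
    have h1 : lam x = lam₁ hex.choose x := by rw [hlam]; exact dif_pos hex
    obtain ⟨h2, h3⟩ := hex.choose_spec
    have h4 : hex.choose = c := by
      by_contra hne
      have h5 := hs.sep _ h2 c hc hne
      have h6 : ‖hex.choose - c‖ ≤ ‖pV U v x - hex.choose‖ + ‖pV U v x - c‖ := by
        have : hex.choose - c = -(pV U v x - hex.choose) + (pV U v x - c) := by ring
        rw [this]
        exact (norm_add_le _ _).trans (by rw [norm_neg])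
      linarith
    rw [h1, h4]
  have hno : ∀ x, r⁻¹ < ‖pV U v x‖ → ¬ ∃ c ∈ sp T v, ‖pV U v x - c‖ < r := by
    rintro x hx ⟨c, hc, hxc⟩
    have h1 := hs.inf c hc
    have h2 : ‖pV U v x‖ ≤ ‖pV U v x - c‖ + ‖c‖ := by
      have : pV U v x = (pV U v x - c) + c := by ring
      calc ‖pV U v x‖ = ‖(pV U v x - c) + c‖ := by rw [← this]
        _ ≤ _ := norm_add_le _ _
    linarith
  have G2 : ∀ x, r⁻¹ < ‖pV U v x‖ → lam x = lam₂ x := by
    intro x hx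
    rw [hlam]
    simp only
    rw [dif_neg (hno x hx), if_pos hx]
  have hcont := Tb_941.continuous_pV (U := U) v
  refine ⟨r, lam, hs, hr1, hrad, ?_, ?_, ?_, ?_, ?_⟩
  · rintro x (⟨c, hc, hx⟩ | hx)
    · have h1 : ∀ᶠ x' in 𝓝 x, ‖pV U v x' - c‖ < r :=
        (hcont.sub continuous_const).norm.continuousAt.eventually (gt_mem_nhds hx)
      filter_upwards [h1, (hP1 c hc).2.1 x (hx.trans (hr3 c hc))] with x' h2 h3
      rw [G1 c hc x' h2, G1 c hc x hx, h3]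
    · have h1 : ∀ᶠ x' in 𝓝 x, r⁻¹ < ‖pV U v x'‖ :=
        hcont.norm.continuousAt.eventually (lt_mem_nhds hx)
      filter_upwards [h1, a1 x (lt_trans ((inv_lt_inv₀ hr₂ hr0).2 hr4) hx)] with x' h2 h3
      rw [G2 x' h2, G2 x hx, h3]
  · intro c hc hn h1 γ hγ j b hb hbr
    have hcx := cx_mem hn h1
    have hbS : ‖b‖ < S.r c := by
      refine lt_of_pow_lt_pow_left₀ (lx T c) (S.pos c).le (hbr.trans ?_)
      exact hrad c (mem_NC.2 ⟨hc, hn⟩) c (mem_NC.2 ⟨hc, hn⟩)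
    have hb2 : ‖b‖ < 2 * S.r c := by linarith [S.pos c]
    have hbm : b ∈ PDv S c := ⟨Or.inr hb, hb2⟩
    have hpr := hγ.pr j b hbm
    have h2 : ‖pV U v (γ j b) - cx T c‖ < r := by
      rw [hpr, add_sub_cancel_left, norm_pow]; exact hbr
    rw [G1 _ hcx _ h2, (hP1 _ hcx).2.2.1 c hc hn h1 rfl γ hγ j b hb (hbr.trans (hr3 _ hcx)) hb2,
      add_zero, s1_emp]
  · intro c hc h1 γ hγ j b hb hbr
    have hn : ¬ IsV c := by
      intro hV
      cases c with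
      | edge i k k' => exact hV
      | leg i => exact hV
      | vert i k w => simp [v2] at h1
    have hbS : ‖b‖ < S.r c := by
      refine lt_of_pow_lt_pow_left₀ (lx T c) (S.pos c).le (hbr.trans ?_)
      exact hrad c (mem_NC.2 ⟨hc, hn⟩) c (mem_NC.2 ⟨hc, hn⟩)
    have hb2 : ‖b‖ < 2 * S.r c := by linarith [S.pos c]
    have hpr := hγ.pr j b ⟨hb, hb2⟩
    have h2 : r⁻¹ < ‖pV U v (γ j b)‖ := by
      rw [hpr, norm_inv, norm_pow]
      exact (inv_lt_inv₀ hr0 (pow_pos hb _)).2 hbr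
    rw [G2 _ h2, a2 c hc h1 γ hγ j b hb (hbr.trans hr4) hb2, add_zero, s2_emp]
  · intro x hx
    rw [hlam]
    simp only
    rw [dif_neg fun h => hx (Or.inl h), if_neg fun h => hx (Or.inr h)]
  · intro hv' _ E
    have n1 : ∀ c : ℂ, ‖(c + (r / 2 : ℝ) : ℂ) - c‖ = r / 2 := fun c => by
      rw [add_sub_cancel_left, Complex.norm_real, Real.norm_of_nonneg (by linarith)]
    have n2 : ‖((2 * r⁻¹ : ℝ) : ℂ)‖ = 2 * r⁻¹ := by
      rw [Complex.norm_real, Real.norm_of_nonneg (by linarith)]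
    have m1 : ∀ c ∈ sp T v, ∑ᶠ x ∈ {x : XV U v | pV U v x = c + (r / 2 : ℝ) ∧
        (x : ConnectedComponents (XV U v)) = E}, lam x =
        ∑ c' ∈ (NC S).filter (fun c' => v1 T c' = some v ∧ cx T c' = c), ∑ j,
        if L.e1 c' j = some ⟨⟨v, hv⟩, E⟩ then (s1 L y (emp S) c' j + 0) / lx T c' else 0 := by
      intro c hc
      have m2 := (hP1 c hc).2.2.2 (c + (r / 2 : ℝ)) (by rw [n1]; linarith)
        (by rw [n1]; linarith [hr3 c hc]) E
      rw [← m2]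
      refine finsum_mem_congr rfl fun x hx => ?_
      exact G1 c hc x (by rw [hx.1, n1]; linarith)
    have m3 : ∑ᶠ x ∈ {x : XV U v | pV U v x = ((2 * r⁻¹ : ℝ) : ℂ) ∧
        (x : ConnectedComponents (XV U v)) = E}, lam x =
        ∑ j, if L.e2 (ec S v) j = some ⟨⟨v, hv⟩, E⟩ then
        (s2 L y (emp S) (ec S v) j + 0) / lx T (ec S v) else 0 := by
      rw [← a3 _ (by
        rw [n2]
        have := (inv_lt_inv₀ hr₂ hr0).2 hr4
        linarith) E]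
      refine finsum_mem_congr rfl fun x hx => ?_
      exact G2 x (by rw [hx.1, n2]; linarith)
    have m4 : ∑ c ∈ sp T v, ∑ c' ∈ (NC S).filter (fun c' => v1 T c' = some v ∧ cx T c' = c), ∑ j,
        (if L.e1 c' j = some ⟨⟨v, hv⟩, E⟩ then (s1 L y (emp S) c' j + 0) / lx T c' else 0) =
        ∑ c' ∈ NC S, ∑ j,
          (if L.e1 c' j = some ⟨⟨v, hv⟩, E⟩ then (s1 L y (emp S) c' j + 0) / lx T c' else 0) := by
      simp only [Finset.sum_filter]
      rw [Finset.sum_comm]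
      refine Finset.sum_congr rfl fun c' hc' => ?_
      by_cases h1 : v1 T c' = some v
      · simp only [h1, true_and]
        rw [Finset.sum_ite_eq (sp T v) (cx T c'), if_pos (cx_mem (mem_NC.1 hc').2 h1)]
      · have h2 : ∀ j, ¬ L.e1 c' j = some ⟨⟨v, hv⟩, E⟩ := by
          intro j h
          have h3 := L.v_e1 c' (mem_NC.1 hc').1 j
          rw [h] at h3
          exact h1 h3.symm
        simp only [h1, false_and, if_false, h2, Finset.sum_const_zero]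
    have m5 := HvS_636.sumE L y (emp S) (fun c hc => absurd hc (Finset.notMem_empty c))
      ⟨⟨v, hv⟩, E⟩
    simp only [Finset.filter_empty, Finset.sum_empty, add_zero] at m5
    rw [Finset.sum_congr rfl m1, m4, m3]
    simp only [add_zero]
    exact m5

end Crest.Agent.R257.Exf_843
end
end

-- ▼ part R257/Exf4_843
section

/-!
# Row 257, ExN (helper843), file 4: `exf_N`, the invariant zero free function on a null component
-/

set_option autoImplicit false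
set_option linter.unusedSectionVars false

open Polynomial Set Filter Topology Metric
open Crest.AlgGeometry.Germ Crest.Agent.R257.AJ387 Crest.Agent.R257.T387
open Crest.Agent.R257.Gr1_157 Crest.Agent.R257.HoB_843 Crest.Agent.R257.BP_258
open Crest.Agent.R257.Wt_258 Crest.Agent.R257.Cpt1_419 Crest.Agent.R257.Hv_174
open Crest.Agent.R257.Rsn_843 Crest.Agent.R257.Tb3_941 Crest.Agent.R257.Rot1_558
open Crest.Agent.R257.Vt1_558 Crest.Agent.R257.Vt3_558 Crest.Agent.R257.Vt4_558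

noncomputable section

namespace Crest.Agent.R257.Exf_843

variable {f : (Fin 3 → ℂ) → ℂ} {T : TB f} {S : Sh T} {U : Tub T}

namespace LamD

variable {L : Lab U S} {m : II U → ℕ} {v : Vtx} {r : ℝ} {lam : XV U v → ℝ}

lemma lt_r (h : LamD L m v r lam) {c c' : Ch T.m} (hc : c ∈ NC S) (hc' : c' ∈ NC S) {b : ℂ}
    (hb : ‖b‖ ^ lx T c < r) : ‖b‖ < S.r c' :=
  lt_of_pow_lt_pow_left₀ (lx T c) (S.pos c').le (hb.trans (h.rad c hc c' hc'))

lemma near (h : LamD L m v r lam) (hv : v ∈ Vs T) {x : XV U v}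
    (hx : ∃ c ∈ sp T v, ‖pV U v x - c‖ < r) : ∃ c, Ok S c ∧ ¬ IsV c ∧ v1 T c = some v ∧
      ∃ γ, End1 U S c v γ ∧ ∃ j b, 0 < ‖b‖ ∧ ‖b‖ ^ lx T c < r ∧ γ j b = x := by
  obtain ⟨c₀, hc₀, hx⟩ := hx
  obtain ⟨c, hc, hn, h1, hcx⟩ := exists_att S hv hc₀
  obtain ⟨γ, hγ, -⟩ := (End_636.endStmt L c hc ⟨v, hv⟩).1 h1
  have hl : 0 < lx T c := lx_pos hc.1
  obtain ⟨b, hb⟩ := IsAlgClosed.exists_pow_nat_eq (pV U v x - c₀) hl
  have hnb : ‖b‖ ^ lx T c = ‖pV U v x - c₀‖ := by rw [← norm_pow, hb]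
  have hne : pV U v x ≠ c₀ := fun h' => x.2.2.1 (by
    have h2 : x.1.1 = c₀ := h'
    rw [h2]; exact hc₀)
  have hb0 : 0 < ‖b‖ := by
    rw [norm_pos_iff]
    rintro rfl
    rw [zero_pow hl.ne'] at hb
    exact hne (sub_eq_zero.1 hb.symm)
  have hbr : ‖b‖ ^ lx T c < r := by rw [hnb]; exact hx
  have hm := mem_NC.2 ⟨hc, hn⟩
  have hbS := h.lt_r hm hm hbr
  obtain ⟨j, hj⟩ := hγ.surj b ⟨Or.inr hb0, by linarith [S.pos c]⟩ x (by rw [hb, hcx]; ring)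
  exact ⟨c, hc, hn, h1, γ, hγ, j, b, hb0, hbr, hj⟩

lemma ec_NC (hv : v ∈ Vs T) : ec S v ∈ NC S := mem_NC.2 ⟨Lab_931.ok_ec S hv, by simp [ec, IsV]⟩

lemma far (h : LamD L m v r lam) (hv : v ∈ Vs T) {x : XV U v}
    (hx : r⁻¹ < ‖pV U v x‖) : 
      ∃ γ, End2 U S (ec S v) v γ ∧ ∃ j b, 0 < ‖b‖ ∧ ‖b‖ ^ lx T (ec S v) < r ∧ γ j b = x := by
  have hc := Lab_931.ok_ec S hv
  obtain ⟨γ, hγ, -⟩ := (End_636.endStmt L _ hc ⟨v, hv⟩).2 (Lab_931.v2_ec S hv)
  have hl : 0 < lx T (ec S v) := lx_pos hc.1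
  obtain ⟨b, hb⟩ := IsAlgClosed.exists_pow_nat_eq (pV U v x)⁻¹ hl
  have hr := h.sep.pos
  have hw : 0 < ‖pV U v x‖ := (inv_pos.2 hr).trans hx
  have hnb : ‖b‖ ^ lx T (ec S v) = ‖pV U v x‖⁻¹ := by rw [← norm_pow, hb, norm_inv]
  have hb0 : 0 < ‖b‖ := by
    rw [norm_pos_iff]
    rintro rfl
    rw [norm_zero, zero_pow hl.ne'] at hnb
    exact (inv_pos.2 hw).ne hnb
  have hbr : ‖b‖ ^ lx T (ec S v) < r := by
    rw [hnb]; exact inv_lt_of_inv_lt₀ hr hx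
  have hbS := h.lt_r (ec_NC hv) (ec_NC hv) hbr
  obtain ⟨j, hj⟩ := hγ.surj b ⟨hb0, by linarith [S.pos (ec S v)]⟩ x (by rw [hb, inv_inv])
  exact ⟨γ, hγ, j, b, hb0, hbr, hj⟩

/-- integrality -/
lemma int (h : LamD L m v r lam) (hv : v ∈ Vs T) (hD : ∀ E, KiD_121.Dv T ∣ m E) (x : XV U v) :
    ∃ z : ℤ, lam x = z * T.N := by
  by_cases hx : (∃ c ∈ sp T v, ‖pV U v x - c‖ < r) ∨ r⁻¹ < ‖pV U v x‖
  · rcases hx with hx | hx
    · obtain ⟨c, hc, hn, h1, γ, hγ, j, b, hb, hbr, rfl⟩ := h.near hv hx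
      obtain ⟨z, hz⟩ := z1_dvd L hD hc.1 j
      have h2 := h.e1 c hc hn h1 γ hγ j b hb hbr
      have hl : (0 : ℝ) < lx T c := by exact_mod_cast lx_pos hc.1
      refine ⟨z, ?_⟩
      rw [hz] at h2
      push_cast at h2
      exact mul_right_cancel₀ hl.ne' h2
    · obtain ⟨γ, hγ, j, b, hb, hbr, rfl⟩ := h.far hv hx
      have hc := Lab_931.ok_ec S hv
      obtain ⟨z, hz⟩ := z2_dvd L hD hc.1 j
      have h2 := h.e2 _ hc (Lab_931.v2_ec S hv) γ hγ j b hb hbr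
      have hl : (0 : ℝ) < lx T (ec S v) := by exact_mod_cast lx_pos hc.1
      refine ⟨z, ?_⟩
      rw [hz] at h2
      push_cast at h2
      exact mul_right_cancel₀ hl.ne' h2
  · exact ⟨0, by rw [h.zero x hx]; simp⟩

end LamD

lemma near_smv {hG : GalPt T} {E : II U} (γ : GE hG E) {r : ℝ} {x : XV U E.1.1}
    (h : (∃ c ∈ sp T E.1.1, ‖pV U E.1.1 x - c‖ < r) ∨ r⁻¹ < ‖pV U E.1.1 x‖) :
    (∃ c ∈ sp T E.1.1, ‖pV U E.1.1 (smv hG γ x) - c‖ < r) ∨
      r⁻¹ < ‖pV U E.1.1 (smv hG γ x)‖ := by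
  have hξ := vl_pow γ.1
  have h1 : pV U E.1.1 (smv hG γ x) = cw T (vl γ.1) E.1.1 * pV U E.1.1 x :=
    (smv_spec hG γ).2.2.2.2.1 x
  rcases h with ⟨c, hc, hx⟩ | hx
  · left
    refine ⟨cw T (vl γ.1) E.1.1 * c, ?_, ?_⟩
    · have h2 := (mem_sp_rv hG hξ (v := E.1.1) (w := c)).2 hc
      have h3 : rv T (vl γ.1) E.1.1 = E.1.1 := GE_fst hG γ.2
      rw [h3] at h2
      exact h2
    · rw [h1, ← mul_sub, norm_mul, cw_norm hξ, one_mul]; exact hx
  · right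
    rw [h1, norm_mul, cw_norm hξ, one_mul]; exact hx

/-- invariance -/
lemma lam_smv {hG : GalPt T} {E : II U} {L : Lab U S} {m : II U → ℕ} {r : ℝ}
    {lam : XV U E.1.1 → ℝ} (h : LamD L m E.1.1 r lam)
    (hm : ∀ (γ : Ru T) (E : II U), m (piH hG γ E) = m E) (γ : GE hG E) (x : XV U E.1.1) :
    lam (smv hG γ x) = lam x := by
  have hv := E.1.2
  have hξ := vl_pow γ.1
  have h3 : rv T (vl γ.1) E.1.1 = E.1.1 := GE_fst hG γ.2
  by_cases hx : (∃ c ∈ sp T E.1.1, ‖pV U E.1.1 x - c‖ < r) ∨ r⁻¹ < ‖pV U E.1.1 x‖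
  · rcases hx with hx | hx
    · obtain ⟨c, hc, hn, h1, γ₁, hγ₁, j, b, hb, hbr, rfl⟩ := h.near hv hx
      obtain ⟨τ, hτ⟩ := exists_tau hG hξ S hc.1
      have hc' : Ok S (rc T (vl γ.1) c) := ok_rc S hG hξ hc
      have hn' : ¬ IsV (rc T (vl γ.1) c) := fun h' => hn ((isV_rc _ c).1 h')
      have h1' : v1 T (rc T (vl γ.1) c) = some E.1.1 := by
        rw [v1_rc hG hξ, h1]; exact congrArg some h3
      obtain ⟨γ₂, hγ₂, -⟩ := (End_636.endStmt L _ hc' ⟨E.1.1, hv⟩).1 h1'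
      have hm1 := mem_NC.2 ⟨hc, hn⟩
      have hm2 := mem_NC.2 ⟨hc', hn'⟩
      have b1 := h.lt_r hm1 hm1 hbr
      have b2 := h.lt_r hm1 hm2 hbr
      have b3 : ‖b‖ < min (S.r c) (S.r (rc T (vl γ.1) c)) := lt_min b1 b2
      have hnb : ‖(rm T (vl γ.1) c).2 * b‖ = ‖b‖ := rm_pow_norm hξ c b
      have e1 := act_end1 γ hγ₁ hγ₂ (hτ j) (b := b) ⟨Or.inr hb, by linarith [S.pos c]⟩
        (by linarith [lt_min (S.pos c) (S.pos (rc T (vl γ.1) c))])
        ⟨Or.inr (by rw [hnb]; exact hb), by rw [hnb]; linarith [S.pos (rc T (vl γ.1) c)]⟩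
      have e2 := h.e1 _ hc' hn' h1' γ₂ hγ₂ (τ j) ((rm T (vl γ.1) c).2 * b) (by rw [hnb]; exact hb)
        (by rw [hnb, lx_rc]; exact hbr)
      have e3 := h.e1 c hc hn h1 γ₁ hγ₁ j b hb hbr
      rw [e1, lx_rc, (z1_rc hm γ.1 hc (hτ j)).1, ← e3] at e2
      have hl : (0 : ℝ) < lx T c := by exact_mod_cast lx_pos hc.1
      exact mul_right_cancel₀ hl.ne' e2
    · obtain ⟨γ₁, hγ₁, j, b, hb, hbr, rfl⟩ := h.far hv hx
      have hc := Lab_931.ok_ec S hv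
      have hn : ¬ IsV (ec S E.1.1) := by simp [ec, IsV]
      obtain ⟨τ, hτ⟩ := exists_tau hG hξ S hc.1
      have hc' : Ok S (rc T (vl γ.1) (ec S E.1.1)) := ok_rc S hG hξ hc
      have hn' : ¬ IsV (rc T (vl γ.1) (ec S E.1.1)) := fun h' => hn ((isV_rc _ _).1 h')
      have h1' : v2 T (rc T (vl γ.1) (ec S E.1.1)) = some E.1.1 := by
        rw [v2_rc hG hξ, Lab_931.v2_ec S hv]; exact congrArg some h3
      obtain ⟨γ₂, hγ₂, -⟩ := (End_636.endStmt L _ hc' ⟨E.1.1, hv⟩).2 h1'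
      have hm1 := mem_NC.2 ⟨hc, hn⟩
      have hm2 := mem_NC.2 ⟨hc', hn'⟩
      have b1 := h.lt_r hm1 hm1 hbr
      have b2 := h.lt_r hm1 hm2 hbr
      have b3 : ‖b‖ < min (S.r (ec S E.1.1)) (S.r (rc T (vl γ.1) (ec S E.1.1))) := lt_min b1 b2
      have hnb : ‖(rm T (vl γ.1) (ec S E.1.1)).1 * b‖ = ‖b‖ := rm_pow_norm1 hξ _ b
      have e1 := act_end2 γ hγ₁ hγ₂ (hτ j) (a := b) ⟨hb, by linarith [S.pos (ec S E.1.1)]⟩
        (by linarith [lt_min (S.pos (ec S E.1.1)) (S.pos (rc T (vl γ.1) (ec S E.1.1)))])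
        ⟨by rw [hnb]; exact hb, by rw [hnb]; linarith [S.pos (rc T (vl γ.1) (ec S E.1.1))]⟩
      have e2 := h.e2 _ hc' h1' γ₂ hγ₂ (τ j) ((rm T (vl γ.1) (ec S E.1.1)).1 * b)
        (by rw [hnb]; exact hb) (by rw [hnb, lx_rc]; exact hbr)
      have e3 := h.e2 _ hc (Lab_931.v2_ec S hv) γ₁ hγ₁ j b hb hbr
      rw [e1, lx_rc, (z1_rc hm γ.1 hc (hτ j)).2, ← e3] at e2
      have hl : (0 : ℝ) < lx T (ec S E.1.1) := by exact_mod_cast lx_pos hc.1
      exact mul_right_cancel₀ hl.ne' e2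
  · rw [h.zero x hx, h.zero]
    intro h4
    refine hx ?_
    have h5 := near_smv γ⁻¹ h4
    rw [← smv_mul, inv_mul_cancel, smv_one] at h5
    exact h5

/-- **the invariant zero free function on a null component** -/
theorem exf_N (rsn : RSNStmt) [Fintype (II U)] {hG : GalPt T} {L : Lab U S} (hW : LabWD L)
    {E₀ : II U} (hTh : ¬ ThE hG E₀) {m : II U → ℕ} (hD : ∀ E, KiD_121.Dv T ∣ m E)
    (hm : ∀ (γ : Ru T) (E : II U), m (piH hG γ E) = m E)
    (hdg : dg (Mx L) (fun E => (m E : ℝ)) E₀ = 0) :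
    ∃ fX : XV U E₀.1.1 → ℂ, HolX (pV U E₀.1.1) fX ∧
      (∀ q : XV U E₀.1.1, (q : ConnectedComponents (XV U E₀.1.1)) ≠ E₀.2 → fX q = 0) ∧
      (∀ q : XV U E₀.1.1, (q : ConnectedComponents (XV U E₀.1.1)) = E₀.2 → fX q ≠ 0) ∧
      (∀ (γ : GE hG E₀) (q : XV U E₀.1.1), (q : ConnectedComponents (XV U E₀.1.1)) = E₀.2 →
        fX (smv hG γ q) = fX q) ∧
      ∃ C r' : ℝ, 0 < C ∧ 0 < r' ∧ ∀ c, Ok S c →
        (¬ IsV c → v1 T c = some E₀.1.1 → ∀ γ, End1 U S c E₀.1.1 γ → ∀ j, ∀ b : ℂ, 0 < ‖b‖ →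
          ‖b‖ < r' → ‖fX (γ j b)‖ ≤ C * ‖b‖ ^ (z1 L m c j)) ∧
        (v2 T c = some E₀.1.1 → ∀ γ, End2 U S c E₀.1.1 γ → ∀ j, ∀ b : ℂ, 0 < ‖b‖ →
          ‖b‖ < r' → ‖fX (γ j b)‖ ≤ C * ‖b‖ ^ (z2 L m c j)) := by
  have hv := E₀.1.2
  obtain ⟨r, lam, h⟩ := exists_lamD hW m hv
  have hr := h.sep.pos
  have hN : (0 : ℝ) < T.N := by exact_mod_cast T.N_pos
  set mu : XE E₀ → ℤ := fun x => round (lam (vaX x)) with hmu
  have hmu1 : ∀ x, ∃ z : ℤ, mu x = z * T.N ∧ lam (vaX x) = z * T.N := by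
    intro x
    obtain ⟨z, hz⟩ := h.int hv hD (vaX x)
    refine ⟨z, ?_, hz⟩
    simp only [hmu]
    rw [hz]
    have : ((z : ℝ) * T.N) = ((z * T.N : ℤ) : ℝ) := by push_cast; ring
    rw [this, round_intCast]
  have hmul : ∀ x, (mu x : ℝ) = lam (vaX x) := by
    intro x
    obtain ⟨z, h1, h2⟩ := hmu1 x
    rw [h1, h2]; push_cast; ring
  have hfin : Finset ℂ := sp T E₀.1.1
  have hsmul : ∀ (γ : GE hG E₀) (x : XE E₀),
      vaX (letI := mulAct hG E₀; γ • x) = smv hG γ (vaX x) := fun γ x => rfl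
  obtain ⟨g, C, g1, g2, g3, hC, g4, g5⟩ := rsn (sp T E₀.1.1) (XE E₀) inferInstance inferInstance
    inferInstance (covE E₀) (GE hG E₀) inferInstance inferInstance (mulAct hG E₀) (chE hG E₀) T.d
    mu r h.sep (fib_card E₀) (continuous_smulE hG) (pr_smulE hG) (chE_norm hG E₀)
    (noTh_of hTh hr) (by
      intro x hx
      have h1 := h.loc (vaX x) hx
      have h2 : Tendsto (vaX : XE E₀ → XV U E₀.1.1) (𝓝 x) (𝓝 (vaX x)) :=
        (ind_vaX E₀).continuous.tendsto x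
      filter_upwards [h2.eventually h1] with y hy
      simp only [hmu]
      rw [hy]) (by
      intro γ x
      simp only [hmu]
      rw [hsmul, lam_smv h hm γ]) (by
      intro x
      obtain ⟨z, h1, h2⟩ := hmu1 x
      rw [h1]
      exact Dvd.dvd.mul_left (card_dvd hG E₀) z) (by
      have n1 : ∀ c : ℂ, ‖(c + (r / 2 : ℝ) : ℂ) - c‖ = r / 2 := fun c => by
        rw [add_sub_cancel_left, Complex.norm_real, Real.norm_of_nonneg (by linarith)]
      have hri : 0 < r⁻¹ := inv_pos.2 hr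
      have n2 : ‖((2 * r⁻¹ : ℝ) : ℂ)‖ = 2 * r⁻¹ := by
        rw [Complex.norm_real, Real.norm_of_nonneg (by linarith)]
      refine ⟨fun o => o.elim ((2 * r⁻¹ : ℝ) : ℂ) (fun c => c + (r / 2 : ℝ)), ?_, ?_, ?_⟩
      · intro c hc
        show 0 < ‖(c + (r / 2 : ℝ) : ℂ) - c‖ ∧ ‖(c + (r / 2 : ℝ) : ℂ) - c‖ < r
        rw [n1]
        constructor <;> linarith
      · show r⁻¹ < ‖((2 * r⁻¹ : ℝ) : ℂ)‖
        rw [n2]
        linarith
      · have h1 := h.deg hv E₀.2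
        have h2 : (⟨⟨E₀.1.1, hv⟩, E₀.2⟩ : II U) = E₀ := rfl
        rw [h2, hdg] at h1
        have h3 : (((∑ c ∈ sp T E₀.1.1, ∑ᶠ x ∈ {x : XE E₀ | ((covE E₀).p x).1 =
            c + (r / 2 : ℝ)}, mu x) + ∑ᶠ x ∈ {x : XE E₀ | ((covE E₀).p x).1 =
            ((2 * r⁻¹ : ℝ) : ℂ)}, mu x : ℤ) : ℝ) = 0 := by
          rw [Int.cast_add, Int.cast_sum]
          rw [cast_sum mu lam _ fun x _ => hmul x]
          rw [Finset.sum_congr rfl fun c _ => cast_sum mu lam (c + (r / 2 : ℝ)) fun x _ => hmul x]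
          exact h1
        exact_mod_cast h3)
  refine ⟨extX g, holX_ext g1, fun q hq => extX_not g hq, fun q hq => ?_, fun γ q hq => ?_,
    C, r / 2, hC, by linarith, fun c hc => ⟨?_, ?_⟩⟩
  · rw [extX_of g hq]; exact g2 _
  · have h1 : smv hG γ q = vaX (letI := mulAct hG E₀; γ • (mkX q hq)) := rfl
    rw [h1, extX_va, g3 γ (mkX q hq), extX_of g hq]
  · intro hn h1 γ hγ j b hb hbr
    by_cases hq : ((γ j b : XV U E₀.1.1) : ConnectedComponents (XV U E₀.1.1)) = E₀.2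
    · have hl : 0 < lx T c := lx_pos hc.1
      have hle : ‖b‖ ^ lx T c ≤ ‖b‖ :=
        pow_le_of_le_one (norm_nonneg _) (by linarith [h.lt1]) hl.ne'
      have hbl : ‖b‖ ^ lx T c < r := by linarith
      have hm1 := mem_NC.2 ⟨hc, hn⟩
      have b1 := h.lt_r hm1 hm1 hbl
      have hpr := hγ.pr j b ⟨Or.inr hb, by linarith [S.pos c]⟩
      have e1 : ‖((covE E₀).p (mkX _ hq)).1 - cx T c‖ = ‖b‖ ^ lx T c := by
        show ‖pV U E₀.1.1 (γ j b) - cx T c‖ = _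
        rw [hpr, add_sub_cancel_left, norm_pow]
      have e2 := (g4 (cx T c) (cx_mem hn h1) (mkX _ hq) (by rw [e1]; linarith)).2
      have e3 := h.e1 c hc hn h1 γ hγ j b hb hbl
      have e4 : (lx T c : ℤ) * mu (mkX _ hq) = z1 L m c j := by
        have h5 : ((mu (mkX _ hq) : ℤ) : ℝ) * lx T c = z1 L m c j := by
          rw [hmul]; exact e3
        have h6 : mu (mkX _ hq) * (lx T c : ℤ) = z1 L m c j := by exact_mod_cast h5
        rw [mul_comm]; exact h6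
      rw [e1, ← zpow_natCast, ← zpow_mul, e4] at e2
      rw [extX_of g hq]
      exact e2
    · rw [extX_not g hq, norm_zero]
      exact mul_nonneg hC.le (zpow_nonneg (norm_nonneg _) _)
  · intro h1 γ hγ j b hb hbr
    by_cases hq : ((γ j b : XV U E₀.1.1) : ConnectedComponents (XV U E₀.1.1)) = E₀.2
    · have hn : ¬ IsV c := by
        intro hV
        cases c with
        | edge i k k' => exact hV
        | leg i => exact hV
        | vert i k w => simp [v2] at h1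
      have hl : 0 < lx T c := lx_pos hc.1
      have hle : ‖b‖ ^ lx T c ≤ ‖b‖ :=
        pow_le_of_le_one (norm_nonneg _) (by linarith [h.lt1]) hl.ne'
      have hbl : ‖b‖ ^ lx T c < r := by linarith
      have hm1 := mem_NC.2 ⟨hc, hn⟩
      have b1 := h.lt_r hm1 hm1 hbl
      have hpr := hγ.pr j b ⟨hb, by linarith [S.pos c]⟩
      have e1 : ‖((covE E₀).p (mkX _ hq)).1‖ = (‖b‖ ^ lx T c)⁻¹ := by
        show ‖pV U E₀.1.1 (γ j b)‖ = _
        rw [hpr, norm_inv, norm_pow]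
      have hbp : 0 < ‖b‖ ^ lx T c := pow_pos hb _
      have e2 := (g5 (mkX _ hq) (by
        rw [e1]
        have h7 := (inv_lt_inv₀ (by linarith : (0 : ℝ) < r / 2) hbp).2 (by linarith)
        rw [inv_div] at h7
        rwa [← div_eq_mul_inv])).2
      have e3 := h.e2 c hc h1 γ hγ j b hb hbl
      have e4 : (lx T c : ℤ) * mu (mkX _ hq) = z2 L m c j := by
        have h5 : ((mu (mkX _ hq) : ℤ) : ℝ) * lx T c = z2 L m c j := by
          rw [hmul]; exact e3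
        have h6 : mu (mkX _ hq) * (lx T c : ℤ) = z2 L m c j := by exact_mod_cast h5
        rw [mul_comm]; exact h6
      rw [e1, inv_zpow', neg_neg, ← zpow_natCast, ← zpow_mul, e4] at e2
      rw [extX_of g hq]
      exact e2
    · rw [extX_not g hq, norm_zero]
      exact mul_nonneg hC.le (zpow_nonneg (norm_nonneg _) _)

end Crest.Agent.R257.Exf_843
end
end

-- ▼ part R257/ExNA_843
section

/-!
# Row 257, ExN / ExT (helper843): the orders of the function from null data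

* `exv_of_ord`, `exv_uniq`, `exv_rot` : exact orders, along an orbit;
* `null_orders` : all the orders of the function obtained from null data.
-/

set_option autoImplicit false
set_option linter.unusedSectionVars false

open Polynomial Set Filter Topology Metric
open Crest.AlgGeometry.Germ Crest.Agent.R257.Defs_219 Crest.Agent.R257.AJ387 Crest.Agent.R257.T387
open Crest.Agent.R257.Gr1_157 Crest.Agent.R257.HoB_843 Crest.Agent.R257.BP_258
open Crest.Agent.R257.Wt_258 Crest.Agent.R257.Rsn_843 Crest.Agent.R257.OrdK_82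
open Crest.Agent.R257.KB_82 Crest.Agent.R257.HoT_843 Crest.Agent.R257.Tb3_941
open Crest.Agent.R257.Rot1_558 Crest.Agent.R257.Vt1_558 Crest.Agent.R257.Vt3_558
open Crest.Agent.R257.Vt4_558

noncomputable section

namespace Crest.Agent.R257.Exf_843

variable {f : (Fin 3 → ℂ) → ℂ} {T : TB f} {S : Sh T} {U : Tub T}

/-- `th` is a function of the point of `W` -/
lemma th_wc (c : Ch T.m) (j : Fin T.d) (p : ℂ × ℂ) :
    T.th c (S.ζ c j) p = pt (wc S c j p 0) (T.base (wc S c j p 1, wc S c j p 2)) := rfl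

lemma base_rot {ξ : ℂ} (hξ : ξ ^ T.N = 1) (x : Fin 3 → ℂ) :
    pt (rot ξ x 0) (T.base (rot ξ x 1, rot ξ x 2)) = pt (x 0) (T.base (x 1, x 2)) := by
  have h1 : T.base (ξ * x 1, x 2) = T.base (x 1, x 2) := by
    unfold TB.base
    simp only [mul_pow, hξ, one_mul]
  show pt (x 0) (T.base (ξ * x 1, x 2)) = pt (x 0) (T.base (x 1, x 2))
  rw [h1]

/-- rotations do not change `th` -/
lemma th_rot {ξ : ℂ} (hξ : ξ ^ T.N = 1) {c c' : Ch T.m} {j j' : Fin T.d} {a b : ℂ}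
    (h : RotC S ξ c j c' j' a b) {p : ℂ × ℂ} (h1 : ‖p.1‖ < 2 * min (S.r c) (S.r c'))
    (h2 : ‖p.2‖ < 2 * min (S.r c) (S.r c')) :
    T.th c' (S.ζ c' j') (a * p.1, b * p.2) = T.th c (S.ζ c j) p := by
  rw [th_wc, th_wc, ← h.eq p h1 h2, base_rot hξ]

/-- `fX ∘ γ j` is analytic in a vertex chart -/
lemma fX_an {v : Vtx} {fX : XV U v → ℂ} (hX : HolX (pV U v) fX) {c : Ch T.m} (hV : IsV c)
    {γ : Fin T.d → ℂ → XV U v} (hγ : End1 U S c v γ) (j : Fin T.d) :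
    AnalyticAt ℂ (fun p : ℂ × ℂ => fX (γ j p.2)) (0, 0) := by
  have hr := S.pos c
  have hl : lx T c = 1 := by
    cases c with
    | edge i k k' => exact absurd hV id
    | leg i => exact absurd hV id
    | vert i k w => rfl
  have h1 : AnalyticAt ℂ (fX ∘ fun w => γ j (w - cx T c)) (cx T c) := by
    refine hX (cx T c) (2 * S.r c) _ (by linarith) ?_ ?_
    · refine (hγ.cont j).comp (continuous_id.sub continuous_const).continuousOn ?_
      intro w hw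
      refine ⟨Or.inl hV, ?_⟩
      simpa [dist_eq_norm] using hw
    · intro w hw
      have h3 := hγ.pr j (w - cx T c) ⟨Or.inl hV, by simpa [dist_eq_norm] using hw⟩
      rw [h3, hl, pow_one, add_sub_cancel]
  have h2 : AnalyticAt ℂ (fun p : ℂ × ℂ => p.2 + cx T c) (0, 0) :=
    analyticAt_snd.add analyticAt_const
  have h3 : AnalyticAt ℂ ((fX ∘ fun w => γ j (w - cx T c)) ∘ fun p : ℂ × ℂ => p.2 + cx T c)
      (0, 0) := by
    refine AnalyticAt.comp ?_ h2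
    simpa using h1
  refine h3.congr (Eventually.of_forall fun p => ?_)
  show fX (γ j (p.2 + cx T c - cx T c)) = fX (γ j p.2)
  rw [add_sub_cancel_right]

/-- the orders in the vertex charts, from `OrdStmt` -/
theorem exists_exv [Fintype (II U)] (hf : Iso f) (hR : RetStmt U) (L : Lab U S)
    {g : (Fin 3 → ℂ) → ℂ} (hg : AnalyticAt ℂ g 0)
    (hne : ∃ᶠ x in 𝓝 (0 : Fin 3 → ℂ), f x = 0 ∧ g x ≠ 0) :
    ∃ v : II U → ℕ, ∀ E, Exv L g E (v E) := by
  obtain ⟨v, -, hv⟩ := OrdA_578.ordStmt hf hR L g hg hne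
  refine ⟨v, fun E c hc hV j hE z hz => ?_⟩
  obtain ⟨G, hGa, hGe, hG1, -⟩ := hv c hc j (0, z) (by simpa using (S.pos c).le) hz.le
    (Or.inl ⟨by rw [hE]; simp, rfl⟩)
  refine ⟨G, hGa, ?_, (hG1 rfl E hE).1⟩
  filter_upwards [hGe] with p hp
  rw [hp, hE, e2_none L hc hV j]
  simp [yn]

/-- orders are unique -/
theorem exv_uniq (hR : RetStmt U) {L : Lab U S} {g : (Fin 3 → ℂ) → ℂ} {E : II U} {n m : ℕ}
    (h1 : Exv L g E n) (h2 : Exv L g E m) : n = m := by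
  obtain ⟨c, j, hc, hV, hE, -⟩ := exists_test hR L E ∅
  obtain ⟨G, hG, hGe, hGn⟩ := h1 c hc hV j hE 0 (by simpa using S.pos c)
  obtain ⟨G', hG', hGe', hGn'⟩ := h2 c hc hV j hE 0 (by simpa using S.pos c)
  refine le_antisymm ?_ ?_
  · refine ord_ge hG' hG ?_ hGn'
    filter_upwards [hGe, hGe'] with p q1 q2
    rw [← q1, ← q2]
  · refine ord_ge hG hG' ?_ hGn
    filter_upwards [hGe, hGe'] with p q1 q2
    rw [← q1, ← q2]

lemma lov_of_exv {L : Lab U S} {g : (Fin 3 → ℂ) → ℂ} {E : II U} {n : ℕ} (h : Exv L g E n) {r : ℝ}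
    (hr : r < n) : Lov L g E r := by
  intro c hc hV j hE z hz
  obtain ⟨G, hG, hGe, -⟩ := h c hc hV j hE z hz
  exact ⟨n, G, hr, hG, hGe⟩

/-- the orders along an orbit are equal -/
theorem exv_rot {hG : GalPt T} (hR : RetStmt U) {L : Lab U S} {g : (Fin 3 → ℂ) → ℂ} {E : II U}
    {n m : ℕ} (γ : Ru T) (h1 : Exv L g E n) (h2 : Exv L g (piH hG γ E) m) : n = m := by
  obtain ⟨c, j, hc, hV, hE, -⟩ := exists_test hR L E ∅
  have hξ := vl_pow γ
  obtain ⟨τ, hτ⟩ := exists_rotC hG hξ S hc.1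
  obtain ⟨τ', hτ'⟩ := exists_tau hG hξ S hc.1
  have hrot : RotC S (vl γ) c j (rc T (vl γ) c) (τ' j) (rm T (vl γ) c).1 (rm T (vl γ) c).2 :=
    ⟨isV_rc (vl γ) c, (rm_norm hξ c).1, (rm_norm hξ c).2, hτ' j⟩
  have hc' : Ok S (rc T (vl γ) c) := ok_rc S hG hξ hc
  have hV' : IsV (rc T (vl γ) c) := (isV_rc _ c).2 hV
  have hE' : L.e1 (rc T (vl γ) c) (τ' j) = some (piH hG γ E) := by
    rw [lab1 hG (Tb_941.retStmt U) hξ L hc (hτ' j), hE]; rfl
  have hr := S.pos c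
  have hr' := S.pos (rc T (vl γ) c)
  obtain ⟨G, hGa, hGe, hGn⟩ := h1 c hc hV j hE 0 (by simpa using hr)
  obtain ⟨G', hGa', hGe', hGn'⟩ := h2 _ hc' hV' (τ' j) hE' 0 (by simpa using hr')
  set a := (rm T (vl γ) c).1 with ha
  set b := (rm T (vl γ) c).2 with hb
  have ha0 : a ≠ 0 := norm_ne_zero_iff.1 (by rw [hrot.na]; exact one_ne_zero)
  have hb0 : b ≠ 0 := norm_ne_zero_iff.1 (by rw [hrot.nb]; exact one_ne_zero)
  have hT : Tendsto (fun p : ℂ × ℂ => ((a * p.1, b * p.2) : ℂ × ℂ)) (𝓝 ((0 : ℂ), (0 : ℂ)))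
      (𝓝 ((0 : ℂ), (0 : ℂ))) := by
    have : Continuous (fun p : ℂ × ℂ => ((a * p.1, b * p.2) : ℂ × ℂ)) := by fun_prop
    exact this.tendsto' _ _ (by simp)
  have hmin : 0 < 2 * min (S.r c) (S.r (rc T (vl γ) c)) := by
    have := lt_min hr hr'; linarith
  have e1 : ∀ᶠ p : ℂ × ℂ in 𝓝 ((0 : ℂ), (0 : ℂ)),
      ‖p.1‖ < 2 * min (S.r c) (S.r (rc T (vl γ) c)) :=
    continuousAt_fst.norm.eventually (gt_mem_nhds (by simpa using hmin))
  have e2 : ∀ᶠ p : ℂ × ℂ in 𝓝 ((0 : ℂ), (0 : ℂ)),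
      ‖p.2‖ < 2 * min (S.r c) (S.r (rc T (vl γ) c)) :=
    continuousAt_snd.norm.eventually (gt_mem_nhds (by simpa using hmin))
  -- the germ of the second, in the coordinates of the first
  have hK : AnalyticAt ℂ (fun p : ℂ × ℂ => a ^ m * G' (a * p.1, b * p.2)) (0, 0) := by
    refine analyticAt_const.mul (AnalyticAt.comp (g := G')
      (f := fun p : ℂ × ℂ => ((a * p.1, b * p.2) : ℂ × ℂ)) ?_
      ((analyticAt_const.mul analyticAt_fst).prod (analyticAt_const.mul analyticAt_snd)))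
    simpa using hGa'
  have hKe : ∀ᶠ p in 𝓝 ((0 : ℂ), (0 : ℂ)), p.1 ^ n * G p =
      p.1 ^ m * (a ^ m * G' (a * p.1, b * p.2)) := by
    filter_upwards [hGe, hT.eventually hGe', e1, e2] with p q1 q2 q3 q4
    rw [← q1, ← th_rot hξ hrot q3 q4, q2]
    show (a * p.1) ^ m * _ = _
    rw [mul_pow]; ring
  have hKn : ∃ᶠ x in 𝓝 (0 : ℂ), a ^ m * G' (a * ((0 : ℂ), x).1, b * ((0 : ℂ), x).2) ≠ 0 := by
    intro hcon
    refine hGn' ?_
    have hT' : Tendsto (fun x : ℂ => b⁻¹ * x) (𝓝 0) (𝓝 0) := by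
      have : Continuous fun x : ℂ => b⁻¹ * x := by fun_prop
      exact this.tendsto' _ _ (mul_zero _)
    filter_upwards [hT'.eventually hcon] with x hx
    rw [not_not] at hx ⊢
    have h3 := (mul_eq_zero.1 hx).resolve_left (pow_ne_zero _ ha0)
    simpa [mul_inv_cancel_left₀ hb0] using h3
  refine le_antisymm ?_ ?_
  · exact ord_ge hK hGa (hKe.mono fun p hp => hp.symm) hKn
  · exact ord_ge hGa hK hKe hGn

end Crest.Agent.R257.Exf_843
end
end

-- ▼ part R257/ExNO_843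

/-!
# Row 257, ExN / ExT (helper843): all the orders of the function obtained from null data
-/

set_option autoImplicit false
set_option linter.unusedSectionVars false

open Polynomial Set Filter Topology Metric
open Crest.AlgGeometry.Germ Crest.Agent.R257.Defs_219 Crest.Agent.R257.AJ387 Crest.Agent.R257.T387
open Crest.Agent.R257.Gr1_157 Crest.Agent.R257.HoB_843 Crest.Agent.R257.BP_258
open Crest.Agent.R257.Wt_258 Crest.Agent.R257.Rsn_843 Crest.Agent.R257.OrdK_82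
open Crest.Agent.R257.KB_82 Crest.Agent.R257.HoT_843 Crest.Agent.R257.Tb3_941
open Crest.Agent.R257.Rot1_558 Crest.Agent.R257.Vt1_558 Crest.Agent.R257.Vt3_558
open Crest.Agent.R257.Vt4_558

noncomputable section

namespace Crest.Agent.R257.Exf_843

variable {f : (Fin 3 → ℂ) → ℂ} {T : TB f} {S : Sh T} {U : Tub T}

lemma map0V {c : Ch T.m} (hc : T.Valid c) (hV : IsV c) : T.map c (0, 0) = 0 := by
  rw [T.map_eq_zero hc]
  cases c with
  | edge i k k' => exact absurd hV id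
  | leg i => exact absurd hV id
  | vert i k w₀ => rfl

lemma mapV {c : Ch T.m} (hV : IsV c) (p : ℂ × ℂ) : (T.map c p).1 = p.1 := by
  cases c with
  | edge i k k' => exact absurd hV id
  | leg i => exact absurd hV id
  | vert i k w₀ => rfl

lemma lab_comp {E : II U} {hv : E.1.1 ∈ Vs T} {q : XV U E.1.1}
    (h : lab U ⟨E.1.1, hv⟩ q = E) : (q : ConnectedComponents (XV U E.1.1)) = E.2 :=
  eq_of_heq (Sigma.ext_iff.1 h).2

/-- a common small bidisc -/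
lemma hmin (c c' : Ch T.m) : 0 < 2 * min (S.r c) (S.r c') := by
  have := lt_min (S.pos c) (S.pos c'); linarith

/-- the data vanish near the rotated chart -/
lemma rot_zero {hG : GalPt T} {hR : RetStmt U} {L : Lab U S} {E₀ : II U} {a : ℕ}
    {D : (Fin 3 → ℂ) → ℂ} {F' : Finset (Ch T.m)}
    (hD2 : ∀ c ∈ F', IsV c → ∀ j, L.e1 c j ≠ some E₀ →
        ∀ᶠ p in 𝓝 ((0 : ℂ), (0 : ℂ)), T.Gen c p → D (wc S c j p) = 0)
    {c : Ch T.m} (hc : Ok S c) (hV : IsV c) {j : Fin T.d} {E : II U} (hE : L.e1 c j = some E)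
    {ξ : ℂ} (hξ : ξ ^ T.N = 1) (hmem : rc T ξ c ∈ F') (hne : pi hG hR hξ E ≠ E₀) :
    ∀ᶠ p in 𝓝 ((0 : ℂ), (0 : ℂ)), T.Gen c p →
      (fun x : Fin 3 → ℂ => x 1 ^ a * D x) (rot ξ (wc S c j p)) = 0 := by
  obtain ⟨τ, hτ⟩ := exists_tau hG hξ S hc.1
  have hrot : RotC S ξ c j (rc T ξ c) (τ j) (rm T ξ c).1 (rm T ξ c).2 :=
    ⟨isV_rc ξ c, (rm_norm hξ c).1, (rm_norm hξ c).2, hτ j⟩
  have hE' : L.e1 (rc T ξ c) (τ j) = some (pi hG hR hξ E) := by
    rw [lab1 hG hR hξ L hc (hτ j), hE]; rfl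
  have h3 := hD2 _ hmem ((isV_rc ξ c).2 hV) (τ j)
    (by rw [hE']; exact fun h => hne (Option.some.inj h))
  have hm := hmin (S := S) c (rc T ξ c)
  exact hrot.ev (p₀ := ((0 : ℂ), (0 : ℂ))) (by simpa using hm) (by simpa using hm)
    (P := fun x _ => x 1 ^ a * D x = 0) (by
      simp only [mul_zero]
      exact h3.mono fun p hp hg => by rw [hp hg, mul_zero])

/-- the data near a chart rotated by an element of the stabiliser -/
lemma rot_stab {hG : GalPt T} {L : Lab U S} {E₀ : II U} {a : ℕ} (ha : T.N ∣ a)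
    {D H : (Fin 3 → ℂ) → ℂ} {fX : XV U E₀.1.1 → ℂ} {F' : Finset (Ch T.m)}
    (hD1 : ∀ c ∈ F', IsV c → ∀ j, L.e1 c j = some E₀ → ∀ γ, End1 U S c E₀.1.1 γ →
        ∀ᶠ p in 𝓝 ((0 : ℂ), (0 : ℂ)), T.Gen c p →
          D (wc S c j p) = H (wc S c j p) * fX (γ j p.2))
    (hinv : ∀ (γ : GE hG E₀) (c : Ch T.m), Ok S c → ∀ (j : Fin T.d) (p : ℂ × ℂ)
      (q : XV U E₀.1.1), T.Gen c p → (q : ConnectedComponents (XV U E₀.1.1)) = E₀.2 →
      H (rot (vl γ.1) (wc S c j p)) * fX (smv hG γ q) = H (wc S c j p) * fX q)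
    {c : Ch T.m} (hc : Ok S c) (hV : IsV c) (hv : v1 T c = some E₀.1.1)
    {γ₀ : Fin T.d → ℂ → XV U E₀.1.1} (hγ₀ : End1 U S c E₀.1.1 γ₀)
    (hlab : ∀ j, ∀ b ∈ PDv S c, L.e1 c j = some (lab U ⟨E₀.1.1, E₀.1.2⟩ (γ₀ j b)))
    {j : Fin T.d} (hE : L.e1 c j = some E₀) {m : ℕ} {u : ℂ × ℂ → ℂ}
    (hu : ∀ᶠ p in 𝓝 ((0 : ℂ), (0 : ℂ)), T.Gen c p → H (wc S c j p) = p.1 ^ m * u p)
    (γ : GE hG E₀) (hmem : rc T (vl γ.1) c ∈ F') :
    ∀ᶠ p in 𝓝 ((0 : ℂ), (0 : ℂ)), T.Gen c p →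
      (fun x : Fin 3 → ℂ => x 1 ^ a * D x) (rot (vl γ.1) (wc S c j p)) =
        p.1 ^ (m + a) * (u p * fX (γ₀ j p.2)) := by
  have hξ := vl_pow γ.1
  obtain ⟨τ, hτ⟩ := exists_tau hG hξ S hc.1
  have hrot : RotC S (vl γ.1) c j (rc T (vl γ.1) c) (τ j) (rm T (vl γ.1) c).1
      (rm T (vl γ.1) c).2 := ⟨isV_rc (vl γ.1) c, (rm_norm hξ c).1, (rm_norm hξ c).2, hτ j⟩
  have hc' : Ok S (rc T (vl γ.1) c) := ok_rc S hG hξ hc
  have hV' : IsV (rc T (vl γ.1) c) := (isV_rc _ c).2 hV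
  have hE' : L.e1 (rc T (vl γ.1) c) (τ j) = some E₀ := by
    rw [lab1 hG (Tb_941.retStmt U) hξ L hc (hτ j), hE]
    exact congrArg some ((mem_GE hG).1 γ.2)
  have hv' : v1 T (rc T (vl γ.1) c) = some E₀.1.1 := by
    rw [v1_rc hG hξ, hv]; exact congrArg some (GE_fst hG γ.2)
  obtain ⟨γ₂, hγ₂, -⟩ := (End_636.endStmt L _ hc' ⟨E₀.1.1, E₀.1.2⟩).1 hv'
  have h3 := hD1 _ hmem hV' (τ j) hE' γ₂ hγ₂
  have hm := hmin (S := S) c (rc T (vl γ.1) c)
  have h4 := hrot.ev (p₀ := ((0 : ℂ), (0 : ℂ))) (by simpa using hm) (by simpa using hm)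
    (P := fun x p => D x = H x * fX (γ₂ (τ j) p.2)) (by simpa only [mul_zero] using h3)
  have e2 : ∀ᶠ p : ℂ × ℂ in 𝓝 ((0 : ℂ), (0 : ℂ)),
      ‖p.2‖ < 2 * min (S.r c) (S.r (rc T (vl γ.1) c)) :=
    continuousAt_snd.norm.eventually (gt_mem_nhds (by simpa using hm))
  filter_upwards [h4, e2, hu] with p q1 q2 q3 hg
  have hb1 : p.2 ∈ PDv S c := ⟨Or.inl hV, q2.trans_le
    (mul_le_mul_of_nonneg_left (min_le_left _ _) (by norm_num))⟩
  have hb2 : (rm T (vl γ.1) c).2 * p.2 ∈ PDv S (rc T (vl γ.1) c) := by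
    refine ⟨Or.inl hV', ?_⟩
    rw [norm_mul, (rm_norm hξ c).2, one_mul]
    exact q2.trans_le (mul_le_mul_of_nonneg_left (min_le_right _ _) (by norm_num))
  have e3 := act_end1 γ hγ₀ hγ₂ (hτ j) hb1 q2 hb2
  have hcomp : ((γ₀ j p.2 : XV U E₀.1.1) : ConnectedComponents (XV U E₀.1.1)) = E₀.2 := by
    refine lab_comp (hv := E₀.1.2) ?_
    have h5 := hlab j p.2 hb1
    rw [hE] at h5
    exact (Option.some.inj h5).symm
  have e4 : D (rot (vl γ.1) (wc S c j p)) = p.1 ^ m * (u p * fX (γ₀ j p.2)) := by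
    rw [q1 hg]
    show H (rot (vl γ.1) (wc S c j p)) * fX (γ₂ (τ j) ((rm T (vl γ.1) c).2 * p.2)) = _
    rw [e3, hinv γ c hc j p _ hg hcomp, q3 hg]
    ring
  have e5 : (rot (vl γ.1) (wc S c j p)) 1 ^ a = p.1 ^ a := by
    show (vl γ.1 * (T.map c p).1) ^ a = p.1 ^ a
    obtain ⟨k, rfl⟩ := ha
    rw [mapV hV, mul_pow, pow_mul (vl γ.1), hξ, one_pow, one_mul]
  show (rot (vl γ.1) (wc S c j p)) 1 ^ a * D (rot (vl γ.1) (wc S c j p)) = _
  rw [e5, e4, pow_add]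
  ring

/-- **all the orders** of the function obtained from null data -/
theorem null_orders [Fintype (II U)] (hf : Iso f) (hC : Clo T) (hG : GalPt T) (hR : RetStmt U)
    (hmono : ∀ c, T.Valid c → T.MonoC c (S.r c)) (hcovP : CovP S) (L : Lab U S)
    {nu : II U → ℤ} {n1 n2 : Ch T.m → Fin T.d → ℤ} (J : Jac L nu n1 n2) (hW : WTDStmt L)
    (hN : NullStmt L n1 n2) {E₀ : II U} {y : II U → ℝ}
    (hyi : ∀ (γ : Ru T) (E : II U), y (piH hG γ E) = y E) (hsup : ∀ E, dg (Mx L) y E < 0)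
    {a : ℕ} (ha : T.N ∣ a) {fX : XV U E₀.1.1 → ℂ} {H : (Fin 3 → ℂ) → ℂ}
    {h1 h2 e : Ch T.m → Fin T.d → ℝ} (hd : NDat L n1 n2 E₀ y a fX H h1 h2 e)
    (hinv : ∀ (γ : GE hG E₀) (c : Ch T.m), Ok S c → ∀ (j : Fin T.d) (p : ℂ × ℂ)
      (q : XV U E₀.1.1), T.Gen c p → (q : ConnectedComponents (XV U E₀.1.1)) = E₀.2 →
      H (rot (vl γ.1) (wc S c j p)) * fX (smv hG γ q) = H (wc S c j p) * fX q)
    {m : ℕ} (hm : (m : ℝ) ≤ y E₀ + nu E₀)
    (hu : ∀ c, Ok S c → IsV c → ∀ j, L.e1 c j = some E₀ → ∃ u : ℂ × ℂ → ℂ,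
      AnalyticAt ℂ u (0, 0) ∧ u (0, 0) ≠ 0 ∧
      ∀ᶠ p in 𝓝 ((0 : ℂ), (0 : ℂ)), T.Gen c p → H (wc S c j p) = p.1 ^ m * u p)
    (hne : ∃ q : XV U E₀.1.1, fX q ≠ 0) (F' : Finset (Ch T.m)) (hF' : ∀ c ∈ F', Ok S c) :
    ∃ (g V D : (Fin 3 → ℂ) → ℂ) (Φ : (Fin 3 → ℂ) → ℝ) (ρ₀ ρ₁ C : ℝ) (v : II U → ℕ), 0 < ρ₀ ∧
      HT S g V (fun x => x 1 ^ a * D x) (fun x => Φ x + a * Real.log (‖x 1‖ ^ 2)) ρ₁ ∧
      (∀ c ∈ F', ∀ j, ∀ p ∈ Og (S := S) c ρ₀, Φ (wc S c j p) ≤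
        yo y (L.e1 c j) * Real.log (‖p.1‖ ^ 2) + yo y (L.e2 c j) * Real.log (‖p.2‖ ^ 2) + C) ∧
      (∀ c ∈ F', v1 T c = none → ∀ j,
        (L.e2 c j = some E₀ → ∃ r > 0, ∃ C' : ℝ, ∀ p ∈ AJ387.BD r r, T.Gen c p →
          ContinuousAt (D ∘ wc S c j) p ∧
          ‖D (wc S c j p)‖ ≤ C' * (‖p.1‖ ^ (h1 c j + e c j) * ‖p.2‖ ^ h2 c j)) ∧
        (L.e2 c j ≠ some E₀ → ∃ r > 0, ∀ p ∈ AJ387.BD r r, T.Gen c p → D (wc S c j p) = 0)) ∧
      (∃ᶠ x in 𝓝 (0 : Fin 3 → ℂ), f x = 0 ∧ g x ≠ 0) ∧ (∀ E, Exv L g E (v E)) ∧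
      (∀ E, (∀ γ, piH hG γ E₀ ≠ E) → y E + a + nu E < v E) ∧
      ∀ γ, v (piH hG γ E₀) = m + a := by
  classical
  -- the test chart of `E₀`
  obtain ⟨q₀, hq₀⟩ := hne
  have hq₀c : (q₀ : ConnectedComponents (XV U E₀.1.1)) = E₀.2 := by
    by_contra h; exact hq₀ (hd.off q₀ h)
  have hv := E₀.1.2
  have hw₀ : pV U E₀.1.1 q₀ ∉ sp T E₀.1.1 := q₀.2.2.1
  set c₀ : Ch T.m := .vert (S.ci E₀.1.1) E₀.1.1.1 (pV U E₀.1.1 q₀) with hc₀def
  have hc₀ : Ok S c₀ := Lab_931.ok_vert S hv hw₀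
  have hV₀ : IsV c₀ := trivial
  have hv₀ : v1 T c₀ = some E₀.1.1 := Lab_931.v1_vert S hv _
  obtain ⟨γ₀, hγ₀, hlab₀⟩ := (End_636.endStmt L c₀ hc₀ ⟨E₀.1.1, E₀.1.2⟩).1 hv₀
  have hr₀ := S.pos c₀
  have h0mem : (0 : ℂ) ∈ PDv S c₀ := ⟨Or.inl hV₀, by simpa using hr₀⟩
  obtain ⟨j₀, hj₀⟩ := hγ₀.surj 0 h0mem q₀ (by
    show pV U E₀.1.1 q₀ = pV U E₀.1.1 q₀ + 0 ^ 1
    simp)
  have hE₀ : L.e1 c₀ j₀ = some E₀ := by
    rw [hlab₀ j₀ 0 h0mem, hj₀]
    exact congrArg some (Sigma.ext rfl (heq_of_eq hq₀c))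
  obtain ⟨u, hua, hu0, hue⟩ := hu c₀ hc₀ hV₀ j₀ hE₀
  -- the test charts of the other components
  choose cT jT hcT_ok hcT_V hcT_e _ using fun E => exists_test hR L E ∅
  set Ft : Finset (Ch T.m) := Finset.univ.biUnion fun E =>
    (nthRootsFinset T.N (1 : ℂ)).image fun ξ => rc T ξ (cT E) with hFt
  set F0 : Finset (Ch T.m) := (nthRootsFinset T.N (1 : ℂ)).image fun ξ => rc T ξ c₀ with hF0
  set F : Finset (Ch T.m) := F' ∪ (Ft ∪ F0) with hFdef
  have hroot : ∀ {ξ : ℂ}, ξ ^ T.N = 1 → ξ ∈ nthRootsFinset T.N (1 : ℂ) := fun hξ =>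
    (Polynomial.mem_nthRootsFinset T.N_pos (1 : ℂ)).2 hξ
  have hroot' : ∀ {ξ : ℂ}, ξ ∈ nthRootsFinset T.N (1 : ℂ) → ξ ^ T.N = 1 := fun hξ =>
    (Polynomial.mem_nthRootsFinset T.N_pos (1 : ℂ)).1 hξ
  have hF : ∀ c ∈ F, Ok S c := by
    intro c hc
    rcases Finset.mem_union.1 hc with h | h
    · exact hF' c h
    · rcases Finset.mem_union.1 h with h | h
      · obtain ⟨E, -, hE⟩ := Finset.mem_biUnion.1 h
        obtain ⟨ξ, hξ, rfl⟩ := Finset.mem_image.1 hE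
        exact ok_rc S hG (hroot' hξ) (hcT_ok E)
      · obtain ⟨ξ, hξ, rfl⟩ := Finset.mem_image.1 h
        exact ok_rc S hG (hroot' hξ) hc₀
  have hrcT : ∀ E, ∀ ξ : ℂ, ξ ^ T.N = 1 → rc T ξ (cT E) ∈ F := fun E ξ hξ =>
    Finset.mem_union_right _ (Finset.mem_union_left _ (Finset.mem_biUnion.2 ⟨E,
      Finset.mem_univ _, Finset.mem_image.2 ⟨ξ, hroot hξ, rfl⟩⟩))
  have hrc0 : ∀ ξ : ℂ, ξ ^ T.N = 1 → rc T ξ c₀ ∈ F := fun ξ hξ =>
    Finset.mem_union_right _ (Finset.mem_union_right _ (Finset.mem_image.2 ⟨ξ, hroot hξ, rfl⟩))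
  obtain ⟨g, V, D, Φ, ρ₀, ρ₁, C, hρ₀, hHT, hup, hD1, hD2, hD3⟩ :=
    null_core hC hcovP L hW hN hsup hd F hF
  -- the shifted weight
  set y' : II U → ℝ := fun E => y E + a with hy'
  have hyi' : ∀ (ξ : ℂ) (hξ : ξ ^ T.N = 1) (E : II U), y' (pi hG hR hξ E) = y' E := by
    intro ξ hξ E
    obtain ⟨γ, rfl⟩ := exists_vl hξ
    have h3 := hyi γ E
    simp only [hy']
    have h4 : pi hG hR hξ E = piH hG γ E := rfl
    rw [h4, h3]
  have hup' : ∀ c ∈ F, IsV c → ∀ j, ∀ p ∈ Og (S := S) c ρ₀,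
      (fun x : Fin 3 → ℂ => Φ x + a * Real.log (‖x 1‖ ^ 2)) (wc S c j p) ≤
        yo y' (L.e1 c j) * Real.log (‖p.1‖ ^ 2) + yo y' (L.e2 c j) * Real.log (‖p.2‖ ^ 2) + C := by
    intro c hc hV j p hp
    have h3 := hup c hc j p hp
    have hok := hF c hc
    have h4 := L.v_e1 c hok j
    obtain ⟨E, hE⟩ : ∃ E, L.e1 c j = some E := by
      rcases he : L.e1 c j with _ | E
      · rw [he] at h4
        cases c with
        | edge i k k' => exact absurd hV id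
        | leg i => exact absurd hV id
        | vert i k w₀ => simp [v1] at h4
      · exact ⟨E, rfl⟩
    rw [hE, e2_none L hok hV j] at h3 ⊢
    show Φ (wc S c j p) + a * Real.log (‖(T.map c p).1‖ ^ 2) ≤
      (y E + a) * Real.log (‖p.1‖ ^ 2) + 0 * Real.log (‖p.2‖ ^ 2) + C
    rw [mapV hV]
    have h5 : Φ (wc S c j p) ≤ y E * Real.log (‖p.1‖ ^ 2) + 0 * Real.log (‖p.2‖ ^ 2) + C := h3
    linarith
  -- the order along `E₀`
  have hoff := fun c (hc : T.Valid c) => off_of_mono (hmono c hc) ρ₁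
  obtain ⟨C', hC'⟩ := unif (T := T) (P := fun ξ C' => ∀ᶠ p in 𝓝 ((0 : ℂ), (0 : ℂ)), T.Gen c₀ p →
      (fun x : Fin 3 → ℂ => Φ x + a * Real.log (‖x 1‖ ^ 2)) (rot ξ (wc S c₀ j₀ p)) ≤
        y' E₀ * Real.log (‖p.1‖ ^ 2) + C')
    (fun ξ C₁ C₂ hC hP => hP.mono fun p hp hg => (hp hg).trans (by linarith))
    (fun ξ hξ => by
      obtain ⟨τ, hτ⟩ := exists_tau hG hξ S hc₀.1
      have hrot : RotC S ξ c₀ j₀ (rc T ξ c₀) (τ j₀) (rm T ξ c₀).1 (rm T ξ c₀).2 :=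
        ⟨isV_rc ξ c₀, (rm_norm hξ c₀).1, (rm_norm hξ c₀).2, hτ j₀⟩
      have hc' : Ok S (rc T ξ c₀) := ok_rc S hG hξ hc₀
      have hV' : IsV (rc T ξ c₀) := (isV_rc _ c₀).2 hV₀
      refine hrot.le hc'.1 (z := 0) (by simpa using hr₀) (by simpa using S.pos _)
        (Φ := fun x : Fin 3 → ℂ => Φ x + a * Real.log (‖x 1‖ ^ 2)) (Y₁ := y' E₀) (Y₂ := 0) (C := C) hρ₀ (Or.inr rfl) fun p hp => ?_
      have h3 := hup' _ (hrc0 ξ hξ) hV' (τ j₀) p hp
      rw [lab1 hG hR hξ L hc₀ (hτ j₀), hE₀, e2_none L hc' hV' (τ j₀)] at h3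
      have h4 : yo y' ((some E₀ : Option (II U)).map (pi hG hR hξ)) = y' E₀ := hyi' ξ hξ E₀
      rw [h4] at h3
      simpa [yo] using h3)
  set P : ℂ → Prop := fun ξ => ∃ γ : GE hG E₀, vl γ.1 = ξ with hP
  set ee : ℂ → ℂ × ℂ → ℂ := fun ξ p => if P ξ then u p * fX (γ₀ j₀ p.2) else 0 with hee
  have hfa : AnalyticAt ℂ (fun p : ℂ × ℂ => u p * fX (γ₀ j₀ p.2)) (0, 0) :=
    hua.mul (fX_an hd.hol hV₀ hγ₀ j₀)
  obtain ⟨Hx, hHx, hHxe, hHx0⟩ := hHT.exact J hc₀ j₀ (hoff c₀ hc₀.1) (z := 0) (Or.inr hV₀)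
    (by simpa using hr₀) (map0V hc₀.1 hV₀) (m := m + a) (e := ee) (fun ξ hξ => by
      by_cases h : P ξ
      · simp only [hee, if_pos h]; exact hfa
      · simp only [hee, if_neg h]; exact analyticAt_const) (fun ξ hξ => by
      by_cases h : P ξ
      · obtain ⟨γ, rfl⟩ := h
        have h3 := rot_stab ha hD1 hinv hc₀ hV₀ hv₀ hγ₀ hlab₀ hE₀ hue γ (hrc0 _ (vl_pow γ.1))
        filter_upwards [h3] with p hp hg
        rw [hp hg]
        simp only [hee]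
        rw [if_pos ⟨γ, rfl⟩]
      · have h3 := rot_zero (hG := hG) (hR := hR) (a := a) hD2 hc₀ hV₀ hE₀ hξ (hrc0 ξ hξ)
          (fun h4 => h (by
            obtain ⟨γ, hγ⟩ := exists_vl hξ
            subst hγ
            exact ⟨⟨γ, h4⟩, rfl⟩))
        filter_upwards [h3] with p hp hg
        rw [hp hg]
        simp only [hee]
        rw [if_neg h, mul_zero]) (y := y' E₀) (C := C') (by
      rw [J.some1 c₀ hc₀ j₀ E₀ hE₀]
      simp only [hy']
      push_cast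
      linarith) hC'
  have hHne : Hx (0, 0) ≠ 0 := by
    rw [hHx0]
    have h3 : ∑ ξ ∈ nthRootsFinset T.N (1 : ℂ), ee ξ ((0 : ℂ), (0 : ℂ)) =
        (((nthRootsFinset T.N (1 : ℂ)).filter P).card : ℂ) * (u (0, 0) * fX (γ₀ j₀ 0)) := by
      simp only [hee]
      rw [← Finset.sum_filter, Finset.sum_const, nsmul_eq_mul]
    rw [h3, hj₀]
    refine mul_ne_zero (one_div_ne_zero (Nat.cast_ne_zero.2 T.N_pos.ne')) (mul_ne_zero
      (Nat.cast_ne_zero.2 ?_) (mul_ne_zero hu0 hq₀))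
    refine (Finset.card_pos.2 ⟨1, ?_⟩).ne'
    rw [Finset.mem_filter]
    exact ⟨hroot (one_pow _), ⟨1, rfl⟩⟩
  -- `g` is not zero on `{f = 0}`
  have hfreq : ∃ᶠ x in 𝓝 (0 : Fin 3 → ℂ), f x = 0 ∧ g x ≠ 0 := by
    by_contra hcon
    rw [not_frequently] at hcon
    have hb0 : ((0 : ℂ), (0 : ℂ)) ∈ AJ387.BD (2 * S.r c₀) (2 * S.r c₀) :=
      ⟨by simpa using hr₀, by simpa using hr₀⟩
    have hth0 : T.th c₀ (S.ζ c₀ j₀) (0, 0) = 0 := by
      rw [(S.sheets c₀ hc₀.1).th_zero hc₀.1 j₀ hb0, ← T.map_eq_zero hc₀.1]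
      exact map0V hc₀.1 hV₀
    have htend : Tendsto (T.th c₀ (S.ζ c₀ j₀)) (𝓝 ((0 : ℂ), (0 : ℂ))) (𝓝 0) := by
      have := ((S.sheets c₀ hc₀.1).th_an j₀ hb0).continuousAt.tendsto
      rwa [hth0] at this
    have e1 : ∀ᶠ p : ℂ × ℂ in 𝓝 ((0 : ℂ), (0 : ℂ)), p ∈ AJ387.BD (2 * S.r c₀) (2 * S.r c₀) :=
      (isOpen_BD _ _).mem_nhds hb0
    have e2 : ∀ᶠ p in 𝓝 ((0 : ℂ), (0 : ℂ)), Hx p ≠ 0 := hHx.continuousAt.eventually_ne hHne
    have e3 : ∀ᶠ p : ℂ × ℂ in 𝓝 ((0 : ℂ), (0 : ℂ)), p.1 = 0 := by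
      filter_upwards [e1, htend.eventually hcon, e2, hHxe] with p q1 q2 q3 q4
      by_contra hne
      have hfp : f (T.th c₀ (S.ζ c₀ j₀) p) = 0 := (S.sheets c₀ hc₀.1).th_V j₀ q1
      exact q2 ⟨hfp, by rw [q4]; exact mul_ne_zero (pow_ne_zero _ hne) q3⟩
    have hft : Tendsto (fun α : ℂ => (α, (0 : ℂ))) (𝓝[≠] 0) (𝓝 ((0 : ℂ), (0 : ℂ))) := by
      have : Continuous fun α : ℂ => (α, (0 : ℂ)) := by fun_prop
      exact (this.tendsto' _ _ rfl).mono_left nhdsWithin_le_nhds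
    obtain ⟨α, hα, hα0⟩ := ((hft.eventually e3).and self_mem_nhdsWithin).exists
    exact hα0 hα
  obtain ⟨v, hvE⟩ := exists_exv hf hR L hHT.an hfreq
  have hv0 : v E₀ = m + a := by
    obtain ⟨G, hGa, hGe, hGn⟩ := hvE E₀ c₀ hc₀ hV₀ j₀ hE₀ 0 (by simpa using hr₀)
    refine le_antisymm ?_ ?_
    · refine ord_ge hHx hGa (z := 0) ?_ ?_
      · filter_upwards [hGe, hHxe] with p q1 q2
        rw [← q1, ← q2]
      · have hft : Tendsto (fun x : ℂ => ((0 : ℂ), x)) (𝓝 0) (𝓝 ((0 : ℂ), (0 : ℂ))) := by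
          have : Continuous fun x : ℂ => ((0 : ℂ), x) := by fun_prop
          exact this.tendsto' _ _ rfl
        exact (hft.eventually (hHx.continuousAt.eventually_ne hHne)).frequently
    · refine ord_ge hGa hHx ?_ hGn
      filter_upwards [hGe, hHxe] with p q1 q2
      rw [← q1, ← q2]
  refine ⟨g, V, D, Φ, ρ₀, ρ₁, C, v, hρ₀, hHT, fun c hc => hup c (Finset.mem_union_left _ hc),
    fun c hc => hD3 c (Finset.mem_union_left _ hc), hfreq, hvE, fun E hE => ?_, fun γ => ?_⟩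
  · obtain ⟨G, hGa, hGe, hGn⟩ := hvE E (cT E) (hcT_ok E) (hcT_V E) (jT E) (hcT_e E) 0
      (by simpa using S.pos _)
    have h3 := lo_all hG hR L J hyi' hHT (hcT_ok E) (hcT_V E) (hcT_e E)
      (hoff _ (hcT_ok E).1) (fun ξ hξ => rot_zero (hG := hG) (hR := hR) (a := a) hD2 (hcT_ok E)
        (hcT_V E) (hcT_e E) hξ (hrcT E ξ hξ) (fun h4 => by
          obtain ⟨γ, hγ⟩ := exists_vl hξ
          subst hγ
          have h5 : piH hG γ E = E₀ := h4
          refine hE γ⁻¹ ?_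
          rw [← h5, ← Equiv.Perm.mul_apply, ← map_mul, inv_mul_cancel, map_one,
            Equiv.Perm.one_apply])) hρ₀ (C := C)
      (fun ξ hξ j p hp => hup' _ (hrcT E ξ hξ) ((isV_rc _ _).2 (hcT_V E)) j p hp) (v := v) hGa
      (by
        filter_upwards [hGe] with p hp
        rw [hp, hcT_e E, e2_none L (hcT_ok E) (hcT_V E) (jT E)]
        simp [yn]) hGn
    exact h3
  · rw [← exv_rot hR γ (hvE E₀) (hvE (piH hG γ E₀)), hv0]

end Crest.Agent.R257.Exf_843
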