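import Mathlib
import Crest.Agent.R257.Hv2_174
import Crest.Agent.R257.WtF_258

-- ▼ part R257/Hv3_174
section

/-!
Row 257 (S0395), task C-HV (helper174), file 3: the slopes are well defined.

* `map_th1`, `map_th2` : rotations of the charts;
* `tk_wd`, `s1_wd`, `s2_wd` : slopes are functions on the ends;
* `P1`, `P2`  : the slope functions near a finite special point and near infinity.
-/

set_option autoImplicit false
set_option linter.unusedSectionVars false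

open Polynomial Set Filter Topology Metric
open Crest.AlgGeometry.Germ Crest.Agent.R257.AJ387 Crest.Agent.R257.T387
open Crest.Agent.R257.Gr1_157 Crest.Agent.R257.HoB_843 Crest.Agent.R257.BP_258
open Crest.Agent.R257.Wt_258 Crest.Agent.R257.Cpt1_419

noncomputable section

namespace Crest.Agent.R257.Hv_174

variable {f : (Fin 3 → ℂ) → ℂ} {T : TB f} {S : Sh T} {U : Tub T}

/-! ### rotations -/

lemma map_th1 {c : Ch T.m} (hc : T.Valid c) (hn : ¬ IsV c) {b b' : ℂ} (hb : b ≠ 0) (hb' : b' ≠ 0)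
    (h : b ^ lx T c = b' ^ lx T c) :
    ∃ θ : ℂ, θ ≠ 0 ∧ ∀ α, T.map c (α, b) = T.map c (θ * α, b') := by
  cases c with
  | edge i k k' =>
    have hk : k < k' := hc.2.2.1
    have h1 : b ^ (T.M * (k' - k)) = b' ^ (T.M * (k' - k)) := h
    refine ⟨b / b', div_ne_zero hb hb', fun α => ?_⟩
    have h2 : b / b' * α * b' = α * b := by field_simp
    have h3 : T.M * k' = T.M * k + T.M * (k' - k) := by
      rw [← Nat.mul_add]; congr 1; omega
    simp only [TB.map]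
    rw [h2]
    congr 2
    rw [h3, pow_add, pow_add, h1, mul_pow, div_pow]
    field_simp
  | leg i =>
    have h1 : b ^ T.M = b' ^ T.M := h
    refine ⟨1, one_ne_zero, fun α => ?_⟩
    simp only [TB.map, one_mul]
    rw [h1]
  | vert i k w => exact absurd trivial hn

lemma map_th2 {c : Ch T.m} (hc : T.Valid c) (hE : IsE c) {a a' : ℂ} (ha : a ≠ 0) (ha' : a' ≠ 0)
    (h : a ^ lx T c = a' ^ lx T c) :
    ∃ θ : ℂ, θ ≠ 0 ∧ ∀ β, T.map c (a, β) = T.map c (a', θ * β) := by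
  cases c with
  | edge i k k' =>
    have hk : k < k' := hc.2.2.1
    have h1 : a ^ (T.M * (k' - k)) = a' ^ (T.M * (k' - k)) := h
    refine ⟨a / a', div_ne_zero ha ha', fun β => ?_⟩
    have h2 : a' * (a / a' * β) = a * β := by field_simp
    have h3 : T.M * k' = T.M * k + T.M * (k' - k) := by
      rw [← Nat.mul_add]; congr 1; omega
    simp only [TB.map]
    rw [h2]
    congr 2
    have h4 : a ^ (T.M * k) * β ^ (T.M * k') = a' ^ (T.M * k) * (a / a' * β) ^ (T.M * k') := by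
      rw [mul_pow, div_pow, show a ^ (T.M * k') = a ^ (T.M * k) * a ^ (T.M * (k' - k)) by
        rw [← pow_add, ← h3], show a' ^ (T.M * k') = a' ^ (T.M * k) * a' ^ (T.M * (k' - k)) by
        rw [← pow_add, ← h3], h1]
      field_simp
    exact h4
  | leg i => exact absurd hE (by simp [IsE])
  | vert i k w => exact absurd hE (by simp [IsE])

/-! ### well defined slopes -/

lemma tk_wd {F : Finset (Ch T.m)} (K : DKill S F) {r : ℝ}
    (hr : ∀ x ∈ K.κ, ∀ c, (c = x.1 ∨ ∃ j, (c, j) ∈ K.κ) → ∀ j p p', p ∈ BD r r → p' ∈ BD r r →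
      T.Gen x.1 p → T.Gen c p' → wc S x.1 x.2 p = wc S c j p' →
      c = x.1 ∧ (c, j) ∈ K.κ ∧ K.t (c, j) = K.t x ∧ K.a (c, j) = K.a x ∧ K.b (c, j) = K.b x)
    {c : Ch T.m} {j j' : Fin T.d} {p p' : ℂ × ℂ} (hp : p ∈ BD r r) (hp' : p' ∈ BD r r)
    (g : T.Gen c p) (g' : T.Gen c p') (h : wc S c j p = wc S c j' p') :
    dk1 K c j = dk1 K c j' ∧ dk2 K c j = dk2 K c j' := by
  classical
  unfold dk1 dk2
  by_cases h1 : (c, j) ∈ K.κ
  · obtain ⟨-, h2, h3, h4, h5⟩ := hr _ h1 c (Or.inl rfl) j' p p' hp hp' g g' h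
    rw [if_pos h1, if_pos h2, if_pos h1, if_pos h2, h3, h4, h5]
    exact ⟨rfl, rfl⟩
  · by_cases h2 : (c, j') ∈ K.κ
    · obtain ⟨-, h3, -⟩ := hr _ h2 c (Or.inl rfl) j p' p hp' hp g' g h.symm
      exact absurd h3 h1
    · rw [if_neg h1, if_neg h2, if_neg h1, if_neg h2]
      exact ⟨rfl, rfl⟩

/-- **slopes at the finite ends** -/
theorem s1_wd {L : Lab U S} (hW : LabWD L) (y : II U → ℝ) {F : Finset (Ch T.m)}
    (K : DKill S F) {c : Ch T.m} (hc : Ok S c) (hn : ¬ IsV c) {v : Vtx}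
    {γ : Fin T.d → ℂ → XV U v} (hγ : End1 U S c v γ) :
    ∃ r₁ > 0, r₁ ≤ 2 * S.r c ∧ ∀ j j' b b', 0 < ‖b‖ → ‖b‖ < r₁ → 0 < ‖b'‖ → ‖b'‖ < r₁ →
      γ j b = γ j' b' → d1 L y K c j = d1 L y K c j' := by
  obtain ⟨r, hr0, hr⟩ := K.ex
  have hS : 0 < S.r c := S.pos c
  refine ⟨min r (2 * S.r c), lt_min hr0 (by linarith), min_le_right _ _, ?_⟩
  intro j j' b b' hb hb1 hb' hb1' he
  have hA := AE.of1 hγ
  have hm : b ∈ PDv S c := ⟨Or.inr hb, hb1.trans_le (min_le_right _ _)⟩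
  have hm' : b' ∈ PDv S c := ⟨Or.inr hb', hb1'.trans_le (min_le_right _ _)⟩
  have hb0 : b ≠ 0 := norm_pos_iff.1 hb
  have hb0' : b' ≠ 0 := norm_pos_iff.1 hb'
  have hpow : b ^ lx T c = b' ^ lx T c := by
    have e1 := hA.pr j b hm
    have e2 := hA.pr j' b' hm'
    rw [he, e2] at e1
    exact (add_left_cancel e1).symm
  obtain ⟨θ, hθ, hth⟩ := map_th1 hc.1 hn hb0 hb0' hpow
  have hmt := hA.matchpt hm hm' he hθ (fun α => congrArg Prod.fst (hth α))
    (fun α => congrArg Prod.snd (hth α))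
  have hsm : ∀ᶠ α in 𝓝 (0 : ℂ), ‖α‖ < min r (2 * S.r c) ∧ ‖θ * α‖ < min r (2 * S.r c) := by
    have h1 : Tendsto (fun α : ℂ => ‖α‖) (𝓝 0) (𝓝 0) := tendsto_norm_zero
    have h2 : Tendsto (fun α : ℂ => ‖θ * α‖) (𝓝 0) (𝓝 0) := by
      have : Continuous fun α : ℂ => ‖θ * α‖ := by fun_prop
      simpa using this.tendsto 0
    have hpos : 0 < min r (2 * S.r c) := lt_min hr0 (by linarith)
    exact (h1.eventually (gt_mem_nhds hpos)).and (h2.eventually (gt_mem_nhds hpos))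
  have hev : ∀ᶠ α in 𝓝 (0 : ℂ), α ≠ 0 → wc S c j (α, b) = wc S c j' (θ * α, b') ∧
      ‖α‖ < min r (2 * S.r c) ∧ ‖θ * α‖ < min r (2 * S.r c) := by
    filter_upwards [hmt, hsm] with α a1 a2 h0
    exact ⟨a1 h0, a2⟩
  obtain ⟨α, h0, e1, e2, e3⟩ := exists_ne_of_ev hev
  have g : T.Gen c (α, b) := by
    cases c with
    | edge i k k' => exact ⟨h0, hb0⟩
    | leg i => exact ⟨h0, hb0⟩
    | vert i k w => exact absurd trivial hn
  have g' : T.Gen c (θ * α, b') := by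
    cases c with
    | edge i k k' => exact ⟨mul_ne_zero hθ h0, hb0'⟩
    | leg i => exact ⟨mul_ne_zero hθ h0, hb0'⟩
    | vert i k w => exact absurd trivial hn
  have l1 := min_le_left r (2 * S.r c)
  have l2 := min_le_right r (2 * S.r c)
  have hw := hW c hc j j' (α, b) (θ * α, b') ⟨e2.trans_le l2, hb1.trans_le l2⟩
    ⟨e3.trans_le l2, hb1'.trans_le l2⟩ g g' e1
  have ht := tk_wd K hr (p := (α, b)) (p' := (θ * α, b')) ⟨e2.trans_le l1, hb1.trans_le l1⟩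
    ⟨e3.trans_le l1, hb1'.trans_le l1⟩ g g' e1
  unfold d1
  rw [hw.1, hw.2, ht.1]

/-- **slopes at infinity** -/
theorem s2_wd {L : Lab U S} (hW : LabWD L) (y : II U → ℝ) {F : Finset (Ch T.m)}
    (K : DKill S F) {c : Ch T.m} (hc : Ok S c) (hE : IsE c) {v : Vtx}
    {γ : Fin T.d → ℂ → XV U v} (hγ : End2 U S c v γ) :
    ∃ r₁ > 0, r₁ ≤ 2 * S.r c ∧ ∀ j j' b b', 0 < ‖b‖ → ‖b‖ < r₁ → 0 < ‖b'‖ → ‖b'‖ < r₁ →
      γ j b = γ j' b' → d2 L y K c j = d2 L y K c j' := by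
  obtain ⟨r, hr0, hr⟩ := K.ex
  have hS : 0 < S.r c := S.pos c
  refine ⟨min r (2 * S.r c), lt_min hr0 (by linarith), min_le_right _ _, ?_⟩
  intro j j' b b' hb hb1 hb' hb1' he
  have hA := AE.of2 hγ
  have hm : b ∈ PDc S c := ⟨hb, hb1.trans_le (min_le_right _ _)⟩
  have hm' : b' ∈ PDc S c := ⟨hb', hb1'.trans_le (min_le_right _ _)⟩
  have hb0 : b ≠ 0 := norm_pos_iff.1 hb
  have hb0' : b' ≠ 0 := norm_pos_iff.1 hb'
  have hpow : b ^ lx T c = b' ^ lx T c := by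
    have e1 := hA.pr j b hm
    have e2 := hA.pr j' b' hm'
    rw [he, e2] at e1
    exact (inv_injective e1).symm
  obtain ⟨θ, hθ, hth⟩ := map_th2 hc.1 hE hb0 hb0' hpow
  have hmt := hA.matchpt hm hm' he hθ (fun α => congrArg Prod.fst (hth α))
    (fun α => congrArg Prod.snd (hth α))
  have hsm : ∀ᶠ α in 𝓝 (0 : ℂ), ‖α‖ < min r (2 * S.r c) ∧ ‖θ * α‖ < min r (2 * S.r c) := by
    have h1 : Tendsto (fun α : ℂ => ‖α‖) (𝓝 0) (𝓝 0) := tendsto_norm_zero
    have h2 : Tendsto (fun α : ℂ => ‖θ * α‖) (𝓝 0) (𝓝 0) := by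
      have : Continuous fun α : ℂ => ‖θ * α‖ := by fun_prop
      simpa using this.tendsto 0
    have hpos : 0 < min r (2 * S.r c) := lt_min hr0 (by linarith)
    exact (h1.eventually (gt_mem_nhds hpos)).and (h2.eventually (gt_mem_nhds hpos))
  have hev : ∀ᶠ α in 𝓝 (0 : ℂ), α ≠ 0 → wc S c j (b, α) = wc S c j' (b', θ * α) ∧
      ‖α‖ < min r (2 * S.r c) ∧ ‖θ * α‖ < min r (2 * S.r c) := by
    filter_upwards [hmt, hsm] with α a1 a2 h0
    exact ⟨a1 h0, a2⟩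
  obtain ⟨α, h0, e1, e2, e3⟩ := exists_ne_of_ev hev
  have g : T.Gen c (b, α) := by
    cases c with
    | edge i k k' => exact ⟨hb0, h0⟩
    | leg i => exact absurd hE (by simp [IsE])
    | vert i k w => exact absurd hE (by simp [IsE])
  have g' : T.Gen c (b', θ * α) := by
    cases c with
    | edge i k k' => exact ⟨hb0', mul_ne_zero hθ h0⟩
    | leg i => exact absurd hE (by simp [IsE])
    | vert i k w => exact absurd hE (by simp [IsE])
  have l1 := min_le_left r (2 * S.r c)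
  have l2 := min_le_right r (2 * S.r c)
  have hw := hW c hc j j' (b, α) (b', θ * α) ⟨hb1.trans_le l2, e2.trans_le l2⟩
    ⟨hb1'.trans_le l2, e3.trans_le l2⟩ g g' e1
  have ht := tk_wd K hr (p := (b, α)) (p' := (b', θ * α)) ⟨hb1.trans_le l1, e2.trans_le l1⟩
    ⟨hb1'.trans_le l1, e3.trans_le l1⟩ g g' e1
  unfold d2
  rw [hw.1, hw.2, ht.2]

lemma isE_ec (v : Vtx) : IsE (ec S v) := trivial

/-- **the slope function near a finite special point** -/
theorem P1 {L : Lab U S} (hE : EndStmt L) (hW : LabWD L) (y : II U → ℝ) {F : Finset (Ch T.m)}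
    (K : DKill S F) (δ : ℝ) {v : Vtx} (hv : v ∈ Vs T) {c₀ : ℂ} (hc₀ : c₀ ∈ sp T v) :
    ∃ (lam : XV U v → ℝ) (r₀ : ℝ), 0 < r₀ ∧
      (∀ x, ‖pV U v x - c₀‖ < r₀ → ∀ᶠ x' in 𝓝 x, lam x' = lam x) ∧
      (∀ c, Ok S c → ¬ IsV c → v1 T c = some v → cx T c = c₀ → ∀ γ, End1 U S c v γ → ∀ j,
        ∀ b : ℂ, 0 < ‖b‖ → ‖b‖ ^ lx T c < r₀ → ‖b‖ < 2 * S.r c →
        lam (γ j b) * lx T c = d1 L y K c j + δ) ∧
      (∀ w : ℂ, 0 < ‖w - c₀‖ → ‖w - c₀‖ < r₀ → ∀ E : ConnectedComponents (XV U v),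
        ∑ᶠ x ∈ {x : XV U v | pV U v x = w ∧ (x : ConnectedComponents (XV U v)) = E}, lam x =
          ∑ c ∈ (NC S).filter (fun c => v1 T c = some v ∧ cx T c = c₀), ∑ j,
            open Classical in if L.e1 c j = some ⟨⟨v, hv⟩, E⟩ then (d1 L y K c j + δ) / lx T c
              else 0) := by
  classical
  by_cases hex : ∃ c, Ok S c ∧ ¬ IsV c ∧ v1 T c = some v ∧ cx T c = c₀
  · obtain ⟨c, hc, hn, h1, hcx⟩ := hex
    obtain ⟨γ, hγ, hlab⟩ := (hE c hc ⟨v, hv⟩).1 h1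
    obtain ⟨r₁, hr₁, hr₂, hwd⟩ := s1_wd hW y K hc hn hγ
    have hl : 0 < lx T c := lx_pos hc.1
    have hlr : (0 : ℝ) < lx T c := by exact_mod_cast hl
    have hA := AE.of1 hγ
    have hD : ∀ b : ℂ, 0 < ‖b‖ → ‖b‖ < r₁ → b ∈ PDv S c := fun b h h' => ⟨Or.inr h, h'.trans_le hr₂⟩
    obtain ⟨lam, q1, q2, q3⟩ := hA.exists_lam hD (fun j => (d1 L y K c j + δ) / lx T c)
      (fun j j' b b' a1 a2 a3 a4 a5 => by
        show (d1 L y K c j + δ) / lx T c = (d1 L y K c j' + δ) / lx T c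
        rw [hwd j j' b b' a1 a2 a3 a4 a5])
      (fun b a1 a2 N hN => op1 (cx T c) hl a1 hN)
    have hroot : ∀ w : ℂ, 0 < ‖w - c₀‖ → ‖w - c₀‖ < r₁ ^ lx T c →
        ∃ b : ℂ, 0 < ‖b‖ ∧ ‖b‖ < r₁ ∧ w = cx T c + b ^ lx T c := by
      intro w hw hw'
      obtain ⟨b, hb⟩ := IsAlgClosed.exists_pow_nat_eq (w - c₀) hl
      have hnb : ‖b‖ ^ lx T c = ‖w - c₀‖ := by rw [← norm_pow, hb]
      refine ⟨b, ?_, ?_, ?_⟩
      · rw [norm_pos_iff]
        rintro rfl
        rw [norm_zero, zero_pow hl.ne'] at hnb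
        exact hw.ne hnb
      · exact lt_of_pow_lt_pow_left₀ _ hr₁.le (by rw [hnb]; exact hw')
      · rw [hb, hcx]; ring
    refine ⟨lam, r₁ ^ lx T c, pow_pos hr₁ _, ?_, ?_, ?_⟩
    · intro x hx
      have hne : pV U v x ≠ c₀ := fun h => x.2.2.1 (by
        have h' : x.1.1 = c₀ := h
        rw [h']; exact hc₀)
      exact q2 x (hroot _ (norm_pos_iff.2 (sub_ne_zero.2 hne)) hx)
    · intro c' hc' hn' h1' hcx' γ' hγ' j b hb hb1 hb2
      obtain rfl : c = c' := att_unique hc hc' hn hn' h1 h1' (hcx.trans hcx'.symm)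
      have hb3 : ‖b‖ < r₁ := lt_of_pow_lt_pow_left₀ _ hr₁.le hb1
      have he : γ' j b = γ j b := (AE.of1 hγ').uniq hA j (hD b hb hb3)
      rw [he, q1 j b hb hb3]
      field_simp
    · intro w hw hw' E
      obtain ⟨b, hb, hb1, rfl⟩ := hroot w hw hw'
      rw [q3 b hb hb1 fun x => (x : ConnectedComponents (XV U v)) = E]
      have hf : (NC S).filter (fun c => v1 T c = some v ∧ cx T c = c₀) = {c} := by
        ext c'
        simp only [Finset.mem_filter, Finset.mem_singleton]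
        constructor
        · rintro ⟨h2, h3, h4⟩
          obtain ⟨h5, h6⟩ := mem_NC.1 h2
          exact att_unique h5 hc h6 hn h3 h1 (h4.trans hcx.symm)
        · rintro rfl
          exact ⟨mem_NC.2 ⟨hc, hn⟩, h1, hcx⟩
      rw [hf, Finset.sum_singleton]
      refine Finset.sum_congr rfl fun j _ => ?_
      have h2 := hlab j b (hD b hb hb1)
      have h3 : L.e1 c j = some ⟨⟨v, hv⟩, E⟩ ↔
          ((γ j b : XV U v) : ConnectedComponents (XV U v)) = E := by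
        rw [h2]
        constructor
        · intro h
          have h4 := Option.some.inj h
          exact eq_of_heq (Sigma.mk.inj h4).2
        · intro h
          rw [← h]; rfl
      by_cases h4 : ((γ j b : XV U v) : ConnectedComponents (XV U v)) = E
      · rw [if_pos h4, if_pos (h3.2 h4)]
      · rw [if_neg h4, if_neg (fun h => h4 (h3.1 h))]
  · refine ⟨fun _ => 0, 1, one_pos, fun x _ => Eventually.of_forall fun _ => rfl, ?_, ?_⟩
    · intro c hc hn h1 hcx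
      exact absurd ⟨c, hc, hn, h1, hcx⟩ hex
    · intro w _ _ E
      have hf : (NC S).filter (fun c => v1 T c = some v ∧ cx T c = c₀) = ∅ := by
        rw [Finset.filter_eq_empty_iff]
        rintro c hc ⟨h1, h2⟩
        exact hex ⟨c, (mem_NC.1 hc).1, (mem_NC.1 hc).2, h1, h2⟩
      rw [hf, Finset.sum_empty]
      simp

/-- **the slope function near infinity** -/
theorem P2 {L : Lab U S} (hE : EndStmt L) (hW : LabWD L) (y : II U → ℝ) {F : Finset (Ch T.m)}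
    (K : DKill S F) (δ : ℝ) {v : Vtx} (hv : v ∈ Vs T) :
    ∃ (lam : XV U v → ℝ) (r₀ : ℝ), 0 < r₀ ∧
      (∀ x, r₀⁻¹ < ‖pV U v x‖ → ∀ᶠ x' in 𝓝 x, lam x' = lam x) ∧
      (∀ c, Ok S c → v2 T c = some v → ∀ γ, End2 U S c v γ → ∀ j,
        ∀ b : ℂ, 0 < ‖b‖ → ‖b‖ ^ lx T c < r₀ → ‖b‖ < 2 * S.r c →
        lam (γ j b) * lx T c = d2 L y K c j + δ) ∧
      (∀ w : ℂ, r₀⁻¹ < ‖w‖ → ∀ E : ConnectedComponents (XV U v),
        ∑ᶠ x ∈ {x : XV U v | pV U v x = w ∧ (x : ConnectedComponents (XV U v)) = E}, lam x =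
          ∑ j, open Classical in if L.e2 (ec S v) j = some ⟨⟨v, hv⟩, E⟩ then
            (d2 L y K (ec S v) j + δ) / lx T (ec S v) else 0) := by
  classical
  obtain ⟨c, hcd⟩ : ∃ c, c = ec S v := ⟨_, rfl⟩
  rw [← hcd]
  have hc : Ok S c := by rw [hcd]; exact Lab_931.ok_ec S hv
  have hcE : IsE c := by rw [hcd]; exact isE_ec v
  have h1 : v2 T c = some v := by rw [hcd]; exact Lab_931.v2_ec S hv
  obtain ⟨γ, hγ, hlab⟩ := (hE c hc ⟨v, hv⟩).2 h1
  obtain ⟨r₁, hr₁, hr₂, hwd⟩ := s2_wd hW y K hc hcE hγ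
  have hl : 0 < lx T c := lx_pos hc.1
  have hlr : (0 : ℝ) < lx T c := by exact_mod_cast hl
  have hA := AE.of2 hγ
  have hD : ∀ b : ℂ, 0 < ‖b‖ → ‖b‖ < r₁ → b ∈ PDc S c := fun b h h' => ⟨h, h'.trans_le hr₂⟩
  obtain ⟨lam, q1, q2, q3⟩ := hA.exists_lam hD (fun j => (d2 L y K c j + δ) / lx T c)
    (fun j j' b b' a1 a2 a3 a4 a5 => by
      show (d2 L y K c j + δ) / lx T c = (d2 L y K c j' + δ) / lx T c
      rw [hwd j j' b b' a1 a2 a3 a4 a5])
    (fun b a1 a2 N hN => op2 hl a1 hN)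
  have hroot : ∀ w : ℂ, (r₁ ^ lx T c)⁻¹ < ‖w‖ →
      ∃ b : ℂ, 0 < ‖b‖ ∧ ‖b‖ < r₁ ∧ w = (b ^ lx T c)⁻¹ := by
    intro w hw
    have hp : 0 < r₁ ^ lx T c := pow_pos hr₁ _
    have hw0 : 0 < ‖w‖ := (inv_pos.2 hp).trans hw
    obtain ⟨b, hb⟩ := IsAlgClosed.exists_pow_nat_eq w⁻¹ hl
    have hnb : ‖b‖ ^ lx T c = ‖w‖⁻¹ := by rw [← norm_pow, hb, norm_inv]
    refine ⟨b, ?_, ?_, ?_⟩
    · rw [norm_pos_iff]
      rintro rfl
      rw [norm_zero, zero_pow hl.ne'] at hnb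
      exact (inv_pos.2 hw0).ne hnb
    · refine lt_of_pow_lt_pow_left₀ (lx T c) hr₁.le ?_
      rw [hnb]
      exact inv_lt_of_inv_lt₀ hp hw
    · rw [hb, inv_inv]
  refine ⟨lam, r₁ ^ lx T c, pow_pos hr₁ _, ?_, ?_, ?_⟩
  · intro x hx
    exact q2 x (hroot _ hx)
  · intro c' hc' h1' γ' hγ' j b hb hb1 hb2
    obtain rfl : c = c' := by rw [hcd, v2_eq hc' h1']
    have hb3 : ‖b‖ < r₁ := lt_of_pow_lt_pow_left₀ _ hr₁.le hb1
    have he : γ' j b = γ j b := (AE.of2 hγ').uniq hA j (hD b hb hb3)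
    rw [he, q1 j b hb hb3]
    field_simp
  · intro w hw E
    obtain ⟨b, hb, hb1, rfl⟩ := hroot w hw
    rw [q3 b hb hb1 fun x => (x : ConnectedComponents (XV U v)) = E]
    refine Finset.sum_congr rfl fun j _ => ?_
    have h2 := hlab j b (hD b hb hb1)
    have h3 : L.e2 c j = some ⟨⟨v, hv⟩, E⟩ ↔
        ((γ j b : XV U v) : ConnectedComponents (XV U v)) = E := by
      rw [h2]
      constructor
      · intro h
        have h4 := Option.some.inj h
        exact eq_of_heq (Sigma.mk.inj h4).2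
      · intro h
        rw [← h]; rfl
    by_cases h4 : ((γ j b : XV U v) : ConnectedComponents (XV U v)) = E
    · rw [if_pos h4, if_pos (h3.2 h4)]
    · rw [if_neg h4, if_neg (fun h => h4 (h3.1 h))]

end Crest.Agent.R257.Hv_174
end
end

-- ▼ part R257/Hv4_174

/-!
Row 257 (S0395), task C-HV (helper174), file 4: poles and the function on one curve.

* `P3`   : the interior poles;
* `perV` : the function on one curve `XV U v`, from `RSWStmt`.
-/

set_option autoImplicit false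
set_option linter.unusedSectionVars false

open Polynomial Set Filter Topology Metric
open Crest.AlgGeometry.Germ Crest.Agent.R257.AJ387 Crest.Agent.R257.T387
open Crest.Agent.R257.Gr1_157 Crest.Agent.R257.HoB_843 Crest.Agent.R257.BP_258
open Crest.Agent.R257.Wt_258 Crest.Agent.R257.Cpt1_419

noncomputable section

namespace Crest.Agent.R257.Hv_174

variable {f : (Fin 3 → ℂ) → ℂ} {T : TB f} {S : Sh T} {U : Tub T}

lemma zero_mem_PDv {c : Ch T.m} (hV : IsV c) : (0 : ℂ) ∈ PDv S c :=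
  ⟨Or.inl hV, by rw [norm_zero]; have := S.pos c; linarith⟩

/-- **the interior poles** -/
theorem P3 {L : Lab U S} (hE : EndStmt L) {F : Finset (Ch T.m)} (K : DKill S F)
    (hF : ∀ c ∈ F, Ok S c) (δ : ℝ) {v : Vtx} (hv : v ∈ Vs T) :
    ∃ (Q : Finset (XV U v)) (t : XV U v → ℝ), (↑Q : Set (XV U v)) = QD K v ∧
      (∀ c j γ, (c, j) ∈ K.κ → IsV c → v1 T c = some v → End1 U S c v γ →
        γ j 0 ∈ Q ∧ t (γ j 0) = K.t (c, j) * K.a (c, j) + δ) ∧
      ∀ E : ConnectedComponents (XV U v),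
        (∑ q ∈ Q, open Classical in if (q : ConnectedComponents (XV U v)) = E then t q else 0) =
        ∑ c ∈ open Classical in F.filter IsV, ∑ j,
          open Classical in if (c, j) ∈ K.κ ∧ L.e1 c j = some ⟨⟨v, hv⟩, E⟩ then K.t (c, j) * K.a (c, j) + δ
            else 0 := by
  classical
  set A : Finset (Ch T.m × Fin T.d) :=
    ((F.filter IsV) ×ˢ Finset.univ).filter (fun a => a ∈ K.κ ∧ v1 T a.1 = some v) with hA
  have hmem : ∀ {a : Ch T.m × Fin T.d}, a ∈ A ↔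
      (a.1 ∈ F ∧ IsV a.1) ∧ a ∈ K.κ ∧ v1 T a.1 = some v := by
    intro a
    rw [hA, Finset.mem_filter, Finset.mem_product, Finset.mem_filter]
    simp
  have hex : ∀ a : {a // a ∈ A}, ∃ γ, End1 U S a.1.1 v γ ∧
      ∀ j, ∀ b ∈ PDv S a.1.1, L.e1 a.1.1 j = some (lab U ⟨v, hv⟩ (γ j b)) := by
    intro a
    obtain ⟨⟨h1, h2⟩, h3, h4⟩ := hmem.1 a.2
    exact (hE a.1.1 (hF _ h1) ⟨v, hv⟩).1 h4
  choose γ hγ hlab using hex
  set φ : {a // a ∈ A} → XV U v := fun a => γ a a.1.2 0 with hφ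
  have hpφ : ∀ a, pV U v (φ a) = cx T a.1.1 := by
    intro a
    obtain ⟨⟨h1, h2⟩, h3, h4⟩ := hmem.1 a.2
    have h5 := (hγ a).pr a.1.2 0 (zero_mem_PDv h2)
    rw [(vert_eq (hF _ h1) h2 h4).2.2.2, pow_one, add_zero] at h5
    exact h5
  have hinj : Function.Injective φ := by
    intro a a' h
    obtain ⟨⟨h1, h2⟩, h3, h4⟩ := hmem.1 a.2
    obtain ⟨⟨h1', h2'⟩, h3', h4'⟩ := hmem.1 a'.2
    have h5 : cx T a.1.1 = cx T a'.1.1 := by rw [← hpφ, ← hpφ, h]
    have h6 : a.1.1 = a'.1.1 := vert_unique (hF _ h1) (hF _ h1') h2 h2' h4 h4' h5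
    obtain ⟨⟨c, j⟩, ha⟩ := a
    obtain ⟨⟨c', j'⟩, ha'⟩ := a'
    obtain rfl : c = c' := h6
    have h7 : γ ⟨(c, j), ha⟩ j' 0 = γ ⟨(c, j'), ha'⟩ j' 0 :=
      (AE.of1 (hγ ⟨(c, j), ha⟩)).uniq (AE.of1 (hγ ⟨(c, j'), ha'⟩)) j' (zero_mem_PDv h2)
    have h8 : γ ⟨(c, j), ha⟩ j 0 = γ ⟨(c, j), ha⟩ j' 0 := h.trans h7.symm
    have h9 : j = j' := (hγ ⟨(c, j), ha⟩).inj 0 (zero_mem_PDv h2) h8
    subst h9
    rfl
  set t : XV U v → ℝ := fun q =>
    if h : ∃ a, φ a = q then K.t h.choose.1 * K.a h.choose.1 + δ else 0 with ht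
  have htφ : ∀ a, t (φ a) = K.t a.1 * K.a a.1 + δ := by
    intro a
    have hx : ∃ a', φ a' = φ a := ⟨a, rfl⟩
    have h1 : t (φ a) = K.t hx.choose.1 * K.a hx.choose.1 + δ := by rw [ht]; exact dif_pos hx
    rw [h1, hinj hx.choose_spec]
  refine ⟨Finset.univ.image φ, t, ?_, ?_, ?_⟩
  · ext q
    simp only [Finset.coe_image, Finset.coe_univ, Set.image_univ, Set.mem_range, QD,
      Set.mem_ofPred_eq]
    constructor
    · rintro ⟨a, rfl⟩
      obtain ⟨⟨h1, h2⟩, h3, h4⟩ := hmem.1 a.2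
      exact ⟨a.1.1, a.1.2, γ a, h3, h2, h4, hγ a, rfl⟩
    · rintro ⟨c, j, γ', h1, h2, h3, h4, rfl⟩
      have ha : (c, j) ∈ A := hmem.2 ⟨⟨K.mem _ h1, h2⟩, h1, h3⟩
      exact ⟨⟨(c, j), ha⟩, (AE.of1 (hγ ⟨(c, j), ha⟩)).uniq (AE.of1 h4) j (zero_mem_PDv h2)⟩
  · intro c j γ' h1 h2 h3 h4
    have ha : (c, j) ∈ A := hmem.2 ⟨⟨K.mem _ h1, h2⟩, h1, h3⟩
    have h5 : φ ⟨(c, j), ha⟩ = γ' j 0 :=
      (AE.of1 (hγ ⟨(c, j), ha⟩)).uniq (AE.of1 h4) j (zero_mem_PDv h2)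
    rw [← h5]
    exact ⟨Finset.mem_image_of_mem _ (Finset.mem_univ _), htφ _⟩
  · intro E
    rw [Finset.sum_image (fun a _ a' _ h => hinj h)]
    have h1 : ∀ a : {a // a ∈ A}, (if ((φ a : XV U v) : ConnectedComponents (XV U v)) = E then
        t (φ a) else 0) = (fun a : Ch T.m × Fin T.d =>
          if L.e1 a.1 a.2 = some ⟨⟨v, hv⟩, E⟩ then K.t a * K.a a + δ else 0) a.1 := by
      intro a
      obtain ⟨⟨h1, h2⟩, h3, h4⟩ := hmem.1 a.2
      have h5 := hlab a a.1.2 0 (zero_mem_PDv h2)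
      have h6 : L.e1 a.1.1 a.1.2 = some ⟨⟨v, hv⟩, E⟩ ↔
          ((φ a : XV U v) : ConnectedComponents (XV U v)) = E := by
        rw [h5]
        constructor
        · intro h
          exact eq_of_heq (Sigma.mk.inj (Option.some.inj h)).2
        · intro h
          rw [← h]; rfl
      show (if ((φ a : XV U v) : ConnectedComponents (XV U v)) = E then t (φ a) else 0) =
        if L.e1 a.1.1 a.1.2 = some ⟨⟨v, hv⟩, E⟩ then K.t a.1 * K.a a.1 + δ else 0
      rw [htφ]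
      by_cases h7 : ((φ a : XV U v) : ConnectedComponents (XV U v)) = E
      · rw [if_pos h7, if_pos (h6.2 h7)]
      · rw [if_neg h7, if_neg fun h => h7 (h6.1 h)]
    rw [Finset.sum_congr rfl fun a _ => h1 a]
    rw [Finset.univ_eq_attach, Finset.sum_attach A (fun a : Ch T.m × Fin T.d =>
          if L.e1 a.1 a.2 = some ⟨⟨v, hv⟩, E⟩ then K.t a * K.a a + δ else 0)]
    rw [hA, Finset.sum_filter, Finset.sum_product]
    refine Finset.sum_congr rfl fun c _ => Finset.sum_congr rfl fun j _ => ?_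
    by_cases h2 : L.e1 c j = some ⟨⟨v, hv⟩, E⟩
    · by_cases h3 : (c, j) ∈ K.κ
      · have h4 : v1 T c = some v := by
          have h5 := L.v_e1 c (hF _ (K.mem _ h3)) j
          rw [h2] at h5
          exact h5.symm
        rw [if_pos ⟨h3, h4⟩, if_pos h2, if_pos ⟨h3, h2⟩]
      · rw [if_neg (fun h => h3 h.1), if_neg (fun h => h3 h.1)]
    · simp [h2]

/-- total slope of a component -/
def tot (L : Lab U S) (y : II U → ℝ) {F : Finset (Ch T.m)} (K : DKill S F) (δ : ℝ)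
    (E : II U) : ℝ :=
  (∑ c ∈ NC S, ∑ j, open Classical in if L.e1 c j = some E then
    (d1 L y K c j + δ) / lx T c else 0) +
  (∑ j, open Classical in if L.e2 (ec S E.1.1) j = some E then
    (d2 L y K (ec S E.1.1) j + δ) / lx T (ec S E.1.1) else 0) +
  (∑ c ∈ open Classical in F.filter IsV, ∑ j,
    open Classical in if (c, j) ∈ K.κ ∧ L.e1 c j = some E then K.t (c, j) * K.a (c, j) + δ else 0)

lemma tot_cont (L : Lab U S) (y : II U → ℝ) {F : Finset (Ch T.m)} (K : DKill S F)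
    (E : II U) : Continuous fun δ => tot L y K δ E := by
  classical
  unfold tot
  refine (Continuous.add ?_ ?_).add ?_
  · refine continuous_finsetSum _ fun c _ => continuous_finsetSum _ fun j _ => ?_
    split_ifs
    · exact (continuous_const.add continuous_id).div_const _
    · exact continuous_const
  · refine continuous_finsetSum _ fun j _ => ?_
    split_ifs
    · exact (continuous_const.add continuous_id).div_const _
    · exact continuous_const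
  · refine continuous_finsetSum _ fun c _ => continuous_finsetSum _ fun j _ => ?_
    split_ifs
    · exact continuous_const.add continuous_id
    · exact continuous_const

lemma log_pow_sq {b : ℝ} (l : ℕ) : Real.log ((b ^ l) ^ 2) = l * Real.log (b ^ 2) := by
  rw [← pow_mul, mul_comm l 2, pow_mul, Real.log_pow]

/-- the function on one curve -/
theorem perV (hRSW : RSWStmt) {L : Lab U S} (hE : EndStmt L) (hW : LabWD L) (y : II U → ℝ)
    {F : Finset (Ch T.m)} (K : DKill S F) (hF : ∀ c ∈ F, Ok S c) {δ : ℝ} {v : Vtx}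
    (hv : v ∈ Vs T) (hneg : ∀ E : ConnectedComponents (XV U v), tot L y K δ ⟨⟨v, hv⟩, E⟩ < 0) :
    ∃ (τ C : ℝ) (h : XV U v → ℝ), 0 < τ ∧ SmPos (pV U v) (QD K v) h ∧ ∀ c, Ok S c →
      (v1 T c = some v → ∀ γ, End1 U S c v γ → ∀ j, (IsV c → (c, j) ∈ K.κ) →
        ∀ b : ℂ, 0 < ‖b‖ → ‖b‖ < τ → ‖b‖ < S.r c →
        |h (γ j b) - (d1 L y K c j + δ) * Real.log (‖b‖ ^ 2)| ≤ C) ∧
      (v2 T c = some v → ∀ γ, End2 U S c v γ → ∀ j,
        ∀ a : ℂ, 0 < ‖a‖ → ‖a‖ < τ → ‖a‖ < S.r c →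
        |h (γ j a) - (d2 L y K c j + δ) * Real.log (‖a‖ ^ 2)| ≤ C) := by
  classical
  have hP1 : ∀ c₀ : ℂ, ∃ (lam : XV U v → ℝ) (r₀ : ℝ), c₀ ∈ sp T v → 0 < r₀ ∧
      (∀ x, ‖pV U v x - c₀‖ < r₀ → ∀ᶠ x' in 𝓝 x, lam x' = lam x) ∧
      (∀ c, Ok S c → ¬ IsV c → v1 T c = some v → cx T c = c₀ → ∀ γ, End1 U S c v γ → ∀ j,
        ∀ b : ℂ, 0 < ‖b‖ → ‖b‖ ^ lx T c < r₀ → ‖b‖ < 2 * S.r c →
        lam (γ j b) * lx T c = d1 L y K c j + δ) ∧
      (∀ w : ℂ, 0 < ‖w - c₀‖ → ‖w - c₀‖ < r₀ → ∀ E : ConnectedComponents (XV U v),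
        ∑ᶠ x ∈ {x : XV U v | pV U v x = w ∧ (x : ConnectedComponents (XV U v)) = E}, lam x =
          ∑ c ∈ (NC S).filter (fun c => v1 T c = some v ∧ cx T c = c₀), ∑ j,
            open Classical in if L.e1 c j = some ⟨⟨v, hv⟩, E⟩ then (d1 L y K c j + δ) / lx T c
              else 0) := by
    intro c₀
    by_cases hc₀ : c₀ ∈ sp T v
    · obtain ⟨lam, r₀, h⟩ := P1 hE hW y K δ hv hc₀
      exact ⟨lam, r₀, fun _ => h⟩
    · exact ⟨fun _ => 0, 0, fun h => absurd h hc₀⟩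
  choose lam₁ r₁ hP1 using hP1
  obtain ⟨lam₂, r₂, hr₂, a1, a2, a3⟩ := P2 hE hW y K δ hv
  obtain ⟨Q, t, hQ, hQ1, hQ2⟩ := P3 hE K hF δ hv
  -- the radius
  have hinv : Tendsto (fun r : ℝ => r⁻¹) (𝓝[>] 0) atTop := tendsto_inv_nhdsGT_zero
  have hsm : ∀ x : ℝ, 0 < x → ∀ᶠ r in 𝓝[>] (0 : ℝ), r < x := fun x hx =>
    nhdsWithin_le_nhds (gt_mem_nhds hx)
  have hr : ∀ᶠ r in 𝓝[>] (0 : ℝ), 0 < r ∧ (∀ c ∈ sp T v, ∀ c' ∈ sp T v, c ≠ c' → 2 * r ≤ ‖c - c'‖) ∧
      (∀ c ∈ sp T v, ‖c‖ + 2 * r ≤ r⁻¹) ∧ (∀ c ∈ sp T v, r < r₁ c) ∧ r < r₂ ∧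
      (∀ q ∈ Q, (∀ c ∈ sp T v, r ≤ ‖pV U v q - c‖) ∧ ‖pV U v q‖ ≤ r⁻¹) := by
    refine Eventually.and self_mem_nhdsWithin (Eventually.and ?_ (Eventually.and ?_
      (Eventually.and ?_ (Eventually.and (hsm _ hr₂) ?_))))
    · rw [Finset.eventually_all]
      intro c hc
      rw [Finset.eventually_all]
      intro c' hc'
      by_cases h : c = c'
      · exact Eventually.of_forall fun r h' => absurd h h'
      · have h1 : 0 < ‖c - c'‖ := norm_pos_iff.2 (sub_ne_zero.2 h)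
        filter_upwards [hsm (‖c - c'‖ / 2) (by linarith)] with r hr _
        linarith
    · rw [Finset.eventually_all]
      intro c hc
      filter_upwards [hsm (1 / 2) (by norm_num), hinv.eventually_ge_atTop (‖c‖ + 1)] with r h1 h2
      linarith
    · rw [Finset.eventually_all]
      intro c hc
      exact hsm _ (hP1 c hc).1
    · rw [Finset.eventually_all]
      intro q hq
      refine Eventually.and ?_ (hinv.eventually_ge_atTop _)
      rw [Finset.eventually_all]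
      intro c hc
      have h1 : pV U v q ≠ c := fun h => q.2.2.1 (by
        have h' : q.1.1 = c := h
        rw [h']; exact hc)
      have h2 : 0 < ‖pV U v q - c‖ := norm_pos_iff.2 (sub_ne_zero.2 h1)
      filter_upwards [hsm _ h2] with r hr
      exact hr.le
  obtain ⟨r, hr0, hr1, hr2, hr3, hr4, hr5⟩ := hr.exists
  have hri : 0 < r⁻¹ := inv_pos.2 hr0
  obtain ⟨h, C, hs, e1, e2, e3⟩ := hRSW (sp T v) (XV U v) inferInstance inferInstance
    (Tb_941.covV hv) Q t (fun o => o.elim lam₂ lam₁) r ⟨hr0, hr1, hr2⟩ hr5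
    (fun c hc x hx => (hP1 c hc).2.1 x (lt_trans hx (hr3 c hc)))
    (fun x hx => a1 x (lt_trans ((inv_lt_inv₀ hr₂ hr0).2 hr4) hx)) (by
      intro E
      have n1 : ∀ c : ℂ, ‖(c + (r / 2 : ℝ) : ℂ) - c‖ = r / 2 := fun c => by
        rw [add_sub_cancel_left, Complex.norm_real, Real.norm_of_nonneg (by linarith)]
      have n2 : ‖((2 * r⁻¹ : ℝ) : ℂ)‖ = 2 * r⁻¹ := by
        rw [Complex.norm_real, Real.norm_of_nonneg (by linarith)]
      refine ⟨fun o => o.elim ((2 * r⁻¹ : ℝ) : ℂ) (fun c => c + (r / 2 : ℝ)), ?_, ?_, ?_⟩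
      · intro c hc
        show 0 < ‖(c + (r / 2 : ℝ) : ℂ) - c‖ ∧ ‖(c + (r / 2 : ℝ) : ℂ) - c‖ < r
        rw [n1]
        constructor <;> linarith
      · show r⁻¹ < ‖((2 * r⁻¹ : ℝ) : ℂ)‖
        rw [n2]
        linarith
      · have m1 : ∀ c ∈ sp T v, ∑ᶠ x ∈ {x : XV U v | pV U v x = c + (r / 2 : ℝ) ∧
            (x : ConnectedComponents (XV U v)) = E}, lam₁ c x =
            ∑ c' ∈ (NC S).filter (fun c' => v1 T c' = some v ∧ cx T c' = c), ∑ j,
            if L.e1 c' j = some ⟨⟨v, hv⟩, E⟩ then (d1 L y K c' j + δ) / lx T c' else 0 := by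
          intro c hc
          have m2 := (hP1 c hc).2.2.2 (c + (r / 2 : ℝ)) (by rw [n1]; linarith)
            (by rw [n1]; linarith [hr3 c hc]) E
          rw [m2]
        have m3 : ∑ᶠ x ∈ {x : XV U v | pV U v x = ((2 * r⁻¹ : ℝ) : ℂ) ∧
            (x : ConnectedComponents (XV U v)) = E}, lam₂ x =
            ∑ j, if L.e2 (ec S v) j = some ⟨⟨v, hv⟩, E⟩ then
            (d2 L y K (ec S v) j + δ) / lx T (ec S v) else 0 := by
          rw [a3 _ (by
            rw [n2]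
            have := (inv_lt_inv₀ hr₂ hr0).2 hr4
            linarith) E]
        have m4 : ∑ c ∈ sp T v, ∑ c' ∈ (NC S).filter (fun c' => v1 T c' = some v ∧ cx T c' = c), ∑ j,
            (if L.e1 c' j = some ⟨⟨v, hv⟩, E⟩ then (d1 L y K c' j + δ) / lx T c' else 0) =
            ∑ c' ∈ NC S, ∑ j,
              (if L.e1 c' j = some ⟨⟨v, hv⟩, E⟩ then (d1 L y K c' j + δ) / lx T c' else 0) := by
          simp only [Finset.sum_filter]
          rw [Finset.sum_comm]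
          refine Finset.sum_congr rfl fun c' hc' => ?_
          by_cases h1 : v1 T c' = some v
          · simp only [h1, true_and]
            rw [Finset.sum_ite_eq (sp T v) (cx T c'), if_pos (cx_mem (mem_NC.1 hc').2 h1)]
          · have h2 : ∀ j, ¬ L.e1 c' j = some ⟨⟨v, hv⟩, E⟩ := by
              intro j h
              have h3 := L.v_e1 c' (mem_NC.1 hc').1 j
              rw [h] at h3
              exact h1 h3.symm
            simp only [h1, false_and, if_false, h2, Finset.sum_const_zero]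
        have m5 := hneg E
        unfold tot at m5
        have m6 := hQ2 E
        have m7 : (∑ c ∈ sp T v, ∑ᶠ x ∈ {x : XV U v | pV U v x = c + (r / 2 : ℝ) ∧
            (x : ConnectedComponents (XV U v)) = E}, lam₁ c x) +
            (∑ᶠ x ∈ {x : XV U v | pV U v x = ((2 * r⁻¹ : ℝ) : ℂ) ∧
            (x : ConnectedComponents (XV U v)) = E}, lam₂ x) +
            (∑ q ∈ Q, if (q : ConnectedComponents (XV U v)) = E then t q else 0) < 0 := by
          rw [Finset.sum_congr rfl m1, m4, m3]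
          rw [m6]
          exact m5
        exact m7)
  -- vertex poles
  have hG : ∀ a ∈ F ×ˢ (Finset.univ : Finset (Fin T.d)), ∀ᶠ τ in 𝓝[>] (0 : ℝ),
      a ∈ K.κ → IsV a.1 → v1 T a.1 = some v → ∀ γ, End1 U S a.1 v γ →
        ∀ b : ℂ, 0 < ‖b‖ → ‖b‖ < τ → ‖b‖ < S.r a.1 →
        |h (γ a.2 b) - (d1 L y K a.1 a.2 + δ) * Real.log (‖b‖ ^ 2)| ≤ C := by
    intro a ha
    by_cases hk : a ∈ K.κ ∧ IsV a.1 ∧ v1 T a.1 = some v
    swap
    · exact Eventually.of_forall fun τ h1 h2 h3 => absurd ⟨h1, h2, h3⟩ hk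
    obtain ⟨hk, hV, h1⟩ := hk
    have hc : Ok S a.1 := hF _ (K.mem _ hk)
    obtain ⟨γ₀, hγ₀, -⟩ := (hE a.1 hc ⟨v, hv⟩).1 h1
    obtain ⟨hq, htq⟩ := hQ1 a.1 a.2 γ₀ hk hV h1 hγ₀
    have hlx : lx T a.1 = 1 := (vert_eq hc hV h1).2.2.2
    have hPD : PDv S a.1 ∈ 𝓝 (0 : ℂ) := by
      have : ball (0 : ℂ) (2 * S.r a.1) ∈ 𝓝 (0 : ℂ) := ball_mem_nhds _ (by
        have := S.pos a.1; linarith)
      refine mem_of_superset this fun b hb => ⟨Or.inl hV, ?_⟩
      simpa using hb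
    have hcont : ContinuousAt (γ₀ a.2) 0 := (hγ₀.cont a.2).continuousAt hPD
    have h2 := hcont.eventually (e3 _ hq)
    obtain ⟨ε, hε, hε2⟩ := Metric.eventually_nhds_iff.1 h2
    filter_upwards [hsm ε hε] with τ hτ _ _ _ γ hγ b hb hb1 hb2
    have hbm : b ∈ PDv S a.1 := ⟨Or.inl hV, by linarith [S.pos a.1]⟩
    have h3 : γ a.2 b = γ₀ a.2 b := (AE.of1 hγ).uniq (AE.of1 hγ₀) a.2 hbm
    have p0 := hγ₀.pr a.2 0 (zero_mem_PDv hV)
    have pb := hγ₀.pr a.2 b hbm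
    rw [hlx, pow_one] at p0 pb
    have h4 : pV U v (γ₀ a.2 b) - pV U v (γ₀ a.2 0) = b := by rw [p0, pb]; ring
    have h5 : γ₀ a.2 b ≠ γ₀ a.2 0 := by
      intro h
      rw [h, sub_self] at h4
      rw [← h4, norm_zero] at hb
      exact lt_irrefl _ hb
    have h6 := hε2 (y := b) (by rw [dist_zero_right]; exact hb1.trans hτ) h5
    have h7 : d1 L y K a.1 a.2 = K.t a * K.a a := by
      have hnE : ¬ IsE a.1 := by
        intro h
        have hV' := hV
        revert h hV'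
        cases a.1 <;> simp [IsE, IsV]
      unfold d1 dk1
      rw [if_neg hnE, if_pos hk, zero_add]
    have h8 : ((Tb_941.covV hv).p (γ₀ a.2 b)).1 - ((Tb_941.covV hv).p (γ₀ a.2 0)).1 = b := h4
    rw [h8, htq] at h6
    rw [h3, h7]
    exact h6
  have hτ := (((Finset.eventually_all _).2 hG).and
    ((hsm _ one_pos).and (hsm (r / 2) (by linarith)))).and self_mem_nhdsWithin
  obtain ⟨τ, ⟨hτ1, hτ2, hτ3⟩, hτ0⟩ := hτ.exists
  refine ⟨τ, C, h, hτ0, by rw [← hQ]; exact hs, fun c hc => ⟨?_, ?_⟩⟩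
  · intro h1 γ hγ j hj b hb hb1 hb2
    by_cases hV : IsV c
    · have hk := hj hV
      exact hτ1 (c, j) (Finset.mem_product.2 ⟨K.mem _ hk, Finset.mem_univ _⟩) hk hV h1 γ hγ b hb
        hb1 hb2
    · have hcx := cx_mem hV h1
      have hl : 0 < lx T c := lx_pos hc.1
      have hbm : b ∈ PDv S c := ⟨Or.inr hb, by linarith [S.pos c]⟩
      have hpb := hγ.pr j b hbm
      have hle : ‖b‖ ^ lx T c ≤ ‖b‖ := pow_le_of_le_one (norm_nonneg _) (by linarith) hl.ne'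
      have h2 : pV U v (γ j b) - cx T c = b ^ lx T c := by rw [hpb]; ring
      have h3 := (hP1 _ hcx).2.2.1 c hc hV h1 rfl γ hγ j b hb
        (by linarith [hr3 _ hcx]) (by linarith [S.pos c])
      have h4 := e1 _ hcx (γ j b) (by
        show ‖pV U v (γ j b) - cx T c‖ < r / 2
        rw [h2, norm_pow]
        linarith)
      have h5 : |h (γ j b) - lam₁ (cx T c) (γ j b) *
          Real.log (‖pV U v (γ j b) - cx T c‖ ^ 2)| ≤ C := h4
      rw [h2, norm_pow, log_pow_sq, ← mul_assoc, h3] at h5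
      exact h5
  · intro h1 γ hγ j b hb hb1 hb2
    have hl : 0 < lx T c := lx_pos hc.1
    have hbm : b ∈ PDc S c := ⟨hb, by linarith [S.pos c]⟩
    have hpb := hγ.pr j b hbm
    have hle : ‖b‖ ^ lx T c ≤ ‖b‖ := pow_le_of_le_one (norm_nonneg _) (by linarith) hl.ne'
    have hbp : 0 < ‖b‖ ^ lx T c := pow_pos hb _
    have h3 := a2 c hc h1 γ hγ j b hb (by linarith) (by linarith [S.pos c])
    have h4 := e2 (γ j b) (by
      show 2 * r⁻¹ < ‖pV U v (γ j b)‖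
      rw [hpb, norm_inv, norm_pow]
      have h6 : ‖b‖ ^ lx T c < r / 2 := by linarith
      have h7 := (inv_lt_inv₀ (by linarith : (0 : ℝ) < r / 2) hbp).2 h6
      rw [inv_div] at h7
      rwa [← div_eq_mul_inv])
    have h5 : |h (γ j b) + lam₂ (γ j b) * Real.log (‖pV U v (γ j b)‖ ^ 2)| ≤ C := h4
    rw [hpb, norm_inv, norm_pow, inv_pow, Real.log_inv, log_pow_sq] at h5
    have h6 : h (γ j b) + lam₂ (γ j b) * -(↑(lx T c) * Real.log (‖b‖ ^ 2)) =
        h (γ j b) - (d2 L y K c j + δ) * Real.log (‖b‖ ^ 2) := by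
      rw [← h3]; ring
    rw [h6] at h5
    exact h5

end Crest.Agent.R257.Hv_174
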