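import Crest.Agent.R257.DetF_219
import Crest.Agent.R257.LcV_980
import Crest.Agent.R257.LcA_980
import Crest.Agent.R257.GA_554
import Crest.Agent.R257.Jac_554

-- ▼ part R257/MsNe1_980
section

/-!
Row 257 (S0395), leaf MSET-NE (helper980), part 1:
* `card_zeros`: the number of the zeros of `F(y,·)` near `0` is bounded;
* `colFin_axes`: `ColFin ![f, x₁, x₂]` if `f` is regular in `x₀`;
* `inJ1_add`, `inJ1_mul`: `J_1(f)` is an ideal.
-/

set_option autoImplicit false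

open Topology Filter Set Metric MeasureTheory
open scoped ENNReal
open Crest.AlgGeometry Crest.AlgGeometry.Germ Crest.Agent.R257.Defs_219

noncomputable section

namespace Crest.Agent.R257.MsNe_980

universe u

/-- the zeros of `F(y,·)` near `0`: at most `n` -/
theorem card_zeros {E : Type u} [NormedAddCommGroup E] [NormedSpace ℂ E] [FiniteDimensional ℂ E]
    {F : E × ℂ → ℂ} (hF : AnalyticAt ℂ F (0, 0)) (hne : ∃ᶠ w in 𝓝 (0 : ℂ), F (0, w) ≠ 0) :
    ∃ (n : ℕ) (r : ℝ), 0 < r ∧ ∀ y : E, ‖y‖ < r → {w : ℂ | ‖w‖ < r ∧ F (y, w) = 0}.encard ≤ n := by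
  have hnt : analyticOrderAt (fun w => F ((0 : E), w)) 0 ≠ ⊤ := by
    intro h
    rw [analyticOrderAt_eq_top] at h
    exact hne (h.mono fun z hz => by simpa using hz)
  obtain ⟨n, hn⟩ := ENat.ne_top_iff_exists.1 hnt
  obtain ⟨q, c, -, -, h⟩ := Crest.Agent.R275.Loc2879.wdiv hF hn.symm
    (g := fun p : E × ℂ => p.2 ^ n) (analyticAt_snd.pow n)
  obtain ⟨ε, hε, hb⟩ := Metric.eventually_nhds_iff_ball.1 h
  refine ⟨n, ε, hε, fun y hy => ?_⟩
  classical
  set Q : Polynomial ℂ := ∑ j : Fin n, Polynomial.C (c j y) * Polynomial.X ^ (j : ℕ) with hQ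
  have hdeg : Q.degree < (n : WithBot ℕ) := Polynomial.degree_sum_fin_lt _
  set P : Polynomial ℂ := Polynomial.X ^ n - Q with hP
  have hmon : P.Monic := Polynomial.monic_X_pow_sub hdeg
  have hnat : P.natDegree ≤ n := by
    rw [hP]
    refine (Polynomial.natDegree_sub_le _ _).trans (max_le (Polynomial.natDegree_X_pow n).le ?_)
    exact Polynomial.natDegree_le_of_degree_le hdeg.le
  have hsub : {w : ℂ | ‖w‖ < ε ∧ F (y, w) = 0} ⊆ (P.roots.toFinset : Set ℂ) := by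
    rintro w ⟨hw, h0⟩
    have h1 := hb (y, w) (by
      rw [mem_ball, Prod.dist_eq, dist_zero_right, dist_zero_right]
      exact max_lt hy hw)
    simp only [h0, mul_zero, zero_add] at h1
    rw [Finset.mem_coe, Multiset.mem_toFinset, Polynomial.mem_roots hmon.ne_zero,
      Polynomial.IsRoot.def, hP, Polynomial.eval_sub, Polynomial.eval_pow, Polynomial.eval_X, h1,
      hQ, Polynomial.eval_finsetSum]
    simp
  refine (Set.encard_le_encard hsub).trans ?_
  rw [Set.encard_coe_eq_coe_finsetCard]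
  have h2 : P.roots.toFinset.card ≤ n :=
    (Multiset.toFinset_card_le _).trans ((Polynomial.card_roots' P).trans hnat)
  exact_mod_cast h2

theorem analyticAt_cons2 (p : (Fin 2 → ℂ) × ℂ) :
    AnalyticAt ℂ (fun p : (Fin 2 → ℂ) × ℂ => (Fin.cons p.2 p.1 : E3)) p := by
  rw [analyticAt_pi_iff]
  intro i
  refine Fin.cases ?_ (fun j => ?_) i
  · simp only [Fin.cons_zero]; exact analyticAt_snd
  · simp only [Fin.cons_succ]
    exact ((ContinuousLinearMap.proj (R := ℂ) (φ := fun _ : Fin 2 => ℂ) j).analyticAt _).comp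
      analyticAt_fst

theorem analyticAt_tail (x : E3) : AnalyticAt ℂ (fun x : E3 => (Fin.tail x : Fin 2 → ℂ)) x := by
  rw [analyticAt_pi_iff]
  intro i
  exact (ContinuousLinearMap.proj (R := ℂ) (φ := fun _ : Fin 3 => ℂ) i.succ).analyticAt _

theorem analyticAt_coord3 (i : Fin 3) (x : E3) : AnalyticAt ℂ (fun x : E3 => x i) x :=
  (ContinuousLinearMap.proj (R := ℂ) (φ := fun _ : Fin 3 => ℂ) i).analyticAt _

/-- Hadamard's lemma in two variables -/
theorem had2 {c : (Fin 2 → ℂ) → ℂ} (hc : AnalyticAt ℂ c 0) :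
    ∃ d e : (Fin 2 → ℂ) → ℂ, AnalyticAt ℂ d 0 ∧ AnalyticAt ℂ e 0 ∧
      ∀ᶠ y in 𝓝 (0 : Fin 2 → ℂ), c y = c 0 + y 0 * d y + y 1 * e y := by
  obtain ⟨k, q, hk, hq, h⟩ := Crest.Agent.R257.Glob554.had_fun (n := 2) (fun p => c p.1)
    (hc.comp_of_eq analyticAt_fst rfl)
  have hmap : AnalyticAt ℂ (fun y : Fin 2 → ℂ => ((y, (0 : ℂ)) : (Fin 2 → ℂ) × ℂ)) 0 :=
    analyticAt_id.prod analyticAt_const
  have ht : Tendsto (fun y : Fin 2 → ℂ => ((y, (0 : ℂ)) : (Fin 2 → ℂ) × ℂ)) (𝓝 0)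
      (𝓝 ((0 : Fin 2 → ℂ), (0 : ℂ))) := hmap.continuousAt
  have h0 := h.self_of_nhds
  simp only [Pi.zero_apply, zero_mul, Finset.sum_const_zero, add_zero] at h0
  refine ⟨fun y => q 0 (y, 0), fun y => q 1 (y, 0), (hq 0).comp_of_eq hmap rfl,
    (hq 1).comp_of_eq hmap rfl, ?_⟩
  filter_upwards [ht.eventually h] with y hy
  rw [hy, Fin.sum_univ_two, ← h0]
  ring

/-- finite colength of `(f, x₁, x₂)` -/
theorem colFin_axes {f : E3 → ℂ} (hf : AnalyticAt ℂ f 0)
    (hreg : ∃ᶠ z : ℂ in 𝓝[≠] 0, f (Fin.cons z 0) ≠ 0) :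
    ColFin ![f, fun x => x 1, fun x => x 2] := by
  set F : (Fin 2 → ℂ) × ℂ → ℂ := fun p => f (Fin.cons p.2 p.1) with hFd
  have hF : AnalyticAt ℂ F (0, 0) := hf.comp_of_eq (analyticAt_cons2 _) LcV_980.cons_zero
  have hnt : analyticOrderAt (fun w => F ((0 : Fin 2 → ℂ), w)) 0 ≠ ⊤ := by
    intro h
    rw [analyticOrderAt_eq_top] at h
    exact hreg ((h.filter_mono nhdsWithin_le_nhds).mono fun z hz => by simpa using hz)
  obtain ⟨n, hn⟩ := ENat.ne_top_iff_exists.1 hnt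
  set b : Fin n → analyticAtOrigin 3 := fun j => ⟨fun x => x 0 ^ (j : ℕ),
    (analyticAt_coord3 0 0).pow _⟩ with hb
  set G : Fin 3 → E3 → ℂ := ![f, fun x => x 1, fun x => x 2] with hG
  set φ : (Fin n → ℂ) →ₗ[ℂ] Quo G := (gens G).mkQ.comp (Fintype.linearCombination ℂ b) with hφ
  have hφs : Function.Surjective φ := by
    intro u
    obtain ⟨g, rfl⟩ := Submodule.mkQ_surjective _ u
    have hg : AnalyticAt ℂ (fun p : (Fin 2 → ℂ) × ℂ => (g : E3 → ℂ) (Fin.cons p.2 p.1)) (0, 0) :=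
      AnalyticAt.comp_of_eq g.2 (analyticAt_cons2 _) LcV_980.cons_zero
    obtain ⟨q, c, hq, hc, h⟩ := Crest.Agent.R275.Loc2879.wdiv hF hn.symm hg
    choose d e hd he hde using fun j => had2 (hc j)
    refine ⟨fun j => c j 0, ?_⟩
    have htl : AnalyticAt ℂ (fun x : E3 => ((Fin.tail x, x 0) : (Fin 2 → ℂ) × ℂ)) 0 :=
      (analyticAt_tail 0).prod (analyticAt_coord3 0 0)
    have ht : Tendsto (fun x : E3 => ((Fin.tail x, x 0) : (Fin 2 → ℂ) × ℂ)) (𝓝 0)
      (𝓝 ((0 : Fin 2 → ℂ), (0 : ℂ))) := htl.continuousAt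
    have ht1 : Tendsto (fun x : E3 => (Fin.tail x : Fin 2 → ℂ)) (𝓝 0) (𝓝 (0 : Fin 2 → ℂ)) :=
      (analyticAt_tail 0).continuousAt
    have hda : ∀ j, AnalyticAt ℂ (fun x : E3 => d j (Fin.tail x)) 0 := fun j =>
      (hd j).comp_of_eq (analyticAt_tail 0) rfl
    have hea : ∀ j, AnalyticAt ℂ (fun x : E3 => e j (Fin.tail x)) 0 := fun j =>
      (he j).comp_of_eq (analyticAt_tail 0) rfl
    rw [hφ, LinearMap.comp_apply, Fintype.linearCombination_apply, Submodule.mkQ_apply,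
      Submodule.mkQ_apply, eq_comm, Submodule.Quotient.eq, LcA_980.mem_gens3]
    refine ⟨fun x => q (Fin.tail x, x 0), fun x => ∑ j : Fin n, d j (Fin.tail x) * x 0 ^ (j : ℕ),
      fun x => ∑ j : Fin n, e j (Fin.tail x) * x 0 ^ (j : ℕ), hq.comp_of_eq htl rfl, ?_, ?_, ?_⟩
    · exact Finset.analyticAt_fun_sum _ fun j _ => (hda j).mul ((analyticAt_coord3 0 0).pow _)
    · exact Finset.analyticAt_fun_sum _ fun j _ => (hea j).mul ((analyticAt_coord3 0 0).pow _)
    · filter_upwards [ht.eventually h, ht1.eventually (eventually_all.2 hde)] with x hx hx1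
      have e1 : (Fin.cons (x 0) (Fin.tail x) : E3) = x := Fin.cons_self_tail x
      simp only [hFd] at hx
      rw [e1] at hx
      have e2 : ((∑ j, c j 0 • b j : analyticAtOrigin 3) : E3 → ℂ) x =
          ∑ j : Fin n, c j 0 * x 0 ^ (j : ℕ) := by
        rw [Submodule.coe_sum, Finset.sum_apply]
        rfl
      rw [Submodule.coe_sub, Pi.sub_apply, hx, e2]
      have e3 : ∀ j, c j (Fin.tail x) = c j 0 + x 1 * d j (Fin.tail x) + x 2 * e j (Fin.tail x) :=
        fun j => hx1 j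
      simp only [e3, add_mul, Finset.sum_add_distrib, Finset.sum_mul]
      have e4 : ∀ j : Fin n, x 1 * d j (Fin.tail x) * x 0 ^ (j : ℕ) =
        d j (Fin.tail x) * x 0 ^ (j : ℕ) * x 1 := fun j => by ring
      have e5 : ∀ j : Fin n, x 2 * e j (Fin.tail x) * x 0 ^ (j : ℕ) =
        e j (Fin.tail x) * x 0 ^ (j : ℕ) * x 2 := fun j => by ring
      simp only [e4, e5]
      ring
  exact Module.Finite.of_surjective φ hφs

open Crest.Agent.R257.Det_219

/-- comparison on `{f = 0}` -/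
theorem inJ_mono {f g h : E3 → ℂ} {p C : ℝ} (hp : 0 < p)
    (hle : ∀ᶠ x in 𝓝 (0 : E3), f x = 0 → ‖h x‖ ≤ C * ‖g x‖) (hg : InJ p f g) : InJ p f h := by
  obtain ⟨r, hr, hfin⟩ := hg
  obtain ⟨r', hr', hb⟩ := exists_box (hle : {x | f x = 0 → ‖h x‖ ≤ C * ‖g x‖} ∈ 𝓝 0)
  set ρ := min r r' with hρ
  have hρ0 : 0 < ρ := lt_min hr hr'
  refine ⟨ρ, hρ0, ?_⟩
  have h1 : Jint p (fun _ => ρ) f h ≤
      ENNReal.ofReal (|C| ^ (2 / p)) * Jint p (fun _ => ρ) f g := by
    rw [jint_eq, jint_eq, ← lintegral_const_mul' _ _ ENNReal.ofReal_ne_top]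
    refine setLIntegral_mono' (isOpen_Bp ρ).measurableSet fun y hy => ?_
    rw [← ENNReal.tsum_mul_left]
    refine ENNReal.tsum_le_tsum fun z => ?_
    unfold Jf
    rw [← ENNReal.ofReal_mul (by positivity)]
    apply ENNReal.ofReal_le_ofReal
    rw [mul_div_assoc']
    have hz : (Fin.cons z.1 y : E3) ∈ Bx r' := by
      intro i
      refine Fin.cases ?_ (fun j => ?_) i
      · rw [Fin.cons_zero]; exact z.2.1.trans_le (min_le_right _ _)
      · rw [Fin.cons_succ]; exact (hy j).trans_le (min_le_right _ _)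
    have h2 : ‖h (Fin.cons z.1 y)‖ ≤ |C| * ‖g (Fin.cons z.1 y)‖ :=
      (hb hz z.2.2.1).trans (by gcongr; exact le_abs_self C)
    have h3 : ‖h (Fin.cons z.1 y)‖ ^ (2 / p) ≤ |C| ^ (2 / p) * ‖g (Fin.cons z.1 y)‖ ^ (2 / p) := by
      rw [← Real.mul_rpow (abs_nonneg _) (norm_nonneg _)]
      exact Real.rpow_le_rpow (norm_nonneg _) h2 (by positivity)
    gcongr
  refine lt_of_le_of_lt h1 (ENNReal.mul_lt_top ENNReal.ofReal_lt_top ?_)
  exact lt_of_le_of_lt (jint_mono p f g (min_le_left _ _)) hfin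

theorem inJ_congr {f g h : E3 → ℂ} {p : ℝ} (hp : 0 < p) (hgh : g =ᶠ[𝓝 0] h) (hg : InJ p f g) :
    InJ p f h :=
  inJ_mono (C := 1) hp (hgh.mono fun x hx _ => by rw [one_mul, hx]) hg

theorem inJ_mul {f g a : E3 → ℂ} {p : ℝ} (hp : 0 < p) (ha : AnalyticAt ℂ a 0) (hg : InJ p f g) :
    InJ p f (fun x => a x * g x) := by
  have h1 : ∀ᶠ x in 𝓝 (0 : E3), ‖a x‖ < ‖a 0‖ + 1 :=
    ha.continuousAt.norm.eventually_lt_const (by linarith)
  refine inJ_mono (C := ‖a 0‖ + 1) hp (h1.mono fun x hx _ => ?_) hg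
  rw [norm_mul]
  gcongr

theorem rpow_add_bound {x y q : ℝ} (hx : 0 ≤ x) (hy : 0 ≤ y) (hq : 0 ≤ q) :
    (x + y) ^ q ≤ 2 ^ q * (x ^ q + y ^ q) := by
  have h1 : x + y ≤ 2 * max x y := by
    have := le_max_left x y
    have := le_max_right x y
    linarith
  calc (x + y) ^ q ≤ (2 * max x y) ^ q := Real.rpow_le_rpow (by positivity) h1 hq
    _ = 2 ^ q * (max x y) ^ q := Real.mul_rpow (by norm_num) (le_max_of_le_left hx)
    _ ≤ 2 ^ q * (x ^ q + y ^ q) := by
      gcongr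
      rcases le_total x y with h | h
      · rw [max_eq_right h]
        have := Real.rpow_nonneg hx q
        linarith
      · rw [max_eq_left h]
        have := Real.rpow_nonneg hy q
        linarith

theorem inJ_add {f g h : E3 → ℂ} {p : ℝ} (hp : 1 ≤ p) (hf : AnalyticAt ℂ f 0)
    (hg : AnalyticAt ℂ g 0) (hh : AnalyticAt ℂ h 0) (hgJ : InJ p f g) (hhJ : InJ p f h) :
    InJ p f (fun x => g x + h x) := by
  obtain ⟨r₁, hr₁, h1⟩ := hgJ
  obtain ⟨r₂, hr₂, h2⟩ := hhJ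
  obtain ⟨r₃, hr₃, h3⟩ := exists_box ((hf.eventually_analyticAt.and hg.eventually_analyticAt).and
    hh.eventually_analyticAt)
  set r := min r₁ (min r₂ r₃) with hr
  have hr0 : 0 < r := lt_min hr₁ (lt_min hr₂ hr₃)
  have hr3 : r ≤ r₃ := (min_le_right _ _).trans (min_le_right _ _)
  have hfU : AnalyticOnNhd ℂ f (Bx r) := fun x hx => (h3 (Bx_mono hr3 hx)).1.1
  have hgU : AnalyticOnNhd ℂ g (Bx r) := fun x hx => (h3 (Bx_mono hr3 hx)).1.2
  have hhU : AnalyticOnNhd ℂ h (Bx r) := fun x hx => (h3 (Bx_mono hr3 hx)).2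
  obtain ⟨K⟩ := exists_cov (isOpen_Bx r) hfU (le_refl (Bx r))
  have hq : 0 ≤ 2 / p := by positivity
  refine ⟨r, hr0, ?_⟩
  have h1' : Jint p (fun _ => r) f g < ∞ := lt_of_le_of_lt (jint_mono p f g (min_le_left _ _)) h1
  have h2' : Jint p (fun _ => r) f h < ∞ :=
    lt_of_le_of_lt (jint_mono p f h ((min_le_right _ _).trans (min_le_left _ _))) h2
  set c : ℝ≥0∞ := ENNReal.ofReal (2 ^ (2 / p)) with hc
  have key : Jint p (fun _ => r) f (fun x => g x + h x) ≤
      c * (Jint p (fun _ => r) f g + Jint p (fun _ => r) f h) := by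
    have hgh : AnalyticOnNhd ℂ (fun x => g x + h x) (Bx r) := hgU.add hhU
    rw [jint_cov hp hfU hgh K, jint_cov hp hfU hgU K, jint_cov hp hfU hhU K,
      ← ENNReal.tsum_add, ← ENNReal.tsum_mul_left]
    refine ENNReal.tsum_le_tsum fun i => ?_
    rw [← lintegral_add_left' (jf_meas hp hfU hgU K i), ← lintegral_const_mul' _ _
      ENNReal.ofReal_ne_top]
    refine lintegral_mono fun y => ?_
    unfold Jf
    rw [← ENNReal.ofReal_add (by positivity) (by positivity),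
      ← ENNReal.ofReal_mul (by positivity)]
    apply ENNReal.ofReal_le_ofReal
    rw [← add_div, mul_div_assoc']
    gcongr
    exact (Real.rpow_le_rpow (norm_nonneg _) (norm_add_le _ _) hq).trans
      (rpow_add_bound (norm_nonneg _) (norm_nonneg _) hq)
  refine lt_of_le_of_lt key (ENNReal.mul_lt_top ENNReal.ofReal_lt_top ?_)
  exact ENNReal.add_lt_top.2 ⟨h1', h2'⟩

end Crest.Agent.R257.MsNe_980
end
end

-- ▼ part R257/MsNe_980

/-!
Row 257 (S0395), leaf MSET-NE (helper980), part 2: `Iso f → (mset f).Nonempty`.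
-/

set_option autoImplicit false

open Topology Filter Set Metric MeasureTheory
open scoped ENNReal
open Crest.AlgGeometry Crest.AlgGeometry.Germ Crest.Agent.R257.Defs_219

noncomputable section

namespace Crest.Agent.R257.MsNe_980

open Crest.Agent.R257.Det_219

/-- the direction `(1,a,b)` -/
def dir (a b : ℂ) : E3 := ![1, a, b]

/-- regular in the direction `(1,a,b)` -/
def RegD (f : E3 → ℂ) (a b : ℂ) : Prop := ∃ᶠ s in 𝓝 (0 : ℂ), f (s • dir a b) ≠ 0

theorem dir_zero (s : ℂ) : s • dir 0 0 = Fin.cons s 0 := by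
  ext i
  refine Fin.cases ?_ (fun j => ?_) i
  · simp [dir]
  · rw [Fin.cons_succ]
    fin_cases j <;> simp [dir]

/-- regularity is open in the direction -/
theorem regD_open {f : E3 → ℂ} (hf : AnalyticAt ℂ f 0)
    (hreg : ∃ᶠ z : ℂ in 𝓝[≠] 0, f (Fin.cons z 0) ≠ 0) :
    ∀ᶠ p in 𝓝 ((0 : ℂ), (0 : ℂ)), RegD f p.1 p.2 := by
  obtain ⟨ρ, hρ, hb⟩ := Metric.eventually_nhds_iff_ball.1 hf.eventually_analyticAt
  -- a good point
  have h1 : ∃ z : ℂ, ‖z‖ < ρ / 2 ∧ f (Fin.cons z 0) ≠ 0 := by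
    have h2 : ∀ᶠ z in 𝓝[≠] (0 : ℂ), ‖z‖ < ρ / 2 := by
      refine nhdsWithin_le_nhds ?_
      filter_upwards [ball_mem_nhds (0 : ℂ) (half_pos hρ)] with z hz
      simpa using hz
    obtain ⟨z, hz1, hz2⟩ := (hreg.and_eventually h2).exists
    exact ⟨z, hz2, hz1⟩
  obtain ⟨z, hz, hfz⟩ := h1
  have hdir : Continuous (fun p : ℂ × ℂ => dir p.1 p.2) := by
    unfold dir
    refine continuous_pi fun i => ?_
    fin_cases i
    · exact continuous_const
    · exact continuous_fst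
    · exact continuous_snd
  have hn0 : ‖dir 0 0‖ = 1 := by
    rw [← one_smul ℂ (dir 0 0), dir_zero, LcV_980.norm_cons]
    simp
  have h3 : ∀ᶠ p in 𝓝 ((0 : ℂ), (0 : ℂ)), ‖dir p.1 p.2‖ < 2 := by
    refine (hdir.norm.continuousAt).eventually_lt_const ?_
    simp only [hn0]; norm_num
  have hin : ∀ s : ℂ, ‖s‖ < ρ / 2 → ∀ v : E3, ‖v‖ < 2 → s • v ∈ ball (0 : E3) ρ := by
    intro s hs v hv
    rw [mem_ball_zero_iff, norm_smul]
    calc ‖s‖ * ‖v‖ ≤ ‖s‖ * 2 := by gcongr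
      _ < ρ / 2 * 2 := by gcongr
      _ = ρ := by ring
  have h4 : ∀ᶠ p in 𝓝 ((0 : ℂ), (0 : ℂ)), f (z • dir p.1 p.2) ≠ 0 := by
    have hc : ContinuousAt (fun p : ℂ × ℂ => f (z • dir p.1 p.2)) (0, 0) := by
      have h5 : ContinuousAt f (z • dir (0 : ℂ) 0) :=
        (hb _ (hin z hz _ (by rw [hn0]; norm_num))).continuousAt
      exact ContinuousAt.comp (g := f) (f := fun p : ℂ × ℂ => z • dir p.1 p.2) h5
        (hdir.const_smul z).continuousAt
    refine hc.eventually_ne ?_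
    simp only
    rw [dir_zero]
    exact hfz
  filter_upwards [h3, h4] with p hp3 hp4
  intro hcon
  -- identity theorem
  have hz0 : ∀ᶠ s in 𝓝 (0 : ℂ), f (s • dir p.1 p.2) = 0 := by
    simpa using hcon
  have han : AnalyticOnNhd ℂ (fun s : ℂ => f (s • dir p.1 p.2)) (ball 0 (ρ / 2)) := by
    intro s hs
    rw [mem_ball_zero_iff] at hs
    have h6 : AnalyticAt ℂ (fun s : ℂ => s • dir p.1 p.2) s :=
      analyticAt_id.smul analyticAt_const
    exact (hb _ (hin s hs _ hp3)).comp_of_eq h6 rfl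
  have h7 := han.eqOn_zero_of_preconnected_of_eventuallyEq_zero
    (convex_ball (0 : ℂ) (ρ / 2)).isPreconnected (mem_ball_self (half_pos hρ)) hz0
  exact hp4 (h7 (by rw [mem_ball_zero_iff]; exact hz))

/-- the linear forms vanishing on `(1,a,b)` -/
def lf1 (a : ℂ) : E3 → ℂ := fun x => x 1 - a * x 0
def lf2 (b : ℂ) : E3 → ℂ := fun x => x 2 - b * x 0

theorem fto_lin {f : E3 → ℂ} (hf : AnalyticAt ℂ f 0) {a b : ℂ} (h : RegD f a b) :
    Fto f (lf1 a) (lf2 b) := by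
  set F : (Fin 2 → ℂ) × ℂ → ℂ := fun p => f ((Fin.cons 0 p.1 : E3) + p.2 • dir a b) with hF
  have hin : AnalyticAt ℂ (fun p : (Fin 2 → ℂ) × ℂ => (Fin.cons 0 p.1 : E3) + p.2 • dir a b)
      (0, 0) := by
    have h1 : AnalyticAt ℂ (fun p : (Fin 2 → ℂ) × ℂ => (Fin.cons (0 : ℂ) p.1 : E3)) (0, 0) :=
      (analyticAt_cons2 ((0 : Fin 2 → ℂ), (0 : ℂ))).comp_of_eq
        (analyticAt_fst.prod analyticAt_const) rfl
    exact h1.add (analyticAt_snd.smul analyticAt_const)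
  have hFa : AnalyticAt ℂ F (0, 0) := hf.comp_of_eq hin (by simp [LcV_980.cons_zero])
  have hne : ∃ᶠ w in 𝓝 (0 : ℂ), F (0, w) ≠ 0 := by
    refine h.mono fun s hs => ?_
    simp only [hF, LcV_980.cons_zero, zero_add]
    exact hs
  obtain ⟨n, r, hr, hcard⟩ := card_zeros hFa hne
  have hkey : ∀ (x : E3) (y : E2), lf1 a x = y 0 → lf2 b x = y 1 →
      x = (Fin.cons 0 y : E3) + x 0 • dir a b := by
    intro x y h1 h2
    unfold lf1 at h1
    unfold lf2 at h2
    ext i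
    fin_cases i
    · simp [dir]
    · simp only [dir, Pi.add_apply, Pi.smul_apply, smul_eq_mul]
      show x 1 = y 0 + x 0 * a
      rw [← h1]; ring
    · simp only [dir, Pi.add_apply, Pi.smul_apply, smul_eq_mul]
      show x 2 = y 1 + x 0 * b
      rw [← h2]; ring
  set c : ℝ := 1 + ‖a‖ + ‖b‖ with hc
  have hc1 : 1 ≤ c := by rw [hc]; have := norm_nonneg a; have := norm_nonneg b; linarith
  refine ⟨n, r / c, by positivity, fun y => ?_⟩
  by_cases hy : ‖y‖ < r
  · refine le_trans ?_ (hcard y hy)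
    have hinj : InjOn (fun x : E3 => x 0)
        {x | x ∈ Bx (r / c) ∧ f x = 0 ∧ lf1 a x = y 0 ∧ lf2 b x = y 1} := by
      intro x hx x' hx' hxx
      simp only at hxx
      rw [hkey x y hx.2.2.1 hx.2.2.2, hkey x' y hx'.2.2.1 hx'.2.2.2, hxx]
    rw [← hinj.encard_image]
    refine Set.encard_le_encard ?_
    rintro _ ⟨x, hx, rfl⟩
    refine ⟨(hx.1 0).trans_le (div_le_self hr.le hc1), ?_⟩
    simp only [hF]
    rw [← hkey x y hx.2.2.1 hx.2.2.2]
    exact hx.2.1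
  · have hemp : {x | x ∈ Bx (r / c) ∧ f x = 0 ∧ lf1 a x = y 0 ∧ lf2 b x = y 1} = ∅ := by
      rw [Set.eq_empty_iff_forall_notMem]
      rintro x ⟨hx, -, h1, h2⟩
      apply hy
      have hr0 : 0 < r / c := by positivity
      have hx0 : ‖x 0‖ < r / c := hx 0
      rw [pi_norm_lt_iff hr]
      intro i
      have hrc : r = r / c * c := by field_simp
      fin_cases i
      · show ‖y 0‖ < r
        rw [← h1]
        calc ‖lf1 a x‖ ≤ ‖x 1‖ + ‖a‖ * ‖x 0‖ := by
              unfold lf1; rw [← norm_mul]; exact norm_sub_le _ _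
          _ < r / c + ‖a‖ * (r / c) + ‖b‖ * (r / c) := by
              have := hx 1
              have := norm_nonneg a
              have := norm_nonneg b
              nlinarith [mul_le_mul_of_nonneg_left hx0.le (norm_nonneg a),
                mul_nonneg (norm_nonneg b) hr0.le]
          _ = r := by rw [hrc]; field_simp; ring
      · show ‖y 1‖ < r
        rw [← h2]
        calc ‖lf2 b x‖ ≤ ‖x 2‖ + ‖b‖ * ‖x 0‖ := by
              unfold lf2; rw [← norm_mul]; exact norm_sub_le _ _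
          _ < r / c + ‖a‖ * (r / c) + ‖b‖ * (r / c) := by
              have := hx 2
              nlinarith [mul_le_mul_of_nonneg_left hx0.le (norm_nonneg b),
                mul_nonneg (norm_nonneg a) hr0.le]
          _ = r := by rw [hrc]; field_simp; ring
    rw [hemp]
    simp

theorem lf1_an (a : ℂ) (x : E3) : AnalyticAt ℂ (lf1 a) x :=
  (analyticAt_coord3 1 x).sub (analyticAt_const.mul (analyticAt_coord3 0 x))

theorem lf2_an (b : ℂ) (x : E3) : AnalyticAt ℂ (lf2 b) x :=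
  (analyticAt_coord3 2 x).sub (analyticAt_const.mul (analyticAt_coord3 0 x))

theorem cd_lf1 (a : ℂ) (i : Fin 3) (x : E3) :
    coordDeriv (lf1 a) i x = (Pi.single i 1 : E3) 1 - a * (Pi.single i 1 : E3) 0 := by
  have h : HasFDerivAt (lf1 a) (ContinuousLinearMap.proj (R := ℂ) (φ := fun _ : Fin 3 => ℂ) 1 -
      a • ContinuousLinearMap.proj (R := ℂ) (φ := fun _ : Fin 3 => ℂ) 0) x :=
    ((ContinuousLinearMap.proj (R := ℂ) (φ := fun _ : Fin 3 => ℂ) 1).hasFDerivAt).sub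
      (((ContinuousLinearMap.proj (R := ℂ) (φ := fun _ : Fin 3 => ℂ) 0).hasFDerivAt).const_smul a)
  rw [coordDeriv, h.fderiv]
  simp

theorem cd_lf2 (b : ℂ) (i : Fin 3) (x : E3) :
    coordDeriv (lf2 b) i x = (Pi.single i 1 : E3) 2 - b * (Pi.single i 1 : E3) 0 := by
  have h : HasFDerivAt (lf2 b) (ContinuousLinearMap.proj (R := ℂ) (φ := fun _ : Fin 3 => ℂ) 2 -
      b • ContinuousLinearMap.proj (R := ℂ) (φ := fun _ : Fin 3 => ℂ) 0) x :=
    ((ContinuousLinearMap.proj (R := ℂ) (φ := fun _ : Fin 3 => ℂ) 2).hasFDerivAt).sub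
      (((ContinuousLinearMap.proj (R := ℂ) (φ := fun _ : Fin 3 => ℂ) 0).hasFDerivAt).const_smul b)
  rw [coordDeriv, h.fderiv]
  simp

theorem dt_lin (f : E3 → ℂ) (a b : ℂ) (x : E3) : Dt f (lf1 a) (lf2 b) x =
    coordDeriv f 0 x + a * coordDeriv f 1 x + b * coordDeriv f 2 x := by
  rw [Skel_219.Dt_eq]
  simp only [cd_lf1, cd_lf2]
  simp
  ring

/-- the partial derivatives belong to `J_1(f)` -/
theorem grad_inJ {f : E3 → ℂ} (hf : Iso f) (i : Fin 3) : InJ 1 f (coordDeriv f i) := by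
  have hD : ∀ i, AnalyticAt ℂ (coordDeriv f i) 0 := fun i => Skel_219.analyticAt_coordDeriv hf.an i
  have hev := regD_open hf.an hf.reg
  have hJ : ∀ a b, RegD f a b → InJ 1 f (fun x => coordDeriv f 0 x + a * coordDeriv f 1 x +
      b * coordDeriv f 2 x) := by
    intro a b h
    have h1 := area_J1 hf.an (lf1_an a 0) (lf2_an b 0) (fto_lin hf.an h)
    exact inJ_congr one_pos (Eventually.of_forall fun x => dt_lin f a b x) h1
  have ht1 : Tendsto (fun ε : ℂ => (ε, (0 : ℂ))) (𝓝[≠] 0) (𝓝 ((0 : ℂ), (0 : ℂ))) :=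
    ((continuous_id.prodMk continuous_const).tendsto' (0 : ℂ) _ rfl).mono_left nhdsWithin_le_nhds
  have ht2 : Tendsto (fun ε : ℂ => ((0 : ℂ), ε)) (𝓝[≠] 0) (𝓝 ((0 : ℂ), (0 : ℂ))) :=
    ((continuous_const.prodMk continuous_id).tendsto' (0 : ℂ) _ rfl).mono_left nhdsWithin_le_nhds
  obtain ⟨ε, ⟨h1, h2⟩, h3⟩ := (((ht1.eventually hev).and (ht2.eventually hev)).and
    (eventually_mem_nhdsWithin : ∀ᶠ ε in 𝓝[≠] (0 : ℂ), ε ∈ ({0}ᶜ : Set ℂ))).exists
  have hε : ε ≠ 0 := h3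
  have J0 := hJ 0 0 hev.self_of_nhds
  have J1 := hJ ε 0 h1
  have J2 := hJ 0 ε h2
  have hs0 : InJ 1 f (coordDeriv f 0) :=
    inJ_congr one_pos (Eventually.of_forall fun x => by simp) J0
  have a0 : AnalyticAt ℂ (fun x => (-1 : ℂ) * coordDeriv f 0 x) 0 := analyticAt_const.mul (hD 0)
  have hneg : InJ 1 f (fun x => (-1 : ℂ) * coordDeriv f 0 x) :=
    inJ_mul one_pos analyticAt_const hs0
  have aD : ∀ a b : ℂ, AnalyticAt ℂ (fun x => coordDeriv f 0 x + a * coordDeriv f 1 x +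
      b * coordDeriv f 2 x) 0 := fun a b =>
    ((hD 0).add (analyticAt_const.mul (hD 1))).add (analyticAt_const.mul (hD 2))
  have K1 : InJ 1 f (coordDeriv f 1) := by
    have h4 := inJ_mul (a := fun _ => ε⁻¹) one_pos analyticAt_const
      (inJ_add le_rfl hf.an (aD ε 0) a0 J1 hneg)
    refine inJ_congr one_pos (Eventually.of_forall fun x => ?_) h4
    field_simp
    ring
  have K2 : InJ 1 f (coordDeriv f 2) := by
    have h4 := inJ_mul (a := fun _ => ε⁻¹) one_pos analyticAt_const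
      (inJ_add le_rfl hf.an (aD 0 ε) a0 J2 hneg)
    refine inJ_congr one_pos (Eventually.of_forall fun x => ?_) h4
    field_simp
    ring
  fin_cases i
  · exact hs0
  · exact K1
  · exact K2

/-- the Jacobian ideal is contained in `J_1(f)` -/
theorem inJ_of_mem {f g : E3 → ℂ} (hf : Iso f) {a : Fin 3 → E3 → ℂ}
    (ha : ∀ i, AnalyticAt ℂ (a i) 0) (h : g =ᶠ[𝓝 0] fun x => ∑ i, a i x * coordDeriv f i x) :
    InJ 1 f g := by
  have hD : ∀ i, AnalyticAt ℂ (coordDeriv f i) 0 := fun i => Skel_219.analyticAt_coordDeriv hf.an i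
  have h1 : ∀ i, InJ 1 f (fun x => a i x * coordDeriv f i x) := fun i =>
    inJ_mul one_pos (ha i) (grad_inJ hf i)
  have h2 := inJ_add le_rfl hf.an ((ha 0).mul (hD 0)) ((ha 1).mul (hD 1)) (h1 0) (h1 1)
  have h3 := inJ_add le_rfl hf.an (((ha 0).mul (hD 0)).add ((ha 1).mul (hD 1)))
    ((ha 2).mul (hD 2)) h2 (h1 2)
  refine inJ_congr one_pos ?_ h3
  filter_upwards [h] with x hx
  rw [hx, Fin.sum_univ_three]
  rfl

/-- powers of the coordinates -/
theorem pow_inJ {f : E3 → ℂ} (hf : Iso f) (i : Fin 3) :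
    InJ 1 f (fun x => x i ^ (milnorNumber 3 f)) := by
  have hF : AnalyticAt ℂ (fun p : E3 × ℂ => f p.1) (0, 0) :=
    hf.an.comp_of_eq analyticAt_fst rfl
  obtain ⟨a, ha, h⟩ := Jac554.grad_uniform (F := fun p : E3 × ℂ => f p.1)
    (μ := milnorNumber 3 f) hF (Eventually.of_forall fun t => ⟨hf.fin, rfl⟩) (fun _ => i)
  have hmap : AnalyticAt ℂ (fun x : E3 => ((x, (0 : ℂ)) : E3 × ℂ)) 0 :=
    analyticAt_id.prod analyticAt_const
  have ht : Tendsto (fun x : E3 => ((x, (0 : ℂ)) : E3 × ℂ)) (𝓝 0) (𝓝 ((0 : E3), (0 : ℂ))) :=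
    hmap.continuousAt
  refine inJ_of_mem hf (a := fun j x => a j (x, 0)) (fun j => (ha j).comp_of_eq hmap rfl) ?_
  filter_upwards [ht.eventually h] with x hx
  rw [Finset.prod_const, Finset.card_univ, Fintype.card_fin] at hx
  exact hx

/-- **MSET-NE** -/
theorem mset_nonempty {f : E3 → ℂ} (hf : Iso f) : (mset f).Nonempty := by
  have h1 := colFin_axes hf.an hf.reg
  obtain ⟨h2, -⟩ := LcA_980.pow_both (analyticAt_coord3 1 0) (analyticAt_coord3 2 0) h1
    (k := milnorNumber 3 f + 1) (l := milnorNumber 3 f + 1) (by omega) (by omega)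
  have hp : ∀ i : Fin 3, InJ 1 f ((fun x : E3 => x i) ^ (milnorNumber 3 f + 1)) := by
    intro i
    refine inJ_congr one_pos (Eventually.of_forall fun x => ?_)
      (inJ_mul one_pos (analyticAt_coord3 i 0) (pow_inJ hf i))
    simp only [Pi.pow_apply]
    rw [pow_succ]; ring
  exact ⟨_, 1, 1, le_rfl, le_rfl, _, _, (analyticAt_coord3 1 0).pow _,
    (analyticAt_coord3 2 0).pow _, hp 1, hp 2, h2, rfl⟩

end Crest.Agent.R257.MsNe_980
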