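import Crest.Agent.R257.V3B_218
import Crest.Agent.R257.CmpL_822
import Crest.Agent.R257.V1Top2_822
import Crest.Agent.R257.Vol_397
import Crest.Agent.R257.MsNe_980
import Crest.Agent.R257.LcV_980
import Crest.Agent.R257.DetF_219
import Crest.Agent.R257.KedM1_941
import Crest.Agent.R257.Jac_39
import Crest.Agent.R257.V1Defs_822
import Crest.Agent.R271.Null_821
import Crest.Agent.R257.UpK1_938

-- ▼ part R257/V3C_218
section

/-!
R257 / V3C_218 (helper218): MASS-LE on a level.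

* `mass_lvl` : `TOT u ≤ TOT w + 2 VOL u` for a Kaehler-Einstein weight `u` with `Esc` and a smooth psh
  `w` with `∫ χ e^w < ∞`, `w → -∞` at the puncture
-/

set_option autoImplicit false
set_option linter.unusedSectionVars false

open Set Filter Topology Complex MeasureTheory
open scoped ContDiff Matrix ComplexConjugate ComplexOrder ENNReal

namespace Crest.Agent.R257.V3_218

open Crest.Agent.R275 Crest.Agent.R275.Geo Crest.Agent.R275.Core144 Crest.Agent.R275.EDR890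
open Crest.Agent.R275.Pai323 Crest.Agent.R275.C1d194
open Crest.Agent.R275.OmT75 (dj dl)
open Crest.Agent.R273.Defs_333 Crest.Agent.R273.Hess_333 Crest.Agent.R273.HessB_333
open Crest.Agent.R273.HM_333 Crest.Agent.R273.Kah_333 Crest.Agent.R273.Vol_333
open Crest.Agent.R273.Vm_333
open Crest.Agent.R273.StokesV_332 (Den OffK intD intD_eq_sum intD_congr)
open Crest.Agent.R273.StV_37 Crest.Agent.R273.Green_5 Crest.Agent.R273.GreenM_5 Crest.Agent.R273.GreenG_5
open Crest.Agent.R273.YauDefs_635 (cH)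
open Crest.Agent.R257.Defs_219 Crest.Agent.R257.KED_952 Crest.Agent.R257.V1Defs_822
open Crest.Agent.R257.V1Pe_822 (mxd_ke mxd_comm mxd_sub cut_smL isNu_ae lvl_mono keon_mono smL_mono)
open Crest.Agent.R257.PN_835 (nsq)
open Crest.Agent.R257.Aff_835 (eta2a)
open Crest.Agent.R257.C2F1_625 (pd)
open Crest.Agent.R257.UpK_938
open Crest.Agent.R257.MassLe218
open Crest.Agent.R257.KEG_952 (Esc)
open Crest.Agent.R257.Bridge_822 Crest.Agent.R257.CmpL_822

noncomputable section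

variable {f : E3 → ℂ} {s : ℂ} {r : ℝ}

theorem mx_ke (hL : LvlOK f s r) {u : E3 → ℝ} (hu : KEon f s r u) (A₀ : ℝ)
    {i : ((LX hL).A 0).ι} {x : (LX hL).M 0} (hx : x ∈ (((LX hL).A 0).e i).source) :
    mx ((LX hL).A 0) (rs hL fun y => u y - A₀) (rs hL fun y => u y - A₀) i x =
      ((((LX hL).eta 0).w i x * (2 * Real.exp (u x.1)) : ℝ) : ℂ) := by
  obtain ⟨h1, h2, h3⟩ := mem_M hL x
  rw [mx_eq_pd, hsf_sub_const hL hu.sm A₀ hx, ← mxd_ke hL hu h2 h3 h1]
  exact dens_chart hL hu.sm hu.sm hx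

/-- bound of the energy of a cut-off -/
theorem eng_le (hL : LvlOK f s r) {ν : Measure E3} (hν : IsNu f s r ν) (P : Part ((LX hL).A 0))
    {u w χ : E3 → ℝ} (hu : KEon f s r u) (A₀ : ℝ) (hw : SmL f s r w) (hχ : Cut r χ)
    (hV : VOL ν w χ < ⊤) {c : ℝ} (hc : 0 ≤ c) {q : (LX hL).M 0 → ℝ}
    (hq : ∀ x : (LX hL).M 0, q x * (2 * Real.exp (u x.1)) = c * Real.exp (w x.1))
    {ζ : (LX hL).M 0 → ℝ} (hζ : ((LX hL).A 0).Sm ζ) (ζ1 : ∀ x, ζ x ≤ rs hL χ x) (hcs : ∃ K : Set ((LX hL).M 0), IsCompact K ∧ ∀ x ∉ K, ζ x = 0) :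
    (intD P (fun i x => ((ζ x * q x : ℝ) : ℂ) *
      mx ((LX hL).A 0) (rs hL fun y => u y - A₀) (rs hL fun y => u y - A₀) i x)).re ≤
      c * (VOL ν w χ).toReal := by
  have := (LX hL).countable 0
  obtain ⟨K, hK, h0⟩ := hcs
  set h := (LX hL).eta 0 with hh
  set F : (LX hL).M 0 → ℂ := fun x => ((ζ x * (c * Real.exp (w x.1)) : ℝ) : ℂ) with hF
  have cζ : Continuous ζ := smc hζ
  have cw : Continuous fun x : (LX hL).M 0 => w x.1 := cont_val hL (smL_ctl hw)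
  have cF : Continuous fun x => ζ x * (c * Real.exp (w x.1)) :=
    cζ.mul (continuous_const.mul (Real.continuous_exp.comp cw))
  have iR : Integrable (fun x => ζ x * (c * Real.exp (w x.1))) ((LX hL).vol 0) :=
    integrable_vol hL cF hK fun x hx => by rw [h0 x hx, zero_mul]
  have iF : Integrable F (vm h) := iR.ofReal
  have e1 := integral_vm_intD (h := h) P iF hK fun x hx => by
    simp only [hF, h0 x hx, zero_mul, Complex.ofReal_zero]
  have e2 : intD P (fun i x => ((ζ x * q x : ℝ) : ℂ) *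
      mx ((LX hL).A 0) (rs hL fun y => u y - A₀) (rs hL fun y => u y - A₀) i x) =
      intD P (fun i x => (h.w i x : ℂ) * F x) := by
    refine intD_congr P fun i x hx => ?_
    rw [mx_ke hL hu A₀ hx]
    simp only [hF]
    rw [← Complex.ofReal_mul, ← Complex.ofReal_mul]
    congr 1
    rw [← hq x]
    ring
  rw [e2, ← e1]
  have e3 : (∫ x, F x ∂(vm h)) = ((∫ x, ζ x * (c * Real.exp (w x.1)) ∂((LX hL).vol 0) : ℝ) : ℂ) :=
    integral_ofReal
  rw [e3, Complex.ofReal_re]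
  obtain ⟨i4, e4⟩ := int_exp hL hν hw hχ hV
  have i5 : Integrable (fun x : (LX hL).M 0 => χ x.1 * Real.exp (w x.1)) ((LX hL).vol 0) := by
    rw [← nu_eq hL hν] at i4
    exact (val_emb hL).integrable_map_iff.1 i4
  rw [← e4, int_nu hL hν, ← integral_const_mul]
  refine integral_mono iR (i5.const_mul c) fun x => ?_
  have h1 := Real.exp_pos (w x.1)
  have h2 := ζ1 x
  change ζ x * (c * Real.exp (w x.1)) ≤ c * (χ x.1 * Real.exp (w x.1))
  calc ζ x * (c * Real.exp (w x.1)) = ζ x * (c * Real.exp (w x.1)) := rfl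
    _ ≤ χ x.1 * (c * Real.exp (w x.1)) := mul_le_mul_of_nonneg_right h2 (by positivity)
    _ = _ := by ring

/-- `∫ ∂∂̄u ∧ ∂∂̄χ = 0` -/
theorem int_mxd_cut (hL : LvlOK f s r) {ν : Measure E3} (hν : IsNu f s r ν) {u χ : E3 → ℝ}
    (hu : SmL f s r u) (hχ : Cut r χ) :
    Integrable (fun x => mxd f u χ x) ν ∧ ∫ x, mxd f u χ x ∂ν = 0 := by
  obtain ⟨r₁, ρ, h1, h2, h3, h4, h5, h6⟩ := cut_rad hχ
  have P := (LX hL).part 0
  have hK := ann_compact hL h1 h2.le h3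
  have hx7 : ∀ x : (LX hL).M 0, x ∉ {x : (LX hL).M 0 | r₁ ^ 2 ≤ nsq x.1 ∧ nsq x.1 ≤ ρ ^ 2} →
      nsq x.1 < r₁ ^ 2 ∨ ρ ^ 2 < nsq x.1 := by
    intro x hx
    by_contra hcon
    push Not at hcon
    exact hx hcon
  obtain ⟨i1, e1⟩ := bridge hL hν (φ := fun _ => 1) hu (cut_smL hχ) P hK
    (continuous_const.mul (cont_mxd hL hu (cut_smL hχ))) fun x hx => by
      rcases hx7 x hx with h7 | h7
      · rw [V1Top_822.mxd_const (h4 _ h7), mul_zero]
      · rw [V1Pe_822.mxd_zero (h6 _ h7), mul_zero]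
  have hg := greenD P (A := (LX hL).A 0) (hsf_cf (sm_val hL hu)) (φ := fun _ => 1)
    (u := fun x => χ x.1) (fun i => contDiffOn_const) (sm_val hL (cut_smL hχ)) hK fun x hx => by
      right
      rcases hx7 x hx with h7 | h7
      · exact ⟨1, evconst_val hL (h4 _ h7)⟩
      · exact ⟨0, evconst_val hL (h6 _ h7)⟩
  have e2 : intD P (fun i x => ((1 : ℝ) : ℂ) * pd (hsf ((LX hL).A 0) (fun x => u x.1) i x)
        (hsf ((LX hL).A 0) (fun x => χ x.1) i x)) = 0 := by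
    have e3 : intD P (fun i x => ((1 : ℝ) : ℂ) * pd (hsf ((LX hL).A 0) (fun x => u x.1) i x)
        (hsf ((LX hL).A 0) (fun x => χ x.1) i x)) = intD P (fun i x => ((1 : ℝ) : ℂ) *
        ((hsf ((LX hL).A 0) (fun x => u x.1) i x).adjugate *
          hsf ((LX hL).A 0) (fun x => χ x.1) i x).trace) := by
      refine intD_congr P fun i x _ => ?_
      have := mx_eq_pd (A := (LX hL).A 0) (fun x => u x.1) (fun x => χ x.1) i x
      rw [← this]
      rfl
    rw [e3, hg]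
    have e4 : intD P (grd (fun i x => hsf ((LX hL).A 0) (fun x => u x.1) i x)
        (fun y => ((1 : ℝ) : ℂ)) (fun y => ((χ y.1 : ℝ) : ℂ))) = intD P (fun _ _ => 0) := by
      refine intD_congr P fun i x hx => ?_
      unfold grd
      refine Finset.sum_eq_zero fun a _ => Finset.sum_eq_zero fun b _ => ?_
      rw [dl_evconst (c := ((1 : ℝ) : ℂ)) hx (Eventually.of_forall fun _ => rfl) a, mul_zero,
        zero_mul]
    have e5 := Crest.Agent.R273.StokesV_332.intD_zero P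
    rw [e5] at e4
    exact neg_eq_zero.2 e4
  rw [e2] at e1
  simp only [one_mul] at i1 e1
  exact ⟨i1, by exact_mod_cast e1⟩

theorem cont_rs (hL : LvlOK f s r) {v : E3 → ℝ} (hv : SmL f s r v) : Continuous (rs hL v) :=
  cont_val hL (smL_ctl hv)

/-- **MASS-LE on a level** -/
theorem mass_lvl {R : ℝ} (hR : LvlOK f 0 R) (h0 : 0 < r) (hrR : r < R) {u : E3 → ℝ}
    (hu : KEon f 0 R u) {A₀ : ℝ} (hE : Esc f R u A₀) {w : E3 → ℝ} (hw : SmL f 0 R w)
    (pw : ∀ θ O, PE f 0 R θ O → ∀ z ∈ O, ∀ v, 0 ≤ lev (fun z => w (θ z)) z v)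
    (wi : ∀ c : ℝ, ∃ ρ : ℝ, 0 < ρ ∧ ∀ x, f x = 0 → x ≠ 0 → nsq x < ρ ^ 2 → w x < c)
    {ν : Measure E3} (hν : IsNu f 0 r ν) {χ : E3 → ℝ} (hχ : Cut r χ) (hV : VOL ν u χ < ⊤)
    (hI : VOL ν w χ < ⊤) : TOT ν f u χ ≤ TOT ν f w χ + 2 * (VOL ν u χ).toReal := by
  have hL : LvlOK f 0 r := lvl_mono hR h0 hrR.le
  have hu' : KEon f 0 r u := keon_mono hu h0.le hrR.le
  have hw' : SmL f 0 r w := smL_mono hw h0.le hrR.le
  have hr2 : r ^ 2 < R ^ 2 := pow_lt_pow_left₀ hrR h0.le two_ne_zero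
  obtain ⟨r₁, ρ, h1, h2, h3, h4, h5, h6⟩ := cut_rad hχ
  have P := (LX hL).part 0
  have hE' : Esc f r u A₀ := ⟨hE.pos, fun x a b c => hE.one x a b (c.trans hr2), hE.inf,
    fun θ O hθ => hE.grad θ O (V1Pe_822.pe_mono hθ h0.le hrR.le)⟩
  have su1 : SmL f 0 r fun y => u y - A₀ := fun θ O hθ => (hu'.sm θ O hθ).sub contDiffOn_const
  have su1R : SmL f 0 R fun y => u y - A₀ := fun θ O hθ => (hu.sm θ O hθ).sub contDiffOn_const
  obtain ⟨B₁, hB₁⟩ := lower_on hR su1R (a := r₁ ^ 2) (b := r ^ 2) (by positivity) hr2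
  obtain ⟨B₂, hB₂⟩ := lower_on hR hw (a := r₁ ^ 2) (b := r ^ 2) (by positivity) hr2
  have hts : ∀ x ∈ tsupport (rs hL χ), nsq x.1 ≤ ρ ^ 2 := by
    intro x hx
    have cn : Continuous fun x : (LX hL).M 0 => nsq x.1 := cont_nsq3.comp continuous_subtype_val
    have : tsupport (rs hL χ) ⊆ {x | nsq x.1 ≤ ρ ^ 2} := by
      refine closure_minimal (fun y hy => ?_) (isClosed_le cn continuous_const)
      by_contra hcon
      exact hy (h5 _ (not_le.1 hcon).le)
    exact this hx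
  have hχne : ∀ x : (LX hL).M 0, rs hL χ x ≠ 1 → r₁ ^ 2 ≤ nsq x.1 := by
    intro x hx
    by_contra hcon
    exact hx (h4 _ (not_le.1 hcon)).self_of_nhds
  have D : Dat P (rs hL fun y => u y - A₀) (rs hL w) (rs hL χ) (max B₁ B₂) (A₀ / 2) 0
      (2 * (VOL ν u χ).toReal) (2 * Real.exp A₀ * (VOL ν w χ).toReal) := by
    refine
      { hu := rs_sm hL su1
        hw := rs_sm hL hw'
        hχ := rs_sm hL (cut_smL hχ)
        χ0 := fun x => hχ.nn _
        χ1 := fun x => hχ.le _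
        pu := fun i x hx => ?_
        pw := fun i x hx => posSemi_rs hL hw'
          (fun θ O hθ => pw θ O (V1Pe_822.pe_mono hθ h0.le hrR.le)) hx
        u0 := fun x => ?_
        cpt := fun T => ?_
        outw := fun x hx => ?_
        outu := fun x hx => ?_
        deep := fun l => ?_
        C0 := by have := hE.pos; positivity
        grad := fun i x hx _ => grd_rs hL hu' hE' hx
        vol := fun ζ hζ ζ0 ζ1 hcs => ?_
        eng := fun ζ hζ ζ0 ζ1 hcs => ?_ }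
    · rw [hsf_sub_const hL hu'.sm A₀ hx]
      exact (posDef_rs hL hu' hx).posSemidef
    · obtain ⟨m1, m2, m3⟩ := mem_M hL x
      have := hE'.one x.1 m1 m2 m3
      change u x.1 - A₀ ≤ 0
      linarith
    · obtain ⟨δ, hδ, hδ2⟩ := hE'.inf (A₀ - T)
      refine (ann_compact hL hδ h2.le h3).of_isClosed_subset
        ((isClosed_tsupport _).inter (isClosed_le continuous_const (cont_rs hL su1))) ?_
      rintro x ⟨hx1, hx2⟩
      refine ⟨?_, hts x hx1⟩
      by_contra hcon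
      obtain ⟨m1, m2, m3⟩ := mem_M hL x
      have := hδ2 x.1 m1 m2 (not_le.1 hcon)
      have h7 : -T ≤ u x.1 - A₀ := hx2
      linarith
    · obtain ⟨m1, m2, m3⟩ := mem_M hL x
      have := hB₂ x.1 m1 (hχne x hx) m3.le
      have h7 := le_max_right B₁ B₂
      change -(max B₁ B₂) ≤ w x.1
      linarith
    · obtain ⟨m1, m2, m3⟩ := mem_M hL x
      have := hB₁ x.1 m1 (hχne x hx) m3.le
      have h7 := le_max_left B₁ B₂
      change -(max B₁ B₂) ≤ u x.1 - A₀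
      linarith
    · obtain ⟨δ, hδ, hδ2⟩ := wi (-l)
      obtain ⟨T, hT⟩ := lower_on hR su1R (a := δ ^ 2) (b := r ^ 2) (by positivity) hr2
      refine ⟨T, fun x hx => ?_⟩
      obtain ⟨m1, m2, m3⟩ := mem_M hL x
      refine hδ2 x.1 m1 m2 ?_
      by_contra hcon
      have := hT x.1 m1 (not_lt.1 hcon) m3.le
      have h7 : u x.1 - A₀ < -T := hx
      linarith
    · have h7 := eng_le hL hν P hu' A₀ hu'.sm hχ hV (c := 2) (by norm_num) (q := fun _ => 1)
        (fun x => by ring) hζ ζ1 hcs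
      simp only [mul_one] at h7
      exact h7
    · exact eng_le hL hν P hu' A₀ hw' hχ hI (c := 2 * Real.exp A₀) (by positivity)
        (q := fun x => Real.exp (rs hL w x - rs hL (fun y => u y - A₀) x)) (fun x => by
          change Real.exp (w x.1 - (u x.1 - A₀)) * (2 * Real.exp (u x.1)) = _
          have e1 : w x.1 - (u x.1 - A₀) + u x.1 = w x.1 + A₀ := by ring
          calc Real.exp (w x.1 - (u x.1 - A₀)) * (2 * Real.exp (u x.1))
              = 2 * (Real.exp (w x.1 - (u x.1 - A₀)) * Real.exp (u x.1)) := by ring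
            _ = 2 * Real.exp (w x.1 + A₀) := by rw [← Real.exp_add, e1]
            _ = _ := by rw [Real.exp_add]; ring) hζ ζ1 hcs
  have key := mass_le_pd D
  have e1 := (tot_bridge hL hν su1 hχ P).2
  have e2 := (tot_bridge hL hν hw' hχ P).2
  have k1 : TOT ν f (fun y => u y - A₀) χ ≤ TOT ν f w χ + 2 * (VOL ν u χ).toReal := by
    have e3 : (intD P (fun i x => (rs hL (fun y => u y - A₀) x : ℂ) *
        pd (hsf ((LX hL).A 0) (rs hL fun y => u y - A₀) i x)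
          (hsf ((LX hL).A 0) (rs hL χ) i x))).re = TOT ν f (fun y => u y - A₀) χ := by
      rw [← Complex.ofReal_re (TOT ν f (fun y => u y - A₀) χ), e1]
      rfl
    have e4 : (intD P (fun i x => (rs hL w x : ℂ) * pd (hsf ((LX hL).A 0) (rs hL w) i x)
          (hsf ((LX hL).A 0) (rs hL χ) i x))).re = TOT ν f w χ := by
      rw [← Complex.ofReal_re (TOT ν f w χ), e2]
      rfl
    rw [e3, e4] at key
    exact key
  obtain ⟨i5, e5⟩ := int_mxd_cut hL hν hu'.sm hχ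
  have i6 := (tot_bridge hL hν hu'.sm hχ P).1
  have k2 : TOT ν f (fun y => u y - A₀) χ = TOT ν f u χ := by
    unfold TOT
    have e6 : ∫ x, (u x - A₀) * mxd f (fun y => u y - A₀) χ x ∂ν =
        ∫ x, (u x * mxd f u χ x - A₀ * mxd f u χ x) ∂ν := by
      refine integral_congr_ae (isNu_ae hν fun x m2 m3 m1 => ?_)
      have e7 : mxd f (fun y => u y - A₀) χ x = mxd f u χ x := by
        rw [mxd_comm hL m2 m3 m1, mxd_comm hL (a := u) m2 m3 m1]
        rw [mxd_sub hL (a := χ) (b := u) (b' := fun _ => A₀) hu'.sm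
          (fun θ O hθ => contDiffOn_const) m2 m3 m1,
          V1Top_822.mxd_const (c := A₀) (Eventually.of_forall fun _ => rfl), sub_zero]
      change (u x - A₀) * mxd f (fun y => u y - A₀) χ x = _
      rw [e7]
      ring
    rw [e6, integral_sub i6 (i5.const_mul A₀), integral_const_mul, e5, mul_zero, sub_zero]
  rwa [k2] at k1

end

end Crest.Agent.R257.V3_218
end

-- ▼ part R257/V3D_218
section

/-!
R257 / V3D_218 (helper218): **MASS-LE in the language of the interface**: `V31Stmt`.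

* `JnuStmt` : `g ∈ J_p(f)` ⟹ `∫ |g|^(2/p) dν < ∞` near `0`
* `v31_of`  : `JnuStmt → EscStmt → V31Stmt`
-/

set_option autoImplicit false
set_option linter.unusedSectionVars false

open Set Filter Topology Complex MeasureTheory
open scoped ContDiff Matrix ComplexConjugate ComplexOrder ENNReal

namespace Crest.Agent.R257.V3_218

open Crest.Agent.R275.Geo
open Crest.Agent.R273.Defs_333 (lev)
open Crest.Agent.R257.Defs_219 Crest.Agent.R257.KED_952 Crest.Agent.R257.V1Defs_822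
open Crest.Agent.R257.V1Pe_822 Crest.Agent.R257.V1W_822 Crest.Agent.R257.V1Top_822
open Crest.Agent.R257.V1Top2_822
open Crest.Agent.R257.PN_835 (nsq)
open Crest.Agent.R257.KEG_952 (Esc EscStmt V31Stmt)
open Crest.Agent.R257.M3_5 (wpq m3_mass)

noncomputable section

/-- `g ∈ J_p(f)` gives the integrability of `|g|^(2/p)` on the level -/
def JnuStmt : Prop := ∀ (f g : E3 → ℂ) (r p : ℝ) (ν : Measure E3), Iso f → LvlOK f 0 r →
  IsNu f 0 r ν → 1 ≤ p → AnalyticAt ℂ g 0 → InJ p f g →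
  ∃ δ : ℝ, 0 < δ ∧ ∫⁻ x in {x | nsq x < δ ^ 2}, ENNReal.ofReal (‖g x‖ ^ (2 / p)) ∂ν < ⊤

/-- subadditivity -/
theorem rpow_add_le {x y z : ℝ} (hx : 0 ≤ x) (hy : 0 ≤ y) (h0 : 0 ≤ z) (h1 : z ≤ 1) :
    (x + y) ^ z ≤ x ^ z + y ^ z := by
  have h := NNReal.rpow_add_le_add_rpow ⟨x, hx⟩ ⟨y, hy⟩ h0 h1
  exact_mod_cast h

/-- the exponents -/
theorem pw_le {t a : ℝ} {p N : ℕ} (ht0 : 0 ≤ t) (ht1 : t ≤ 1) (ha : 0 < a) (hN : 0 < N)
    (hp : 1 / a ≤ (p : ℝ) / N) : (t ^ (2 * p)) ^ ((N : ℝ)⁻¹) ≤ t ^ (2 / a) := by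
  have hN' : (0 : ℝ) < N := by exact_mod_cast hN
  have e1 : (t ^ (2 * p)) ^ ((N : ℝ)⁻¹) = t ^ (2 * ((p : ℝ) / N)) := by
    rw [← Real.rpow_natCast, ← Real.rpow_mul ht0]
    congr 1
    push_cast
    ring
  rw [e1]
  refine Real.rpow_le_rpow_of_exponent_ge' ht0 ht1 (by positivity) ?_
  have e2 : 2 / a = 2 * (1 / a) := by ring
  rw [e2]
  linarith

/-- the pointwise bound of `e^w` -/
theorem exp_wpq_le {g h : E3 → ℂ} {x : E3} {a b : ℝ} {p q N : ℕ} (hg : ‖g x‖ ≤ 1)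
    (hh : ‖h x‖ ≤ 1) (hne : g x ≠ 0 ∨ h x ≠ 0) (ha : 0 < a) (hb : 0 < b) (hN : 0 < N)
    (hp : 1 / a ≤ (p : ℝ) / N) (hq : 1 / b ≤ (q : ℝ) / N) :
    Real.exp (wpq g h p q N x) ≤ ‖g x‖ ^ (2 / a) + ‖h x‖ ^ (2 / b) := by
  have hN' : (0 : ℝ) < N := by exact_mod_cast hN
  have hy : 0 < ‖g x‖ ^ (2 * p) + ‖h x‖ ^ (2 * q) := by
    rcases hne with h1 | h1
    · have := norm_pos_iff.2 h1; positivity
    · have := norm_pos_iff.2 h1; positivity
  have e1 : Real.exp (wpq g h p q N x) = (‖g x‖ ^ (2 * p) + ‖h x‖ ^ (2 * q)) ^ ((N : ℝ)⁻¹) := by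
    rw [Real.rpow_def_of_pos hy]
    unfold wpq
    rw [mul_comm]
  rw [e1]
  have h1 : (N : ℝ)⁻¹ ≤ 1 := inv_le_one_of_one_le₀ (by exact_mod_cast hN)
  refine (rpow_add_le (by positivity) (by positivity) (by positivity) h1).trans ?_
  exact add_le_add (pw_le (norm_nonneg _) hg ha hN hp) (pw_le (norm_nonneg _) hh hb hN hq)

theorem wpq_lgh (g h : E3 → ℂ) (p q : ℕ) (c : ℝ) :
    wpq g h p q c = fun x => c⁻¹ * lgh (fun x => g x ^ p) (fun x => h x ^ q) x := by
  funext x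
  unfold wpq lgh
  simp only [norm_pow]
  rw [← pow_mul, ← pow_mul, mul_comm p 2, mul_comm q 2]

/-- **`V31Stmt`** -/
theorem v31_of (jnu : JnuStmt) (esc : EscStmt) : V31Stmt := by
  intro Φ τ₀ l r C w u hS f hf hm χ hχ ν hν
  have hiso : Iso f := by rw [hf]; exact hS.iso
  have hL : LvlOK f 0 r := by
    rw [hf]
    exact ⟨hS.r_pos, fun x hx => (hS.an x hx.le).curry_left,
      fun x h0 hx h1 => hS.sm0 x h0 hx.le h1⟩
  have hu : KEon f 0 r u := by rw [hf]; exact hS.ke0.1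
  refine le_csInf (MsNe_980.mset_nonempty hiso) fun c hc => ?_
  have hcm : mstar f ≤ c := csInf_le (bddBelow_mset f) hc
  obtain ⟨a, b, ha, hb, g, h, hg, hh, hgJ, hhJ, hfin, hce⟩ := hc
  have ha0 : 0 < a := by linarith
  have hb0 : 0 < b := by linarith
  have hcol0 : col ![f, g, h] ≠ 0 := by
    intro h0
    rw [h0, Nat.cast_zero, zero_div] at hce
    linarith
  have hG : ∀ j, AnalyticAt ℂ ((![f, g, h] : Fin 3 → E3 → ℂ) j) 0 := by
    intro j
    fin_cases j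
    · exact hiso.an
    · exact hg
    · exact hh
  have g0 : g 0 = 0 := by
    by_contra hcon
    exact hcol0 (Skel_219.col_eq_zero (G := ![f, g, h]) (j := 1) hg hcon)
  have h0 : h 0 = 0 := by
    by_contra hcon
    exact hcol0 (Skel_219.col_eq_zero (G := ![f, g, h]) (j := 2) hh hcon)
  obtain ⟨ρ₀, A₀, hρ₀, -, hE⟩ := esc Φ τ₀ l r C w u hS f hf hm
  obtain ⟨ρ₁, hρ₁, hz⟩ := nsq_lt_of (iso_zero hG hfin)
  obtain ⟨ρ₂, hρ₂, hga⟩ := nsq_lt_of hg.eventually_analyticAt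
  obtain ⟨ρ₃, hρ₃, hha⟩ := nsq_lt_of hh.eventually_analyticAt
  obtain ⟨δ₁, hδ₁, hi1⟩ := jnu f g r a ν hiso hL hν ha hg hgJ
  obtain ⟨δ₂, hδ₂, hi2⟩ := jnu f h r b ν hiso hL hν hb hh hhJ
  obtain ⟨ρ₄, hρ₄, hm3⟩ := m3_mass hiso.an hg hh hiso.zero g0 h0 hfin
  obtain ⟨ρ₅, hρ₅, hb1⟩ := nsq_lt_of (p := fun x => ‖g x‖ ≤ 1 ∧ ‖h x‖ ≤ 1) (by
    have e1 : ∀ᶠ x in 𝓝 (0 : E3), ‖g x‖ < 1 :=
      hg.continuousAt.norm.eventually_lt continuousAt_const (by simp [g0])
    have e2 : ∀ᶠ x in 𝓝 (0 : E3), ‖h x‖ < 1 :=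
      hh.continuousAt.norm.eventually_lt continuousAt_const (by simp [h0])
    filter_upwards [e1, e2] with x k1 k2
    exact ⟨k1.le, k2.le⟩)
  obtain ⟨R, hR0, l0, l1, l2, l3, l4, l5, l6, l7, l8⟩ : ∃ R : ℝ, 0 < R ∧ R ≤ r ∧ R ≤ ρ₀ ∧ R ≤ ρ₁ ∧
      R ≤ ρ₂ ∧ R ≤ ρ₃ ∧ R ≤ ρ₄ ∧ R ≤ ρ₅ ∧ R ≤ δ₁ ∧ R ≤ δ₂ := by
    refine ⟨min r (min ρ₀ (min ρ₁ (min ρ₂ (min ρ₃ (min ρ₄ (min ρ₅ (min δ₁ δ₂))))))), ?_⟩
    refine ⟨?_, ?_⟩
    · exact lt_min hL.pos (lt_min hρ₀ (lt_min hρ₁ (lt_min hρ₂ (lt_min hρ₃ (lt_min hρ₄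
        (lt_min hρ₅ (lt_min hδ₁ hδ₂)))))))
    · simp only [min_le_iff, le_refl, true_or, or_true, and_true]
  obtain ⟨r', hr', hr'R⟩ : ∃ r' : ℝ, 0 < r' ∧ r' < R := ⟨R / 2, by positivity, by linarith⟩
  have mono : ∀ {a : ℝ}, R ≤ a → ∀ {x : E3}, nsq x < R ^ 2 → nsq x < a ^ 2 :=
    fun ha _ hx => hx.trans_le (pow_le_pow_left₀ hR0.le ha 2)
  have mono' : ∀ {x : E3}, nsq x < r' ^ 2 → nsq x < R ^ 2 :=
    fun hx => hx.trans_le (pow_le_pow_left₀ hr'.le hr'R.le 2)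
  have hr'r : r' ≤ r := hr'R.le.trans l0
  have hLR : LvlOK f 0 R := lvl_mono hL hR0 l0
  have hL' : LvlOK f 0 r' := lvl_mono hL hr' hr'r
  have huR : KEon f 0 R u := keon_mono hu hR0.le l0
  have hER : Esc f R u A₀ := ⟨hE.pos, fun x k1 k2 k3 => hE.one x k1 k2 (mono l1 k3), hE.inf,
    fun θ O hθ => hE.grad θ O (pe_mono hθ hR0.le l1)⟩
  have hν' := isNu_restr hν hr' hr'r
  set ν' : Measure E3 := ν.restrict {x | nsq x < r' ^ 2} with hν'd
  obtain ⟨χ', hχ'⟩ := exists_cut hr'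
  have hχ'r : Cut r χ' := cut_mono hχ' hr'r
  have hV := Vol_397.volStmt Φ τ₀ l r C w u hS f hf χ hχ ν hν
  have hV' := Vol_397.volStmt Φ τ₀ l r C w u hS f hf χ' hχ'r ν hν
  have hV'' : VOL ν' u χ' < ⊤ := by rw [hν'd, ← VOL_restr hχ']; exact hV'
  have e1 : mas ν f u χ = mas ν' f u χ' := by
    rw [mas_cut' hL hν hu hχ hχ'r hV hV']
    unfold mas
    rw [hν'd, ← VOL_restr hχ', ← TOT_restr hχ']
  have hne : ∀ x, f x = 0 → x ≠ 0 → nsq x < R ^ 2 → g x ≠ 0 ∨ h x ≠ 0 := by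
    intro x hx1 hx2 hx3
    by_contra hcon
    push Not at hcon
    refine hx2 (hz x (mono l2 hx3) fun j => ?_)
    fin_cases j
    · exact hx1
    · exact hcon.1
    · exact hcon.2
  have hmeas : MeasurableSet {x : E3 | nsq x < r' ^ 2} :=
    (isOpen_lt continuous_nsq3 continuous_const).measurableSet
  -- the two integrals on the small ball
  have hj : ∀ {δ : ℝ}, R ≤ δ → ∀ {k : E3 → ℂ} {t : ℝ},
      ∫⁻ x in {x | nsq x < δ ^ 2}, ENNReal.ofReal (‖k x‖ ^ (2 / t)) ∂ν < ⊤ →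
      ∫⁻ x, ENNReal.ofReal (‖k x‖ ^ (2 / t)) ∂ν' < ⊤ := by
    intro δ hδ k t hk
    refine lt_of_le_of_lt (lintegral_mono' (Measure.restrict_mono ?_ le_rfl) le_rfl) hk
    intro x hx
    exact mono hδ (mono' hx)
  -- the inequality with rational exponents
  have key : ∀ (p q N : ℕ), 0 < N → 1 / a ≤ (p : ℝ) / N → 1 / b ≤ (q : ℝ) / N →
      mas ν f u χ ≤ ((p : ℝ) / N) * ((q : ℝ) / N) * col ![f, g, h] := by
    intro p q N hN hp hq
    have hN' : (0 : ℝ) < N := by exact_mod_cast hN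
    have hp0 : 0 < p := by
      rcases Nat.eq_zero_or_pos p with h1 | h1
      · rw [h1, Nat.cast_zero, zero_div] at hp
        have : 0 < 1 / a := by positivity
        linarith
      · exact h1
    have hq0 : 0 < q := by
      rcases Nat.eq_zero_or_pos q with h1 | h1
      · rw [h1, Nat.cast_zero, zero_div] at hq
        have : 0 < 1 / b := by positivity
        linarith
      · exact h1
    have hne' : ∀ x, f x = 0 → x ≠ 0 → nsq x < R ^ 2 → g x ^ p ≠ 0 ∨ h x ^ q ≠ 0 := by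
      intro x k1 k2 k3
      rcases hne x k1 k2 k3 with k4 | k4
      · exact Or.inl (pow_ne_zero _ k4)
      · exact Or.inr (pow_ne_zero _ k4)
    have hgp : ∀ x, nsq x < R ^ 2 → AnalyticAt ℂ (fun x => g x ^ p) x :=
      fun x hx => (hga x (mono l3 hx)).pow p
    have hhq : ∀ x, nsq x < R ^ 2 → AnalyticAt ℂ (fun x => h x ^ q) x :=
      fun x hx => (hha x (mono l4 hx)).pow q
    obtain ⟨w1, w2, w3⟩ := wt (f := f) (s := 0) hgp hhq hne' (c := (N : ℝ)⁻¹) (by positivity)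
    have w4 := wt_inf (f := f) (s := 0) (g := fun x => g x ^ p) (h := fun x => h x ^ q)
      (hg.pow p) (hh.pow q) (by simp [g0, hp0.ne']) (by simp [h0, hq0.ne']) hR0 hne'
      (k := (N : ℝ)⁻¹) (by positivity)
    rw [← wpq_lgh g h p q N] at w1
    have w2' : ∀ θ O, PE f 0 R θ O → ∀ z ∈ O, ∀ v, 0 ≤ lev (fun z => wpq g h p q N (θ z)) z v := by
      intro θ O hθ z hz v
      rw [wpq_lgh]
      exact w2 θ O hθ z hz v
    have w4' : ∀ c : ℝ, ∃ ρ : ℝ, 0 < ρ ∧ ∀ x, f x = 0 → x ≠ 0 → nsq x < ρ ^ 2 →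
        wpq g h p q N x < c := by
      rw [wpq_lgh]
      exact w4
    have hI : VOL ν' (wpq g h p q N) χ' < ⊤ := by
      have k1 : VOL ν' (wpq g h p q N) χ' ≤ ∫⁻ x, (ENNReal.ofReal (‖g x‖ ^ (2 / a)) +
          ENNReal.ofReal (‖h x‖ ^ (2 / b))) ∂ν' := by
        unfold VOL
        refine lintegral_mono_ae (isNu_ae hν' fun x m2 m3 m1 => ?_)
        rw [← ENNReal.ofReal_add (by positivity) (by positivity)]
        refine ENNReal.ofReal_le_ofReal ?_
        have m4 := mono' m3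
        obtain ⟨b1, b2⟩ := hb1 x (mono l6 m4)
        have k2 := exp_wpq_le (p := p) (q := q) b1 b2 (hne x m1 m2 m4) ha0 hb0 hN hp hq
        calc χ' x * Real.exp (wpq g h p q N x) ≤ 1 * Real.exp (wpq g h p q N x) :=
              mul_le_mul_of_nonneg_right (hχ'.le x) (Real.exp_pos _).le
          _ = Real.exp (wpq g h p q N x) := one_mul _
          _ ≤ _ := k2
      refine lt_of_le_of_lt k1 ?_
      have hme : AEMeasurable (fun x => ENNReal.ofReal (‖g x‖ ^ (2 / a))) ν' := by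
        have hc : ContinuousOn (fun x => ‖g x‖ ^ (2 / a)) {x : E3 | nsq x < r' ^ 2} := by
          refine ContinuousOn.rpow_const (fun x hx => ?_) fun x _ => Or.inr (by positivity)
          exact (hga x (mono l3 (mono' hx))).continuousAt.norm.continuousWithinAt
        exact (hc.aemeasurable hmeas).ennreal_ofReal
      rw [lintegral_add_left' hme]
      exact ENNReal.add_lt_top.2 ⟨hj l7 hi1, hj l8 hi2⟩
    have e2 := mass_lvl hLR hr' hr'R huR hER w1 w2' w4' hν' hχ' hV'' hI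
    have e3 := hm3 r' (hr'R.le.trans l5) hL' ν' hν' χ' hχ' p q N hp0 hq0 hN'.ne'
    rw [e3] at e2
    rw [e1]
    unfold mas
    have hπ : 0 < Real.pi ^ 2 := by positivity
    rw [div_le_iff₀ hπ]
    have e4 : Real.pi ^ 2 * ((p : ℝ) * q * col ![f, g, h]) / (N : ℝ) ^ 2 =
        (p : ℝ) / N * ((q : ℝ) / N) * col ![f, g, h] * Real.pi ^ 2 := by
      field_simp
    rw [e4] at e2
    linarith
  -- the limit
  have t1 : ∀ t : ℝ, 0 < t → Tendsto (fun n : ℕ => (⌈1 / t * ((n + 1 : ℕ) : ℝ)⌉₊ : ℝ) /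
      ((n + 1 : ℕ) : ℝ)) atTop (𝓝 (1 / t)) := by
    intro t ht
    have h1 := tendsto_nat_ceil_mul_div_atTop (R := ℝ) (a := 1 / t) (by positivity)
    exact h1.comp (tendsto_natCast_atTop_atTop.comp (tendsto_add_atTop_nat 1))
  have t2 : Tendsto (fun n : ℕ => (⌈1 / a * ((n + 1 : ℕ) : ℝ)⌉₊ : ℝ) / ((n + 1 : ℕ) : ℝ) *
      ((⌈1 / b * ((n + 1 : ℕ) : ℝ)⌉₊ : ℝ) / ((n + 1 : ℕ) : ℝ)) * col ![f, g, h]) atTop
      (𝓝 (1 / a * (1 / b) * col ![f, g, h])) := ((t1 a ha0).mul (t1 b hb0)).mul_const _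
  have t3 : mas ν f u χ ≤ 1 / a * (1 / b) * col ![f, g, h] := by
    refine ge_of_tendsto t2 (Eventually.of_forall fun n => ?_)
    have hn : (0 : ℝ) < ((n + 1 : ℕ) : ℝ) := by positivity
    refine key _ _ (n + 1) (Nat.succ_pos n) ?_ ?_
    · rw [le_div_iff₀ hn]
      exact Nat.le_ceil _
    · rw [le_div_iff₀ hn]
      exact Nat.le_ceil _
  rw [hce]
  refine t3.trans (le_of_eq ?_)
  field_simp

end

end Crest.Agent.R257.V3_218
end

-- ▼ part R257/Jnu_980

/-!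
Row 257 (S0395), leaf JNU (helper980, for V31Stmt of helper218): `g ∈ J_p(f)` implies
`∫_{|x| < δ} |g|^(2/p) dν < ∞` for the measure `ν = |η|²` of the level `{f = 0}`.
-/

set_option autoImplicit false
set_option linter.unusedSectionVars false

open Set Filter Topology Complex Metric MeasureTheory
open scoped ContDiff Matrix ComplexConjugate ENNReal ComplexOrder

namespace Crest.Agent.R257.Jnu_980

open Crest.AlgGeometry.Germ
open Crest.Agent.R275.Geo
open Crest.Agent.R257.Defs_219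
open Crest.Agent.R257.KED_952
open Crest.Agent.R257.PN_835 (nsq nsq_nonneg nsq_pos continuous_nsq)
open Crest.Agent.R257.Aff_835 (eta2a nga gra nga_pos)
open Crest.Agent.R257.V1Defs_822 (LvlOK)
open Crest.Agent.R257.KedM_941 (Gd L)

noncomputable section

/-- points of the level which are not simple are limits of simple ones -/
theorem simple_near {f : E3 → ℂ} (hf : Iso f) :
    ∀ᶠ x₀ in 𝓝 (0 : E3), x₀ ≠ 0 → f x₀ = 0 →
      ∃ᶠ x in 𝓝 x₀, f x = 0 ∧ coordDeriv f 0 x ≠ 0 := by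
  obtain ⟨ν, C, ρ, hν, hC, hρ, h1, h2⟩ := LcV_980.sheet_exists hf.an hf.zero hf.reg
  obtain ⟨ε₁, hε₁, hiso⟩ := Metric.eventually_nhds_iff_ball.1 (LcV_980.isolated hf.an hf.fin)
  have ht : Tendsto (fun x : E3 => (Fin.tail x : Fin 2 → ℂ)) (𝓝 0) (𝓝 0) := by
    have hc : Continuous (fun x : E3 => (Fin.tail x : Fin 2 → ℂ)) :=
      continuous_pi fun i => continuous_apply i.succ
    exact hc.tendsto' _ _ rfl
  have hx0 : ∀ᶠ x in 𝓝 (0 : E3), ‖x 0‖ < ρ := by
    have hc : Continuous (fun x : E3 => ‖x 0‖) := (continuous_apply 0).norm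
    have := hc.tendsto 0
    simp only [Pi.zero_apply, norm_zero] at this
    exact this.eventually (gt_mem_nhds hρ)
  filter_upwards [ht.eventually h2, hx0, ball_mem_nhds (0 : E3) hε₁] with x₀ hx2 hxρ hxε hne hfx
  obtain ⟨-, hsph, hAn⟩ := hx2
  by_contra hcon
  rw [not_frequently] at hcon
  set z : ℂ := x₀ 0 with hz
  set y : Fin 2 → ℂ := Fin.tail x₀ with hy
  have hzy : (Fin.cons z y : E3) = x₀ := Fin.cons_self_tail x₀
  have hd0 : coordDeriv f 0 x₀ = 0 := by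
    by_contra h
    exact hcon.self_of_nhds ⟨hfx, h⟩
  have hgr : ∃ i, coordDeriv f i x₀ ≠ 0 := by
    by_contra h
    push Not at h
    exact hne (hiso _ hxε h)
  obtain ⟨i, hi⟩ := hgr
  obtain ⟨j, rfl⟩ : ∃ j : Fin 2, i = j.succ := by
    refine Fin.cases (fun h => absurd hd0 h) (fun j _ => ⟨j, rfl⟩) i hi
  have hAz : AnalyticAt ℂ f x₀ := by
    have := hAn z hxρ.le
    rwa [hzy] at this
  have haff0 : LcV_980.aff z y j 0 = x₀ := by rw [LcV_980.aff_eq]; simpa using hzy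
  have hcaff : Continuous (LcV_980.aff z y j) := by
    unfold LcV_980.aff; fun_prop
  set F : ℂ × ℂ → ℂ := fun p => f (LcV_980.aff z y j p) with hF
  have hFan : AnalyticAt ℂ F 0 := by
    have h4 : AnalyticAt ℂ (LcV_980.aff z y j) 0 :=
      (analyticAt_const.add (analyticAt_fst.smul analyticAt_const)).add
        (analyticAt_snd.smul analyticAt_const)
    exact AnalyticAt.fun_comp (by rw [haff0]; exact hAz) h4
  have hten : Tendsto (LcV_980.aff z y j) (𝓝 0) (𝓝 x₀) := by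
    have := hcaff.tendsto 0
    rwa [haff0] at this
  have hFd : ∀ᶠ p in 𝓝 (0 : ℂ × ℂ), fderiv ℂ F p (1, 0) = coordDeriv f 0 (LcV_980.aff z y j p) ∧
      fderiv ℂ F p (0, 1) = coordDeriv f j.succ (LcV_980.aff z y j p) := by
    filter_upwards [hten.eventually hAz.eventually_analyticAt] with p hp
    have h6 : HasFDerivAt F _ p :=
      (hp.differentiableAt.hasFDerivAt).comp p (LcV_980.hasFDerivAt_aff z y j p)
    rw [h6.fderiv]
    constructor
    · simp [coordDeriv]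
    · simp [coordDeriv]
  have hslice := LcV_980.slice_const hFan (by rw [hF]; simp only [haff0]; exact hfx)
    (by rw [hFd.self_of_nhds.2, haff0]; exact hi) (by
      filter_upwards [hten.eventually hcon, hFd] with p hp hd h0
      rw [hd.1]
      by_contra h
      exact hp ⟨h0, h⟩)
  -- identity theorem on the line
  have hci : ∀ z : ℂ, AnalyticAt ℂ (fun z : ℂ => (Fin.cons z y : E3)) z := by
    intro z
    rw [analyticAt_pi_iff]
    intro i
    refine Fin.cases ?_ (fun j => ?_) i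
    · simp only [Fin.cons_zero]; exact analyticAt_id
    · simp only [Fin.cons_succ]; exact analyticAt_const
  have hgan : AnalyticOnNhd ℂ (fun z : ℂ => f (Fin.cons z y)) (closedBall (0 : ℂ) ρ) := by
    intro w hw
    exact AnalyticAt.fun_comp (hAn w (by simpa using hw)) (hci w)
  have hev : (fun z : ℂ => f (Fin.cons z y)) =ᶠ[𝓝 z] 0 := by
    have ht : Tendsto (fun w : ℂ => w - z) (𝓝 z) (𝓝 0) := by
      have : Continuous (fun w : ℂ => w - z) := by fun_prop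
      simpa using this.tendsto z
    filter_upwards [ht.eventually hslice] with w hw
    have h9 : f (LcV_980.aff z y j (w - z, 0)) = 0 := hw
    rw [LcV_980.aff_eq] at h9
    simpa using h9
  have hall := hgan.eqOn_zero_of_preconnected_of_eventuallyEq_zero
    (convex_closedBall (0 : ℂ) ρ).isPreconnected (by simpa using hxρ.le) hev
  have hρmem : (ρ : ℂ) ∈ closedBall (0 : ℂ) ρ := by
    simp [abs_of_pos hρ]
  exact hsph (ρ : ℂ) (by simp [abs_of_pos hρ]) (hall hρmem)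

/-- the non simple points of the level are `ν`-null near `0` -/
theorem null_crit {f : E3 → ℂ} {r : ℝ} {ν : Measure E3} (hf : Iso f) (hL : LvlOK f 0 r)
    (hν : IsNu f 0 r ν) :
    ∃ W : Set E3, IsOpen W ∧ (0 : E3) ∈ W ∧ ν {x | x ∈ W ∧ f x = 0 ∧ coordDeriv f 0 x = 0} = 0 := by
  obtain ⟨W, hW, hWo, hW0⟩ := _root_.eventually_nhds_iff.1 (simple_near hf)
  refine ⟨W, hWo, hW0, ?_⟩
  have hGd : Gd f 0 r := ⟨hL.an, hL.sm⟩
  -- remove the complement of the level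
  set N : Set E3 := {x | x ∈ W ∧ x ∈ L f 0 r ∧ coordDeriv f 0 x = 0} with hN
  have hsub : {x | x ∈ W ∧ f x = 0 ∧ coordDeriv f 0 x = 0} ⊆
      N ∪ {x | ¬ (f x = 0 ∧ x ≠ 0 ∧ nsq x < r ^ 2)} := by
    intro x hx
    by_cases h : f x = 0 ∧ x ≠ 0 ∧ nsq x < r ^ 2
    · exact Or.inl ⟨hx.1, h, hx.2.2⟩
    · exact Or.inr h
  refine measure_mono_null hsub (measure_union_null ?_ hν.null)
  refine measure_null_of_locally_null N fun x₀ hx₀ => ?_
  obtain ⟨hxW, hxL, hxd⟩ := hx₀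
  obtain ⟨θ, O, B, p, hPE, hB, hxB, hpθ, hθp⟩ := KedM_941.exists_pe hGd hxL
  have hinj : InjOn θ O := fun z hz z' hz' h => by rw [← hpθ z hz, ← hpθ z' hz', h]
  obtain ⟨hz0O, hθz0⟩ := hθp x₀ hxB hxL.1
  set z₀ := p x₀ with hz₀
  have hθan : AnalyticAt ℂ θ z₀ :=
    Crest.Agent.R266.SCV.analyticOnNhd_of_differentiableOn hPE.par.isOpen hPE.par.hol z₀ hz0O
  have hcd : AnalyticAt ℂ (coordDeriv f 0) (θ z₀) := by
    rw [hθz0]
    have h1 : AnalyticAt ℂ f x₀ := hL.an x₀ hxL.2.2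
    exact ((ContinuousLinearMap.apply ℂ ℂ (Pi.single 0 (1 : ℂ) : E3)).analyticAt _).comp h1.fderiv
  have hh : AnalyticAt ℂ (fun z => coordDeriv f 0 (θ z)) z₀ :=
    AnalyticAt.fun_comp (g := coordDeriv f 0) hcd hθan
  have hfre : ∃ᶠ z in 𝓝 z₀, coordDeriv f 0 (θ z) ≠ 0 := by
    have h1 := hW x₀ hxW hxL.2.1 hxL.1
    have hev : ∀ᶠ x in 𝓝 x₀, x ∈ B := hB.mem_nhds hxB
    have hpt : Tendsto p (𝓝 x₀) (𝓝 z₀) := p.continuous.continuousAt
    refine hpt.frequently ((h1.and_eventually hev).mono fun x hx => ?_)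
    obtain ⟨⟨h2, h3⟩, h4⟩ := hx
    rw [(hθp x h4 h2).2]
    exact h3
  obtain ⟨δ, hδ, hae⟩ := Crest.Agent.R271.Local821.eventually_null_zero
    (volume : Measure (Cn 2)) hh hfre
  set V : Set E3 := B ∩ p ⁻¹' (ball z₀ δ) ∩ {x | x ≠ 0 ∧ nsq x < r ^ 2} with hV
  have hVo : IsOpen V := (hB.inter (isOpen_ball.preimage p.continuous)).inter
    (KedM_941.isOpen_pball r)
  have hx₀V : x₀ ∈ V := ⟨⟨hxB, mem_ball_self hδ⟩, hxL.2⟩
  set u : Set E3 := V ∩ {x | f x = 0 ∧ coordDeriv f 0 x = 0} with hu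
  have hum : MeasurableSet u := by
    have c1 : ContinuousOn f V := fun x hx => (hL.an x hx.2.2).continuousAt.continuousWithinAt
    have c2 : ContinuousOn (coordDeriv f 0) V := fun x hx => by
      have h1 : AnalyticAt ℂ f x := hL.an x hx.2.2
      have h2 : AnalyticAt ℂ (coordDeriv f 0) x :=
        ((ContinuousLinearMap.apply ℂ ℂ (Pi.single 0 (1 : ℂ) : E3)).analyticAt _).comp h1.fderiv
      exact h2.continuousAt.continuousWithinAt
    have o1 : IsOpen (V ∩ f ⁻¹' {0}ᶜ) := c1.isOpen_inter_preimage hVo isOpen_compl_singleton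
    have o2 : IsOpen (V ∩ (coordDeriv f 0) ⁻¹' {0}ᶜ) :=
      c2.isOpen_inter_preimage hVo isOpen_compl_singleton
    have e1 : u = V \ ((V ∩ f ⁻¹' {0}ᶜ) ∪ (V ∩ (coordDeriv f 0) ⁻¹' {0}ᶜ)) := by
      ext x
      simp only [hu, mem_inter_iff, mem_ofPred_eq, Set.mem_sdiff, mem_union, mem_preimage,
        mem_compl_iff, mem_singleton_iff]
      tauto
    rw [e1]
    exact hVo.measurableSet.diff (o1.measurableSet.union o2.measurableSet)
  refine ⟨u, ?_, ?_⟩
  · have h1 : V ∈ 𝓝 x₀ := hVo.mem_nhds hx₀V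
    filter_upwards [mem_nhdsWithin_of_mem_nhds h1, self_mem_nhdsWithin] with x hxV hxN
    exact ⟨hxV, hxN.2.1.1, hxN.2.2⟩
  · have husub : u ⊆ θ '' O := by
      rintro x ⟨⟨⟨hxB', -⟩, -⟩, hfx, -⟩
      obtain ⟨h1, h2⟩ := hθp x hxB' hfx
      exact ⟨p x, h1, h2⟩
    have h1 : ν u = ∫⁻ x in θ '' O, u.indicator 1 x ∂ν := by
      rw [lintegral_indicator_one hum, Measure.restrict_apply hum, inter_eq_left.2 husub]
    rw [h1, hν.par θ O hPE hinj _ (measurable_one.indicator hum)]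
    rw [lintegral_eq_zero_iff']
    · rw [ae_restrict_iff' measurableSet_ball] at hae
      rw [Filter.EventuallyEq, ae_restrict_iff' hPE.par.isOpen.measurableSet]
      filter_upwards [hae] with z hz hzO
      by_cases hzu : θ z ∈ u
      · exfalso
        have h2 : z ∈ ball z₀ δ := by
          have := hzu.1.1.2
          rwa [mem_preimage, hpθ z hzO] at this
        exact hz h2 hzu.2.2
      · rw [indicator_of_notMem hzu, zero_mul]; rfl
    · have a1 : AEMeasurable (fun z => u.indicator (1 : E3 → ℝ≥0∞) (θ z)) (volume.restrict O) := by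
        have a2 : AEMeasurable θ (volume.restrict O) :=
          hPE.par.hol.continuousOn.aemeasurable hPE.par.isOpen.measurableSet
        exact (measurable_one.indicator hum).comp_aemeasurable a2
      exact a1.mul (KedM_941.aem_eta hGd hPE)

/-! ### the volume of `Cn n` -/

theorem mp_curry (n : ℕ) : MeasurePreserving (MeasurableEquiv.curry (Fin n) (Fin 2) ℝ)
    (volume : Measure (RI n → ℝ)) (volume : Measure (Fin n → Fin 2 → ℝ)) := by
  have h : MeasurePreserving (MeasurableEquiv.curry (Fin n) (Fin 2) ℝ).symm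
      (volume : Measure (Fin n → Fin 2 → ℝ)) (volume : Measure (RI n → ℝ)) := by
    refine ⟨(MeasurableEquiv.curry (Fin n) (Fin 2) ℝ).symm.measurable, ?_⟩
    symm
    refine Measure.pi_eq fun s hs => ?_
    rw [(MeasurableEquiv.curry (Fin n) (Fin 2) ℝ).symm.map_apply]
    have h1 : (MeasurableEquiv.curry (Fin n) (Fin 2) ℝ).symm ⁻¹' (Set.pi univ s) =
        Set.pi univ fun a => Set.pi univ fun b => s (a, b) := by
      ext f
      simp [MeasurableEquiv.coe_curry_symm, Function.uncurry]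
    rw [h1, volume_pi_pi]
    simp only [volume_pi_pi]
    exact (Fintype.prod_prod_type fun p => volume (s p)).symm
  exact h.symm _

theorem mp_kap (n : ℕ) : MeasurePreserving
    (fun (y : RI n → ℝ) (a : Fin n) => (y (a, 0) : ℂ) + (y (a, 1) : ℂ) * I) volume volume := by
  have h1 : MeasurePreserving (fun (f : Fin n → Fin 2 → ℝ) (a : Fin n) =>
      Complex.measurableEquivPi.symm (f a)) volume volume :=
    volume_preserving_pi fun _ => Complex.volume_preserving_equiv_pi.symm _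
  have h2 := h1.comp (mp_curry n)
  have h3 : (fun (f : Fin n → Fin 2 → ℝ) (a : Fin n) =>
      Complex.measurableEquivPi.symm (f a)) ∘ (MeasurableEquiv.curry (Fin n) (Fin 2) ℝ) =
      fun (y : RI n → ℝ) (a : Fin n) => (y (a, 0) : ℂ) + (y (a, 1) : ℂ) * I := by
    funext y a
    simp [MeasurableEquiv.coe_curry, Function.curry, Complex.measurableEquivPi_symm_apply]
  rwa [h3] at h2

/-- `ofLp` preserves the volume -/
theorem mp_ofLp (n : ℕ) : MeasurePreserving (fun z : Cn n => (WithLp.ofLp z : Fin n → ℂ))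
    volume volume := by
  have h1 := UpK_938.cc_mp n
  have hm : Measurable (fun z : Cn n => (WithLp.ofLp z : Fin n → ℂ)) :=
    (PiLp.continuous_ofLp 2 _).measurable
  refine ⟨hm, ?_⟩
  rw [← h1.map_eq, Measure.map_map hm h1.measurable]
  exact (mp_kap n).map_eq

/-! ### graph charts -/

open Crest.Agent.R257.Det_219

/-- a graph chart as a parametrisation -/
def gth {f : E3 → ℂ} {U : Set E3} (C : Ch f U) (z : Cn 2) : E3 := C.gm (WithLp.ofLp z)

/-- its domain -/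
def gO {f : E3 → ℂ} {U : Set E3} (C : Ch f U) : Set (Cn 2) := {z | (WithLp.ofLp z : E2) ∈ C.O}

theorem isOpen_gO {f : E3 → ℂ} {U : Set E3} (C : Ch f U) : IsOpen (gO C) :=
  C.Oo.preimage (PiLp.continuous_ofLp 2 _)

theorem hasFDerivAt_gth {f : E3 → ℂ} {U : Set E3} (C : Ch f U) {z : Cn 2} (hz : z ∈ gO C) :
    HasFDerivAt (gth C) ((fderiv ℂ C.gm (WithLp.ofLp z)).comp
      ((PiLp.continuousLinearEquiv 2 ℂ (fun _ : Fin 2 => ℂ)) : Cn 2 →L[ℂ] E2)) z := by
  have h1 : HasFDerivAt (fun z : Cn 2 => (WithLp.ofLp z : E2))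
      ((PiLp.continuousLinearEquiv 2 ℂ (fun _ : Fin 2 => ℂ)) : Cn 2 →L[ℂ] E2) z :=
    (PiLp.continuousLinearEquiv 2 ℂ (fun _ : Fin 2 => ℂ)).hasFDerivAt
  exact HasFDerivAt.comp z (g := C.gm) (C.gm_diff hz).hasFDerivAt h1

theorem fderiv_gth {f : E3 → ℂ} {U : Set E3} (C : Ch f U) {z : Cn 2} (hz : z ∈ gO C) (v : Cn 2) :
    fderiv ℂ (gth C) z v = fderiv ℂ C.gm (WithLp.ofLp z) (WithLp.ofLp v) := by
  rw [(hasFDerivAt_gth C hz).fderiv]
  rfl

theorem pe_gth {f : E3 → ℂ} {r : ℝ} {U : Set E3} (hU : U ⊆ {x | nsq x < r ^ 2})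
    (h0 : coordDeriv f 0 0 = 0) (C : Ch f U) : PE f 0 r (gth C) (gO C) where
  par :=
    { isOpen := isOpen_gO C
      hol := fun z hz => (hasFDerivAt_gth C hz).differentiableAt.differentiableWithinAt
      lvl := fun z hz => (C.b _ hz).2
      imm := fun z hz v hv => by
        rw [fderiv_gth C hz] at hv
        ext i
        have h1 := congrFun hv i.succ
        rw [C.gm_fderiv_succ hz] at h1
        exact h1 }
  ne := fun z hz h => C.fz _ (C.b _ hz).1 (by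
    have : (Fin.cons (C.s (WithLp.ofLp z)) (WithLp.ofLp z) : E3) = 0 := h
    rw [this]; exact h0)
  lt := fun z hz => hU (C.VU (C.b _ hz).1)

theorem gth_inj {f : E3 → ℂ} {U : Set E3} (C : Ch f U) (s : Set (Cn 2)) : InjOn (gth C) s := by
  intro z _ z' _ h
  have h1 : (WithLp.ofLp z : E2) = WithLp.ofLp z' := by
    have h2 := congrArg (fun x : E3 => (Fin.tail x : E2)) h
    simpa [gth, Ch.gm] using h2
  ext i
  exact congrFun h1 i

theorem eta_gth {f : E3 → ℂ} {r : ℝ} (hL : LvlOK f 0 r) {U : Set E3}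
    (hU : U ⊆ {x | nsq x < r ^ 2}) (h0 : coordDeriv f 0 0 = 0) (C : Ch f U) {z : Cn 2}
    (hz : z ∈ gO C) : eta2a (n := 2) f (gth C) z = (‖coordDeriv f 0 (gth C z)‖ ^ 2)⁻¹ := by
  have hPE := pe_gth hU h0 C
  have hne : coordDeriv f 0 (gth C z) ≠ 0 := C.fz _ (C.b _ hz).1
  have h1 := Jac_39.det_TT hPE.par hz (hL.an _ (hPE.lt z hz)).differentiableAt
    (hL.sm _ (hPE.ne z hz) (hPE.lt z hz) (hPE.par.lvl z hz)) (Pi.single 0 1)
  have h2 : (Jac_39.TT (gth C) (Pi.single 0 1) z).det = 1 := by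
    unfold Jac_39.TT
    rw [fderiv_gth C hz, fderiv_gth C hz, Matrix.det_fin_three]
    have e0 : ∀ v : E2, fderiv ℂ C.gm (WithLp.ofLp z) v 1 = v 0 := fun v =>
      C.gm_fderiv_succ hz v 0
    have e1 : ∀ v : E2, fderiv ℂ C.gm (WithLp.ofLp z) v 2 = v 1 := fun v =>
      C.gm_fderiv_succ hz v 1
    simp [e0, e1]
  rw [h2] at h1
  have h3 : fderiv ℂ f (gth C z) (Pi.single 0 1) = coordDeriv f 0 (gth C z) := rfl
  rw [h3] at h1
  have h4 : 0 < ‖coordDeriv f 0 (gth C z)‖ ^ 2 := by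
    have := norm_pos_iff.2 hne
    positivity
  refine eq_inv_of_mul_eq_one_left ?_
  rw [← h1]
  simp

/-- the mass of a piece of a graph chart -/
theorem lint_piece {f g : E3 → ℂ} {r p ρ : ℝ} {ν : Measure E3} (hL : LvlOK f 0 r)
    (hν : IsNu f 0 r ν) (hU : Bx ρ ⊆ {x | nsq x < r ^ 2}) (h0 : coordDeriv f 0 0 = 0)
    (hg : ContinuousOn g (Bx ρ)) (hp : 0 < p) (C : Ch f (Bx ρ)) {B : Set E2}
    (hB : MeasurableSet B) (hBO : B ⊆ C.O) :
    ∫⁻ x in C.gm '' B, ENNReal.ofReal (‖g x‖ ^ (2 / p)) ∂ν =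
      ∫⁻ y in B, Jf p f g (C.gm y) := by
  have hGd : Gd f 0 r := ⟨hL.an, hL.sm⟩
  have hPE := pe_gth hU h0 C
  have hinj : InjOn (gth C) (gO C) := gth_inj C _
  -- measurability of the piece
  set P : Set E3 := C.gm '' B with hP
  have hgminj : InjOn C.gm B := by
    intro y _ y' _ h
    have h2 := congrArg (fun x : E3 => (Fin.tail x : E2)) h
    simpa [Ch.gm] using h2
  have hPm : MeasurableSet P := hB.image_of_continuousOn_injOn (C.gm_cont.mono hBO) hgminj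
  have hPU : P ⊆ Bx ρ := by
    rintro _ ⟨y, hy, rfl⟩
    exact C.VU (C.b _ (hBO hy)).1
  set B' : Set (Cn 2) := {z | (WithLp.ofLp z : E2) ∈ B} with hB'
  have hB'm : MeasurableSet B' := (PiLp.continuous_ofLp 2 _).measurable hB
  have hB'O : B' ⊆ gO C := fun z hz => hBO hz
  have hPs : P ⊆ gth C '' gO C := by
    rintro _ ⟨y, hy, rfl⟩
    exact ⟨WithLp.toLp 2 y, hBO hy, rfl⟩
  have hF : AEMeasurable (P.indicator fun x => ENNReal.ofReal (‖g x‖ ^ (2 / p))) ν := by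
    rw [aemeasurable_indicator_iff hPm]
    have h1 : ContinuousOn (fun x => ‖g x‖ ^ (2 / p)) P :=
      ((hg.mono hPU).norm).rpow_const fun x _ => Or.inr (by positivity)
    exact (h1.aemeasurable hPm).ennreal_ofReal
  have h1 : ∫⁻ x in P, ENNReal.ofReal (‖g x‖ ^ (2 / p)) ∂ν =
      ∫⁻ x in gth C '' gO C, P.indicator (fun x => ENNReal.ofReal (‖g x‖ ^ (2 / p))) x ∂ν := by
    rw [lintegral_indicator hPm, Measure.restrict_restrict hPm, inter_eq_left.2 hPs]
  rw [h1, KedM_941.lint_par hGd hν hPE hinj hF]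
  have h2 : ∫⁻ z in gO C, ENNReal.ofReal (eta2a (n := 2) f (gth C) z) *
      P.indicator (fun x => ENNReal.ofReal (‖g x‖ ^ (2 / p))) (gth C z) =
      ∫⁻ z in gO C, B'.indicator (fun z : Cn 2 => Jf p f g (C.gm (WithLp.ofLp z))) z := by
    refine setLIntegral_congr_fun (isOpen_gO C).measurableSet fun z hz => ?_
    by_cases hzB : z ∈ B'
    · have h3 : gth C z ∈ P := ⟨_, hzB, rfl⟩
      rw [indicator_of_mem hzB, indicator_of_mem h3, eta_gth hL hU h0 C hz,
        ← ENNReal.ofReal_mul (by positivity)]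
      unfold Jf
      congr 1
      rw [div_eq_mul_inv, mul_comm]
      rfl
    · have h3 : gth C z ∉ P := by
        rintro ⟨y, hy, hyz⟩
        apply hzB
        have h2 := congrArg (fun x : E3 => (Fin.tail x : E2)) hyz
        have h4 : y = WithLp.ofLp z := by simpa [gth, Ch.gm] using h2
        show (WithLp.ofLp z : E2) ∈ B
        rw [← h4]; exact hy
      rw [indicator_of_notMem hzB, indicator_of_notMem h3, mul_zero]
  rw [h2, lintegral_indicator hB'm, Measure.restrict_restrict hB'm, inter_eq_left.2 hB'O]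
  have hme : MeasurableEmbedding (fun z : Cn 2 => (WithLp.ofLp z : E2)) :=
    (PiLp.continuousLinearEquiv 2 ℂ (fun _ : Fin 2 => ℂ)).toHomeomorph.measurableEmbedding
  exact (mp_ofLp 2).setLIntegral_comp_preimage_emb hme (fun y => Jf p f g (C.gm y)) B

/-- **JNU** -/
theorem jnu {f g : E3 → ℂ} {r p : ℝ} {ν : Measure E3} (hiso : Iso f) (hL : LvlOK f 0 r)
    (hν : IsNu f 0 r ν) (hp : 1 ≤ p) (hg : AnalyticAt ℂ g 0) (hJ : InJ p f g) :
    ∃ δ : ℝ, 0 < δ ∧ ∫⁻ x in {x | nsq x < δ ^ 2}, ENNReal.ofReal (‖g x‖ ^ (2 / p)) ∂ν < ⊤ := by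
  obtain ⟨R, hR, hJ⟩ := hJ
  obtain ⟨W, hWo, hW0, hWn⟩ := null_crit hiso hL hν
  have h0 : coordDeriv f 0 0 = 0 := hiso.crit 0
  have hopen : {x : E3 | nsq x < r ^ 2} ∈ 𝓝 (0 : E3) := by
    refine (isOpen_lt continuous_nsq continuous_const).mem_nhds ?_
    show nsq (0 : E3) < r ^ 2
    have : nsq (0 : E3) = 0 := by simp [nsq]
    rw [this]
    have := hL.pos
    positivity
  obtain ⟨ρ₁, hρ₁, hb⟩ := exists_box (inter_mem (inter_mem hopen (hWo.mem_nhds hW0))
    hg.eventually_analyticAt)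
  set ρ : ℝ := min R ρ₁ with hρ
  have hρ0 : 0 < ρ := lt_min hR hρ₁
  have hBρ : Bx ρ ⊆ {x : E3 | nsq x < r ^ 2} := fun x hx =>
    (hb (Bx_mono (min_le_right _ _) hx)).1.1
  have hBW : Bx ρ ⊆ W := fun x hx => (hb (Bx_mono (min_le_right _ _) hx)).1.2
  have hgB : AnalyticOnNhd ℂ g (Bx ρ) := fun x hx => (hb (Bx_mono (min_le_right _ _) hx)).2
  have hfB : AnalyticOnNhd ℂ f (Bx ρ) := fun x hx => hL.an x (hBρ hx)
  obtain ⟨K⟩ := exists_cov (isOpen_Bx ρ) hfB (le_refl (Bx ρ))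
  have hJ' : Jint p (fun _ => ρ) f g < ⊤ := lt_of_le_of_lt (jint_mono p f g (min_le_left _ _)) hJ
  rw [jint_cov hp hfB hgB K] at hJ'
  -- the small ball
  have hδB : {x : E3 | nsq x < ρ ^ 2} ⊆ Bx ρ := by
    intro x hx i
    have h1 : ‖x i‖ ^ 2 ≤ nsq x :=
      Finset.single_le_sum (f := fun k => ‖x k‖ ^ 2) (fun k _ => sq_nonneg _) (Finset.mem_univ i)
    have h2 : ‖x i‖ ^ 2 < ρ ^ 2 := h1.trans_lt hx
    exact lt_of_pow_lt_pow_left₀ 2 hρ0.le h2
  refine ⟨ρ, hρ0, ?_⟩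
  set T : Set E3 := ⋃ i, (K.C i).gm '' K.B i with hT
  have hle : ({x : E3 | nsq x < ρ ^ 2} : Set E3) ≤ᵐ[ν] T := by
    have h1 : ∀ᵐ x ∂ν, ¬ (x ∈ W ∧ f x = 0 ∧ coordDeriv f 0 x = 0) := by
      rw [ae_iff]
      simpa using hWn
    have h2 : ∀ᵐ x ∂ν, x ∈ L f 0 r := KedM_941.ae_L hν
    filter_upwards [h1, h2] with x hx1 hx2 hx3
    have hxB := hδB hx3
    obtain ⟨i, hi1, hi2⟩ := K.cov x hxB hx2.1 (fun h => hx1 ⟨hBW hxB, hx2.1, h⟩)
    exact mem_iUnion.2 ⟨i, ⟨_, hi1, hi2⟩⟩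
  calc ∫⁻ x in {x | nsq x < ρ ^ 2}, ENNReal.ofReal (‖g x‖ ^ (2 / p)) ∂ν
      ≤ ∫⁻ x in T, ENNReal.ofReal (‖g x‖ ^ (2 / p)) ∂ν := lintegral_mono_set' hle
    _ ≤ ∑' i, ∫⁻ x in (K.C i).gm '' K.B i, ENNReal.ofReal (‖g x‖ ^ (2 / p)) ∂ν :=
        lintegral_iUnion_le _ _
    _ = ∑' i, ∫⁻ y in K.B i, Jf p f g ((K.C i).gm y) :=
        tsum_congr fun i => lint_piece hL hν hBρ h0 hgB.continuousOn (by linarith) (K.C i)
          (K.Bm i) (K.BO i)
    _ < ⊤ := hJ'

end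

end Crest.Agent.R257.Jnu_980
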