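import Crest.Agent.R257.LCc_472
import Crest.Agent.R257.Fin_554

-- ▼ part R257/LCd_472
section

/-!
R257 / LCd_472: `x_0² + q(x_1, …, x_n, t)`: partial derivatives, Milnor number, `Fam`.
-/

set_option autoImplicit false
set_option linter.unusedVariables false
set_option linter.unusedSectionVars false

open Topology Filter Set
open Crest.AlgGeometry.Germ

noncomputable section

namespace Crest.Agent.R257.LCd_472

open Crest.Agent.R257.Defs_219 Crest.Agent.R257.Skel_219 Crest.Agent.R257.LCDefs_472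
open Crest.Agent.R257.LCa_472 Crest.Agent.R257.LCb_472

variable {n : ℕ}

/-- the tail as a continuous linear map -/
def tl (n : ℕ) : (Fin (n + 1) → ℂ) →L[ℂ] (Fin n → ℂ) :=
  ContinuousLinearMap.pi fun i => ContinuousLinearMap.proj i.succ

@[simp] theorem tl_apply (x : Fin (n + 1) → ℂ) : tl n x = Fin.tail x := rfl

/-- `(0, y)` as a continuous linear map -/
def ins (n : ℕ) : (Fin n → ℂ) →L[ℂ] (Fin (n + 1) → ℂ) :=
  ContinuousLinearMap.pi fun i => Fin.cases (0 : (Fin n → ℂ) →L[ℂ] ℂ)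
    (fun j => ContinuousLinearMap.proj j) i

@[simp] theorem ins_zero (y : Fin n → ℂ) : ins n y 0 = 0 := rfl

@[simp] theorem ins_succ (y : Fin n → ℂ) (j : Fin n) : ins n y j.succ = y j := rfl

@[simp] theorem tail_ins (y : Fin n → ℂ) : Fin.tail (ins n y) = y := by
  ext j
  rfl

theorem tl_single_zero : tl n (Pi.single 0 1) = 0 := by
  ext j
  simp [Fin.tail, Fin.succ_ne_zero]

theorem tl_single_succ (k : Fin n) : tl n (Pi.single k.succ 1) = Pi.single k 1 := by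
  ext j
  by_cases h : j = k
  · subst h
    simp [Fin.tail]
  · simp [Fin.tail, h]

/-- `x_0² + q(tail x)` -/
def dsq (q : (Fin n → ℂ) → ℂ) (x : Fin (n + 1) → ℂ) : ℂ := x 0 ^ 2 + q (Fin.tail x)

theorem hasFDerivAt_dsq {q : (Fin n → ℂ) → ℂ} {x : Fin (n + 1) → ℂ}
    (hq : DifferentiableAt ℂ q (Fin.tail x)) :
    HasFDerivAt (dsq q) ((2 * x 0) • (ContinuousLinearMap.proj (R := ℂ) (φ := fun _ => ℂ) 0) +
      (fderiv ℂ q (Fin.tail x)).comp (tl n)) x := by
  have h1 : HasFDerivAt (fun x : Fin (n + 1) → ℂ => x 0)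
      (ContinuousLinearMap.proj (R := ℂ) (φ := fun _ => ℂ) 0) x :=
    (ContinuousLinearMap.proj (R := ℂ) (φ := fun _ : Fin (n + 1) => ℂ) 0).hasFDerivAt
  have h2 := h1.pow 2
  have h3 : HasFDerivAt q (fderiv ℂ q (Fin.tail x)) (tl n x) := hq.hasFDerivAt
  have h4 := h3.comp x (tl n).hasFDerivAt
  have := h2.add h4
  refine (this.congr_fderiv ?_)
  ext v
  simp

theorem coordDeriv_dsq_zero {q : (Fin n → ℂ) → ℂ} {x : Fin (n + 1) → ℂ}
    (hq : DifferentiableAt ℂ q (Fin.tail x)) : coordDeriv (dsq q) 0 x = 2 * x 0 := by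
  unfold coordDeriv
  rw [(hasFDerivAt_dsq hq).fderiv, _root_.add_apply,
    ContinuousLinearMap.comp_apply, tl_single_zero]
  simp

theorem coordDeriv_dsq_succ {q : (Fin n → ℂ) → ℂ} {x : Fin (n + 1) → ℂ}
    (hq : DifferentiableAt ℂ q (Fin.tail x)) (k : Fin n) :
    coordDeriv (dsq q) k.succ x = coordDeriv q k (Fin.tail x) := by
  unfold coordDeriv
  rw [(hasFDerivAt_dsq hq).fderiv, _root_.add_apply,
    ContinuousLinearMap.comp_apply, tl_single_succ]
  simp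

theorem tl_tendsto : Tendsto (fun x : Fin (n + 1) → ℂ => Fin.tail x) (𝓝 0) (𝓝 0) :=
  (tl n).continuous.tendsto' _ _ (by simp [map_zero])

theorem ins_tendsto : Tendsto (fun y : Fin n → ℂ => ins n y) (𝓝 0) (𝓝 0) :=
  (ins n).continuous.tendsto' _ _ (by simp)

/-- **the Milnor number of `x_0² + q`** -/
theorem par_dsq {q : (Fin n → ℂ) → ℂ} (hq : AnalyticAt ℂ q 0) :
    (ColFin (par (dsq q)) ↔ ColFin (par q)) ∧ col (par (dsq q)) = col (par q) := by
  have tail0 : Fin.tail (0 : Fin (n + 1) → ℂ) = 0 := rfl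
  refine col_of_equiv (quo_equiv (pull (ins n) ((ins n).analyticAt 0) (map_zero _)) (fun b => ?_)
    fun a => ⟨fun h => ?_, fun h => ?_⟩)
  · refine ⟨pull (tl n) ((tl n).analyticAt 0) (map_zero _) b, 0, fun _ => analyticAt_const, ?_⟩
    refine Eventually.of_forall fun y => ?_
    change (b : (Fin n → ℂ) → ℂ) y - (b : (Fin n → ℂ) → ℂ) (tl n (ins n y)) = _
    rw [tl_apply, tail_ins]
    simp
  · obtain ⟨c, hc, hce⟩ := h
    obtain ⟨a', ha', hae⟩ := UI939.hadamard_coord a.2 0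
    have hct : ∀ k, AnalyticAt ℂ (fun x : Fin (n + 1) → ℂ => c k (Fin.tail x)) 0 := fun k =>
      AnalyticAt.fun_comp (g := c k) (f := tl n) (by rw [map_zero]; exact hc k)
        ((tl n).analyticAt 0)
    refine ⟨Fin.cons (fun x => a' x / 2) (fun k x => c k (Fin.tail x)), fun i => ?_, ?_⟩
    · refine Fin.cases ?_ (fun k => ?_) i
      · exact (show AnalyticAt ℂ (fun x => a' x / 2) 0 from
          ha'.div analyticAt_const two_ne_zero)
      · simpa using hct k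
    · filter_upwards [hae, tl_tendsto.eventually hce, tl_tendsto.eventually hq.eventually_analyticAt]
        with x h1 h2 h3
      have h4 : Function.update x 0 0 = ins n (Fin.tail x) := by
        ext i
        refine Fin.cases ?_ (fun k => ?_) i
        · simp
        · simp [Fin.tail]
      rw [h1, h4, Fin.sum_univ_succ]
      simp only [par, Fin.cons_zero, Fin.cons_succ]
      rw [coordDeriv_dsq_zero h3.differentiableAt]
      simp only [coordDeriv_dsq_succ h3.differentiableAt]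
      have h5 : (a : (Fin (n + 1) → ℂ) → ℂ) (ins n (Fin.tail x)) =
          ∑ i, c i (Fin.tail x) * par q i (Fin.tail x) := h2
      rw [h5]
      simp only [par]
      ring
  · obtain ⟨c, hc, hce⟩ := h
    refine ⟨fun k y => c k.succ (ins n y), fun k => ?_, ?_⟩
    · exact AnalyticAt.fun_comp (g := c k.succ) (f := ins n) (by rw [map_zero]; exact hc _)
        ((ins n).analyticAt 0)
    · filter_upwards [ins_tendsto.eventually hce, hq.eventually_analyticAt] with y h1 h2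
      have h3 : AnalyticAt ℂ q (Fin.tail (ins n y)) := by rwa [tail_ins]
      change (a : (Fin (n + 1) → ℂ) → ℂ) (ins n y) = _
      rw [h1, Fin.sum_univ_succ]
      simp only [par]
      rw [coordDeriv_dsq_zero h3.differentiableAt]
      simp only [coordDeriv_dsq_succ h3.differentiableAt, ins_zero, mul_zero, zero_add, tail_ins]

/-- `x_0² + q(tail x, t)` -/
def sqF (q : (Fin n → ℂ) × ℂ → ℂ) (p : (Fin (n + 1) → ℂ) × ℂ) : ℂ :=
  p.1 0 ^ 2 + q (Fin.tail p.1, p.2)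

theorem sl_sqF (q : (Fin n → ℂ) × ℂ → ℂ) (t : ℂ) : sl (sqF q) t = dsq (sl q t) := rfl

theorem analyticAt_sqF {q : (Fin n → ℂ) × ℂ → ℂ} (hq : AnalyticAt ℂ q (0, 0)) :
    AnalyticAt ℂ (sqF q) (0, 0) := by
  have h1 : AnalyticAt ℂ (fun p : (Fin (n + 1) → ℂ) × ℂ => ((Fin.tail p.1, p.2) :
      (Fin n → ℂ) × ℂ)) (0, 0) := by
    have : AnalyticAt ℂ (fun p : (Fin (n + 1) → ℂ) × ℂ => tl n p.1) (0, 0) :=
      ((tl n).analyticAt _).fun_comp analyticAt_fst
    exact this.prod analyticAt_snd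
  have h2 : AnalyticAt ℂ (fun p : (Fin (n + 1) → ℂ) × ℂ => q (Fin.tail p.1, p.2)) (0, 0) :=
    AnalyticAt.fun_comp (g := q) (f := fun p : (Fin (n + 1) → ℂ) × ℂ => ((Fin.tail p.1, p.2) :
      (Fin n → ℂ) × ℂ)) (by exact hq) h1
  have h3 : AnalyticAt ℂ (fun p : (Fin (n + 1) → ℂ) × ℂ => p.1 0) (0, 0) :=
    ((ContinuousLinearMap.proj (R := ℂ) (φ := fun _ : Fin (n + 1) => ℂ) 0).analyticAt _).fun_comp
      analyticAt_fst
  exact (h3.pow 2).add h2

theorem slice_analytic_sl {F : (Fin n → ℂ) × ℂ → ℂ} {p : (Fin n → ℂ) × ℂ}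
    (h : AnalyticAt ℂ F p) : AnalyticAt ℂ (sl F p.2) p.1 := by
  have : AnalyticAt ℂ (fun x : Fin n → ℂ => ((x, p.2) : (Fin n → ℂ) × ℂ)) p.1 :=
    analyticAt_id.prod analyticAt_const
  exact AnalyticAt.fun_comp (f := fun x : Fin n → ℂ => ((x, p.2) : (Fin n → ℂ) × ℂ)) (g := F)
    (by simpa using h) this

/-- `Fam` of `x_0² + q` gives `Fam` of `q` -/
theorem fam_of_sqF {q : (Fin n → ℂ) × ℂ → ℂ} {μ : ℕ} (hq : AnalyticAt ℂ q (0, 0))
    (h : Fam (sqF q) μ) : Fam q μ := by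
  have hqs := eventually_sl hq
  have tail0 : Fin.tail (0 : Fin (n + 1) → ℂ) = 0 := rfl
  refine ⟨hq, ?_, ?_, ?_, ?_⟩
  · filter_upwards [h.zero] with t ht
    simpa [sqF, tail0] using ht
  · filter_upwards [h.crit, hqs] with t ht h1 k
    have h2 := ht k.succ
    rw [sl_sqF, coordDeriv_dsq_succ (by rw [tail0]; exact (analyticAt_sl h1).differentiableAt),
      tail0] at h2
    exact h2
  · filter_upwards [h.fin, hqs] with t ht h1
    rw [sl_sqF] at ht
    have := par_dsq (analyticAt_sl h1)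
    exact ⟨this.1.1 ht.1, this.2 ▸ ht.2⟩
  · have t1 : Tendsto (fun p : (Fin n → ℂ) × ℂ => ((ins n p.1, p.2) : (Fin (n + 1) → ℂ) × ℂ))
        (𝓝 (0, 0)) (𝓝 (0, 0)) := by
      have : Continuous (fun p : (Fin n → ℂ) × ℂ => ((ins n p.1, p.2) :
          (Fin (n + 1) → ℂ) × ℂ)) := by fun_prop
      exact this.tendsto' _ _ (by simp)
    filter_upwards [t1.eventually h.iso, hq.eventually_analyticAt] with p h1 h2 h3
    have h4 : AnalyticAt ℂ (sl q p.2) p.1 := slice_analytic_sl h2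
    have h5 : DifferentiableAt ℂ (sl q p.2) (Fin.tail (ins n p.1)) := by
      rw [tail_ins]
      exact h4.differentiableAt
    have h6 : ins n p.1 = 0 := by
      refine h1 fun i => ?_
      rw [sl_sqF]
      refine Fin.cases ?_ (fun k => ?_) i
      · rw [coordDeriv_dsq_zero h5]
        simp
      · rw [coordDeriv_dsq_succ h5, tail_ins]
        exact h3 k
    have h7 := congrArg Fin.tail h6
    rwa [tail_ins, tail0] at h7

end Crest.Agent.R257.LCd_472
end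
end

-- ▼ part R257/LCe_472
section

/-!
R257 / LCe_472: splitting lemma with parameter.
-/

set_option autoImplicit false
set_option linter.unusedVariables false
set_option linter.unusedSectionVars false

open Topology Filter Set
open Crest.AlgGeometry.Germ

noncomputable section

namespace Crest.Agent.R257.LCe_472

open Crest.Agent.R257.Defs_219 Crest.Agent.R257.Skel_219 Crest.Agent.R257.LCDefs_472
open Crest.Agent.R257.LCa_472 Crest.Agent.R257.LCb_472 Crest.Agent.R257.LCc_472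
open Crest.Agent.R257.LCd_472 Crest.Agent.R257.Fin554

variable {n : ℕ}

theorem single_zero_eq : (Pi.single 0 1 : Fin (n + 1) → ℂ) = Fin.cons 1 0 := by
  ext i
  refine Fin.cases ?_ (fun k => ?_) i
  · simp
  · simp [Fin.succ_ne_zero]

theorem cE_axis : cE ℂ n ((0 : (Fin n → ℂ) × ℂ), (1 : ℂ)) = (Pi.single 0 1, 0) := by
  rw [single_zero_eq]
  rfl

theorem cE_zero : cE ℂ n ((0 : (Fin n → ℂ) × ℂ), (0 : ℂ)) = (0, 0) := by
  exact map_zero (cE ℂ n)

/-- **splitting lemma with parameter**, analytic part -/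
theorem split {F : (Fin (n + 1) → ℂ) × ℂ → ℂ} (hF : AnalyticAt ℂ F (0, 0))
    (hc : ∀ᶠ t in 𝓝 (0 : ℂ), ∀ i, coordDeriv (sl F t) i 0 = 0)
    (h2 : H2 (sl F 0) 0 0 ≠ 0) :
    ∃ (q : (Fin n → ℂ) × ℂ → ℂ) (θ : (Fin (n + 1) → ℂ) × ℂ → (Fin (n + 1) → ℂ)),
      AnalyticAt ℂ q (0, 0) ∧ Chg θ ∧
      ∀ᶠ p in 𝓝 ((0 : Fin (n + 1) → ℂ), (0 : ℂ)), F p = sqF q (θ p, p.2) := by
  -- the partial derivative in the special direction
  set pd : (Fin (n + 1) → ℂ) × ℂ → ℂ := fun q => coordDeriv (sl F q.2) 0 q.1 with hpd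
  have hpda : AnalyticAt ℂ pd (0, 0) := analyticAt_pd hF 0
  have hcEa : ∀ p, AnalyticAt ℂ (cE ℂ n) p := fun p => (cE ℂ n).toContinuousLinearMap.analyticAt p
  set P : ((Fin n → ℂ) × ℂ) × ℂ → ℂ := fun q => pd (cE ℂ n q) with hP
  have hPa : AnalyticAt ℂ P (0, 0) :=
    AnalyticAt.fun_comp (g := pd) (f := cE ℂ n) (by rw [cE_zero]; exact hpda) (hcEa _)
  have hPd : fderiv ℂ P (0, 0) (0, 1) = H2 (sl F 0) 0 0 := by
    have e1 : HasFDerivAt pd (fderiv ℂ pd (0, 0)) (cE ℂ n (0, 0)) := by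
      rw [cE_zero]
      exact hpda.differentiableAt.hasFDerivAt
    have e2 : HasFDerivAt P _ ((0 : (Fin n → ℂ) × ℂ), (0 : ℂ)) :=
      e1.comp _ (cE ℂ n).toContinuousLinearMap.hasFDerivAt
    rw [e2.fderiv]
    change fderiv ℂ pd (0, 0) (cE ℂ n (0, 1)) = _
    rw [cE_axis, ← coordDeriv_sl (q := ((0 : Fin (n + 1) → ℂ), (0 : ℂ))) hpda.differentiableAt 0]
    rfl
  have hP0 : P (0, 0) = 0 := by
    change pd (cE ℂ n (0, 0)) = 0
    rw [cE_zero]
    exact hc.self_of_nhds 0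
  obtain ⟨Z, hZ, hZ0, hZe⟩ := ift hPa hP0 (by
    intro a b hab
    have h3 : ∀ v : ℂ, fderiv ℂ P (0, 0) ((0 : (Fin n → ℂ) × ℂ), v) = v * H2 (sl F 0) 0 0 := by
      intro v
      have : ((0 : (Fin n → ℂ) × ℂ), v) = v • ((0 : (Fin n → ℂ) × ℂ), (1 : ℂ)) := by
        simp [Prod.smul_mk]
      rw [this, map_smul, hPd, smul_eq_mul]
    have h4 : a * H2 (sl F 0) 0 0 = b * H2 (sl F 0) 0 0 := by
      rw [← h3, ← h3]
      exact hab
    exact mul_right_cancel₀ h2 h4)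
  -- the axis
  have hZax : ∀ᶠ t in 𝓝 (0 : ℂ), Z (0, t) = 0 := by
    have t1 : Tendsto (fun t : ℂ => (((0, t), 0) : ((Fin n → ℂ) × ℂ) × ℂ)) (𝓝 0)
        (𝓝 ((0 : (Fin n → ℂ) × ℂ), (0 : ℂ))) := by
      have : Continuous (fun t : ℂ => (((0, t), 0) : ((Fin n → ℂ) × ℂ) × ℂ)) := by fun_prop
      exact this.tendsto' _ _ rfl
    filter_upwards [hc, t1.eventually hZe] with t h3 h4
    have h5 : P (((0 : Fin n → ℂ), t), 0) = 0 := by
      change coordDeriv (sl F t) 0 (Fin.cons 0 0) = 0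
      rw [cons_zero_zero]
      exact h3 0
    exact (h4.1 h5).symm
  -- straighten the critical graph
  set K : ((Fin n → ℂ) × ℂ) × ℂ → (Fin (n + 1) → ℂ) × ℂ :=
    fun p => cE ℂ n (p.1, Z p.1 + p.2) with hK
  have hZ1 : ∀ {p : ((Fin n → ℂ) × ℂ) × ℂ}, AnalyticAt ℂ Z p.1 →
      AnalyticAt ℂ (fun p : ((Fin n → ℂ) × ℂ) × ℂ => (p.1, Z p.1 + p.2)) p := fun {p} h =>
    analyticAt_fst.prod ((AnalyticAt.fun_comp (g := Z) (f := Prod.fst) h analyticAt_fst).add
      analyticAt_snd)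
  have hKa : AnalyticAt ℂ K (0, 0) :=
    (hcEa _).fun_comp (hZ1 (p := (0, 0)) hZ)
  have hK0 : K (0, 0) = (0, 0) := by
    change cE ℂ n (0, Z 0 + 0) = _
    rw [hZ0, add_zero, cE_zero]
  set G : ((Fin n → ℂ) × ℂ) × ℂ → ℂ := fun p => F (K p) with hG
  have hGa : AnalyticAt ℂ G (0, 0) :=
    AnalyticAt.fun_comp (g := F) (f := K) (by rw [hK0]; exact hF) hKa
  have t2 : Tendsto (fun w : (Fin n → ℂ) × ℂ => ((w, Z w) : ((Fin n → ℂ) × ℂ) × ℂ)) (𝓝 0)
      (𝓝 (0, 0)) := by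
    have h3 : ContinuousAt (fun w : (Fin n → ℂ) × ℂ => ((w, Z w) : ((Fin n → ℂ) × ℂ) × ℂ)) 0 :=
      continuousAt_id.prodMk hZ.continuousAt
    have := h3.tendsto
    rwa [hZ0] at this
  have t3 : Tendsto (fun w : (Fin n → ℂ) × ℂ => cE ℂ n (w, Z w)) (𝓝 0) (𝓝 (0, 0)) := by
    have h3 := ((cE ℂ n).continuous.tendsto ((0 : (Fin n → ℂ) × ℂ), (0 : ℂ))).comp t2
    rwa [cE_zero] at h3
  have hGc : ∀ᶠ w in 𝓝 (0 : (Fin n → ℂ) × ℂ), fderiv ℂ G (w, 0) (0, 1) = 0 := by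
    filter_upwards [t2.eventually hZe, hZ.eventually_analyticAt,
      t3.eventually hF.eventually_analyticAt] with w h3 h4 h5
    have h6 : P (w, Z w) = 0 := h3.2 rfl
    have e0 : K (w, 0) = cE ℂ n (w, Z w) := by simp [hK]
    have e1 : HasFDerivAt F (fderiv ℂ F (cE ℂ n (w, Z w))) (K (w, 0)) := by
      rw [e0]
      exact h5.differentiableAt.hasFDerivAt
    have e2 : HasFDerivAt (fun p : ((Fin n → ℂ) × ℂ) × ℂ => (p.1, Z p.1 + p.2))
        ((ContinuousLinearMap.fst ℂ _ _).prod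
          ((fderiv ℂ Z w).comp (ContinuousLinearMap.fst ℂ _ _) + ContinuousLinearMap.snd ℂ _ _))
        (w, 0) := by
      have a1 : HasFDerivAt (fun p : ((Fin n → ℂ) × ℂ) × ℂ => Z p.1)
          ((fderiv ℂ Z w).comp (ContinuousLinearMap.fst ℂ _ _)) (w, 0) :=
        (show HasFDerivAt Z (fderiv ℂ Z w) (Prod.fst ((w, 0) : ((Fin n → ℂ) × ℂ) × ℂ)) from
          h4.differentiableAt.hasFDerivAt).comp (w, (0 : ℂ)) hasFDerivAt_fst
      exact hasFDerivAt_fst.prodMk (a1.add hasFDerivAt_snd)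
    have e3 : HasFDerivAt K _ (w, 0) :=
      ((cE ℂ n).toContinuousLinearMap.hasFDerivAt (x := (w, Z w + 0))).comp (w, (0 : ℂ)) e2
    have e4 : HasFDerivAt G _ (w, 0) := e1.comp (w, (0 : ℂ)) e3
    rw [e4.fderiv]
    change fderiv ℂ F (cE ℂ n (w, Z w)) (cE ℂ n (0, fderiv ℂ Z w 0 + 1)) = 0
    rw [map_zero, zero_add, cE_axis, ← coordDeriv_sl h5.differentiableAt 0]
    exact h6
  obtain ⟨U, hU, hUe⟩ := taylor_two hGa hGc
  -- `U(0,0) ≠ 0`
  have hU0 : U (0, 0) ≠ 0 := by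
    intro h0
    apply h2
    rw [← hPd]
    have t4 : Tendsto (fun z : ℂ => (((0 : (Fin n → ℂ) × ℂ), z) : ((Fin n → ℂ) × ℂ) × ℂ)) (𝓝 0)
        (𝓝 (0, 0)) := (Continuous.prodMk_right (0 : (Fin n → ℂ) × ℂ)).tendsto 0
    set u : ℂ → ℂ := fun z => U (0, z) with hu
    have hua : AnalyticAt ℂ u 0 :=
      AnalyticAt.fun_comp (g := U) (f := fun z : ℂ => (((0 : (Fin n → ℂ) × ℂ), z) :
        ((Fin n → ℂ) × ℂ) × ℂ)) (by exact hU) (analyticAt_const.prod analyticAt_id)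
    -- `φ(z) = F(z e₀, 0)`
    set φ : ℂ → ℂ := fun z => F (cE ℂ n (0, z)) with hφ
    have e1 : ∀ᶠ z in 𝓝 (0 : ℂ), φ z = φ 0 + z ^ 2 * u z := by
      filter_upwards [t4.eventually hUe] with z hz
      have a1 : K ((0 : (Fin n → ℂ) × ℂ), z) = cE ℂ n (0, z) := by
        simp only [hK, hZ0, zero_add]
      have a2 : K ((0 : (Fin n → ℂ) × ℂ), (0 : ℂ)) = cE ℂ n (0, 0) := by
        simp only [hK, hZ0, zero_add]
      simp only [hG, a1, a2] at hz
      exact hz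
    have e2 : ∀ᶠ z in 𝓝 (0 : ℂ), HasDerivAt φ (P (0, z)) z := by
      have t5 : Tendsto (fun z : ℂ => cE ℂ n ((0 : (Fin n → ℂ) × ℂ), z)) (𝓝 0) (𝓝 (0, 0)) := by
        have h3 := ((cE ℂ n).continuous.tendsto ((0 : (Fin n → ℂ) × ℂ), (0 : ℂ))).comp t4
        rwa [cE_zero] at h3
      filter_upwards [t5.eventually hF.eventually_analyticAt] with z hz
      have a1 : HasDerivAt (fun z : ℂ => (((0 : (Fin n → ℂ) × ℂ), z) : ((Fin n → ℂ) × ℂ) × ℂ))
          (0, 1) z := (hasDerivAt_const z (0 : (Fin n → ℂ) × ℂ)).prodMk (hasDerivAt_id z)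
      have a2 : HasDerivAt (fun z : ℂ => cE ℂ n ((0 : (Fin n → ℂ) × ℂ), z)) (cE ℂ n (0, 1)) z :=
        (cE ℂ n).toContinuousLinearMap.hasFDerivAt.comp_hasDerivAt z a1
      have a3 : HasDerivAt φ (fderiv ℂ F (cE ℂ n (0, z)) (cE ℂ n (0, 1))) z :=
        (show HasFDerivAt F (fderiv ℂ F (cE ℂ n (0, z))) ((fun z : ℂ =>
          cE ℂ n ((0 : (Fin n → ℂ) × ℂ), z)) z) from
            hz.differentiableAt.hasFDerivAt).comp_hasDerivAt z a2
      rw [cE_axis, ← coordDeriv_sl hz.differentiableAt 0] at a3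
      exact a3
    have e3 : ∀ᶠ z in 𝓝 (0 : ℂ), P (0, z) = 2 * z * u z + z ^ 2 * deriv u z := by
      filter_upwards [e1.eventually_nhds, e2, hua.eventually_analyticAt] with z h3 h4 h5
      have a1 : HasDerivAt (fun z => φ 0 + z ^ 2 * u z) (2 * z * u z + z ^ 2 * deriv u z) z := by
        have := ((hasDerivAt_pow 2 z).mul h5.differentiableAt.hasDerivAt).const_add (φ 0)
        simpa using this
      exact h4.unique (a1.congr_of_eventuallyEq h3)
    have e4 : HasDerivAt (fun z => 2 * z * u z + z ^ 2 * deriv u z) 0 0 := by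
      have a1 : HasDerivAt (fun z : ℂ => 2 * z * u z) (2 * 1 * u 0 + 2 * 0 * deriv u 0) 0 :=
        (((hasDerivAt_id (0 : ℂ)).const_mul 2).mul hua.differentiableAt.hasDerivAt)
      have a2 : HasDerivAt (fun z : ℂ => z ^ 2 * deriv u z)
          (((2 : ℕ) : ℂ) * 0 ^ (2 - 1) * deriv u 0 + 0 ^ 2 * deriv (deriv u) 0) 0 :=
        ((hasDerivAt_pow 2 (0 : ℂ)).mul hua.deriv.differentiableAt.hasDerivAt)
      have hu00 : u 0 = 0 := h0
      have a3 : HasDerivAt (fun z => 2 * z * u z + z ^ 2 * deriv u z) _ 0 := a1.add a2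
      refine a3.congr_deriv ?_
      rw [hu00]
      simp
    have e5 : HasDerivAt (fun z => P (0, z)) (fderiv ℂ P (0, 0) (0, 1)) 0 := by
      have a1 : HasDerivAt (fun z : ℂ => (((0 : (Fin n → ℂ) × ℂ), z) : ((Fin n → ℂ) × ℂ) × ℂ))
          (0, 1) 0 := (hasDerivAt_const (0 : ℂ) (0 : (Fin n → ℂ) × ℂ)).prodMk (hasDerivAt_id 0)
      exact (show HasFDerivAt P (fderiv ℂ P (0, 0)) ((fun z : ℂ =>
          (((0 : (Fin n → ℂ) × ℂ), z) : ((Fin n → ℂ) × ℂ) × ℂ)) 0) from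
            hPa.differentiableAt.hasFDerivAt).comp_hasDerivAt 0 a1
    exact e5.unique (e4.congr_of_eventuallyEq e3)
  obtain ⟨r, hr, hr0, hre⟩ := exists_sqrt hU hU0
  -- the change of coordinates
  set S : (Fin (n + 1) → ℂ) × ℂ → ((Fin n → ℂ) × ℂ) × ℂ :=
    fun p => ((Fin.tail p.1, p.2), p.1 0 - Z (Fin.tail p.1, p.2)) with hS
  have hTa : AnalyticAt ℂ (fun p : (Fin (n + 1) → ℂ) × ℂ => ((Fin.tail p.1, p.2) :
      (Fin n → ℂ) × ℂ)) (0, 0) := by
    have : AnalyticAt ℂ (fun p : (Fin (n + 1) → ℂ) × ℂ => tl n p.1) (0, 0) :=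
      ((tl n).analyticAt _).fun_comp analyticAt_fst
    exact this.prod analyticAt_snd
  have hx0a : AnalyticAt ℂ (fun p : (Fin (n + 1) → ℂ) × ℂ => p.1 0) (0, 0) :=
    ((ContinuousLinearMap.proj (R := ℂ) (φ := fun _ : Fin (n + 1) => ℂ) 0).analyticAt _).fun_comp
      analyticAt_fst
  have hZTa : AnalyticAt ℂ (fun p : (Fin (n + 1) → ℂ) × ℂ => Z (Fin.tail p.1, p.2)) (0, 0) :=
    AnalyticAt.fun_comp (g := Z) (f := fun p : (Fin (n + 1) → ℂ) × ℂ => ((Fin.tail p.1, p.2) :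
      (Fin n → ℂ) × ℂ)) (by exact hZ) hTa
  have hSa : AnalyticAt ℂ S (0, 0) := hTa.prod (hx0a.sub hZTa)
  have hS0 : S (0, 0) = (0, 0) := by
    have : Z (Fin.tail (0 : Fin (n + 1) → ℂ), (0 : ℂ)) = 0 := hZ0
    simp only [hS, this, sub_zero]
    rfl
  have hSt : Tendsto S (𝓝 (0, 0)) (𝓝 (0, 0)) := by
    have := hSa.continuousAt.tendsto
    rwa [hS0] at this
  have hrS : AnalyticAt ℂ (fun p => r (S p)) (0, 0) :=
    AnalyticAt.fun_comp (g := r) (f := S) (by rw [hS0]; exact hr) hSa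
  set θ : (Fin (n + 1) → ℂ) × ℂ → (Fin (n + 1) → ℂ) :=
    fun p => Fin.cons ((p.1 0 - Z (Fin.tail p.1, p.2)) * r (S p)) (Fin.tail p.1) with hθ
  have hθa : AnalyticAt ℂ θ (0, 0) := by
    refine AnalyticAt.pi fun i => ?_
    refine Fin.cases ?_ (fun k => ?_) i
    · exact (hx0a.sub hZTa).mul hrS
    · exact ((ContinuousLinearMap.proj (R := ℂ) (φ := fun _ : Fin (n + 1) => ℂ)
        k.succ).analyticAt _).fun_comp analyticAt_fst
  refine ⟨fun w => G (w, 0), θ, ?_, ⟨hθa, ?_, ?_⟩, ?_⟩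
  · exact AnalyticAt.fun_comp (g := G) (f := fun w : (Fin n → ℂ) × ℂ =>
      ((w, 0) : ((Fin n → ℂ) × ℂ) × ℂ)) (by exact hGa) (analyticAt_id.prod analyticAt_const)
  · filter_upwards [hZax] with t ht
    have h3 : Z (Fin.tail (0 : Fin (n + 1) → ℂ), t) = 0 := ht
    simp only [hθ, h3]
    ext i
    refine Fin.cases ?_ (fun k => ?_) i
    · simp
    · simp [Fin.tail]
  · -- injectivity of the derivative
    have hθs : AnalyticAt ℂ (fun x => θ (x, 0)) 0 := slice_analytic (q := (0, 0)) hθa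
    rw [injective_iff_map_eq_zero]
    intro v hv
    have hcomp : ∀ i, fderiv ℂ (fun x => θ (x, 0) i) 0 v = 0 := by
      intro i
      have h3 := hasFDerivAt_pi'.1 hθs.differentiableAt.hasFDerivAt i
      rw [h3.fderiv]
      change fderiv ℂ (fun x => θ (x, 0)) 0 v i = 0
      rw [hv]
      rfl
    have hsucc : ∀ k : Fin n, v k.succ = 0 := by
      intro k
      have h3 := hcomp k.succ
      have h4 : (fun x : Fin (n + 1) → ℂ => θ (x, 0) k.succ) =
          (ContinuousLinearMap.proj (R := ℂ) (φ := fun _ : Fin (n + 1) => ℂ) k.succ) := rfl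
      rw [h4, ContinuousLinearMap.fderiv] at h3
      exact h3
    have hv0 : v = v 0 • (Pi.single 0 1 : Fin (n + 1) → ℂ) := by
      ext i
      refine Fin.cases ?_ (fun k => ?_) i
      · simp
      · simp [hsucc k, Fin.succ_ne_zero]
    have h5 : HasDerivAt (fun z : ℂ => θ (z • (Pi.single 0 1 : Fin (n + 1) → ℂ), 0) 0)
        (fderiv ℂ (fun x => θ (x, 0) 0) 0 (Pi.single 0 1)) 0 := by
      have a1 : HasDerivAt (fun z : ℂ => z • (Pi.single 0 1 : Fin (n + 1) → ℂ))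
          (Pi.single 0 1) 0 := by
        simpa using (hasDerivAt_id (0 : ℂ)).smul_const (Pi.single 0 1 : Fin (n + 1) → ℂ)
      have a2 : HasFDerivAt (fun x => θ (x, 0) 0) (fderiv ℂ (fun x => θ (x, 0) 0) 0)
          ((fun z : ℂ => z • (Pi.single 0 1 : Fin (n + 1) → ℂ)) 0) := by
        simp only [zero_smul]
        exact ((hasFDerivAt_pi'.1 hθs.differentiableAt.hasFDerivAt 0).differentiableAt).hasFDerivAt
      exact a2.comp_hasDerivAt 0 a1
    have h6 : HasDerivAt (fun z : ℂ => θ (z • (Pi.single 0 1 : Fin (n + 1) → ℂ), 0) 0)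
        (r (0, 0)) 0 := by
      have a0 : ∀ z : ℂ, θ (z • (Pi.single 0 1 : Fin (n + 1) → ℂ), 0) 0 = z * r (0, z) := by
        intro z
        have b1 : Fin.tail (z • (Pi.single 0 1 : Fin (n + 1) → ℂ)) = 0 := by
          ext k
          simp [Fin.tail, Fin.succ_ne_zero]
        have b2 : Z ((0 : Fin n → ℂ), (0 : ℂ)) = 0 := hZ0
        simp only [hθ, hS, b1, b2, sub_zero, Fin.cons_zero]
        simp only [Pi.smul_apply, Pi.single_eq_same, smul_eq_mul, mul_one]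
        rfl
      have a1 : HasDerivAt (fun z : ℂ => (((0 : (Fin n → ℂ) × ℂ), z) : ((Fin n → ℂ) × ℂ) × ℂ))
          (0, 1) 0 := (hasDerivAt_const (0 : ℂ) (0 : (Fin n → ℂ) × ℂ)).prodMk (hasDerivAt_id 0)
      have a2 : HasDerivAt (fun z : ℂ => r (0, z)) (fderiv ℂ r (0, 0) (0, 1)) 0 :=
        (show HasFDerivAt r (fderiv ℂ r (0, 0)) ((fun z : ℂ =>
          (((0 : (Fin n → ℂ) × ℂ), z) : ((Fin n → ℂ) × ℂ) × ℂ)) 0) from
            hr.differentiableAt.hasFDerivAt).comp_hasDerivAt 0 a1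
      have a3 := (hasDerivAt_id (0 : ℂ)).mul a2
      simp only [a0]
      have a4 : HasDerivAt (fun z : ℂ => z * r (0, z)) (1 * r (0, 0) +
        id (0 : ℂ) * fderiv ℂ r (0, 0) (0, 1)) 0 := a3
      simpa using a4
    have h7 : fderiv ℂ (fun x => θ (x, 0) 0) 0 v = v 0 * r (0, 0) := by
      conv_lhs => rw [hv0]
      rw [map_smul, h5.unique h6, smul_eq_mul]
    have h8 : v 0 = 0 := by
      have := hcomp 0
      rw [h7] at this
      exact (mul_eq_zero.1 this).resolve_right hr0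
    rw [hv0, h8, zero_smul]
  · filter_upwards [hSt.eventually hUe, hSt.eventually hre] with p h3 h4
    have e1 : K (S p) = p := by
      simp only [hK, hS]
      rw [cE_apply]
      refine Prod.ext ?_ rfl
      ext i
      refine Fin.cases ?_ (fun k => ?_) i
      · simp
      · simp [Fin.tail]
    have e2 : G (S p) = F p := by
      simp only [hG, e1]
    rw [← e2, h3, ← h4]
    simp only [sqF, hθ, Fin.cons_zero, Fin.tail_cons]
    simp only [hS]
    ring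

end Crest.Agent.R257.LCe_472
end
end

-- ▼ part R257/LCf_472

/-!
R257 / LCf_472: linear changes of coordinates and second derivatives; `SplitStmt`.
-/

set_option autoImplicit false
set_option linter.unusedVariables false
set_option linter.unusedSectionVars false

open Topology Filter Set
open Crest.AlgGeometry.Germ

noncomputable section

namespace Crest.Agent.R257.LCf_472

open Crest.Agent.R257.Defs_219 Crest.Agent.R257.Skel_219 Crest.Agent.R257.LCDefs_472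
open Crest.Agent.R257.LCa_472 Crest.Agent.R257.LCb_472 Crest.Agent.R257.LCc_472
open Crest.Agent.R257.LCd_472 Crest.Agent.R257.LCe_472

variable {n : ℕ}

theorem fderiv_dir {f : (Fin n → ℂ) → ℂ} (hf : AnalyticAt ℂ f 0) (u v : Fin n → ℂ) :
    fderiv ℂ (fun x => fderiv ℂ f x u) 0 v = fderiv ℂ (fderiv ℂ f) 0 v u := by
  have h1 : HasFDerivAt (fderiv ℂ f) (fderiv ℂ (fderiv ℂ f) 0) 0 :=
    hf.fderiv.differentiableAt.hasFDerivAt
  have h2 := ((ContinuousLinearMap.apply ℂ ℂ u).hasFDerivAt (x := fderiv ℂ f 0)).comp 0 h1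
  have h3 : HasFDerivAt (fun x => fderiv ℂ f x u) _ 0 := h2
  rw [h3.fderiv]
  rfl

theorem H2_eq {f : (Fin n → ℂ) → ℂ} (hf : AnalyticAt ℂ f 0) (i j : Fin n) :
    H2 f i j = fderiv ℂ (fderiv ℂ f) 0 (Pi.single j 1) (Pi.single i 1) :=
  fderiv_dir hf (Pi.single i 1) (Pi.single j 1)

theorem symm2 {f : (Fin n → ℂ) → ℂ} (hf : AnalyticAt ℂ f 0) (u v : Fin n → ℂ) :
    fderiv ℂ (fderiv ℂ f) 0 u v = fderiv ℂ (fderiv ℂ f) 0 v u :=
  (ContDiffAt.isSymmSndFDerivAt_of_omega hf.contDiffAt) u v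

theorem exists_dir {f : (Fin n → ℂ) → ℂ} (hf : AnalyticAt ℂ f 0) (h : ∃ i j, H2 f i j ≠ 0) :
    ∃ v : Fin n → ℂ, fderiv ℂ (fderiv ℂ f) 0 v v ≠ 0 := by
  by_contra hcon
  push Not at hcon
  obtain ⟨i, j, hij⟩ := h
  apply hij
  rw [H2_eq hf]
  have h1 := hcon (Pi.single i 1 + Pi.single j 1)
  rw [map_add, map_add, _root_.add_apply, _root_.add_apply, hcon, hcon,
    symm2 hf (Pi.single i 1) (Pi.single j 1), zero_add, add_zero] at h1
  have h2 : (2 : ℂ) * fderiv ℂ (fderiv ℂ f) 0 (Pi.single j 1) (Pi.single i 1) = 0 := by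
    rw [two_mul]
    exact h1
  exact (mul_eq_zero.1 h2).resolve_left two_ne_zero

theorem H2_linear {f : (Fin n → ℂ) → ℂ} (hf : AnalyticAt ℂ f 0)
    (L : (Fin n → ℂ) ≃L[ℂ] (Fin n → ℂ)) (i j : Fin n) :
    H2 (fun x => f (L x)) i j =
      fderiv ℂ (fderiv ℂ f) 0 (L (Pi.single j 1)) (L (Pi.single i 1)) := by
  have h1 : ∀ x, coordDeriv (fun x => f (L x)) i x = fderiv ℂ f (L x) (L (Pi.single i 1)) := by
    intro x
    unfold coordDeriv
    have : fderiv ℂ (f ∘ L) x = (fderiv ℂ f (L x)).comp (L : (Fin n → ℂ) →L[ℂ] (Fin n → ℂ)) :=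
      L.comp_right_fderiv
    change fderiv ℂ (f ∘ L) x _ = _
    rw [this]
    rfl
  have h2 : coordDeriv (fun x => f (L x)) i =
      (fun y => fderiv ℂ f y (L (Pi.single i 1))) ∘ L := funext h1
  unfold H2
  rw [h2]
  unfold coordDeriv
  have : fderiv ℂ ((fun y => fderiv ℂ f y (L (Pi.single i 1))) ∘ L) 0 =
      (fderiv ℂ (fun y => fderiv ℂ f y (L (Pi.single i 1))) (L 0)).comp
        (L : (Fin n → ℂ) →L[ℂ] (Fin n → ℂ)) := L.comp_right_fderiv
  rw [this, map_zero, ContinuousLinearMap.comp_apply, fderiv_dir hf]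
  rfl

/-- linear changes of coordinates -/
theorem chg_linear (L : (Fin n → ℂ) ≃L[ℂ] (Fin n → ℂ)) :
    Chg (fun p : (Fin n → ℂ) × ℂ => L p.1) := by
  refine ⟨?_, Eventually.of_forall fun t => map_zero L, ?_⟩
  · exact (L.toContinuousLinearMap.analyticAt _).fun_comp analyticAt_fst
  · have : fderiv ℂ (fun x => L x) 0 = (L : (Fin n → ℂ) →L[ℂ] (Fin n → ℂ)) :=
      L.toContinuousLinearMap.fderiv
    change Function.Injective (fderiv ℂ (fun x => L x) 0)
    rw [this]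
    exact L.injective

theorem analyticAt_linear {F : (Fin n → ℂ) × ℂ → ℂ} (hF : AnalyticAt ℂ F (0, 0))
    (L : (Fin n → ℂ) ≃L[ℂ] (Fin n → ℂ)) :
    AnalyticAt ℂ (fun p : (Fin n → ℂ) × ℂ => F (L p.1, p.2)) (0, 0) := by
  have h1 : AnalyticAt ℂ (fun p : (Fin n → ℂ) × ℂ => ((L p.1, p.2) : (Fin n → ℂ) × ℂ)) (0, 0) :=
    ((L.toContinuousLinearMap.analyticAt _).fun_comp analyticAt_fst).prod analyticAt_snd
  exact AnalyticAt.fun_comp (g := F) (f := fun p : (Fin n → ℂ) × ℂ =>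
    ((L p.1, p.2) : (Fin n → ℂ) × ℂ)) (by simpa using hF) h1

/-- `Fam` in linear coordinates -/
theorem Fam.linear {F : (Fin n → ℂ) × ℂ → ℂ} {μ : ℕ} (hF : Fam F μ)
    (L : (Fin n → ℂ) ≃L[ℂ] (Fin n → ℂ)) : Fam (fun p => F (L p.1, p.2)) μ :=
  Fam.comp (θ := fun p => L.symm p.1) hF (chg_linear L.symm) (analyticAt_linear hF.an L)
    (Eventually.of_forall fun q => by simp)

theorem concl_linear {F : E3 × ℂ → ℂ} (L : E3 ≃L[ℂ] E3) (h : Concl (fun p => F (L p.1, p.2))) :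
    Concl F :=
  concl_comp (θ := fun p => L.symm p.1) (chg_linear L.symm)
    (Eventually.of_forall fun q => by simp) h

/-- **splitting lemma with parameter** -/
theorem splitStmt : SplitStmt := by
  intro F μ hF h
  have hF0 : AnalyticAt ℂ (sl F 0) 0 := analyticAt_sl hF.an
  obtain ⟨v, hv⟩ := exists_dir hF0 h
  have hv0 : v ≠ 0 := by
    rintro rfl
    simp at hv
  have he0 : (Pi.single 0 1 : E3) ≠ 0 := by
    intro h0
    have := congrFun h0 0
    simp at this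
  obtain ⟨L, hL⟩ := SeparatingDual.exists_continuousLinearEquiv_apply_eq (R := ℂ) he0 hv0
  have hF' := Fam.linear hF L
  have h2 : H2 (sl (fun p : E3 × ℂ => F (L p.1, p.2)) 0) 0 0 ≠ 0 := by
    have := H2_linear hF0 L 0 0
    rw [hL] at this
    change H2 (fun x => sl F 0 (L x)) 0 0 ≠ 0
    rw [this]
    exact hv
  obtain ⟨q, θ, hq, hθ, hFq⟩ := split hF'.an hF'.crit h2
  refine ⟨q, fam_of_sqF hq (Fam.comp hF' hθ (analyticAt_sqF hq) hFq), fun hC => ?_⟩
  exact concl_linear L (concl_comp hθ hFq hC)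

end Crest.Agent.R257.LCf_472
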