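import Crest.Agent.R257.Par3_771_Mg
import Crest.Agent.R257.LcxD2_759

/-!
R257 / LcxW_759 (helper759): weighted orders (`BoxO`) of the exceptional germs, and the lower bounds
of the Milnor number (`CountStmt`).
-/

set_option autoImplicit false

open Topology Filter Set Asymptotics
open Crest.AlgGeometry.Germ

noncomputable section

namespace Crest.Agent.R257.LcxW_759

open Crest.Agent.R257.Defs_219 Crest.Agent.R257.LCDefs_472 Crest.Agent.R257.LcxDefs_759
open Crest.Agent.R257.LcxA_759 Crest.Agent.R257.LcxB_759 Crest.Agent.R257.LcxD_759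
open Crest.Agent.R257.LcxL_759 Crest.Agent.R257.Node_547

variable {w : Fin 3 → ℕ} {e e' : ℕ} {g h : E3 → ℂ}

/-- normalised constants -/
theorem nn (hg : BoxO w e g) : ∃ κ K s₀ : ℝ, 0 < κ ∧ 0 ≤ K ∧ 0 < s₀ ∧ s₀ ≤ 1 ∧
    ∀ s : ℝ, 0 < s → s ≤ s₀ → ∀ X : E3, (∀ i, ‖X i‖ ≤ κ * s ^ w i) → ‖g X‖ ≤ K * s ^ e := by
  obtain ⟨κ, K, s₀, hκ, hs₀, hb⟩ := hg
  refine ⟨κ, |K|, min s₀ 1, hκ, abs_nonneg _, by positivity, min_le_right _ _,
    fun s hs hss X hX => (hb s hs (hss.trans (min_le_left _ _)) X hX).trans ?_⟩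
  gcongr
  exact le_abs_self K

theorem add (hg : BoxO w e g) (hh : BoxO w e h) : BoxO w e (fun x => g x + h x) := by
  obtain ⟨κ, K, s₀, hκ, hK, hs₀, hs1, hb⟩ := nn hg
  obtain ⟨κ', K', s₀', hκ', hK', hs₀', hs1', hb'⟩ := nn hh
  refine ⟨min κ κ', K + K', min s₀ s₀', by positivity, by positivity, fun s hs hss X hX => ?_⟩
  have h1 := hb s hs (hss.trans (min_le_left _ _)) X fun i => (hX i).trans (by
    gcongr; exact min_le_left _ _)
  have h2 := hb' s hs (hss.trans (min_le_right _ _)) X fun i => (hX i).trans (by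
    gcongr; exact min_le_right _ _)
  calc ‖g X + h X‖ ≤ ‖g X‖ + ‖h X‖ := norm_add_le _ _
    _ ≤ K * s ^ e + K' * s ^ e := add_le_add h1 h2
    _ = (K + K') * s ^ e := by ring

theorem mul (hg : BoxO w e g) (hh : BoxO w e' h) : BoxO w (e + e') (fun x => g x * h x) := by
  obtain ⟨κ, K, s₀, hκ, hK, hs₀, hs1, hb⟩ := nn hg
  obtain ⟨κ', K', s₀', hκ', hK', hs₀', hs1', hb'⟩ := nn hh
  refine ⟨min κ κ', K * K', min s₀ s₀', by positivity, by positivity, fun s hs hss X hX => ?_⟩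
  have h1 := hb s hs (hss.trans (min_le_left _ _)) X fun i => (hX i).trans (by
    gcongr; exact min_le_left _ _)
  have h2 := hb' s hs (hss.trans (min_le_right _ _)) X fun i => (hX i).trans (by
    gcongr; exact min_le_right _ _)
  calc ‖g X * h X‖ = ‖g X‖ * ‖h X‖ := norm_mul _ _
    _ ≤ (K * s ^ e) * (K' * s ^ e') := mul_le_mul h1 h2 (norm_nonneg _) (by positivity)
    _ = (K * K') * s ^ (e + e') := by rw [pow_add]; ring

theorem mono (hg : BoxO w e g) (he : e' ≤ e) : BoxO w e' g := by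
  obtain ⟨κ, K, s₀, hκ, hK, hs₀, hs1, hb⟩ := nn hg
  refine ⟨κ, K, s₀, hκ, hs₀, fun s hs hss X hX => (hb s hs hss X hX).trans ?_⟩
  exact mul_le_mul_of_nonneg_left (pow_le_pow_of_le_one hs.le (hss.trans hs1) he) hK

theorem congr_ev (hw : ∀ i, 0 < w i) (hg : BoxO w e g) (hgh : g =ᶠ[𝓝 0] h) : BoxO w e h := by
  obtain ⟨κ, K, s₀, hκ, hK, hs₀, hs1, hb⟩ := nn hg
  obtain ⟨δ, hδ, hball⟩ := Metric.eventually_nhds_iff_ball.1 hgh
  refine ⟨min κ 1, K, min s₀ (δ / 2), by positivity, by positivity, fun s hs hss X hX => ?_⟩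
  have hs' : s ≤ δ / 2 := hss.trans (min_le_right _ _)
  have hX' : X ∈ Metric.ball (0 : E3) δ := by
    rw [mem_ball_zero_iff]
    refine lt_of_le_of_lt (b := δ / 2) ?_ (by linarith)
    rw [pi_norm_le_iff_of_nonneg (by positivity)]
    intro i
    refine (hX i).trans ?_
    have h1 : s ^ w i ≤ s := by
      have : s ^ w i ≤ s ^ 1 := pow_le_pow_of_le_one hs.le
        ((hss.trans (min_le_left _ _)).trans hs1) (hw i)
      simpa using this
    calc min κ 1 * s ^ w i ≤ 1 * s := by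
          gcongr
          exact min_le_right _ _
      _ ≤ δ / 2 := by linarith
  rw [← hball X hX']
  exact hb s hs (hss.trans (min_le_left _ _)) X fun i => (hX i).trans (by
    gcongr; exact min_le_left _ _)

theorem const (w : Fin 3 → ℕ) (c : ℂ) : BoxO w 0 fun _ => c :=
  ⟨1, ‖c‖, 1, one_pos, one_pos, fun _ _ _ _ _ => by simp⟩

theorem zero (w : Fin 3 → ℕ) (e : ℕ) : BoxO w e fun _ => 0 :=
  ⟨1, 0, 1, one_pos, one_pos, fun _ _ _ _ _ => by simp⟩

theorem coord (w : Fin 3 → ℕ) (i : Fin 3) : BoxO w (w i) fun x => x i :=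
  ⟨1, 1, 1, one_pos, one_pos, fun _ _ _ _ hX => hX i⟩

theorem pow (hg : BoxO w e g) (k : ℕ) : BoxO w (k * e) fun x => g x ^ k := by
  induction k with
  | zero => simpa using const w 1
  | succ k ih =>
    have := mul ih hg
    rw [add_one_mul]
    simpa only [pow_succ] using this

theorem sum {ι : Type*} (s : Finset ι) {g : ι → E3 → ℂ} (hg : ∀ a ∈ s, BoxO w e (g a)) :
    BoxO w e fun x => ∑ a ∈ s, g a x := by
  classical
  induction s using Finset.induction_on with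
  | empty => simpa using zero w e
  | insert a s ha ih =>
    have := add (hg a (Finset.mem_insert_self _ _))
      (ih fun b hb => hg b (Finset.mem_insert_of_mem hb))
    simpa only [Finset.sum_insert ha] using this

theorem bigO {m n : ℕ} (hm : ∀ i, m ≤ w i) (hm0 : 0 < m)
    (hg : g =O[𝓝 0] fun x : E3 => ‖x‖ ^ n) : BoxO w (m * n) g := by
  obtain ⟨C, hC⟩ := hg.bound
  obtain ⟨δ, hδ, hball⟩ := Metric.eventually_nhds_iff_ball.1 hC
  refine ⟨1, |C|, min 1 (δ / 2), one_pos, by positivity, fun s hs hss X hX => ?_⟩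
  have hs1 : s ≤ 1 := hss.trans (min_le_left _ _)
  have hs' : s ≤ δ / 2 := hss.trans (min_le_right _ _)
  have hXn : ‖X‖ ≤ s ^ m := by
    rw [pi_norm_le_iff_of_nonneg (by positivity)]
    intro i
    refine (hX i).trans ?_
    rw [one_mul]
    exact pow_le_pow_of_le_one hs.le hs1 (hm i)
  have h1 : s ^ m ≤ s := by
    have : s ^ m ≤ s ^ 1 := pow_le_pow_of_le_one hs.le hs1 hm0
    simpa using this
  have hX' : X ∈ Metric.ball (0 : E3) δ := by
    rw [mem_ball_zero_iff]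
    linarith
  refine (hball X hX').trans ?_
  rw [norm_pow, norm_norm, pow_mul]
  gcongr
  exact le_abs_self C

/-- the weighted order of a plane germ from its Taylor coefficients -/
theorem box_tay {v : (Fin 2 → ℂ) → ℂ} (hv : AnalyticAt ℂ v 0) {m n : ℕ} (hm : ∀ i, m ≤ w i)
    (hm0 : 0 < m) (he : e ≤ m * (n + 1))
    (hc : ∀ i j, i + j ≤ n → w 1 * i + w 2 * j < e → cf v i j = 0) :
    BoxO w e fun x => v (Fin.tail x) := by
  have h1 : (fun x : E3 => v (Fin.tail x) - ∑ i ∈ Finset.range (n + 1),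
      ∑ j ∈ Finset.range (n + 1 - i), cf v i j * x 1 ^ i * x 2 ^ j) =O[𝓝 0]
      fun x : E3 => ‖x‖ ^ (n + 1) := by
    have h2 := (tay_cf hv n).comp_tendsto tendsto_tail
    refine h2.trans (IsBigO.of_bound 1 (Eventually.of_forall fun x => ?_))
    have h3 : ‖(Fin.tail x : Fin 2 → ℂ)‖ ≤ ‖x‖ := by
      rw [pi_norm_le_iff_of_nonneg (norm_nonneg _)]
      exact fun i => norm_le_pi_norm x i.succ
    simp only [Function.comp_apply, norm_pow, norm_norm, one_mul]
    gcongr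
  have h4 := mono (bigO hm hm0 h1) he
  have h5 : BoxO w e fun x : E3 => ∑ i ∈ Finset.range (n + 1),
      ∑ j ∈ Finset.range (n + 1 - i), cf v i j * x 1 ^ i * x 2 ^ j := by
    refine sum _ fun i hi => sum _ fun j hj => ?_
    rw [Finset.mem_range] at hi hj
    by_cases hlt : w 1 * i + w 2 * j < e
    · have h6 : cf v i j = 0 := hc i j (by omega) hlt
      simp only [h6, zero_mul]
      exact zero w e
    · have h7 := mul (mul (const w (cf v i j)) (pow (coord w 1) i)) (pow (coord w 2) j)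
      exact mono h7 (by nlinarith)
  have h8 := add h4 h5
  simpa using h8

/-- first order Taylor formula -/
theorem taylor1 {u : E3 → ℂ} (hu : AnalyticAt ℂ u 0) :
    (fun x => u x - (u 0 + ∑ i, x i * coordDeriv u i 0)) =O[𝓝 0] fun x : E3 => ‖x‖ ^ 2 := by
  obtain ⟨p, hp⟩ := id hu
  obtain ⟨r, hr⟩ := id hp
  have e0 : ∀ (g : E3 → ℂ) (y : E3), iteratedFDeriv ℂ 0 g 0 (fun _ => y) = g 0 := fun g y => by
    rw [iteratedFDeriv_zero_apply]
  have q0 : ∀ y, p 0 (fun _ => y) = u 0 := fun y => by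
    have := hr.factorial_smul y 0
    rw [e0] at this
    simpa using this
  have q1 : ∀ y, p 1 (fun _ => y) = ∑ i, y i * coordDeriv u i 0 := fun y => by
    have := hr.factorial_smul y 1
    rw [LcN_980.iter_succ hu] at this
    simp only [e0] at this
    simpa using this
  have := hp.isBigO_sub_partialSum_pow 2
  refine this.congr_left fun y => ?_
  rw [zero_add, FormalMultilinearSeries.partialSum, Finset.sum_range_succ, Finset.sum_range_one,
    q0, q1]

theorem box_u {u : E3 → ℂ} (hu : AnalyticAt ℂ u 0) (h0 : u 0 = 0) {m : ℕ} (hm : ∀ i, m ≤ w i)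
    (hm0 : 0 < m) (he : e ≤ 2 * m) (hc : ∀ i, w i < e → coordDeriv u i 0 = 0) :
    BoxO w e u := by
  have h1 := mono (bigO hm hm0 (taylor1 hu)) (by omega : e ≤ m * 2)
  have h2 : BoxO w e fun x : E3 => ∑ i, x i * coordDeriv u i 0 := by
    refine sum _ fun i _ => ?_
    by_cases hlt : w i < e
    · simp only [hc i hlt, mul_zero]
      exact zero w e
    · exact mono (mul (coord w i) (const w (coordDeriv u i 0))) (by omega)
  have h3 := add h1 h2
  refine (congrArg (BoxO w e) ?_).mp h3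
  funext x
  rw [h0]
  ring

/-! ### the exceptional germs -/

section dq
variable {u : E3 → ℂ} {v wo : (Fin 2 → ℂ) → ℂ}

/-- weights `(7,6,4)`, degree `18` -/
theorem w2 (hD : Dq g u v wo) (hu : u 0 = 0) (hv : ∀ i j, i + j ≤ 1 → cf v i j = 0)
    (hv11 : cf v 1 1 = 0) (hv02 : cf v 0 2 = 0) (hw : ∀ i j, i + j ≤ 2 → cf wo i j = 0)
    (hw21 : cf wo 2 1 = 0) (hw12 : cf wo 1 2 = 0) (hw03 : cf wo 0 3 = 0) (hw04 : cf wo 0 4 = 0) :
    BoxO ![7, 6, 4] 18 g := by
  have hm : ∀ i : Fin 3, 4 ≤ (![7, 6, 4] : Fin 3 → ℕ) i := by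
    intro i; fin_cases i <;> simp
  have bu : BoxO ![7, 6, 4] 4 u := box_u hD.au hu hm (by norm_num) (by norm_num) fun i hi => by
    have := hm i; omega
  have bv : BoxO ![7, 6, 4] 11 (fun x => v (Fin.tail x)) := by
    refine box_tay (n := 2) hD.av hm (by norm_num) (by norm_num) fun i j hij hlt => ?_
    simp only [Matrix.cons_val_one, Matrix.cons_val_zero, Matrix.cons_val] at hlt
    rcases (by omega : i + j ≤ 1 ∨ i + j = 2) with h | h
    · exact hv i j h
    · rcases (by omega : (i = 2 ∧ j = 0) ∨ (i = 1 ∧ j = 1) ∨ (i = 0 ∧ j = 2)) with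
        ⟨rfl, rfl⟩ | ⟨rfl, rfl⟩ | ⟨rfl, rfl⟩
      · omega
      · exact hv11
      · exact hv02
  have bw : BoxO ![7, 6, 4] 18 (fun x => wo (Fin.tail x)) := by
    refine box_tay (n := 4) hD.aw hm (by norm_num) (by norm_num) fun i j hij hlt => ?_
    simp only [Matrix.cons_val_one, Matrix.cons_val_zero, Matrix.cons_val] at hlt
    rcases (by omega : i + j ≤ 2 ∨ (i = 2 ∧ j = 1) ∨ (i = 1 ∧ j = 2) ∨ (i = 0 ∧ j = 3) ∨
      (i = 0 ∧ j = 4)) with h | ⟨rfl, rfl⟩ | ⟨rfl, rfl⟩ | ⟨rfl, rfl⟩ | ⟨rfl, rfl⟩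
    · exact hw i j h
    · exact hw21
    · exact hw12
    · exact hw03
    · exact hw04
  have b1 := mul (pow (coord ![7, 6, 4] 0) 2) bu
  have b2 := mul (coord ![7, 6, 4] 0) bv
  have b3 := add (add b1 b2) bw
  refine congr_ev (fun i => by have := hm i; omega) b3 ?_
  filter_upwards [hD.eq] with x hx
  rw [hx]

/-- weights `(4,4,3)`, degree `12` -/
theorem w3 (hD : Dq g u v wo) (hu : u 0 = 0) (hu2 : coordDeriv u 2 0 = 0)
    (hv : ∀ i j, i + j ≤ 1 → cf v i j = 0)
    (hv11 : cf v 1 1 = 0) (hv02 : cf v 0 2 = 0) (hw : ∀ i j, i + j ≤ 2 → cf wo i j = 0)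
    (hw21 : cf wo 2 1 = 0) (hw12 : cf wo 1 2 = 0) (hw03 : cf wo 0 3 = 0) :
    BoxO ![4, 4, 3] 12 g := by
  have hm : ∀ i : Fin 3, 3 ≤ (![4, 4, 3] : Fin 3 → ℕ) i := by
    intro i; fin_cases i <;> simp
  have bu : BoxO ![4, 4, 3] 4 u := by
    refine box_u hD.au hu hm (by norm_num) (by norm_num) fun i hi => ?_
    fin_cases i
    · simp at hi
    · simp at hi
    · exact hu2
  have bv : BoxO ![4, 4, 3] 8 (fun x => v (Fin.tail x)) := by
    refine box_tay (n := 2) hD.av hm (by norm_num) (by norm_num) fun i j hij hlt => ?_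
    simp only [Matrix.cons_val_one, Matrix.cons_val_zero, Matrix.cons_val] at hlt
    rcases (by omega : i + j ≤ 1 ∨ i + j = 2) with h | h
    · exact hv i j h
    · rcases (by omega : (i = 2 ∧ j = 0) ∨ (i = 1 ∧ j = 1) ∨ (i = 0 ∧ j = 2)) with
        ⟨rfl, rfl⟩ | ⟨rfl, rfl⟩ | ⟨rfl, rfl⟩
      · omega
      · exact hv11
      · exact hv02
  have bw : BoxO ![4, 4, 3] 12 (fun x => wo (Fin.tail x)) := by
    refine box_tay (n := 3) hD.aw hm (by norm_num) (by norm_num) fun i j hij hlt => ?_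
    simp only [Matrix.cons_val_one, Matrix.cons_val_zero, Matrix.cons_val] at hlt
    rcases (by omega : i + j ≤ 2 ∨ (i = 2 ∧ j = 1) ∨ (i = 1 ∧ j = 2) ∨ (i = 0 ∧ j = 3)) with
      h | ⟨rfl, rfl⟩ | ⟨rfl, rfl⟩ | ⟨rfl, rfl⟩
    · exact hw i j h
    · exact hw21
    · exact hw12
    · exact hw03
  have b1 := mul (pow (coord ![4, 4, 3] 0) 2) bu
  have b2 := mul (coord ![4, 4, 3] 0) bv
  have b3 := add (add b1 b2) bw
  refine congr_ev (fun i => by have := hm i; omega) b3 ?_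
  filter_upwards [hD.eq] with x hx
  rw [hx]

end dq

/-- weights `(9,6,8)`, degree `24`: germs of multiplicity `3` with a non nodal cubic -/
theorem w1 {f : E3 → ℂ} (hf : AnalyticAt ℂ f 0) (h0 : f 0 = 0)
    (h1 : ∀ i, coordDeriv f i 0 = 0) (h2 : ∀ i j, H2 f i j = 0) (hN : ¬ Nodal f) :
    ∃ A : E3 ≃L[ℂ] E3, BoxO ![9, 6, 8] 24 fun x => f (A x) := by
  unfold Nodal at hN
  push Not at hN
  obtain ⟨v, u, hv, hvv, hvu, huv⟩ := hN
  have hli : LinearIndependent ℂ ![v, u] := by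
    rw [LinearIndependent.pair_iff' hv]
    exact fun c h => huv c h.symm
  obtain ⟨e, he⟩ := exists_linearIndependent_cons_of_lt_finrank hli
    (by rw [Module.finrank_fintype_fun_eq_card]; decide)
  set L : Matrix (Fin 3) (Fin 3) ℂ := fun i j => ![e, v, u] j i with hL
  have hdet : L.det ≠ 0 := by
    have h3 : LinearIndependent ℂ L.col := he
    rw [Matrix.linearIndependent_cols_iff_isUnit] at h3
    exact ((Matrix.isUnit_iff_isUnit_det _).1 h3).ne_zero
  have hLX : ∀ X : E3, L.mulVec X = X 0 • e + X 1 • v + X 2 • u := fun X => by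
    funext i
    simp only [Matrix.mulVec, dotProduct, hL, Fin.sum_univ_three, Pi.add_apply, Pi.smul_apply,
      smul_eq_mul, Matrix.cons_val_zero, Matrix.cons_val_one, Matrix.cons_val]
    ring
  refine ⟨me L hdet, ?_⟩
  have hm : ∀ i : Fin 3, 6 ≤ (![9, 6, 8] : Fin 3 → ℕ) i := by
    intro i; fin_cases i <;> simp
  -- the remainder
  have b1 : BoxO ![9, 6, 8] 24 fun x => f (me L hdet x) -
      D3 f (me L hdet x) (me L hdet x) (me L hdet x) / 6 := by
    have h3 : (fun x : E3 => f (me L hdet x) -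
        D3 f (me L hdet x) (me L hdet x) (me L hdet x) / 6) =O[𝓝 0] fun x : E3 => ‖x‖ ^ 4 := by
      have h4 : Tendsto (me L hdet) (𝓝 0) (𝓝 0) := by
        have := (me L hdet).continuous.tendsto 0
        rwa [map_zero] at this
      have h5 := (LcN_980.taylor3 hf h0 h1 h2).comp_tendsto h4
      refine h5.trans ?_
      have h6 : (fun x : E3 => ‖me L hdet x‖) =O[𝓝 0] fun x : E3 => ‖x‖ :=
        ((me L hdet : E3 →L[ℂ] E3).isBigO_id (𝓝 0)).norm_norm
      exact h6.pow 4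
    exact bigO hm (by norm_num) h3
  -- the cubic form
  have bc : ∀ k : Fin 3, BoxO ![9, 6, 8] 8 fun X : E3 => (X 0 • e + X 2 • u) k := fun k => by
    simp only [Pi.add_apply, Pi.smul_apply, smul_eq_mul]
    refine add (mono (mul (coord ![9, 6, 8] 0) (const _ (e k))) (by simp))
      (mono (mul (coord ![9, 6, 8] 2) (const _ (u k))) (by simp))
  have b2 : BoxO ![9, 6, 8] 24 fun X : E3 => D3 f (X 0 • e + X 2 • u) (X 0 • e + X 2 • u)
      (X 0 • e + X 2 • u) := by
    unfold D3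
    refine sum _ fun i _ => sum _ fun j _ => sum _ fun k _ => ?_
    exact mono (mul (mul (mul (const _ (H3 f i j k)) (bc i)) (bc j)) (bc k)) (by norm_num)
  have b3 : BoxO ![9, 6, 8] 24 fun X : E3 => 3 * X 1 * (X 0 ^ 2 * D3 f v e e) := by
    exact mono (mul (mul (const _ 3) (coord _ 1))
      (mul (pow (coord ![9, 6, 8] 0) 2) (const _ (D3 f v e e)))) (by simp)
  have b4 := add b1 (mul (const ![9, 6, 8] (1 / 6)) (add b2 b3))
  refine (congrArg (BoxO ![9, 6, 8] 24) ?_).mp (mono b4 (by norm_num))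
  funext X
  have hcub : D3 f (me L hdet X) (me L hdet X) (me L hdet X) =
      D3 f (X 0 • e + X 2 • u) (X 0 • e + X 2 • u)
        (X 0 • e + X 2 • u) + 3 * X 1 * (X 0 ^ 2 * D3 f v e e) := by
    have e1 : me L hdet X = (X 0 • e + X 2 • u) + X 1 • v := by rw [me_apply, hLX]; abel
    rw [e1, LcN_980.D3_cube hf, hvv, hvv, LcN_980.D3_quad hf v, hvu, hvu]
    ring
  rw [hcub]
  ring

/-! ### the numbers -/

theorem mu10 {f : E3 → ℂ} (hf : AnalyticAt ℂ f 0) (hfin : ColFin (par f)) (h0 : f 0 = 0)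
    (h1 : ∀ i, coordDeriv f i 0 = 0) (h2 : ∀ i j, H2 f i j = 0) (hN : ¬ Nodal f) :
    10 ≤ col (par f) := by
  obtain ⟨A, hA⟩ := w1 hf h0 h1 h2 hN
  have h := Par3_771.countStmt ![9, 6, 8] 24 26 f A (by intro i; fin_cases i <;> simp)
    (by intro i; fin_cases i <;> simp) hf hfin hA
  rw [Fin.sum_univ_three] at h
  have a0 : cnt ![9, 6, 8] 26 0 = 21 := by decide +kernel
  have a1 : cnt ![9, 6, 8] 26 (24 - ![9, 6, 8] 0) = 4 := by decide +kernel
  have a2 : cnt ![9, 6, 8] 26 (24 - ![9, 6, 8] 1) = 3 := by decide +kernel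
  have a3 : cnt ![9, 6, 8] 26 (24 - ![9, 6, 8] 2) = 4 := by decide +kernel
  omega

theorem mu11_2 {f : E3 → ℂ} (hf : AnalyticAt ℂ f 0) (hfin : ColFin (par f))
    (hA : BoxO ![7, 6, 4] 18 f) : 11 ≤ col (par f) := by
  have h := Par3_771.countStmt ![7, 6, 4] 18 20 f (ContinuousLinearEquiv.refl ℂ E3) (by intro i; fin_cases i <;> simp)
    (by intro i; fin_cases i <;> simp) hf hfin hA
  rw [Fin.sum_univ_three] at h
  have a0 : cnt ![7, 6, 4] 20 0 = 24 := by decide +kernel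
  have a1 : cnt ![7, 6, 4] 20 (18 - ![7, 6, 4] 0) = 5 := by decide +kernel
  have a2 : cnt ![7, 6, 4] 20 (18 - ![7, 6, 4] 1) = 5 := by decide +kernel
  have a3 : cnt ![7, 6, 4] 20 (18 - ![7, 6, 4] 2) = 3 := by decide +kernel
  omega

theorem mu11_3 {f : E3 → ℂ} (hf : AnalyticAt ℂ f 0) (hfin : ColFin (par f))
    (hA : BoxO ![4, 4, 3] 12 f) : 11 ≤ col (par f) := by
  have h := Par3_771.countStmt ![4, 4, 3] 12 11 f (ContinuousLinearEquiv.refl ℂ E3) (by intro i; fin_cases i <;> simp)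
    (by intro i; fin_cases i <;> simp) hf hfin hA
  rw [Fin.sum_univ_three] at h
  have a0 : cnt ![4, 4, 3] 11 0 = 16 := by decide +kernel
  have a1 : cnt ![4, 4, 3] 11 (12 - ![4, 4, 3] 0) = 2 := by decide +kernel
  have a2 : cnt ![4, 4, 3] 11 (12 - ![4, 4, 3] 1) = 2 := by decide +kernel
  have a3 : cnt ![4, 4, 3] 11 (12 - ![4, 4, 3] 2) = 1 := by decide +kernel
  omega

end Crest.Agent.R257.LcxW_759
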