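import Crest.Agent.R257.UI5_939
import Crest.Agent.R257.LCDefs_472

-- ▼ part R257/Rig1_20
section

/-!
Row 257 (S0395), KLT-RA (helper20), part 1: expansion of an arbitrary germ with respect to a
family of ideals of constant multiplicity (same proof as `UI939.ui`), with freeness.
-/

set_option autoImplicit false
set_option linter.unusedSectionVars false

open Set Filter Topology Metric Complex
open Crest.Agent.R275.Loc2879 hiding AA
open Crest.Agent.R257.UI939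

noncomputable section

namespace Crest.Agent.R257.Rig20

variable {n : ℕ} {κ : Type*} [Fintype κ]

set_option maxHeartbeats 4000000 in
set_option synthInstance.maxHeartbeats 200000 in
/-- EXPANSION: a family of ideals of constant finite multiplicity `μ` is free over `ℂ{t}`:
there are `E_i(x)` with every germ `a = ∑ c_i(t) E_i(x) + ∑ b_j G_j`, and the `E_i` are linearly
independent modulo the ideal of every nearby slice. -/
theorem expand (G : κ → (Fin n → ℂ) × ℂ → ℂ) (hG : ∀ j, AnalyticAt ℂ (G j) 0) (μ : ℕ)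
    (hdim : ∀ᶠ t in 𝓝 (0 : ℂ),
      Module.Finite ℂ (BB n ⧸ Idl (0 : Fin n → ℂ) (fun j x => G j (x, t))) ∧
      dimQ (0 : Fin n → ℂ) (fun j x => G j (x, t)) = μ) :
    ∃ Ef : Fin μ → (Fin n → ℂ) → ℂ, (∀ i, AnalyticAt ℂ (Ef i) 0) ∧
      (∀ a : (Fin n → ℂ) × ℂ → ℂ, AnalyticAt ℂ a 0 →
        ∃ (c : Fin μ → ℂ → ℂ) (b : κ → (Fin n → ℂ) × ℂ → ℂ),
        (∀ i, AnalyticAt ℂ (c i) 0) ∧ (∀ j, AnalyticAt ℂ (b j) 0) ∧
        ∀ᶠ p in 𝓝 (0 : (Fin n → ℂ) × ℂ),
          a p = ∑ i, c i p.2 * Ef i p.1 + ∑ j, b j p * G j p) ∧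
      ∀ᶠ t in 𝓝 (0 : ℂ), ∀ d : Fin μ → ℂ,
        (∃ u : κ → (Fin n → ℂ) → ℂ, (∀ j, AnalyticAt ℂ (u j) 0) ∧
          ∀ᶠ x in 𝓝 (0 : Fin n → ℂ), ∑ i, d i * Ef i x = ∑ j, u j x * G j (x, t)) → d = 0 := by
  classical
  -- slices are analytic
  have hslice : ∀ {f : (Fin n → ℂ) × ℂ → ℂ} {t : ℂ}, AnalyticAt ℂ f (0, t) →
      AnalyticAt ℂ (fun x => f (x, t)) (0 : Fin n → ℂ) := by
    intro f t hf
    exact AnalyticAt.comp (g := f) (f := fun x : Fin n → ℂ => (x, t)) hf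
      (analyticAt_id.prod analyticAt_const)
  have h0t : Tendsto (fun t : ℂ => ((0, t) : (Fin n → ℂ) × ℂ)) (𝓝 0) (𝓝 0) := by
    have : Continuous (fun t : ℂ => ((0, t) : (Fin n → ℂ) × ℂ)) := by fun_prop
    exact this.tendsto' _ _ rfl
  -- Step (a): the slice t = 0
  obtain ⟨hf0, hd0⟩ := hdim.self_of_nhds
  set I0 : Ideal (BB n) := Idl (0 : Fin n → ℂ) (fun j x => G j (x, 0)) with hI0
  have hd0' : Module.finrank ℂ (BB n ⧸ I0) = μ := hd0
  have hfree : Module.Free ℂ (BB n ⧸ I0) := Module.Free.of_divisionRing _ _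
  let bas : Module.Basis (Fin μ) ℂ (BB n ⧸ I0) := Module.finBasisOfFinrankEq _ _ hd0'
  choose e he using fun i => Ideal.Quotient.mk_surjective (I := I0) (bas i)
  choose Ef hEf hEe using fun i => exists_gm (e i)
  -- the big ideal
  set I : Ideal (AA n) := Ideal.span (Set.range fun j => gm (G j) (hG j)) with hI
  have hGI : ∀ j, gm (G j) (hG j) ∈ I := fun j => Ideal.subset_span ⟨j, rfl⟩
  have hres : ∀ j, res0 n (gm (G j) (hG j)) = gm (fun x => G j (x, 0)) (hslice (hG j)) :=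
    fun j => rfl
  -- elements of I0 come from I modulo T
  have hI0I : ∀ a ∈ I0, ∃ a1 : AA n, emb n a + Tv n * a1 ∈ I := by
    intro a ha
    rw [hI0, mem_Idl (fun j => hslice (hG j))] at ha
    obtain ⟨c, hc⟩ := ha
    choose H hH using fun j => split_T' (gm (G j) (hG j))
    refine ⟨∑ j, emb n (c j) * H j, ?_⟩
    have : emb n a + Tv n * ∑ j, emb n (c j) * H j = ∑ j, emb n (c j) * gm (G j) (hG j) := by
      rw [hc, map_sum, Finset.mul_sum, ← Finset.sum_add_distrib]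
      refine Finset.sum_congr rfl (fun j _ => ?_)
      conv_rhs => rw [hH j, hres j]
      rw [map_mul]
      ring
    rw [this]
    exact Ideal.sum_mem _ fun j _ => Ideal.mul_mem_left _ _ (hGI j)
  -- monomials of degree μ at t = 0
  have hJ0 : JJ (xB (n := n)) μ ≤ I0 := by
    have := JJ_le_of_finrank (xB (n := n)) xB_not_unit I0
    rwa [hd0'] at this
  -- Step (b): finiteness
  have hfin1 : FG (RingHom.id (AA n)) (AA n ⧸ I) := by
    refine ⟨1, fun _ => 1, fun m => ?_⟩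
    obtain ⟨a, rfl⟩ := Ideal.Quotient.mk_surjective m
    refine ⟨fun _ => a, ?_⟩
    simp only [RingHom.id_apply, Finset.univ_unique, Finset.sum_singleton]
    rw [← map_one (Ideal.Quotient.mk I)]
    change _ = Ideal.Quotient.mk I (a • (1 : AA n))
    rw [smul_eq_mul, mul_one]
  have hfin2 : FG (par n) (AA n ⧸ I) := by
    refine fin_all hfin1 (fun i => ⟨μ, fun m => ?_⟩)
    obtain ⟨a, rfl⟩ := Ideal.Quotient.mk_surjective m
    have h1 : xB i ^ μ ∈ I0 := by
      refine hJ0 (Ideal.subset_span ⟨Pi.single i μ, by simp, ?_⟩)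
      unfold mon
      rw [Finset.prod_eq_single i]
      · simp
      · intro j _ hj
        simp [Pi.single_eq_of_ne hj]
      · intro h; exact absurd (Finset.mem_univ _) h
    obtain ⟨a1, ha1⟩ := hI0I _ h1
    rw [map_pow, emb_xB] at ha1
    refine ⟨Ideal.Quotient.mk I (-(a1 * a)), ?_⟩
    change Ideal.Quotient.mk I (Xv i ^ μ • a) = Ideal.Quotient.mk I (Tv n • (-(a1 * a)))
    rw [Ideal.Quotient.eq, smul_eq_mul, smul_eq_mul]
    have : Xv i ^ μ * a - Tv n * (-(a1 * a)) = a * (Xv i ^ μ + Tv n * a1) := by ring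
    rw [this]
    exact Ideal.mul_mem_left _ _ ha1
  have hgen : ∀ a : AA n, ∃ c : Fin μ → OO (0 : ℂ),
      a - ∑ i, par n (c i) * emb n (e i) ∈ I := by
    have := nak hfin2 (fun i => Ideal.Quotient.mk I (emb n (e i))) ?_
    · intro a
      obtain ⟨c, hc⟩ := this (Ideal.Quotient.mk I a)
      refine ⟨c, ?_⟩
      rw [← Ideal.Quotient.eq, hc, map_sum]
      rfl
    · intro m
      obtain ⟨a, rfl⟩ := Ideal.Quotient.mk_surjective m
      obtain ⟨a0, a1, rfl⟩ := split_T a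
      -- expand a0 in the basis
      have h1 : a0 - ∑ i, algebraMap ℂ (BB n) (bas.repr (Ideal.Quotient.mk I0 a0) i) * e i ∈ I0 := by
        rw [← Ideal.Quotient.eq, map_sum]
        conv_lhs => rw [← bas.sum_repr (Ideal.Quotient.mk I0 a0)]
        refine Finset.sum_congr rfl (fun i _ => ?_)
        rw [map_mul, he i, Algebra.smul_def]
        rfl
      obtain ⟨a2, ha2⟩ := hI0I _ h1
      refine ⟨fun i => bas.repr (Ideal.Quotient.mk I0 a0) i, Ideal.Quotient.mk I (a1 - a2), ?_⟩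
      have e1 : ∑ i, algebraMap ℂ (AA n) (bas.repr (Ideal.Quotient.mk I0 a0) i) •
          Ideal.Quotient.mk I (emb n (e i)) + Tv n • Ideal.Quotient.mk I (a1 - a2) =
          Ideal.Quotient.mk I (∑ i, algebraMap ℂ (AA n) (bas.repr (Ideal.Quotient.mk I0 a0) i) *
          emb n (e i) + Tv n * (a1 - a2)) := by
        rw [map_add, map_sum]
        rfl
      rw [e1, Ideal.Quotient.eq]
      rw [map_sub, map_sum] at ha2
      simp only [map_mul, emb_algebraMap] at ha2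
      have e2 : emb n a0 + Tv n * a1 - (∑ i, algebraMap ℂ (AA n)
          (bas.repr (Ideal.Quotient.mk I0 a0) i) * emb n (e i) + Tv n * (a1 - a2)) =
          emb n a0 - ∑ i, algebraMap ℂ (AA n) (bas.repr (Ideal.Quotient.mk I0 a0) i) *
            emb n (e i) + Tv n * a2 := by ring
      rw [e2]
      exact ha2
  -- Step (c): functions
  have hfunA : ∀ a : (Fin n → ℂ) × ℂ → ℂ, AnalyticAt ℂ a 0 →
      ∃ (c : Fin μ → ℂ → ℂ) (b : κ → (Fin n → ℂ) × ℂ → ℂ),
      (∀ i, AnalyticAt ℂ (c i) 0) ∧ (∀ j, AnalyticAt ℂ (b j) 0) ∧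
      ∀ᶠ p in 𝓝 (0 : (Fin n → ℂ) × ℂ),
        a p = ∑ i, c i p.2 * Ef i p.1 + ∑ j, b j p * G j p := by
    intro a ha
    obtain ⟨c, hc⟩ := hgen (gm a ha)
    rw [hI, Ideal.mem_span_range_iff_exists_fun] at hc
    obtain ⟨b, hb⟩ := hc
    choose cf hcf hce using fun i => exists_gm (c i)
    choose bf hbf hbe using fun j => exists_gm (b j)
    obtain rfl : (fun i => gm (cf i) (hcf i)) = c := funext hce
    obtain rfl : (fun j => gm (bf j) (hbf j)) = b := funext hbe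
    obtain rfl : (fun i => gm (Ef i) (hEf i)) = e := funext hEe
    refine ⟨cf, bf, hcf, hbf, ?_⟩
    obtain ⟨h1, e1⟩ := exists_sum_gm' Finset.univ bf G hbf hG
    obtain ⟨h2, e2⟩ := exists_sum_gm' Finset.univ (fun i (p : (Fin n → ℂ) × ℂ) => cf i p.2)
      (fun i (p : (Fin n → ℂ) × ℂ) => Ef i p.1) (p := 0)
      (fun i => AnalyticAt.comp (g := cf i) (f := Prod.snd) (hcf i) analyticAt_snd)
      (fun i => AnalyticAt.comp (g := Ef i) (f := Prod.fst) (hEf i) analyticAt_fst)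
    have e4 : gm a ha = ∑ i, par n (gm (cf i) (hcf i)) * emb n (gm (Ef i) (hEf i)) +
        ∑ j, gm (bf j) (hbf j) * gm (G j) (hG j) := by
      rw [hb]; ring
    have e6 : ∑ i, par n (gm (cf i) (hcf i)) * emb n (gm (Ef i) (hEf i)) =
        gm (fun x => ∑ i, cf i x.2 * Ef i x.1) h2 := e2
    rw [e6, e1, gm_add, gm_eq_gm] at e4
    exact e4
  have hfun : ∀ β : Fin n → ℕ, ∃ (c : Fin μ → ℂ → ℂ) (b : κ → (Fin n → ℂ) × ℂ → ℂ),
      (∀ i, AnalyticAt ℂ (c i) 0) ∧ (∀ j, AnalyticAt ℂ (b j) 0) ∧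
      ∀ᶠ p in 𝓝 (0 : (Fin n → ℂ) × ℂ),
        ∏ i, p.1 i ^ β i = ∑ i, c i p.2 * Ef i p.1 + ∑ j, b j p * G j p := by
    intro β
    obtain ⟨h3, -⟩ := gm_mon (fun i (p : (Fin n → ℂ) × ℂ) => p.1 i) (fun i => an_x i 0) β
    exact hfunA _ h3
  choose c b hc hb hid using hfun
  -- finitely many β
  have hfinset : {β : Fin n → ℕ | ∑ i, β i ≤ μ}.Finite := by
    refine (Set.Finite.subset (Set.finite_Iic (fun _ : Fin n => μ)) ?_)
    intro β hβ
    rw [Set.mem_Iic]
    intro i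
    exact (Finset.single_le_sum (fun j _ => Nat.zero_le (β j)) (Finset.mem_univ i)).trans hβ
  have hall : ∀ᶠ t in 𝓝 (0 : ℂ), ∀ β ∈ {β : Fin n → ℕ | ∑ i, β i ≤ μ},
      (∀ j, AnalyticAt ℂ (b β j) (0, t)) ∧ ∀ᶠ p in 𝓝 ((0, t) : (Fin n → ℂ) × ℂ),
        ∏ i, p.1 i ^ β i = ∑ i, c β i p.2 * Ef i p.1 + ∑ j, b β j p * G j p := by
    rw [Filter.eventually_all_finite hfinset]
    intro β _
    refine h0t.eventually ((Filter.eventually_all.2 fun j => (hb β j).eventually_analyticAt).and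
      (eventually_eventually_nhds.2 (hid β)))
  have hGt : ∀ᶠ t in 𝓝 (0 : ℂ), ∀ j, AnalyticAt ℂ (G j) (0, t) :=
    h0t.eventually (Filter.eventually_all.2 fun j => (hG j).eventually_analyticAt)
  -- Step (f)
  have hzero : ∀ᶠ t in 𝓝 (0 : ℂ), ∀ d : Fin μ → ℂ,
        (∃ u : κ → (Fin n → ℂ) → ℂ, (∀ j, AnalyticAt ℂ (u j) 0) ∧
          ∀ᶠ x in 𝓝 (0 : Fin n → ℂ), ∑ i, d i * Ef i x = ∑ j, u j x * G j (x, t)) → d = 0 := by
    filter_upwards [hdim, hall, hGt] with t ht hallt hGtt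
    obtain ⟨hft, hdt⟩ := ht
    set It : Ideal (BB n) := Idl (0 : Fin n → ℂ) (fun j x => G j (x, t)) with hIt
    have hdt' : Module.finrank ℂ (BB n ⧸ It) = μ := hdt
    have hJt : JJ (xB (n := n)) μ ≤ It := by
      have := JJ_le_of_finrank (xB (n := n)) xB_not_unit It
      rwa [hdt'] at this
    let πt : BB n →ₗ[ℂ] (BB n ⧸ It) := (Ideal.Quotient.mkₐ ℂ It).toLinearMap
    have hrel : ∀ β : Fin n → ℕ, ∑ i, β i ≤ μ → πt (mon xB β) = ∑ i, c β i t • πt (e i) := by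
      intro β hβ
      obtain ⟨h1, h2⟩ := hallt β hβ
      have h3 : Tendsto (fun x : Fin n → ℂ => ((x, t) : (Fin n → ℂ) × ℂ)) (𝓝 0) (𝓝 (0, t)) := by
        have : Continuous (fun x : Fin n → ℂ => ((x, t) : (Fin n → ℂ) × ℂ)) := by fun_prop
        exact this.tendsto' _ _ rfl
      have h4 := h3.eventually h2
      obtain ⟨h5, e5⟩ := exists_sum_gm' (p := (0 : Fin n → ℂ)) Finset.univ
        (fun j x => b β j (x, t)) (fun j x => G j (x, t)) (fun j => hslice (h1 j))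
        (fun j => hslice (hGtt j))
      obtain ⟨h6, e6⟩ := exists_sum_gm' (p := (0 : Fin n → ℂ)) Finset.univ
        (fun i _ => c β i t) Ef (fun i => analyticAt_const) hEf
      obtain ⟨h7, e7⟩ := gm_mon (p := (0 : Fin n → ℂ)) (fun i x => x i) (fun i => an_coord i 0) β
      have e8 : (mon xB β : BB n) = ∑ i, algebraMap ℂ (BB n) (c β i t) * gm (Ef i) (hEf i) +
          ∑ j, gm (fun x => b β j (x, t)) (hslice (h1 j)) *
            gm (fun x => G j (x, t)) (hslice (hGtt j)) := by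
        have e9 : ∑ i, algebraMap ℂ (BB n) (c β i t) * gm (Ef i) (hEf i) =
          gm (fun x => ∑ i, c β i t * Ef i x) h6 := e6
        rw [e5, e9]
        refine (show (mon xB β : BB n) = gm (fun x => ∏ i, x i ^ β i) h7 from e7).trans ?_
        rw [gm_add, gm_eq_gm]
        filter_upwards [h4] with x hx
        exact hx
      obtain rfl : (fun i => gm (Ef i) (hEf i)) = e := funext hEe
      rw [e8, map_add, map_sum]
      have e10 : πt (∑ j, gm (fun x => b β j (x, t)) (hslice (h1 j)) *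
            gm (fun x => G j (x, t)) (hslice (hGtt j))) = 0 := by
        refine (Ideal.Quotient.eq_zero_iff_mem (I := It)).2 ?_
        rw [hIt, mem_Idl (fun j => hslice (hGtt j))]
        exact ⟨_, rfl⟩
      rw [e10, add_zero]
      refine Finset.sum_congr rfl (fun i _ => ?_)
      rw [← Algebra.smul_def, map_smul]
    -- e_i span
    have hspan : ⊤ ≤ Submodule.span ℂ (Set.range fun i => πt (e i)) := by
      intro q hq
      clear hq
      obtain ⟨a, rfl⟩ := Ideal.Quotient.mk_surjective q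
      change πt a ∈ _
      obtain ⟨v, hv, w, hw, rfl⟩ := Submodule.mem_sup.1 (mem_VV_sup (xB (n := n)) hadamard μ a)
      have hw0 : πt w = 0 := (Ideal.Quotient.eq_zero_iff_mem (I := It)).2 (hJt hw)
      rw [map_add, hw0, add_zero]
      clear hw hw0
      unfold VV at hv
      induction hv using Submodule.span_induction with
      | mem z hz =>
        obtain ⟨β, h1, rfl⟩ := hz
        rw [hrel β h1.le]
        exact Submodule.sum_mem _ fun i _ =>
          Submodule.smul_mem _ _ (Submodule.subset_span ⟨i, rfl⟩)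
      | zero => rw [map_zero]; exact Submodule.zero_mem _
      | add y z _ _ h1 h2 => rw [map_add]; exact Submodule.add_mem _ h1 h2
      | smul s z _ hz => rw [map_smul]; exact Submodule.smul_mem _ _ hz
    have hli : LinearIndependent ℂ (fun i => πt (e i)) := by
      refine linearIndependent_of_top_le_span_of_card_eq_finrank hspan ?_
      rw [hdt']; simp
    intro d hd
    obtain ⟨u, hu, hsum⟩ := hd
    obtain ⟨h5, e5⟩ := exists_sum_gm' (p := (0 : Fin n → ℂ)) Finset.univ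
      u (fun j x => G j (x, t)) hu (fun j => hslice (hGtt j))
    obtain ⟨h6, e6⟩ := exists_sum_gm' (p := (0 : Fin n → ℂ)) Finset.univ
      (fun i _ => d i) Ef (fun i => analyticAt_const) hEf
    have h2 : ∑ i, d i • πt (e i) = 0 := by
      have h7 : ∑ i, d i • πt (e i) = πt (∑ i, algebraMap ℂ (BB n) (d i) * gm (Ef i) (hEf i)) := by
        rw [map_sum]
        refine Finset.sum_congr rfl (fun i _ => ?_)
        rw [← Algebra.smul_def, map_smul, hEe i]
      rw [h7]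
      refine (Ideal.Quotient.eq_zero_iff_mem (I := It)).2 ?_
      rw [hIt, mem_Idl (fun j => hslice (hGtt j))]
      refine ⟨fun j => gm (u j) (hu j), ?_⟩
      rw [e5]
      refine (show _ = gm (fun x => ∑ i, d i * Ef i x) h6 from e6).trans ?_
      rw [gm_eq_gm]
      exact hsum
    funext i
    exact (Fintype.linearIndependent_iff.1 hli) _ h2 i
  exact ⟨Ef, hEf, hfunA, hzero⟩

/-- (U) membership in the slices at infinitely many `t → 0` gives membership at `(0,0)`. -/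
theorem cor_U (G : κ → (Fin n → ℂ) × ℂ → ℂ) (hG : ∀ j, AnalyticAt ℂ (G j) 0) (μ : ℕ)
    (hdim : ∀ᶠ t in 𝓝 (0 : ℂ),
      Module.Finite ℂ (BB n ⧸ Idl (0 : Fin n → ℂ) (fun j x => G j (x, t))) ∧
      dimQ (0 : Fin n → ℂ) (fun j x => G j (x, t)) = μ)
    (H : (Fin n → ℂ) × ℂ → ℂ) (hH : AnalyticAt ℂ H 0)
    (hfr : ∃ᶠ t in 𝓝[≠] (0 : ℂ), ∃ u : κ → (Fin n → ℂ) → ℂ, (∀ j, AnalyticAt ℂ (u j) 0) ∧
      ∀ᶠ x in 𝓝 (0 : Fin n → ℂ), H (x, t) = ∑ j, u j x * G j (x, t)) :
    ∃ b : κ → (Fin n → ℂ) × ℂ → ℂ, (∀ j, AnalyticAt ℂ (b j) 0) ∧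
      ∀ᶠ p in 𝓝 (0 : (Fin n → ℂ) × ℂ), H p = ∑ j, b j p * G j p := by
  obtain ⟨Ef, hEf, hexp, hli⟩ := expand G hG μ hdim
  obtain ⟨c, b, hc, hb, hcb⟩ := hexp H hH
  refine ⟨b, hb, ?_⟩
  have hslice : ∀ {f : (Fin n → ℂ) × ℂ → ℂ} {t : ℂ}, AnalyticAt ℂ f (0, t) →
      AnalyticAt ℂ (fun x => f (x, t)) (0 : Fin n → ℂ) := by
    intro f t hf
    exact AnalyticAt.comp (g := f) (f := fun x : Fin n → ℂ => (x, t)) hf
      (analyticAt_id.prod analyticAt_const)
  have h0t : Tendsto (fun t : ℂ => ((0, t) : (Fin n → ℂ) × ℂ)) (𝓝 0) (𝓝 0) := by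
    have : Continuous (fun t : ℂ => ((0, t) : (Fin n → ℂ) × ℂ)) := by fun_prop
    exact this.tendsto' _ _ rfl
  have hbt : ∀ᶠ t in 𝓝 (0 : ℂ), ∀ j, AnalyticAt ℂ (b j) (0, t) :=
    h0t.eventually (Filter.eventually_all.2 fun j => (hb j).eventually_analyticAt)
  have hct : ∀ᶠ t in 𝓝 (0 : ℂ), ∀ᶠ p in 𝓝 ((0, t) : (Fin n → ℂ) × ℂ),
      H p = ∑ i, c i p.2 * Ef i p.1 + ∑ j, b j p * G j p :=
    h0t.eventually (eventually_eventually_nhds.2 hcb)
  have hz : ∃ᶠ t in 𝓝[≠] (0 : ℂ), ∀ i, c i t = 0 := by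
    have h1 := (hli.and (hbt.and hct)).filter_mono (nhdsWithin_le_nhds (s := {0}ᶜ))
    refine (hfr.and_eventually h1).mono ?_
    rintro t ⟨⟨u, hu, h2⟩, h3, h4, h5⟩
    have h6 : Tendsto (fun x : Fin n → ℂ => ((x, t) : (Fin n → ℂ) × ℂ)) (𝓝 0) (𝓝 (0, t)) := by
      have : Continuous (fun x : Fin n → ℂ => ((x, t) : (Fin n → ℂ) × ℂ)) := by fun_prop
      exact this.tendsto' _ _ rfl
    have h7 := h3 (fun i => c i t) ⟨fun j x => u j x - b j (x, t),
      fun j => (hu j).sub (hslice (h4 j)), ?_⟩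
    · exact fun i => congrFun h7 i
    · filter_upwards [h2, h6.eventually h5] with x h8 h9
      simp only [sub_mul, Finset.sum_sub_distrib]
      rw [← h8, h9]
      ring
  have hz' : ∀ i, ∀ᶠ t in 𝓝 (0 : ℂ), c i t = 0 := fun i =>
    (hc i).frequently_zero_iff_eventually_zero.1 (hz.mono fun t ht => ht i)
  have h2 : Tendsto (fun p : (Fin n → ℂ) × ℂ => p.2) (𝓝 0) (𝓝 0) :=
    continuous_snd.tendsto' _ _ rfl
  filter_upwards [hcb, h2.eventually (Filter.eventually_all.2 hz')] with p h3 h4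
  rw [h3]
  simp [h4]

end Crest.Agent.R257.Rig20
end
end

-- ▼ part R257/Rig2_20
section

/-!
Row 257 (S0395), KLT-RA (helper20), part 2: RIGIDITY. If `∂F/∂t (·,t) ∈ J(f_t)` for infinitely
many `t → 0` in a `μ`-constant family, then `∂F/∂t = ∑ b_j ∂_j F` near `(0,0)` with
`b_j (0,t) = 0`.
-/

set_option autoImplicit false
set_option linter.unusedSectionVars false

open Set Filter Topology Metric Complex
open Crest.Agent.R275.Loc2879 hiding AA
open Crest.Agent.R257.UI939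

noncomputable section

namespace Crest.Agent.R257.Rig20

variable {n : ℕ}

/-- the time derivative -/
def dt (F : (Fin n → ℂ) × ℂ → ℂ) (p : (Fin n → ℂ) × ℂ) : ℂ := fderiv ℂ F p (0, 1)

lemma an_fd {F : (Fin n → ℂ) × ℂ → ℂ} {p : (Fin n → ℂ) × ℂ} (hF : AnalyticAt ℂ F p)
    (v : (Fin n → ℂ) × ℂ) : AnalyticAt ℂ (fun q => fderiv ℂ F q v) p :=
  (ContinuousLinearMap.analyticAt (ContinuousLinearMap.apply ℂ ℂ v) _).comp hF.fderiv

lemma an_dt {F : (Fin n → ℂ) × ℂ → ℂ} {p : (Fin n → ℂ) × ℂ} (hF : AnalyticAt ℂ F p) :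
    AnalyticAt ℂ (dt F) p := an_fd hF _

/-- `a` belongs to the ideal generated by the `x`-gradient of `F`, near `(0,0)` -/
def InJ (F a : (Fin n → ℂ) × ℂ → ℂ) : Prop :=
  ∃ u : Fin n → (Fin n → ℂ) × ℂ → ℂ, (∀ j, AnalyticAt ℂ (u j) 0) ∧
    ∀ᶠ p in 𝓝 (0 : (Fin n → ℂ) × ℂ), a p = ∑ j, u j p * grad F j p

lemma InJ.congr {F a a' : (Fin n → ℂ) × ℂ → ℂ} (h : InJ F a) (e : a' =ᶠ[𝓝 0] a) : InJ F a' := by
  obtain ⟨u, hu, h⟩ := h
  refine ⟨u, hu, ?_⟩
  filter_upwards [h, e] with p h1 h2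
  rw [h2, h1]

lemma InJ.add {F a a' : (Fin n → ℂ) × ℂ → ℂ} (h : InJ F a) (h' : InJ F a') :
    InJ F (fun p => a p + a' p) := by
  obtain ⟨u, hu, h⟩ := h
  obtain ⟨u', hu', h'⟩ := h'
  refine ⟨fun j p => u j p + u' j p, fun j => (hu j).add (hu' j), ?_⟩
  filter_upwards [h, h'] with p h1 h2
  rw [h1, h2, ← Finset.sum_add_distrib]
  exact Finset.sum_congr rfl fun j _ => by ring

lemma InJ.mul_left {F a : (Fin n → ℂ) × ℂ → ℂ} (h : InJ F a) {c : (Fin n → ℂ) × ℂ → ℂ}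
    (hc : AnalyticAt ℂ c 0) : InJ F (fun p => c p * a p) := by
  obtain ⟨u, hu, h⟩ := h
  refine ⟨fun j p => c p * u j p, fun j => hc.mul (hu j), ?_⟩
  filter_upwards [h] with p h1
  rw [h1, Finset.mul_sum]
  exact Finset.sum_congr rfl fun j _ => by ring

lemma InJ.sub {F a a' : (Fin n → ℂ) × ℂ → ℂ} (h : InJ F a) (h' : InJ F a') :
    InJ F (fun p => a p - a' p) := by
  refine (h.add (h'.mul_left (c := fun _ => -1) analyticAt_const)).congr ?_
  exact Eventually.of_forall fun p => by ring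

lemma InJ.sum {F : (Fin n → ℂ) × ℂ → ℂ} {ι : Type*} (s : Finset ι)
    {a : ι → (Fin n → ℂ) × ℂ → ℂ} (h : ∀ i ∈ s, InJ F (a i)) : InJ F (fun p => ∑ i ∈ s, a i p) := by
  classical
  induction s using Finset.induction_on with
  | empty => exact ⟨fun _ _ => 0, fun _ => analyticAt_const, Eventually.of_forall fun p => by simp⟩
  | insert i s hi ih =>
    refine ((h i (Finset.mem_insert_self _ _)).add
      (ih fun j hj => h j (Finset.mem_insert_of_mem hj))).congr ?_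
    exact Eventually.of_forall fun p => Finset.sum_insert hi

lemma InJ.grad (F : (Fin n → ℂ) × ℂ → ℂ) (j : Fin n) : InJ F (grad F j) := by
  classical
  refine ⟨fun i _ => if i = j then 1 else 0, fun i => analyticAt_const, ?_⟩
  exact Eventually.of_forall fun p => by simp

/-- the vector field `∂_t - ∑ b_j ∂_j` acting on functions -/
def vf (b : Fin n → (Fin n → ℂ) × ℂ → ℂ) (a : (Fin n → ℂ) × ℂ → ℂ) (p : (Fin n → ℂ) × ℂ) : ℂ :=
  fderiv ℂ a p (fun j => - b j p, 1)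

lemma vf_eq {b : Fin n → (Fin n → ℂ) × ℂ → ℂ} {a : (Fin n → ℂ) × ℂ → ℂ}
    {p : (Fin n → ℂ) × ℂ} (ha : DifferentiableAt ℂ a p) :
    vf b a p = dt a p - ∑ j, b j p * grad a j p := by
  classical
  have h1 : ((fun j => - b j p, 1) : (Fin n → ℂ) × ℂ) =
      (0, 1) - ∑ j, b j p • ((Pi.single j 1, 0) : (Fin n → ℂ) × ℂ) := by
    refine Prod.ext ?_ ?_
    · rw [Prod.fst_sub, Prod.fst_sum]
      funext i
      simp [Finset.sum_apply, Pi.single_apply]
    · rw [Prod.snd_sub, Prod.snd_sum]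
      simp
  rw [vf, h1, map_sub, map_sum]
  rw [dt]
  congr 1
  refine Finset.sum_congr rfl (fun j _ => ?_)
  rw [map_smul, smul_eq_mul, grad_eq ha]

lemma an_vf {b : Fin n → (Fin n → ℂ) × ℂ → ℂ} {a : (Fin n → ℂ) × ℂ → ℂ}
    (hb : ∀ j, AnalyticAt ℂ (b j) 0) (ha : AnalyticAt ℂ a 0) : AnalyticAt ℂ (vf b a) 0 := by
  have h1 : AnalyticAt ℂ (fun p => dt a p - ∑ j, b j p * grad a j p) 0 := by
    refine (an_dt ha).sub ?_
    refine Finset.analyticAt_fun_sum _ (fun j _ => (hb j).mul (an_grad ha j))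
  refine h1.congr ?_
  filter_upwards [ha.eventually_analyticAt] with p hp
  exact (vf_eq hp.differentiableAt).symm

lemma vf_congr {b : Fin n → (Fin n → ℂ) × ℂ → ℂ} {a a' : (Fin n → ℂ) × ℂ → ℂ}
    (h : a =ᶠ[𝓝 0] a') : vf b a =ᶠ[𝓝 0] vf b a' := by
  filter_upwards [h.eventuallyEq_nhds] with p hp
  rw [vf, vf, hp.fderiv_eq]

lemma vf_mul {b : Fin n → (Fin n → ℂ) × ℂ → ℂ} {a a' : (Fin n → ℂ) × ℂ → ℂ}
    (ha : AnalyticAt ℂ a 0) (ha' : AnalyticAt ℂ a' 0) :
    vf b (fun p => a p * a' p) =ᶠ[𝓝 0] fun p => a p * vf b a' p + a' p * vf b a p := by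
  filter_upwards [ha.eventually_analyticAt, ha'.eventually_analyticAt] with p h1 h2
  rw [vf, vf, vf, fderiv_fun_mul h1.differentiableAt h2.differentiableAt]
  simp

lemma vf_sum {b : Fin n → (Fin n → ℂ) × ℂ → ℂ} {ι : Type*} (s : Finset ι)
    {a : ι → (Fin n → ℂ) × ℂ → ℂ} (ha : ∀ i, AnalyticAt ℂ (a i) 0) [Finite ι] :
    vf b (fun p => ∑ i ∈ s, a i p) =ᶠ[𝓝 0] fun p => ∑ i ∈ s, vf b (a i) p := by
  filter_upwards [Filter.eventually_all.2 fun i => (ha i).eventually_analyticAt] with p h1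
  rw [vf, fderiv_fun_sum (fun i _ => (h1 i).differentiableAt)]
  simp [vf]

/-- a vector field preserving the generators preserves the ideal -/
lemma InJ.vf {F a : (Fin n → ℂ) × ℂ → ℂ} (hF : AnalyticAt ℂ F 0)
    {b : Fin n → (Fin n → ℂ) × ℂ → ℂ} (hb : ∀ j, AnalyticAt ℂ (b j) 0)
    (hv : ∀ j, InJ F (vf b (UI939.grad F j))) (h : InJ F a) :
    InJ F (Rig20.vf b a) := by
  obtain ⟨u, hu, h⟩ := h
  have h1 : Rig20.vf b a =ᶠ[𝓝 0] fun p => ∑ j, (u j p * Rig20.vf b (UI939.grad F j) p +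
      Rig20.vf b (u j) p * UI939.grad F j p) := by
    refine (vf_congr (b := b) (show a =ᶠ[𝓝 0] _ from h)).trans ?_
    refine (vf_sum (b := b) Finset.univ (fun j => (hu j).mul (an_grad hF j))).trans ?_
    have h2 := Filter.eventually_all.2 fun j => vf_mul (b := b) (hu j) (an_grad hF j)
    filter_upwards [h2] with p hp
    refine Finset.sum_congr rfl (fun j _ => ?_)
    refine (hp j).trans ?_
    ring
  refine InJ.congr ?_ h1
  refine InJ.sum _ (fun j _ => ?_)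
  exact ((hv j).mul_left (hu j)).add ((InJ.grad F j).mul_left (an_vf hb (hu j)))

/-- powers of `v y` for `y` in the radical -/
lemma InJ.radical {F y : (Fin n → ℂ) × ℂ → ℂ} (hF : AnalyticAt ℂ F 0)
    {b : Fin n → (Fin n → ℂ) × ℂ → ℂ} (hb : ∀ j, AnalyticAt ℂ (b j) 0)
    (hv : ∀ j, InJ F (Rig20.vf b (UI939.grad F j))) (hy : AnalyticAt ℂ y 0) (N : ℕ)
    (h : InJ F (fun p => y p ^ N)) (i : ℕ) (hi : i ≤ N) :
    InJ F (fun p => y p ^ (N - i) * Rig20.vf b y p ^ (2 * i)) := by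
  induction i with
  | zero => simpa using h
  | succ i ih =>
    have ih' := ih (by omega)
    set z := Rig20.vf b y with hz
    have hz' : AnalyticAt ℂ z 0 := an_vf hb hy
    have hw : AnalyticAt ℂ (Rig20.vf b z) 0 := an_vf hb hz'
    have h1 := (ih'.vf hF hb hv).mul_left hz'
    -- derivative of powers
    have hpow : ∀ (g : (Fin n → ℂ) × ℂ → ℂ) (_ : AnalyticAt ℂ g 0) (k : ℕ),
        Rig20.vf b (fun p => g p ^ k) =ᶠ[𝓝 0]
          fun p => (k : ℂ) * g p ^ (k - 1) * Rig20.vf b g p := by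
      intro g hg k
      filter_upwards [hg.eventually_analyticAt] with p hp
      rw [Rig20.vf, Rig20.vf, fderiv_fun_pow _ hp.differentiableAt]
      simp [mul_assoc]
    have h2 : (fun p => z p * Rig20.vf b (fun p => y p ^ (N - i) * z p ^ (2 * i)) p) =ᶠ[𝓝 0]
        fun p => ((N - i : ℕ) : ℂ) * (y p ^ (N - (i + 1)) * z p ^ (2 * (i + 1))) +
          ((2 * i : ℕ) : ℂ) * Rig20.vf b z p * (y p ^ (N - i) * z p ^ (2 * i)) := by
      filter_upwards [vf_mul (b := b) (hy.pow (N - i)) (hz'.pow (2 * i)), hpow y hy (N - i),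
        hpow z hz' (2 * i)] with p h3 h4 h5
      simp only [Pi.pow_apply] at h3
      rw [h3]
      have h4' : Rig20.vf b (y ^ (N - i)) p = ((N - i : ℕ) : ℂ) * y p ^ (N - i - 1) * z p := h4
      have h5' : Rig20.vf b (z ^ (2 * i)) p = ((2 * i : ℕ) : ℂ) * z p ^ (2 * i - 1) *
        Rig20.vf b z p := h5
      rw [h4', h5']
      have e1 : N - (i + 1) = N - i - 1 := by omega
      rw [e1]
      rcases Nat.eq_zero_or_pos i with h0 | h0
      · subst h0
        simp only [Nat.sub_zero, mul_zero, pow_zero, Nat.cast_zero, zero_mul, add_zero, zero_add,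
          mul_one]
        ring
      · have e2 : z p ^ (2 * i) = z p ^ (2 * i - 1) * z p := by
          rw [← pow_succ]; congr 1; omega
        have e3 : z p ^ (2 * (i + 1)) = z p ^ (2 * i) * z p * z p := by
          rw [← pow_succ, ← pow_succ]; congr 1
        rw [e3, e2]
        ring
    have h3 := h1.congr h2.symm
    have h4 := (h3.sub (ih'.mul_left (c := fun p => ((2 * i : ℕ) : ℂ) * Rig20.vf b z p)
      (analyticAt_const.mul hw))).mul_left (c := fun _ => ((N - i : ℕ) : ℂ)⁻¹) analyticAt_const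
    refine h4.congr (Eventually.of_forall fun p => ?_)
    have hne : ((N - i : ℕ) : ℂ) ≠ 0 := by
      rw [Nat.cast_ne_zero]; omega
    field_simp
    ring

end Crest.Agent.R257.Rig20
end
end

-- ▼ part R257/Rig3_20
section

/-!
Row 257 (S0395), KLT-RA (helper20), part 3: RIGIDITY. If `∂F/∂t (·,t) ∈ J(f_t)` for infinitely
many `t → 0` in a `μ`-constant family, then `∂F/∂t = ∑ b_j ∂_j F` near `(0,0)` with
`b_j (0,t) = 0`, and the Hessian of `f_t` at `0` satisfies a linear differential equation.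
-/

set_option autoImplicit false
set_option linter.unusedSectionVars false

open Set Filter Topology Metric Complex
open Crest.Agent.R275.Loc2879 hiding AA
open Crest.Agent.R257.UI939

noncomputable section

namespace Crest.Agent.R257.Rig20

variable {n : ℕ}

section Sym

variable {E : Type*} [NormedAddCommGroup E] [NormedSpace ℂ E]

lemma fd_fd {F : E → ℂ} {p : E} (hF : AnalyticAt ℂ F p) (v w : E) :
    fderiv ℂ (fun q => fderiv ℂ F q v) p w = fderiv ℂ (fderiv ℂ F) p w v := by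
  have h : DifferentiableAt ℂ (fderiv ℂ F) p := hF.fderiv.differentiableAt
  rw [fderiv_clm_apply h (differentiableAt_const v)]
  simp

lemma fd_symm {F : E → ℂ} {p : E} (hF : AnalyticAt ℂ F p) (v w : E) :
    fderiv ℂ (fun q => fderiv ℂ F q v) p w = fderiv ℂ (fun q => fderiv ℂ F q w) p v := by
  rw [fd_fd hF, fd_fd hF]
  exact (hF.contDiffAt (n := ⊤)).isSymmSndFDerivAt_of_omega w v

end Sym

lemma grad_congr {F F' : (Fin n → ℂ) × ℂ → ℂ} {p : (Fin n → ℂ) × ℂ} (h : F =ᶠ[𝓝 p] F')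
    (j : Fin n) : grad F j p = grad F' j p := by
  have h1 : Tendsto (fun x : Fin n → ℂ => ((x, p.2) : (Fin n → ℂ) × ℂ)) (𝓝 p.1) (𝓝 p) := by
    have : Continuous (fun x : Fin n → ℂ => ((x, p.2) : (Fin n → ℂ) × ℂ)) := by fun_prop
    exact this.tendsto' _ _ rfl
  have h2 : (fun x => F (x, p.2)) =ᶠ[𝓝 p.1] fun x => F' (x, p.2) := h1.eventually h
  rw [grad, grad, h2.fderiv_eq]



lemma grad_eventually {F : (Fin n → ℂ) × ℂ → ℂ} {p : (Fin n → ℂ) × ℂ} (hF : AnalyticAt ℂ F p)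
    (j : Fin n) : grad F j =ᶠ[𝓝 p] fun q => fderiv ℂ F q (Pi.single j 1, 0) := by
  filter_upwards [hF.eventually_analyticAt] with q hq
  exact grad_eq hq.differentiableAt j

/-- second derivatives commute: space-space -/
lemma grad_grad {F : (Fin n → ℂ) × ℂ → ℂ} {p : (Fin n → ℂ) × ℂ} (hF : AnalyticAt ℂ F p)
    (i j : Fin n) : grad (grad F i) j p = grad (grad F j) i p := by
  rw [grad_eq (an_grad hF i).differentiableAt, grad_eq (an_grad hF j).differentiableAt,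
    (grad_eventually hF i).fderiv_eq, (grad_eventually hF j).fderiv_eq, fd_symm hF]

/-- second derivatives commute: space-time -/
lemma dt_grad {F : (Fin n → ℂ) × ℂ → ℂ} {p : (Fin n → ℂ) × ℂ} (hF : AnalyticAt ℂ F p)
    (j : Fin n) : dt (grad F j) p = grad (dt F) j p := by
  rw [grad_eq (an_dt hF).differentiableAt, dt, (grad_eventually hF j).fderiv_eq,
    fd_symm hF]
  rfl

lemma grad_sum {ι : Type*} (s : Finset ι) {a : ι → (Fin n → ℂ) × ℂ → ℂ} {p : (Fin n → ℂ) × ℂ}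
    (ha : ∀ i, AnalyticAt ℂ (a i) p) (j : Fin n) :
    grad (fun q => ∑ i ∈ s, a i q) j p = ∑ i ∈ s, grad (a i) j p := by
  have h : AnalyticAt ℂ (fun q => ∑ i ∈ s, a i q) p :=
    Finset.analyticAt_fun_sum _ fun i _ => ha i
  rw [grad_eq h.differentiableAt, fderiv_fun_sum (fun i _ => (ha i).differentiableAt)]
  simp only [FunLike.coe_sum, Finset.sum_apply]
  exact Finset.sum_congr rfl fun i _ => (grad_eq (ha i).differentiableAt j).symm

lemma amul {a c : (Fin n → ℂ) × ℂ → ℂ} {p : (Fin n → ℂ) × ℂ} (ha : AnalyticAt ℂ a p)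
    (hc : AnalyticAt ℂ c p) : AnalyticAt ℂ (fun q => a q * c q) p := ha.mul hc

lemma aadd {a c : (Fin n → ℂ) × ℂ → ℂ} {p : (Fin n → ℂ) × ℂ} (ha : AnalyticAt ℂ a p)
    (hc : AnalyticAt ℂ c p) : AnalyticAt ℂ (fun q => a q + c q) p := ha.add hc

lemma grad_mul {a c : (Fin n → ℂ) × ℂ → ℂ} {p : (Fin n → ℂ) × ℂ}
    (ha : AnalyticAt ℂ a p) (hc : AnalyticAt ℂ c p) (j : Fin n) :
    grad (fun q => a q * c q) j p = a p * grad c j p + grad a j p * c p := by
  rw [grad_eq (amul ha hc).differentiableAt, grad_eq ha.differentiableAt,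
    grad_eq hc.differentiableAt, fderiv_fun_mul ha.differentiableAt hc.differentiableAt]
  simp
  ring

lemma grad_add {a c : (Fin n → ℂ) × ℂ → ℂ} {p : (Fin n → ℂ) × ℂ}
    (ha : AnalyticAt ℂ a p) (hc : AnalyticAt ℂ c p) (j : Fin n) :
    grad (fun q => a q + c q) j p = grad a j p + grad c j p := by
  rw [grad_eq (aadd ha hc).differentiableAt, grad_eq ha.differentiableAt,
    grad_eq hc.differentiableAt, fderiv_fun_add ha.differentiableAt hc.differentiableAt]
  simp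

/-- the vector field of a trivialisation preserves the Jacobian ideal -/
lemma vf_grad_mem {F : (Fin n → ℂ) × ℂ → ℂ} (hF : AnalyticAt ℂ F 0)
    {b : Fin n → (Fin n → ℂ) × ℂ → ℂ} (hb : ∀ j, AnalyticAt ℂ (b j) 0)
    (h : ∀ᶠ p in 𝓝 (0 : (Fin n → ℂ) × ℂ), dt F p = ∑ j, b j p * grad F j p) (k : Fin n) :
    InJ F (vf b (grad F k)) := by
  have h1 : vf b (grad F k) =ᶠ[𝓝 0] fun p => ∑ j, grad (b j) k p * grad F j p := by
    have hball := Filter.eventually_all.2 fun j => (hb j).eventually_analyticAt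
    filter_upwards [hF.eventually_analyticAt, hball, Filter.EventuallyEq.eventuallyEq_nhds
      (show dt F =ᶠ[𝓝 0] fun p => ∑ j, b j p * grad F j p from h)] with p h2 h3 h4
    rw [vf_eq (an_grad h2 k).differentiableAt, dt_grad h2, grad_congr h4,
      grad_sum _ (fun j => amul (h3 j) (an_grad h2 j))]
    rw [← Finset.sum_sub_distrib]
    refine Finset.sum_congr rfl fun j _ => ?_
    rw [grad_mul (h3 j) (an_grad h2 j) k, grad_grad h2 k j]
    ring
  refine InJ.congr ?_ h1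
  exact InJ.sum _ fun j _ => (InJ.grad F j).mul_left (an_grad (hb j) k)

lemma vf_coord {b : Fin n → (Fin n → ℂ) × ℂ → ℂ} (k : Fin n) (p : (Fin n → ℂ) × ℂ) :
    vf b (fun q => q.1 k) p = - b k p := by
  have h : HasFDerivAt (fun q : (Fin n → ℂ) × ℂ => q.1 k)
      ((ContinuousLinearMap.proj (R := ℂ) (φ := fun _ : Fin n => ℂ) k).comp
        (ContinuousLinearMap.fst ℂ (Fin n → ℂ) ℂ)) p :=
    ((ContinuousLinearMap.proj (R := ℂ) (φ := fun _ : Fin n => ℂ) k).comp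
        (ContinuousLinearMap.fst ℂ (Fin n → ℂ) ℂ)).hasFDerivAt
  rw [vf, h.fderiv]
  rfl

/-- RIGIDITY, part 1: the vector field of a trivialisation vanishes on the axis -/
theorem b_zero {F : (Fin n → ℂ) × ℂ → ℂ} (hF : AnalyticAt ℂ F 0) {N : ℕ}
    (hpow : ∀ k : Fin n, InJ F (fun p => p.1 k ^ N))
    (hcrit : ∀ᶠ t in 𝓝 (0 : ℂ), ∀ j, grad F j (0, t) = 0)
    {b : Fin n → (Fin n → ℂ) × ℂ → ℂ} (hb : ∀ j, AnalyticAt ℂ (b j) 0)
    (h : ∀ᶠ p in 𝓝 (0 : (Fin n → ℂ) × ℂ), dt F p = ∑ j, b j p * grad F j p) :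
    ∀ᶠ t in 𝓝 (0 : ℂ), ∀ k, b k (0, t) = 0 := by
  have h0t : Tendsto (fun t : ℂ => ((0, t) : (Fin n → ℂ) × ℂ)) (𝓝 0) (𝓝 0) := by
    have : Continuous (fun t : ℂ => ((0, t) : (Fin n → ℂ) × ℂ)) := by fun_prop
    exact this.tendsto' _ _ rfl
  rw [Filter.eventually_all]
  intro k
  have h1 := InJ.radical hF hb (vf_grad_mem hF hb h) (y := fun p => p.1 k) (an_x k 0) N (hpow k)
    N le_rfl
  obtain ⟨u, -, hu⟩ := h1
  filter_upwards [h0t.eventually hu, hcrit] with t h2 h3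
  simp only [h3, mul_zero, Finset.sum_const_zero, Nat.sub_self, pow_zero, one_mul, vf_coord] at h2
  exact neg_eq_zero.1 (eq_zero_of_pow_eq_zero h2)

/-- the Hessian entries along the axis -/
def hs (F : (Fin n → ℂ) × ℂ → ℂ) (i j : Fin n) (t : ℂ) : ℂ := grad (grad F i) j (0, t)

lemma an_axis {a : (Fin n → ℂ) × ℂ → ℂ} {t : ℂ} (ha : AnalyticAt ℂ a (0, t)) :
    AnalyticAt ℂ (fun s : ℂ => a (0, s)) t :=
  AnalyticAt.comp (g := a) (f := fun s : ℂ => ((0, s) : (Fin n → ℂ) × ℂ)) ha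
    (analyticAt_const.prod analyticAt_id)

lemma an_hs {F : (Fin n → ℂ) × ℂ → ℂ} {t : ℂ} (hF : AnalyticAt ℂ F (0, t)) (i j : Fin n) :
    AnalyticAt ℂ (hs F i j) t := an_axis (an_grad (an_grad hF i) j)

lemma deriv_axis {a : (Fin n → ℂ) × ℂ → ℂ} {t : ℂ} (ha : AnalyticAt ℂ a (0, t)) :
    deriv (fun s : ℂ => a (0, s)) t = dt a (0, t) := by
  have h2 : HasFDerivAt (fun s : ℂ => ((0, s) : (Fin n → ℂ) × ℂ))
      (ContinuousLinearMap.inr ℂ (Fin n → ℂ) ℂ) t := hasFDerivAt_prodMk_right 0 t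
  have h1 := HasFDerivAt.comp t ha.differentiableAt.hasFDerivAt h2
  have h3 : HasDerivAt (fun s : ℂ => a (0, s))
    (((fderiv ℂ a (0, t)).comp (ContinuousLinearMap.inr ℂ (Fin n → ℂ) ℂ)) 1) t := h1.hasDerivAt
  rw [h3.deriv]
  rfl

/-- the linear differential equation of the Hessian -/
lemma deriv_hs {F : (Fin n → ℂ) × ℂ → ℂ} (hF : AnalyticAt ℂ F 0)
    (hcrit : ∀ᶠ t in 𝓝 (0 : ℂ), ∀ j, grad F j (0, t) = 0)
    {b : Fin n → (Fin n → ℂ) × ℂ → ℂ} (hb : ∀ j, AnalyticAt ℂ (b j) 0)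
    (h : ∀ᶠ p in 𝓝 (0 : (Fin n → ℂ) × ℂ), dt F p = ∑ j, b j p * grad F j p)
    (hb0 : ∀ᶠ t in 𝓝 (0 : ℂ), ∀ k, b k (0, t) = 0) :
    ∀ᶠ t in 𝓝 (0 : ℂ), ∀ i j, deriv (hs F i j) t =
      ∑ k, (grad (b k) i (0, t) * hs F k j t + grad (b k) j (0, t) * hs F k i t) := by
  have h0t : Tendsto (fun t : ℂ => ((0, t) : (Fin n → ℂ) × ℂ)) (𝓝 0) (𝓝 0) := by
    have : Continuous (fun t : ℂ => ((0, t) : (Fin n → ℂ) × ℂ)) := by fun_prop
    exact this.tendsto' _ _ rfl
  have hball := Filter.eventually_all.2 fun j => (hb j).eventually_analyticAt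
  filter_upwards [h0t.eventually hF.eventually_analyticAt, h0t.eventually hball, hcrit, hb0,
    h0t.eventually (Filter.EventuallyEq.eventuallyEq_nhds
      (show dt F =ᶠ[𝓝 0] fun p => ∑ j, b j p * grad F j p from h))] with t hFt hbt hct hb0t ht
  intro i j
  have e0 : deriv (hs F i j) t = dt (grad (grad F i) j) (0, t) :=
    deriv_axis (an_grad (an_grad hFt i) j)
  have e1 : dt (grad (grad F i) j) (0, t) = grad (grad (dt F) i) j (0, t) := by
    rw [dt_grad (an_grad hFt i)]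
    refine grad_congr ?_ j
    filter_upwards [hFt.eventually_analyticAt] with p hp
    exact dt_grad hp i
  have e2 : grad (dt F) i =ᶠ[𝓝 (0, t)]
      fun p => ∑ k, (b k p * grad (grad F k) i p + grad (b k) i p * grad F k p) := by
    filter_upwards [hFt.eventually_analyticAt,
      Filter.eventually_all.2 fun j => (hbt j).eventually_analyticAt,
      Filter.EventuallyEq.eventuallyEq_nhds ht] with p h1 h2 h3
    rw [grad_congr h3, grad_sum _ (fun k => amul (h2 k) (an_grad h1 k))]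
    refine Finset.sum_congr rfl fun k _ => ?_
    exact grad_mul (h2 k) (an_grad h1 k) i
  have e3 : ∀ k, AnalyticAt ℂ
      (fun p => b k p * grad (grad F k) i p + grad (b k) i p * grad F k p) (0, t) := fun k =>
    ((hbt k).mul (an_grad (an_grad hFt k) i)).add ((an_grad (hbt k) i).mul (an_grad hFt k))
  rw [e0, e1, grad_congr e2, grad_sum _ e3]
  refine Finset.sum_congr rfl fun k _ => ?_
  have e4 : grad (fun p => b k p * grad (grad F k) i p + grad (b k) i p * grad F k p) j (0, t) =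
      grad (fun p => b k p * grad (grad F k) i p) j (0, t) +
        grad (fun p => grad (b k) i p * grad F k p) j (0, t) := by
    exact grad_add (amul (hbt k) (an_grad (an_grad hFt k) i))
      (amul (an_grad (hbt k) i) (an_grad hFt k)) j
  rw [e4, grad_mul (hbt k) (an_grad (an_grad hFt k) i), grad_mul (an_grad (hbt k) i)
    (an_grad hFt k), hb0t k, hct k]
  simp only [hs]
  rw [grad_grad hFt k i]
  have e5 : grad (grad (b k) i) j (0, t) * 0 = 0 := mul_zero _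
  simp only [zero_mul, mul_zero, zero_add, add_zero]
  rw [grad_grad hFt i k]
  ring

end Crest.Agent.R257.Rig20
end
end

-- ▼ part R257/Rig4_20
section

/-!
Row 257 (S0395), KLT-RA (helper20), part 4: uniqueness for analytic linear differential
equations; order of vanishing along the axis.
-/

set_option autoImplicit false
set_option linter.unusedSectionVars false

open Set Filter Topology Metric Complex
open Crest.Agent.R257.UI939

noncomputable section

namespace Crest.Agent.R257.Rig20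

/-- analytic solutions of a linear differential equation with zero initial value vanish -/
theorem ode_zero {ι : Type*} [Fintype ι] (Y : ι → ℂ → ℂ) (hY : ∀ i, AnalyticAt ℂ (Y i) 0)
    (hY0 : ∀ i, Y i 0 = 0) (A : ι → ι → ℂ → ℂ) (hA : ∀ i k, ContinuousAt (A i k) 0)
    (h : ∀ᶠ t in 𝓝 (0 : ℂ), ∀ i, deriv (Y i) t = ∑ k, A i k t * Y k t) :
    ∀ᶠ t in 𝓝 (0 : ℂ), ∀ i, Y i t = 0 := by
  classical
  set y : ℂ → (ι → ℂ) := fun t i => Y i t with hy
  have hya : AnalyticAt ℂ y 0 := AnalyticAt.pi hY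
  by_contra hcon
  have h1 : ¬ ∀ᶠ t in 𝓝 (0 : ℂ), y t = 0 := by
    intro h2
    refine hcon ?_
    filter_upwards [h2] with t ht i
    exact congrFun ht i
  obtain ⟨m, g, hg, hg0, hyg⟩ := hya.exists_eventuallyEq_pow_smul_nonzero_iff.2 h1
  simp only [sub_zero] at hyg
  have hm : m ≠ 0 := by
    rintro rfl
    have h2 := hyg.self_of_nhds
    simp only [pow_zero, one_smul] at h2
    refine hg0 ?_
    rw [← h2]
    funext i
    exact hY0 i
  obtain ⟨k, rfl⟩ := Nat.exists_eq_succ_of_ne_zero hm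
  obtain ⟨i, hi⟩ : ∃ i, g 0 i ≠ 0 := by
    by_contra hc
    push Not at hc
    exact hg0 (funext hc)
  -- componentwise
  have hgi : ∀ i, AnalyticAt ℂ (fun t => g t i) 0 := by
    intro i
    exact (ContinuousLinearMap.analyticAt
      (ContinuousLinearMap.proj (R := ℂ) (φ := fun _ : ι => ℂ) i) _).comp hg
  have hYg : ∀ i, Y i =ᶠ[𝓝 0] fun t => t ^ (k + 1) * g t i := by
    intro i
    filter_upwards [hyg] with t ht
    have := congrFun ht i
    simpa [hy] using this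
  have hder : ∀ᶠ t in 𝓝 (0 : ℂ), deriv (Y i) t =
      (k + 1 : ℂ) * t ^ k * g t i + t ^ (k + 1) * deriv (fun t => g t i) t := by
    filter_upwards [(hYg i).eventuallyEq_nhds, (hgi i).eventually_analyticAt] with t h2 h3
    rw [h2.deriv_eq]
    have h4 := (hasDerivAt_pow (k + 1) t).mul h3.differentiableAt.hasDerivAt
    have h5 : (fun t : ℂ => t ^ (k + 1) * g t i) = (fun t : ℂ => t ^ (k + 1)) * fun t => g t i := rfl
    rw [h5, h4.deriv]
    push_cast
    simp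
  have hlim : ∀ᶠ t in 𝓝[≠] (0 : ℂ), (k + 1 : ℂ) * g t i + t * deriv (fun t => g t i) t -
      t * ∑ j, A i j t * g t j = 0 := by
    have h6 : ∀ᶠ t in 𝓝 (0 : ℂ), ∀ j, Y j t = t ^ (k + 1) * g t j :=
      Filter.eventually_all.2 hYg
    filter_upwards [(h.and (hder.and h6)).filter_mono nhdsWithin_le_nhds, self_mem_nhdsWithin]
      with t h7 ht
    obtain ⟨h8, h9, h10⟩ := h7
    have ht0 : t ≠ 0 := ht
    have h11 := h8 i
    rw [h9] at h11
    simp only [h10] at h11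
    have h12 : t ^ k * ((k + 1 : ℂ) * g t i + t * deriv (fun t => g t i) t -
      t * ∑ j, A i j t * g t j) = 0 := by
      have e1 : ∑ j, A i j t * (t ^ (k + 1) * g t j) = t ^ k * (t * ∑ j, A i j t * g t j) := by
        rw [Finset.mul_sum, Finset.mul_sum]
        refine Finset.sum_congr rfl fun j _ => by ring
      rw [e1] at h11
      linear_combination h11
    rcases mul_eq_zero.1 h12 with h13 | h13
    · exact absurd (eq_zero_of_pow_eq_zero h13) ht0
    · exact h13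
  have hcont : ContinuousAt (fun t : ℂ => (k + 1 : ℂ) * g t i + t * deriv (fun t => g t i) t -
      t * ∑ j, A i j t * g t j) 0 := by
    refine ContinuousAt.sub (ContinuousAt.add (continuousAt_const.mul (hgi i).continuousAt)
      (continuousAt_id.mul (hgi i).deriv.continuousAt)) (continuousAt_id.mul ?_)
    exact tendsto_finsetSum _ fun j _ => ((hA i j).mul (hgi j).continuousAt)
  have h14 : Tendsto (fun t : ℂ => (k + 1 : ℂ) * g t i + t * deriv (fun t => g t i) t -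
      t * ∑ j, A i j t * g t j) (𝓝[≠] 0) (𝓝 0) :=
    Tendsto.congr' (hlim.mono fun t ht => ht.symm) tendsto_const_nhds
  have h15 := tendsto_nhds_unique (hcont.tendsto.mono_left nhdsWithin_le_nhds) h14
  simp only [zero_mul, add_zero, sub_zero] at h15
  rcases mul_eq_zero.1 h15 with h16 | h16
  · have : ((k : ℂ) + 1) ≠ 0 := by exact_mod_cast Nat.succ_ne_zero k
    exact this h16
  · exact hi h16

/-- a zero-free family on a disc does not degenerate at the centre -/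
theorem axis_zero {ψ : ℂ × ℂ → ℂ} (hψ : AnalyticAt ℂ ψ 0)
    (hz : ∀ᶠ p in 𝓝 (0 : ℂ × ℂ), ψ p = 0 → p.2 = 0) (h0 : ψ 0 = 0) :
    ∀ᶠ t in 𝓝 (0 : ℂ), ψ (t, 0) = 0 := by
  have hax : AnalyticAt ℂ (fun t : ℂ => ψ (t, 0)) 0 :=
    AnalyticAt.comp (g := ψ) (f := fun t : ℂ => (t, (0 : ℂ))) hψ
      (analyticAt_id.prod analyticAt_const)
  rcases hax.eventually_eq_zero_or_eventually_ne_zero with h1 | h1
  · exact h1
  exfalso
  obtain ⟨r, hr, hA⟩ := Metric.eventually_nhds_iff_ball.1 (hψ.eventually_analyticAt.and hz)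
  obtain ⟨s, hs, hB⟩ := Metric.eventually_nhds_iff_ball.1 (eventually_nhdsWithin_iff.1 h1)
  set ρ := r / 2 with hρ
  have hρ0 : 0 < ρ := by positivity
  have hmem : ∀ t z : ℂ, ‖t‖ < r → ‖z‖ < r → ((t, z) : ℂ × ℂ) ∈ ball (0 : ℂ × ℂ) r := by
    intro t z h2 h3
    rw [mem_ball_zero_iff, Prod.norm_def]
    exact max_lt h2 h3
  -- lower bound on the circle
  have hcircle : ∀ z ∈ sphere (0 : ℂ) ρ, ψ (0, z) ≠ 0 := by
    intro z hz h2
    have hz' : ‖z‖ = ρ := by simpa using hz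
    have h3 := (hA (0, z) (hmem 0 z (by simpa using hr) (by rw [hz']; linarith))).2 h2
    simp only at h3
    rw [h3, norm_zero] at hz'
    linarith
  have hcontc : ContinuousOn (fun z : ℂ => ‖ψ (0, z)‖) (sphere 0 ρ) := by
    intro z hz
    have hz' : ‖z‖ = ρ := by simpa using hz
    have h3 := (hA (0, z) (hmem 0 z (by simpa using hr) (by rw [hz']; linarith))).1.continuousAt
    have h4 : ContinuousAt (fun z : ℂ => ψ (0, z)) z :=
      ContinuousAt.comp (g := ψ) (f := fun z : ℂ => ((0, z) : ℂ × ℂ)) h3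
        (continuousAt_const.prodMk continuousAt_id)
    exact h4.norm.continuousWithinAt
  obtain ⟨z0, hz0, hmin⟩ := (isCompact_sphere (0 : ℂ) ρ).exists_isMinOn
    (NormedSpace.sphere_nonempty.2 hρ0.le) hcontc
  set c := ‖ψ (0, z0)‖ / 2 with hc
  have hc0 : 0 < c := by
    have := norm_pos_iff.2 (hcircle z0 hz0)
    positivity
  have hunif : ∀ᶠ t in 𝓝 (0 : ℂ), ∀ z ∈ sphere (0 : ℂ) ρ, c < ‖ψ (t, z)‖ := by
    refine (isCompact_sphere (0 : ℂ) ρ).eventually_forall_of_forall_eventually ?_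
    intro z hz
    have hz' : ‖z‖ = ρ := by simpa using hz
    have h3 := (hA (0, z) (hmem 0 z (by simpa using hr) (by rw [hz']; linarith))).1.continuousAt
    have h4 : c < ‖ψ (0, z)‖ := by
      have : ‖ψ (0, z0)‖ ≤ ‖ψ (0, z)‖ := hmin hz
      have := norm_pos_iff.2 (hcircle z0 hz0)
      linarith
    exact h3.norm.eventually_const_lt h4
  have hlow : ∀ᶠ t in 𝓝[≠] (0 : ℂ), c ≤ ‖ψ (t, 0)‖ := by
    filter_upwards [hunif.filter_mono nhdsWithin_le_nhds, self_mem_nhdsWithin,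
      (ball_mem_nhds (0 : ℂ) hr : ball (0 : ℂ) r ∈ 𝓝 0) |> mem_nhdsWithin_of_mem_nhds,
      (ball_mem_nhds (0 : ℂ) hs : ball (0 : ℂ) s ∈ 𝓝 0) |> mem_nhdsWithin_of_mem_nhds]
      with t h2 h3 h4 h5
    have h4' : ‖t‖ < r := by simpa using h4
    have hne : ∀ z : ℂ, ‖z‖ < r → ψ (t, z) ≠ 0 := by
      intro z hz h6
      have h7 := (hA (t, z) (hmem t z h4' hz)).2 h6
      simp only at h7
      subst h7
      exact hB t h5 h3 h6
    have hd : ∀ z : ℂ, ‖z‖ < r → DifferentiableAt ℂ (fun z => (ψ (t, z))⁻¹) z := by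
      intro z hz
      have h8 := (hA (t, z) (hmem t z h4' hz)).1
      have h9 : AnalyticAt ℂ (fun z => ψ (t, z)) z :=
        AnalyticAt.comp (g := ψ) (f := fun z : ℂ => ((t, z) : ℂ × ℂ)) h8
          (analyticAt_const.prod analyticAt_id)
      exact h9.differentiableAt.inv (hne z hz)
    have hdc : DiffContOnCl ℂ (fun z => (ψ (t, z))⁻¹) (ball 0 ρ) := by
      refine DifferentiableOn.diffContOnCl ?_
      rw [closure_ball _ hρ0.ne']
      intro z hz
      have : ‖z‖ ≤ ρ := by simpa using hz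
      exact (hd z (by linarith)).differentiableWithinAt
    have hbd : ∀ z ∈ frontier (ball (0 : ℂ) ρ), ‖(ψ (t, z))⁻¹‖ ≤ c⁻¹ := by
      intro z hz
      rw [frontier_ball _ hρ0.ne'] at hz
      rw [norm_inv]
      exact inv_anti₀ hc0 (h2 z hz).le
    have := Complex.norm_le_of_forall_mem_frontier_norm_le isBounded_ball hdc hbd
      (subset_closure (mem_ball_self hρ0))
    rw [norm_inv] at this
    exact (inv_le_inv₀ (norm_pos_iff.2 (hne 0 (by simpa using hr))) hc0).1 this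
  have hlim : Tendsto (fun t : ℂ => ‖ψ (t, 0)‖) (𝓝[≠] 0) (𝓝 ‖ψ (0, 0)‖) :=
    (hax.continuousAt.norm.tendsto).mono_left nhdsWithin_le_nhds
  have h2 := ge_of_tendsto hlim hlow
  have h3 : ψ (0, 0) = 0 := h0
  rw [h3, norm_zero] at h2
  linarith

/-- order of vanishing: a family of functions of one variable with no zero outside the axis is
`z ^ m` times a unit -/
theorem pow_unit (m : ℕ) : ∀ {ψ : ℂ × ℂ → ℂ}, AnalyticAt ℂ ψ 0 →
    (∀ᶠ p in 𝓝 (0 : ℂ × ℂ), ψ p = 0 → p.2 = 0) →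
    (∃ g : ℂ → ℂ, AnalyticAt ℂ g 0 ∧ g 0 ≠ 0 ∧ ∀ᶠ z in 𝓝 (0 : ℂ), ψ (0, z) = z ^ m * g z) →
    ∃ U : ℂ × ℂ → ℂ, AnalyticAt ℂ U 0 ∧ U 0 ≠ 0 ∧ ∀ᶠ p in 𝓝 (0 : ℂ × ℂ), ψ p = p.2 ^ m * U p := by
  induction m with
  | zero =>
    rintro ψ hψ - ⟨g, hg, hg0, h⟩
    refine ⟨ψ, hψ, ?_, Eventually.of_forall fun p => by simp⟩
    have := h.self_of_nhds
    rw [show (0 : ℂ × ℂ) = (0, 0) from rfl, this]
    simpa using hg0
  | succ m ih =>
    rintro ψ hψ hz ⟨g, hg, hg0, h⟩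
    have h0 : ψ 0 = 0 := by
      have := h.self_of_nhds
      rw [show (0 : ℂ × ℂ) = (0, 0) from rfl, this]
      simp
    have hax := axis_zero hψ hz h0
    obtain ⟨q, hq, hqe⟩ := hadamard_fun hψ
    have h1 : Tendsto (fun p : ℂ × ℂ => p.1) (𝓝 0) (𝓝 0) := continuous_fst.tendsto' _ _ rfl
    have h2 : ∀ᶠ p in 𝓝 (0 : ℂ × ℂ), ψ p = p.2 * q p := by
      filter_upwards [hqe, h1.eventually hax] with p h3 h4
      rw [h3, h4, zero_add]
    have hz' : ∀ᶠ p in 𝓝 (0 : ℂ × ℂ), q p = 0 → p.2 = 0 := by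
      filter_upwards [h2, hz] with p h3 h4 h5
      exact h4 (by rw [h3, h5, mul_zero])
    have h0z : Tendsto (fun z : ℂ => ((0, z) : ℂ × ℂ)) (𝓝 0) (𝓝 0) := by
      have : Continuous (fun z : ℂ => ((0, z) : ℂ × ℂ)) := by fun_prop
      exact this.tendsto' _ _ rfl
    have hq0 : AnalyticAt ℂ (fun z : ℂ => q (0, z)) 0 :=
      AnalyticAt.comp (g := q) (f := fun z : ℂ => ((0, z) : ℂ × ℂ)) hq
        (analyticAt_const.prod analyticAt_id)
    have hsub : AnalyticAt ℂ (fun z : ℂ => q (0, z) - z ^ m * g z) 0 :=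
      hq0.sub ((analyticAt_id.pow m).mul hg)
    have h3 : ∀ᶠ z in 𝓝[≠] (0 : ℂ), q (0, z) - z ^ m * g z = 0 := by
      filter_upwards [(h.and (h0z.eventually h2)).filter_mono nhdsWithin_le_nhds,
        self_mem_nhdsWithin] with z h4 h5
      obtain ⟨h6, h7⟩ := h4
      rw [h6] at h7
      have h8 : z * (q (0, z) - z ^ m * g z) = 0 := by linear_combination -h7
      exact (mul_eq_zero.1 h8).resolve_left h5
    have h4 := hsub.frequently_zero_iff_eventually_zero.1 h3.frequently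
    obtain ⟨U, hU, hU0, hUe⟩ := ih hq hz' ⟨g, hg, hg0, h4.mono fun z hz => sub_eq_zero.1 hz⟩
    refine ⟨U, hU, hU0, ?_⟩
    filter_upwards [h2, hUe] with p h5 h6
    rw [h5, h6, pow_succ]
    ring

end Crest.Agent.R257.Rig20
end
end

-- ▼ part R257/Rig5_20
section

/-!
Row 257 (S0395), KLT-RA (helper20), part 5: corank at most one is rigid: if the Hessian of `f_0`
has a nonzero `2x2` minor, then `∂F/∂t (·,0) ∈ J(f_0)` for a `μ`-constant family `F`
of functions of three variables.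
-/

set_option autoImplicit false
set_option linter.unusedSectionVars false

open Set Filter Topology Metric Complex
open Crest.Agent.R257.UI939

noncomputable section

namespace Crest.Agent.R257.Rig20

/-- analytic inverse function theorem at the origin -/
theorem local_inverse {E : Type*} [NormedAddCommGroup E] [NormedSpace ℂ E]
    [FiniteDimensional ℂ E] {Φ : E → E} (hΦ : AnalyticAt ℂ Φ 0) (h0 : Φ 0 = 0)
    (hinj : ∀ v, fderiv ℂ Φ 0 v = 0 → v = 0) :
    ∃ Ψ : E → E, AnalyticAt ℂ Ψ 0 ∧ Ψ 0 = 0 ∧ (∀ᶠ p in 𝓝 (0 : E), Ψ (Φ p) = p) ∧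
      ∀ᶠ p in 𝓝 (0 : E), Φ (Ψ p) = p := by
  have : CompleteSpace E := FiniteDimensional.complete ℂ E
  have hker : Function.Injective ((fderiv ℂ Φ 0 : E →L[ℂ] E) : E →ₗ[ℂ] E) := by
    rw [← LinearMap.ker_eq_bot]
    exact LinearMap.ker_eq_bot'.2 fun v hv => hinj v hv
  let L : E ≃L[ℂ] E := (LinearEquiv.ofInjectiveEndo _ hker).toContinuousLinearEquiv
  have hL : (L : E →L[ℂ] E) = fderiv ℂ Φ 0 := by
    ext v
    rfl
  have hst : HasStrictFDerivAt Φ (L : E →L[ℂ] E) 0 := by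
    rw [hL]
    exact hΦ.hasStrictFDerivAt
  let e := hst.toOpenPartialHomeomorph Φ
  have he : (e : E → E) = Φ := rfl
  have hsrc : (0 : E) ∈ e.source := hst.mem_toOpenPartialHomeomorph_source
  have h1 : AnalyticAt ℂ e.symm (e 0) :=
    e.analyticAt_symm' (i := L) hsrc hΦ hL.symm
  have he0 : e 0 = 0 := h0
  rw [he0] at h1
  refine ⟨e.symm, h1, ?_, ?_, ?_⟩
  · have := e.left_inv hsrc
    rwa [he0] at this
  · filter_upwards [e.open_source.mem_nhds hsrc] with p hp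
    exact e.left_inv hp
  · have htar : (0 : E) ∈ e.target := by
      have := e.map_source hsrc
      rwa [he0] at this
    filter_upwards [e.open_target.mem_nhds htar] with p hp
    exact e.right_inv hp

variable {n : ℕ}

/-- the total derivative in terms of the partial derivatives -/
lemma fderiv_split {F : (Fin n → ℂ) × ℂ → ℂ} {p : (Fin n → ℂ) × ℂ}
    (hF : DifferentiableAt ℂ F p) (v : (Fin n → ℂ) × ℂ) :
    fderiv ℂ F p v = ∑ j, v.1 j * grad F j p + v.2 * dt F p := by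
  classical
  have h1 : v = ∑ j, v.1 j • ((Pi.single j 1, 0) : (Fin n → ℂ) × ℂ) + v.2 • (0, 1) := by
    refine Prod.ext ?_ ?_
    · rw [Prod.fst_add, Prod.fst_sum]
      funext i
      simp [Finset.sum_apply, Pi.single_apply]
    · rw [Prod.snd_add, Prod.snd_sum]
      simp
  conv_lhs => rw [h1]
  rw [map_add, map_sum, map_smul, smul_eq_mul, dt]
  congr 1
  refine Finset.sum_congr rfl (fun j _ => ?_)
  rw [map_smul, smul_eq_mul, grad_eq hF]

/-- integration along the fibre: if `∂_z φ = z^m ρ` and `φ(t,0) = 0` then `φ = z^(m+1) χ` -/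
lemma pow_dvd_of_deriv {φ ρ : ℂ × ℂ → ℂ} (hφ : AnalyticAt ℂ φ 0)
    (hρ : AnalyticAt ℂ ρ 0) (m : ℕ)
    (h0 : ∀ᶠ t in 𝓝 (0 : ℂ), φ (t, 0) = 0)
    (h : ∀ᶠ p in 𝓝 (0 : ℂ × ℂ), fderiv ℂ φ p (0, 1) = p.2 ^ m * ρ p) (k : ℕ) (hk : k ≤ m) :
    ∃ χ : ℂ × ℂ → ℂ, AnalyticAt ℂ χ 0 ∧ ∀ᶠ p in 𝓝 (0 : ℂ × ℂ), φ p = p.2 ^ (k + 1) * χ p := by
  have h1 : Tendsto (fun p : ℂ × ℂ => p.1) (𝓝 0) (𝓝 0) := continuous_fst.tendsto' _ _ rfl
  have h0t : Tendsto (fun t : ℂ => ((t, 0) : ℂ × ℂ)) (𝓝 0) (𝓝 0) := by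
    have : Continuous (fun t : ℂ => ((t, 0) : ℂ × ℂ)) := by fun_prop
    exact this.tendsto' _ _ rfl
  induction k with
  | zero =>
    obtain ⟨q, hq, hqe⟩ := hadamard_fun hφ
    refine ⟨q, hq, ?_⟩
    filter_upwards [hqe, h1.eventually h0] with p h3 h4
    rw [h3, h4]
    ring
  | succ k ih =>
    obtain ⟨χ, hχ, hχe⟩ := ih (by omega)
    have hd : ∀ᶠ p in 𝓝 (0 : ℂ × ℂ), fderiv ℂ φ p (0, 1) =
        ((k : ℂ) + 1) * p.2 ^ k * χ p + p.2 ^ (k + 1) * fderiv ℂ χ p (0, 1) := by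
      filter_upwards [Filter.EventuallyEq.eventuallyEq_nhds
        (show φ =ᶠ[𝓝 0] fun p => p.2 ^ (k + 1) * χ p from hχe), hχ.eventually_analyticAt]
        with p h3 h4
      rw [h3.fderiv_eq]
      have h5 : HasFDerivAt (fun p : ℂ × ℂ => p.2 ^ (k + 1))
          (((k + 1 : ℕ) * p.2 ^ k) • ContinuousLinearMap.snd ℂ ℂ ℂ) p := by
        have := (hasFDerivAt_snd (𝕜 := ℂ) (E := ℂ) (F := ℂ) (p := p)).pow (k + 1)
        simpa using this
      rw [fderiv_fun_mul h5.differentiableAt h4.differentiableAt, h5.fderiv]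
      simp
      ring
    have hmul : ∀ᶠ p in 𝓝 (0 : ℂ × ℂ), p.2 ≠ 0 →
        ((k : ℂ) + 1) * χ p + p.2 * fderiv ℂ χ p (0, 1) - p.2 ^ (m - k) * ρ p = 0 := by
      filter_upwards [h, hd] with p h3 h4 h5
      rw [h3] at h4
      have e1 : p.2 ^ m = p.2 ^ k * p.2 ^ (m - k) := by
        rw [← pow_add]; congr 1; omega
      rw [e1] at h4
      have h6 : p.2 ^ k * (((k : ℂ) + 1) * χ p + p.2 * fderiv ℂ χ p (0, 1) -
          p.2 ^ (m - k) * ρ p) = 0 := by
        linear_combination -h4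
      exact (mul_eq_zero.1 h6).resolve_left (pow_ne_zero _ h5)
    -- at z = 0
    have hχ0 : ∀ᶠ t in 𝓝 (0 : ℂ), χ (t, 0) = 0 := by
      have hcan : ∀ᶠ p in 𝓝 (0 : ℂ × ℂ), AnalyticAt ℂ χ p ∧ AnalyticAt ℂ ρ p :=
        hχ.eventually_analyticAt.and hρ.eventually_analyticAt
      filter_upwards [h0t.eventually (eventually_eventually_nhds.2 hmul),
        h0t.eventually hcan] with t h3 h4
      obtain ⟨h5, h6⟩ := h4
      have hz : Tendsto (fun z : ℂ => ((t, z) : ℂ × ℂ)) (𝓝 0) (𝓝 (t, 0)) := by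
        have : Continuous (fun z : ℂ => ((t, z) : ℂ × ℂ)) := by fun_prop
        exact this.tendsto' _ _ rfl
      have h7 := hz.eventually h3
      have hcont : ContinuousAt (fun p : ℂ × ℂ => ((k : ℂ) + 1) * χ p +
          p.2 * fderiv ℂ χ p (0, 1) - p.2 ^ (m - k) * ρ p) (t, 0) := by
        have c1 : ContinuousAt (fun p : ℂ × ℂ => fderiv ℂ χ p (0, 1)) (t, 0) :=
          (((ContinuousLinearMap.analyticAt (ContinuousLinearMap.apply ℂ ℂ ((0, 1) : ℂ × ℂ)) _).comp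
            h5.fderiv).continuousAt)
        exact ((continuousAt_const.mul h5.continuousAt).add (continuousAt_snd.mul c1)).sub
          ((continuousAt_snd.pow _).mul h6.continuousAt)
      have hlim := (ContinuousAt.tendsto (hcont.comp_of_eq (g := fun p : ℂ × ℂ => ((k : ℂ) + 1) * χ p +
          p.2 * fderiv ℂ χ p (0, 1) - p.2 ^ (m - k) * ρ p) (f := fun z : ℂ => ((t, z) : ℂ × ℂ))
          (x := 0) (by fun_prop) rfl)).mono_left (nhdsWithin_le_nhds (s := {0}ᶜ))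
      have h8 : Tendsto ((fun p : ℂ × ℂ => ((k : ℂ) + 1) * χ p +
          p.2 * fderiv ℂ χ p (0, 1) - p.2 ^ (m - k) * ρ p) ∘ fun z : ℂ => ((t, z) : ℂ × ℂ))
          (𝓝[≠] 0) (𝓝 0) := by
        refine Tendsto.congr' ?_ tendsto_const_nhds
        filter_upwards [h7.filter_mono nhdsWithin_le_nhds, self_mem_nhdsWithin] with z h9 h10
        exact (h9 h10).symm
      have h9 := tendsto_nhds_unique hlim h8
      have h10 : m - k ≠ 0 := by omega
      simp only [Function.comp_apply, zero_mul, add_zero, zero_pow h10, sub_zero] at h9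
      rcases mul_eq_zero.1 h9 with h11 | h11
      · have : ((k : ℂ) + 1) ≠ 0 := by exact_mod_cast Nat.succ_ne_zero k
        exact absurd h11 this
      · exact h11
    obtain ⟨q, hq, hqe⟩ := hadamard_fun hχ
    refine ⟨q, hq, ?_⟩
    filter_upwards [hχe, hqe, h1.eventually hχ0] with p h3 h4 h5
    rw [h3, h4, h5, pow_succ]
    ring

/-- Hadamard's lemma with respect to two of the three coordinates -/
lemma had2 {f : (Fin 3 → ℂ) → ℂ} (hf : AnalyticAt ℂ f 0) (τ : Equiv.Perm (Fin 3)) :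
    ∃ A B : (Fin 3 → ℂ) → ℂ, AnalyticAt ℂ A 0 ∧ AnalyticAt ℂ B 0 ∧
      ∀ᶠ w in 𝓝 (0 : Fin 3 → ℂ),
        f w = f (Pi.single (τ 2) (w (τ 2))) + w (τ 0) * A w + w (τ 1) * B w := by
  obtain ⟨A, hA, hAe⟩ := hadamard_coord hf (τ 0)
  obtain ⟨B, hB, hBe⟩ := hadamard_coord hf (τ 1)
  have hup : ∀ k : Fin 3, Continuous (fun w : Fin 3 → ℂ => Function.update w k 0) := by
    intro k
    exact continuous_id.update k continuous_const
  have hup0 : ∀ k : Fin 3, Function.update (0 : Fin 3 → ℂ) k 0 = 0 := by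
    intro k
    exact Function.update_eq_self k 0
  have hupa : ∀ k : Fin 3, AnalyticAt ℂ (fun w : Fin 3 → ℂ => Function.update w k 0) 0 := by
    intro k
    refine AnalyticAt.pi fun i => ?_
    by_cases h : i = k
    · subst h
      simpa using analyticAt_const
    · simpa [Function.update_of_ne h] using an_coord i 0
  refine ⟨A, fun w => B (Function.update w (τ 0) 0), hA, ?_, ?_⟩
  · exact AnalyticAt.comp (g := B) (by rw [hup0]; exact hB) (hupa (τ 0))
  · have h1 : Tendsto (fun w : Fin 3 → ℂ => Function.update w (τ 0) 0) (𝓝 0) (𝓝 0) :=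
      (hup (τ 0)).tendsto' _ _ (hup0 _)
    filter_upwards [hAe, h1.eventually hBe] with w h2 h3
    rw [h2, h3]
    have h01 : τ 1 ≠ τ 0 := fun h => by simpa using τ.injective h
    have h20 : τ 2 ≠ τ 0 := fun h => by simpa using τ.injective h
    have h21 : τ 2 ≠ τ 1 := fun h => by simpa using τ.injective h
    have e1 : Function.update (Function.update w (τ 0) 0) (τ 1) 0 =
        Pi.single (τ 2) (w (τ 2)) := by
      funext i
      obtain ⟨j, rfl⟩ := τ.surjective i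
      fin_cases j
      · simp
      · simp
      · simp
    rw [e1, Function.update_of_ne h01]
    ring

/-- LEMMA A: corank at most one is rigid -/
theorem lemma_A {F : (Fin 3 → ℂ) × ℂ → ℂ} (hF : AnalyticAt ℂ F 0)
    (hzero : ∀ᶠ t in 𝓝 (0 : ℂ), F (0, t) = 0)
    (hcrit : ∀ᶠ t in 𝓝 (0 : ℂ), ∀ j, grad F j (0, t) = 0)
    (hiso : ∀ᶠ p in 𝓝 (0 : (Fin 3 → ℂ) × ℂ), (∀ j, grad F j p = 0) → p.1 = 0)
    (σ τ : Equiv.Perm (Fin 3))
    (hminor : hs F (σ 0) (τ 0) 0 * hs F (σ 1) (τ 1) 0 -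
      hs F (σ 0) (τ 1) 0 * hs F (σ 1) (τ 0) 0 ≠ 0) :
    ∃ u : Fin 3 → (Fin 3 → ℂ) → ℂ, (∀ j, AnalyticAt ℂ (u j) 0) ∧
      ∀ᶠ x in 𝓝 (0 : Fin 3 → ℂ), dt F (x, 0) = ∑ j, u j x * grad F j (x, 0) := by
  classical
  have h01 : τ 1 ≠ τ 0 := fun h => by simpa using τ.injective h
  have h20 : τ 2 ≠ τ 0 := fun h => by simpa using τ.injective h
  have h21 : τ 2 ≠ τ 1 := fun h => by simpa using τ.injective h
  have hg0 : ∀ j, grad F j 0 = 0 := fun j => hcrit.self_of_nhds j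
  have hga : ∀ j, AnalyticAt ℂ (grad F j) 0 := fun j => an_grad hF j
  -- the coordinate change
  set Φ : (Fin 3 → ℂ) × ℂ → (Fin 3 → ℂ) × ℂ := fun p =>
    (fun m => if m = τ 0 then grad F (σ 0) p else if m = τ 1 then grad F (σ 1) p else p.1 m, p.2)
    with hΦ
  have hΦa : AnalyticAt ℂ Φ 0 := by
    refine AnalyticAt.prod (AnalyticAt.pi fun m => ?_) analyticAt_snd
    by_cases h1 : m = τ 0
    · simpa [h1] using hga (σ 0)
    · by_cases h2 : m = τ 1
      · simpa [h2, h01] using hga (σ 1)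
      · simpa [h1, h2] using an_x m 0
  have hΦ0 : Φ 0 = 0 := by
    refine Prod.ext (funext fun m => ?_) rfl
    by_cases h1 : m = τ 0
    · simp [hΦ, h1, hg0]
    · by_cases h2 : m = τ 1
      · simp [hΦ, h2, hg0]
      · simp [hΦ, h1, h2]
  have hΦd : ∀ v, fderiv ℂ Φ 0 v = (fun m => if m = τ 0 then fderiv ℂ (grad F (σ 0)) 0 v
      else if m = τ 1 then fderiv ℂ (grad F (σ 1)) 0 v else v.1 m, v.2) := by
    intro v
    have hd := hΦa.differentiableAt.hasFDerivAt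
    have hfst : HasFDerivAt (fun p => (Φ p).1)
        ((ContinuousLinearMap.fst ℂ (Fin 3 → ℂ) ℂ).comp (fderiv ℂ Φ 0)) 0 :=
      (ContinuousLinearMap.fst ℂ (Fin 3 → ℂ) ℂ).hasFDerivAt.comp 0 hd
    have hsnd : HasFDerivAt (fun p => (Φ p).2)
        ((ContinuousLinearMap.snd ℂ (Fin 3 → ℂ) ℂ).comp (fderiv ℂ Φ 0)) 0 :=
      HasFDerivAt.comp (f := Φ) 0 (ContinuousLinearMap.snd ℂ (Fin 3 → ℂ) ℂ).hasFDerivAt hd
    refine Prod.ext (funext fun m => ?_) ?_
    · have hm : HasFDerivAt (fun p => (Φ p).1 m)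
        ((ContinuousLinearMap.proj (R := ℂ) (φ := fun _ : Fin 3 => ℂ) m).comp
          ((ContinuousLinearMap.fst ℂ (Fin 3 → ℂ) ℂ).comp (fderiv ℂ Φ 0))) 0 :=
        (ContinuousLinearMap.proj (R := ℂ) (φ := fun _ : Fin 3 => ℂ) m).hasFDerivAt.comp 0 hfst
      have e1 : (fderiv ℂ Φ 0 v).1 m = fderiv ℂ (fun p => (Φ p).1 m) 0 v := by
        rw [hm.fderiv]; rfl
      rw [e1]
      by_cases h1 : m = τ 0
      · have : (fun p => (Φ p).1 m) = grad F (σ 0) := by
          funext p; simp [hΦ, h1]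
        rw [this]; simp [h1]
      · by_cases h2 : m = τ 1
        · have : (fun p => (Φ p).1 m) = grad F (σ 1) := by
            funext p; simp [hΦ, h2, h01]
          rw [this]; simp [h2, h01]
        · have : (fun p => (Φ p).1 m) = fun p => p.1 m := by
            funext p; simp [hΦ, h1, h2]
          rw [this]
          have h3 : HasFDerivAt (fun q : (Fin 3 → ℂ) × ℂ => q.1 m)
              ((ContinuousLinearMap.proj (R := ℂ) (φ := fun _ : Fin 3 => ℂ) m).comp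
                (ContinuousLinearMap.fst ℂ (Fin 3 → ℂ) ℂ)) 0 :=
            ((ContinuousLinearMap.proj (R := ℂ) (φ := fun _ : Fin 3 => ℂ) m).comp
              (ContinuousLinearMap.fst ℂ (Fin 3 → ℂ) ℂ)).hasFDerivAt
          rw [h3.fderiv]
          simp [h1, h2]
    · have e1 : (fderiv ℂ Φ 0 v).2 = fderiv ℂ (fun p => (Φ p).2) 0 v := by
        rw [hsnd.fderiv]; rfl
      rw [e1]
      have : (fun p => (Φ p).2) = (Prod.snd : (Fin 3 → ℂ) × ℂ → ℂ) := rfl
      rw [this, fderiv_snd]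
      rfl
  have hinj : ∀ v, fderiv ℂ Φ 0 v = 0 → v = 0 := by
    intro v hv
    rw [hΦd] at hv
    have hv2 : v.2 = 0 := congrArg Prod.snd hv
    have hv1 := congrArg Prod.fst hv
    have a0 := congrFun hv1 (τ 0)
    have a1 := congrFun hv1 (τ 1)
    have a2 := congrFun hv1 (τ 2)
    simp only [if_true, Prod.fst_zero, Pi.zero_apply] at a0
    simp only [h01, if_false, if_true, Prod.fst_zero, Pi.zero_apply] at a1
    simp only [h20, h21, if_false, Prod.fst_zero, Pi.zero_apply] at a2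
    rw [fderiv_split (hga _).differentiableAt, hv2, zero_mul, add_zero,
      ← Equiv.sum_comp τ, Fin.sum_univ_three, a2, zero_mul, add_zero] at a0 a1
    have b0 : v.1 (τ 0) * hs F (σ 0) (τ 0) 0 + v.1 (τ 1) * hs F (σ 0) (τ 1) 0 = 0 := a0
    have b1 : v.1 (τ 0) * hs F (σ 1) (τ 0) 0 + v.1 (τ 1) * hs F (σ 1) (τ 1) 0 = 0 := a1
    have c0 : v.1 (τ 0) = 0 := by
      have : v.1 (τ 0) * (hs F (σ 0) (τ 0) 0 * hs F (σ 1) (τ 1) 0 -
        hs F (σ 0) (τ 1) 0 * hs F (σ 1) (τ 0) 0) = 0 := by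
        linear_combination hs F (σ 1) (τ 1) 0 * b0 - hs F (σ 0) (τ 1) 0 * b1
      exact (mul_eq_zero.1 this).resolve_right hminor
    have c1 : v.1 (τ 1) = 0 := by
      have : v.1 (τ 1) * (hs F (σ 0) (τ 0) 0 * hs F (σ 1) (τ 1) 0 -
        hs F (σ 0) (τ 1) 0 * hs F (σ 1) (τ 0) 0) = 0 := by
        linear_combination hs F (σ 0) (τ 0) 0 * b1 - hs F (σ 1) (τ 0) 0 * b0
      exact (mul_eq_zero.1 this).resolve_right hminor
    refine Prod.ext (funext fun i => ?_) hv2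
    obtain ⟨j, rfl⟩ := τ.surjective i
    fin_cases j
    · exact c0
    · exact c1
    · exact a2
  obtain ⟨Ψ, hΨa, hΨ0, hl, hr⟩ := local_inverse hΦa hΦ0 hinj
  -- components of the right inverse
  have hr0 : ∀ᶠ w in 𝓝 (0 : (Fin 3 → ℂ) × ℂ), grad F (σ 0) (Ψ w) = w.1 (τ 0) ∧
      grad F (σ 1) (Ψ w) = w.1 (τ 1) ∧ (Ψ w).1 (τ 2) = w.1 (τ 2) ∧ (Ψ w).2 = w.2 := by
    filter_upwards [hr] with w hw
    have h1 := congrArg Prod.fst hw
    have h2 : (Φ (Ψ w)).2 = w.2 := congrArg Prod.snd hw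
    refine ⟨?_, ?_, ?_, h2⟩
    · simpa [hΦ] using congrFun h1 (τ 0)
    · simpa [hΦ, h01] using congrFun h1 (τ 1)
    · simpa [hΦ, h20, h21] using congrFun h1 (τ 2)
  -- the curve
  set c : ℂ × ℂ → (Fin 3 → ℂ) × ℂ := fun q => Ψ (Pi.single (τ 2) q.2, q.1) with hc
  have hin : AnalyticAt ℂ (fun q : ℂ × ℂ => ((Pi.single (τ 2) q.2, q.1) : (Fin 3 → ℂ) × ℂ)) 0 := by
    refine AnalyticAt.prod (AnalyticAt.pi fun i => ?_) analyticAt_fst
    by_cases h : i = τ 2
    · subst h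
      simpa using analyticAt_snd
    · simpa [Pi.single_eq_of_ne h] using analyticAt_const
  have hin0 : ((Pi.single (τ 2) (0 : ℂ × ℂ).2, (0 : ℂ × ℂ).1) : (Fin 3 → ℂ) × ℂ) = 0 := by
    simp
  have hca : AnalyticAt ℂ c 0 := by
    refine AnalyticAt.comp (g := Ψ) ?_ hin
    rw [hin0]; exact hΨa
  have hc0 : c 0 = 0 := by
    simp only [hc]
    rw [hin0, hΨ0]
  have hint : Tendsto (fun q : ℂ × ℂ => ((Pi.single (τ 2) q.2, q.1) : (Fin 3 → ℂ) × ℂ))
      (𝓝 0) (𝓝 0) := by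
    have := hin.continuousAt.tendsto
    rwa [hin0] at this
  have hct : Tendsto c (𝓝 0) (𝓝 0) := by
    have := hca.continuousAt.tendsto
    rwa [hc0] at this
  have hcr : ∀ᶠ q in 𝓝 (0 : ℂ × ℂ), grad F (σ 0) (c q) = 0 ∧ grad F (σ 1) (c q) = 0 ∧
      (c q).1 (τ 2) = q.2 ∧ (c q).2 = q.1 := by
    filter_upwards [hint.eventually hr0] with q hq
    obtain ⟨a1, a2, a3, a4⟩ := hq
    refine ⟨?_, ?_, ?_, a4⟩
    · rw [show grad F (σ 0) (c q) = _ from a1, Pi.single_eq_of_ne h20.symm]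
    · rw [show grad F (σ 1) (c q) = _ from a2, Pi.single_eq_of_ne h21.symm]
    · rw [show (c q).1 (τ 2) = _ from a3, Pi.single_eq_same]
  -- the remaining partial derivative on the curve
  set ψ : ℂ × ℂ → ℂ := fun q => grad F (σ 2) (c q) with hψ
  have hψa : AnalyticAt ℂ ψ 0 := AnalyticAt.comp (g := grad F (σ 2)) (by rw [hc0]; exact hga _) hca
  have hψz : ∀ᶠ q in 𝓝 (0 : ℂ × ℂ), ψ q = 0 → q.2 = 0 := by
    filter_upwards [hcr, hct.eventually hiso] with q h1 h2 h3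
    obtain ⟨a1, a2, a3, a4⟩ := h1
    have h4 := h2 (fun j => by
      obtain ⟨k, rfl⟩ := σ.surjective j
      fin_cases k
      · exact a1
      · exact a2
      · exact h3)
    rw [← a3, h4]
    rfl
  have h0z : Tendsto (fun z : ℂ => ((0, z) : ℂ × ℂ)) (𝓝 0) (𝓝 0) := by
    have : Continuous (fun z : ℂ => ((0, z) : ℂ × ℂ)) := by fun_prop
    exact this.tendsto' _ _ rfl
  have hψ0a : AnalyticAt ℂ (fun z : ℂ => ψ (0, z)) 0 :=
    AnalyticAt.comp (g := ψ) (f := fun z : ℂ => ((0, z) : ℂ × ℂ)) hψa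
      (analyticAt_const.prod analyticAt_id)
  have hne : ¬ ∀ᶠ z in 𝓝 (0 : ℂ), ψ (0, z) = 0 := by
    intro h
    have h2 : ∀ᶠ z in 𝓝[≠] (0 : ℂ), False := by
      filter_upwards [(h.and (h0z.eventually hψz)).filter_mono nhdsWithin_le_nhds,
        self_mem_nhdsWithin] with z h3 h4
      exact h4 (h3.2 h3.1)
    exact (h2.exists).elim fun _ h => h
  obtain ⟨m, g, hga', hg0', hge⟩ := hψ0a.exists_eventuallyEq_pow_smul_nonzero_iff.2 hne
  simp only [sub_zero, smul_eq_mul] at hge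
  obtain ⟨U, hU, hU0, hUe⟩ := pow_unit m hψa hψz ⟨g, hga', hg0', hge⟩
  -- F on the curve
  set φ : ℂ × ℂ → ℂ := fun q => F (c q) with hφ
  have hφa : AnalyticAt ℂ φ 0 := AnalyticAt.comp (g := F) (by rw [hc0]; exact hF) hca
  have hφ0 : ∀ᶠ t in 𝓝 (0 : ℂ), φ (t, 0) = 0 := by
    have h1 : Tendsto (fun t : ℂ => ((0, t) : (Fin 3 → ℂ) × ℂ)) (𝓝 0) (𝓝 0) := by
      have : Continuous (fun t : ℂ => ((0, t) : (Fin 3 → ℂ) × ℂ)) := by fun_prop
      exact this.tendsto' _ _ rfl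
    filter_upwards [h1.eventually hl, hcrit, hzero] with t h2 h3 h4
    have h5 : Φ (0, t) = (0, t) := by
      refine Prod.ext (funext fun i => ?_) rfl
      by_cases e1 : i = τ 0
      · simp [hΦ, e1, h3]
      · by_cases e2 : i = τ 1
        · simp [hΦ, e2, h3]
        · simp [hΦ, e1, e2]
    rw [h5] at h2
    have h6 : c (t, 0) = (0, t) := by
      simp only [hc, Pi.single_zero]
      exact h2
    simp only [hφ]
    rw [h6, h4]
  -- derivatives of the composite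
  have hcomp : ∀ᶠ q in 𝓝 (0 : ℂ × ℂ), ∀ v : ℂ × ℂ, fderiv ℂ φ q v =
      (fderiv ℂ c q v).1 (σ 2) * ψ q + v.1 * dt F (c q) := by
    filter_upwards [hcr, hca.eventually_analyticAt, hct.eventually hF.eventually_analyticAt,
      Filter.Eventually.eventually_nhds (hcr.mono fun q hq => hq.2.2.2)] with q h1 h2 h3 h4 v
    obtain ⟨a1, a2, a3, a4⟩ := h1
    have e1 : fderiv ℂ φ q v = fderiv ℂ F (c q) (fderiv ℂ c q v) := by
      have := (h3.differentiableAt.hasFDerivAt.comp q h2.differentiableAt.hasFDerivAt).fderiv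
      rw [show φ = F ∘ c from rfl, this]
      rfl
    have e2 : (fderiv ℂ c q v).2 = v.1 := by
      have h5 : HasFDerivAt (fun p => (c p).2)
          ((ContinuousLinearMap.snd ℂ (Fin 3 → ℂ) ℂ).comp (fderiv ℂ c q)) q :=
        (ContinuousLinearMap.snd ℂ (Fin 3 → ℂ) ℂ).hasFDerivAt.comp q
          h2.differentiableAt.hasFDerivAt
      have h6 : (fun p => (c p).2) =ᶠ[𝓝 q] Prod.fst := h4
      have h7 : (fderiv ℂ c q v).2 = fderiv ℂ (fun p => (c p).2) q v := by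
        rw [h5.fderiv]; rfl
      rw [h7, h6.fderiv_eq, fderiv_fst]
      rfl
    rw [e1, fderiv_split h3.differentiableAt, e2, ← Equiv.sum_comp σ, Fin.sum_univ_three, a1, a2]
    simp [hψ]
  -- the ρ of the integration lemma
  set κ : (ℂ × ℂ) → ℂ × ℂ → ℂ := fun v q => (fderiv ℂ c q v).1 (σ 2) with hκ
  have hκa : ∀ v, AnalyticAt ℂ (κ v) 0 := by
    intro v
    have h1 : AnalyticAt ℂ (fun q => fderiv ℂ c q v) 0 :=
      (ContinuousLinearMap.analyticAt (ContinuousLinearMap.apply ℂ ((Fin 3 → ℂ) × ℂ) v) _).comp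
        hca.fderiv
    exact (ContinuousLinearMap.analyticAt
      ((ContinuousLinearMap.proj (R := ℂ) (φ := fun _ : Fin 3 => ℂ) (σ 2)).comp
        (ContinuousLinearMap.fst ℂ (Fin 3 → ℂ) ℂ)) _).comp h1
  obtain ⟨χ, hχ, hχe⟩ := pow_dvd_of_deriv hφa (hU.mul (hκa (0, 1))) m hφ0 (by
    filter_upwards [hcomp, hUe] with q h1 h2
    rw [h1 (0, 1), h2]
    simp only [Pi.mul_apply, hκ, zero_mul, add_zero]
    ring) m le_rfl
  -- derivative in `t`
  have hdt : ∀ᶠ q in 𝓝 (0 : ℂ × ℂ), dt F (c q) =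
      q.2 ^ m * (q.2 * fderiv ℂ χ q (1, 0) - κ (1, 0) q * U q) := by
    filter_upwards [hcomp, hUe, Filter.EventuallyEq.eventuallyEq_nhds
      (show φ =ᶠ[𝓝 0] fun p => p.2 ^ (m + 1) * χ p from hχe), hχ.eventually_analyticAt]
      with q h1 h2 h3 h4
    have h5 := h1 (1, 0)
    rw [h2, h3.fderiv_eq] at h5
    have h6 : HasFDerivAt (fun p : ℂ × ℂ => p.2 ^ (m + 1))
        (((m + 1 : ℕ) * q.2 ^ m) • ContinuousLinearMap.snd ℂ ℂ ℂ) q := by
      have := (hasFDerivAt_snd (𝕜 := ℂ) (E := ℂ) (F := ℂ) (p := q)).pow (m + 1)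
      simpa using this
    rw [fderiv_fun_mul h6.differentiableAt h4.differentiableAt, h6.fderiv] at h5
    simp only [add_apply, smul_apply, smul_eq_mul,
      ContinuousLinearMap.coe_snd', mul_zero, add_zero, one_mul] at h5
    have h7 : κ (1, 0) q = (fderiv ℂ c q (1, 0)).1 (σ 2) := rfl
    rw [h7]
    linear_combination -h5
  -- on the slice `t = 0`
  set G : ℂ → ℂ := fun z => (z * fderiv ℂ χ (0, z) (1, 0) - κ (1, 0) (0, z) * U (0, z)) *
    (U (0, z))⁻¹ with hG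
  have hslz : ∀ {a : ℂ × ℂ → ℂ}, AnalyticAt ℂ a 0 → AnalyticAt ℂ (fun z : ℂ => a (0, z)) 0 := by
    intro a ha
    exact AnalyticAt.comp (g := a) (f := fun z : ℂ => ((0, z) : ℂ × ℂ)) ha
      (analyticAt_const.prod analyticAt_id)
  have hGa : AnalyticAt ℂ G 0 := by
    have h1 : AnalyticAt ℂ (fun q => fderiv ℂ χ q (1, 0)) 0 :=
      (ContinuousLinearMap.analyticAt (ContinuousLinearMap.apply ℂ ℂ ((1, 0) : ℂ × ℂ)) _).comp
        hχ.fderiv
    exact ((analyticAt_id.mul (hslz h1)).sub ((hslz (hκa (1, 0))).mul (hslz hU))).mul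
      ((hslz hU).inv hU0)
  have hDS : ∀ᶠ z in 𝓝 (0 : ℂ), dt F (c (0, z)) = G z * ψ (0, z) := by
    filter_upwards [h0z.eventually hdt, h0z.eventually hUe,
      (hslz hU).continuousAt.eventually_ne hU0] with z h1 h2 h3
    rw [h1, h2]
    simp only [hG]
    field_simp
  -- Hadamard
  have hin3 : AnalyticAt ℂ (fun w : Fin 3 → ℂ => Ψ (w, 0)) 0 :=
    AnalyticAt.comp (g := Ψ) (f := fun w : Fin 3 → ℂ => ((w, 0) : (Fin 3 → ℂ) × ℂ)) hΨa
      (analyticAt_id.prod analyticAt_const)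
  have hin30 : Ψ ((0 : Fin 3 → ℂ), (0 : ℂ)) = 0 := hΨ0
  obtain ⟨A, B, hA, hB, hAB⟩ := had2 (f := fun w => dt F (Ψ (w, 0)))
    (AnalyticAt.comp (g := dt F) (by rw [hin30]; exact an_dt hF) hin3) τ
  obtain ⟨A', B', hA', hB', hAB'⟩ := had2 (f := fun w => grad F (σ 2) (Ψ (w, 0)))
    (AnalyticAt.comp (g := grad F (σ 2)) (by rw [hin30]; exact hga _) hin3) τ
  -- the substitution
  set ω : (Fin 3 → ℂ) → (Fin 3 → ℂ) := fun x => (Φ (x, 0)).1 with hω
  have hsl : ∀ {E' : Type} [NormedAddCommGroup E'] [NormedSpace ℂ E']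
      {a : (Fin 3 → ℂ) × ℂ → E'}, AnalyticAt ℂ a 0 →
      AnalyticAt ℂ (fun x : Fin 3 → ℂ => a (x, 0)) 0 := by
    intro E' _ _ a ha
    exact AnalyticAt.comp (g := a) (f := fun x : Fin 3 → ℂ => ((x, 0) : (Fin 3 → ℂ) × ℂ)) ha
      (analyticAt_id.prod analyticAt_const)
  have hωa : AnalyticAt ℂ ω 0 :=
    (ContinuousLinearMap.analyticAt (ContinuousLinearMap.fst ℂ (Fin 3 → ℂ) ℂ) _).comp (hsl hΦa)
  have hω0 : ω 0 = 0 := by
    simp only [hω]
    rw [show ((0 : Fin 3 → ℂ), (0 : ℂ)) = 0 from rfl, hΦ0]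
    rfl
  have hωt : Tendsto ω (𝓝 0) (𝓝 0) := by
    have := hωa.continuousAt.tendsto
    rwa [hω0] at this
  have hcompω : ∀ {a : (Fin 3 → ℂ) → ℂ}, AnalyticAt ℂ a 0 →
      AnalyticAt ℂ (fun x => a (ω x)) 0 := by
    intro a ha
    exact AnalyticAt.comp (g := a) (by rw [hω0]; exact ha) hωa
  have hcoord : AnalyticAt ℂ (fun x : Fin 3 → ℂ => G (x (τ 2))) 0 :=
    AnalyticAt.comp (g := G) (by exact hGa) (an_coord (τ 2) 0)
  refine ⟨fun j x => if j = σ 0 then A (ω x) - G (x (τ 2)) * A' (ω x) else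
    if j = σ 1 then B (ω x) - G (x (τ 2)) * B' (ω x) else G (x (τ 2)), ?_, ?_⟩
  · intro j
    by_cases e1 : j = σ 0
    · simp only [if_pos e1]
      exact (hcompω hA).sub (hcoord.mul (hcompω hA'))
    · by_cases e2 : j = σ 1
      · simp only [if_neg e1, if_pos e2]
        exact (hcompω hB).sub (hcoord.mul (hcompω hB'))
      · simp only [if_neg e1, if_neg e2]
        exact hcoord
  · have hx0 : Tendsto (fun x : Fin 3 → ℂ => ((x, 0) : (Fin 3 → ℂ) × ℂ)) (𝓝 0) (𝓝 0) := by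
      have : Continuous (fun x : Fin 3 → ℂ => ((x, 0) : (Fin 3 → ℂ) × ℂ)) := by fun_prop
      exact this.tendsto' _ _ rfl
    have hxc : Tendsto (fun x : Fin 3 → ℂ => x (τ 2)) (𝓝 0) (𝓝 0) :=
      (continuous_apply (τ 2)).tendsto' _ _ rfl
    filter_upwards [hωt.eventually hAB, hωt.eventually hAB', hx0.eventually hl,
      hxc.eventually hDS] with x h1 h2 h3 h4
    have e3 : Φ (x, 0) = (ω x, 0) := rfl
    have s01 : σ 1 ≠ σ 0 := fun h => by simpa using σ.injective h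
    have s20 : σ 2 ≠ σ 0 := fun h => by simpa using σ.injective h
    have s21 : σ 2 ≠ σ 1 := fun h => by simpa using σ.injective h
    rw [e3] at h3
    have w0 : ω x (τ 0) = grad F (σ 0) (x, 0) := by simp [hω, hΦ]
    have w1 : ω x (τ 1) = grad F (σ 1) (x, 0) := by simp [hω, hΦ, h01]
    have w2 : ω x (τ 2) = x (τ 2) := by simp [hω, hΦ, h20, h21]
    rw [h3, w0, w1, w2] at h1 h2
    have h5 : dt F (Ψ (Pi.single (τ 2) (x (τ 2)), 0)) = dt F (c (0, x (τ 2))) := rfl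
    have h6 : grad F (σ 2) (Ψ (Pi.single (τ 2) (x (τ 2)), 0)) = ψ (0, x (τ 2)) := rfl
    rw [h5, h4] at h1
    rw [h6] at h2
    rw [← Equiv.sum_comp σ, Fin.sum_univ_three]
    simp only [s01, s20, s21, if_true, if_false]
    linear_combination h1 - G (x (τ 2)) * h2

end Crest.Agent.R257.Rig20
end
end

-- ▼ part R257/Rig6_20

/-!
Row 257 (S0395), KLT-RA (helper20), part 6: `RAStmt` of `LCDefs_472`: in a `μ`-constant family
with `f_0 ∈ m^3` the Hessian of `f_t` has rank at most one for all small `t`.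
-/

set_option autoImplicit false
set_option linter.unusedSectionVars false

open Set Filter Topology Metric Complex
open Crest.AlgGeometry
open Crest.Agent.R275.Loc2879 hiding AA
open Crest.Agent.R257.UI939

noncomputable section

namespace Crest.Agent.R257.Rig20

variable {n : ℕ}

/-- RIGIDITY OF THE HESSIAN -/
theorem rigid_hess {F : (Fin n → ℂ) × ℂ → ℂ} (hF : AnalyticAt ℂ F 0) (μ : ℕ)
    (hdim : ∀ᶠ t in 𝓝 (0 : ℂ),
      Module.Finite ℂ (BB n ⧸ Idl (0 : Fin n → ℂ) (fun j x => grad F j (x, t))) ∧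
      dimQ (0 : Fin n → ℂ) (fun j x => grad F j (x, t)) = μ)
    (hcrit : ∀ᶠ t in 𝓝 (0 : ℂ), ∀ j, grad F j (0, t) = 0)
    (h0 : ∀ i j, hs F i j 0 = 0)
    (hfr : ∃ᶠ t in 𝓝[≠] (0 : ℂ), ∃ u : Fin n → (Fin n → ℂ) → ℂ, (∀ j, AnalyticAt ℂ (u j) 0) ∧
      ∀ᶠ x in 𝓝 (0 : Fin n → ℂ), dt F (x, t) = ∑ j, u j x * grad F j (x, t)) :
    ∀ᶠ t in 𝓝 (0 : ℂ), ∀ i j, hs F i j t = 0 := by
  classical
  have hga : ∀ j, AnalyticAt ℂ (grad F j) 0 := fun j => an_grad hF j
  obtain ⟨b, hb, hbe⟩ := cor_U (grad F) hga μ hdim (dt F) (an_dt hF) hfr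
  have hpow : ∀ k : Fin n, InJ F (fun p => p.1 k ^ μ) := by
    intro k
    obtain ⟨u, hu, hue⟩ := ui (grad F) hga μ hdim (Pi.single k μ) (by simp)
    refine ⟨u, hu, ?_⟩
    filter_upwards [hue] with p hp
    rw [← hp, Finset.prod_eq_single k]
    · simp
    · intro j _ hj
      simp [Pi.single_eq_of_ne hj]
    · intro h; exact absurd (Finset.mem_univ _) h
  have hb0 := b_zero hF hpow hcrit hb hbe
  have hode := deriv_hs hF hcrit hb hbe hb0
  have key := ode_zero (ι := Fin n × Fin n) (fun q => hs F q.1 q.2)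
    (fun q => an_hs (t := 0) hF q.1 q.2) (fun q => h0 q.1 q.2)
    (fun q r t => (if r.2 = q.2 then grad (b r.1) q.1 (0, t) else 0) +
      (if r.2 = q.1 then grad (b r.1) q.2 (0, t) else 0)) ?_ ?_
  · filter_upwards [key] with t ht i j
    exact ht (i, j)
  · intro q r
    have h1 : ∀ i, ContinuousAt (fun t : ℂ => grad (b r.1) i ((0 : Fin n → ℂ), t)) 0 :=
      fun i => (an_axis (t := 0) (an_grad (hb r.1) i)).continuousAt
    refine ContinuousAt.add ?_ ?_
    · by_cases h : r.2 = q.2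
      · simpa only [h, if_true] using h1 q.1
      · simpa only [h, if_false] using continuousAt_const
    · by_cases h : r.2 = q.1
      · simpa only [h, if_true] using h1 q.2
      · simpa only [h, if_false] using continuousAt_const
  · filter_upwards [hode] with t ht q
    rw [ht q.1 q.2, Fintype.sum_prod_type]
    refine Finset.sum_congr rfl fun k _ => ?_
    simp only [add_mul, ite_mul, zero_mul, Finset.sum_add_distrib, Finset.sum_ite_eq',
      Finset.mem_univ, if_true]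

/-- symmetric matrices all of whose `2x2` minors vanish -/
lemma rank_one (M : Fin 3 → Fin 3 → ℂ) (hsymm : ∀ i j, M i j = M j i)
    (h : ∀ i k j l, M i j * M k l = M i l * M k j) : ∃ l : Fin 3 → ℂ, ∀ i j, M i j = l i * l j := by
  by_cases hd : ∀ i, M i i = 0
  · refine ⟨0, fun i j => ?_⟩
    have h1 := h i j j i
    rw [hd, hd, zero_mul, hsymm j i] at h1
    have : M i j = 0 := by
      have h2 : M i j ^ 2 = 0 := by rw [sq]; exact h1
      exact pow_eq_zero_iff (two_ne_zero) |>.1 h2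
    simp [this]
  · push Not at hd
    obtain ⟨i0, hi0⟩ := hd
    obtain ⟨s, hs⟩ := IsAlgClosed.exists_pow_nat_eq (M i0 i0) (two_pos)
    have hs0 : s ≠ 0 := by
      rintro rfl
      exact hi0 (by rw [← hs]; simp)
    refine ⟨fun j => M i0 j / s, fun i j => ?_⟩
    have h1 := h i i0 j i0
    rw [hsymm i i0] at h1
    field_simp
    rw [hs]
    linear_combination h1

lemma exists_perm (i k : Fin 3) (h : i ≠ k) : ∃ σ : Equiv.Perm (Fin 3), σ 0 = i ∧ σ 1 = k := by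
  revert i k
  decide

/-- derivatives of a translated family -/
lemma dt_shift {F : (Fin n → ℂ) × ℂ → ℂ} (t : ℂ) (p : (Fin n → ℂ) × ℂ) :
    dt (fun q : (Fin n → ℂ) × ℂ => F (q.1, t + q.2)) p = dt F (p.1, t + p.2) := by
  have h1 : (fun q : (Fin n → ℂ) × ℂ => F (q.1, t + q.2)) = fun q => F ((0, t) + q) := by
    funext q
    congr 1
    refine Prod.ext ?_ rfl
    simp
  have h2 : ((0, t) + p : (Fin n → ℂ) × ℂ) = (p.1, t + p.2) := by
    refine Prod.ext ?_ rfl
    simp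
  rw [dt, dt, h1, fderiv_comp_add_left, h2]

theorem ra_stmt : LCDefs_472.RAStmt := by
  intro F μ hFam hH
  have hF : AnalyticAt ℂ F 0 := hFam.an
  have hcrit : ∀ᶠ t in 𝓝 (0 : ℂ), ∀ j, grad F j (0, t) = 0 := hFam.crit
  have hiso : ∀ᶠ p in 𝓝 (0 : (Fin 3 → ℂ) × ℂ), (∀ j, grad F j p = 0) → p.1 = 0 := hFam.iso
  have h0t : Tendsto (fun t : ℂ => ((0, t) : (Fin 3 → ℂ) × ℂ)) (𝓝 0) (𝓝 0) := by
    have : Continuous (fun t : ℂ => ((0, t) : (Fin 3 → ℂ) × ℂ)) := by fun_prop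
    exact this.tendsto' _ _ rfl
  have hdim : ∀ᶠ t in 𝓝 (0 : ℂ),
      Module.Finite ℂ (BB 3 ⧸ Idl (0 : Fin 3 → ℂ) (fun j x => grad F j (x, t))) ∧
      dimQ (0 : Fin 3 → ℂ) (fun j x => grad F j (x, t)) = μ := by
    filter_upwards [hFam.fin, h0t.eventually hF.eventually_analyticAt] with t ht hFt
    obtain ⟨h1, h2⟩ := ht
    have han : ∀ i, AnalyticAt ℂ (Germ.coordDeriv (fun x => F (x, t)) i) (0 : Fin 3 → ℂ) := by
      intro i
      rw [coordDeriv_eq]
      exact AnalyticAt.comp (g := grad F i) (f := fun x : Fin 3 → ℂ => (x, t))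
        (an_grad hFt i) (analyticAt_id.prod analyticAt_const)
    obtain ⟨e⟩ := dict han
    have h1' : Module.Finite ℂ (Germ.JacobianQuotient 3 (fun x => F (x, t))) := h1
    refine ⟨Module.Finite.equiv e, ?_⟩
    have h2' : Module.finrank ℂ (Germ.JacobianQuotient 3 (fun x => F (x, t))) = μ := h2
    rw [← h2']
    exact e.finrank_eq.symm
  have h0 : ∀ i j, hs F i j 0 = 0 := hH
  by_contra hcon
  have hfr0 : ∃ᶠ t in 𝓝 (0 : ℂ), ¬ ∃ l : Fin 3 → ℂ, ∀ i j, hs F i j t = l i * l j := by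
    exact Filter.not_eventually.1 hcon
  have hfr : ∃ᶠ t in 𝓝[≠] (0 : ℂ), ¬ ∃ l : Fin 3 → ℂ, ∀ i j, hs F i j t = l i * l j := by
    rw [frequently_nhdsWithin_iff]
    refine hfr0.mono fun t ht => ⟨ht, ?_⟩
    intro ht0
    have : t = 0 := by simpa using ht0
    subst this
    exact ht ⟨0, fun i j => by simp [h0]⟩
  have hev : ∀ᶠ t in 𝓝 (0 : ℂ), AnalyticAt ℂ F (0, t) ∧ (∀ᶠ s in 𝓝 t, F (0, s) = 0) ∧
      (∀ᶠ s in 𝓝 t, ∀ j, grad F j (0, s) = 0) ∧
      (∀ᶠ p in 𝓝 ((0, t) : (Fin 3 → ℂ) × ℂ), (∀ j, grad F j p = 0) → p.1 = 0) := by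
    filter_upwards [h0t.eventually hF.eventually_analyticAt,
      eventually_eventually_nhds.2 hFam.zero, eventually_eventually_nhds.2 hcrit,
      h0t.eventually (eventually_eventually_nhds.2 hiso)] with t a1 a2 a3 a4
    exact ⟨a1, a2, a3, a4⟩
  have hfr' : ∃ᶠ t in 𝓝[≠] (0 : ℂ), ∃ u : Fin 3 → (Fin 3 → ℂ) → ℂ, (∀ j, AnalyticAt ℂ (u j) 0) ∧
      ∀ᶠ x in 𝓝 (0 : Fin 3 → ℂ), dt F (x, t) = ∑ j, u j x * grad F j (x, t) := by
    refine (hfr.and_eventually (hev.filter_mono nhdsWithin_le_nhds)).mono ?_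
    rintro t ⟨h1, hFt, hzt, hct, hit⟩
    -- a nonzero minor
    have h2 : ∃ i k j l, hs F i j t * hs F k l t ≠ hs F i l t * hs F k j t := by
      by_contra hc
      push Not at hc
      exact h1 (rank_one _ (fun i j => grad_grad hFt i j) hc)
    obtain ⟨i, k, j, l, hm⟩ := h2
    have hik : i ≠ k := by
      rintro rfl
      exact hm (mul_comm _ _)
    have hjl : j ≠ l := by
      rintro rfl
      exact hm rfl
    obtain ⟨σ, s0, s1⟩ := exists_perm i k hik
    obtain ⟨τ, t0, t1⟩ := exists_perm j l hjl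
    have hadd : Tendsto (fun q : (Fin 3 → ℂ) × ℂ => ((q.1, t + q.2) : (Fin 3 → ℂ) × ℂ)) (𝓝 0)
        (𝓝 (0, t)) := by
      have : Continuous (fun q : (Fin 3 → ℂ) × ℂ => ((q.1, t + q.2) : (Fin 3 → ℂ) × ℂ)) := by
        fun_prop
      exact this.tendsto' _ _ (by simp)
    have hadd' : Tendsto (fun s : ℂ => t + s) (𝓝 0) (𝓝 t) := by
      have : Continuous (fun s : ℂ => t + s) := by fun_prop
      exact this.tendsto' _ _ (by simp)
    have hF1 : AnalyticAt ℂ (fun q : (Fin 3 → ℂ) × ℂ => F (q.1, t + q.2)) 0 :=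
      AnalyticAt.comp (g := F) (f := fun q : (Fin 3 → ℂ) × ℂ => ((q.1, t + q.2) : (Fin 3 → ℂ) × ℂ))
        (by simpa using hFt) (analyticAt_fst.prod (analyticAt_const.add analyticAt_snd))
    obtain ⟨u, hu, hue⟩ := lemma_A hF1 (hadd'.eventually hzt) (hadd'.eventually hct)
      (hadd.eventually hit) σ τ (by
        rw [s0, s1, t0, t1]
        have e : ∀ a b, hs (fun q : (Fin 3 → ℂ) × ℂ => F (q.1, t + q.2)) a b 0 = hs F a b t := by
          intro a b
          change grad (grad F a) b (0, t + 0) = _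
          rw [add_zero]
          rfl
        rw [e, e, e, e]
        exact sub_ne_zero.2 hm)
    refine ⟨u, hu, ?_⟩
    filter_upwards [hue] with x hx
    rw [dt_shift] at hx
    simp only [add_zero] at hx
    rw [hx]
    refine Finset.sum_congr rfl fun j _ => ?_
    congr 1
    change grad F j (x, t + 0) = _
    rw [add_zero]
  have hz := rigid_hess hF μ hdim hcrit h0 hfr'
  have hbad := hfr0.and_eventually hz
  obtain ⟨t, h1, h2⟩ := hbad.exists
  exact h1 ⟨0, fun i j => by simp [h2 i j]⟩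

end Crest.Agent.R257.Rig20
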