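import Crest.Agent.R273.Piola_5
import Crest.Agent.R257.Defs_219

-- ▼ part R257/RtA_838
section

/-!
# R257 (S0395), leaf LCX-RT (helper838), part A: the dbar-divergence identity for `G^*Ψ`

For `G, g` holomorphic near the closure of the bounded open set `B`, `m = (∂_a G_b)` and
`Ψ : Fin n → Cn n → ℂ` of class `C^1`, such that `Ψ_b (G z) = 0` off a compact subset of `B`:
`∫_B (∑_b (∂̄_b Ψ_b) (G z)) * conj (det m z) * g z = 0`.
-/

set_option autoImplicit false
set_option linter.unusedSectionVars false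

open Set Filter Topology Complex MeasureTheory
open scoped ContDiff Matrix ComplexConjugate

namespace Crest.Agent.R257.RtA_838

open Crest.Agent.R275.Geo Crest.Agent.R275.EDR890

noncomputable section

variable {n : ℕ}

theorem int_fderiv {F : Cn n → ℂ} (hF : ContDiff ℝ 1 F) (hc : HasCompactSupport F) (v : Cn n) :
    ∫ z, fderiv ℝ F z v = 0 := by
  have hd : Differentiable ℝ F := hF.differentiable (by norm_num)
  have h1 : Continuous fun z => fderiv ℝ F z v :=
    (hF.continuous_fderiv (by norm_num)).clm_apply continuous_const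
  have h2 : HasCompactSupport fun z => fderiv ℝ F z v := by
    refine (hc.fderiv ℝ).mono ?_
    intro z hz
    rw [Function.mem_support] at hz ⊢
    intro h0
    exact hz (by rw [h0]; rfl)
  have h := integral_bilinear_hasLineDerivAt_right_eq_neg_left_of_integrable (μ := volume)
    (f := fun _ : Cn n => (1 : ℂ)) (f' := fun _ => (0 : ℂ)) (g := F) (g' := fun z => fderiv ℝ F z v)
    (v := v) (B := ContinuousLinearMap.mul ℝ ℂ)
    (by simp)
    (by simpa using h1.integrable_of_hasCompactSupport h2)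
    (by simpa using hF.continuous.integrable_of_hasCompactSupport hc)
    (fun x _ => by simpa using (hasFDerivAt_const (𝕜 := ℝ) (1 : ℂ) x).hasLineDerivAt v)
    (fun x _ => (hd x).hasFDerivAt.hasLineDerivAt v)
  simpa using h

theorem int_dbj {F : Cn n → ℂ} (hF : ContDiff ℝ 1 F) (hc : HasCompactSupport F) (a : Fin n) :
    Integrable (fun z => wd (true, a) F z) ∧ ∫ z, wd (true, a) F z = 0 := by
  have h1 : ∀ v, Continuous fun z => fderiv ℝ F z v := fun v =>
    (hF.continuous_fderiv (by norm_num)).clm_apply continuous_const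
  have h2 : ∀ v, HasCompactSupport fun z => fderiv ℝ F z v := by
    intro v
    refine (hc.fderiv ℝ).mono ?_
    intro z hz
    rw [Function.mem_support] at hz ⊢
    intro h0
    exact hz (by rw [h0]; rfl)
  have h3 : ∀ v, Integrable fun z => fderiv ℝ F z v := fun v =>
    (h1 v).integrable_of_hasCompactSupport (h2 v)
  unfold wd wdL
  simp only [smul_eq_mul]
  refine ⟨(((h3 _).add ((h3 _).const_mul _)).const_mul _), ?_⟩
  rw [integral_const_mul, integral_add (h3 _) ((h3 _).const_mul _), integral_const_mul,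
    int_fderiv hF hc, int_fderiv hF hc]
  simp

/-- Jacobian matrix: `jm G z a b = ∂_a G_b` -/
def jm (G : Cn n → Cn n) (z : Cn n) : Matrix (Fin n) (Fin n) ℂ :=
  Matrix.of fun a b => (fderiv ℂ G z (EuclideanSpace.single a 1)) b

theorem jm_apply (G : Cn n → Cn n) (z : Cn n) (a b : Fin n) :
    jm G z a b = (fderiv ℂ G z (EuclideanSpace.single a 1)) b := rfl

theorem wd_hol {f : Cn n → ℂ} {z : Cn n} (hf : DifferentiableAt ℂ f z) (a : Fin n) :
    wd (false, a) f z = fderiv ℂ f z (EuclideanSpace.single a 1) := by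
  have h1 : fderiv ℝ f z = (fderiv ℂ f z).restrictScalars ℝ :=
    (hf.hasFDerivAt.restrictScalars ℝ).fderiv
  have hI : (EuclideanSpace.single a I : Cn n) = I • EuclideanSpace.single a (1 : ℂ) := by
    ext c
    simp [PiLp.single_apply]
  rw [wd, h1, wdL]
  simp only [ContinuousLinearMap.coe_restrictScalars', cI_false, hI, map_smul, smul_eq_mul]
  have := Complex.I_mul_I
  linear_combination (-(1 / 2 : ℂ) * fderiv ℂ f z (EuclideanSpace.single a 1)) * this

theorem wd_hol_true {f : Cn n → ℂ} {z : Cn n} (hf : DifferentiableAt ℂ f z) (a : Fin n) :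
    wd (true, a) f z = 0 := by
  have h1 : fderiv ℝ f z = (fderiv ℂ f z).restrictScalars ℝ :=
    (hf.hasFDerivAt.restrictScalars ℝ).fderiv
  have hI : (EuclideanSpace.single a I : Cn n) = I • EuclideanSpace.single a (1 : ℂ) := by
    ext c
    simp [PiLp.single_apply]
  rw [wd, h1, wdL]
  simp only [ContinuousLinearMap.coe_restrictScalars', cI_true, hI, map_smul, smul_eq_mul]
  have := Complex.I_mul_I
  linear_combination ((1 / 2 : ℂ) * fderiv ℂ f z (EuclideanSpace.single a 1)) * this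

theorem wd_conj {f : Cn n → ℂ} {z : Cn n} (_hf : DifferentiableAt ℝ f z) (a : Fin n) :
    wd (true, a) (fun w => conj (f w)) z = conj (wd (false, a) f z) := by
  have h : fderiv ℝ (fun w => Complex.conjCLE (f w)) z =
      (Complex.conjCLE : ℂ →L[ℝ] ℂ).comp (fderiv ℝ f z) := Complex.conjCLE.comp_fderiv
  have h2 : (fun w => conj (f w)) = fun w => Complex.conjCLE (f w) := rfl
  unfold wd wdL
  rw [h2, h]
  simp only [smul_eq_mul, ContinuousLinearMap.comp_apply, cI_true, cI_false, map_mul, map_add,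
    map_neg, conj_I, map_div₀, map_one, map_ofNat, neg_neg]
  rfl

variable {U : Set (Cn n)} {G : Cn n → Cn n}

theorem an_jm (hG : AnalyticOnNhd ℂ G U) (a b : Fin n) : AnalyticOnNhd ℂ (fun z => jm G z a b) U := by
  intro z hz
  have h1 : AnalyticAt ℂ (fderiv ℂ G) z := (hG z hz).fderiv
  have h2 : AnalyticAt ℂ (fun z => fderiv ℂ G z (EuclideanSpace.single a 1)) z :=
    (ContinuousLinearMap.analyticAt
      (ContinuousLinearMap.apply ℂ (Cn n) (EuclideanSpace.single a (1 : ℂ) : Cn n)) _).comp h1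
  exact (ContinuousLinearMap.analyticAt (EuclideanSpace.proj b : Cn n →L[ℂ] ℂ) _).comp h2

theorem jm_symm (hG : AnalyticOnNhd ℂ G U) {z : Cn n} (hz : z ∈ U) (a b c : Fin n) :
    wd (false, c) (fun w => jm G w a b) z = wd (false, a) (fun w => jm G w c b) z := by
  have h0 : AnalyticAt ℂ (fderiv ℂ G) z := (hG z hz).fderiv
  have h1 : ∀ a b c : Fin n, wd (false, c) (fun w => jm G w a b) z =
      (fderiv ℂ (fderiv ℂ G) z (EuclideanSpace.single c 1) (EuclideanSpace.single a 1)) b := by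
    intro a b c
    rw [wd_hol (an_jm hG a b z hz).differentiableAt]
    have h2 : HasFDerivAt (fun w => fderiv ℂ G w (EuclideanSpace.single a (1 : ℂ)))
        ((ContinuousLinearMap.apply ℂ (Cn n) (EuclideanSpace.single a (1 : ℂ) : Cn n)).comp
          (fderiv ℂ (fderiv ℂ G) z)) z :=
      (ContinuousLinearMap.hasFDerivAt
        (ContinuousLinearMap.apply ℂ (Cn n) (EuclideanSpace.single a (1 : ℂ) : Cn n))).comp z
        h0.differentiableAt.hasFDerivAt
    have h3 : HasFDerivAt (fun w => jm G w a b)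
        ((EuclideanSpace.proj b : Cn n →L[ℂ] ℂ).comp
        ((ContinuousLinearMap.apply ℂ (Cn n) (EuclideanSpace.single a (1 : ℂ) : Cn n)).comp
          (fderiv ℂ (fderiv ℂ G) z))) z :=
      (ContinuousLinearMap.hasFDerivAt (EuclideanSpace.proj b : Cn n →L[ℂ] ℂ)).comp z h2
    rw [h3.fderiv]
    rfl
  have hs : IsSymmSndFDerivAt ℂ G z := (hG z hz).contDiffAt.isSymmSndFDerivAt (n := 2) (by simp)
  rw [h1, h1, hs.eq]

theorem piola' (hG : AnalyticOnNhd ℂ G U) {z : Cn n} (hz : z ∈ U) (b : Fin n) :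
    ∑ a, wd (false, a) (fun w => (jm G w).adjugate b a) z = 0 :=
  Crest.Agent.R273.Piola_5.piola
    (fun i j => (an_jm hG i j z hz).differentiableAt.restrictScalars ℝ)
    (fun a b c => jm_symm hG hz a b c) b

theorem an_det {m : Cn n → Matrix (Fin n) (Fin n) ℂ}
    (hm : ∀ a b, AnalyticOnNhd ℂ (fun z => m z a b) U) : AnalyticOnNhd ℂ (fun z => (m z).det) U := by
  simp_rw [Matrix.det_apply']
  intro z hz
  refine Finset.analyticAt_fun_sum _ fun σ _ => ?_
  exact analyticAt_const.mul (Finset.analyticAt_fun_prod _ fun i _ => hm (σ i) i z hz)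

theorem an_adj (hG : AnalyticOnNhd ℂ G U) (a b : Fin n) :
    AnalyticOnNhd ℂ (fun z => (jm G z).adjugate a b) U := by
  simp_rw [Matrix.adjugate_apply]
  refine an_det fun c d => ?_
  by_cases h : c = b
  · subst h
    simp only [Matrix.updateRow_self]
    exact fun z _ => analyticAt_const
  · simp only [Matrix.updateRow_ne h]
    exact an_jm hG c d

/-- the `(0,1)` vector field -/
def Ph (G : Cn n → Cn n) (g : Cn n → ℂ) (Ψ : Fin n → Cn n → ℂ) (a : Fin n) (z : Cn n) : ℂ :=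
  ∑ b, Ψ b (G z) * (conj ((jm G z).adjugate b a) * g z)

theorem dbar_Ph {g : Cn n → ℂ} {Ψ : Fin n → Cn n → ℂ} (hG : AnalyticOnNhd ℂ G U)
    (hg : AnalyticOnNhd ℂ g U) (hΨ : ∀ b, ContDiff ℝ 1 (Ψ b)) {z : Cn n} (hz : z ∈ U) :
    ∑ a, wd (true, a) (Ph G g Ψ a) z =
      (∑ b, wd (true, b) (Ψ b) (G z)) * (conj (jm G z).det * g z) := by
  have hGd : DifferentiableAt ℂ G z := (hG z hz).differentiableAt
  have hgd : DifferentiableAt ℂ g z := (hg z hz).differentiableAt
  have hA : ∀ b a, DifferentiableAt ℂ (fun w => (jm G w).adjugate b a) z := fun b a =>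
    (an_adj hG b a z hz).differentiableAt
  have hAc : ∀ b a, DifferentiableAt ℝ (fun w => conj ((jm G w).adjugate b a)) z := fun b a =>
    (Complex.conjCLE.differentiableAt).comp z ((hA b a).restrictScalars ℝ)
  have hΨd : ∀ b w, DifferentiableAt ℝ (Ψ b) w := fun b w => (hΨ b).differentiable (by norm_num) w
  have hΨG : ∀ b, DifferentiableAt ℝ (fun w => Ψ b (G w)) z := fun b =>
    (hΨd b (G z)).comp z (hGd.restrictScalars ℝ)
  have h1 : ∀ a, wd (true, a) (Ph G g Ψ a) z =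
      ∑ b, ((∑ c, conj (jm G z a c) * wd (true, c) (Ψ b) (G z)) *
          (conj ((jm G z).adjugate b a) * g z) +
        Ψ b (G z) * (conj (wd (false, a) (fun w => (jm G w).adjugate b a) z) * g z)) := by
    intro a
    have hAg : ∀ b, DifferentiableAt ℝ (fun w => conj ((jm G w).adjugate b a) * g w) z := fun b =>
      (hAc b a).mul (hgd.restrictScalars ℝ)
    have hs : wd (true, a) (Ph G g Ψ a) z =
        ∑ b, wd (true, a) (fun w => Ψ b (G w) * (conj ((jm G w).adjugate b a) * g w)) z :=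
      wd_sum Finset.univ (f := fun b w => Ψ b (G w) * (conj ((jm G w).adjugate b a) * g w))
        (fun b _ => (hΨG b).mul (hAg b)) (true, a)
    rw [hs]
    refine Finset.sum_congr rfl fun b _ => ?_
    have e1 : wd (true, a) (fun w => conj ((jm G w).adjugate b a) * g w) z =
        conj (wd (false, a) (fun w => (jm G w).adjugate b a) z) * g z := by
      rw [wd_mul (f := fun w => conj ((jm G w).adjugate b a)) (hAc b a) (hgd.restrictScalars ℝ),
        wd_conj ((hA b a).restrictScalars ℝ), wd_hol_true hgd, mul_zero, add_zero]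
    rw [wd_mul (f := fun w => Ψ b (G w)) (hΨG b) (hAg b), e1, wd_comp (hΨd b (G z)) hGd]
    rfl
  simp_rw [h1, Finset.sum_add_distrib]
  have h2 : ∑ a, ∑ b, Ψ b (G z) * (conj (wd (false, a) (fun w => (jm G w).adjugate b a) z) * g z)
      = 0 := by
    rw [Finset.sum_comm]
    refine Finset.sum_eq_zero fun b _ => ?_
    rw [← Finset.mul_sum, ← Finset.sum_mul, ← map_sum, piola' hG hz b]
    simp
  rw [h2, add_zero, Finset.sum_comm, Finset.sum_mul]
  refine Finset.sum_congr rfl fun b _ => ?_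
  have h3 : ∀ c, ∑ a, conj (jm G z a c) * conj ((jm G z).adjugate b a) =
      if b = c then conj (jm G z).det else 0 := by
    intro c
    have h4 : ((jm G z).adjugate * jm G z) b c = ((jm G z).det • (1 : Matrix (Fin n) (Fin n) ℂ)) b c := by
      rw [Matrix.adjugate_mul]
    rw [Matrix.mul_apply] at h4
    simp_rw [← map_mul, ← map_sum]
    simp_rw [mul_comm (jm G z _ c)]
    rw [h4]
    simp only [Matrix.smul_apply, Matrix.one_apply, smul_eq_mul]
    split_ifs <;> simp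
  calc ∑ a, (∑ c, conj (jm G z a c) * wd (true, c) (Ψ b) (G z)) *
          (conj ((jm G z).adjugate b a) * g z)
      = ∑ c, (∑ a, conj (jm G z a c) * conj ((jm G z).adjugate b a)) *
          (wd (true, c) (Ψ b) (G z) * g z) := by
        simp_rw [Finset.sum_mul]
        rw [Finset.sum_comm]
        refine Finset.sum_congr rfl fun c _ => Finset.sum_congr rfl fun a _ => ?_
        ring
    _ = _ := by
        simp_rw [h3]
        simp only [ite_mul, zero_mul, Finset.sum_ite_eq, Finset.mem_univ, if_true]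
        ring

/-- **divergence identity** -/
theorem int_zero {g : Cn n → ℂ} {Ψ : Fin n → Cn n → ℂ} {B K : Set (Cn n)} (hB : IsOpen B)
    (hBU : B ⊆ U) (hG : AnalyticOnNhd ℂ G U) (hg : AnalyticOnNhd ℂ g U)
    (hΨ : ∀ b, ContDiff ℝ 1 (Ψ b)) (hK : IsCompact K) (hKB : K ⊆ B)
    (h0 : ∀ z ∈ B, z ∉ K → ∀ b, Ψ b (G z) = 0) :
    ∫ z in B, (∑ b, wd (true, b) (Ψ b) (G z)) * (conj (jm G z).det * g z) = 0 := by
  classical
  set Φ : Fin n → Cn n → ℂ := fun a => B.indicator (Ph G g Ψ a) with hΦ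
  have hin : ∀ a, ∀ z ∈ B, Φ a =ᶠ[𝓝 z] Ph G g Ψ a := by
    intro a z hz
    filter_upwards [hB.mem_nhds hz] with w hw
    exact indicator_of_mem hw _
  have hPh0 : ∀ a, ∀ z ∈ B, z ∉ K → Ph G g Ψ a z = 0 := by
    intro a z hz hzK
    exact Finset.sum_eq_zero fun b _ => by rw [h0 z hz hzK b, zero_mul]
  have hout : ∀ a, ∀ z, z ∉ K → Φ a =ᶠ[𝓝 z] fun _ => 0 := by
    intro a z hz
    filter_upwards [hK.isClosed.isOpen_compl.mem_nhds hz] with w hw
    by_cases hwB : w ∈ B
    · rw [hΦ]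
      simp only
      rw [indicator_of_mem hwB]
      exact hPh0 a w hwB hw
    · exact indicator_of_notMem hwB _
  have hsm : ∀ a, ContDiff ℝ 1 (Φ a) := by
    intro a
    rw [contDiff_iff_contDiffAt]
    intro z
    by_cases hz : z ∈ K
    · have hzB := hKB hz
      have hzU := hBU hzB
      refine ContDiffAt.congr_of_eventuallyEq ?_ (hin a z hzB)
      have hGr : ContDiffAt ℝ 1 G z := ((hG z hzU).contDiffAt (n := 1)).restrict_scalars ℝ
      have hgr : ContDiffAt ℝ 1 g z := ((hg z hzU).contDiffAt (n := 1)).restrict_scalars ℝ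
      unfold Ph
      refine ContDiffAt.sum fun b _ => ?_
      refine ContDiffAt.mul ((hΨ b).contDiffAt.comp z hGr) (ContDiffAt.mul ?_ hgr)
      exact Complex.conjCLE.contDiff.contDiffAt.comp z
        (((an_adj hG b a z hzU).contDiffAt (n := 1)).restrict_scalars ℝ)
    · exact contDiffAt_const.congr_of_eventuallyEq (hout a z hz)
  have hcs : ∀ a, HasCompactSupport (Φ a) := by
    intro a
    refine HasCompactSupport.intro hK fun z hz => ?_
    exact (hout a z hz).eq_of_nhds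
  have hpt : ∀ z, ∑ a, wd (true, a) (Φ a) z =
      B.indicator (fun z => (∑ b, wd (true, b) (Ψ b) (G z)) * (conj (jm G z).det * g z)) z := by
    intro z
    by_cases hz : z ∈ B
    · rw [indicator_of_mem hz, ← dbar_Ph hG hg hΨ (hBU hz)]
      exact Finset.sum_congr rfl fun a _ => wd_congr (hin a z hz) _
    · rw [indicator_of_notMem hz]
      refine Finset.sum_eq_zero fun a _ => ?_
      have hzK : z ∉ K := fun h => hz (hKB h)
      rw [wd_congr (hout a z hzK)]
      exact wd_const _ _ _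
  rw [← integral_indicator hB.measurableSet]
  simp_rw [← hpt]
  rw [integral_finsetSum _ fun a _ => (int_dbj (hsm a) (hcs a) a).1]
  exact Finset.sum_eq_zero fun a _ => (int_dbj (hsm a) (hcs a) a).2

end

end Crest.Agent.R257.RtA_838
end

-- ▼ part R257/RtB_838
section

/-!
# R257 (S0395), leaf LCX-RT (helper838), part B: mollified traces do not depend on the radius
-/

set_option autoImplicit false
set_option linter.unusedSectionVars false

open Set Filter Topology Complex MeasureTheory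
open scoped ContDiff Matrix ComplexConjugate

namespace Crest.Agent.R257.RtB_838

open Crest.Agent.R275.Geo Crest.Agent.R275.EDR890 RtA_838

noncomputable section

variable {n : ℕ}

/-- the profile -/
def P (u : ℝ) : ℝ := Real.smoothTransition (2 - 2 * u)

theorem P_smooth : ContDiff ℝ ∞ P :=
  Real.smoothTransition.contDiff.comp (contDiff_const.sub (contDiff_const.mul contDiff_id))

theorem P_nonneg (u : ℝ) : 0 ≤ P u := Real.smoothTransition.nonneg _

theorem P_le_one (u : ℝ) : P u ≤ 1 := Real.smoothTransition.le_one _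

theorem P_zero {u : ℝ} (h : 1 ≤ u) : P u = 0 := Real.smoothTransition.zero_of_nonpos (by linarith)

theorem P_one {u : ℝ} (h : u ≤ 1 / 2) : P u = 1 := Real.smoothTransition.one_of_one_le (by linarith)

theorem P_cont : Continuous P := P_smooth.continuous

theorem P_diff : Differentiable ℝ P := P_smooth.differentiable (by simp)

theorem derivP_cont : Continuous (deriv P) := P_smooth.continuous_deriv (by simp)

theorem derivP_zero {u : ℝ} (h : 1 < u) : deriv P u = 0 := by
  have : P =ᶠ[𝓝 u] fun _ => 0 := by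
    filter_upwards [lt_mem_nhds h] with v hv
    exact P_zero hv.le
  rw [this.deriv_eq]
  simp

theorem exists_C1 : ∃ C : ℝ, 0 ≤ C ∧ ∀ v, 0 ≤ v → |v * deriv P v| ≤ C := by
  obtain ⟨C, hC⟩ := (isCompact_Icc (a := (0 : ℝ)) (b := 1)).exists_bound_of_continuousOn
    (f := fun v => v * deriv P v) (continuous_id.mul derivP_cont).continuousOn
  refine ⟨max C 0, le_max_right _ _, fun v hv => ?_⟩
  by_cases h : v ≤ 1
  · exact (hC v ⟨hv, h⟩).trans (le_max_left _ _)
  · rw [derivP_zero (not_le.1 h), mul_zero, abs_zero]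
    exact le_max_right _ _

/-- the mollifier of radius `s` -/
def rho (n : ℕ) (s : ℝ) (y : Cn n) : ℝ := P (‖y‖ ^ 2 / s ^ 2) * (s ^ (2 * n))⁻¹

/-- the test functions -/
def Psi (s : ℝ) (b : Fin n) (y : Cn n) : ℂ := conj (y b) * (P (‖y‖ ^ 2 / s ^ 2) : ℝ)

theorem rho_zero {s : ℝ} (hs : 0 < s) {y : Cn n} (h : s ≤ ‖y‖) : rho n s y = 0 := by
  unfold rho
  rw [P_zero, zero_mul]
  rw [one_le_div (by positivity)]
  exact pow_le_pow_left₀ hs.le h 2

theorem Psi_zero {s : ℝ} (hs : 0 < s) {y : Cn n} (h : s ≤ ‖y‖) (b : Fin n) : Psi s b y = 0 := by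
  unfold Psi
  rw [P_zero]
  · simp
  rw [one_le_div (by positivity)]
  exact pow_le_pow_left₀ hs.le h 2

theorem nsq_smooth : ContDiff ℝ ∞ fun y : Cn n => ‖y‖ ^ 2 := contDiff_norm_sq ℝ

theorem Psi_smooth (s : ℝ) (b : Fin n) : ContDiff ℝ 1 (Psi (n := n) s b) := by
  unfold Psi
  have h1 : ContDiff ℝ ∞ fun y : Cn n => P (‖y‖ ^ 2 / s ^ 2) :=
    P_smooth.comp (nsq_smooth.div_const _)
  have h2 : ContDiff ℝ ∞ fun y : Cn n => conj (y b) :=
    Complex.conjCLE.contDiff.comp
      ((EuclideanSpace.proj b : Cn n →L[ℂ] ℂ).restrictScalars ℝ).contDiff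
  exact (h2.mul (Complex.ofRealCLM.contDiff.comp h1)).of_le (by simp)

theorem rho_cont (s : ℝ) : Continuous (rho n s) :=
  (P_cont.comp ((continuous_norm.pow 2).div_const _)).mul_const _

theorem rho_nonneg {s : ℝ} (y : Cn n) : 0 ≤ rho n s y := by
  unfold rho
  exact mul_nonneg (P_nonneg _) (by rw [pow_mul]; positivity)

theorem wd_nsq (b : Fin n) (y : Cn n) (k : ℝ → ℝ) (hk : Differentiable ℝ k) :
    wd (true, b) (fun y : Cn n => ((k (‖y‖ ^ 2) : ℝ) : ℂ)) y = y b * (deriv k (‖y‖ ^ 2) : ℝ) := by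
  have h1 : HasFDerivAt (fun y : Cn n => ‖y‖ ^ 2) (2 • (innerSL ℝ y)) y := by
    simpa using (hasStrictFDerivAt_norm_sq y).hasFDerivAt
  have h2 : HasFDerivAt (fun y : Cn n => ((k (‖y‖ ^ 2) : ℝ) : ℂ))
      (Complex.ofRealCLM.comp (deriv k (‖y‖ ^ 2) • (2 • (innerSL ℝ y)))) y :=
    Complex.ofRealCLM.hasFDerivAt.comp y
      ((hk _).hasDerivAt.comp_hasFDerivAt y h1)
  rw [wd, h2.fderiv, wdL]
  have e1 : inner ℝ y (EuclideanSpace.single b (1 : ℂ) : Cn n) = (y b).re := by
    rw [PiLp.inner_apply, Finset.sum_eq_single b]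
    · simp [Complex.inner]
    · intro c _ hc
      simp [hc]
    · intro h; exact absurd (Finset.mem_univ b) h
  have e2 : inner ℝ y (EuclideanSpace.single b I : Cn n) = (y b).im := by
    rw [PiLp.inner_apply, Finset.sum_eq_single b]
    · simp [Complex.inner]
    · intro c _ hc
      simp [hc]
    · intro h; exact absurd (Finset.mem_univ b) h
  simp only [ContinuousLinearMap.comp_apply, _root_.smul_apply, innerSL_apply_apply, e1, e2, cI_true,
    ofRealCLM_apply, smul_eq_mul, nsmul_eq_mul, Nat.cast_ofNat]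
  conv_rhs => rw [← Complex.re_add_im (y b)]
  push_cast
  ring

theorem sum_wd_Psi (s : ℝ) (y : Cn n) :
    ∑ b, wd (true, b) (Psi s b) y =
      ((n * P (‖y‖ ^ 2 / s ^ 2) + (‖y‖ ^ 2 / s ^ 2) * deriv P (‖y‖ ^ 2 / s ^ 2) : ℝ) : ℂ) := by
  have hk : Differentiable ℝ fun u : ℝ => P (u / s ^ 2) := P_diff.comp (differentiable_id.div_const _)
  have hdk : ∀ u, deriv (fun u : ℝ => P (u / s ^ 2)) u = deriv P (u / s ^ 2) / s ^ 2 := by
    intro u
    have h := (P_diff (u / s ^ 2)).hasDerivAt.comp u ((hasDerivAt_id u).div_const (s ^ 2))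
    rw [show (fun u : ℝ => P (u / s ^ 2)) = P ∘ fun x => id x / s ^ 2 from rfl, h.deriv]
    ring
  have h1 : ∀ b, wd (true, b) (Psi s b) y =
      ((P (‖y‖ ^ 2 / s ^ 2) : ℝ) : ℂ) + conj (y b) * (y b * (deriv P (‖y‖ ^ 2 / s ^ 2) / s ^ 2 : ℝ)) := by
    intro b
    have hp : DifferentiableAt ℂ (fun y : Cn n => y b) y :=
      (EuclideanSpace.proj b : Cn n →L[ℂ] ℂ).differentiableAt
    have hc : DifferentiableAt ℝ (fun y : Cn n => conj (y b)) y :=
      (Complex.conjCLE.differentiableAt).comp y (hp.restrictScalars ℝ)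
    have hq : DifferentiableAt ℝ (fun y : Cn n => ((P (‖y‖ ^ 2 / s ^ 2) : ℝ) : ℂ)) y :=
      (Complex.ofRealCLM.contDiff.comp (P_smooth.comp (nsq_smooth.div_const _))).differentiable
        (by simp) y
    have e0 : wd (true, b) (fun y : Cn n => conj (y b)) y = 1 := by
      rw [wd_conj (hp.restrictScalars ℝ), wd_hol hp]
      have : fderiv ℂ (fun y : Cn n => y b) y = (EuclideanSpace.proj b : Cn n →L[ℂ] ℂ) :=
        (EuclideanSpace.proj b : Cn n →L[ℂ] ℂ).fderiv
      rw [this]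
      simp
    unfold Psi
    rw [wd_mul hc hq, e0, one_mul, wd_nsq b y (fun u => P (u / s ^ 2)) hk, hdk]
  simp_rw [h1, Finset.sum_add_distrib]
  rw [Finset.sum_const, Finset.card_univ, Fintype.card_fin]
  have h2 : ∑ b, conj (y b) * (y b * (deriv P (‖y‖ ^ 2 / s ^ 2) / s ^ 2 : ℝ)) =
      ((‖y‖ ^ 2 : ℝ) : ℂ) * (deriv P (‖y‖ ^ 2 / s ^ 2) / s ^ 2 : ℝ) := by
    simp_rw [← mul_assoc]
    rw [← Finset.sum_mul]
    congr 1
    rw [EuclideanSpace.norm_sq_eq]
    push_cast
    refine Finset.sum_congr rfl fun b _ => ?_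
    rw [← Complex.normSq_eq_conj_mul_self, Complex.normSq_eq_norm_sq]
    push_cast
    ring
  rw [h2]
  push_cast
  simp only [nsmul_eq_mul]
  ring

theorem hasDerivAt_rho {s : ℝ} (hs : 0 < s) (y : Cn n) :
    HasDerivAt (fun s => rho n s y)
      (-2 * (s ^ (2 * n + 1))⁻¹ *
        (n * P (‖y‖ ^ 2 / s ^ 2) + (‖y‖ ^ 2 / s ^ 2) * deriv P (‖y‖ ^ 2 / s ^ 2))) s := by
  unfold rho
  have h1 : HasDerivAt (fun s : ℝ => ‖y‖ ^ 2 / s ^ 2) (-2 * ‖y‖ ^ 2 / s ^ 3) s := by
    have h := ((hasDerivAt_pow 2 s).inv (pow_ne_zero 2 hs.ne')).const_mul (‖y‖ ^ 2)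
    refine h.congr_deriv ?_
    norm_num
    field_simp
  have h2 := (P_diff (‖y‖ ^ 2 / s ^ 2)).hasDerivAt.comp s h1
  have h3 : HasDerivAt (fun s : ℝ => (s ^ (2 * n))⁻¹) (-(2 * n) * (s ^ (2 * n + 1))⁻¹) s := by
    have h := (hasDerivAt_pow (2 * n) s).inv (pow_ne_zero _ hs.ne')
    refine h.congr_deriv ?_
    rcases Nat.eq_zero_or_pos n with rfl | hn
    · simp
    · have e2 : s ^ (2 * n) = s ^ (2 * n - 1) * s := by
        rw [← pow_succ]; congr 1; omega
      have hq : s ^ (2 * n - 1) ≠ 0 := pow_ne_zero _ hs.ne'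
      rw [pow_succ s (2 * n), e2]
      set q := s ^ (2 * n - 1)
      push_cast
      field_simp
  refine (h2.mul h3).congr_deriv ?_
  simp only [Function.comp]
  rw [pow_succ s (2 * n)]
  field_simp
  ring

/-- the mollified trace -/
def Mi (B : Set (Cn n)) (G : Cn n → Cn n) (g : Cn n → ℂ) (s : ℝ) : ℂ :=
  ∫ z in B, (rho n s (G z) : ℂ) * (conj (jm G z).det * g z)

variable {U B : Set (Cn n)} {G : Cn n → Cn n} {g : Cn n → ℂ}

theorem h_cont (hG : AnalyticOnNhd ℂ G U) (hg : AnalyticOnNhd ℂ g U) :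
    ContinuousOn (fun z => conj (jm G z).det * g z) U := by
  have h1 : ContinuousOn (fun z => (jm G z).det) U := (an_det fun a b => an_jm hG a b).continuousOn
  exact (Complex.continuous_conj.comp_continuousOn h1).mul hg.continuousOn

theorem Mi_deriv (hB : IsOpen B) (hBb : Bornology.IsBounded B) (hcl : closure B ⊆ U)
    (hG : AnalyticOnNhd ℂ G U) (hg : AnalyticOnNhd ℂ g U) {e : ℝ}
    (hf : ∀ z ∈ frontier B, e ≤ ‖G z‖) {s : ℝ} (hs : s ∈ Ioo 0 e) :
    HasDerivAt (Mi B G g) 0 s := by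
  obtain ⟨hs0, hse⟩ := hs
  have hcpt : IsCompact (closure B) := hBb.isCompact_closure
  have hBU : B ⊆ U := subset_closure.trans hcl
  have hhc := h_cont hG hg
  obtain ⟨H, hH⟩ := hcpt.exists_bound_of_continuousOn (hhc.mono hcl)
  have hH0 : ∀ z ∈ B, ‖conj (jm G z).det * g z‖ ≤ H := fun z hz => hH z (subset_closure hz)
  obtain ⟨C1, hC1, hC1b⟩ := exists_C1
  have hfin : volume B < ⊤ := hBb.measure_lt_top
  have hmeas : ∀ k : Cn n → ℝ, Continuous k → AEStronglyMeasurable
      (fun z => ((k (G z) : ℝ) : ℂ) * (conj (jm G z).det * g z)) (volume.restrict B) := by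
    intro k hk
    refine ContinuousOn.aestronglyMeasurable ?_ hB.measurableSet
    exact (Complex.continuous_ofReal.comp_continuousOn
      (hk.comp_continuousOn (hG.continuousOn.mono hBU))).mul (hhc.mono hBU)
  set F' : ℝ → Cn n → ℂ := fun s z => ((-2 * (s ^ (2 * n + 1))⁻¹ *
        (n * P (‖G z‖ ^ 2 / s ^ 2) + (‖G z‖ ^ 2 / s ^ 2) * deriv P (‖G z‖ ^ 2 / s ^ 2)) : ℝ) : ℂ) *
          (conj (jm G z).det * g z) with hF'
  have hball : Metric.ball s (s / 2) ∈ 𝓝 s := Metric.ball_mem_nhds s (by positivity)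
  have key := hasDerivAt_integral_of_dominated_loc_of_deriv_le (μ := volume.restrict B)
    (F := fun s z => ((rho n s (G z) : ℝ) : ℂ) * (conj (jm G z).det * g z)) (F' := F')
    (bound := fun _ => 2 * ((s / 2) ^ (2 * n + 1))⁻¹ * (n + C1) * H) (x₀ := s) hball
    (Eventually.of_forall fun s => hmeas _ (rho_cont s)) ?_ ?_ ?_ ?_ ?_
  · have h0 : ∫ z in B, F' s z = 0 := by
      have hK : IsCompact (closure B ∩ {z | ‖G z‖ ≤ s}) := by
        have h1 : ContinuousOn (fun z => ‖G z‖) (closure B) := (hG.continuousOn.mono hcl).norm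
        have := h1.preimage_isClosed_of_isClosed isClosed_closure (isClosed_Iic (a := s))
        exact hcpt.of_isClosed_subset this inter_subset_left
      have hKB : closure B ∩ {z | ‖G z‖ ≤ s} ⊆ B := by
        rintro z ⟨hz, hz2⟩
        by_contra hzB
        have : z ∈ frontier B := ⟨hz, by rwa [hB.interior_eq]⟩
        exact absurd (hf z this) (not_le.2 (lt_of_le_of_lt hz2 hse))
      have h1 := int_zero (Ψ := fun b => Psi s b) hB hBU hG hg (fun b => Psi_smooth s b) hK hKB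
        (fun z hz hzK b => Psi_zero hs0 (by
          by_contra hlt
          exact hzK ⟨subset_closure hz, (not_le.1 hlt).le⟩) b)
      have h2 : ∀ z, F' s z = (-2 * ((s ^ (2 * n + 1))⁻¹ : ℝ) : ℂ) *
          ((∑ b, wd (true, b) (Psi s b) (G z)) * (conj (jm G z).det * g z)) := by
        intro z
        rw [hF', sum_wd_Psi]
        push_cast
        ring
      simp_rw [h2]
      rw [integral_const_mul, h1, mul_zero]
    rw [← h0]
    exact key.2
  · -- integrable at s
    refine Integrable.mono' (g := fun _ => (s ^ (2 * n))⁻¹ * H) ?_ (hmeas _ (rho_cont s)) ?_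
    · exact integrableOn_const hfin.ne
    · refine (ae_restrict_iff' hB.measurableSet).2 (Eventually.of_forall fun z hz => ?_)
      rw [norm_mul]
      refine mul_le_mul ?_ (hH0 z hz) (norm_nonneg _) (by positivity)
      rw [Complex.norm_real, Real.norm_eq_abs, abs_of_nonneg (rho_nonneg _)]
      unfold rho
      calc P _ * (s ^ (2 * n))⁻¹ ≤ 1 * (s ^ (2 * n))⁻¹ :=
            mul_le_mul_of_nonneg_right (P_le_one _) (by positivity)
        _ = _ := one_mul _
  · exact hmeas (fun y => -2 * (s ^ (2 * n + 1))⁻¹ *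
        (n * P (‖y‖ ^ 2 / s ^ 2) + (‖y‖ ^ 2 / s ^ 2) * deriv P (‖y‖ ^ 2 / s ^ 2)))
        (by
          have hc : Continuous fun y : Cn n => ‖y‖ ^ 2 / s ^ 2 := (continuous_norm.pow 2).div_const _
          exact continuous_const.mul ((continuous_const.mul (P_cont.comp hc)).add
            (hc.mul (derivP_cont.comp hc))))
  · refine (ae_restrict_iff' hB.measurableSet).2 (Eventually.of_forall fun z hz r hr => ?_)
    rw [Metric.mem_ball, Real.dist_eq, abs_lt] at hr
    have hr0 : 0 < s / 2 := by positivity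
    have hr1 : s / 2 ≤ r := by linarith [hr.1]
    have hrpos : 0 < r := by linarith
    rw [hF']
    simp only
    rw [norm_mul, Complex.norm_real, Real.norm_eq_abs, abs_mul, abs_mul]
    have hu : 0 ≤ ‖G z‖ ^ 2 / r ^ 2 := by positivity
    have b1 : |(n : ℝ) * P (‖G z‖ ^ 2 / r ^ 2) + ‖G z‖ ^ 2 / r ^ 2 * deriv P (‖G z‖ ^ 2 / r ^ 2)| ≤
        n + C1 := by
      refine (abs_add_le _ _).trans (add_le_add ?_ (hC1b _ hu))
      rw [abs_mul, abs_of_nonneg (P_nonneg _), Nat.abs_cast]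
      exact mul_le_of_le_one_right (Nat.cast_nonneg _) (P_le_one _)
    have b2 : |(r ^ (2 * n + 1))⁻¹| ≤ ((s / 2) ^ (2 * n + 1))⁻¹ := by
      rw [abs_of_nonneg (by positivity)]
      exact inv_anti₀ (by positivity) (pow_le_pow_left₀ hr0.le hr1 _)
    have hH' : 0 ≤ H := (norm_nonneg _).trans (hH0 z hz)
    have b3 : |(-2 : ℝ)| = 2 := by norm_num
    rw [b3]
    gcongr
    exact hH0 z hz
  · exact integrableOn_const hfin.ne
  · refine (ae_restrict_iff' hB.measurableSet).2 (Eventually.of_forall fun z hz r hr => ?_)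
    rw [Metric.mem_ball, Real.dist_eq, abs_lt] at hr
    have hrpos : 0 < r := by linarith [hr.1]
    exact (hasDerivAt_rho hrpos (G z)).ofReal_comp.mul_const _

theorem Mi_const (hB : IsOpen B) (hBb : Bornology.IsBounded B) (hcl : closure B ⊆ U)
    (hG : AnalyticOnNhd ℂ G U) (hg : AnalyticOnNhd ℂ g U) {e : ℝ}
    (hf : ∀ z ∈ frontier B, e ≤ ‖G z‖) {s s' : ℝ} (hs : s ∈ Ioo 0 e) (hs' : s' ∈ Ioo 0 e) :
    Mi B G g s = Mi B G g s' :=
  isOpen_Ioo.is_const_of_deriv_eq_zero isPreconnected_Ioo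
    (fun _ hr => (Mi_deriv hB hBb hcl hG hg hf hr).differentiableAt.differentiableWithinAt)
    (fun _ hr => (Mi_deriv hB hBb hcl hG hg hf hr).deriv) hs hs'

theorem Mi_le (hBb : Bornology.IsBounded B) {s H : ℝ} (hs : 0 < s)
    (hH : ∀ z ∈ B, ‖conj (jm G z).det * g z‖ ≤ H) :
    ‖Mi B G g s‖ ≤ (s ^ (2 * n))⁻¹ * H * (volume B).toReal := by
  refine norm_setIntegral_le_of_norm_le_const hBb.measure_lt_top fun z hz => ?_
  rw [norm_mul]
  refine mul_le_mul ?_ (hH z hz) (norm_nonneg _) (by positivity)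
  rw [Complex.norm_real, Real.norm_eq_abs, abs_of_nonneg (rho_nonneg _)]
  unfold rho
  calc P _ * (s ^ (2 * n))⁻¹ ≤ 1 * (s ^ (2 * n))⁻¹ :=
        mul_le_mul_of_nonneg_right (P_le_one _) (by positivity)
    _ = _ := one_mul _

end

end Crest.Agent.R257.RtB_838
end

-- ▼ part R257/RtC_838
section

/-!
# R257 (S0395), leaf LCX-RT (helper838), part C: the limit of the mollified trace for small radii,
and the trace formula `rt`.
-/

set_option autoImplicit false
set_option linter.unusedSectionVars false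

open Set Filter Topology Complex MeasureTheory
open scoped ContDiff Matrix ComplexConjugate

namespace Crest.Agent.R257.RtC_838

open Crest.Agent.R275.Geo Crest.Agent.R275.EDR890 RtA_838 RtB_838

noncomputable section

variable {n : ℕ}

/-- the mass of the profile -/
def cn (n : ℕ) : ℝ := ∫ y : Cn n, P (‖y‖ ^ 2)

theorem finrank_Cn : Module.finrank ℝ (Cn n) = 2 * n := by
  have h1 : Module.finrank ℝ (Cn n) = Module.finrank ℝ ℂ * Module.finrank ℂ (Cn n) :=
    (Module.finrank_mul_finrank ℝ ℂ (Cn n)).symm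
  rw [h1, Complex.finrank_real_complex, finrank_euclideanSpace, Fintype.card_fin]

theorem int_rho {s : ℝ} (hs : 0 < s) : ∫ y : Cn n, rho n s y = cn n := by
  have h1 : ∀ y : Cn n, rho n s y = (s ^ (2 * n))⁻¹ * (fun y : Cn n => P (‖y‖ ^ 2)) (s⁻¹ • y) := by
    intro y
    have e : ‖y‖ ^ 2 / s ^ 2 = ‖s⁻¹ • y‖ ^ 2 := by
      rw [norm_smul, Real.norm_eq_abs, abs_of_pos (inv_pos.2 hs)]
      field_simp
    show P (‖y‖ ^ 2 / s ^ 2) * (s ^ (2 * n))⁻¹ = (s ^ (2 * n))⁻¹ * P (‖s⁻¹ • y‖ ^ 2)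
    rw [e, mul_comm]
  have h2 := Measure.integral_comp_smul (μ := (volume : Measure (Cn n)))
    (fun y : Cn n => P (‖y‖ ^ 2)) s⁻¹
  rw [integral_congr_ae (Eventually.of_forall h1), integral_const_mul, h2, finrank_Cn]
  unfold cn
  rw [smul_eq_mul, ← mul_assoc, inv_pow, inv_inv, abs_of_pos (pow_pos hs _),
    inv_mul_cancel₀ (pow_ne_zero _ hs.ne'), one_mul]

theorem supp_rho {s : ℝ} (hs : 0 < s) {y : Cn n} (h : rho n s y ≠ 0) : ‖y‖ < s := by
  by_contra h1
  exact h (rho_zero hs (not_lt.1 h1))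

theorem cs_rho {s : ℝ} (hs : 0 < s) : HasCompactSupport (rho n s) := by
  refine HasCompactSupport.intro (isCompact_closedBall (0 : Cn n) s) fun y hy => ?_
  rw [Metric.mem_closedBall, dist_zero_right, not_le] at hy
  exact rho_zero hs hy.le


theorem cn_pos : 0 < cn n := by
  have h1 : (∫ y : Cn n, rho n 1 y) = cn n := int_rho one_pos
  rw [← h1]
  refine (Continuous.integral_pos_of_hasCompactSupport_nonneg_nonzero (x := 0) (rho_cont 1)
    (cs_rho one_pos) (fun y => rho_nonneg y) ?_)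
  unfold rho
  rw [P_one (by simp)]
  norm_num

/-- complex determinant of the derivative -/
theorem det_jm (G : Cn n → Cn n) (z : Cn n) :
    (jm G z).det = LinearMap.det ((fderiv ℂ G z : Cn n →L[ℂ] Cn n) : Cn n →ₗ[ℂ] Cn n) := by
  rw [← LinearMap.det_toMatrix (EuclideanSpace.basisFun (Fin n) ℂ).toBasis, ← Matrix.det_transpose]
  congr 1

theorem det_real' (L : Cn n →L[ℂ] Cn n) :
    (L.restrictScalars ℝ).det = ‖LinearMap.det (L : Cn n →ₗ[ℂ] Cn n)‖ ^ 2 := by
  have h1 : (L.restrictScalars ℝ).det =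
      LinearMap.det ((L : Cn n →ₗ[ℂ] Cn n).restrictScalars ℝ) := rfl
  rw [h1, LinearMap.det_restrictScalars, Algebra.norm_complex_apply, Complex.normSq_eq_norm_sq]

variable {U B : Set (Cn n)} {G : Cn n → Cn n} {g : Cn n → ℂ}

/-- local structure at a nondegenerate zero -/
theorem loc (hG : AnalyticOnNhd ℂ G U) (hU : IsOpen U) {p : Cn n} (hp : p ∈ U) (h0 : G p = 0)
    (hd : (jm G p).det ≠ 0) {O : Set (Cn n)} (hO : IsOpen O) (hpO : p ∈ O) :
    ∃ V : Set (Cn n), IsOpen V ∧ p ∈ V ∧ V ⊆ U ∧ V ⊆ O ∧ InjOn G V ∧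
      (∀ z ∈ V, (jm G z).det ≠ 0) ∧
      ∀ W ∈ 𝓝 p, ∃ r > (0 : ℝ), ∀ y : Cn n, ‖y‖ < r → ∃ w ∈ V ∩ W, G w = y := by
  have hd' : (fderiv ℂ G p).det ≠ 0 := by rw [det_jm] at hd; exact hd
  set L := ContinuousLinearMap.toContinuousLinearEquivOfDetNeZero (fderiv ℂ G p) hd'
  have hst : HasStrictFDerivAt G (L : Cn n →L[ℂ] Cn n) p := (hG p hp).hasStrictFDerivAt
  set e := hst.toOpenPartialHomeomorph G
  have hdet : ContinuousOn (fun z => (jm G z).det) U := (an_det fun a b => an_jm hG a b).continuousOn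
  have hR : IsOpen {z | z ∈ U ∧ (jm G z).det ≠ 0} :=
    hdet.isOpen_inter_preimage hU (isOpen_compl_singleton (x := (0 : ℂ)))
  refine ⟨e.source ∩ {z | z ∈ U ∧ (jm G z).det ≠ 0} ∩ O, (e.open_source.inter hR).inter hO,
    ⟨⟨hst.mem_toOpenPartialHomeomorph_source, hp, hd⟩, hpO⟩, fun z hz => hz.1.2.1, fun z hz => hz.2,
    ?_, fun z hz => hz.1.2.2, ?_⟩
  · have : InjOn e e.source := e.injOn
    exact fun a ha b hb hab => this ha.1.1 hb.1.1 hab
  · intro W hW
    have hmem : (e.source ∩ {z | z ∈ U ∧ (jm G z).det ≠ 0} ∩ O) ∩ W ∈ 𝓝 p :=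
      inter_mem (((e.open_source.inter hR).inter hO).mem_nhds
        ⟨⟨hst.mem_toOpenPartialHomeomorph_source, hp, hd⟩, hpO⟩) hW
    have himg : G '' ((e.source ∩ {z | z ∈ U ∧ (jm G z).det ≠ 0} ∩ O) ∩ W) ∈ 𝓝 (G p) := by
      rw [← hst.map_nhds_eq_of_equiv]
      exact image_mem_map hmem
    rw [h0] at himg
    obtain ⟨r, hr, hball⟩ := Metric.mem_nhds_iff.1 himg
    refine ⟨r, hr, fun y hy => ?_⟩
    have : y ∈ Metric.ball (0 : Cn n) r := by rwa [Metric.mem_ball, dist_zero_right]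
    exact hball this

/-- change of variables on an injectivity set -/
theorem chg (hG : AnalyticOnNhd ℂ G U) {V : Set (Cn n)} (hV : IsOpen V) (hVU : V ⊆ U)
    (hinj : InjOn G V) (f : Cn n → ℝ) :
    ∫ y in G '' V, f y = ∫ z in V, ‖(jm G z).det‖ ^ 2 * f (G z) := by
  rw [integral_image_eq_integral_abs_det_fderiv_smul (μ := volume) hV.measurableSet
    (f' := fun z => (fderiv ℂ G z).restrictScalars ℝ)
    (fun z hz => ((hG z (hVU hz)).differentiableAt.hasFDerivAt.restrictScalars ℝ).hasFDerivWithinAt)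
    hinj]
  refine setIntegral_congr_fun hV.measurableSet fun z _ => ?_
  simp only [smul_eq_mul]
  rw [det_real', abs_of_nonneg (by positivity), det_jm]

/-- the contribution of one zero -/
theorem one_zero (hG : AnalyticOnNhd ℂ G U) (hg : AnalyticOnNhd ℂ g U) {p : Cn n}
    {V : Set (Cn n)} (hV : IsOpen V) (hpV : p ∈ V) (hVU : V ⊆ U) (hinj : InjOn G V)
    (hd : ∀ z ∈ V, (jm G z).det ≠ 0)
    (hloc : ∀ W ∈ 𝓝 p, ∃ r > (0 : ℝ), ∀ y : Cn n, ‖y‖ < r → ∃ w ∈ V ∩ W, G w = y) :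
    Tendsto (fun s => ∫ z in V, (rho n s (G z) : ℂ) * (conj (jm G z).det * g z)) (𝓝[>] 0)
      (𝓝 (cn n * (g p / (jm G p).det))) := by
  set k : Cn n → ℂ := fun z => g z / (jm G z).det with hk
  have hkc : ContinuousAt k p :=
    ((hg p (hVU hpV)).continuousAt).div ((an_det fun a b => an_jm hG a b) p (hVU hpV)).continuousAt
      (hd p hpV)
  have hdetc : ContinuousOn (fun z => (jm G z).det) V :=
    (an_det fun a b => an_jm hG a b).continuousOn.mono hVU
  have hkV : ContinuousOn k V := (hg.continuousOn.mono hVU).div hdetc hd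
  rw [Metric.tendsto_nhds]
  intro ε hε
  -- mass
  obtain ⟨r0, hr0, hr0'⟩ := hloc univ univ_mem
  set δ := ε / (2 * cn n) with hδ
  have hcn := cn_pos (n := n)
  have hδ0 : 0 < δ := by positivity
  have hW : {z | dist (k z) (k p) < δ} ∈ 𝓝 p := hkc (Metric.ball_mem_nhds (k p) hδ0)
  obtain ⟨r1, hr1, hr1'⟩ := hloc _ hW
  have hev : ∀ᶠ s : ℝ in 𝓝[>] 0, s < min r0 r1 :=
    mem_nhdsWithin_of_mem_nhds (gt_mem_nhds (lt_min hr0 hr1))
  filter_upwards [hev, self_mem_nhdsWithin] with s hs hs0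
  have hs0' : (0 : ℝ) < s := hs0
  have hsr0 : s < r0 := hs.trans_le (min_le_left _ _)
  have hsr1 : s < r1 := hs.trans_le (min_le_right _ _)
  -- total mass
  have hball : ∀ y : Cn n, ‖y‖ < s → y ∈ G '' V := by
    intro y hy
    obtain ⟨w, hw, e⟩ := hr0' y (hy.trans hsr0)
    exact ⟨w, hw.1, e⟩
  have hmass : ∫ z in V, ‖(jm G z).det‖ ^ 2 * rho n s (G z) = cn n := by
    rw [← chg hG hV hVU hinj, ← int_rho (n := n) hs0']
    refine setIntegral_eq_integral_of_forall_compl_eq_zero fun y hy => ?_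
    by_contra hne
    exact hy (hball y (supp_rho hs0' hne))
  have hnear : ∀ z ∈ V, rho n s (G z) ≠ 0 → dist (k z) (k p) < δ := by
    intro z hz hne
    obtain ⟨w, hw, e⟩ := hr1' (G z) ((supp_rho hs0' hne).trans hsr1)
    have : w = z := hinj hw.1 hz e
    rw [← this]
    exact hw.2
  -- integrability of the mass
  have hint : IntegrableOn (fun z => ‖(jm G z).det‖ ^ 2 * rho n s (G z)) V := by
    by_contra hni
    rw [integral_undef hni] at hmass
    exact hcn.ne hmass
  have hrw : ∀ z ∈ V, (rho n s (G z) : ℂ) * (conj (jm G z).det * g z) =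
      ((‖(jm G z).det‖ ^ 2 * rho n s (G z) : ℝ) : ℂ) * k z := by
    intro z hz
    have h2 : (jm G z).det ≠ 0 := hd z hz
    have h3 : ((‖(jm G z).det‖ ^ 2 : ℝ) : ℂ) = conj (jm G z).det * (jm G z).det := by
      rw [← Complex.normSq_eq_conj_mul_self, Complex.normSq_eq_norm_sq]
    rw [ofReal_mul, h3, hk]
    field_simp
  rw [setIntegral_congr_fun hV.measurableSet hrw]
  have hconst : (cn n : ℂ) * (g p / (jm G p).det) =
      ∫ z in V, ((‖(jm G z).det‖ ^ 2 * rho n s (G z) : ℝ) : ℂ) * k p := by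
    have h4 : ∫ z in V, ((‖(jm G z).det‖ ^ 2 * rho n s (G z) : ℝ) : ℂ) = ((cn n : ℝ) : ℂ) := by
      rw [← hmass]
      exact integral_ofReal
    rw [integral_mul_const, h4]
  have hintc : IntegrableOn (fun z => ((‖(jm G z).det‖ ^ 2 * rho n s (G z) : ℝ) : ℂ)) V := hint.ofReal
  have hint1 : IntegrableOn (fun z => ((‖(jm G z).det‖ ^ 2 * rho n s (G z) : ℝ) : ℂ) * k p) V :=
    hintc.mul_const _
  have hint3 : IntegrableOn (fun z => ((‖(jm G z).det‖ ^ 2 * rho n s (G z) : ℝ) : ℂ) * (k z - k p)) V := by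
    refine Integrable.mono' (g := fun z => (‖(jm G z).det‖ ^ 2 * rho n s (G z)) * δ)
      (hint.mul_const δ) ?_ ?_
    · refine ContinuousOn.aestronglyMeasurable ?_ hV.measurableSet
      refine ContinuousOn.mul ?_ (hkV.sub continuousOn_const)
      exact Complex.continuous_ofReal.comp_continuousOn ((hdetc.norm.pow 2).mul
        ((rho_cont s).comp_continuousOn (hG.continuousOn.mono hVU)))
    · refine (ae_restrict_iff' hV.measurableSet).2 (Eventually.of_forall fun z hz => ?_)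
      rw [norm_mul, Complex.norm_real, Real.norm_eq_abs,
        abs_of_nonneg (mul_nonneg (by positivity) (rho_nonneg _))]
      by_cases hne : rho n s (G z) = 0
      · simp [hne]
      · refine mul_le_mul_of_nonneg_left ?_ (mul_nonneg (by positivity) (rho_nonneg _))
        rw [← dist_eq_norm]
        exact (hnear z hz hne).le
  have hint2 : IntegrableOn (fun z => ((‖(jm G z).det‖ ^ 2 * rho n s (G z) : ℝ) : ℂ) * k z) V := by
    refine (hint3.add hint1).congr (Eventually.of_forall fun z => ?_)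
    simp only [Pi.add_apply]
    ring
  rw [hconst, dist_eq_norm, ← integral_sub hint2 hint1]
  have hle : ‖∫ z in V, (((‖(jm G z).det‖ ^ 2 * rho n s (G z) : ℝ) : ℂ) * k z -
      ((‖(jm G z).det‖ ^ 2 * rho n s (G z) : ℝ) : ℂ) * k p)‖ ≤
      ∫ z in V, (‖(jm G z).det‖ ^ 2 * rho n s (G z)) * δ := by
    refine norm_integral_le_of_norm_le (hint.mul_const δ) ?_
    refine (ae_restrict_iff' hV.measurableSet).2 (Eventually.of_forall fun z hz => ?_)
    rw [← mul_sub, norm_mul, Complex.norm_real, Real.norm_eq_abs,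
      abs_of_nonneg (mul_nonneg (by positivity) (rho_nonneg _))]
    by_cases hne : rho n s (G z) = 0
    · simp [hne]
    · refine mul_le_mul_of_nonneg_left ?_ (mul_nonneg (by positivity) (rho_nonneg _))
      rw [← dist_eq_norm]
      exact (hnear z hz hne).le
  refine hle.trans_lt ?_
  rw [integral_mul_const, hmass, hδ]
  have : cn n * (ε / (2 * cn n)) = ε / 2 := by field_simp
  rw [this]
  linarith

theorem int_on (hBb : Bornology.IsBounded B) (hcl : closure B ⊆ U)
    (hG : AnalyticOnNhd ℂ G U) (hg : AnalyticOnNhd ℂ g U) (s : ℝ) :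
    IntegrableOn (fun z => (rho n s (G z) : ℂ) * (conj (jm G z).det * g z)) B := by
  have h1 : ContinuousOn (fun z => (rho n s (G z) : ℂ) * (conj (jm G z).det * g z)) (closure B) :=
    (Complex.continuous_ofReal.comp_continuousOn
      ((rho_cont s).comp_continuousOn (hG.continuousOn.mono hcl))).mul ((h_cont hG hg).mono hcl)
  exact (h1.integrableOn_compact hBb.isCompact_closure).mono_set subset_closure

/-- the limit of the mollified trace -/
theorem total (hU : IsOpen U) (hB : IsOpen B) (hBb : Bornology.IsBounded B) (hcl : closure B ⊆ U)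
    (hG : AnalyticOnNhd ℂ G U) (hg : AnalyticOnNhd ℂ g U) {e : ℝ} (he : 0 < e)
    (hf : ∀ z ∈ frontier B, e ≤ ‖G z‖) {Z : Finset (Cn n)} (hZ : ∀ z, z ∈ Z ↔ z ∈ B ∧ G z = 0)
    (hd : ∀ z ∈ Z, (jm G z).det ≠ 0) :
    Tendsto (Mi B G g) (𝓝[>] 0) (𝓝 (cn n * ∑ p ∈ Z, g p / (jm G p).det)) := by
  obtain ⟨O, hO, hdis⟩ := Set.Finite.t2_separation (Z.finite_toSet)
  have hBU : B ⊆ U := subset_closure.trans hcl
  have hex : ∀ p : Z, ∃ V : Set (Cn n), IsOpen V ∧ (p : Cn n) ∈ V ∧ V ⊆ U ∧ V ⊆ O p ∩ B ∧ InjOn G V ∧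
      (∀ z ∈ V, (jm G z).det ≠ 0) ∧
      ∀ W ∈ 𝓝 (p : Cn n), ∃ r > (0 : ℝ), ∀ y : Cn n, ‖y‖ < r → ∃ w ∈ V ∩ W, G w = y := by
    intro p
    have hp := (hZ p).1 p.2
    exact loc hG hU (hBU hp.1) hp.2 (hd p p.2) ((hO p).2.inter hB) ⟨(hO p).1, hp.1⟩
  choose! V' hV' using hex
  set V : Cn n → Set (Cn n) := fun p => if h : p ∈ Z then V' ⟨p, h⟩ else ∅ with hV
  have hVp : ∀ p ∈ Z, IsOpen (V p) ∧ p ∈ V p ∧ V p ⊆ U ∧ V p ⊆ O p ∩ B ∧ InjOn G (V p) ∧
      (∀ z ∈ V p, (jm G z).det ≠ 0) ∧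
      ∀ W ∈ 𝓝 p, ∃ r > (0 : ℝ), ∀ y : Cn n, ‖y‖ < r → ∃ w ∈ V p ∩ W, G w = y := by
    intro p hp
    have h1 : V p = V' ⟨p, hp⟩ := by rw [hV]; simp only [hp, dite_true]
    rw [h1]
    exact hV' ⟨p, hp⟩
  have hsum : Tendsto (fun s => ∑ p ∈ Z, ∫ z in V p, (rho n s (G z) : ℂ) * (conj (jm G z).det * g z))
      (𝓝[>] 0) (𝓝 (∑ p ∈ Z, cn n * (g p / (jm G p).det))) := by
    refine tendsto_finset_sum _ fun p hp => ?_
    obtain ⟨h1, h2, h3, -, h5, h6, h7⟩ := hVp p hp
    exact one_zero hG hg h1 h2 h3 h5 h6 h7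
  rw [← Finset.mul_sum] at hsum
  -- the complement
  have hopen : IsOpen (⋃ p ∈ Z, V p) := isOpen_biUnion fun p hp => (hVp p hp).1
  have hK : IsCompact (closure B \ ⋃ p ∈ Z, V p) := hBb.isCompact_closure.diff hopen
  have hne : ∀ z ∈ closure B \ ⋃ p ∈ Z, V p, G z ≠ 0 := by
    rintro z ⟨hz, hz2⟩ h0
    by_cases hzB : z ∈ B
    · have : z ∈ Z := (hZ z).2 ⟨hzB, h0⟩
      exact hz2 (mem_biUnion this (hVp z this).2.1)
    · have : z ∈ frontier B := ⟨hz, by rwa [hB.interior_eq]⟩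
      have := hf z this
      rw [h0, norm_zero] at this
      linarith
  obtain ⟨η, hη, hηb⟩ : ∃ η > (0 : ℝ), ∀ z ∈ closure B \ ⋃ p ∈ Z, V p, η ≤ ‖G z‖ := by
    rcases (closure B \ ⋃ p ∈ Z, V p).eq_empty_or_nonempty with h | h
    · exact ⟨1, one_pos, fun z hz => by rw [h] at hz; exact absurd hz (notMem_empty z)⟩
    · obtain ⟨z0, hz0, hmin⟩ := hK.exists_isMinOn h
        ((hG.continuousOn.mono (diff_subset.trans hcl)).norm)
      exact ⟨‖G z0‖, norm_pos_iff.2 (hne z0 hz0), fun z hz => hmin hz⟩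
  refine hsum.congr' ?_
  have hev : ∀ᶠ s : ℝ in 𝓝[>] 0, s < η := mem_nhdsWithin_of_mem_nhds (gt_mem_nhds hη)
  filter_upwards [hev, self_mem_nhdsWithin] with s hs hs0
  have hs0' : (0 : ℝ) < s := hs0
  have hint := int_on hBb hcl hG hg s
  unfold Mi
  have h1 : ∫ z in B, (rho n s (G z) : ℂ) * (conj (jm G z).det * g z) =
      ∫ z in ⋃ p ∈ Z, V p, (rho n s (G z) : ℂ) * (conj (jm G z).det * g z) := by
    refine setIntegral_eq_of_subset_of_forall_diff_eq_zero hB.measurableSet ?_ ?_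
    · exact iUnion₂_subset fun p hp => (hVp p hp).2.2.2.1.trans inter_subset_right
    · intro z hz
      have : s ≤ ‖G z‖ := hs.le.trans (hηb z ⟨subset_closure hz.1, hz.2⟩)
      rw [rho_zero hs0' this]
      simp
  rw [h1, integral_biUnion_finset]
  · exact fun p hp => (hVp p hp).1.measurableSet
  · intro p hp q hq hpq
    have := hdis hp hq hpq
    exact this.mono ((hVp p hp).2.2.2.1.trans inter_subset_left)
      ((hVp q hq).2.2.2.1.trans inter_subset_left)
  · exact fun p hp => hint.mono_set ((hVp p hp).2.2.2.1.trans inter_subset_right)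

/-- THE TRACE FORMULA -/
theorem trace (hU : IsOpen U) (hB : IsOpen B) (hBb : Bornology.IsBounded B) (hcl : closure B ⊆ U)
    (hG : AnalyticOnNhd ℂ G U) (hg : AnalyticOnNhd ℂ g U) {e : ℝ}
    (hf : ∀ z ∈ frontier B, e ≤ ‖G z‖) {Z : Finset (Cn n)} (hZ : ∀ z, z ∈ Z ↔ z ∈ B ∧ G z = 0)
    (hd : ∀ z ∈ Z, (jm G z).det ≠ 0) {s : ℝ} (hs : s ∈ Ioo 0 e) :
    (cn n : ℂ) * ∑ p ∈ Z, g p / (jm G p).det = Mi B G g s := by
  have he : 0 < e := hs.1.trans hs.2
  refine tendsto_nhds_unique (total hU hB hBb hcl hG hg he hf hZ hd) ?_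
  refine tendsto_const_nhds.congr' ?_
  have hev : ∀ᶠ s : ℝ in 𝓝[>] 0, s < e := mem_nhdsWithin_of_mem_nhds (gt_mem_nhds he)
  filter_upwards [hev, self_mem_nhdsWithin] with s' hs' hs0
  exact Mi_const hB hBb hcl hG hg hf hs ⟨hs0, hs'⟩

/-- THE TRACE BOUND -/
theorem trace_le (hU : IsOpen U) (hB : IsOpen B) (hBb : Bornology.IsBounded B) (hcl : closure B ⊆ U)
    (hG : AnalyticOnNhd ℂ G U) (hg : AnalyticOnNhd ℂ g U) {e : ℝ} (he : 0 < e)
    (hf : ∀ z ∈ frontier B, e ≤ ‖G z‖) {Z : Finset (Cn n)} (hZ : ∀ z, z ∈ Z ↔ z ∈ B ∧ G z = 0)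
    (hd : ∀ z ∈ Z, (jm G z).det ≠ 0) {H : ℝ} (hH : ∀ z ∈ B, ‖conj (jm G z).det * g z‖ ≤ H) :
    ‖∑ p ∈ Z, g p / (jm G p).det‖ ≤
      (cn n)⁻¹ * (((e / 2) ^ (2 * n))⁻¹ * H * (volume B).toReal) := by
  have h1 := trace hU hB hBb hcl hG hg hf hZ hd (s := e / 2) ⟨by positivity, by linarith⟩
  have h2 := Mi_le (G := G) (g := g) hBb (s := e / 2) (H := H) (by positivity) hH
  rw [← h1, norm_mul, Complex.norm_real, Real.norm_eq_abs, abs_of_pos cn_pos] at h2
  rw [inv_mul_eq_div, le_div_iff₀ cn_pos, mul_comm]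
  exact h2

end

end Crest.Agent.R257.RtC_838
end

-- ▼ part R257/RtD_838

/-!
# R257 (S0395), leaf LCX-RT (helper838), part D: the trace bound for analytic families
`G(·,t) : ℂ^n → ℂ^n`, in the language of `Defs_219`.
-/

set_option autoImplicit false
set_option linter.unusedSectionVars false

open Set Filter Topology Complex MeasureTheory
open scoped ContDiff Matrix ComplexConjugate

namespace Crest.Agent.R257.RtD_838

open Crest.Agent.R275.Geo Crest.Agent.R275.EDR890 RtA_838 RtB_838 RtC_838 Defs_219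
open Crest.AlgGeometry.Germ

noncomputable section

variable {n : ℕ}

/-- the Jacobian determinant of `n` functions on `ℂ^n` -/
def jac (G : Fin n → (Fin n → ℂ) → ℂ) (x : Fin n → ℂ) : ℂ :=
  (Matrix.of fun i j => coordDeriv (G j) i x).det

/-- the Hessian determinant -/
def hs (f : (Fin n → ℂ) → ℂ) (x : Fin n → ℂ) : ℂ :=
  (Matrix.of fun i j => coordDeriv (coordDeriv f j) i x).det

abbrev eqv (n : ℕ) : Cn n ≃L[ℂ] (Fin n → ℂ) := EuclideanSpace.equiv (Fin n) ℂ

/-- the lift to the euclidean space -/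
def up (G : Fin n → (Fin n → ℂ) × ℂ → ℂ) (t : ℂ) (y : Fin n → ℂ) (z : Cn n) : Cn n :=
  (eqv n).symm fun j => G j (eqv n z, t) - y j

theorem up_apply (G : Fin n → (Fin n → ℂ) × ℂ → ℂ) (t : ℂ) (y : Fin n → ℂ) (z : Cn n) (j : Fin n) :
    up G t y z j = G j (eqv n z, t) - y j := rfl

theorem up_zero_iff {G : Fin n → (Fin n → ℂ) × ℂ → ℂ} {t : ℂ} {y : Fin n → ℂ} {z : Cn n} :
    up G t y z = 0 ↔ ∀ j, G j (eqv n z, t) = y j := by
  constructor
  · intro h j
    have := congrFun (congrArg (eqv n) h) j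
    exact sub_eq_zero.1 this
  · intro h
    ext j
    rw [up_apply, h j, sub_self]
    rfl

theorem norm_up {G : Fin n → (Fin n → ℂ) × ℂ → ℂ} {t : ℂ} {y : Fin n → ℂ} {z : Cn n} :
    ‖(fun j => G j (eqv n z, t) - y j : Fin n → ℂ)‖ ≤ ‖up G t y z‖ := by
  refine (pi_norm_le_iff_of_nonneg (norm_nonneg _)).2 fun j => ?_
  have := PiLp.norm_apply_le (up G t y z) j
  rwa [up_apply] at this

theorem an_sl {f : (Fin n → ℂ) × ℂ → ℂ} {x : Fin n → ℂ} {t : ℂ} (h : AnalyticAt ℂ f (x, t)) :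
    AnalyticAt ℂ (sl f t) x := by
  have h1 : AnalyticAt ℂ (fun x : Fin n → ℂ => (x, t)) x := analyticAt_id.prod analyticAt_const
  exact AnalyticAt.fun_comp (g := f) (f := fun x : Fin n → ℂ => (x, t)) h h1

theorem an_up {G : Fin n → (Fin n → ℂ) × ℂ → ℂ} {t : ℂ} {y : Fin n → ℂ} {z : Cn n}
    (h : ∀ j, AnalyticAt ℂ (G j) (eqv n z, t)) : AnalyticAt ℂ (up G t y) z := by
  have h1 : AnalyticAt ℂ (fun z : Cn n => (fun j => G j (eqv n z, t) - y j : Fin n → ℂ)) z := by
    refine AnalyticAt.pi fun j => ?_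
    refine AnalyticAt.sub ?_ analyticAt_const
    exact AnalyticAt.fun_comp (g := sl (G j) t) (f := fun z : Cn n => eqv n z) (an_sl (h j))
      ((eqv n).toContinuousLinearMap.analyticAt z)
  exact ((eqv n).symm.toContinuousLinearMap.analyticAt _).fun_comp h1

theorem jm_up {G : Fin n → (Fin n → ℂ) × ℂ → ℂ} {t : ℂ} {y : Fin n → ℂ} {z : Cn n}
    (h : ∀ j, AnalyticAt ℂ (G j) (eqv n z, t)) (a b : Fin n) :
    jm (up G t y) z a b = coordDeriv (sl (G b) t) a (eqv n z) := by
  have h1 : HasFDerivAt (fun z : Cn n => (fun j => G j (eqv n z, t) - y j : Fin n → ℂ))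
      (ContinuousLinearMap.pi fun j => (fderiv ℂ (sl (G j) t) (eqv n z)).comp
        (eqv n).toContinuousLinearMap) z := by
    refine hasFDerivAt_pi.2 fun j => ?_
    refine HasFDerivAt.sub_const _ ?_
    exact ((an_sl (h j)).differentiableAt.hasFDerivAt).comp z (eqv n).toContinuousLinearMap.hasFDerivAt
  have h2 : HasFDerivAt (up G t y) ((eqv n).symm.toContinuousLinearMap.comp
      (ContinuousLinearMap.pi fun j => (fderiv ℂ (sl (G j) t) (eqv n z)).comp
        (eqv n).toContinuousLinearMap)) z :=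
    ((eqv n).symm.toContinuousLinearMap.hasFDerivAt).comp z h1
  rw [jm_apply, h2.fderiv]
  unfold coordDeriv
  show (fderiv ℂ (sl (G b) t) (eqv n z)) (eqv n (EuclideanSpace.single a 1)) = _
  congr 1

theorem jac_up {G : Fin n → (Fin n → ℂ) × ℂ → ℂ} {t : ℂ} {y : Fin n → ℂ} {z : Cn n}
    (h : ∀ j, AnalyticAt ℂ (G j) (eqv n z, t)) :
    (jm (up G t y) z).det = jac (fun j => sl (G j) t) (eqv n z) := by
  unfold jac
  congr 1
  ext a b
  exact jm_up h a b

theorem coordDeriv_sl {f : (Fin n → ℂ) × ℂ → ℂ} {x : Fin n → ℂ} {t : ℂ}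
    (h : AnalyticAt ℂ f (x, t)) (i : Fin n) :
    coordDeriv (sl f t) i x = fderiv ℂ f (x, t) (Pi.single i 1, 0) := by
  have h1 : HasFDerivAt (fun x : Fin n → ℂ => (x, t))
      ((ContinuousLinearMap.id ℂ (Fin n → ℂ)).prod 0) x :=
    (hasFDerivAt_id x).prodMk (hasFDerivAt_const t x)
  have h2 : HasFDerivAt (sl f t) ((fderiv ℂ f (x, t)).comp
      ((ContinuousLinearMap.id ℂ (Fin n → ℂ)).prod 0)) x :=
    (h.differentiableAt.hasFDerivAt).comp x h1
  unfold coordDeriv
  rw [h2.fderiv]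
  rfl

theorem jac_cont {G : Fin n → (Fin n → ℂ) × ℂ → ℂ} {q : (Fin n → ℂ) × ℂ}
    (h : ∀ j, AnalyticAt ℂ (G j) q) :
    ContinuousAt (fun p : (Fin n → ℂ) × ℂ => jac (fun j => sl (G j) p.2) p.1) q := by
  have h1 : ∀ᶠ p in 𝓝 q, ∀ j, AnalyticAt ℂ (G j) p :=
    eventually_all.2 fun j => (h j).eventually_analyticAt
  have h2 : (fun p : (Fin n → ℂ) × ℂ => jac (fun j => sl (G j) p.2) p.1) =ᶠ[𝓝 q]
      fun p => (Matrix.of fun i j => fderiv ℂ (G j) p (Pi.single i 1, 0)).det := by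
    filter_upwards [h1] with p hp
    unfold jac
    congr 1
    ext i j
    exact coordDeriv_sl (x := p.1) (t := p.2) (hp j) i
  refine ContinuousAt.congr ?_ h2.symm
  refine Continuous.continuousAt (continuous_id.matrix_det) |>.comp (f := fun p =>
    (Matrix.of fun i j => fderiv ℂ (G j) p (Pi.single i 1, 0) : Matrix (Fin n) (Fin n) ℂ)) ?_
  refine continuousAt_pi.2 fun i => continuousAt_pi.2 fun j => ?_
  exact ((h j).fderiv.continuousAt).clm_apply continuousAt_const

/-- THE TRACE BOUND FOR FAMILIES -/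
theorem rtG (G : Fin n → (Fin n → ℂ) × ℂ → ℂ) (g : (Fin n → ℂ) × ℂ → ℂ)
    (hG : ∀ j, AnalyticAt ℂ (G j) (0, 0)) (hg : AnalyticAt ℂ g (0, 0))
    (hiso : ∀ᶠ x in 𝓝 (0 : Fin n → ℂ), (∀ j, G j (x, 0) = 0) → x = 0) :
    ∃ r₀ > (0 : ℝ), ∀ r, 0 < r → r < r₀ → ∃ δ > (0 : ℝ), ∃ C : ℝ,
      ∀ (t : ℂ) (y : Fin n → ℂ), ‖t‖ < δ → ‖y‖ < δ →
      ∀ Z : Finset (Fin n → ℂ),
      (∀ x, x ∈ Z ↔ x ∈ Metric.ball (0 : Fin n → ℂ) r ∧ ∀ j, G j (x, t) = y j) →
      (∀ x ∈ Z, jac (fun j => sl (G j) t) x ≠ 0) →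
      ‖∑ x ∈ Z, g (x, t) / jac (fun j => sl (G j) t) x‖ ≤ C := by
  have h1 : ∀ᶠ p in 𝓝 ((0 : Fin n → ℂ), (0 : ℂ)), (∀ j, AnalyticAt ℂ (G j) p) ∧ AnalyticAt ℂ g p :=
    (eventually_all.2 fun j => (hG j).eventually_analyticAt).and hg.eventually_analyticAt
  obtain ⟨R1, hR1, hb1⟩ := Metric.eventually_nhds_iff_ball.1 h1
  obtain ⟨R2, hR2, hb2⟩ := Metric.eventually_nhds_iff_ball.1 hiso
  have han : ∀ (x : Fin n → ℂ) (t : ℂ), ‖x‖ < R1 → ‖t‖ < R1 →
      (∀ j, AnalyticAt ℂ (G j) (x, t)) ∧ AnalyticAt ℂ g (x, t) := by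
    intro x t hx ht
    refine hb1 _ ?_
    rw [Metric.mem_ball, ← Prod.zero_eq_mk, dist_zero_right, Prod.norm_def]
    exact max_lt hx ht
  refine ⟨min R1 R2, lt_min hR1 hR2, fun r hr hrR => ?_⟩
  have hrR1 : r < R1 := hrR.trans_le (min_le_left _ _)
  have hrR2 : r < R2 := hrR.trans_le (min_le_right _ _)
  -- the lower bound on the sphere
  have hcS : IsCompact (Metric.sphere (0 : Fin n → ℂ) r) := isCompact_sphere _ _
  have hc0 : ContinuousOn (fun x : Fin n → ℂ => ‖(fun j => G j (x, 0) : Fin n → ℂ)‖)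
      (Metric.sphere (0 : Fin n → ℂ) r) := by
    intro x hx
    have hx' : ‖x‖ = r := by simpa using hx
    refine ContinuousAt.continuousWithinAt ?_
    refine ContinuousAt.norm (continuousAt_pi.2 fun j => ?_)
    exact (an_sl ((han x 0 (by rw [hx']; exact hrR1) (by simpa using hR1)).1 j)).continuousAt
  obtain ⟨e, he, heb⟩ : ∃ e > (0 : ℝ), ∀ x ∈ Metric.sphere (0 : Fin n → ℂ) r,
      3 * e ≤ ‖(fun j => G j (x, 0) : Fin n → ℂ)‖ := by
    rcases (Metric.sphere (0 : Fin n → ℂ) r).eq_empty_or_nonempty with h | h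
    · exact ⟨1, one_pos, fun z hz => by rw [h] at hz; exact absurd hz (notMem_empty z)⟩
    · obtain ⟨x0, hx0, hmin⟩ := hcS.exists_isMinOn h hc0
      have hx0' : ‖x0‖ = r := by simpa using hx0
      have hpos : 0 < ‖(fun j => G j (x0, 0) : Fin n → ℂ)‖ := by
        rw [norm_pos_iff]
        intro h0
        have := hb2 x0 (by rw [Metric.mem_ball, dist_zero_right, hx0']; exact hrR2)
          (fun j => congrFun h0 j)
        rw [this, norm_zero] at hx0'
        exact hr.ne hx0'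
      refine ⟨‖(fun j => G j (x0, 0) : Fin n → ℂ)‖ / 3, by positivity, fun x hx => ?_⟩
      have := hmin hx
      simp only [mem_ofPred_eq] at this
      linarith
  have htube : ∀ᶠ t in 𝓝 (0 : ℂ), ∀ x ∈ Metric.sphere (0 : Fin n → ℂ) r,
      2 * e < ‖(fun j => G j (x, t) : Fin n → ℂ)‖ := by
    refine hcS.eventually_forall_of_forall_eventually
      (P := fun t x => 2 * e < ‖(fun j => G j (x, t) : Fin n → ℂ)‖) fun x hx => ?_
    have hx' : ‖x‖ = r := by simpa using hx
    have hca : ContinuousAt (fun q : ℂ × (Fin n → ℂ) => ‖(fun j => G j (q.2, q.1) : Fin n → ℂ)‖)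
        (0, x) := by
      refine ContinuousAt.norm (continuousAt_pi.2 fun j => ?_)
      have := ((han x 0 (by rw [hx']; exact hrR1) (by simpa using hR1)).1 j).continuousAt
      exact ContinuousAt.comp (f := fun q : ℂ × (Fin n → ℂ) => (q.2, q.1)) (g := G j) (x := (0, x))
        this (continuous_swap.continuousAt)
    have hlt : 2 * e < ‖(fun j => G j (x, 0) : Fin n → ℂ)‖ := by linarith [heb x hx]
    exact hca.eventually (lt_mem_nhds hlt)
  obtain ⟨δ1, hδ1, hb3⟩ := Metric.eventually_nhds_iff_ball.1 htube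
  -- the upper bound
  have hcK : IsCompact (Metric.closedBall (0 : Fin n → ℂ) r ×ˢ Metric.closedBall (0 : ℂ) r) :=
    (isCompact_closedBall _ _).prod (isCompact_closedBall _ _)
  have hcH : ContinuousOn (fun p : (Fin n → ℂ) × ℂ =>
      conj (jac (fun j => sl (G j) p.2) p.1) * g p)
      (Metric.closedBall (0 : Fin n → ℂ) r ×ˢ Metric.closedBall (0 : ℂ) r) := by
    rintro ⟨x, t⟩ ⟨hx, ht⟩
    have hx' : ‖x‖ ≤ r := by simpa using hx
    have ht' : ‖t‖ ≤ r := by simpa using ht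
    have hA := han x t (hx'.trans_lt hrR1) (ht'.trans_lt hrR1)
    exact ((Complex.continuous_conj.continuousAt.comp (jac_cont hA.1)).mul
      hA.2.continuousAt).continuousWithinAt
  obtain ⟨H, hH⟩ := hcK.exists_bound_of_continuousOn hcH
  refine ⟨min δ1 (min e r), lt_min hδ1 (lt_min he hr),
    (cn n)⁻¹ * (((e / 2) ^ (2 * n))⁻¹ * H *
      (volume (eqv n ⁻¹' Metric.ball (0 : Fin n → ℂ) r)).toReal), fun t y ht hy Z hZ hd => ?_⟩
  have ht1 : ‖t‖ < δ1 := ht.trans_le (min_le_left _ _)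
  have htr : ‖t‖ < r := ht.trans_le ((min_le_right _ _).trans (min_le_right _ _))
  have hye : ‖y‖ < e := hy.trans_le ((min_le_right _ _).trans (min_le_left _ _))
  have htR : ‖t‖ < R1 := htr.trans hrR1
  set U : Set (Cn n) := eqv n ⁻¹' Metric.ball (0 : Fin n → ℂ) R1
  set B : Set (Cn n) := eqv n ⁻¹' Metric.ball (0 : Fin n → ℂ) r with hBdef
  have hUo : IsOpen U := Metric.isOpen_ball.preimage (eqv n).continuous
  have hBo : IsOpen B := Metric.isOpen_ball.preimage (eqv n).continuous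
  have hclB : closure B ⊆ eqv n ⁻¹' Metric.closedBall (0 : Fin n → ℂ) r :=
    closure_minimal (preimage_mono Metric.ball_subset_closedBall)
      (Metric.isClosed_closedBall.preimage (eqv n).continuous)
  have hBb : Bornology.IsBounded B := by
    have : IsCompact (eqv n ⁻¹' Metric.closedBall (0 : Fin n → ℂ) r) :=
      (eqv n).toHomeomorph.isCompact_preimage.2 (isCompact_closedBall _ _)
    exact this.isBounded.subset (preimage_mono Metric.ball_subset_closedBall)
  have hclU : closure B ⊆ U := by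
    intro z hz
    have h2 : ‖eqv n z‖ ≤ r := by simpa using hclB hz
    show eqv n z ∈ Metric.ball (0 : Fin n → ℂ) R1
    rw [Metric.mem_ball, dist_zero_right]
    exact h2.trans_lt hrR1
  have hUan : ∀ z ∈ U, (∀ j, AnalyticAt ℂ (G j) (eqv n z, t)) ∧ AnalyticAt ℂ g (eqv n z, t) := by
    intro z hz
    have h2 : ‖eqv n z‖ < R1 := by simpa using (show eqv n z ∈ Metric.ball (0 : Fin n → ℂ) R1 from hz)
    exact han _ _ h2 htR
  have hGan : AnalyticOnNhd ℂ (up G t y) U := fun z hz => an_up (hUan z hz).1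
  have hgan : AnalyticOnNhd ℂ (fun z : Cn n => g (eqv n z, t)) U := fun z hz =>
    AnalyticAt.fun_comp (g := sl g t) (f := fun z : Cn n => eqv n z) (an_sl (hUan z hz).2)
      ((eqv n).toContinuousLinearMap.analyticAt z)
  have hfr : ∀ z ∈ frontier B, e ≤ ‖up G t y z‖ := by
    intro z hz
    rw [hBo.frontier_eq] at hz
    have h2 : ‖eqv n z‖ ≤ r := by simpa using hclB hz.1
    have h3 : r ≤ ‖eqv n z‖ := by
      by_contra h4
      exact hz.2 (by
        show eqv n z ∈ Metric.ball (0 : Fin n → ℂ) r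
        rw [Metric.mem_ball, dist_zero_right]
        exact not_le.1 h4)
    have h5 : eqv n z ∈ Metric.sphere (0 : Fin n → ℂ) r := by
      rw [mem_sphere_iff_norm, sub_zero]; exact le_antisymm h2 h3
    have h6 := hb3 t (by rw [Metric.mem_ball, dist_zero_right]; exact ht1) _ h5
    refine le_trans ?_ norm_up
    have h7 : ‖(fun j => G j (eqv n z, t) : Fin n → ℂ)‖ ≤
        ‖(fun j => G j (eqv n z, t) - y j : Fin n → ℂ)‖ + ‖y‖ := by
      have : (fun j => G j (eqv n z, t) : Fin n → ℂ) =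
          (fun j => G j (eqv n z, t) - y j : Fin n → ℂ) + y := by
        ext j; simp
      rw [this]
      refine (norm_add_le _ _).trans ?_
      simp
    linarith
  have hinj : Function.Injective (eqv n).symm := (eqv n).symm.injective
  have hZ' : ∀ z, z ∈ Z.map ⟨(eqv n).symm, hinj⟩ ↔ z ∈ B ∧ up G t y z = 0 := by
    intro z
    rw [Finset.mem_map, up_zero_iff]
    constructor
    · rintro ⟨x, hx, rfl⟩
      have h2 := (hZ x).1 hx
      refine ⟨?_, ?_⟩
      · show eqv n ((eqv n).symm x) ∈ Metric.ball (0 : Fin n → ℂ) r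
        rw [ContinuousLinearEquiv.apply_symm_apply]; exact h2.1
      · intro j
        show G j (eqv n ((eqv n).symm x), t) = y j
        rw [ContinuousLinearEquiv.apply_symm_apply]; exact h2.2 j
    · rintro ⟨h2, h3⟩
      exact ⟨eqv n z, (hZ _).2 ⟨h2, h3⟩, (eqv n).symm_apply_apply z⟩
  have hfin := trace_le (g := fun z : Cn n => g (eqv n z, t)) hUo hBo hBb hclU hGan hgan he hfr hZ'
    (H := H) ?_ ?_
  · rw [Finset.sum_map] at hfin
    have hsum : ∑ x ∈ Z, g (x, t) / jac (fun j => sl (G j) t) x =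
        ∑ x ∈ Z, g (eqv n ((⟨(eqv n).symm, hinj⟩ : (Fin n → ℂ) ↪ Cn n) x), t) /
          (jm (up G t y) ((⟨(eqv n).symm, hinj⟩ : (Fin n → ℂ) ↪ Cn n) x)).det := by
      refine Finset.sum_congr rfl fun x hx => ?_
      have hx2 := ((hZ x).1 hx).1
      have hxz : eqv n ((eqv n).symm x) = x := (eqv n).apply_symm_apply x
      have hxU : (eqv n).symm x ∈ U := by
        show eqv n ((eqv n).symm x) ∈ Metric.ball (0 : Fin n → ℂ) R1
        rw [hxz]
        exact Metric.ball_subset_ball hrR1.le hx2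
      show _ = g (eqv n ((eqv n).symm x), t) / (jm (up G t y) ((eqv n).symm x)).det
      rw [jac_up (hUan _ hxU).1, hxz]
    rw [hsum]
    exact hfin
  · intro z hz
    rw [Finset.mem_map] at hz
    obtain ⟨x, hx, rfl⟩ := hz
    have hx2 := ((hZ x).1 hx).1
    have hxz : eqv n ((eqv n).symm x) = x := (eqv n).apply_symm_apply x
    have hxU : (eqv n).symm x ∈ U := by
      show eqv n ((eqv n).symm x) ∈ Metric.ball (0 : Fin n → ℂ) R1
      rw [hxz]
      exact Metric.ball_subset_ball hrR1.le hx2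
    show (jm (up G t y) ((eqv n).symm x)).det ≠ 0
    rw [jac_up (hUan _ hxU).1, hxz]
    exact hd x hx
  · intro z hz
    have hzU : z ∈ U := hclU (subset_closure hz)
    rw [jac_up (hUan _ hzU).1]
    refine hH (eqv n z, t) ⟨?_, ?_⟩
    · exact Metric.ball_subset_closedBall hz
    · rw [Metric.mem_closedBall, dist_zero_right]; exact htr.le

/-- the gradient of an analytic family is an analytic family -/
theorem an_coord {F : (Fin n → ℂ) × ℂ → ℂ} {x : Fin n → ℂ} {t : ℂ} (hF : AnalyticAt ℂ F (x, t))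
    (i : Fin n) : AnalyticAt ℂ (fun p : (Fin n → ℂ) × ℂ => coordDeriv (sl F p.2) i p.1) (x, t) := by
  have h1 : (fun p : (Fin n → ℂ) × ℂ => coordDeriv (sl F p.2) i p.1) =ᶠ[𝓝 (x, t)]
      fun p => fderiv ℂ F p (Pi.single i 1, 0) := by
    filter_upwards [hF.eventually_analyticAt] with p hp
    exact coordDeriv_sl (x := p.1) (t := p.2) hp i
  have h2 : AnalyticAt ℂ (fun p => fderiv ℂ F p (Pi.single i 1, 0)) (x, t) :=
    ((ContinuousLinearMap.apply ℂ ℂ ((Pi.single i 1, 0) : (Fin n → ℂ) × ℂ)).analyticAt _).fun_comp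
      hF.fderiv
  exact h2.congr h1.symm

/-- THE TRACE BOUND for the gradient of a family of functions -/
theorem rt {F g : (Fin n → ℂ) × ℂ → ℂ} (hF : AnalyticAt ℂ F (0, 0)) (hg : AnalyticAt ℂ g (0, 0))
    (hiso : ∀ᶠ x in 𝓝 (0 : Fin n → ℂ), (∀ i, coordDeriv (sl F 0) i x = 0) → x = 0) :
    ∃ r₀ > (0 : ℝ), ∀ r, 0 < r → r < r₀ → ∃ δ > (0 : ℝ), ∃ C : ℝ,
      ∀ (t : ℂ) (y : Fin n → ℂ), ‖t‖ < δ → ‖y‖ < δ →
      ∀ Z : Finset (Fin n → ℂ),
      (∀ x, x ∈ Z ↔ x ∈ Metric.ball (0 : Fin n → ℂ) r ∧ ∀ i, coordDeriv (sl F t) i x = y i) →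
      (∀ x ∈ Z, hs (sl F t) x ≠ 0) →
      ‖∑ x ∈ Z, g (x, t) / hs (sl F t) x‖ ≤ C :=
  rtG (fun i p => coordDeriv (sl F p.2) i p.1) g (fun i => an_coord hF i) hg hiso

end

end Crest.Agent.R257.RtD_838
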