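import Crest.Agent.R257.Ev4_838
import Crest.Agent.R257.P8c_472
import Mathlib
import Crest.Agent.R257.P8e_472
import Crest.Agent.R257.LcxDefs_759
import Crest.Agent.R257.LcxW_759
import Crest.Agent.R257.LcxD2_759
import Crest.Agent.R257.LcTop_980
import Crest.Agent.R257.RtD_838
import Crest.Agent.R257.Rig6_20
import Crest.Agent.R257.LCTopA_472
import Crest.Agent.R257.LCa_472
import Crest.Agent.R257.Cl2F_475
import Crest.Agent.R257.Cl2C_475
import Crest.Agent.R257.SkelV2_952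
import Crest.Agent.R257.Skel2_219

-- ▼ part R257/Ev5_838
section

/-!
# R257 (S0395), leaf LCX3 (helper838), part 5: `NodalStmt` of LcxDefs_759
-/

set_option autoImplicit false
set_option linter.unusedSectionVars false

open Set Filter Topology Complex
open scoped ContDiff

namespace Crest.Agent.R257.Ev5_838

open Defs_219 LCDefs_472 Node_547 LcN_980 LCc_472 Ev1_838 EVa_929 LcxDefs_759 Ev3_838 Ev4_838
open Crest.AlgGeometry.Germ

noncomputable section

variable {f : E3 → ℂ} {v u w : E3} {a b : ℂ}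

/-- the linear map with given columns -/
theorem exA (b0 b1 b2 : E3) (h : (P3 b0 b1 b2).det ≠ 0) : ∃ A : E3 ≃L[ℂ] E3,
    (∀ X, A X = cmb b0 b1 b2 X) ∧ Ev3_838.mt A = P3 b0 b1 b2 := by
  have hinj : Function.Injective (P3 b0 b1 b2).mulVec :=
    Matrix.mulVec_injective_iff_isUnit.2 ((Matrix.isUnit_iff_isUnit_det _).2 h.isUnit)
  set L : E3 →L[ℂ] E3 := LinearMap.toContinuousLinearMap (Matrix.toLin' (P3 b0 b1 b2)) with hL
  have hLi : Function.Injective L := hinj
  have hA : ∀ X, LCa_472.eqv L hLi X = cmb b0 b1 b2 X := by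
    intro X
    have h1 : LCa_472.eqv L hLi X = L X := by
      have := LCa_472.eqv_coe L hLi
      exact congrArg (fun T : E3 →L[ℂ] E3 => T X) this
    rw [h1, ← P3_mulVec]
    rfl
  refine ⟨LCa_472.eqv L hLi, hA, ?_⟩
  ext i j
  simp only [Ev3_838.mt, Matrix.of_apply, hA]
  rw [← P3_mulVec, Matrix.mulVec_single_one]
  rfl

theorem D3_lin' (hf : AnalyticAt ℂ f 0) (A : E3 ≃L[ℂ] E3) (X Y Z : E3) :
    D3 (fun x => f (A x)) X Y Z = D3 f (A X) (A Y) (A Z) := by
  have e : ∀ X : E3, A X = X 0 • A (Pi.single 0 1) + X 1 • A (Pi.single 1 1) +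
      X 2 • A (Pi.single 2 1) := by
    intro X
    rw [← map_smul, ← map_smul, ← map_smul, ← map_add, ← map_add]
    congr 1
    ext i
    fin_cases i <;> simp
  have hT : D3 (fun x => f (A x)) X Y Z = ∑ i, ∑ j, ∑ k,
      D3 f (A (Pi.single i 1)) (A (Pi.single j 1)) (A (Pi.single k 1)) * X i * Y j * Z k := by
    unfold D3
    simp only [H3_lin hf]
    rfl
  rw [hT, e X, e Y, e Z]
  simp only [D3_add, D3_add2 hf, D3_add3 hf, D3_smul, D3_smul2 hf, D3_smul3 hf,
    Fin.sum_univ_three]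
  ring

theorem pq_D3 (f : E3 → ℂ) (i : Fin 3) (U : E3) : pq f i U = (1 / 2) * D3 f (Pi.single i 1) U U := by
  rw [D3_single]
  rfl

theorem lq_D3 (f : E3 → ℂ) (i j : Fin 3) (U : E3) :
    lq f i j U = D3 f (Pi.single i 1) (Pi.single j 1) U := by
  rw [D3_single]
  unfold lq
  symm
  rw [Finset.sum_eq_single j]
  · simp
  · intro k _ hk
    simp [Pi.single_eq_of_ne hk]
  · simp

/-- explicit formulas in the coordinates `b_0 = v`, `b_1 = u - c_1 v`, `b_2 = w - c_2 v` -/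
theorem core (h : Bs f v u w a b) (hf : AnalyticAt ℂ f 0) (c1 c2 : ℂ) : ∃ A : E3 ≃L[ℂ] E3,
    (Ev3_838.mt A).det = (P3 v u w).det ∧
    (∀ U : E3, pq (fun x => f (A x)) 1 U =
      -c1 * U 1 * U 2 + (U 0 - c1 * U 1 - c2 * U 2) * U 2 + 3 * a * U 1 ^ 2) ∧
    (∀ U : E3, pq (fun x => f (A x)) 2 U =
      -c2 * U 1 * U 2 + (U 0 - c1 * U 1 - c2 * U 2) * U 1 + 3 * b * U 2 ^ 2) ∧
    (∀ U : E3, dl (fun x => f (A x)) U = (-2 * c1 * U 2 + 6 * a * U 1) *
      (-2 * c2 * U 1 + 6 * b * U 2) - (U 0 - 2 * c1 * U 1 - 2 * c2 * U 2) ^ 2) ∧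
    (∀ U : E3, D3 (fun x => f (A x)) U U U =
      6 * ((U 0 - c1 * U 1 - c2 * U 2) * U 1 * U 2 + a * U 1 ^ 3 + b * U 2 ^ 3)) := by
  have hdet : (P3 v (u + (-c1) • v) (w + (-c2) • v)).det = (P3 v u w).det := by
    simp only [P3, Matrix.det_fin_three, Matrix.of_apply, Matrix.cons_val_zero,
      Matrix.cons_val_one, Matrix.cons_val, Pi.add_apply, Pi.smul_apply, smul_eq_mul]
    ring
  obtain ⟨A, hA, hm⟩ := exA v (u + (-c1) • v) (w + (-c2) • v) (by rw [hdet]; exact h.det)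
  have hA' : ∀ X, A X = cmb v u w ![X 0 - c1 * X 1 - c2 * X 2, X 1, X 2] := by
    intro X
    rw [hA]
    unfold cmb
    ext i
    simp only [Pi.add_apply, Pi.smul_apply, smul_eq_mul, Matrix.cons_val_zero,
      Matrix.cons_val_one, Matrix.cons_val]
    ring
  have key : ∀ X Y Z, D3 (fun x => f (A x)) X Y Z = _ := fun X Y Z => by
    rw [D3_lin' hf, hA', hA', hA', h.tri hf]
  refine ⟨A, by rw [hm, hdet], ?_, ?_, ?_, ?_⟩
  · intro U
    rw [pq_D3, key]
    simp
    ring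
  · intro U
    rw [pq_D3, key]
    simp
    ring
  · intro U
    unfold dl
    rw [lq_D3, lq_D3, lq_D3, key, key, key]
    simp
    ring
  · intro U
    rw [key]
    simp
    ring

theorem vec1 (w : ℂ × ℂ) : vec w 1 = w.1 := rfl

theorem vec2 (w : ℂ × ℂ) : vec w 2 = w.2 := rfl

theorem eq_vec {U : E3} {w : ℂ × ℂ} (h1 : U 1 = U 0 * w.1) (h2 : U 2 = U 0 * w.2) :
    U = U 0 • vec w := by
  ext i
  fin_cases i
  · simp [vec]
  · simpa [vec] using h1
  · simpa [vec] using h2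

theorem real_bound {S : ℂ} {x C d : ℝ} (hS : S = ((x : ℝ) : ℂ)) (hx : 1 / 12 ≤ x)
    (hb : ‖S‖ ≤ C / d ^ 2) : 1 / 12 ≤ C / d ^ 2 := by
  rw [hS, Complex.norm_real, Real.norm_eq_abs] at hb
  exact (hx.trans (le_abs_self x)).trans hb

theorem inv_le4 {p : ℕ} (h : 4 ≤ p) : (1 : ℝ) / p ≤ 1 / 4 := by
  have h1 : (4 : ℝ) ≤ p := by exact_mod_cast h
  exact one_div_le_one_div_of_le (by norm_num) h1

/-- three nodes -/
theorem case1 (h : Bs f v u w 0 0) {r C : ℝ} (hG : Good f r C) (h2 : ∀ i j, H2 f i j = 0) :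
    1 / 12 ≤ C / ‖(P3 v u w).det‖ ^ 2 := by
  have hf : AnalyticAt ℂ f 0 := hG.an 0 (by simpa using hG.r_pos.le)
  obtain ⟨A, hdet, hp1, hp2, hdl, hD⟩ := core h hf 1 1
  have key := evalA hG h2 A (ι := Fin 4) ![(0, 0), (1, 0), (0, 1), (1 / 3, 1 / 3)] ?_ ?_ ?_ ?_ ?_
  · obtain ⟨p, h3, h4, hb⟩ := key
    simp only [hD, vec_zero, vec1, vec2] at h3 h4
    simp only [Fin.sum_univ_four, hdl, vec_zero, vec1, vec2, hdet] at hb
    have e0 := h4 0 (by simp)
    have e1 := h4 1 (by simp)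
    have e2 := h4 2 (by simp)
    have e3 := h3 3 (by simp; norm_num)
    simp only [Matrix.cons_val_zero, Matrix.cons_val_one, Matrix.cons_val] at hb
    rw [e3] at hb
    refine real_bound (x := 1 - 1 / p 0 - 1 / p 1 - 1 / p 2) ?_ ?_ hb
    · have p0 : (p 0 : ℂ) ≠ 0 := by exact_mod_cast (by omega : p 0 ≠ 0)
      have p1 : (p 1 : ℂ) ≠ 0 := by exact_mod_cast (by omega : p 1 ≠ 0)
      have p2 : (p 2 : ℂ) ≠ 0 := by exact_mod_cast (by omega : p 2 ≠ 0)
      push_cast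
      field_simp
      ring
    · have := inv_le4 e0
      have := inv_le4 e1
      have := inv_le4 e2
      linarith
  · intro i j hij
    fin_cases i <;> fin_cases j <;> simp at hij ⊢
  · intro i
    rw [hp1]
    fin_cases i <;> simp [vec]
    ring
  · intro i
    rw [hp2]
    fin_cases i <;> simp [vec]
    ring
  · intro i
    rw [hdl]
    fin_cases i <;> simp [vec]
    all_goals norm_num
  · intro U hU h5 h6
    rw [hp1] at h5
    rw [hp2] at h6
    have k1 : U 2 * (U 0 - 2 * U 1 - U 2) = 0 := by linear_combination h5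
    have k2 : U 1 * (U 0 - U 1 - 2 * U 2) = 0 := by linear_combination h6
    rcases mul_eq_zero.1 k1 with k1 | k1
    · rcases mul_eq_zero.1 k2 with k2 | k2
      · exact ⟨0, eq_vec (by simpa using k2) (by simpa using k1)⟩
      · exact ⟨1, eq_vec (by simp; linear_combination -k2 - 2 * k1) (by simpa using k1)⟩
    · rcases mul_eq_zero.1 k2 with k2 | k2
      · exact ⟨2, eq_vec (by simpa using k2) (by simp; linear_combination -k1 - 2 * k2)⟩
      · exact ⟨3, eq_vec (by simp; linear_combination (-2 / 3) * k1 + (1 / 3) * k2)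
          (by simp; linear_combination (1 / 3) * k1 - (2 / 3) * k2)⟩

/-- two nodes -/
theorem case2 (h : Bs f v u w 1 0) {r C : ℝ} (hG : Good f r C) (h2 : ∀ i j, H2 f i j = 0) :
    1 / 12 ≤ C / ‖(P3 v u w).det‖ ^ 2 := by
  have hf : AnalyticAt ℂ f 0 := hG.an 0 (by simpa using hG.r_pos.le)
  obtain ⟨s, hs⟩ := IsAlgClosed.exists_pow_nat_eq (-1 / 12 : ℂ) (n := 2) (by norm_num)
  have hs0 : s ≠ 0 := by
    rintro rfl
    norm_num at hs
  obtain ⟨A, hdet, hp1, hp2, hdl, hD⟩ := core h hf 0 1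
  have key := evalA hG h2 A (ι := Fin 4) ![(0, 0), (0, 1), (s, 1 / 2), (-s, 1 / 2)] ?_ ?_ ?_ ?_ ?_
  · obtain ⟨p, h3, h4, hb⟩ := key
    simp only [hD, vec_zero, vec1, vec2] at h3 h4
    simp only [Fin.sum_univ_four, hdl, vec_zero, vec1, vec2, hdet] at hb
    have e0 := h4 0 (by simp)
    have e1 := h4 1 (by simp)
    have hne : (1 - 1 / 2 : ℂ) * s * (1 / 2) + s ^ 3 ≠ 0 := by
      have : (1 - 1 / 2 : ℂ) * s * (1 / 2) + s ^ 3 = s * (1 / 6) := by
        linear_combination s * hs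
      rw [this]
      exact mul_ne_zero hs0 (by norm_num)
    have e2 := h3 2 (by
      simp only [Matrix.cons_val]
      intro h0
      refine hne ?_
      linear_combination (1 / 6) * h0)
    have e3 := h3 3 (by
      simp only [Matrix.cons_val]
      intro h0
      refine hne ?_
      linear_combination (-1 / 6) * h0)
    simp only [Matrix.cons_val_zero, Matrix.cons_val_one, Matrix.cons_val] at hb
    rw [e2, e3] at hb
    refine real_bound (x := 2 / 3 - 1 / p 0 - 1 / p 1) ?_ ?_ hb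
    · have p0 : (p 0 : ℂ) ≠ 0 := by exact_mod_cast (by omega : p 0 ≠ 0)
      have p1 : (p 1 : ℂ) ≠ 0 := by exact_mod_cast (by omega : p 1 ≠ 0)
      have d2 : (-2 * 0 * (1 / 2) + 6 * 1 * s) * (-2 * 1 * s + 6 * 0 * (1 / 2)) -
          (1 - 2 * 0 * s - 2 * 1 * (1 / 2)) ^ 2 = (1 : ℂ) := by
        linear_combination (-12) * hs
      have d3 : (-2 * 0 * (1 / 2) + 6 * 1 * -s) * (-2 * 1 * -s + 6 * 0 * (1 / 2)) -
          (1 - 2 * 0 * -s - 2 * 1 * (1 / 2)) ^ 2 = (1 : ℂ) := by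
        linear_combination (-12) * hs
      rw [d2, d3]
      push_cast
      field_simp
      ring
    · have := inv_le4 e0
      have := inv_le4 e1
      linarith
  · intro i j hij
    have hss : s ≠ -s := fun h => hs0 (by
      have : (2 : ℂ) * s = 0 := by linear_combination h
      simpa using this)
    have h1 := congrArg Prod.fst hij
    have h2 := congrArg Prod.snd hij
    fin_cases i <;> fin_cases j <;> first
      | rfl
      | (exfalso; simp only [Fin.zero_eta, Fin.mk_one, Fin.reduceFinMk, Matrix.cons_val_zero,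
          Matrix.cons_val_one, Matrix.cons_val] at h1 h2
         first
          | exact hs0 (by linear_combination h1)
          | exact hs0 (by linear_combination -h1)
          | exact hss (by linear_combination h1)
          | exact hss (by linear_combination -h1)
          | norm_num at h2)
  · intro i
    rw [hp1]
    fin_cases i <;> simp [vec]
    · linear_combination 3 * hs
    · linear_combination 3 * hs
  · intro i
    rw [hp2]
    fin_cases i <;> simp [vec]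
    · ring
    · ring
  · intro i
    rw [hdl]
    fin_cases i <;> simp [vec]
    · norm_num
    · exact hs0
    · exact hs0
  · intro U hU h5 h6
    rw [hp1] at h5
    rw [hp2] at h6
    have k1 : (U 0 - U 2) * U 2 + 3 * U 1 ^ 2 = 0 := by linear_combination h5
    have k2 : U 1 * (U 0 - 2 * U 2) = 0 := by linear_combination h6
    rcases mul_eq_zero.1 k2 with k2 | k2
    · rw [k2] at k1
      have k3 : (U 0 - U 2) * U 2 = 0 := by linear_combination k1
      rcases mul_eq_zero.1 k3 with k3 | k3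
      · exact ⟨1, eq_vec (by simpa using k2) (by simp; linear_combination -k3)⟩
      · exact ⟨0, eq_vec (by simpa using k2) (by simpa using k3)⟩
    · have k3 : (U 1 - s * U 0) * (U 1 + s * U 0) = 0 := by
        linear_combination (1 / 3) * k1 + (1 / 12) * (U 0 - 2 * U 2) * k2 - U 0 ^ 2 * hs
      rcases mul_eq_zero.1 k3 with k3 | k3
      · exact ⟨2, eq_vec (by simp; linear_combination k3) (by simp; linear_combination (-1 / 2) * k2)⟩
      · exact ⟨3, eq_vec (by simp; linear_combination k3) (by simp; linear_combination (-1 / 2) * k2)⟩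

/-- one node -/
theorem case3 (h : Bs f v u w 1 1) {r C : ℝ} (hG : Good f r C) (h2 : ∀ i j, H2 f i j = 0) :
    1 / 12 ≤ C / ‖(P3 v u w).det‖ ^ 2 := by
  have hf : AnalyticAt ℂ f 0 := hG.an 0 (by simpa using hG.r_pos.le)
  obtain ⟨om, hom⟩ : ∃ om : ℂ, om ^ 2 + om + 1 = 0 := by
    obtain ⟨s, hs⟩ := IsAlgClosed.exists_pow_nat_eq (-3 / 4 : ℂ) (n := 2) (by norm_num)
    exact ⟨s - 1 / 2, by linear_combination hs⟩
  have hom3 : om ^ 3 = 1 := by linear_combination (om - 1) * hom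
  have hom0 : om ≠ 0 := by
    rintro rfl
    norm_num at hom
  have hom1 : om ≠ 1 := by
    rintro rfl
    norm_num at hom
  have homsq1 : om ^ 2 ≠ 1 := by
    intro h0
    have : om = -2 := by linear_combination hom - h0
    rw [this] at h0
    norm_num at h0
  have homsq : om ^ 2 ≠ om := by
    intro h0
    have : om * (om - 1) = 0 := by linear_combination h0
    rcases mul_eq_zero.1 this with h1 | h1
    · exact hom0 h1
    · exact hom1 (sub_eq_zero.1 h1)
  obtain ⟨A, hdet, hp1, hp2, hdl, hD⟩ := core h hf 0 0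
  have key := evalA hG h2 A (ι := Fin 4) ![(0, 0), (-1 / 3, -1 / 3), (-om / 3, -om ^ 2 / 3),
    (-om ^ 2 / 3, -om / 3)] ?_ ?_ ?_ ?_ ?_
  · obtain ⟨p, h3, h4, hb⟩ := key
    simp only [hD, vec_zero, vec1, vec2] at h3 h4
    simp only [Fin.sum_univ_four, hdl, vec_zero, vec1, vec2, hdet] at hb
    have e0 := h4 0 (by simp)
    have e1 := h3 1 (by simp; norm_num)
    have e2 := h3 2 (by
      simp only [Matrix.cons_val]
      intro h0
      have : (1 : ℂ) = 0 := by
        linear_combination (27 / 6) * h0 - 3 * hom3 + (1 + (om ^ 3 + 1)) * hom3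
      exact one_ne_zero this)
    have e3 := h3 3 (by
      simp only [Matrix.cons_val]
      intro h0
      have : (1 : ℂ) = 0 := by
        linear_combination (27 / 6) * h0 - 3 * hom3 + (1 + (om ^ 3 + 1)) * hom3
      exact one_ne_zero this)
    simp only [Matrix.cons_val_zero, Matrix.cons_val_one, Matrix.cons_val] at hb
    rw [e1, e2, e3] at hb
    refine real_bound (x := 1 / 3 - 1 / p 0) ?_ ?_ hb
    · have p0 : (p 0 : ℂ) ≠ 0 := by exact_mod_cast (by omega : p 0 ≠ 0)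
      have d1 : (-2 * 0 * (-1 / 3) + 6 * 1 * (-1 / 3)) * (-2 * 0 * (-1 / 3) + 6 * 1 * (-1 / 3)) -
          (1 - 2 * 0 * (-1 / 3) - 2 * 0 * (-1 / 3)) ^ 2 = (3 : ℂ) := by
        norm_num
      have d2 : (-2 * 0 * (-om ^ 2 / 3) + 6 * 1 * (-om / 3)) *
          (-2 * 0 * (-om / 3) + 6 * 1 * (-om ^ 2 / 3)) -
          (1 - 2 * 0 * (-om / 3) - 2 * 0 * (-om ^ 2 / 3)) ^ 2 = (3 : ℂ) := by
        linear_combination 4 * hom3
      have d3 : (-2 * 0 * (-om / 3) + 6 * 1 * (-om ^ 2 / 3)) *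
          (-2 * 0 * (-om ^ 2 / 3) + 6 * 1 * (-om / 3)) -
          (1 - 2 * 0 * (-om ^ 2 / 3) - 2 * 0 * (-om / 3)) ^ 2 = (3 : ℂ) := by
        linear_combination 4 * hom3
      rw [d1, d2, d3]
      push_cast
      field_simp
      ring
    · have := inv_le4 e0
      linarith
  · intro i j hij
    have h1 := congrArg Prod.fst hij
    fin_cases i <;> fin_cases j <;> first
      | rfl
      | (exfalso; simp only [Fin.zero_eta, Fin.mk_one, Fin.reduceFinMk, Matrix.cons_val_zero,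
          Matrix.cons_val_one, Matrix.cons_val] at h1
         first
          | exact hom0 (by linear_combination 3 * h1)
          | exact hom0 (by linear_combination (-3) * h1)
          | exact hom1 (by linear_combination 3 * h1)
          | exact hom1 (by linear_combination (-3) * h1)
          | exact homsq (by linear_combination 3 * h1)
          | exact homsq (by linear_combination (-3) * h1)
          | exact homsq1 (by linear_combination 3 * h1)
          | exact homsq1 (by linear_combination (-3) * h1)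
          | exact hom0 ((pow_eq_zero_iff two_ne_zero).1 (by linear_combination 3 * h1))
          | exact hom0 ((pow_eq_zero_iff two_ne_zero).1 (by linear_combination (-3) * h1))
          | norm_num at h1)
  · intro i
    rw [hp1]
    fin_cases i <;> simp [vec]
    · norm_num
    · ring
    · linear_combination (1 / 3) * om * hom3
  · intro i
    rw [hp2]
    fin_cases i <;> simp [vec]
    · norm_num
    · linear_combination (1 / 3) * om * hom3
    · ring
  · intro i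
    rw [hdl]
    fin_cases i <;> simp [vec]
    · norm_num
    · intro h0
      have : (3 : ℂ) = 0 := by linear_combination h0 - 4 * hom3
      norm_num at this
    · intro h0
      have : (3 : ℂ) = 0 := by linear_combination h0 - 4 * hom3
      norm_num at this
  · intro U hU h5 h6
    rw [hp1] at h5
    rw [hp2] at h6
    have k1 : U 0 * U 2 + 3 * U 1 ^ 2 = 0 := by linear_combination h5
    have k2 : U 0 * U 1 + 3 * U 2 ^ 2 = 0 := by linear_combination h6
    by_cases hU0 : U 0 = 0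
    · exfalso
      rw [hU0] at k1 k2
      have e1 : U 1 = 0 := by
        have : U 1 ^ 2 = 0 := by linear_combination (1 / 3) * k1
        exact pow_eq_zero_iff (two_ne_zero) |>.1 this
      have e2 : U 2 = 0 := by
        have : U 2 ^ 2 = 0 := by linear_combination (1 / 3) * k2
        exact pow_eq_zero_iff (two_ne_zero) |>.1 this
      exact hU (funext fun i => by fin_cases i <;> assumption)
    · -- `y = U 1 / U 0`, `z = U 2 / U 0`
      obtain ⟨y, hy⟩ : ∃ y, U 1 = U 0 * y := ⟨U 1 / U 0, by field_simp⟩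
      obtain ⟨z, hz⟩ : ∃ z, U 2 = U 0 * z := ⟨U 2 / U 0, by field_simp⟩
      have hsq : U 0 ^ 2 ≠ 0 := pow_ne_zero 2 hU0
      have m1 : z + 3 * y ^ 2 = 0 := by
        have : U 0 ^ 2 * (z + 3 * y ^ 2) = 0 := by rw [hy, hz] at k1; linear_combination k1
        exact (mul_eq_zero.1 this).resolve_left hsq
      have m2 : y + 3 * z ^ 2 = 0 := by
        have : U 0 ^ 2 * (y + 3 * z ^ 2) = 0 := by rw [hy, hz] at k2; linear_combination k2
        exact (mul_eq_zero.1 this).resolve_left hsq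
      have mz : z = -3 * y ^ 2 := by linear_combination m1
      have m3 : y * (1 + 27 * y ^ 3) = 0 := by
        rw [mz] at m2
        linear_combination m2
      rcases mul_eq_zero.1 m3 with m4 | m4
      · refine ⟨0, eq_vec (by simp [hy, m4]) (by simp [hz, mz, m4])⟩
      · have m5 : (3 * y + 1) * ((3 * y + om) * (3 * y + om ^ 2)) = 0 := by
          linear_combination m4 + (3 * y + 9 * y ^ 2) * hom + (1 + 3 * y) * hom3
        rcases mul_eq_zero.1 m5 with m6 | m6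
        · have hy' : y = -1 / 3 := by linear_combination (1 / 3) * m6
          refine ⟨1, eq_vec (by simp [hy, hy']) (by simp [hz, mz, hy']; ring)⟩
        · rcases mul_eq_zero.1 m6 with m6 | m6
          · have hy' : y = -om / 3 := by linear_combination (1 / 3) * m6
            refine ⟨2, eq_vec (by simp [hy, hy']) (by simp [hz, mz, hy']; ring)⟩
          · have hy' : y = -om ^ 2 / 3 := by linear_combination (1 / 3) * m6
            refine ⟨3, eq_vec (by simp [hy, hy']) (by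
              simp [hz, mz, hy']; linear_combination (-(U 0) * om / 3) * hom3)⟩

/-- adapted basis with determinant bounded above -/
theorem nodal_bs {r C : ℝ} (hG : Good f r C) (h2 : ∀ i j, H2 f i j = 0) (hN : Nodal f)
    (hv : ∃ v : E3, v ≠ 0 ∧ ∀ w, D3 f v v w = 0) :
    ∃ v u w a b, Bs f v u w a b ∧ 1 / 12 ≤ C / ‖(P3 v u w).det‖ ^ 2 := by
  obtain ⟨v, hv, hvv⟩ := hv
  have hf : AnalyticAt ℂ f 0 := hG.an 0 (by simpa using hG.r_pos.le)
  obtain ⟨v0, u0, w0, a0, b0, h0⟩ := exists_bs hf hv hvv (fun y hy => hN v y hv hvv hy)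
  obtain ⟨v, u, w, a, b, h, hab, -⟩ := h0.norm hf
  refine ⟨v, u, w, a, b, h, ?_⟩
  rcases hab with ⟨rfl, rfl⟩ | ⟨rfl, rfl⟩ | ⟨rfl, rfl⟩
  · exact case1 h hG h2
  · exact case2 h hG h2
  · exact case3 h hG h2

/-- **`NodalStmt`** -/
theorem nodalStmt : NodalStmt := by
  refine ⟨12, by norm_num, fun f r C hG h2 hN hv => ?_⟩
  have hf : AnalyticAt ℂ f 0 := hG.an 0 (by simpa using hG.r_pos.le)
  obtain ⟨v, u, w, a, b, h, hb⟩ := nodal_bs hG h2 hN hv
  have hd : 0 < ‖(P3 v u w).det‖ := norm_pos_iff.2 h.det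
  refine ⟨(P3 v u w)⁻¹, a, b, ?_, ?_⟩
  · intro x
    have hx : cmb v u w ((P3 v u w)⁻¹.mulVec x) = x := by
      rw [← P3_mulVec, Matrix.mulVec_mulVec, Matrix.mul_nonsing_inv _ h.det.isUnit,
        Matrix.one_mulVec]
    conv_lhs => rw [← hx]
    rw [h.tri hf]
    unfold nrm
    ring
  · rw [Matrix.det_nonsing_inv, Ring.inverse_eq_inv', norm_inv, inv_pow]
    have e : C / ‖(P3 v u w).det‖ ^ 2 = C * (‖(P3 v u w).det‖ ^ 2)⁻¹ := div_eq_mul_inv _ _
    rw [e] at hb
    linarith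

end

end Crest.Agent.R257.Ev5_838
end

-- ▼ part R257/Cub1_89
section

/-!
R257 / Cub1_89: a smooth plane cubic has no infinitesimal symmetries: `D (L v) v v = 0` for all `v`
implies `L = 0`.
-/

set_option autoImplicit false
set_option linter.unusedVariables false
set_option linter.unusedSectionVars false

noncomputable section

namespace Crest.Agent.R257.Cub1_89

open Crest.Agent.R257.Defs_219 Crest.Agent.R257.P8c_472

variable {D : E3 → E3 → E3 → ℂ}

section Pol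

variable (hD : Tri D) {L : E3 →ₗ[ℂ] E3} (h : ∀ v, D (L v) v v = 0)

include hD h

theorem pol2 (v w : E3) : 2 * D (L v) v w + D v v (L w) = 0 := by
  have h1 := h (v + w)
  have h2 := h (v + (-1 : ℂ) • w)
  simp only [map_add, map_smul, hD.add1, hD.smul1, hD.add2, hD.smul2, hD.add, hD.smul] at h1 h2
  have h3 := h v
  have h4 := h w
  have e1 : D v v (L w) = D (L w) v v := by rw [hD.sw23, hD.sw12]
  have e2 : D (L v) w v = D (L v) v w := hD.sw23 _ _ _
  have e3 : D (L w) w v = D (L w) v w := hD.sw23 _ _ _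
  rw [e1]
  rw [e2, e3] at h1 h2
  linear_combination (1 / 2 : ℂ) * h1 - (1 / 2 : ℂ) * h2 - h4

theorem pol3 (u v w : E3) : D (L u) v w + D (L v) u w + D u v (L w) = 0 := by
  have h1 := pol2 hD h (u + v) w
  have h2 := pol2 hD h u w
  have h3 := pol2 hD h v w
  simp only [map_add, hD.add1, hD.add2] at h1
  rw [hD.sw12 v u (L w)] at h1
  linear_combination (1 / 2 : ℂ) * h1 - (1 / 2 : ℂ) * h2 - (1 / 2 : ℂ) * h3

end Pol

/-- the functional `w ↦ D u v w` -/
def fn (hD : Tri D) (u v : E3) : E3 →ₗ[ℂ] ℂ where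
  toFun w := D u v w
  map_add' := hD.add u v
  map_smul' := fun c w => by rw [hD.smul]; rfl

theorem eig_step (hD : Tri D) {L : E3 →ₗ[ℂ] E3} (h : ∀ v, D (L v) v v = 0)
    (hs : ∀ v : E3, v ≠ 0 → ∃ w, D v v w ≠ 0) {c : ℂ}
    (hc : Module.End.HasEigenvalue L c) : Module.End.HasEigenvalue L (-2 * c) := by
  obtain ⟨v, hv⟩ := hc.exists_hasEigenvector
  have hLv : L v = c • v := hv.apply_eq_smul
  have hv0 : v ≠ 0 := hv.2
  obtain ⟨w, hw⟩ := hs v hv0
  -- `φ ∘ (L + 2c) = 0`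
  have h1 : ∀ x, D v v (L x + (2 * c) • x) = 0 := by
    intro x
    have h2 := pol2 hD h v x
    rw [hLv, hD.smul1] at h2
    rw [hD.add, hD.smul]
    linear_combination h2
  let K : E3 →ₗ[ℂ] E3 := L - (-2 * c) • LinearMap.id
  have hK : ∀ x, K x = L x + (2 * c) • x := by
    intro x
    simp only [K, LinearMap.sub_apply, LinearMap.smul_apply, LinearMap.id_apply]
    rw [sub_eq_add_neg, ← neg_smul]
    congr 2
    ring
  have h2 : ¬ Function.Surjective K := by
    intro hsur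
    obtain ⟨x, hx⟩ := hsur w
    apply hw
    rw [← hx, hK]
    exact h1 x
  have h3 : ¬ Function.Injective K := fun hi => h2 (LinearMap.injective_iff_surjective.1 hi)
  rw [injective_iff_map_eq_zero] at h3
  push Not at h3
  obtain ⟨x, hx, hx0⟩ := h3
  refine Module.End.hasEigenvalue_of_hasEigenvector (x := x) ⟨?_, hx0⟩
  rw [Module.End.mem_eigenspace_iff]
  have h4 : L x - (-2 * c) • x = 0 := hx
  exact sub_eq_zero.1 h4

theorem eig_zero (hD : Tri D) {L : E3 →ₗ[ℂ] E3} (h : ∀ v, D (L v) v v = 0)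
    (hs : ∀ v : E3, v ≠ 0 → ∃ w, D v v w ≠ 0) {c : ℂ}
    (hc : Module.End.HasEigenvalue L c) : c = 0 := by
  by_contra hc0
  have h1 : ∀ n : ℕ, Module.End.HasEigenvalue L ((-2) ^ n * c) := by
    intro n
    induction n with
    | zero => simpa using hc
    | succ n ih =>
      have h2 := eig_step hD h hs ih
      have h3 : -2 * ((-2) ^ n * c) = (-2) ^ (n + 1) * c := by ring
      rw [h3] at h2
      exact h2
  have hfin : (spectrum ℂ L).Finite := Module.End.finite_spectrum L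
  have hinj : Function.Injective fun n : ℕ => (-2 : ℂ) ^ n * c := by
    intro m n hmn
    have h2 : (-2 : ℂ) ^ m = (-2) ^ n := mul_right_cancel₀ hc0 hmn
    have h3 : ‖(-2 : ℂ) ^ m‖ = ‖(-2 : ℂ) ^ n‖ := by rw [h2]
    rw [norm_pow, norm_pow, norm_neg] at h3
    have h4 : ‖(2 : ℂ)‖ = 2 := by norm_num
    rw [h4] at h3
    exact pow_right_injective₀ (by norm_num : (0 : ℝ) < 2) (by norm_num) h3
  refine Set.infinite_range_of_injective hinj (hfin.subset ?_)
  rintro _ ⟨n, rfl⟩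
  exact Module.End.hasEigenvalue_iff_mem_spectrum.1 (h1 n)

theorem pow3 {L : E3 →ₗ[ℂ] E3} (h : ∀ c, Module.End.HasEigenvalue L c → c = 0) (x : E3) :
    L (L (L x)) = 0 := by
  have hsp := IsAlgClosed.splits (LinearMap.charpoly L)
  have hprod := hsp.eq_prod_roots_of_monic (LinearMap.charpoly_monic L)
  have hroots : (LinearMap.charpoly L).roots =
      Multiset.replicate (Multiset.card (LinearMap.charpoly L).roots) 0 := by
    refine Multiset.eq_replicate.2 ⟨rfl, fun b hb => ?_⟩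
    refine h b ((Module.End.hasEigenvalue_iff_isRoot_charpoly L b).2 ?_)
    exact (Polynomial.mem_roots'.1 hb).2
  have hcard : Multiset.card (LinearMap.charpoly L).roots ≤ 3 := by
    refine (Polynomial.card_roots' _).trans ?_
    rw [LinearMap.charpoly_natDegree]
    simp
  set m := Multiset.card (LinearMap.charpoly L).roots with hm
  rw [hroots] at hprod
  simp only [Multiset.map_replicate, map_zero, sub_zero, Multiset.prod_replicate] at hprod
  have h1 := LinearMap.aeval_self_charpoly L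
  rw [hprod, map_pow, Polynomial.aeval_X] at h1
  have h2 : L ^ 3 = 0 := pow_eq_zero_of_le hcard h1
  have h3 := LinearMap.congr_fun h2 x
  simpa [pow_succ] using h3

/-- **no infinitesimal symmetries** -/
theorem no_syz (hD : Tri D) {L : E3 →ₗ[ℂ] E3} (h : ∀ v, D (L v) v v = 0)
    (hs : ∀ v : E3, v ≠ 0 → ∃ w, D v v w ≠ 0) : L = 0 := by
  by_contra hL0
  have hL3 := pow3 (L := L) fun c hc => eig_zero hD h hs hc
  -- `u = L w₀ ≠ 0`, `L u = 0`, `L² w ∈ ℂ u`
  obtain ⟨w₀, hu0, hLu, hspan⟩ : ∃ w₀ : E3, L w₀ ≠ 0 ∧ L (L w₀) = 0 ∧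
      ∀ w, ∃ c : ℂ, L (L w) = c • L w₀ := by
    by_cases h2 : ∀ x, L (L x) = 0
    · obtain ⟨w₀, hw₀⟩ : ∃ w₀, L w₀ ≠ 0 := by
        by_contra hne
        push Not at hne
        exact hL0 (LinearMap.ext hne)
      exact ⟨w₀, hw₀, h2 _, fun w => ⟨0, by rw [h2, zero_smul]⟩⟩
    · push Not at h2
      obtain ⟨w₁, hw₁⟩ := h2
      refine ⟨L w₁, hw₁, hL3 _, ?_⟩
      have hind : LinearIndependent ℂ ![w₁, L w₁, L (L w₁)] := by
        rw [Fintype.linearIndependent_iff]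
        intro g hg
        simp only [Fin.sum_univ_three, Matrix.cons_val_zero, Matrix.cons_val_one,
          Matrix.cons_val] at hg
        have h3 : g 0 = 0 := by
          have h4 := congrArg (fun v => L (L v)) hg
          simp only [map_add, map_smul, hL3, map_zero, smul_zero, add_zero] at h4
          exact (smul_eq_zero.1 h4).resolve_right hw₁
        rw [h3, zero_smul, zero_add] at hg
        have h5 : g 1 = 0 := by
          have h4 := congrArg (fun v => L v) hg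
          simp only [map_add, map_smul, hL3, map_zero, smul_zero, add_zero] at h4
          exact (smul_eq_zero.1 h4).resolve_right hw₁
        rw [h5, zero_smul, zero_add] at hg
        have h6 : g 2 = 0 := (smul_eq_zero.1 hg).resolve_right hw₁
        intro i
        fin_cases i
        · exact h3
        · exact h5
        · exact h6
      intro w
      have htop := hind.span_eq_top_of_card_eq_finrank (by simp)
      have hw : w ∈ Submodule.span ℂ (Set.range ![w₁, L w₁, L (L w₁)]) := by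
        rw [htop]; trivial
      obtain ⟨g, hg⟩ := (Submodule.mem_span_range_iff_exists_fun ℂ).1 hw
      simp only [Fin.sum_univ_three, Matrix.cons_val_zero, Matrix.cons_val_one,
          Matrix.cons_val] at hg
      refine ⟨g 0, ?_⟩
      rw [← hg]
      simp only [map_add, map_smul, hL3, smul_zero, add_zero]
  -- `B v w = D u v w`, `u = L w₀`
  set u := L w₀ with hu
  obtain ⟨w, hw⟩ := hs u hu0
  apply hw
  have p3 := fun a b c => pol3 hD h a b c
  have z : ∀ a b, D 0 a b = 0 := fun a b => by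
    have := hD.smul1 0 a b 0
    rwa [zero_smul, zero_mul] at this
  have z3 : ∀ a b, D a b 0 = 0 := fun a b => by
    have := hD.smul a b 0 0
    rwa [zero_smul, zero_mul] at this
  -- `B (L v) w = - B v (L w)`
  have b1 : ∀ v w, D u (L v) w = - D u v (L w) := by
    intro v w
    have h1 := p3 u v w
    rw [hLu, z, hD.sw12 (L v) u w] at h1
    linear_combination h1
  have b2 : ∀ w, D u w₀ w = -(1 / 2) * D w₀ w₀ (L w) := by
    intro w
    have h1 := p3 w₀ w₀ w
    rw [← hu] at h1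
    linear_combination (1 / 2 : ℂ) * h1
  obtain ⟨c, hc⟩ := hspan w
  have b3 : D u u w = (1 / 2) * D w₀ w₀ (L (L w)) := by
    have h1 := b1 w₀ w
    rw [← hu, b2] at h1
    linear_combination h1
  have b4 : D u w₀ w₀ = 0 := by
    have h1 := b2 w₀
    rw [← hu] at h1
    have h2 : D w₀ w₀ u = D u w₀ w₀ := by rw [hD.sw23, hD.sw12]
    rw [h2] at h1
    linear_combination (2 / 3 : ℂ) * h1
  have h2 : D w₀ w₀ u = D u w₀ w₀ := by rw [hD.sw23, hD.sw12]
  rw [b3, hc, hD.smul, h2, b4]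
  ring

end Crest.Agent.R257.Cub1_89
end
end

-- ▼ part R257/Cub2_89
section

/-!
R257 / Cub2_89: three ternary quadratic forms `q_j` without common zero and without linear syzygy:
* `P4_le` : every quartic form is a combination of the `X_a X_b q_j`;
* `le8`   : a local algebra with maximal ideal `(x_0, x_1, x_2)` modulo an ideal containing `q_j(x)`
            modulo `M³` has dimension at most `8`.
-/

set_option autoImplicit false
set_option linter.unusedVariables false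
set_option linter.unusedSectionVars false

noncomputable section

open MvPolynomial
open scoped Pointwise

namespace Crest.Agent.R257.Cub2_89

/-- polynomials in three variables -/
abbrev R : Type := MvPolynomial (Fin 3) ℂ

/-! ### forms -/

/-- the monomials of degree `d` -/
def mon (d : ℕ) (s : Sym (Fin 3) d) : R := ((s : Multiset (Fin 3)).map X).prod

/-- the forms of degree `d` -/
def P (d : ℕ) : Submodule ℂ R := Submodule.span ℂ (Set.range (mon d))

instance (d : ℕ) : FiniteDimensional ℂ (P d) :=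
  FiniteDimensional.span_of_finite ℂ (Set.finite_range _)

theorem finrank_P (d : ℕ) : Module.finrank ℂ (P d) ≤ Nat.multichoose 3 d := by
  have h1 := finrank_range_le_card (R := ℂ) (mon d)
  rw [Sym.card_sym_eq_multichoose, Fintype.card_fin] at h1
  exact h1

theorem mon_cons {d : ℕ} (i : Fin 3) (s : Sym (Fin 3) d) :
    mon (d + 1) (i ::ₛ s) = X i * mon d s := by
  show ((i ::ₘ (s : Multiset (Fin 3))).map X).prod = _
  rw [Multiset.map_cons, Multiset.prod_cons]
  rfl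

theorem mon_zero (s : Sym (Fin 3) 0) : mon 0 s = 1 := by
  rw [Sym.eq_nil_of_card_zero s]
  simp [mon]

theorem mon_mem (d : ℕ) (s : Sym (Fin 3) d) : mon d s ∈ P d := Submodule.subset_span ⟨s, rfl⟩

theorem one_mem_P : (1 : R) ∈ P 0 := by
  rw [← mon_zero Sym.nil]
  exact mon_mem 0 _

theorem P_ind {d : ℕ} {W : Submodule ℂ R} (h : ∀ i, ∀ m ∈ P d, X i * m ∈ W) : P (d + 1) ≤ W := by
  refine Submodule.span_le.2 ?_
  rintro _ ⟨s, rfl⟩
  obtain ⟨i, s', rfl⟩ := Sym.exists_eq_cons_of_succ s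
  rw [mon_cons]
  exact h i _ (mon_mem d s')

theorem X_mul_mem {d : ℕ} (i : Fin 3) {p : R} (hp : p ∈ P d) : X i * p ∈ P (d + 1) := by
  refine Submodule.span_induction (p := fun p _ => X i * p ∈ P (d + 1)) ?_ ?_ ?_ ?_ hp
  · rintro _ ⟨s, rfl⟩
    rw [← mon_cons]
    exact mon_mem _ _
  · rw [mul_zero]; exact zero_mem _
  · intro p q _ _ hp hq
    rw [mul_add]; exact add_mem hp hq
  · intro c p _ hp
    rw [mul_smul_comm]; exact Submodule.smul_mem _ _ hp

/-- the complement of an independent family -/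
theorem exists_compl {V : Type*} [AddCommGroup V] [Module ℂ V] {P : Submodule ℂ V}
    [FiniteDimensional ℂ P] {ι : Type*} [Fintype ι] {v : ι → V} (hv : LinearIndependent ℂ v)
    (hP : ∀ i, v i ∈ P) {m : ℕ} (hm : Module.finrank ℂ P ≤ Fintype.card ι + m) :
    ∃ C : Submodule ℂ V, C ≤ P ∧ Module.finrank ℂ C ≤ m ∧
      P ≤ Submodule.span ℂ (Set.range v) ⊔ C := by
  set Q := Submodule.span ℂ (Set.range v) with hQ
  have hQP : Q ≤ P := Submodule.span_le.2 (by rintro _ ⟨i, rfl⟩; exact hP i)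
  obtain ⟨C', hC'⟩ := Submodule.exists_isCompl Q
  have hsup : Q ⊔ C' ⊓ P = P := by
    rw [← sup_inf_assoc_of_le C' hQP, hC'.sup_eq_top, top_inf_eq]
  have hinf : Q ⊓ (C' ⊓ P) = ⊥ := by
    rw [← inf_assoc, hC'.inf_eq_bot, bot_inf_eq]
  have : FiniteDimensional ℂ (C' ⊓ P : Submodule ℂ V) :=
    Submodule.finiteDimensional_of_le (inf_le_right : C' ⊓ P ≤ P)
  have : FiniteDimensional ℂ Q := Submodule.finiteDimensional_of_le hQP
  refine ⟨C' ⊓ P, inf_le_right, ?_, hsup.ge⟩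
  have h1 := Submodule.finrank_sup_add_finrank_inf_eq Q (C' ⊓ P)
  rw [hsup, hinf, finrank_bot, add_zero] at h1
  have h2 : Module.finrank ℂ Q = Fintype.card ι := finrank_span_eq_card hv
  omega

/-! ### three quadratic forms -/

section Quad

variable (c : Fin 3 → Fin 3 → Fin 3 → ℂ)

/-- the quadratic forms -/
def q (j : Fin 3) : R := ∑ k, ∑ l, c j k l • (X k * X l)

theorem q_mem (j : Fin 3) : q c j ∈ P 2 := by
  unfold q
  refine Submodule.sum_mem _ fun k _ => Submodule.sum_mem _ fun l _ =>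
    Submodule.smul_mem _ _ (X_mul_mem k ?_)
  have h1 := X_mul_mem l one_mem_P
  rwa [mul_one] at h1

/-- no linear syzygy, no common zero -/
structure Nice : Prop where
  syz : LinearIndependent ℂ fun p : Fin 3 × Fin 3 => (X p.1 : R) * q c p.2
  zero : ∀ a : Fin 3 → ℂ, a ≠ 0 → ∃ j, ∑ k, ∑ l, c j k l * (a k * a l) ≠ 0

variable {c}

theorem Nice.q_ind (h : Nice c) : LinearIndependent ℂ (q c) := by
  have h1 : LinearIndependent ℂ fun j : Fin 3 => (X 0 : R) * q c j :=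
    h.syz.comp (fun j => ((0 : Fin 3), j)) fun a b hab => (Prod.mk.inj hab).2
  exact LinearIndependent.of_comp (LinearMap.mulLeft ℂ (X 0 : R)) h1

theorem Nice.P3 (h : Nice c) : ∃ C : Submodule ℂ R, C ≤ P 3 ∧ Module.finrank ℂ C ≤ 1 ∧
    P 3 ≤ Submodule.span ℂ (Set.range fun p : Fin 3 × Fin 3 => (X p.1 : R) * q c p.2) ⊔ C := by
  refine exists_compl h.syz (fun p => X_mul_mem p.1 (q_mem c p.2)) ?_
  refine (finrank_P 3).trans ?_
  simp [Nat.multichoose_eq, Nat.choose]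

theorem Nice.P2 (h : Nice c) : ∃ C : Submodule ℂ R, C ≤ P 2 ∧ Module.finrank ℂ C ≤ 3 ∧
    P 2 ≤ Submodule.span ℂ (Set.range (q c)) ⊔ C := by
  refine exists_compl h.q_ind (q_mem c) ?_
  refine (finrank_P 2).trans ?_
  simp [Nat.multichoose_eq, Nat.choose]

theorem P1_le {W : Submodule ℂ R} (h : ∀ l : Fin 3, (X l : R) ∈ W) : P 1 ≤ W := by
  have h1 : P (0 + 1) ≤ W := by
    refine P_ind fun l m hm => ?_
    refine Submodule.span_induction (p := fun m _ => (X l : R) * m ∈ W) ?_ ?_ ?_ ?_ hm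
    · rintro _ ⟨s, rfl⟩
      rw [mon_zero, mul_one]
      exact h l
    · rw [mul_zero]; exact zero_mem _
    · intro p q _ _ hp hq
      rw [mul_add]; exact add_mem hp hq
    · intro c p _ hp
      rw [mul_smul_comm]; exact Submodule.smul_mem _ _ hp
  exact h1

theorem X_mem_P1 (l : Fin 3) : (X l : R) ∈ P 1 := by
  have h1 := X_mul_mem l one_mem_P
  rwa [mul_one] at h1

theorem ker_le {f : R →ₗ[ℂ] ℂ} {r : R} {p : R}
    (h : p ∈ LinearMap.ker (f.comp (LinearMap.mulLeft ℂ r))) : f (r * p) = 0 := h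

theorem fun_zero {f : R →ₗ[ℂ] ℂ} {a : Fin 3 → ℂ} {o : Fin 3} (ho : a o ≠ 0)
    (star2 : ∀ p ∈ P 3, ∀ i j, f (X i * p) * a j = f (X j * p) * a i) {j : Fin 3}
    (hj : ∑ k, ∑ l, c j k l * (a k * a l) ≠ 0) (hQ : f (X o * (X o * q c j)) = 0) :
    ∀ p ∈ P 3, ∀ i, f (X i * p) = 0 := by
  have hX2 : ∀ k l, (X k * X l : R) ∈ P 2 := fun k l => X_mul_mem k (X_mem_P1 l)
  -- `G = f (X_o⁴)`
  have g1 : ∀ l, f (X o * (X o * (X o * X l))) * a o = f (X o * (X o * (X o * X o))) * a l := by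
    intro l
    have h1 := star2 (X o * (X o * X o)) (X_mul_mem o (hX2 o o)) l o
    rw [show (X l * (X o * (X o * X o)) : R) = X o * (X o * (X o * X l)) by ring] at h1
    exact h1
  have g2 : ∀ k l, f (X o * (X o * (X k * X l))) * (a o * a o) =
      f (X o * (X o * (X o * X o))) * (a k * a l) := by
    intro k l
    have h1 := star2 (X o * (X o * X l)) (X_mul_mem o (hX2 o l)) k o
    rw [show (X k * (X o * (X o * X l)) : R) = X o * (X o * (X k * X l)) by ring] at h1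
    linear_combination a o * h1 + a k * g1 l
  have hG : f (X o * (X o * (X o * X o))) = 0 := by
    have h2 : f (X o * (X o * q c j)) * (a o * a o) =
        f (X o * (X o * (X o * X o))) * ∑ k, ∑ l, c j k l * (a k * a l) := by
      unfold q
      simp only [Finset.mul_sum, mul_smul_comm, map_sum, map_smul, smul_eq_mul, Finset.sum_mul]
      refine Finset.sum_congr rfl fun k _ => Finset.sum_congr rfl fun l _ => ?_
      linear_combination c j k l * g2 k l
    rw [hQ, zero_mul] at h2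
    exact (mul_eq_zero.1 h2.symm).resolve_right hj
  have e0 : ∀ k, ∀ m ∈ P 1, f (X o * (X o * (X k * m))) = 0 := by
    intro k m hm
    have h1 : P 1 ≤ LinearMap.ker (f.comp (LinearMap.mulLeft ℂ (X o * X o * X k : R))) := by
      refine P1_le fun l => ?_
      rw [LinearMap.mem_ker, LinearMap.comp_apply, LinearMap.mulLeft_apply]
      have h1 := g2 k l
      rw [hG, zero_mul] at h1
      rw [mul_assoc, mul_assoc]
      exact (mul_eq_zero.1 h1).resolve_right (mul_ne_zero ho ho)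
    have h2 := ker_le (h1 hm)
    rw [mul_assoc, mul_assoc] at h2
    exact h2
  have e1 : ∀ m ∈ P 2, f (X o * (X o * m)) = 0 := by
    intro m hm
    have h1 : P 2 ≤ LinearMap.ker (f.comp (LinearMap.mulLeft ℂ (X o * X o : R))) := by
      refine P_ind fun k m hm => ?_
      rw [LinearMap.mem_ker, LinearMap.comp_apply, LinearMap.mulLeft_apply, mul_assoc]
      exact e0 k m hm
    have h2 := ker_le (h1 hm)
    rw [mul_assoc] at h2
    exact h2
  have e3 : ∀ p ∈ P 3, f (X o * p) = 0 := by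
    intro p hp
    have h1 : P 3 ≤ LinearMap.ker (f.comp (LinearMap.mulLeft ℂ (X o : R))) := by
      refine P_ind fun k m hm => ?_
      rw [LinearMap.mem_ker, LinearMap.comp_apply, LinearMap.mulLeft_apply]
      have h1 := star2 (X o * m) (X_mul_mem o hm) k o
      rw [e1 m hm, zero_mul, show (X k * (X o * m) : R) = X o * (X k * m) by ring] at h1
      exact (mul_eq_zero.1 h1).resolve_right ho
    exact ker_le (h1 hp)
  intro p hp i
  have h1 := star2 p hp i o
  rw [e3 p hp, zero_mul] at h1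
  exact (mul_eq_zero.1 h1).resolve_right ho

/-- **quartic forms** -/
theorem Nice.P4 (h : Nice c) : P 4 ≤ Submodule.span ℂ
    (Set.range fun t : Fin 3 × Fin 3 × Fin 3 => (X t.1 : R) * (X t.2.1 * q c t.2.2)) := by
  set Q4 := Submodule.span ℂ
    (Set.range fun t : Fin 3 × Fin 3 × Fin 3 => (X t.1 : R) * (X t.2.1 * q c t.2.2)) with hQ4
  have hQ : ∀ a b j, (X a : R) * (X b * q c j) ∈ Q4 := fun a b j =>
    Submodule.subset_span ⟨(a, b, j), rfl⟩
  intro p₀ hp₀
  by_contra hne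
  obtain ⟨f, hf, hfQ⟩ := Submodule.exists_le_ker_of_notMem hne
  obtain ⟨C, hCP, hC1, hC⟩ := h.P3
  have : FiniteDimensional ℂ C := Submodule.finiteDimensional_of_le hCP
  obtain ⟨κ, hκ⟩ := finrank_le_one_iff.1 hC1
  have hQf : ∀ x ∈ Q4, f x = 0 := fun x hx => hfQ hx
  let a : Fin 3 → ℂ := fun i => f (X i * (κ : R))
  have ha : ∀ i, f (X i * (κ : R)) = a i := fun i => rfl
  clear_value a
  -- on cubics, `f (X_i p) = s a_i`
  have star : ∀ p ∈ P 3, ∃ s : ℂ, ∀ i, f (X i * p) = s * a i := by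
    intro p hp
    obtain ⟨l, hl, m, hm, rfl⟩ := Submodule.mem_sup.1 (hC hp)
    obtain ⟨s, hs⟩ := hκ ⟨m, hm⟩
    refine ⟨s, fun i => ?_⟩
    have h1 : f (X i * l) = 0 := by
      refine hQf _ ?_
      refine Submodule.span_induction (p := fun l _ => X i * l ∈ Q4) ?_ ?_ ?_ ?_ hl
      · rintro _ ⟨⟨b, j⟩, rfl⟩
        exact hQ i b j
      · rw [mul_zero]; exact zero_mem _
      · intro p q _ _ hp hq
        rw [mul_add]; exact add_mem hp hq
      · intro c p _ hp
        rw [mul_smul_comm]; exact Submodule.smul_mem _ _ hp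
    have h2 : m = s • (κ : R) := by rw [← Submodule.coe_smul, hs]
    rw [mul_add, map_add, h1, zero_add, h2, mul_smul_comm, map_smul, smul_eq_mul, ha]
  have star2 : ∀ p ∈ P 3, ∀ i j, f (X i * p) * a j = f (X j * p) * a i := by
    intro p hp i j
    obtain ⟨s, hs⟩ := star p hp
    rw [hs, hs]
    ring
  have hvan : ¬ ∀ p ∈ P 3, ∀ i, f (X i * p) = 0 := by
    intro hall
    have h1 : P 4 ≤ LinearMap.ker f := P_ind fun i m hm => hall m hm i
    exact hf (h1 hp₀)
  have ha0 : a ≠ 0 := by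
    intro ha0
    apply hvan
    intro p hp i
    obtain ⟨s, hs⟩ := star p hp
    rw [hs, ha0]
    simp
  obtain ⟨o, ho⟩ : ∃ o, a o ≠ 0 := Function.ne_iff.1 ha0
  obtain ⟨j, hj⟩ := h.zero a ha0
  exact hvan (fun_zero ho star2 hj (hQf _ (hQ o o j)))

end Quad

/-! ### local algebras -/

section Loc

open IsLocalRing

variable {A : Type*} [CommRing A] [IsLocalRing A] [Algebra ℂ A] (x : Fin 3 → A)

local notation "M" => maximalIdeal A

/-- evaluation -/
def ev : R →ₐ[ℂ] A := aeval x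

theorem ev_X (i : Fin 3) : ev x (X i) = x i := aeval_X x i

variable {x}

theorem pow_eq (hM : M = Ideal.span (Set.range x)) (d : ℕ) :
    M ^ d = Ideal.span (Set.range fun s => ev x (mon d s)) := by
  induction d with
  | zero =>
    rw [pow_zero, Ideal.one_eq_top, eq_comm, Ideal.eq_top_iff_one]
    refine Ideal.subset_span ⟨Sym.nil, ?_⟩
    show ev x (mon 0 Sym.nil) = 1
    rw [mon_zero, map_one]
  | succ d ih =>
    rw [pow_succ', ih]
    conv_lhs => rw [hM]
    rw [Ideal.span_mul_span']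
    congr 1
    ext y
    constructor
    · rintro ⟨_, ⟨i, rfl⟩, _, ⟨s, rfl⟩, rfl⟩
      refine ⟨i ::ₛ s, ?_⟩
      show ev x (mon (d + 1) (i ::ₛ s)) = x i * ev x (mon d s)
      rw [mon_cons, map_mul, ev_X]
    · rintro ⟨s, rfl⟩
      obtain ⟨i, s', rfl⟩ := Sym.exists_eq_cons_of_succ s
      refine ⟨x i, ⟨i, rfl⟩, ev x (mon d s'), ⟨s', rfl⟩, ?_⟩
      show x i * ev x (mon d s') = ev x (mon (d + 1) (i ::ₛ s'))
      rw [mon_cons, map_mul, ev_X]

/-- one layer -/
theorem layer (hres : ∀ a : A, ∃ c : ℂ, a - algebraMap ℂ A c ∈ M) (S : Set A) (W : Submodule ℂ A)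
    (hS : ∀ s ∈ S, s ∈ W) (hM : ∀ a ∈ M * Ideal.span S, a ∈ W) :
    ∀ a ∈ Ideal.span S, a ∈ W := by
  intro a ha
  induction ha using Submodule.span_induction with
  | mem a ha => exact hS a ha
  | zero => exact W.zero_mem
  | add a b _ _ ha hb => exact W.add_mem ha hb
  | smul r a ha' ha =>
    obtain ⟨c, hc⟩ := hres r
    have e : r • a = c • a + (r - algebraMap ℂ A c) * a := by
      rw [smul_eq_mul, Algebra.smul_def]
      ring
    rw [e]
    exact W.add_mem (W.smul_mem c ha) (hM _ (Ideal.mul_mem_mul hc ha'))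

variable {c : Fin 3 → Fin 3 → Fin 3 → ℂ}

/-- **dimension at most eight** -/
theorem le8 (h : Nice c) (hres : ∀ a : A, ∃ c : ℂ, a - algebraMap ℂ A c ∈ M)
    (hM : M = Ideal.span (Set.range x)) (I : Ideal A)
    (hq : ∀ j, ev x (q c j) ∈ I ⊔ M ^ 3) :
    Module.Finite ℂ (A ⧸ I) ∧ Module.finrank ℂ (A ⧸ I) ≤ 8 := by
  have hxM : ∀ i, x i ∈ M := fun i => by rw [hM]; exact Ideal.subset_span ⟨i, rfl⟩
  have hmul : ∀ (i : Fin 3) (n : ℕ) (y : A), y ∈ I ⊔ M ^ n → x i * y ∈ I ⊔ M ^ (n + 1) := by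
    intro i n y hy
    obtain ⟨u, hu, v, hv, rfl⟩ := Submodule.mem_sup.1 hy
    rw [mul_add]
    refine add_mem (Submodule.mem_sup_left (I.mul_mem_left _ hu)) (Submodule.mem_sup_right ?_)
    rw [pow_succ']
    exact Ideal.mul_mem_mul (hxM i) hv
  -- `M⁴ ≤ I`
  have h4 : M ^ 4 ≤ I := by
    have h5 : M ^ 4 ≤ I ⊔ M • M ^ 4 := by
      have h6 : M • M ^ 4 = M ^ 5 := by rw [smul_eq_mul, ← pow_succ']
      rw [h6]
      conv_lhs => rw [pow_eq hM 4]
      refine Ideal.span_le.2 ?_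
      rintro _ ⟨s, rfl⟩
      have h7 := h.P4 (mon_mem 4 s)
      refine Submodule.span_induction (p := fun p _ => ev x p ∈ I ⊔ M ^ 5) ?_ ?_ ?_ ?_ h7
      · rintro _ ⟨⟨a, b, j⟩, rfl⟩
        show ev x (X a * (X b * q c j)) ∈ _
        rw [map_mul, map_mul, ev_X, ev_X]
        exact hmul a 4 _ (hmul b 3 _ (hq j))
      · rw [map_zero]; exact zero_mem _
      · intro p q _ _ hp hq
        rw [map_add]; exact add_mem hp hq
      · intro c p _ hp
        rw [map_smul, Algebra.smul_def]; exact Ideal.mul_mem_left _ _ hp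
    refine Submodule.le_of_le_smul_of_le_jacobson_bot (I := M) ?_ ?_ h5
    · exact Ideal.FG.pow (hM ▸ Submodule.fg_span (Set.finite_range x))
    · rw [IsLocalRing.jacobson_eq_maximalIdeal ⊥ bot_ne_top]
  obtain ⟨C3, hC3P, hC3, hP3⟩ := h.P3
  obtain ⟨C2, hC2P, hC2, hP2⟩ := h.P2
  have f3 : FiniteDimensional ℂ C3 := Submodule.finiteDimensional_of_le hC3P
  have f2 : FiniteDimensional ℂ C2 := Submodule.finiteDimensional_of_le hC2P
  set C : Submodule ℂ R := (P 0 ⊔ P 1) ⊔ (C2 ⊔ C3) with hC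
  have hCfin : Module.finrank ℂ C ≤ 8 := by
    have h1 := finrank_P 0
    have h2 := finrank_P 1
    have h3 := Submodule.finrank_add_le_finrank_add_finrank (P 0) (P 1)
    have h4 := Submodule.finrank_add_le_finrank_add_finrank C2 C3
    have h5 := Submodule.finrank_add_le_finrank_add_finrank (P 0 ⊔ P 1) (C2 ⊔ C3)
    have e0 : Nat.multichoose 3 0 = 1 := by simp
    have e1 : Nat.multichoose 3 1 = 3 := by simp
    rw [hC]
    omega
  set W : Submodule ℂ A := I.restrictScalars ℂ ⊔ C.map (ev x).toLinearMap with hW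
  have hIW : ∀ y ∈ I, y ∈ W := fun y hy => Submodule.mem_sup_left hy
  have hCW : ∀ p ∈ C, ev x p ∈ W := fun p hp =>
    Submodule.mem_sup_right (Submodule.mem_map_of_mem hp)
  have hIM : ∀ n, (∀ y ∈ M ^ n, y ∈ W) → ∀ y ∈ I ⊔ M ^ n, y ∈ W := by
    intro n hn y hy
    obtain ⟨u, hu, v, hv, rfl⟩ := Submodule.mem_sup.1 hy
    exact add_mem (hIW u hu) (hn v hv)
  have hlay : ∀ n, (∀ s, ev x (mon n s) ∈ W) → (∀ y ∈ M ^ (n + 1), y ∈ W) →
      ∀ y ∈ M ^ n, y ∈ W := by
    intro n h1 h2 y hy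
    rw [pow_eq hM n] at hy
    refine layer hres _ W ?_ ?_ y hy
    · rintro _ ⟨s, rfl⟩
      exact h1 s
    · intro b hb
      rw [← pow_eq hM n, ← pow_succ'] at hb
      exact h2 b hb
  have w4 : ∀ y ∈ M ^ 4, y ∈ W := fun y hy => hIW y (h4 hy)
  have w3 : ∀ y ∈ M ^ 3, y ∈ W := by
    refine hlay 3 (fun s => ?_) w4
    obtain ⟨l, hl, m, hm, he⟩ := Submodule.mem_sup.1 (hP3 (mon_mem 3 s))
    rw [← he, map_add]
    refine add_mem ?_ (hCW m (Submodule.mem_sup_right (Submodule.mem_sup_right hm)))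
    refine Submodule.span_induction (p := fun p _ => ev x p ∈ W) ?_ ?_ ?_ ?_ hl
    · rintro _ ⟨⟨b, j⟩, rfl⟩
      show ev x (X b * q c j) ∈ _
      rw [map_mul, ev_X]
      exact hIM 4 w4 _ (hmul b 3 _ (hq j))
    · rw [map_zero]; exact zero_mem _
    · intro p q _ _ hp hq
      rw [map_add]; exact add_mem hp hq
    · intro c p _ hp
      rw [map_smul]; exact Submodule.smul_mem _ _ hp
  have w2 : ∀ y ∈ M ^ 2, y ∈ W := by
    refine hlay 2 (fun s => ?_) w3
    obtain ⟨l, hl, m, hm, he⟩ := Submodule.mem_sup.1 (hP2 (mon_mem 2 s))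
    rw [← he, map_add]
    refine add_mem ?_ (hCW m (Submodule.mem_sup_right (Submodule.mem_sup_left hm)))
    refine Submodule.span_induction (p := fun p _ => ev x p ∈ W) ?_ ?_ ?_ ?_ hl
    · rintro _ ⟨j, rfl⟩
      exact hIM 3 w3 _ (hq j)
    · rw [map_zero]; exact zero_mem _
    · intro p q _ _ hp hq
      rw [map_add]; exact add_mem hp hq
    · intro c p _ hp
      rw [map_smul]; exact Submodule.smul_mem _ _ hp
  have w1 : ∀ y ∈ M ^ 1, y ∈ W := hlay 1 (fun s => hCW _ (Submodule.mem_sup_left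
    (Submodule.mem_sup_right (mon_mem 1 s)))) w2
  have w0 : ∀ y ∈ M ^ 0, y ∈ W := hlay 0 (fun s => hCW _ (Submodule.mem_sup_left
    (Submodule.mem_sup_left (mon_mem 0 s)))) w1
  have htop : ∀ y : A, y ∈ W := fun y => w0 y (by rw [pow_zero, Ideal.one_eq_top]; trivial)
  -- the surjection
  let g : C →ₗ[ℂ] A ⧸ I :=
    ((Ideal.Quotient.mkₐ ℂ I).toLinearMap.comp (ev x).toLinearMap).comp C.subtype
  have hg : Function.Surjective g := by
    intro b
    obtain ⟨a, rfl⟩ := Ideal.Quotient.mk_surjective b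
    obtain ⟨u, hu, v, hv, rfl⟩ := Submodule.mem_sup.1 (htop a)
    obtain ⟨p, hp, rfl⟩ := hv
    refine ⟨⟨p, hp⟩, ?_⟩
    show Ideal.Quotient.mk I (ev x p) = Ideal.Quotient.mk I (u + ev x p)
    rw [map_add, Ideal.Quotient.eq_zero_iff_mem.2 (show u ∈ I from hu), zero_add]
  have : FiniteDimensional ℂ C := by
    rw [hC]
    infer_instance
  exact ⟨Module.Finite.of_surjective g hg, (LinearMap.finrank_le_finrank_of_surjective hg).trans hCfin⟩

end Loc

end Crest.Agent.R257.Cub2_89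
end
end

-- ▼ part R257/Cub3_89
section

/-!
R257 / Cub3_89: `P8MuStmt`: a germ `f ∈ m³` with smooth cubic part has Milnor number at most `8`.
-/

set_option autoImplicit false
set_option linter.unusedVariables false
set_option linter.unusedSectionVars false

open Set Filter Topology IsLocalRing
open Crest.AlgGeometry.Germ
open Crest.Agent.R275.Loc2879
open Crest.Agent.R257.Defs_219 Crest.Agent.R257.UI939 Crest.Agent.R257.LCDefs_472
open Crest.Agent.R257.P8c_472 Crest.Agent.R257.P8d_472 Crest.Agent.R257.P8e_472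
open Crest.Agent.R257.Cub1_89 Crest.Agent.R257.LcxDefs_759

noncomputable section

namespace Crest.Agent.R257.Cub3_89

/-- the coefficients of the quadratic forms -/
def hc (f : E3 → ℂ) (i j k : Fin 3) : ℂ := H3 f i j k / 2

theorem eval_q (c : Fin 3 → Fin 3 → Fin 3 → ℂ) (j : Fin 3) (v : Fin 3 → ℂ) :
    MvPolynomial.eval v (Cub2_89.q c j) = ∑ k, ∑ l, c j k l * (v k * v l) := by
  unfold Cub2_89.q
  simp [MvPolynomial.smul_eval]

/-- the polar quadratic forms of a smooth cubic -/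
theorem nice {f : E3 → ℂ} (hf : AnalyticAt ℂ f 0)
    (hs : ∀ v : E3, v ≠ 0 → ∃ w, D3 f v v w ≠ 0) : Cub2_89.Nice (hc f) := by
  have hD := tri_D3 hf
  have key : ∀ w v : E3, D3 f w v v = 2 * ∑ j, w j * ∑ k, ∑ l, hc f j k l * (v k * v l) := by
    intro w v
    unfold D3 hc
    simp only [Finset.mul_sum]
    refine Finset.sum_congr rfl fun i _ => Finset.sum_congr rfl fun j _ =>
      Finset.sum_congr rfl fun k _ => ?_
    ring
  constructor
  · rw [Fintype.linearIndependent_iff]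
    intro g hg
    let L : E3 →ₗ[ℂ] E3 :=
      { toFun := fun v j => ∑ i, g (i, j) * v i
        map_add' := fun v w => by
          funext j
          simp only [Pi.add_apply, mul_add, Finset.sum_add_distrib]
        map_smul' := fun c v => by
          funext j
          simp only [Pi.smul_apply, smul_eq_mul, RingHom.id_apply, Finset.mul_sum]
          exact Finset.sum_congr rfl fun i _ => by ring }
    have hL : ∀ v j, L v j = ∑ i, g (i, j) * v i := fun v j => rfl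
    have h1 : ∀ v, D3 f (L v) v v = 0 := by
      intro v
      rw [key]
      have h2 := congrArg (MvPolynomial.eval v) hg
      rw [map_sum, map_zero] at h2
      simp only [MvPolynomial.smul_eval, map_mul, MvPolynomial.eval_X, eval_q] at h2
      rw [Fintype.sum_prod_type, Finset.sum_comm] at h2
      have h3 : ∑ j, L v j * ∑ k, ∑ l, hc f j k l * (v k * v l) = 0 := by
        rw [← h2]
        refine Finset.sum_congr rfl fun j _ => ?_
        rw [hL, Finset.sum_mul]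
        exact Finset.sum_congr rfl fun i _ => by ring
      rw [h3, mul_zero]
    have h4 := no_syz hD h1 hs
    rintro ⟨i, j⟩
    have h5 := congrFun (LinearMap.congr_fun h4 (Pi.single i 1)) j
    rw [hL] at h5
    simpa [Pi.single_apply] using h5
  · intro a ha
    obtain ⟨w, hw⟩ := hs a ha
    by_contra hall
    push Not at hall
    apply hw
    have h1 : D3 f a a w = D3 f w a a := by rw [hD.sw23, hD.sw12]
    rw [h1, key]
    simp [hall]

/-- **`P8MuStmt`** -/
theorem p8Mu : P8MuStmt := by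
  intro f hf h0 hcrit h2 hs
  have hN := nice hf hs
  have hpd : ∀ i, AnalyticAt ℂ (par f i) 0 := fun i => EVa_929.an_cd hf i
  -- expansion
  have hex : ∀ i, ∃ r : Fin 3 → Fin 3 → E3 → ℂ, (∀ j k, AnalyticAt ℂ (r j k) 0) ∧
      (∀ᶠ x in 𝓝 (0 : E3), par f i x = ∑ j, ∑ k, x j * x k * r j k x) ∧
      ∀ j k, r j k 0 + r k j 0 = H3 f i j k := by
    intro i
    have hg : AnalyticAt ℂ (fun q : E3 × ℂ => par f i q.1) (0, 0) :=
      AnalyticAt.fun_comp (g := par f i) (f := fun q : E3 × ℂ => q.1) (by exact hpd i)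
        analyticAt_fst
    obtain ⟨Rr, hR, hRe, hR0⟩ := Line_648.expand hg (Eventually.of_forall fun t => hcrit i)
    refine ⟨fun j k x => Rr j k (x, 0), fun j k => ?_, ?_, ?_⟩
    · exact AnalyticAt.fun_comp (g := Rr j k) (f := fun x : E3 => ((x, 0) : E3 × ℂ))
        (by exact hR j k) (analyticAt_id.prod analyticAt_const)
    · have ht : Tendsto (fun x : E3 => ((x, 0) : E3 × ℂ)) (𝓝 0) (𝓝 (0, 0)) :=
        (Continuous.prodMk continuous_id continuous_const).tendsto' _ _ rfl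
      filter_upwards [ht.eventually hRe] with x hx
      have h3 : ∀ j, coordDeriv (sl (fun q : E3 × ℂ => par f i q.1) 0) j 0 = 0 := fun j => h2 i j
      simp only [h3, mul_zero, Finset.sum_const_zero, zero_add] at hx
      exact hx
    · intro j k
      exact hR0 j k
  set I : Ideal (BB 3) := Idl (0 : Fin 3 → ℂ) (par f) with hI
  have hM : maximalIdeal (BB 3) = Ideal.span (Set.range (xB : Fin 3 → BB 3)) := by
    rw [max_eq]
    congr 1
    ext y
    simp [Fin.exists_fin_succ, eq_comm]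
  have hres : ∀ b : BB 3, ∃ k : ℂ, b - algebraMap ℂ (BB 3) k ∈ maximalIdeal (BB 3) := by
    intro a
    refine ⟨evp 0 a, ?_⟩
    rw [IsLocalRing.mem_maximalIdeal]
    intro hu
    refine (isUnit_iff.1 hu) ?_
    rw [map_sub]
    have : evp (0 : Fin 3 → ℂ) (algebraMap ℂ (BB 3) (evp 0 a)) = evp 0 a := rfl
    rw [this, sub_self]
  have hq : ∀ j, Cub2_89.ev (xB : Fin 3 → BB 3) (Cub2_89.q (hc f) j) ∈
      I ⊔ maximalIdeal (BB 3) ^ 3 := by
    intro i
    obtain ⟨r, hr, hre, hr0⟩ := hex i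
    have hmem : gm (par f i) (hpd i) ∈ I := by
      refine (mem_Idl hpd).2 ⟨Pi.single i 1, ?_⟩
      rw [Finset.sum_eq_single i]
      · simp
      · intro j _ hj
        simp [hj]
      · simp
    have hx : ∀ p : Fin 3 × Fin 3, AnalyticAt ℂ (fun x : E3 => x p.1 * x p.2) 0 := fun p =>
      (an_coord p.1 0).mul (an_coord p.2 0)
    obtain ⟨ha, he⟩ := exists_sum_gm' (p := (0 : E3)) Finset.univ
      (fun p : Fin 3 × Fin 3 => fun x : E3 => x p.1 * x p.2) (fun p => r p.1 p.2) hx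
      (fun p => hr p.1 p.2)
    have e1 : gm (par f i) (hpd i) =
        ∑ p : Fin 3 × Fin 3, (xB p.1 * xB p.2 : BB 3) * gm (r p.1 p.2) (hr p.1 p.2) := by
      have e2 : ∑ p : Fin 3 × Fin 3, (xB p.1 * xB p.2 : BB 3) * gm (r p.1 p.2) (hr p.1 p.2) =
          ∑ p : Fin 3 × Fin 3, gm (fun x : E3 => x p.1 * x p.2) (hx p) *
            gm (r p.1 p.2) (hr p.1 p.2) := rfl
      rw [e2, he, gm_eq_gm]
      filter_upwards [hre] with x hx
      rw [hx, Fintype.sum_prod_type]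
    have e3 : Cub2_89.ev (xB : Fin 3 → BB 3) (Cub2_89.q (hc f) i) =
        ∑ p : Fin 3 × Fin 3, algebraMap ℂ (BB 3) (r p.1 p.2 0) * (xB p.1 * xB p.2) := by
      unfold Cub2_89.q
      rw [map_sum, Fintype.sum_prod_type]
      simp only [map_sum, map_smul, map_mul, Cub2_89.ev_X]
      simp only [Algebra.smul_def]
      have e4 : ∀ j k, algebraMap ℂ (BB 3) (hc f i j k) =
          algebraMap ℂ (BB 3) (1 / 2) * (algebraMap ℂ (BB 3) (r j k 0) +
            algebraMap ℂ (BB 3) (r k j 0)) := by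
        intro j k
        rw [← map_add, hr0, ← map_mul]
        congr 1
        unfold hc
        ring
      have e5 : algebraMap ℂ (BB 3) (1 / 2) + algebraMap ℂ (BB 3) (1 / 2) = 1 := by
        rw [← map_add]
        norm_num
      simp only [e4]
      simp only [Fin.sum_univ_three]
      linear_combination (algebraMap ℂ (BB 3) (r 0 0 0) * (xB 0 * xB 0) +
        algebraMap ℂ (BB 3) (r 1 1 0) * (xB 1 * xB 1) +
        algebraMap ℂ (BB 3) (r 2 2 0) * (xB 2 * xB 2) +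
        algebraMap ℂ (BB 3) (r 0 1 0) * (xB 0 * xB 1) +
        algebraMap ℂ (BB 3) (r 1 0 0) * (xB 0 * xB 1) +
        algebraMap ℂ (BB 3) (r 0 2 0) * (xB 0 * xB 2) +
        algebraMap ℂ (BB 3) (r 2 0 0) * (xB 0 * xB 2) +
        algebraMap ℂ (BB 3) (r 1 2 0) * (xB 1 * xB 2) +
        algebraMap ℂ (BB 3) (r 2 1 0) * (xB 1 * xB 2)) * e5
    have e6 : Cub2_89.ev (xB : Fin 3 → BB 3) (Cub2_89.q (hc f) i) = gm (par f i) (hpd i) +
        ∑ p : Fin 3 × Fin 3, (xB p.1 * xB p.2 : BB 3) *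
          (algebraMap ℂ (BB 3) (r p.1 p.2 0) - gm (r p.1 p.2) (hr p.1 p.2)) := by
      rw [e1, e3, ← Finset.sum_add_distrib]
      exact Finset.sum_congr rfl fun p _ => by ring
    rw [e6]
    refine add_mem (Submodule.mem_sup_left hmem) (Submodule.mem_sup_right ?_)
    refine Ideal.sum_mem _ fun p _ => ?_
    have hxM : ∀ i, (xB i : BB 3) ∈ maximalIdeal (BB 3) := fun i => by
      rw [hM]; exact Ideal.subset_span ⟨i, rfl⟩
    have hrM : algebraMap ℂ (BB 3) (r p.1 p.2 0) - gm (r p.1 p.2) (hr p.1 p.2) ∈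
        maximalIdeal (BB 3) := by
      rw [IsLocalRing.mem_maximalIdeal]
      intro hu
      refine (isUnit_iff.1 hu) ?_
      rw [map_sub]
      have h5 : evp (0 : Fin 3 → ℂ) (gm (r p.1 p.2) (hr p.1 p.2)) = r p.1 p.2 0 := rfl
      have h6 : evp (0 : Fin 3 → ℂ) (algebraMap ℂ (BB 3) (r p.1 p.2 0)) = r p.1 p.2 0 := rfl
      rw [h5, h6, sub_self]
    have h7 : maximalIdeal (BB 3) ^ 3 =
        (maximalIdeal (BB 3) * maximalIdeal (BB 3)) * maximalIdeal (BB 3) := by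
      rw [pow_succ, pow_two]
    rw [h7]
    exact Ideal.mul_mem_mul (Ideal.mul_mem_mul (hxM _) (hxM _)) hrM
  have h8 := Cub2_89.le8 hN hres hM I hq
  rw [col_eq hpd]
  exact h8.2

end Crest.Agent.R257.Cub3_89
end
end

-- ▼ part R257/LcxG_759
section

/-!
R257 / LcxG_759 (helper759): `μ`-constant families with frequently log canonical, non klt germs;
the case of multiplicity `3` (`caseA`).
-/

set_option autoImplicit false

open Topology Filter Set Asymptotics
open Matrix hiding col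
open Crest.AlgGeometry.Germ

noncomputable section

namespace Crest.Agent.R257.LcxG_759

open Crest.Agent.R257.Defs_219 Crest.Agent.R257.LCDefs_472 Crest.Agent.R257.LcxDefs_759
open Crest.Agent.R257.LcxA_759 Crest.Agent.R257.LcxD_759 Crest.Agent.R257.LcxS_759
open Crest.Agent.R257.LcxL_759
open Crest.Agent.R257.EVa_929 (TB)

/-- a log canonical, non klt germ, in some linear coordinates -/
def Bad (g : E3 → ℂ) : Prop := ∃ (f : E3 → ℂ) (A : E3 ≃L[ℂ] E3), LC0 f ∧ g = fun x => f (A x)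

theorem bad_lin {g : E3 → ℂ} (hB : Bad g) {M : Matrix (Fin 3) (Fin 3) ℂ} (hM : M.det ≠ 0) :
    Bad fun x => g (M.mulVec x) := by
  obtain ⟨f, A, hf, rfl⟩ := hB
  exact ⟨f, (me M hM).trans A, hf, rfl⟩

theorem exists_mat (A : E3 ≃L[ℂ] E3) : ∃ L : Matrix (Fin 3) (Fin 3) ℂ, L.det ≠ 0 ∧
    ∀ x, A x = L.mulVec x := by
  refine ⟨LinearMap.toMatrix' (A.toLinearEquiv : E3 →ₗ[ℂ] E3), ?_, fun x => ?_⟩
  · rw [LinearMap.det_toMatrix']
    exact (LinearEquiv.isUnit_det' A.toLinearEquiv).ne_zero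
  · exact (LinearMap.toMatrix'_mulVec _ x).symm

theorem H2_zero_lin {g : E3 → ℂ} (hg : AnalyticAt ℂ g 0) {L : Matrix (Fin 3) (Fin 3) ℂ}
    (h2 : ∀ i j, H2 g i j = 0) (i j : Fin 3) : H2 (fun x => g (L.mulVec x)) i j = 0 := by
  rw [H2_lin hg]
  simp [h2]

theorem comp_inv {f : E3 → ℂ} {L : Matrix (Fin 3) (Fin 3) ℂ} (hL : L.det ≠ 0) :
    (fun x => (fun x => f (L.mulVec x)) (L⁻¹.mulVec x)) = f := by
  funext x
  show f (L.mulVec (L⁻¹.mulVec x)) = f x
  rw [mulVec_surj hL]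

theorem det_inv_ne {L : Matrix (Fin 3) (Fin 3) ℂ} (hL : L.det ≠ 0) : L⁻¹.det ≠ 0 := by
  rw [Matrix.det_nonsing_inv]
  intro h
  rw [Ring.inverse_eq_inv', inv_eq_zero] at h
  exact hL h

theorem bad_nodal {g : E3 → ℂ} (hB : Bad g) (h2 : ∀ i j, H2 g i j = 0) : Nodal g := by
  obtain ⟨f, A, hf, rfl⟩ := hB
  obtain ⟨L, hL, hA⟩ := exists_mat A
  simp only [hA] at h2 ⊢
  have ha : AnalyticAt ℂ (fun x => f (L.mulVec x)) 0 := an_lin0 L hf.iso.an
  have hf2 : ∀ i j, H2 f i j = 0 := by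
    intro i j
    have := H2_zero_lin ha (L := L⁻¹) h2 i j
    rwa [comp_inv hL] at this
  have hN : Nodal f := by
    by_contra hcon
    exact hf.lc (LcTop_980.pos f hf.iso hf2 hcon)
  refine nodal_lin ha (det_inv_ne hL) ?_
  rw [comp_inv hL]
  exact hN

theorem col_lin {f : E3 → ℂ} (hf : AnalyticAt ℂ f 0) (A : E3 ≃L[ℂ] E3) :
    col (par fun x => f (A x)) = col (par f) := by
  obtain ⟨L, hL, hA⟩ := exists_mat A
  have h1 : (fun x => f (A x)) = fun x => f (L.mulVec x) := funext fun x => by rw [hA]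
  rw [h1]
  exact (LCa_472.par_comp (f := fun x => f (L.mulVec x)) (g := f) (θ := ml L) hf
    ((ml L).analyticAt 0) (map_zero _) (by
      rw [(ml L).fderiv]
      intro x y hxy
      have : L.mulVec (x - y) = 0 := by
        have h4 : ml L (x - y) = 0 := by rw [map_sub, hxy, sub_self]
        exact h4
      exact sub_eq_zero.1 (mulVec_inj hL this))
    (an_lin0 L hf) (Eventually.of_forall fun x => rfl)).2.symm

theorem fr0 {P : ℂ → Prop} (h : ∃ᶠ t in 𝓝[≠] (0 : ℂ), P t) {Q : ℂ → Prop}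
    (hQ : ∀ᶠ t in 𝓝 (0 : ℂ), Q t) : ∃ᶠ t in 𝓝[≠] (0 : ℂ), P t ∧ Q t :=
  h.and_eventually (hQ.filter_mono nhdsWithin_le_nhds)

/-- the germs of a family are good on a fixed ball -/
theorem good_fam {F : E3 × ℂ → ℂ} {μ : ℕ} (hF : Fam F μ) :
    ∃ r C : ℝ, ∀ᶠ t in 𝓝 (0 : ℂ), Good (sl F t) r C := by
  have hi0 : ∀ᶠ x in 𝓝 (0 : E3), (∀ i, coordDeriv (sl F 0) i x = 0) → x = 0 := by
    have h1 : Tendsto (fun x : E3 => (x, (0 : ℂ))) (𝓝 0) (𝓝 (0, 0)) :=
      (Continuous.prodMk_left (0 : ℂ)).tendsto' _ _ rfl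
    exact h1.eventually hF.iso
  obtain ⟨r₀, hr₀, hrt⟩ := RtD_838.rt hF.an hF.an hi0
  obtain ⟨ρ, hρ, hb⟩ := Metric.eventually_nhds_iff_ball.1
    (hF.an.eventually_analyticAt.and hF.iso)
  set r : ℝ := min (r₀ / 2) (ρ / 2) with hr
  have hr0 : 0 < r := by positivity
  obtain ⟨δ, hδ, C, hC⟩ := hrt r hr0 (by
    have : r ≤ r₀ / 2 := min_le_left _ _
    linarith)
  have hq : ∀ (x : E3) (t : ℂ), ‖x‖ ≤ r → ‖t‖ < ρ → (x, t) ∈ Metric.ball ((0 : E3), (0 : ℂ)) ρ := by
    intro x t hx ht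
    rw [Metric.mem_ball, ← Prod.zero_eq_mk, dist_zero_right, Prod.norm_def]
    refine max_lt ?_ ht
    have : r ≤ ρ / 2 := min_le_right _ _
    show ‖x‖ < ρ
    linarith
  refine ⟨r, C, ?_⟩
  filter_upwards [Metric.ball_mem_nhds (0 : ℂ) hρ, Metric.ball_mem_nhds (0 : ℂ) hδ, hF.zero,
    hF.crit] with t h1 h2 h3 h4
  rw [mem_ball_zero_iff] at h1 h2
  refine ⟨hr0, fun x hx => (hb _ (hq x t hx h1)).1.comp (g := F) (f := fun x : E3 => (x, t))
    (analyticAt_id.prod analyticAt_const), h3, h4,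
    fun x hx hcr => (hb _ (hq x t hx h1)).2 hcr, δ, hδ, fun y hy hne Z hZ => ?_⟩
  exact hC t y h2 hy Z hZ fun x hx => hne x ((hZ x).1 hx).1 ((hZ x).1 hx).2

theorem an_H3 {F : E3 × ℂ → ℂ} (hF : AnalyticAt ℂ F (0, 0)) (i j k : Fin 3) :
    AnalyticAt ℂ (fun t : ℂ => H3 (sl F t) i j k) 0 := by
  have h1 := Skel_219.analyticAt_pd hF i
  have h2 := Skel_219.analyticAt_pd h1 j
  have h3 := Skel_219.analyticAt_pd h2 k
  have h4 : AnalyticAt ℂ (fun t : ℂ => ((0, t) : E3 × ℂ)) 0 :=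
    analyticAt_const.prod analyticAt_id
  exact AnalyticAt.fun_comp (f := fun t : ℂ => ((0, t) : E3 × ℂ))
    (g := fun q : E3 × ℂ => coordDeriv (sl (fun q : E3 × ℂ => coordDeriv
      (sl (fun q : E3 × ℂ => coordDeriv (sl F q.2) i q.1) q.2) j q.1) q.2) k q.1) h3 h4

theorem cont_S {F : E3 × ℂ → ℂ} (hF : AnalyticAt ℂ F (0, 0)) :
    ContinuousAt (fun t : ℂ => S (H3 (sl F t))) 0 := by
  have h : ∀ i j k, ContinuousAt (fun t : ℂ => H3 (sl F t) i j k) 0 := fun i j k =>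
    (an_H3 hF i j k).continuousAt
  have h1 : ContinuousAt (fun t : ℂ => H3 (sl F t)) 0 :=
    continuousAt_pi.2 fun i => continuousAt_pi.2 fun j => continuousAt_pi.2 fun k => h i j k
  have h2 : Continuous S := by
    unfold S
    fun_prop
  exact h2.continuousAt.comp h1

theorem S_zero {F : E3 × ℂ → ℂ} {μ : ℕ} (hF : Fam F μ) (hN : ¬ Nodal (sl F 0)) :
    S (H3 (sl F 0)) = 0 := by
  have ha : AnalyticAt ℂ (sl F 0) 0 := (ev_an_sl hF.an).self_of_nhds
  unfold Nodal at hN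
  push Not at hN
  obtain ⟨v, u, hv, hvv, hvu, huv⟩ := hN
  exact S_null (sym_H3 ha) hv huv hvv hvu

/-- **multiplicity three** -/
theorem caseA {F : E3 × ℂ → ℂ} {μ : ℕ} (hF : Fam F μ) (hμ : 10 ≤ μ)
    (h2 : ∀ᶠ t in 𝓝 (0 : ℂ), ∀ i j, H2 (sl F t) i j = 0) (hN : ¬ Nodal (sl F 0))
    (hB : ∃ᶠ t in 𝓝[≠] (0 : ℂ), Bad (sl F t)) : False := by
  obtain ⟨r, C, hG⟩ := good_fam hF
  obtain ⟨k, hk, hnod⟩ := Ev5_838.nodalStmt
  have hS : ∀ᶠ t in 𝓝 (0 : ℂ), (k * C) ^ 2 * ‖S (H3 (sl F t))‖ < 1 := by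
    have h1 : ContinuousAt (fun t : ℂ => (k * C) ^ 2 * ‖S (H3 (sl F t))‖) 0 :=
      continuousAt_const.mul (cont_S hF.an).norm
    have h3 : (k * C) ^ 2 * ‖S (H3 (sl F 0))‖ < 1 := by
      rw [S_zero hF hN]; simp
    exact h1.tendsto.eventually_lt_const h3
  obtain ⟨t, hb, h2t, hGt, hfin, hSt⟩ :=
    (fr0 hB (h2.and (hG.and (hF.fin.and hS)))).exists
  have hnt := bad_nodal hb h2t
  have ha : AnalyticAt ℂ (sl F t) 0 := hGt.an 0 (by simpa using hGt.r_pos.le)
  by_cases hs : ∃ v : E3, v ≠ 0 ∧ ∀ w, D3 (sl F t) v v w = 0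
  · obtain ⟨L, a, b, hL, hdet⟩ := hnod (sl F t) r C hGt h2t hnt hs
    have h4 : S (H3 (sl F t)) = - L.det ^ 4 := S_of_nrm (sym_H3 ha) (a := a) (b := b) hL
    rw [h4, norm_neg, norm_pow] at hSt
    have h5 : 1 ≤ (k * C * ‖L.det‖ ^ 2) ^ 2 := one_le_pow₀ hdet
    have h6 : (k * C * ‖L.det‖ ^ 2) ^ 2 = (k * C) ^ 2 * ‖L.det‖ ^ 4 := by ring
    linarith
  · push Not at hs
    have h4 := Cub3_89.p8Mu (sl F t) ha hGt.zero hGt.crit0 h2t hs
    rw [hfin.2] at h4
    omega

/-- the situation to be excluded -/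
structure Ctx (F : E3 × ℂ → ℂ) (μ : ℕ) : Prop where
  fam : Fam F μ
  mu : 10 ≤ μ
  h2 : ∀ i j, H2 (sl F 0) i j = 0
  nn : ¬ Nodal (sl F 0)
  bad : ∃ᶠ t in 𝓝[≠] (0 : ℂ), Bad (sl F t)

variable {F : E3 × ℂ → ℂ} {μ : ℕ}

theorem Ctx.ch (h : Ctx F μ) {M : ℂ → Matrix (Fin 3) (Fin 3) ℂ}
    (hM : ∀ i j, AnalyticAt ℂ (fun t => M t i j) 0) (h0 : (M 0).det ≠ 0) :
    Ctx (LcxL_759.ch M F) μ where
  fam := fam_ch hM h0 h.fam
  mu := h.mu
  h2 i j := by
    rw [sl_ch]
    exact H2_zero_lin (ev_an_sl h.fam.an).self_of_nhds h.h2 i j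
  nn hN := by
    rw [sl_ch] at hN
    exact h.nn (nodal_lin (ev_an_sl h.fam.an).self_of_nhds h0 hN)
  bad := by
    refine (fr0 h.bad (det_ne hM h0)).mono fun t ht => ?_
    rw [sl_ch]
    exact bad_lin ht.1 ht.2

end Crest.Agent.R257.LcxG_759
end
end

-- ▼ part R257/LcxH_759
section

/-!
R257 / LcxH_759 (helper759): corank 2 in the assembly of `PosStmt3`: normal forms of the 2-jet and of
the cubic part of `w` in the family.
-/

set_option autoImplicit false

open Topology Filter Set Asymptotics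
open Matrix hiding col
open Crest.AlgGeometry.Germ

noncomputable section

namespace Crest.Agent.R257.LcxG_759

open Crest.Agent.R257.Defs_219 Crest.Agent.R257.LCDefs_472 Crest.Agent.R257.LcxDefs_759
open Crest.Agent.R257.LcxA_759 Crest.Agent.R257.LcxD_759 Crest.Agent.R257.LcxS_759
open Crest.Agent.R257.LcxL_759

variable {F : E3 × ℂ → ℂ} {μ : ℕ}

theorem ev_of_fr {u v : ℂ → ℂ} (hu : AnalyticAt ℂ u 0) (hv : AnalyticAt ℂ v 0)
    (h : ∃ᶠ t in 𝓝[≠] (0 : ℂ), u t = v t) : ∀ᶠ t in 𝓝 (0 : ℂ), u t = v t :=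
  (hu.frequently_eq_iff_eventually_eq hv).1 h

theorem ev_of_ne {u v : ℂ → ℂ} (hu : AnalyticAt ℂ u 0) (hv : AnalyticAt ℂ v 0)
    (h : ∀ᶠ t in 𝓝[≠] (0 : ℂ), u t = v t) : ∀ᶠ t in 𝓝 (0 : ℂ), u t = v t :=
  ev_of_fr hu hv h.frequently

/-- the leading matrix of the second derivatives -/
theorem Ctx.lead (h : Ctx F μ) : ∃ (a : ℕ) (T : Fin 3 → Fin 3 → ℂ → ℂ),
    (∀ i j, AnalyticAt ℂ (T i j) 0) ∧ (∀ᶠ t in 𝓝 (0 : ℂ), ∀ i j, H2 (sl F t) i j = t ^ a * T i j t) ∧
    (∀ᶠ t in 𝓝 (0 : ℂ), ∀ i j k l, T i j t * T k l t = T i l t * T k j t) ∧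
    (∀ᶠ t in 𝓝 (0 : ℂ), ∀ i j, T i j t = T j i t) ∧ ∃ i, T i i 0 ≠ 0 := by
  rcases LCTop_472.exists_lead (fun (k : Fin 3 × Fin 3) t => H2 (sl F t) k.1 k.2)
    (fun k => LCTop_472.analyticAt_H2 h.fam.an k.1 k.2) with h0 | ⟨a, T, hT, hTe, k, hk⟩
  · exact (caseA h.fam h.mu (h0.mono fun t ht i j => ht (i, j)) h.nn h.bad).elim
  · have hTe' : ∀ᶠ t in 𝓝 (0 : ℂ), ∀ i j, H2 (sl F t) i j = t ^ a * T (i, j) t := by
      filter_upwards [hTe] with t ht i j
      exact ht (i, j)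
    have key : ∀ᶠ t in 𝓝[≠] (0 : ℂ), (∀ i j k l, T (i, j) t * T (k, l) t = T (i, l) t * T (k, j) t)
        ∧ ∀ i j, T (i, j) t = T (j, i) t := by
      filter_upwards [(hTe'.and (Rig20.ra_stmt F μ h.fam h.h2)).filter_mono nhdsWithin_le_nhds,
        self_mem_nhdsWithin] with t ht h0
      obtain ⟨h1, l, hl⟩ := ht
      have hta : t ^ a ≠ 0 := pow_ne_zero _ h0
      have e : ∀ i j, T (i, j) t = l i * l j / t ^ a := fun i j => by
        rw [← hl, h1]
        field_simp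
      constructor
      · intro i j k m
        simp only [e]
        ring
      · intro i j
        simp only [e]
        ring
    have k1 : ∀ᶠ t in 𝓝 (0 : ℂ), ∀ i j k l, T (i, j) t * T (k, l) t = T (i, l) t * T (k, j) t :=
      eventually_all.2 fun i => eventually_all.2 fun j => eventually_all.2 fun k =>
        eventually_all.2 fun l => ev_of_ne ((hT _).mul (hT _)) ((hT _).mul (hT _))
          (key.mono fun t ht => ht.1 i j k l)
    have k2 : ∀ᶠ t in 𝓝 (0 : ℂ), ∀ i j, T (i, j) t = T (j, i) t :=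
      eventually_all.2 fun i => eventually_all.2 fun j => ev_of_ne (hT _) (hT _)
          (key.mono fun t ht => ht.2 i j)
    refine ⟨a, fun i j => T (i, j), fun i j => hT _, hTe', k1, k2, k.1, fun h0 => hk ?_⟩
    have h1 := k1.self_of_nhds k.1 k.2 k.2 k.1
    have h2 := k2.self_of_nhds k.1 k.2
    rw [show (k.1, k.2) = k from rfl] at h1 h2
    have h3 : T (k.1, k.1) 0 = 0 := h0
    rw [h3, zero_mul, ← h2] at h1
    exact mul_self_eq_zero.1 h1

/-- second derivatives `H2 · 0 0` only -/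
structure Ctx2 (F : E3 × ℂ → ℂ) (μ : ℕ) : Prop extends Ctx F μ where
  hz : ∀ᶠ t in 𝓝 (0 : ℂ), ∀ i j, i ≠ 0 ∨ j ≠ 0 → H2 (sl F t) i j = 0
  hn : ∀ᶠ t in 𝓝[≠] (0 : ℂ), H2 (sl F t) 0 0 ≠ 0

/-- the change of coordinates for `i0` -/
def M1 (i0 : Fin 3) (L : Fin 3 → ℂ → ℂ) (t : ℂ) : Matrix (Fin 3) (Fin 3) ℂ := fun i a =>
  (if i = i0 + a then 1 else 0) - if a = 0 then 0 else if i = i0 then L (i0 + a) t else 0

theorem M1_sum (i0 : Fin 3) (L : Fin 3 → ℂ → ℂ) (t : ℂ) (hL : L i0 t = 1) (i : Fin 3) :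
    ∑ a, M1 i0 L t a i * L a t = if i = 0 then 1 else 0 := by
  rw [Fin.sum_univ_three]
  fin_cases i0 <;> fin_cases i <;> simp_all [M1]

theorem Ctx.ctx2 (h : Ctx F μ) : ∃ F', Ctx2 F' μ := by
  obtain ⟨a, T, hT, hTe, hR, hS, i0, hi0⟩ := h.lead
  set L : Fin 3 → ℂ → ℂ := fun j t => T i0 j t / T i0 i0 t with hL
  have hLa : ∀ j, AnalyticAt ℂ (L j) 0 := fun j => (hT i0 j).div (hT i0 i0) hi0
  have hM : ∀ i j, AnalyticAt ℂ (fun t => M1 i0 L t i j) 0 := by
    intro i j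
    unfold M1
    refine AnalyticAt.sub analyticAt_const ?_
    split_ifs
    · exact analyticAt_const
    · exact hLa _
    · exact analyticAt_const
  have hdet : (M1 i0 L 0).det ≠ 0 := by
    rw [Matrix.det_fin_three]
    fin_cases i0 <;> simp [M1]
  have hne : ∀ᶠ t in 𝓝 (0 : ℂ), T i0 i0 t ≠ 0 := (hT i0 i0).continuousAt.eventually_ne hi0
  have key : ∀ᶠ t in 𝓝 (0 : ℂ), ∀ i j, H2 (sl (LcxL_759.ch (M1 i0 L) F) t) i j =
      t ^ a * T i0 i0 t * ((if i = 0 then 1 else 0) * if j = 0 then 1 else 0) := by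
    filter_upwards [hTe, hR, hS, hne, ev_an_sl h.fam.an] with t h1 h2 h3 h4 h5 i j
    have hLi : L i0 t = 1 := by simp only [hL]; field_simp
    have hp : ∀ i j, T i j t = T i0 i0 t * (L i t * L j t) := by
      intro i j
      have e1 := h2 i0 i0 i j
      have e2 := h3 i i0
      simp only [hL]
      field_simp
      rw [e2] at e1
      linear_combination e1
    rw [sl_ch, H2_lin h5, ← M1_sum i0 L t hLi i, ← M1_sum i0 L t hLi j, Finset.sum_mul_sum,
      Finset.mul_sum]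
    refine Finset.sum_congr rfl fun k _ => ?_
    rw [Finset.mul_sum]
    refine Finset.sum_congr rfl fun l _ => ?_
    rw [h1, hp]
    ring
  refine ⟨LcxL_759.ch (M1 i0 L) F, h.ch hM hdet, ?_, ?_⟩
  · filter_upwards [key] with t ht i j hij
    rw [ht]
    rcases hij with h' | h'
    · rw [if_neg h']; ring
    · rw [if_neg h']; ring
  · filter_upwards [(key.and hne).filter_mono nhdsWithin_le_nhds, self_mem_nhdsWithin] with t ht h0
    rw [ht.1]
    simp only [if_true, mul_one]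
    exact mul_ne_zero (pow_ne_zero _ h0) ht.2

/-- coordinate changes fixing `x_0` -/
theorem Ctx2.ch (h : Ctx2 F μ) {M : ℂ → Matrix (Fin 3) (Fin 3) ℂ}
    (hM : ∀ i j, AnalyticAt ℂ (fun t => M t i j) 0) (h0 : (M 0).det ≠ 0)
    (h00 : ∀ t, M t 0 0 = 1) (h01 : ∀ t, M t 0 1 = 0) (h02 : ∀ t, M t 0 2 = 0) :
    Ctx2 (LcxL_759.ch M F) μ := by
  have key : ∀ᶠ t in 𝓝 (0 : ℂ), ∀ i j, H2 (sl (LcxL_759.ch M F) t) i j =
      M t 0 i * M t 0 j * H2 (sl F t) 0 0 := by
    filter_upwards [h.hz, ev_an_sl h.fam.an] with t h1 h2 i j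
    rw [sl_ch, H2_lin h2]
    simp only [Fin.sum_univ_three]
    rw [h1 0 1 (by decide), h1 0 2 (by decide), h1 1 0 (by decide), h1 1 1 (by decide),
      h1 1 2 (by decide), h1 2 0 (by decide), h1 2 1 (by decide), h1 2 2 (by decide)]
    ring
  refine ⟨h.toCtx.ch hM h0, ?_, ?_⟩
  · filter_upwards [key] with t ht i j hij
    rw [ht]
    have hz : ∀ k : Fin 3, k ≠ 0 → M t 0 k = 0 := by
      intro k hk
      fin_cases k
      · exact absurd rfl hk
      · exact h01 t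
      · exact h02 t
    rcases hij with h' | h'
    · rw [hz i h']; ring
    · rw [hz j h']; ring
  · filter_upwards [key.filter_mono nhdsWithin_le_nhds, h.hn] with t ht h1
    rw [ht, h00]
    simpa using h1

/-- the decomposition of the family -/
structure DD (F U : E3 × ℂ → ℂ) (V W : (Fin 2 → ℂ) × ℂ → ℂ) : Prop extends DF F U V W where
  v0 : ∀ᶠ t in 𝓝 (0 : ℂ), ∀ i j, i + j ≤ 1 → cf (sl V t) i j = 0
  w0 : ∀ᶠ t in 𝓝 (0 : ℂ), ∀ i j, i + j ≤ 2 → cf (sl W t) i j = 0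
  u0 : sl U 0 0 = 0
  un : ∀ᶠ t in 𝓝[≠] (0 : ℂ), sl U t 0 ≠ 0

theorem Ctx2.dd (h : Ctx2 F μ) : ∃ U V W, DD F U V W := by
  obtain ⟨U, V, W, hD⟩ := exists_DF h.fam.an
  refine ⟨U, V, W, hD, ?_, ?_, ?_, ?_⟩
  · filter_upwards [hD.dq, h.fam.crit, h.hz] with t h1 h2 h3 i j hij
    rcases (by omega : (i = 0 ∧ j = 0) ∨ (i = 1 ∧ j = 0) ∨ (i = 0 ∧ j = 1)) with
      ⟨rfl, rfl⟩ | ⟨rfl, rfl⟩ | ⟨rfl, rfl⟩
    · rw [← h1.c0]; exact h2 0
    · rw [← h1.h01]; exact h3 0 1 (by decide)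
    · rw [← h1.h02]; exact h3 0 2 (by decide)
  · filter_upwards [hD.dq, h.fam.crit, h.fam.zero, h.hz] with t h1 h2 h3 h4 i j hij
    rcases (by omega : (i = 0 ∧ j = 0) ∨ (i = 1 ∧ j = 0) ∨ (i = 0 ∧ j = 1) ∨ (i = 2 ∧ j = 0) ∨
      (i = 1 ∧ j = 1) ∨ (i = 0 ∧ j = 2)) with
      ⟨rfl, rfl⟩ | ⟨rfl, rfl⟩ | ⟨rfl, rfl⟩ | ⟨rfl, rfl⟩ | ⟨rfl, rfl⟩ | ⟨rfl, rfl⟩
    · rw [← h1.z]; exact h3
    · rw [← h1.c1]; exact h2 1
    · rw [← h1.c2]; exact h2 2
    · have := h1.h11
      rw [h4 1 1 (by decide)] at this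
      linear_combination -this / 2
    · rw [← h1.h12]; exact h4 1 2 (by decide)
    · have := h1.h22
      rw [h4 2 2 (by decide)] at this
      linear_combination -this / 2
  · have := hD.dq.self_of_nhds.h00
    rw [h.h2] at this
    linear_combination -this / 2
  · filter_upwards [hD.dq.filter_mono nhdsWithin_le_nhds, h.hn] with t h1 h2 h3
    rw [h1.h00, h3, mul_zero] at h2
    exact h2 rfl

theorem DD.dcp {U : E3 × ℂ → ℂ} {V W : (Fin 2 → ℂ) × ℂ → ℂ} (h : DD F U V W) :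
    ∀ᶠ t in 𝓝[≠] (0 : ℂ), Dcp (sl F t) (sl U t) (sl V t) (sl W t) := by
  filter_upwards [(h.dq.and (h.v0.and h.w0)).filter_mono nhdsWithin_le_nhds, h.un] with t h1 h2
  exact ⟨h1.1.au, h1.1.av, h1.1.aw, h1.1.eq, h2, h1.2.1, h1.2.2⟩

theorem Dcp.dq {g u : E3 → ℂ} {v w : (Fin 2 → ℂ) → ℂ} (h : Dcp g u v w) : Dq g u v w :=
  ⟨h.au, h.av, h.aw, h.eq⟩

/-- the cubic part of `w` is a cube, identically in the family -/
theorem Ctx2.cube (h : Ctx2 F μ) : ∀ᶠ t in 𝓝 (0 : ℂ),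
    H3 (sl F t) 1 1 2 * H3 (sl F t) 1 1 2 = H3 (sl F t) 1 1 1 * H3 (sl F t) 1 2 2 ∧
    H3 (sl F t) 1 2 2 * H3 (sl F t) 1 2 2 = H3 (sl F t) 1 1 2 * H3 (sl F t) 2 2 2 ∧
    H3 (sl F t) 1 1 2 * H3 (sl F t) 1 2 2 = H3 (sl F t) 1 1 1 * H3 (sl F t) 2 2 2 := by
  obtain ⟨U, V, W, hD⟩ := h.dd
  have key : ∃ᶠ t in 𝓝[≠] (0 : ℂ),
      H3 (sl F t) 1 1 2 * H3 (sl F t) 1 1 2 = H3 (sl F t) 1 1 1 * H3 (sl F t) 1 2 2 ∧
      H3 (sl F t) 1 2 2 * H3 (sl F t) 1 2 2 = H3 (sl F t) 1 1 2 * H3 (sl F t) 2 2 2 ∧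
      H3 (sl F t) 1 1 2 * H3 (sl F t) 1 2 2 = H3 (sl F t) 1 1 1 * H3 (sl F t) 2 2 2 := by
    refine (h.bad.and_eventually hD.dcp).mono ?_
    rintro t ⟨⟨f, A, hf, hg⟩, h1⟩
    have h2 := Cl2F_475.cubeStmt f A (sl U t) (sl V t) (sl W t) hf (hg ▸ h1)
    have h3 := Dcp.dq h1
    rw [h3.h111, h3.h112, h3.h122, h3.h222]
    obtain ⟨e1, e2, e3⟩ := h2
    refine ⟨?_, ?_, ?_⟩
    · linear_combination 4 * e1
    · linear_combination 4 * e2
    · linear_combination 4 * e3
  have ha : ∀ i j k, AnalyticAt ℂ (fun t : ℂ => H3 (sl F t) i j k) 0 := an_H3 h.fam.an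
  have k1 := ev_of_fr ((ha 1 1 2).mul (ha 1 1 2)) ((ha 1 1 1).mul (ha 1 2 2))
    (key.mono fun t ht => ht.1)
  have k2 := ev_of_fr ((ha 1 2 2).mul (ha 1 2 2)) ((ha 1 1 2).mul (ha 2 2 2))
    (key.mono fun t ht => ht.2.1)
  have k3 := ev_of_fr ((ha 1 1 2).mul (ha 1 2 2)) ((ha 1 1 1).mul (ha 2 2 2))
    (key.mono fun t ht => ht.2.2)
  filter_upwards [k1, k2, k3] with t h1 h2 h3
  exact ⟨h1, h2, h3⟩

/-- the cubic part of `w` is `κ y³`, `κ ≠ 0` for `t ≠ 0` -/
structure Ctx3 (F : E3 × ℂ → ℂ) (μ : ℕ) : Prop extends Ctx2 F μ where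
  c1 : ∀ᶠ t in 𝓝 (0 : ℂ), H3 (sl F t) 1 1 2 = 0 ∧ H3 (sl F t) 1 2 2 = 0 ∧ H3 (sl F t) 2 2 2 = 0
  c0 : ∀ᶠ t in 𝓝[≠] (0 : ℂ), H3 (sl F t) 1 1 1 ≠ 0

/-- `y ↦ y - m z` -/
def M2 (m : ℂ → ℂ) (t : ℂ) : Matrix (Fin 3) (Fin 3) ℂ := !![1, 0, 0; 0, 1, -m t; 0, 0, 1]

/-- `y ↔ z` -/
def M3 (_ : ℂ) : Matrix (Fin 3) (Fin 3) ℂ := !![1, 0, 0; 0, 0, 1; 0, 1, 0]

theorem an_M2 {m : ℂ → ℂ} (hm : AnalyticAt ℂ m 0) (i j : Fin 3) :
    AnalyticAt ℂ (fun t => M2 m t i j) 0 := by
  fin_cases i <;> fin_cases j <;> simp [M2] <;> first | exact analyticAt_const | exact hm.neg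

theorem an_M3 (i j : Fin 3) : AnalyticAt ℂ (fun t => M3 t i j) 0 := analyticAt_const

/-- a leading coefficient of `w_3` at `y³` -/
def Ld (F : E3 × ℂ → ℂ) : Prop := ∃ (n : ℕ) (A B : ℂ → ℂ), AnalyticAt ℂ A 0 ∧ AnalyticAt ℂ B 0 ∧
  A 0 ≠ 0 ∧ (∀ᶠ t in 𝓝 (0 : ℂ), H3 (sl F t) 1 1 1 = t ^ n * A t) ∧
  (∀ᶠ t in 𝓝 (0 : ℂ), H3 (sl F t) 1 1 2 = t ^ n * B t)

theorem Ctx2.ctx3 (h : Ctx2 F μ) (hl : Ld F) : ∃ F', Ctx3 F' μ := by
  obtain ⟨n, A, B, hA, hB, hA0, h1, h2⟩ := hl
  set m : ℂ → ℂ := fun t => B t / A t with hm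
  have hma : AnalyticAt ℂ m 0 := hB.div hA hA0
  have h3 := h.ch (M := M2 m) (an_M2 hma) (by rw [Matrix.det_fin_three]; simp [M2])
    (fun t => by simp [M2]) (fun t => by simp [M2]) (fun t => by simp [M2])
  have hne : ∀ᶠ t in 𝓝 (0 : ℂ), A t ≠ 0 := hA.continuousAt.eventually_ne hA0
  have key : ∀ᶠ t in 𝓝[≠] (0 : ℂ), H3 (sl (LcxL_759.ch (M2 m) F) t) 1 1 1 ≠ 0 ∧
      H3 (sl (LcxL_759.ch (M2 m) F) t) 1 1 2 = 0 ∧ H3 (sl (LcxL_759.ch (M2 m) F) t) 1 2 2 = 0 ∧
      H3 (sl (LcxL_759.ch (M2 m) F) t) 2 2 2 = 0 := by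
    filter_upwards [(h1.and (h2.and (hne.and (h.cube.and (ev_an_sl h.fam.an))))).filter_mono
      nhdsWithin_le_nhds, self_mem_nhdsWithin] with t ht h0
    obtain ⟨e1, e2, e3, ⟨c1, c2, c3⟩, han⟩ := ht
    have hs := sym_H3 han
    have ht0 : t ^ n ≠ 0 := pow_ne_zero _ h0
    have hT : H3 (sl F t) 1 1 1 ≠ 0 := by rw [e1]; exact mul_ne_zero ht0 e3
    have hb : H3 (sl F t) 1 1 2 = m t * H3 (sl F t) 1 1 1 := by
      rw [e1, e2]; simp only [hm]; field_simp
    have hc : H3 (sl F t) 1 2 2 = m t ^ 2 * H3 (sl F t) 1 1 1 := by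
      rw [hb] at c1
      have : H3 (sl F t) 1 1 1 * (m t ^ 2 * H3 (sl F t) 1 1 1 - H3 (sl F t) 1 2 2) = 0 := by
        linear_combination c1
      have := (mul_eq_zero.1 this).resolve_left hT
      linear_combination -this
    have hd : H3 (sl F t) 2 2 2 = m t ^ 3 * H3 (sl F t) 1 1 1 := by
      rw [hb, hc] at c3
      have : H3 (sl F t) 1 1 1 * (m t ^ 3 * H3 (sl F t) 1 1 1 - H3 (sl F t) 2 2 2) = 0 := by
        linear_combination c3
      have := (mul_eq_zero.1 this).resolve_left hT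
      linear_combination -this
    have s1 : H3 (sl F t) 1 2 1 = H3 (sl F t) 1 1 2 := (hs.s23 1 1 2).symm
    have s2 : H3 (sl F t) 2 1 1 = H3 (sl F t) 1 1 2 := by rw [hs.s12 2 1 1, s1]
    have s3 : H3 (sl F t) 2 1 2 = H3 (sl F t) 1 2 2 := hs.s12 2 1 2
    have s4 : H3 (sl F t) 2 2 1 = H3 (sl F t) 1 2 2 := by rw [hs.s23 2 2 1, s3]
    rw [sl_ch, H3_lin han]
    unfold act
    simp only [Fin.sum_univ_three, M2, s1, s2, s3, s4]
    simp only [Matrix.of_apply, Matrix.cons_val', Matrix.cons_val_zero, Matrix.cons_val_one,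
      Matrix.cons_val, Matrix.cons_val_fin_one, mul_zero, zero_mul, add_zero, zero_add, mul_one]
    rw [hb, hc, hd]
    refine ⟨hT, ?_, ?_, ?_⟩ <;> ring
  have ha : ∀ i j k, AnalyticAt ℂ (fun t : ℂ => H3 (sl (LcxL_759.ch (M2 m) F) t) i j k) 0 :=
    an_H3 h3.fam.an
  refine ⟨LcxL_759.ch (M2 m) F, h3, ?_, key.mono fun t ht => ht.1⟩
  filter_upwards [ev_of_ne (ha 1 1 2) analyticAt_const (key.mono fun t ht => ht.2.1),
    ev_of_ne (ha 1 2 2) analyticAt_const (key.mono fun t ht => ht.2.2.1),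
    ev_of_ne (ha 2 2 2) analyticAt_const (key.mono fun t ht => ht.2.2.2)] with t h1 h2 h3
  exact ⟨h1, h2, h3⟩

/-- **dichotomy** of the cubic part of `w` -/
theorem Ctx2.tri (h : Ctx2 F μ) : (∀ᶠ t in 𝓝 (0 : ℂ), H3 (sl F t) 1 1 1 = 0 ∧
    H3 (sl F t) 1 1 2 = 0 ∧ H3 (sl F t) 1 2 2 = 0 ∧ H3 (sl F t) 2 2 2 = 0) ∨
    ∃ F', Ctx3 F' μ := by
  have ha : ∀ i j k, AnalyticAt ℂ (fun t : ℂ => H3 (sl F t) i j k) 0 := an_H3 h.fam.an
  rcases LCTop_472.exists_lead (![fun t => H3 (sl F t) 1 1 1, fun t => H3 (sl F t) 1 1 2,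
    fun t => H3 (sl F t) 1 2 2, fun t => H3 (sl F t) 2 2 2] : Fin 4 → ℂ → ℂ) (by
      intro k; fin_cases k
      · exact ha 1 1 1
      · exact ha 1 1 2
      · exact ha 1 2 2
      · exact ha 2 2 2) with h0 | ⟨n, T, hT, hTe, k, hk⟩
  · left
    filter_upwards [h0] with t ht
    exact ⟨ht 0, ht 1, ht 2, ht 3⟩
  · right
    have hq : ∀ᶠ t in 𝓝 (0 : ℂ), T 1 t * T 1 t = T 0 t * T 2 t ∧ T 2 t * T 2 t = T 1 t * T 3 t := by
      have h1 : ∀ᶠ t in 𝓝[≠] (0 : ℂ), T 1 t * T 1 t = T 0 t * T 2 t ∧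
          T 2 t * T 2 t = T 1 t * T 3 t := by
        filter_upwards [(hTe.and h.cube).filter_mono nhdsWithin_le_nhds, self_mem_nhdsWithin]
          with t ht h0
        have ht0 : t ^ n * t ^ n ≠ 0 := mul_ne_zero (pow_ne_zero _ h0) (pow_ne_zero _ h0)
        have e0 : H3 (sl F t) 1 1 1 = t ^ n * T 0 t := ht.1 0
        have e1 : H3 (sl F t) 1 1 2 = t ^ n * T 1 t := ht.1 1
        have e2 : H3 (sl F t) 1 2 2 = t ^ n * T 2 t := ht.1 2
        have e3 : H3 (sl F t) 2 2 2 = t ^ n * T 3 t := ht.1 3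
        obtain ⟨-, c1, c2, -⟩ := ht
        rw [e0, e1, e2] at c1
        rw [e1, e2, e3] at c2
        constructor
        · apply mul_left_cancel₀ ht0
          linear_combination c1
        · apply mul_left_cancel₀ ht0
          linear_combination c2
      filter_upwards [ev_of_ne ((hT 1).mul (hT 1)) ((hT 0).mul (hT 2)) (h1.mono fun t ht => ht.1),
        ev_of_ne ((hT 2).mul (hT 2)) ((hT 1).mul (hT 3)) (h1.mono fun t ht => ht.2)] with t a b
      exact ⟨a, b⟩
    obtain ⟨q1, q2⟩ := hq.self_of_nhds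
    by_cases hA : T 0 0 = 0
    · -- exchange `y` and `z`
      have h1 : T 1 0 = 0 := by
        rw [hA, zero_mul] at q1
        exact mul_self_eq_zero.1 q1
      have h2 : T 2 0 = 0 := by
        rw [h1, zero_mul] at q2
        exact mul_self_eq_zero.1 q2
      have h3 : T 3 0 ≠ 0 := by
        fin_cases k
        · exact absurd hA hk
        · exact absurd h1 hk
        · exact absurd h2 hk
        · exact hk
      have h4 := h.ch (M := M3) an_M3 (by rw [Matrix.det_fin_three]; simp [M3])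
        (fun t => by simp [M3]) (fun t => by simp [M3]) (fun t => by simp [M3])
      refine h4.ctx3 ⟨n, T 3, T 2, hT 3, hT 2, h3, ?_, ?_⟩
      · filter_upwards [hTe, ev_an_sl h.fam.an] with t ht han
        have e3 : H3 (sl F t) 2 2 2 = t ^ n * T 3 t := ht 3
        rw [sl_ch, H3_lin han, ← e3]
        unfold act
        simp [Fin.sum_univ_three, M3]
      · filter_upwards [hTe, ev_an_sl h.fam.an] with t ht han
        have e2 : H3 (sl F t) 1 2 2 = t ^ n * T 2 t := ht 2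
        have hs := sym_H3 han
        have s3 : H3 (sl F t) 2 1 2 = H3 (sl F t) 1 2 2 := hs.s12 2 1 2
        have s4 : H3 (sl F t) 2 2 1 = H3 (sl F t) 1 2 2 := by rw [hs.s23 2 2 1, s3]
        rw [sl_ch, H3_lin han, ← e2, ← s4]
        unfold act
        simp [Fin.sum_univ_three, M3]
    · refine h.ctx3 ⟨n, T 0, T 1, hT 0, hT 1, hA, ?_, ?_⟩
      · filter_upwards [hTe] with t ht
        exact ht 0
      · filter_upwards [hTe] with t ht
        exact ht 1

end Crest.Agent.R257.LcxG_759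
end
end

-- ▼ part R257/LcxT_759

/-!
R257 / LcxT_759 (helper759): **`PosStmt3`** of `Skel2_219` from `QuartStmt` and `SextStmt`.
-/

set_option autoImplicit false

open Topology Filter Set Asymptotics
open Matrix hiding col
open Crest.AlgGeometry.Germ

noncomputable section

namespace Crest.Agent.R257.LcxG_759

open Crest.Agent.R257.Defs_219 Crest.Agent.R257.LCDefs_472 Crest.Agent.R257.LcxDefs_759
open Crest.Agent.R257.LcxA_759 Crest.Agent.R257.LcxD_759 Crest.Agent.R257.LcxS_759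
open Crest.Agent.R257.LcxL_759

variable {F : E3 × ℂ → ℂ} {μ : ℕ}

/-! ### coefficients of the discriminant at `t = 0` -/

section coef
variable {g u : E3 → ℂ} {v w : (Fin 2 → ℂ) → ℂ}

theorem us (hu : u 0 = 0) (hw : ∀ i j, i + j ≤ 3 → cf w i j = 0) {i j : ℕ} (hij : i + j ≤ 4) :
    (∑ a ∈ Finset.HasAntidiagonal.antidiagonal i, ∑ b ∈ Finset.HasAntidiagonal.antidiagonal j,
        cf (fun p : Fin 2 → ℂ => u (Fin.cons 0 p)) a.1 b.1 * cf w a.2 b.2) = 0 := by
  refine Finset.sum_eq_zero fun a ha => Finset.sum_eq_zero fun b hb => ?_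
  rw [Finset.HasAntidiagonal.mem_antidiagonal] at ha hb
  by_cases h0 : a.1 = 0 ∧ b.1 = 0
  · rw [h0.1, h0.2, cf_u00, hu, zero_mul]
  · rw [hw a.2 b.2 (by omega), mul_zero]

theorem d4 (hD : Dq g u v w) (hu : u 0 = 0) (hv : ∀ i j, i + j ≤ 1 → cf v i j = 0)
    (hw : ∀ i j, i + j ≤ 3 → cf w i j = 0) :
    12 * cf (Dsc u v w) 4 0 * cf (Dsc u v w) 0 4 -
      3 * cf (Dsc u v w) 3 1 * cf (Dsc u v w) 1 3 + cf (Dsc u v w) 2 2 ^ 2 =
    (cf v 1 1 ^ 2 - 4 * cf v 2 0 * cf v 0 2) ^ 2 := by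
  have h00 := hv 0 0 (by norm_num)
  have h10 := hv 1 0 (by norm_num)
  have h01 := hv 0 1 (by norm_num)
  simp only [cf_dsc hD.au hD.av hD.aw, us hu hw (by norm_num : 4 + 0 ≤ 4),
    us hu hw (by norm_num : 0 + 4 ≤ 4), us hu hw (by norm_num : 3 + 1 ≤ 4),
    us hu hw (by norm_num : 1 + 3 ≤ 4), us hu hw (by norm_num : 2 + 2 ≤ 4)]
  simp only [Finset.Nat.sum_antidiagonal_eq_sum_range_succ_mk, Finset.sum_range_succ,
    Finset.sum_range_zero, h00, h10, h01]
  norm_num [h00, h10, h01]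
  ring

section
variable (hD : Dq g u v w) (hu : u 0 = 0) (hv : ∀ i j, i + j ≤ 1 → cf v i j = 0)
  (hw : ∀ i j, i + j ≤ 2 → cf w i j = 0) (h21 : cf w 2 1 = 0) (h12 : cf w 1 2 = 0)
  (h03 : cf w 0 3 = 0)
include hD hu hv hw h21 h12 h03

theorem e04 : cf (Dsc u v w) 0 4 = - cf v 0 2 ^ 2 := by
  have h00 := hv 0 0 (by norm_num)
  have h10 := hv 1 0 (by norm_num)
  have h01 := hv 0 1 (by norm_num)
  have w00 := hw 0 0 (by norm_num)
  have w10 := hw 1 0 (by norm_num)
  have w01 := hw 0 1 (by norm_num)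
  have w20 := hw 2 0 (by norm_num)
  have w11 := hw 1 1 (by norm_num)
  have w02 := hw 0 2 (by norm_num)
  simp only [cf_dsc hD.au hD.av hD.aw]
  simp only [Finset.Nat.sum_antidiagonal_eq_sum_range_succ_mk, Finset.sum_range_succ,
    Finset.sum_range_zero, h00, h10, h01]
  norm_num [h00, h10, h01, w00, w10, w01, w20, w11, w02, h21, h12, h03, cf_u00, hu]
  try ring

theorem e05 : cf (Dsc u v w) 0 5 = 4 * (coordDeriv u 2 0 * cf w 0 4) - 2 * cf v 0 2 * cf v 0 3 := by
  have h00 := hv 0 0 (by norm_num)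
  have h10 := hv 1 0 (by norm_num)
  have h01 := hv 0 1 (by norm_num)
  have w00 := hw 0 0 (by norm_num)
  have w10 := hw 1 0 (by norm_num)
  have w01 := hw 0 1 (by norm_num)
  have w20 := hw 2 0 (by norm_num)
  have w11 := hw 1 1 (by norm_num)
  have w02 := hw 0 2 (by norm_num)
  simp only [cf_dsc hD.au hD.av hD.aw]
  simp only [Finset.Nat.sum_antidiagonal_eq_sum_range_succ_mk, Finset.sum_range_succ,
    Finset.sum_range_zero, h00, h10, h01]
  norm_num [h00, h10, h01, w00, w10, w01, w20, w11, w02, h21, h12, h03, cf_u00, hu,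
    cf_u01 hD.au]
  try ring

theorem e22 : cf (Dsc u v w) 2 2 = - cf v 1 1 ^ 2 - 2 * cf v 2 0 * cf v 0 2 := by
  have h00 := hv 0 0 (by norm_num)
  have h10 := hv 1 0 (by norm_num)
  have h01 := hv 0 1 (by norm_num)
  have w00 := hw 0 0 (by norm_num)
  have w10 := hw 1 0 (by norm_num)
  have w01 := hw 0 1 (by norm_num)
  have w20 := hw 2 0 (by norm_num)
  have w11 := hw 1 1 (by norm_num)
  have w02 := hw 0 2 (by norm_num)
  simp only [cf_dsc hD.au hD.av hD.aw]
  simp only [Finset.Nat.sum_antidiagonal_eq_sum_range_succ_mk, Finset.sum_range_succ,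
    Finset.sum_range_zero, h00, h10, h01]
  norm_num [h00, h10, h01, w00, w10, w01, w20, w11, w02, h21, h12, h03, cf_u00, hu]
  try ring

theorem e30 : cf (Dsc u v w) 3 0 = 0 := by
  have h00 := hv 0 0 (by norm_num)
  have h10 := hv 1 0 (by norm_num)
  have h01 := hv 0 1 (by norm_num)
  have w00 := hw 0 0 (by norm_num)
  have w10 := hw 1 0 (by norm_num)
  have w01 := hw 0 1 (by norm_num)
  have w20 := hw 2 0 (by norm_num)
  have w11 := hw 1 1 (by norm_num)
  have w02 := hw 0 2 (by norm_num)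
  simp only [cf_dsc hD.au hD.av hD.aw]
  simp only [Finset.Nat.sum_antidiagonal_eq_sum_range_succ_mk, Finset.sum_range_succ,
    Finset.sum_range_zero, h00, h10, h01]
  norm_num [h00, h10, h01, w00, w10, w01, w20, w11, w02, h21, h12, h03, cf_u00, hu]

end

/-- node at `e_2` -/
theorem nodal2 (hD : Dq g u v w) (h21 : cf w 2 1 = 0) (h12 : cf w 1 2 = 0) (h03 : cf w 0 3 = 0)
    (h02 : cf v 0 2 = 0) (h11 : cf v 1 1 ≠ 0) : Nodal g := by
  have hs := sym_H3 hD.an
  have t022 : H3 g 0 2 2 = 0 := by rw [hD.h022, h02, mul_zero]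
  have t122 : H3 g 1 2 2 = 0 := by rw [hD.h122, h12, mul_zero]
  have t222 : H3 g 2 2 2 = 0 := by rw [hD.h222, h03, mul_zero]
  have t112 : H3 g 1 1 2 = 0 := by rw [hD.h112, h21, mul_zero]
  have t012 : H3 g 0 1 2 = cf v 1 1 := hD.h012
  have s220 : H3 g 2 2 0 = 0 := by rw [hs.s23, hs.s12, t022]
  have s221 : H3 g 2 2 1 = 0 := by rw [hs.s23, hs.s12, t122]
  have s202 : H3 g 2 0 2 = 0 := by rw [hs.s12, t022]
  have s212 : H3 g 2 1 2 = 0 := by rw [hs.s12, t122]
  have s211 : H3 g 2 1 1 = 0 := by rw [hs.s12, hs.s23, t112]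
  have s201 : H3 g 2 0 1 = cf v 1 1 := by rw [hs.s12, hs.s23, t012]
  have s210 : H3 g 2 1 0 = cf v 1 1 := by rw [hs.s23, s201]
  refine nodal_of_node hs (p := ![0, 0, 1]) (fun h => ?_) (fun x => ?_) (fun x hx => ?_)
  · have := congrFun h 2
    simp at this
  · simp [ev, Fin.sum_univ_three, s220, s221, t222]
  · have a1 := hx ![0, 1, 0]
    have a0 := hx ![1, 0, 0]
    simp [ev, Fin.sum_univ_three, s201, s211, s221] at a1
    have x0 : x 0 = 0 := a1.resolve_left h11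
    simp [ev, Fin.sum_univ_three, s210, s220, x0] at a0
    have x1 : x 1 = 0 := a0.resolve_left h11
    refine ⟨x 2, ?_⟩
    funext i
    fin_cases i <;> simp [x0, x1]

/-- a binary quadratic form has a zero -/
theorem exists_zero (a b c : ℂ) : ∃ y z : ℂ, (y ≠ 0 ∨ z ≠ 0) ∧ a * y ^ 2 + b * y * z + c * z ^ 2 = 0 := by
  by_cases ha : a = 0
  · exact ⟨1, 0, Or.inl one_ne_zero, by rw [ha]; ring⟩
  · obtain ⟨s, hs⟩ := IsAlgClosed.exists_eq_mul_self (b ^ 2 - 4 * a * c)
    refine ⟨(-b + s) / (2 * a), 1, Or.inr one_ne_zero, ?_⟩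
    field_simp
    linear_combination -hs

/-- node on the line `x_0 = 0` -/
theorem nodal1 (hD : Dq g u v w) (h30 : cf w 3 0 = 0) (h21 : cf w 2 1 = 0) (h12 : cf w 1 2 = 0)
    (h03 : cf w 0 3 = 0) (hd : cf v 1 1 ^ 2 - 4 * cf v 2 0 * cf v 0 2 ≠ 0) : Nodal g := by
  have hs := sym_H3 hD.an
  obtain ⟨y, z, hyz, hq⟩ := exists_zero (cf v 2 0) (cf v 1 1) (cf v 0 2)
  have t111 : H3 g 1 1 1 = 0 := by rw [hD.h111, h30, mul_zero]
  have t112 : H3 g 1 1 2 = 0 := by rw [hD.h112, h21, mul_zero]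
  have t122 : H3 g 1 2 2 = 0 := by rw [hD.h122, h12, mul_zero]
  have t222 : H3 g 2 2 2 = 0 := by rw [hD.h222, h03, mul_zero]
  have t121 : H3 g 1 2 1 = 0 := by rw [hs.s23, t112]
  have t211 : H3 g 2 1 1 = 0 := by rw [hs.s12, t121]
  have t212 : H3 g 2 1 2 = 0 := by rw [hs.s12, t122]
  have t221 : H3 g 2 2 1 = 0 := by rw [hs.s23, t212]
  have t110 : H3 g 1 1 0 = 2 * cf v 2 0 := by rw [hs.s23, hs.s12, hD.h011]
  have t120 : H3 g 1 2 0 = cf v 1 1 := by rw [hs.s23, hs.s12, hD.h012]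
  have t210 : H3 g 2 1 0 = cf v 1 1 := by rw [hs.s12, t120]
  have t220 : H3 g 2 2 0 = 2 * cf v 0 2 := by rw [hs.s23, hs.s12, hD.h022]
  have t101 : H3 g 1 0 1 = 2 * cf v 2 0 := by rw [hs.s12, hD.h011]
  have t102 : H3 g 1 0 2 = cf v 1 1 := by rw [hs.s12, hD.h012]
  have t201 : H3 g 2 0 1 = cf v 1 1 := by rw [hs.s23, t210]
  have t202 : H3 g 2 0 2 = 2 * cf v 0 2 := by rw [hs.s12, hD.h022]
  refine nodal_of_node hs (p := ![0, y, z]) (fun h => ?_) (fun x => ?_) (fun x hx => ?_)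
  · have h1 := congrFun h 1
    have h2 := congrFun h 2
    simp at h1 h2
    rcases hyz with h' | h'
    · exact h' h1
    · exact h' h2
  · simp only [ev, Fin.sum_univ_three, Matrix.cons_val_zero, Matrix.cons_val_one, Matrix.cons_val,
      t111, t112, t121, t122, t211, t212, t221, t222, t110, t120, t210, t220]
    linear_combination 2 * x 0 * hq
  · have a1 := hx ![0, 1, 0]
    have a2 := hx ![0, 0, 1]
    have a0 := hx ![1, 0, 0]
    simp only [ev, Fin.sum_univ_three, Matrix.cons_val_zero, Matrix.cons_val_one, Matrix.cons_val,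
      t111, t112, t121, t122, t211, t212, t221, t222, t101, t102, t201, t202, t110, t120, t210,
      t220] at a0 a1 a2
    have b1 : (2 * cf v 2 0 * y + cf v 1 1 * z) * x 0 = 0 := by linear_combination a1
    have b2 : (cf v 1 1 * y + 2 * cf v 0 2 * z) * x 0 = 0 := by linear_combination a2
    have hPQ : 2 * cf v 2 0 * y + cf v 1 1 * z ≠ 0 ∨ cf v 1 1 * y + 2 * cf v 0 2 * z ≠ 0 := by
      by_contra hcon
      push Not at hcon
      obtain ⟨hP, hQ⟩ := hcon
      have c1 : (cf v 1 1 ^ 2 - 4 * cf v 2 0 * cf v 0 2) * y = 0 := by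
        linear_combination cf v 1 1 * hQ - 2 * cf v 0 2 * hP
      have c2 : (cf v 1 1 ^ 2 - 4 * cf v 2 0 * cf v 0 2) * z = 0 := by
        linear_combination cf v 1 1 * hP - 2 * cf v 2 0 * hQ
      rcases hyz with h' | h'
      · exact h' ((mul_eq_zero.1 c1).resolve_left hd)
      · exact h' ((mul_eq_zero.1 c2).resolve_left hd)
    have x0 : x 0 = 0 := by
      rcases hPQ with h' | h'
      · exact (mul_eq_zero.1 b1).resolve_left h'
      · exact (mul_eq_zero.1 b2).resolve_left h'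
    rw [x0] at a0
    have b0 : (2 * cf v 2 0 * y + cf v 1 1 * z) * x 1 +
        (cf v 1 1 * y + 2 * cf v 0 2 * z) * x 2 = 0 := by linear_combination a0
    have b3 : (2 * cf v 2 0 * y + cf v 1 1 * z) * y +
        (cf v 1 1 * y + 2 * cf v 0 2 * z) * z = 0 := by linear_combination 2 * hq
    have b4 : x 1 * z - x 2 * y = 0 := by
      rcases hPQ with h' | h'
      · have : (2 * cf v 2 0 * y + cf v 1 1 * z) * (x 1 * z - x 2 * y) = 0 := by
          linear_combination z * b0 - x 2 * b3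
        exact (mul_eq_zero.1 this).resolve_left h'
      · have : (cf v 1 1 * y + 2 * cf v 0 2 * z) * (x 1 * z - x 2 * y) = 0 := by
          linear_combination x 1 * b3 - y * b0
        exact (mul_eq_zero.1 this).resolve_left h'
    rcases hyz with h' | h'
    · refine ⟨x 1 / y, ?_⟩
      funext i
      fin_cases i
      · simp [x0]
      · simp only [Pi.smul_apply, smul_eq_mul]
        show x 1 = x 1 / y * y
        field_simp
      · simp only [Pi.smul_apply, smul_eq_mul]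
        show x 2 = x 1 / y * z
        field_simp
        linear_combination -b4
    · refine ⟨x 2 / z, ?_⟩
      funext i
      fin_cases i
      · simp [x0]
      · simp only [Pi.smul_apply, smul_eq_mul]
        show x 1 = x 2 / z * y
        field_simp
        linear_combination b4
      · simp only [Pi.smul_apply, smul_eq_mul]
        show x 2 = x 2 / z * z
        field_simp

end coef

/-! ### the two cases -/

theorem cont_cf {Q : (Fin 2 → ℂ) × ℂ → ℂ} (hQ : AnalyticAt ℂ Q (0, 0)) (i j : ℕ) :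
    ContinuousAt (fun t : ℂ => cf (sl Q t) i j) 0 := (an_cf hQ i j).continuousAt

theorem Bad.col {g : E3 → ℂ} {f : E3 → ℂ} {A : E3 ≃L[ℂ] E3} (hf : LC0 f)
    (hg : g = fun x => f (A x)) : Defs_219.col (par f) = Defs_219.col (par g) := by
  rw [hg, col_lin hf.iso.an A]

/-- the cubic part of `w` vanishes -/
theorem caseB1 (quart : QuartStmt) (h : Ctx2 F μ) (h0 : ∀ᶠ t in 𝓝 (0 : ℂ), H3 (sl F t) 1 1 1 = 0 ∧
    H3 (sl F t) 1 1 2 = 0 ∧ H3 (sl F t) 1 2 2 = 0 ∧ H3 (sl F t) 2 2 2 = 0) : False := by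
  obtain ⟨U, V, W, hD⟩ := h.dd
  obtain ⟨r, C, hG⟩ := good_fam h.fam
  obtain ⟨k, hk, hq⟩ := quart
  have hw3 : ∀ᶠ t in 𝓝 (0 : ℂ), cf (sl W t) 3 0 = 0 ∧ cf (sl W t) 2 1 = 0 ∧ cf (sl W t) 1 2 = 0 ∧
      cf (sl W t) 0 3 = 0 := by
    filter_upwards [h0, hD.dq] with t h1 h2
    obtain ⟨a1, a2, a3, a4⟩ := h1
    rw [h2.h111] at a1
    rw [h2.h112] at a2
    rw [h2.h122] at a3
    rw [h2.h222] at a4
    exact ⟨by linear_combination a1 / 6, by linear_combination a2 / 2, by linear_combination a3 / 2,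
      by linear_combination a4 / 6⟩
  have hc := cont_cf (an_DscF hD.toDF)
  have hI : ContinuousAt (fun t : ℂ => k * C ^ 2 * ‖12 * cf (sl (DscF U V W) t) 4 0 *
      cf (sl (DscF U V W) t) 0 4 - 3 * cf (sl (DscF U V W) t) 3 1 * cf (sl (DscF U V W) t) 1 3 +
      cf (sl (DscF U V W) t) 2 2 ^ 2‖) 0 :=
    continuousAt_const.mul ((((continuousAt_const.mul (hc 4 0)).mul (hc 0 4)).sub
      ((continuousAt_const.mul (hc 3 1)).mul (hc 1 3))).add ((hc 2 2).pow 2)).norm
  -- the value at `0`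
  have hDq := hD.dq.self_of_nhds
  obtain ⟨w30, w21, w12, w03⟩ := hw3.self_of_nhds
  have hw : ∀ i j, i + j ≤ 3 → cf (sl W 0) i j = 0 := by
    intro i j hij
    rcases (by omega : i + j ≤ 2 ∨ (i = 3 ∧ j = 0) ∨ (i = 2 ∧ j = 1) ∨ (i = 1 ∧ j = 2) ∨
      (i = 0 ∧ j = 3)) with h' | ⟨rfl, rfl⟩ | ⟨rfl, rfl⟩ | ⟨rfl, rfl⟩ | ⟨rfl, rfl⟩
    · exact hD.w0.self_of_nhds i j h'
    · exact w30
    · exact w21
    · exact w12
    · exact w03
  have hv := d4 hDq hD.u0 hD.v0.self_of_nhds hw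
  by_cases hd : cf (sl V 0) 1 1 ^ 2 - 4 * cf (sl V 0) 2 0 * cf (sl V 0) 0 2 = 0
  · rw [hd] at hv
    have hlt : k * C ^ 2 * ‖12 * cf (sl (DscF U V W) 0) 4 0 *
      cf (sl (DscF U V W) 0) 0 4 - 3 * cf (sl (DscF U V W) 0) 3 1 * cf (sl (DscF U V W) 0) 1 3 +
      cf (sl (DscF U V W) 0) 2 2 ^ 2‖ < 1 := by
      rw [sl_DscF, hv]
      simp
    have hev := hI.tendsto.eventually_lt_const hlt
    obtain ⟨t, ⟨hbt, hdt⟩, hGt, hwt, het, hfin⟩ := (fr0 (h.bad.and_eventually hD.dcp)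
      (hG.and (hw3.and (hev.and h.fam.fin)))).exists
    obtain ⟨f, A, hf, hg⟩ := hbt
    have hcol := Bad.col hf hg
    rcases hq f A (sl U t) (sl V t) (sl W t) r C hf (hg ▸ hdt) (hg ▸ hGt) (fun i j hij => by
      rcases (by omega : (i = 3 ∧ j = 0) ∨ (i = 2 ∧ j = 1) ∨ (i = 1 ∧ j = 2) ∨
        (i = 0 ∧ j = 3)) with ⟨rfl, rfl⟩ | ⟨rfl, rfl⟩ | ⟨rfl, rfl⟩ | ⟨rfl, rfl⟩
      · exact hwt.1
      · exact hwt.2.1
      · exact hwt.2.2.1
      · exact hwt.2.2.2) with h1 | h1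
    · have := h.mu
      rw [hcol, hfin.2] at h1
      omega
    · rw [sl_DscF] at het
      linarith
  · exact h.nn (nodal1 hDq w30 w21 w12 w03 hd)

/-- the cubic part of `w` is `κ y³` -/
theorem caseB2 (sext : SextStmt) (h : Ctx3 F μ) : False := by
  obtain ⟨U, V, W, hD⟩ := h.toCtx2.dd
  obtain ⟨r, C, hG⟩ := good_fam h.fam
  obtain ⟨k, hk, hq⟩ := sext
  have hw3 : ∀ᶠ t in 𝓝 (0 : ℂ), cf (sl W t) 2 1 = 0 ∧ cf (sl W t) 1 2 = 0 ∧
      cf (sl W t) 0 3 = 0 := by
    filter_upwards [h.c1, hD.dq] with t h1 h2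
    obtain ⟨a2, a3, a4⟩ := h1
    rw [h2.h112] at a2
    rw [h2.h122] at a3
    rw [h2.h222] at a4
    exact ⟨by linear_combination a2 / 2, by linear_combination a3 / 2,
      by linear_combination a4 / 6⟩
  have hw30 : ∀ᶠ t in 𝓝[≠] (0 : ℂ), cf (sl W t) 3 0 ≠ 0 := by
    filter_upwards [h.c0, hD.dq.filter_mono nhdsWithin_le_nhds] with t h1 h2 h3
    rw [h2.h111, h3, mul_zero] at h1
    exact h1 rfl
  have ha := an_cf (an_DscF hD.toDF)
  have hc := cont_cf (an_DscF hD.toDF)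
  have hfr : ∃ᶠ t in 𝓝[≠] (0 : ℂ), (cf (sl (DscF U V W) t) 0 4 = 0 ∧
      cf (sl (DscF U V W) t) 0 5 = 0) ∧ (μ ≤ 10 ∨ 1 ≤ k * C ^ 2 * ‖cf (sl (DscF U V W) t) 2 2 ^ 2 -
        3 * cf (sl (DscF U V W) t) 3 0 * cf (sl (DscF U V W) t) 1 4‖) := by
    refine (fr0 (h.bad.and_eventually (hD.dcp.and hw30)) (hG.and (hw3.and h.fam.fin))).mono ?_
    rintro t ⟨⟨⟨f, A, hf, hg⟩, hdt, hw30t⟩, hGt, ⟨a1, a2, a3⟩, hfin⟩
    have hcol := Bad.col hf hg
    obtain ⟨⟨b1, b2, b3⟩, b4⟩ := hq f A (sl U t) (sl V t) (sl W t) r C hf (hg ▸ hdt) (hg ▸ hGt)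
      hw30t a1 a2 a3
    rw [hcol, hfin.2] at b4
    exact ⟨⟨b1, b3⟩, b4⟩
  have z04 := (ev_of_fr (ha 0 4) analyticAt_const (hfr.mono fun t ht => ht.1.1)).self_of_nhds
  have z05 := (ev_of_fr (ha 0 5) analyticAt_const (hfr.mono fun t ht => ht.1.2)).self_of_nhds
  have hDq := hD.dq.self_of_nhds
  obtain ⟨w21, w12, w03⟩ := hw3.self_of_nhds
  have hv0 := hD.v0.self_of_nhds
  have hw0 := hD.w0.self_of_nhds
  rw [sl_DscF, e04 hDq hD.u0 hv0 hw0 w21 w12 w03] at z04
  have v02 : cf (sl V 0) 0 2 = 0 := by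
    have : cf (sl V 0) 0 2 ^ 2 = 0 := by linear_combination -z04
    exact pow_eq_zero_iff (two_ne_zero) |>.1 this
  rw [sl_DscF, e05 hDq hD.u0 hv0 hw0 w21 w12 w03, v02] at z05
  have z05' : coordDeriv (sl U 0) 2 0 * cf (sl W 0) 0 4 = 0 := by linear_combination z05 / 4
  by_cases v11 : cf (sl V 0) 1 1 = 0
  · have hfin := h.fam.fin.self_of_nhds
    have h11 : 11 ≤ μ := by
      rw [← hfin.2]
      rcases mul_eq_zero.1 z05' with h' | h'
      · exact LcxW_759.mu11_3 hDq.an hfin.1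
          (LcxW_759.w3 hDq hD.u0 h' hv0 v11 v02 hw0 w21 w12 w03)
      · exact LcxW_759.mu11_2 hDq.an hfin.1
          (LcxW_759.w2 hDq hD.u0 hv0 v11 v02 hw0 w21 w12 w03 h')
    have hJ : ContinuousAt (fun t : ℂ => k * C ^ 2 * ‖cf (sl (DscF U V W) t) 2 2 ^ 2 -
        3 * cf (sl (DscF U V W) t) 3 0 * cf (sl (DscF U V W) t) 1 4‖) 0 :=
      continuousAt_const.mul (((hc 2 2).pow 2).sub
        ((continuousAt_const.mul (hc 3 0)).mul (hc 1 4))).norm
    have hlt : k * C ^ 2 * ‖cf (sl (DscF U V W) 0) 2 2 ^ 2 -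
        3 * cf (sl (DscF U V W) 0) 3 0 * cf (sl (DscF U V W) 0) 1 4‖ < 1 := by
      rw [sl_DscF, e22 hDq hD.u0 hv0 hw0 w21 w12 w03, e30 hDq hD.u0 hv0 hw0 w21 w12 w03, v11, v02]
      simp
    obtain ⟨t, ⟨-, h1 | h1⟩, h2⟩ := (fr0 hfr (hJ.tendsto.eventually_lt_const hlt)).exists
    · omega
    · linarith
  · exact h.nn (nodal2 hDq w21 w12 w03 v02 v11)

/-- the situation of the context does not exist -/
theorem not_ctx (quart : QuartStmt) (sext : SextStmt) (h : Ctx F μ) : False := by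
  obtain ⟨F', h'⟩ := h.ctx2
  rcases h'.tri with h0 | ⟨F'', h''⟩
  · exact caseB1 quart h' h0
  · exact caseB2 sext h''

/-- in a `μ`-constant family over a germ of multiplicity `≥ 3` with non nodal cubic there are no
log canonical, non klt germs -/
theorem lcx (quart : QuartStmt) (sext : SextStmt) (hF : Fam F μ) (h2 : ∀ i j, H2 (sl F 0) i j = 0)
    (hN : ¬ Nodal (sl F 0)) : ∀ᶠ t in 𝓝[≠] (0 : ℂ), ¬ Bad (sl F t) := by
  rw [← not_frequently]
  intro hB
  have hfin := hF.fin.self_of_nhds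
  have h10 : 10 ≤ μ := by
    rw [← hfin.2]
    exact LcxW_759.mu10 (ev_an_sl hF.an).self_of_nhds hfin.1 hF.zero.self_of_nhds
      hF.crit.self_of_nhds h2 hN
  exact not_ctx quart sext ⟨hF, h10, h2, hN, hB⟩

theorem posStmt3_of (quart : QuartStmt) (sext : SextStmt) : Skel2_219.PosStmt3 := by
  intro G μ d R r c₀ e P c hG h2 hN hpos
  have hF := LCTop_472.fam_of_gfam hG
  have hk0 : ¬ InJ 1 (sl G 0) fun _ => 1 := fun h => hpos.ne'
    (KlI_540.kltMStmt _ (SkelV_952.iso_gfam hG (by simpa using hG.R_pos)) h)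
  have hkt : ∀ᶠ t in 𝓝[≠] (0 : ℂ), ¬ InJ 1 (sl G t) fun _ => 1 := by
    have : ¬ ∃ᶠ t in 𝓝[≠] (0 : ℂ), InJ 1 (sl G t) fun _ => 1 := fun h =>
      hk0 (KlI_540.kltStmt G μ d R r c₀ e P c hG h)
    exact not_frequently.1 this
  filter_upwards [lcx quart sext hF h2 hN, hkt,
    (Metric.ball_mem_nhds (0 : ℂ) hG.R_pos : _) |> mem_nhdsWithin_of_mem_nhds] with t h1 h3 h4
  by_contra hcon
  have hiso : Iso (sl G t) := SkelV_952.iso_gfam hG (by simpa using h4)
  exact h1 ⟨sl G t, ContinuousLinearEquiv.refl ℂ E3, ⟨hiso, h3, hcon⟩, rfl⟩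

end Crest.Agent.R257.LcxG_759
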