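import Crest.Agent.R257.NumK_488
import Crest.Agent.R257.ColAdd_812

/-!
Row 257 (S0395), leaf GenStmt (helper812): a generic linear form is a good third function.
-/

set_option autoImplicit false
set_option linter.unusedSectionVars false

open Set Filter Topology Metric Complex
open Crest.AlgGeometry.Germ
open Crest.Agent.R275.Loc2879 hiding AA
open Crest.Agent.R257.UI939 Crest.Agent.R257.Defs_219 Crest.Agent.R257.Num488

noncomputable section

namespace Crest.Agent.R257.Gen_812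

/-- dictionary -/
theorem colFin_iff_dl {m : ℕ} {g : Fin m → E3 → ℂ} (hg : ∀ i, AnalyticAt ℂ (g i) 0) :
    ColFin g ↔ dl (BB 3 ⧸ Ideal.span (Set.range fun j => (gm (g j) (hg j) : BB 3))) ≠ ⊤ := by
  rw [UI939.colFin_iff hg, CM_812.Idl_eq_span hg]
  exact ⟨fun h => dl_ne_top, fun h => finite_of_dl h⟩




lemma coordDeriv_lin (v : Fin 3 → ℂ) (i : Fin 3) (x : E3) :
    coordDeriv (fun x : E3 => ∑ i, v i * x i) i x = v i := by
  classical
  have h : HasFDerivAt (fun x : E3 => ∑ j, v j * x j)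
      (∑ j, v j • (ContinuousLinearMap.proj (R := ℂ) (φ := fun _ : Fin 3 => ℂ) j)) x := by
    refine HasFDerivAt.fun_sum fun j _ => ?_
    exact ((ContinuousLinearMap.proj (R := ℂ) (φ := fun _ : Fin 3 => ℂ) j).hasFDerivAt).const_mul
      (v j)
  rw [coordDeriv, h.fderiv]
  simp [Pi.single_apply]


lemma an_gr {f : E3 → ℂ} (hf : AnalyticAt ℂ f 0) (i : Fin 3) :
    AnalyticAt ℂ (fun x => gr f x i) 0 := by
  have h1 : AnalyticAt ℂ (fderiv ℂ f) 0 := hf.fderiv
  exact (ContinuousLinearMap.apply ℂ ℂ (Pi.single i (1 : ℂ))).analyticAt _ |>.comp h1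

lemma an_mnr {f g : E3 → ℂ} (hf : AnalyticAt ℂ f 0) (hg : AnalyticAt ℂ g 0) (i : Fin 4) :
    AnalyticAt ℂ (mnr f g i) 0 := by
  have e1 := an_gr hf
  have e2 := an_gr hg
  fin_cases i
  · exact hf
  · exact ((e1 1).mul (e2 2)).sub ((e1 2).mul (e2 1))
  · exact ((e1 2).mul (e2 0)).sub ((e1 0).mul (e2 2))
  · exact ((e1 0).mul (e2 1)).sub ((e1 1).mul (e2 0))





end Crest.Agent.R257.Gen_812
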