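import Crest.Agent.R257.NumH_488

-- ▼ part R257/NumI_488
section

/-!
Row 257 (S0395), leaf B-NUM, part I (helper488): the curve structure on `AA 2 / (a,b)` and its
transport to `O_3`.
-/

set_option autoImplicit false
set_option linter.unusedSectionVars false

open Set Filter Topology Metric
open Crest.Agent.R275
open Crest.Agent.R275.Loc2879 hiding AA
open Crest.Agent.R257.UI939

noncomputable section

namespace Crest.Agent.R257.Num488

universe u v w

lemma list_sum_vv {M : Type} [CommRing M] (l : List (M →+* A1)) (c : M) :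
    vv ((l.map fun φ => φ c).prod) = (l.map fun φ => vv (φ c)).sum := by
  induction l with
  | nil => simp [vv_unit]
  | cons φ l ih => simp only [List.map_cons, List.prod_cons, List.sum_cons, vv_mul, ih]

theorem curve_AA {a b : AA 2} (h : Module.Finite ℂ (AA 2 ⧸ Ideal.span {a, b, Tv 2})) :
    Nonempty (Curve (AA 2) (Ideal.span {a, b})) := by
  have h1 := finite_MM h
  have h2 := free_MM h
  obtain ⟨N, hN, l, hl1, hl2⟩ := branches (M := MM a b)
  have hdl : ∀ c : AA 2, dl (MM a b ⧸ LinearMap.range (LinearMap.mulLeft A1 (qq a b c))) =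
      dl (AA 2 ⧸ (Ideal.span {a, b} ⊔ Ideal.span {c})) := by
    intro c
    rw [range_mulLeft_A]
    exact dl_quot_quot (Ideal.span {a, b}) c
  have hker : ∀ (φ : MM a b →+* A1) (x : AA 2), x ∈ Ideal.span {a, b} → φ (qq a b x) = 0 := by
    intro φ x hx
    rw [(qq_eq_zero a b).2 hx, map_zero]
  have hall : ∀ c : AA 2, (∀ φ ∈ l.map (fun φ => φ.comp (qq a b)), φ c ≠ 0) ↔
      LinearMap.det (LinearMap.mulLeft A1 (qq a b c)) ≠ 0 := by
    intro c
    have e1 : LinearMap.det (LinearMap.mulLeft A1 (qq a b c)) ≠ 0 ↔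
        (l.map fun φ => φ (qq a b c)).prod ≠ 0 := by
      rw [← hl2, Ne, Ne, map_eq_zero_iff _ (kap_injective hN)]
    rw [e1, Ne, List.prod_eq_zero_iff]
    simp only [List.mem_map, forall_exists_index, and_imp, forall_apply_eq_imp_iff₂,
      RingHom.comp_apply, not_exists, not_and]
  refine ⟨⟨N, hN, l.map (fun φ => φ.comp (qq a b)), ?_, ?_, ?_, ?_, ?_⟩⟩
  · intro φ hφ x hx
    obtain ⟨ψ, _, rfl⟩ := List.mem_map.1 hφ
    exact hker ψ x hx
  · intro φ hφ c
    obtain ⟨ψ, hψ, rfl⟩ := List.mem_map.1 hφ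
    have e1 : qq a b (algebraMap ℂ (AA 2) c) = algebraMap A1 (MM a b) (algebraMap ℂ A1 c) := by
      change qq a b (algebraMap ℂ (AA 2) c) = qq a b (par 2 (algebraMap ℂ A1 c))
      congr 1
    rw [RingHom.comp_apply, e1, hl1 ψ hψ, kap_algebraMap]
  · intro c
    rw [hall, det_ne_zero_iff, ← hdl]
    constructor
    · intro hinj
      rw [dl_coker _ hinj, Ne, vv_eq_top]
      exact det_ne_zero_of_injective _ hinj
    · intro hfin
      exact injective_of_coker _ hfin
  · intro c hc m hm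
    have hinj := (det_ne_zero_iff _).1 ((hall c).1 hc)
    rw [← qq_eq_zero]
    apply hinj
    rw [map_zero, LinearMap.mulLeft_apply, ← map_mul, qq_eq_zero]
    exact hm
  · intro c hc
    have hinj := (det_ne_zero_iff _).1 ((hall c).1 hc)
    rw [← hdl, dl_coker _ hinj, ← vv_kap hN, hl2, list_sum_vv, List.map_map]
    rfl

lemma dl_trans {R S : Type} [CommRing R] [Algebra ℂ R] [CommRing S] [Algebra ℂ S]
    (e : R ≃ₐ[ℂ] S) (I : Ideal S) (c : R) :
    dl (R ⧸ (I.comap e.toRingHom ⊔ Ideal.span {c})) = dl (S ⧸ (I ⊔ Ideal.span {e c})) := by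
  have h1 : I ⊔ Ideal.span {e c} =
      Ideal.map (e : R →+* S) (I.comap e.toRingHom ⊔ Ideal.span {c}) := by
    rw [Ideal.map_sup, Ideal.map_span, Set.image_singleton]
    congr 1
    exact (Ideal.map_comap_of_surjective _ e.surjective I).symm
  exact (Ideal.quotientEquivAlg _ _ e h1).toLinearEquiv.length_eq

/-- transport of a curve -/
def Curve.trans {R S : Type} [CommRing R] [Algebra ℂ R] [CommRing S] [Algebra ℂ S]
    (e : R ≃ₐ[ℂ] S) {I : Ideal S} (C : Curve S I) : Curve R (I.comap e.toRingHom) where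
  N := C.N
  hN := C.hN
  l := C.l.map (fun φ => φ.comp e.toRingHom)
  ker := by
    intro φ hφ x hx
    obtain ⟨ψ, hψ, rfl⟩ := List.mem_map.1 hφ
    exact C.ker ψ hψ _ hx
  cst := by
    intro φ hφ c
    obtain ⟨ψ, hψ, rfl⟩ := List.mem_map.1 hφ
    have := C.cst ψ hψ c
    rw [← this]
    change ψ (e (algebraMap ℂ R c)) = _
    rw [AlgEquiv.commutes]
  reg := by
    intro c
    rw [dl_trans, ← C.reg]
    simp only [List.mem_map, forall_exists_index, and_imp, forall_apply_eq_imp_iff₂,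
      RingHom.comp_apply]
    rfl
  nzd := by
    intro c hc m hm
    refine C.nzd (e c) (fun φ hφ => ?_) (e m) ?_
    · exact hc (φ.comp e.toRingHom) (List.mem_map.2 ⟨φ, hφ, rfl⟩)
    · rw [← map_mul]; exact hm
  sum := by
    intro c hc
    rw [dl_trans, List.map_map]
    refine C.sum (e c) (fun φ hφ => ?_)
    exact hc (φ.comp e.toRingHom) (List.mem_map.2 ⟨φ, hφ, rfl⟩)

end Crest.Agent.R257.Num488
end
end

-- ▼ part R257/NumJ_488
section

/-!
Row 257 (S0395), leaf B-NUM, part J (helper488): ideals of finite colength in `O_n`, existence of a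
good projection, branches of `{a = b = 0}` in `O_3`.
-/

set_option autoImplicit false
set_option linter.unusedSectionVars false

open Set Filter Topology Metric
open Crest.Agent.R275
open Crest.Agent.R275.Loc2879 hiding AA
open Crest.Agent.R257.UI939

noncomputable section

namespace Crest.Agent.R257.Num488

universe u v w

/-! ### finite colength -/

section Fin

variable {n : ℕ}

lemma mon_mem {A : Type v} [CommRing A] (x : Fin n → A) (I : Ideal A) (hI : ∀ i, x i ∈ I)
    (β : Fin n → ℕ) : mon x β ∈ I ^ (∑ i, β i) := by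
  classical
  unfold mon
  rw [← Finset.prod_pow_eq_pow_sum]
  exact Ideal.prod_mem_prod fun i _ => Ideal.pow_mem_pow (hI i) _

lemma fin_of_JJ {I : Ideal (BB n)} {k : ℕ} (h : JJ xB k ≤ I) : Module.Finite ℂ (BB n ⧸ I) := by
  classical
  let π : BB n →ₗ[ℂ] (BB n ⧸ I) := (Ideal.Quotient.mkₐ ℂ I).toLinearMap
  have hfin : {a : BB n | ∃ β : Fin n → ℕ, ∑ i, β i < k ∧ mon xB β = a}.Finite := by
    have h1 : {β : Fin n → ℕ | ∑ i, β i < k}.Finite := by
      refine (Set.finite_Iic (fun _ : Fin n => k)).subset ?_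
      intro β hβ i
      have : β i ≤ ∑ i, β i := Finset.single_le_sum (fun _ _ => Nat.zero_le _) (Finset.mem_univ i)
      exact this.trans (le_of_lt hβ)
    refine (h1.image (fun β => mon (A := BB n) xB β)).subset ?_
    rintro a ⟨β, hβ, rfl⟩
    exact ⟨β, hβ, rfl⟩
  have htop : (VV (A := BB n) xB k).map π = ⊤ := by
    rw [eq_top_iff]
    intro y _
    obtain ⟨x, rfl⟩ := Ideal.Quotient.mk_surjective y
    obtain ⟨v, hv, w, hw, e⟩ := Submodule.mem_sup.1 (mem_VV_sup (A := BB n) xB hadamard k x)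
    refine ⟨v, hv, ?_⟩
    have h2 : w ∈ I := h hw
    change Ideal.Quotient.mk I v = Ideal.Quotient.mk I x
    rw [← e, map_add, Ideal.Quotient.eq_zero_iff_mem.2 h2, add_zero]
  refine ⟨?_⟩
  rw [← htop]
  exact (Submodule.fg_span hfin).map π

lemma max_eq : IsLocalRing.maximalIdeal (BB n) = Ideal.span (Set.range xB) := by
  refine le_antisymm ?_ ?_
  · intro a ha
    obtain ⟨c, y, e⟩ := hadamard a
    have h1 : ∑ i, y i * xB i ∈ Ideal.span (Set.range (xB (n := n))) :=
      Ideal.sum_mem _ fun i _ => Ideal.mul_mem_left _ _ (Ideal.subset_span ⟨i, rfl⟩)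
    have h2 : ∑ i, y i * xB i ∈ IsLocalRing.maximalIdeal (BB n) :=
      Ideal.sum_mem _ fun i _ => Ideal.mul_mem_left _ _
        ((IsLocalRing.mem_maximalIdeal _).2 (xB_not_unit i))
    have h3 : algebraMap ℂ (BB n) c ∈ IsLocalRing.maximalIdeal (BB n) := by
      have : algebraMap ℂ (BB n) c = a - ∑ i, y i * xB i := by rw [e]; ring
      rw [this]; exact Ideal.sub_mem _ ha h2
    have h4 : c = 0 := by
      by_contra hc
      refine (IsLocalRing.mem_maximalIdeal _).1 h3 ?_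
      exact (IsUnit.mk0 c hc).map (algebraMap ℂ (BB n))
    rw [e, h4, map_zero, zero_add]
    exact h1
  · rw [Ideal.span_le]
    rintro _ ⟨i, rfl⟩
    exact (IsLocalRing.mem_maximalIdeal _).2 (xB_not_unit i)

lemma JJ_le_pow {A : Type v} [CommRing A] (x : Fin n → A) (k : ℕ) :
    JJ x k ≤ (Ideal.span (Set.range x)) ^ k := by
  unfold JJ
  rw [Ideal.span_le]
  rintro _ ⟨β, rfl, rfl⟩
  exact mon_mem x (Ideal.span (Set.range x)) (fun i => Ideal.subset_span (Set.mem_range_self i)) β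

/-- an ideal of germs contained in no prime ideal except the maximal ideal has finite colength -/
theorem fin_of_primes {I : Ideal (BB n)}
    (h : ∀ P : Ideal (BB n), P.IsPrime → I ≤ P → P = IsLocalRing.maximalIdeal (BB n)) :
    dl (BB n ⧸ I) ≠ ⊤ := by
  have h1 : IsLocalRing.maximalIdeal (BB n) ≤ I.radical := by
    rw [Ideal.radical_eq_sInf]
    refine le_sInf fun P hP => ?_
    rw [h P hP.2 hP.1]
  obtain ⟨k, hk⟩ := Ideal.exists_pow_le_of_le_radical_of_fg h1
    (IsNoetherian.noetherian (IsLocalRing.maximalIdeal (BB n)))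
  have h2 : JJ xB k ≤ I := (JJ_le_pow xB k).trans (by rw [← max_eq]; exact hk)
  have := fin_of_JJ h2
  exact dl_ne_top

theorem max_pow_le {I : Ideal (BB n)} (h : dl (BB n ⧸ I) ≠ ⊤) (i : Fin n) :
    ∃ k, (xB i : BB n) ^ k ∈ I := by
  classical
  have := finite_of_dl h
  set k := Module.finrank ℂ (BB n ⧸ I) with hk
  refine ⟨k, ?_⟩
  have hJ := JJ_le_of_finrank (A := BB n) xB (fun i => xB_not_unit i) I
  refine hJ (Ideal.subset_span ⟨Pi.single i k, by simp [hk], ?_⟩)
  unfold mon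
  rw [Finset.prod_eq_single i]
  · rw [Pi.single_eq_same]
  · intro j _ hj; rw [Pi.single_eq_of_ne hj, pow_zero]
  · intro hi; exact absurd (Finset.mem_univ _) hi

theorem primes_of_fin {I : Ideal (BB n)} (h : dl (BB n ⧸ I) ≠ ⊤)
    {P : Ideal (BB n)} (hP : P.IsPrime) (hIP : I ≤ P) : P = IsLocalRing.maximalIdeal (BB n) := by
  refine le_antisymm (IsLocalRing.le_maximalIdeal hP.ne_top) ?_
  rw [max_eq, Ideal.span_le]
  rintro _ ⟨i, rfl⟩
  obtain ⟨k, hk⟩ := max_pow_le h i
  exact hP.mem_of_pow_mem k (hIP hk)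

theorem fin_iff {I : Ideal (BB n)} : dl (BB n ⧸ I) ≠ ⊤ ↔
    ∀ P : Ideal (BB n), P.IsPrime → I ≤ P → P = IsLocalRing.maximalIdeal (BB n) :=
  ⟨fun h _ hP hIP => primes_of_fin h hP hIP, fin_of_primes⟩

end Fin

/-! ### a good projection -/

section Proj

variable {n : ℕ}

/-- linear forms whose germ lies in an ideal -/
def sub (P : Ideal (BB n)) : Submodule ℂ ((Fin n → ℂ) →L[ℂ] ℂ) where
  carrier := {l | lin l ∈ P}
  add_mem' := by
    intro l m hl hm
    change lin (l + m) ∈ P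
    rw [lin_add]; exact Ideal.add_mem _ hl hm
  zero_mem' := by
    change lin 0 ∈ P
    rw [lin_zero]; exact Ideal.zero_mem _
  smul_mem' := by
    intro c l hl
    change lin (c • l) ∈ P
    rw [lin_smul, Algebra.smul_def]; exact Ideal.mul_mem_left _ _ hl

lemma sub_ne_top {P : Ideal (BB n)} (hP : P.IsPrime) (h : P ≠ IsLocalRing.maximalIdeal (BB n)) :
    sub P ≠ ⊤ := by
  intro hs
  apply h
  refine le_antisymm (IsLocalRing.le_maximalIdeal hP.ne_top) ?_
  rw [max_eq, Ideal.span_le]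
  rintro _ ⟨i, rfl⟩
  have : ContinuousLinearMap.proj (R := ℂ) (φ := fun _ : Fin n => ℂ) i ∈ sub P := by
    rw [hs]; trivial
  exact this

/-- avoiding finitely many primes by a linear form -/
theorem exists_lin_avoid (S : Set (Ideal (BB n))) (hS : S.Finite)
    (hp : ∀ P ∈ S, P.IsPrime ∧ P ≠ IsLocalRing.maximalIdeal (BB n)) :
    ∃ l : (Fin n → ℂ) →L[ℂ] ℂ, ∀ P ∈ S, lin l ∉ P := by
  classical
  set T : Finset (Submodule ℂ ((Fin n → ℂ) →L[ℂ] ℂ)) := hS.toFinset.image sub
  have h1 : ⊤ ∉ T := by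
    intro h
    obtain ⟨P, hP, e⟩ := Finset.mem_image.1 h
    rw [Set.Finite.mem_toFinset] at hP
    exact sub_ne_top (hp P hP).1 (hp P hP).2 e
  have h2 := Subspace.biUnion_ne_univ_of_top_notMem h1
  obtain ⟨l, hl⟩ := (Set.ne_univ_iff_exists_notMem _).1 h2
  refine ⟨l, fun P hP hlP => hl ?_⟩
  simp only [Set.mem_iUnion]
  exact ⟨sub P, Finset.mem_image.2 ⟨P, hS.mem_toFinset.2 hP, rfl⟩, hlP⟩

theorem exists_lin_fin (I : Ideal (BB n)) (c : BB n) (hc : ¬ IsUnit c)
    (h : dl (BB n ⧸ (I ⊔ Ideal.span {c})) ≠ ⊤) :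
    ∃ l : (Fin n → ℂ) →L[ℂ] ℂ, dl (BB n ⧸ (I ⊔ Ideal.span {lin l})) ≠ ⊤ := by
  obtain ⟨l, hl⟩ := exists_lin_avoid {P ∈ I.minimalPrimes | P ≠ IsLocalRing.maximalIdeal (BB n)}
    ((Ideal.finite_minimalPrimes_of_isNoetherianRing _ I).subset (Set.sep_subset _ _))
    (fun P hP => ⟨hP.1.1.1, hP.2⟩)
  refine ⟨l, fin_of_primes fun Q hQ hIQ => ?_⟩
  by_contra hne
  have hIQ1 : I ≤ Q := le_sup_left.trans hIQ
  have hlQ : lin l ∈ Q := (le_sup_right.trans hIQ) (Ideal.mem_span_singleton_self _)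
  obtain ⟨P, hPmin, hPQ⟩ := Ideal.exists_minimalPrimes_le hIQ1
  have hP := hPmin.1.1
  have hPm : P ≠ IsLocalRing.maximalIdeal (BB n) := by
    intro e
    rw [e] at hPQ
    exact hne (le_antisymm (IsLocalRing.le_maximalIdeal hQ.ne_top) hPQ)
  have hlP := hl P ⟨hPmin, hPm⟩
  have hPQ' : P < Q := lt_of_le_of_ne hPQ (fun e => hlP (e ▸ hlQ))
  have hQm : Q < IsLocalRing.maximalIdeal (BB n) :=
    lt_of_le_of_ne (IsLocalRing.le_maximalIdeal hQ.ne_top) hne
  -- `c` is not in `P`, and the maximal ideal is minimal over `P + (c)`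
  have hcm : c ∈ IsLocalRing.maximalIdeal (BB n) := (IsLocalRing.mem_maximalIdeal _).2 hc
  have hmin : IsLocalRing.maximalIdeal (BB n) ∈ (P ⊔ Ideal.span {c}).minimalPrimes := by
    refine ⟨⟨inferInstance, sup_le (hPQ.trans hQm.le) ?_⟩, fun Q' hQ' _ => ?_⟩
    · rw [Ideal.span_singleton_le_iff_mem]; exact hcm
    · rw [primes_of_fin h hQ'.1 ((sup_le_sup_right hPmin.1.2 _).trans hQ'.2)]
  have hht := Ideal.map_height_le_one_of_mem_minimalPrimes hmin
  set mm := IsLocalRing.maximalIdeal (BB n) with hmm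
  have hmm' : mm.IsPrime := by rw [hmm]; infer_instance
  have hsurj : Function.Surjective (Ideal.Quotient.mk P) := Ideal.Quotient.mk_surjective
  have hkerQ : RingHom.ker (Ideal.Quotient.mk P) ≤ Q := by rw [Ideal.mk_ker]; exact hPQ
  have hkerm : RingHom.ker (Ideal.Quotient.mk P) ≤ mm := by
    rw [Ideal.mk_ker]; exact hPQ.trans hQm.le
  have i1 : (Q.map (Ideal.Quotient.mk P)).IsPrime := Ideal.map_isPrime_of_surjective hsurj hkerQ
  have i2 : (mm.map (Ideal.Quotient.mk P)).IsPrime := Ideal.map_isPrime_of_surjective hsurj hkerm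
  have hcomap : ∀ J : Ideal (BB n), RingHom.ker (Ideal.Quotient.mk P) ≤ J →
      (J.map (Ideal.Quotient.mk P)).comap (Ideal.Quotient.mk P) = J := fun J hJ =>
    (Ideal.comap_map_of_surjective _ hsurj J).trans (sup_eq_left.mpr hJ)
  have l2 : Q.map (Ideal.Quotient.mk P) < mm.map (Ideal.Quotient.mk P) := by
    refine lt_of_le_of_ne (Ideal.map_mono hQm.le) fun e => ?_
    have := congrArg (Ideal.comap (Ideal.Quotient.mk P)) e
    rw [hcomap Q hkerQ, hcomap mm hkerm] at this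
    exact hQm.ne this
  have i0 : (⊥ : Ideal (BB n ⧸ P)).IsPrime := Ideal.isPrime_bot
  have l1 : ⊥ < Q.map (Ideal.Quotient.mk P) := by
    rw [bot_lt_iff_ne_bot, Ne, Ideal.map_eq_bot_iff_le_ker, Ideal.mk_ker]
    exact hPQ'.not_ge
  have e1 := Ideal.height_add_one_le_of_lt_of_isPrime l1
  have e2 := Ideal.height_add_one_le_of_lt_of_isPrime l2
  have e3 := e2.trans hht
  have e4 : (1 : ℕ∞) + 1 ≤ 1 := by
    refine le_trans ?_ e3
    gcongr
    exact le_trans (by simp) e1
  exact absurd e4 (by norm_num)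

lemma dl_anti {R : Type u} [CommRing R] [Algebra ℂ R] {I J : Ideal R} (h : I ≤ J) :
    dl (R ⧸ J) ≤ dl (R ⧸ I) :=
  Module.length_le_of_surjective (Ideal.Quotient.factorₐ ℂ h).toLinearMap
    (Ideal.Quotient.factor_surjective h)

theorem exists_lin_fin' [NeZero n] (I : Ideal (BB n)) (c : BB n) (hc : ¬ IsUnit c)
    (h : dl (BB n ⧸ (I ⊔ Ideal.span {c})) ≠ ⊤) :
    ∃ l : (Fin n → ℂ) →L[ℂ] ℂ, l ≠ 0 ∧ dl (BB n ⧸ (I ⊔ Ideal.span {lin l})) ≠ ⊤ := by
  obtain ⟨l, hl⟩ := exists_lin_fin I c hc h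
  by_cases h0 : l = 0
  · refine ⟨ContinuousLinearMap.proj (R := ℂ) (φ := fun _ : Fin n => ℂ) 0, ?_, ?_⟩
    · intro h
      have := congrArg (fun m : (Fin n → ℂ) →L[ℂ] ℂ => m (fun _ => 1)) h
      simp at this
    · refine ne_top_of_le_ne_top hl (dl_anti ?_)
      rw [h0, lin_zero, Ideal.span_singleton_zero, sup_bot_eq]
      exact le_sup_left
  · exact ⟨l, h0, hl⟩

end Proj

/-! ### linear coordinates -/

section Lin

variable {E E' : Type} [NormedAddCommGroup E] [NormedSpace ℂ E]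
  [NormedAddCommGroup E'] [NormedSpace ℂ E']

/-- linear change of coordinates on germs -/
def linE (e : E ≃L[ℂ] E') : OO (0 : E') ≃ₐ[ℂ] OO (0 : E) :=
  AlgEquiv.ofRingEquiv (f := pullEquiv (p := (0 : E)) (p' := (0 : E')) e
    (e.toContinuousLinearMap.analyticAt 0) (map_zero e) e.symm
    (e.symm.toContinuousLinearMap.analyticAt _) (map_zero e.symm) (by simp) (by simp))
    (fun _ => rfl)

lemma linE_gm (e : E ≃L[ℂ] E') {f : E' → ℂ} (hf : AnalyticAt ℂ f 0) :
    ∃ h, linE e (gm f hf) = gm (f ∘ e) h :=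
  ⟨AnalyticAt.comp (g := f) (f := e) (by rwa [map_zero]) (e.toContinuousLinearMap.analyticAt 0), rfl⟩

/-- coordinates in which a given linear form is the last one -/
theorem exists_coord (l : (Fin 3 → ℂ) →L[ℂ] ℂ) (hl : l ≠ 0) :
    ∃ e : (Fin 3 → ℂ) ≃L[ℂ] (Fin 2 → ℂ) × ℂ, ∀ x, (e x).2 = l x := by
  have hl' : (l : (Fin 3 → ℂ) →ₗ[ℂ] ℂ) ≠ 0 := by
    intro h; apply hl; ext x; exact congrArg (fun m : (Fin 3 → ℂ) →ₗ[ℂ] ℂ => m _) h
  have h2 : Module.finrank ℂ (LinearMap.ker (l : (Fin 3 → ℂ) →ₗ[ℂ] ℂ)) = 2 := by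
    have := Module.Dual.finrank_ker_add_one_of_ne_zero (K := ℂ) (V₁ := Fin 3 → ℂ)
      (f := (l : (Fin 3 → ℂ) →ₗ[ℂ] ℂ)) hl'
    simp only [Module.finrank_fin_fun] at this
    omega
  obtain ⟨g, hg⟩ := (LinearMap.ker (l : (Fin 3 → ℂ) →ₗ[ℂ] ℂ)).subtype.exists_leftInverse_of_injective
    (by simp)
  let b := Module.finBasisOfFinrankEq ℂ _ h2
  let T : (Fin 3 → ℂ) →ₗ[ℂ] (Fin 2 → ℂ) × ℂ :=
    (b.equivFun.toLinearMap ∘ₗ g).prod (l : (Fin 3 → ℂ) →ₗ[ℂ] ℂ)
  have hinj : Function.Injective T := by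
    rw [← LinearMap.ker_eq_bot, LinearMap.ker_eq_bot']
    intro x hx
    have h3 : l x = 0 := congrArg Prod.snd hx
    have h4 : b.equivFun (g x) = 0 := congrArg Prod.fst hx
    have h5 : g x = 0 := by simpa using h4
    have h6 := LinearMap.congr_fun hg ⟨x, h3⟩
    have h7 : g x = ⟨x, h3⟩ := h6
    rw [h5] at h7
    exact (congrArg Subtype.val h7).symm
  have hdim : Module.finrank ℂ (Fin 3 → ℂ) = Module.finrank ℂ ((Fin 2 → ℂ) × ℂ) := by
    simp
  refine ⟨(LinearMap.linearEquivOfInjective T hinj hdim).toContinuousLinearEquiv, fun x => ?_⟩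
  rfl

theorem curve_lin {a b : BB 3} {l : (Fin 3 → ℂ) →L[ℂ] ℂ} (hl : l ≠ 0)
    (h : dl (BB 3 ⧸ Ideal.span {a, b, lin l}) ≠ ⊤) :
    Nonempty (Curve (BB 3) (Ideal.span {a, b})) := by
  obtain ⟨e, he⟩ := exists_coord l hl
  let φ : AA 2 ≃ₐ[ℂ] BB 3 := linE e
  have hT : φ (Tv 2) = lin l := by
    obtain ⟨h1, h2⟩ := linE_gm e (f := Prod.snd) analyticAt_snd
    change linE e (Tv 2) = _
    rw [Tv, h2, lin, gm_eq_gm]
    exact Eventually.of_forall fun x => he x
  have hT' : φ.symm (lin l) = Tv 2 := by rw [← hT, AlgEquiv.symm_apply_apply]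
  have hmap : Ideal.span {φ.symm a, φ.symm b, Tv 2} =
      Ideal.map (φ.symm : BB 3 →+* AA 2) (Ideal.span {a, b, lin l}) := by
    rw [Ideal.map_span]
    congr 1
    ext x
    simp only [mem_insert_iff, mem_singleton_iff, mem_image, ← hT']
    constructor
    · rintro (rfl | rfl | rfl)
      · exact ⟨a, by simp, rfl⟩
      · exact ⟨b, by simp, rfl⟩
      · exact ⟨lin l, by simp, rfl⟩
    · rintro ⟨y, (rfl | rfl | rfl), rfl⟩
      · exact Or.inl rfl
      · exact Or.inr (Or.inl rfl)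
      · exact Or.inr (Or.inr rfl)
  have h3 := (Ideal.quotientEquivAlg _ _ φ.symm hmap).toLinearEquiv.length_eq
  have h4 : Module.Finite ℂ (AA 2 ⧸ Ideal.span {φ.symm a, φ.symm b, Tv 2}) := by
    apply finite_of_dl
    unfold dl
    rw [← h3]
    exact h
  obtain ⟨C⟩ := curve_AA h4
  have C' := C.trans φ.symm
  have h5 : (Ideal.span {φ.symm a, φ.symm b}).comap φ.symm.toRingHom = Ideal.span {a, b} := by
    ext x
    rw [Ideal.mem_comap]
    constructor
    · intro hx
      obtain ⟨p, q, hpq⟩ := Ideal.mem_span_pair.1 hx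
      rw [Ideal.mem_span_pair]
      refine ⟨φ p, φ q, ?_⟩
      have := congrArg φ hpq
      rw [map_add, map_mul, map_mul, AlgEquiv.apply_symm_apply, AlgEquiv.apply_symm_apply] at this
      rw [this]
      exact φ.apply_symm_apply x
    · intro hx
      obtain ⟨p, q, hpq⟩ := Ideal.mem_span_pair.1 hx
      rw [Ideal.mem_span_pair]
      refine ⟨φ.symm p, φ.symm q, ?_⟩
      rw [← hpq, ← map_mul, ← map_mul, ← map_add]
      rfl
  rw [h5] at C'
  exact ⟨C'⟩

/-- **the branches of the curve `{a = b = 0}`** -/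
theorem curve3 {a b c : BB 3} (h : dl (BB 3 ⧸ Ideal.span {a, b, c}) ≠ ⊤) (hc : ¬ IsUnit c) :
    Nonempty (Curve (BB 3) (Ideal.span {a, b})) := by
  have e : ∀ c : BB 3, Ideal.span {a, b, c} = Ideal.span {a, b} ⊔ Ideal.span {c} := by
    intro c
    rw [← Ideal.span_union]
    congr 1
    ext x; simp; tauto
  rw [e] at h
  obtain ⟨l, hl, h1⟩ := exists_lin_fin' _ c hc h
  rw [← e] at h1
  exact curve_lin hl h1

end Lin

end Crest.Agent.R257.Num488
end
end

-- ▼ part R257/NumK_488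

/-!
Row 257 (S0395), leaf B-NUM, part K (helper488): intersection numbers `dl (O_3/(a,b,c))` by
branches: the interface (`Br`, `br_list`, `nzd`, `I_mul`, `chain`, `CL`).
-/

set_option autoImplicit false
set_option linter.unusedSectionVars false

open Set Filter Topology Metric
open Crest.Agent.R275
open Crest.Agent.R275.Loc2879 hiding AA
open Crest.Agent.R257.UI939

noncomputable section

namespace Crest.Agent.R257.Num488

universe u v w

/-- a (parametrised) branch of `{a = b = 0}` -/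
structure Br (a b : BB 3) (φ : BB 3 →+* A1) : Prop where
  cst : ∀ c : ℂ, φ (algebraMap ℂ (BB 3) c) = algebraMap ℂ A1 c
  fa : φ a = 0
  fb : φ b = 0

lemma span3 {R : Type u} [CommRing R] (a b c : R) :
    Ideal.span {a, b, c} = Ideal.span {a, b} ⊔ Ideal.span {c} := by
  rw [← Ideal.span_union]
  congr 1
  ext x; simp; tauto

lemma nonunit_map {n : ℕ} {φ : BB n →+* A1}
    (hφ : ∀ c : ℂ, φ (algebraMap ℂ (BB n) c) = algebraMap ℂ A1 c) {x : BB n} (hx : ¬ IsUnit x) :
    ¬ IsUnit (φ x) := by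
  intro hu
  have h1 : evp (0 : ℂ) (φ x) ≠ 0 := Loc2879.isUnit_iff.1 hu
  set c := evp (0 : ℂ) (φ x) with hc
  have h2 : IsUnit (x - algebraMap ℂ (BB n) c) := by
    rw [Loc2879.isUnit_iff, map_sub, evp_algebraMap]
    have h3 : evp (0 : Fin n → ℂ) x = 0 := by
      by_contra h; exact hx (Loc2879.isUnit_iff.2 h)
    rw [h3, zero_sub, neg_ne_zero]
    exact h1
  have h3 := h2.map φ
  rw [map_sub, hφ, Loc2879.isUnit_iff, map_sub, evp_algebraMap, ← hc, sub_self] at h3
  exact h3 rfl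

/-- finite list of branches which decides finiteness -/
theorem br_list {a b d : BB 3} (h : dl (BB 3 ⧸ Ideal.span {a, b, d}) ≠ ⊤) (hd : ¬ IsUnit d) :
    ∃ l : List (BB 3 →+* A1), (∀ φ ∈ l, Br a b φ) ∧
      ∀ c, dl (BB 3 ⧸ Ideal.span {a, b, c}) ≠ ⊤ ↔ ∀ φ ∈ l, φ c ≠ 0 := by
  obtain ⟨C⟩ := curve3 h hd
  refine ⟨C.l, fun φ hφ => ⟨C.cst φ hφ, C.ker φ hφ _ (Ideal.subset_span (by simp)),
    C.ker φ hφ _ (Ideal.subset_span (by simp))⟩, fun c => ?_⟩
  rw [span3, ← C.reg]

theorem nzd {a b c : BB 3} (h : dl (BB 3 ⧸ Ideal.span {a, b, c}) ≠ ⊤) {m : BB 3}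
    (hm : c * m ∈ Ideal.span {a, b}) : m ∈ Ideal.span {a, b} := by
  by_cases hc : IsUnit c
  · obtain ⟨u, rfl⟩ := hc
    have h1 : m = ((u⁻¹ : (BB 3)ˣ) : BB 3) * (u * m) := by
      rw [← mul_assoc, Units.inv_mul, one_mul]
    rw [h1]
    exact Ideal.mul_mem_left _ _ hm
  · obtain ⟨C⟩ := curve3 h hc
    rw [span3, ← C.reg] at h
    exact C.nzd c h m hm

/-- additivity -/
theorem I_mul (a b u v : BB 3) : dl (BB 3 ⧸ Ideal.span {a, b, u * v}) =
    dl (BB 3 ⧸ Ideal.span {a, b, u}) + dl (BB 3 ⧸ Ideal.span {a, b, v}) := by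
  by_cases h : dl (BB 3 ⧸ Ideal.span {a, b, u}) = ⊤
  · rw [h, top_add, eq_top_iff, ← h]
    refine dl_anti ?_
    rw [span3, span3]
    refine sup_le_sup_left ?_ _
    rw [Ideal.span_singleton_le_span_singleton]
    exact Dvd.intro _ rfl
  · have h1 := dl_mul (R := BB 3 ⧸ Ideal.span {a, b}) (Ideal.Quotient.mk _ u) (Ideal.Quotient.mk _ v)
      (by
        intro x y hxy
        obtain ⟨x, rfl⟩ := Ideal.Quotient.mk_surjective x
        obtain ⟨y, rfl⟩ := Ideal.Quotient.mk_surjective y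
        rw [Ideal.Quotient.eq]
        refine nzd h ?_
        rw [mul_sub, ← Ideal.Quotient.eq, map_mul, map_mul]
        exact hxy)
    rw [← map_mul, dl_quot_quot, dl_quot_quot, dl_quot_quot] at h1
    rw [span3, span3, span3]
    exact h1

lemma eq_zero_of_dvd {x : A1} (h : ∀ n : ℕ, TT (0 : ℂ) ^ n ∣ x) : x = 0 := by
  by_contra hx
  have h1 := vv_eq_top (x := x)
  have h2 : vv x ≠ ⊤ := fun e => hx (h1.1 e)
  obtain ⟨n, hn⟩ := ENat.ne_top_iff_exists.1 h2
  obtain ⟨y, hy⟩ := h (n + 1)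
  rw [hy, vv_mul, vv_TT_pow] at hn
  have h3 : ((n + 1 : ℕ) : ℕ∞) ≤ (n : ℕ∞) := by
    rw [hn]; exact le_self_add
  have h4 : n + 1 ≤ n := by exact_mod_cast h3
  omega

/-- a linear form as a combination of the coordinates of a basis -/
lemma lin_basis {n : ℕ} (b : Module.Basis (Fin n) ℂ (Fin n → ℂ)) (l : (Fin n → ℂ) →L[ℂ] ℂ) :
    lin l = ∑ i, algebraMap ℂ (BB n) (l (b i)) * lin (LinearMap.toContinuousLinearMap (b.coord i)) := by
  have h1 : l = ∑ i, l (b i) • LinearMap.toContinuousLinearMap (b.coord i) := by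
    ext x
    have h2 := b.sum_repr x
    conv_lhs => rw [← h2]
    rw [map_sum, sum_apply]
    refine Finset.sum_congr rfl fun i _ => ?_
    rw [map_smul]
    simp [mul_comm]
  have h3 : ∀ (s : Finset (Fin n)) (c : Fin n → ℂ) (m : Fin n → ((Fin n → ℂ) →L[ℂ] ℂ)),
      lin (∑ i ∈ s, c i • m i) = ∑ i ∈ s, algebraMap ℂ (BB n) (c i) * lin (m i) := by
    classical
    intro s c m
    induction s using Finset.induction_on with
    | empty => rw [Finset.sum_empty, Finset.sum_empty, lin_zero]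
    | insert i s hi ih =>
      rw [Finset.sum_insert hi, Finset.sum_insert hi, lin_add, ih, lin_smul, Algebra.smul_def]
  conv_lhs => rw [h1]
  exact h3 _ _ _

/-- **chain rule** -/
theorem chain {n : ℕ} {φ : BB n →+* A1}
    (hφ : ∀ c : ℂ, φ (algebraMap ℂ (BB n) c) = algebraMap ℂ A1 c) (f : BB n)
    (b : Module.Basis (Fin n) ℂ (Fin n → ℂ)) :
    DD (φ f) = ∑ i, φ (dd (b i) f) * DD (φ (lin (LinearMap.toContinuousLinearMap (b.coord i)))) := by
  set T : BB n → A1 := fun f => DD (φ f) -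
    ∑ i, φ (dd (b i) f) * DD (φ (lin (LinearMap.toContinuousLinearMap (b.coord i)))) with hT
  have hadd : ∀ x y, T (x + y) = T x + T y := by
    intro x y
    simp only [hT, map_add, add_mul, Finset.sum_add_distrib]
    ring
  have hsum : ∀ (s : Finset (Fin n)) (x : Fin n → BB n), T (∑ i ∈ s, x i) = ∑ i ∈ s, T (x i) := by
    classical
    intro s x
    induction s using Finset.induction_on with
    | empty => simp [hT]
    | insert i s hi ih => rw [Finset.sum_insert hi, Finset.sum_insert hi, hadd, ih]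
  have hmul : ∀ x y, T (x * y) = φ x * T y + φ y * T x := by
    intro x y
    simp only [hT, map_mul, Derivation.leibniz, smul_eq_mul, map_add, add_mul, mul_sub,
      Finset.sum_add_distrib, Finset.mul_sum]
    have e1 : ∀ (p q : Fin n → A1), (∑ i, p i = ∑ i, q i) → ∑ i, p i = ∑ i, q i := fun _ _ h => h
    have e2 : ∀ i, φ x * φ (dd (b i) y) * DD (φ (lin (LinearMap.toContinuousLinearMap (b.coord i)))) =
      φ x * (φ (dd (b i) y) * DD (φ (lin (LinearMap.toContinuousLinearMap (b.coord i))))) :=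
      fun i => mul_assoc _ _ _
    have e3 : ∀ i, φ y * φ (dd (b i) x) * DD (φ (lin (LinearMap.toContinuousLinearMap (b.coord i)))) =
      φ y * (φ (dd (b i) x) * DD (φ (lin (LinearMap.toContinuousLinearMap (b.coord i))))) :=
      fun i => mul_assoc _ _ _
    simp only [e2, e3]
    ring
  have hcst : ∀ c : ℂ, T (algebraMap ℂ (BB n) c) = 0 := by
    intro c
    simp only [hT, hφ, Derivation.map_algebraMap, map_zero, zero_mul, Finset.sum_const_zero,
      sub_zero]
  have hlin : ∀ l : (Fin n → ℂ) →L[ℂ] ℂ, T (lin l) = 0 := by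
    intro l
    have e1 := congrArg T (lin_basis b l)
    rw [hsum] at e1
    rw [e1]
    refine Finset.sum_eq_zero fun i _ => ?_
    rw [hmul, hcst, mul_zero, add_zero]
    have e2 : T (lin (LinearMap.toContinuousLinearMap (b.coord i))) = 0 := by
      simp only [hT, dd_lin, hφ]
      rw [Finset.sum_eq_single i]
      · simp
      · intro j _ hj
        have : (LinearMap.toContinuousLinearMap (b.coord i)) (b j) = 0 := by
          simp [Module.Basis.coord_apply, hj]
        rw [this, map_zero, zero_mul]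
      · intro h; exact absurd (Finset.mem_univ _) h
    rw [e2, mul_zero]
  have hdiv : ∀ (k : ℕ) (f : BB n), TT (0 : ℂ) ^ k ∣ T f := by
    intro k
    induction k with
    | zero => intro f; rw [pow_zero]; exact one_dvd _
    | succ k ih =>
      intro f
      obtain ⟨c, y, e⟩ := hadamard f
      rw [e, hadd, hcst, zero_add, hsum]
      refine Finset.dvd_sum fun i _ => ?_
      have e1 : T (xB i) = 0 := hlin (ContinuousLinearMap.proj (R := ℂ) (φ := fun _ : Fin n => ℂ) i)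
      rw [hmul, e1, mul_zero, zero_add, pow_succ']
      exact mul_dvd_mul (TT_dvd (nonunit_map hφ (xB_not_unit i))) (ih (y i))
  have := eq_zero_of_dvd fun k => hdiv k f
  exact sub_eq_zero.1 this

lemma enat_cancel {N : ℕ} (hN : N ≠ 0) {a b : ℕ∞} (ha : a ≠ ⊤) (hb : b ≠ ⊤)
    (h : (N : ℕ∞) * a = N * b) : a = b := by
  obtain ⟨x, rfl⟩ := ENat.ne_top_iff_exists.1 ha
  obtain ⟨y, rfl⟩ := ENat.ne_top_iff_exists.1 hb
  have h1 : N * x = N * y := by exact_mod_cast h
  rw [Nat.eq_of_mul_eq_mul_left (Nat.pos_of_ne_zero hN) h1]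

/-- **comparison of intersection numbers** -/
theorem CL {a b u v w x : BB 3} (hv : ¬ IsUnit v) (hx : ¬ IsUnit x)
    (fu : dl (BB 3 ⧸ Ideal.span {a, b, u}) ≠ ⊤) (fv : dl (BB 3 ⧸ Ideal.span {a, b, v}) ≠ ⊤)
    (fw : dl (BB 3 ⧸ Ideal.span {a, b, w}) ≠ ⊤) (fx : dl (BB 3 ⧸ Ideal.span {a, b, x}) ≠ ⊤)
    (H : ∀ φ, Br a b φ → φ u * DD (φ v) = φ w * DD (φ x)) :
    dl (BB 3 ⧸ Ideal.span {a, b, u}) + dl (BB 3 ⧸ Ideal.span {a, b, v}) =
      dl (BB 3 ⧸ Ideal.span {a, b, w}) + dl (BB 3 ⧸ Ideal.span {a, b, x}) := by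
  obtain ⟨C⟩ := curve3 fv hv
  have fu' := fu; have fv' := fv; have fw' := fw; have fx' := fx
  rw [span3, ← C.reg] at fu' fv' fw' fx'
  refine enat_cancel C.hN (by simp [fu, fv]) (by simp [fw, fx]) ?_
  rw [mul_add, mul_add, span3 a b u, span3 a b v, span3 a b w, span3 a b x]
  rw [C.sum u fu', C.sum v fv', C.sum w fw', C.sum x fx']
  have key : ∀ φ ∈ C.l, vv (φ u) + vv (φ v) = vv (φ w) + vv (φ x) := by
    intro φ hφ
    have hb : Br a b φ := ⟨C.cst φ hφ, C.ker φ hφ _ (Ideal.subset_span (by simp)),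
      C.ker φ hφ _ (Ideal.subset_span (by simp))⟩
    have h1 := congrArg vv (H φ hb)
    rw [vv_mul, vv_mul] at h1
    rw [← vv_DD (nonunit_map hb.cst hv), ← vv_DD (nonunit_map hb.cst hx), ← add_assoc, ← add_assoc,
      h1]
  generalize C.l = l at key
  induction l with
  | nil => simp
  | cons φ l ih =>
    simp only [List.map_cons, List.sum_cons]
    have h1 := key φ (by simp)
    have h2 := ih (fun ψ hψ => key ψ (by simp [hψ]))
    calc _ = (vv (φ u) + vv (φ v)) + ((l.map fun φ => vv (φ u)).sum + (l.map fun φ => vv (φ v)).sum) := by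
            ring
      _ = _ := by rw [h1, h2]; ring

end Crest.Agent.R257.Num488
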