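import Crest.Agent.R257.NumH_488
import Crest.Agent.R257.Cnm1_889
import Crest.Agent.R257.UI8_939
import Crest.Agent.R257.NumK_488
import Crest.Agent.R257.Gen1_812

-- ▼ part R257/LgA_827
section

/-!
Row 257 (S0395), leaf B-NUM (helper827), part A: lengths and colon ideals, linkage of the
`2 × 2` minors, rings of germs in three variables: two relatively prime germs define a curve.
-/

set_option autoImplicit false

open Set Filter Topology
open Crest.Agent.R275.Loc2879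
open Crest.Agent.R257.UI939 (BB xB)
open Crest.Agent.R257.Num488

noncomputable section

namespace Crest.Agent.R257.LgA_827

universe u

section Abstract

variable {R : Type u} [CommRing R]

/-- `length(R/J) = length(R/(J : c)) + length(R/(J + c))` -/
theorem dl_colon [Algebra ℂ R] (J K : Ideal R) (c : R) (hK : ∀ a, a ∈ K ↔ a * c ∈ J) :
    dl (R ⧸ J) = dl (R ⧸ K) + dl (R ⧸ (J ⊔ Ideal.span {c})) := by
  have h1 : K ≤ Submodule.comap (LinearMap.lsmul R R c) J := by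
    intro a ha
    rw [Submodule.mem_comap, LinearMap.lsmul_apply, smul_eq_mul, mul_comm]
    exact (hK a).1 ha
  let f : (R ⧸ K) →ₗ[R] (R ⧸ J) := Submodule.mapQ K J (LinearMap.lsmul R R c) h1
  let g : (R ⧸ J) →ₗ[R] (R ⧸ (J ⊔ Ideal.span {c})) :=
    Submodule.mapQ J (J ⊔ Ideal.span {c}) LinearMap.id (by simp)
  refine Module.length_eq_add_of_exact (f.restrictScalars ℂ) (g.restrictScalars ℂ) ?_ ?_ ?_
  · rw [LinearMap.coe_restrictScalars, injective_iff_map_eq_zero]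
    intro x hx
    obtain ⟨a, rfl⟩ := Submodule.Quotient.mk_surjective _ x
    have h2 : (Submodule.Quotient.mk (c * a) : R ⧸ J) = 0 := hx
    rw [Submodule.Quotient.mk_eq_zero] at h2 ⊢
    exact (hK a).2 (by rwa [mul_comm])
  · rw [LinearMap.coe_restrictScalars]
    intro x
    obtain ⟨a, rfl⟩ := Submodule.Quotient.mk_surjective _ x
    exact ⟨Submodule.Quotient.mk a, rfl⟩
  · intro x
    obtain ⟨a, rfl⟩ := Submodule.Quotient.mk_surjective _ x
    rw [LinearMap.coe_restrictScalars, LinearMap.coe_restrictScalars]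
    constructor
    · intro hx
      have h2 : (Submodule.Quotient.mk a : R ⧸ (J ⊔ Ideal.span {c})) = 0 := hx
      rw [Submodule.Quotient.mk_eq_zero, Submodule.mem_sup] at h2
      obtain ⟨j, hj, y, hy, rfl⟩ := h2
      obtain ⟨z, rfl⟩ := Ideal.mem_span_singleton'.1 hy
      refine ⟨Submodule.Quotient.mk z, ?_⟩
      change (Submodule.Quotient.mk (c * z) : R ⧸ J) = Submodule.Quotient.mk (j + z * c)
      rw [Submodule.Quotient.eq]
      have : c * z - (j + z * c) = -j := by ring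
      rw [this]
      exact J.neg_mem hj
    · rintro ⟨y, hy⟩
      obtain ⟨z, rfl⟩ := Submodule.Quotient.mk_surjective _ y
      have h2 : (Submodule.Quotient.mk (c * z) : R ⧸ J) = Submodule.Quotient.mk a := hy
      rw [Submodule.Quotient.eq] at h2
      change (Submodule.Quotient.mk a : R ⧸ (J ⊔ Ideal.span {c})) = 0
      rw [Submodule.Quotient.mk_eq_zero]
      have h3 : a = -(c * z - a) + z * c := by ring
      rw [h3]
      exact Submodule.add_mem_sup (J.neg_mem h2) (Ideal.mem_span_singleton'.2 ⟨z, rfl⟩)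

lemma mem3 {a b c x : R} : x ∈ Ideal.span {a, b, c} ↔ ∃ r s t, x = r * a + s * b + t * c := by
  rw [Ideal.mem_span_insert]
  constructor
  · rintro ⟨r, z, hz, rfl⟩
    obtain ⟨s, t, rfl⟩ := Ideal.mem_span_pair.1 hz
    exact ⟨r, s, t, by ring⟩
  · rintro ⟨r, s, t, rfl⟩
    exact ⟨r, s * b + t * c, Ideal.mem_span_pair.2 ⟨s, t, rfl⟩, by ring⟩

lemma mem2 {a b x : R} : x ∈ Ideal.span {a, b} ↔ ∃ r s, x = r * a + s * b := by
  rw [Ideal.mem_span_pair]
  exact ⟨fun ⟨r, s, h⟩ => ⟨r, s, h.symm⟩, fun ⟨r, s, h⟩ => ⟨r, s, h.symm⟩⟩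

/-- **linkage** : the colon of `(f, M₁, M₃)` by `M₂` is `(f, f₂, g₂)` -/
theorem linkage (f f₁ f₂ f₃ g₁ g₂ g₃ : R)
    (n1 : ∀ m, (f₁ * g₂ - f₂ * g₁) * m ∈ Ideal.span {f, f₂ * g₃ - f₃ * g₂} →
      m ∈ Ideal.span {f, f₂ * g₃ - f₃ * g₂})
    (n2 : ∀ m, f ∣ (f₂ * g₃ - f₃ * g₂) * m → f ∣ m) (a : R) :
    a ∈ Ideal.span {f, f₂, g₂} ↔
      a * (f₃ * g₁ - f₁ * g₃) ∈ Ideal.span {f, f₁ * g₂ - f₂ * g₁, f₂ * g₃ - f₃ * g₂} := by
  rw [mem3, mem3]
  constructor
  · rintro ⟨r, s, t, rfl⟩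
    exact ⟨r * (f₃ * g₁ - f₁ * g₃), - s * f₃ - t * g₃, - s * f₁ - t * g₁, by ring⟩
  · rintro ⟨p, c, b, h⟩
    have hα : a * g₃ + c * g₂ ∈ Ideal.span {f, f₂ * g₃ - f₃ * g₂} := by
      apply n1
      rw [mem2]
      exact ⟨- p * g₂, - b * g₂ - a * g₁, by linear_combination (-g₂) * h⟩
    have hβ : - f₂ * c - f₃ * a ∈ Ideal.span {f, f₂ * g₃ - f₃ * g₂} := by
      apply n1
      rw [mem2]
      exact ⟨p * f₂, f₁ * a + f₂ * b, by linear_combination f₂ * h⟩
    rw [mem2] at hα hβ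
    obtain ⟨s, α, hα⟩ := hα
    obtain ⟨s', β, hβ⟩ := hβ
    have h1 : f ∣ (f₂ * g₃ - f₃ * g₂) * (a - α * f₂ - β * g₂) :=
      ⟨s * f₂ + s' * g₂, by linear_combination f₂ * hα + g₂ * hβ⟩
    obtain ⟨q, hq⟩ := n2 _ h1
    exact ⟨q, α, β, by linear_combination hq⟩

end Abstract

/-- intersection number -/
abbrev T (a b c : BB 3) : ℕ∞ := dl (BB 3 ⧸ Ideal.span {a, b, c})

end Crest.Agent.R257.LgA_827
end
end

-- ▼ part R257/LgB_827
section

/-!
Row 257 (S0395), leaf B-NUM (helper827), part B: ideals of finite colength in the ring of germs in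
three variables; two relatively prime germs define a curve.
-/

set_option autoImplicit false

open Set Filter Topology
open Crest.Agent.R275.Loc2879
open Crest.Agent.R257.UI939 (BB xB)
open Crest.Agent.R257.Num488

noncomputable section

namespace Crest.Agent.R257.LgA_827

local notation "𝔪" => IsLocalRing.maximalIdeal (BB 3)

lemma mem_m {y : BB 3} : y ∈ 𝔪 ↔ ¬ IsUnit y := IsLocalRing.mem_maximalIdeal y

lemma xB_mem (i : Fin 3) : xB i ∈ 𝔪 := mem_m.2 (UI939.xB_not_unit i)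

lemma maxId_eq : 𝔪 = Ideal.span {xB 0, xB 1, xB 2} := by
  apply le_antisymm
  · intro a ha
    obtain ⟨c, y, hc⟩ := UI939.hadamard a
    have h1 : algebraMap ℂ (BB 3) c ∈ 𝔪 := by
      have : algebraMap ℂ (BB 3) c = a - ∑ i, y i * xB i := by rw [hc]; ring
      rw [this]
      exact Ideal.sub_mem _ ha (Ideal.sum_mem _ fun i _ => Ideal.mul_mem_left _ _ (xB_mem i))
    have h2 : c = 0 := by
      by_contra h
      exact mem_m.1 h1 ((isUnit_iff_ne_zero.2 h).map _)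
    rw [hc, h2, map_zero, zero_add, mem3, Fin.sum_univ_three]
    exact ⟨_, _, _, rfl⟩
  · rw [Ideal.span_le]
    rintro _ (rfl | rfl | rfl) <;> exact xB_mem _

lemma height_m : (𝔪).height ≤ 3 := by
  classical
  have h1 : 𝔪 ∈ (Ideal.span ((({xB 0, xB 1, xB 2} : Finset (BB 3)) : Set (BB 3)))).minimalPrimes := by
    have : ((({xB 0, xB 1, xB 2} : Finset (BB 3)) : Set (BB 3))) = {xB 0, xB 1, xB 2} := by simp
    rw [this, ← maxId_eq, Ideal.minimalPrimes_eq_subsingleton_self]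
    exact Set.mem_singleton _
  refine (Ideal.height_le_card_of_mem_minimalPrimes_span_finset h1).trans ?_
  exact_mod_cast Finset.card_le_three

/-- finite colength: a power of every non-unit -/
lemma pow_mem {I : Ideal (BB 3)} (h : dl (BB 3 ⧸ I) ≠ ⊤) :
    ∃ k : ℕ, ∀ y : BB 3, ¬ IsUnit y → y ^ k ∈ I := by
  have hf := finite_of_dl h
  exact ⟨_, fun y hy => Uni554.pow_le I hf rfl (Ideal.pow_mem_pow (mem_m.2 hy) _)⟩

lemma dl_quot_mono {I J : Ideal (BB 3)} (h : I ≤ J) (hI : dl (BB 3 ⧸ I) ≠ ⊤) :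
    dl (BB 3 ⧸ J) ≠ ⊤ := by
  have := finite_of_dl hI
  have h2 : Module.Finite ℂ (BB 3 ⧸ J) :=
    Module.Finite.of_surjective ((Ideal.Quotient.factorₐ ℂ h).toLinearMap)
      (Ideal.Quotient.factor_surjective h)
  exact dl_ne_top

lemma fin_of_pow {I : Ideal (BB 3)} {k : ℕ} (h : 𝔪 ^ k ≤ I) : dl (BB 3 ⧸ I) ≠ ⊤ := by
  have h1 : ∀ k : ℕ, UI939.JJ (xB (n := 3)) k ≤ 𝔪 ^ k := by
    intro k
    induction k with
    | zero => simp
    | succ k ih =>
      refine (UI939.JJ_succ_le _ _).trans ?_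
      rw [smul_eq_mul, pow_succ']
      refine Ideal.mul_mono ?_ ih
      rw [Ideal.span_le]
      rintro _ ⟨i, rfl⟩
      exact xB_mem i
  have h2 := UI939.finite_quot_JJ (n := 3) k
  exact dl_quot_mono ((h1 k).trans h) dl_ne_top

/-- a ring map which kills an ideal of finite colength kills all non-units -/
lemma kill {I : Ideal (BB 3)} (h : dl (BB 3 ⧸ I) ≠ ⊤) (φ : BB 3 →+* A1) (hφ : ∀ a ∈ I, φ a = 0)
    {y : BB 3} (hy : ¬ IsUnit y) : φ y = 0 := by
  obtain ⟨k, hk⟩ := pow_mem h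
  have h1 := hφ _ (hk y hy)
  rw [map_pow] at h1
  exact eq_zero_of_pow_eq_zero h1

lemma kill3 {a b c : BB 3} (h : T a b c ≠ ⊤) (φ : BB 3 →+* A1) (ha : φ a = 0) (hb : φ b = 0)
    (hc : φ c = 0) {y : BB 3} (hy : ¬ IsUnit y) : φ y = 0 := by
  refine kill h φ (fun x hx => ?_) hy
  obtain ⟨r, s, t, rfl⟩ := mem3.1 hx
  simp [ha, hb, hc]

/-- **two relatively prime germs in three variables define a curve** -/
theorem exists_third {a b : BB 3} (hab : IsRelPrime a b) : ∃ d, ¬ IsUnit d ∧ T a b d ≠ ⊤ := by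
  classical
  have h00 : ¬ IsUnit (0 : BB 3) := not_isUnit_zero
  by_cases ha : IsUnit a
  · refine ⟨0, h00, ?_⟩
    have : Ideal.span {a, b, 0} = ⊤ :=
      Ideal.eq_top_of_isUnit_mem _ (Ideal.subset_span (by simp)) ha
    rw [T, this]
    exact fin_of_pow (k := 0) (by simp)
  by_cases hb : IsUnit b
  · refine ⟨0, h00, ?_⟩
    have : Ideal.span {a, b, 0} = ⊤ :=
      Ideal.eq_top_of_isUnit_mem _ (Ideal.subset_span (by simp)) hb
    rw [T, this]
    exact fin_of_pow (k := 0) (by simp)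
  have ha0 : a ≠ 0 := by
    rintro rfl
    exact hb (hab (dvd_zero b) dvd_rfl)
  set I : Ideal (BB 3) := Ideal.span {a, b} with hI
  have hIm : I ≤ 𝔪 := by
    rw [hI, Ideal.span_le]
    rintro _ (rfl | rfl)
    · exact mem_m.2 ha
    · exact mem_m.2 hb
  have hfin := Ideal.finite_minimalPrimes_of_isNoetherianRing (BB 3) I
  -- finite colength of an ideal over which `𝔪` is minimal
  have key : ∀ d, 𝔪 ∈ (Ideal.span {a, b, d}).minimalPrimes → T a b d ≠ ⊤ := by
    intro d hd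
    have h1 : (Ideal.span {a, b, d}).radical = 𝔪 := by
      refine le_antisymm ?_ ?_
      · rw [Ideal.IsPrime.radical_le_iff hd.isPrime]
        exact hd.le
      · rw [Ideal.radical_eq_sInf]
        refine le_sInf ?_
        rintro J ⟨hJ, hJp⟩
        have h2 : J ≤ 𝔪 := IsLocalRing.le_maximalIdeal hJp.ne_top
        exact hd.2 ⟨hJp, hJ⟩ h2
    obtain ⟨k, hk⟩ := Ideal.exists_radical_pow_le_of_fg (Ideal.span {a, b, d})
      (by rw [h1]; exact IsNoetherian.noetherian _)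
    rw [h1] at hk
    exact fin_of_pow hk
  by_cases hmin : 𝔪 ∈ I.minimalPrimes
  · refine ⟨0, h00, key 0 ?_⟩
    have : Ideal.span {a, b, 0} = I := by
      rw [hI]
      apply le_antisymm
      · rw [Ideal.span_le]
        rintro _ (rfl | rfl | rfl)
        · exact Ideal.subset_span (by simp)
        · exact Ideal.subset_span (by simp)
        · exact Ideal.zero_mem _
      · exact Ideal.span_mono (by intro x hx; rcases hx with rfl | rfl <;> simp)
    rwa [this]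
  -- prime avoidance
  obtain ⟨d, hdm, hd⟩ : ∃ d ∈ 𝔪, ∀ P ∈ I.minimalPrimes, d ∉ P := by
    by_contra hcon
    push Not at hcon
    have h1 : ((𝔪 : Ideal (BB 3)) : Set (BB 3)) ⊆ ⋃ P ∈ I.minimalPrimes, (P : Set (BB 3)) := by
      intro d hd
      obtain ⟨P, hP, hdP⟩ := hcon d hd
      exact Set.mem_biUnion hP hdP
    obtain ⟨P, hP, hle⟩ := (Ideal.subset_union_prime_finite hfin (f := id) 0 0
      fun P hP _ _ => hP.isPrime).1 h1
    have h2 : 𝔪 = P := (IsLocalRing.maximalIdeal.isMaximal (BB 3)).eq_of_le hP.isPrime.ne_top hle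
    exact hmin (h2 ▸ hP)
  refine ⟨d, mem_m.1 hdm, key d ?_⟩
  have hle : Ideal.span {a, b, d} ≤ 𝔪 := by
    rw [Ideal.span_le]
    rintro _ (rfl | rfl | rfl)
    · exact mem_m.2 ha
    · exact mem_m.2 hb
    · exact hdm
  obtain ⟨Q, hQ, hQm⟩ := Ideal.exists_minimalPrimes_le hle
  have hQp := hQ.isPrime
  have hIQ : I ≤ Q := (Ideal.span_mono (by intro x hx; rcases hx with rfl | rfl <;> simp)).trans hQ.le
  obtain ⟨P, hP, hPQ⟩ := Ideal.exists_minimalPrimes_le hIQ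
  have hPp := hP.isPrime
  have hdQ : d ∈ Q := hQ.le (Ideal.subset_span (by simp))
  have hPQ' : P < Q := lt_of_le_of_ne hPQ fun h => hd P hP (h ▸ hdQ)
  -- an irreducible factor of `a` in `P`
  have haP : a ∈ P := hP.le (Ideal.subset_span (by simp))
  have hbP : b ∈ P := hP.le (Ideal.subset_span (by simp))
  obtain ⟨π, hπ, hπP⟩ : ∃ π, Prime π ∧ π ∈ P ∧ π ∣ a := by
    obtain ⟨f, hf, hfa⟩ := UniqueFactorizationMonoid.exists_prime_factors a ha0
    have h1 : f.prod ∈ P := by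
      obtain ⟨u, hu⟩ := hfa
      have : f.prod * u ∈ P := by rw [hu]; exact haP
      rcases hPp.mem_or_mem this with h | h
      · exact h
      · exact absurd (Ideal.eq_top_of_isUnit_mem _ h u.isUnit) hPp.ne_top
    obtain ⟨π, hπf, hπP⟩ := (Ideal.IsPrime.multiset_prod_mem_iff_exists_mem hPp f).1 h1
    exact ⟨π, hf π hπf, hπP, (Multiset.dvd_prod hπf).trans hfa.dvd⟩
  have hπp : (Ideal.span {π}).IsPrime := (Ideal.span_singleton_prime hπ.ne_zero).2 hπ
  have h0 : (⊥ : Ideal (BB 3)) < Ideal.span {π} := by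
    rw [bot_lt_iff_ne_bot, Ne, Ideal.span_singleton_eq_bot]
    exact hπ.ne_zero
  have h1 : Ideal.span {π} < P := by
    refine lt_of_le_of_ne ((Ideal.span_singleton_le_iff_mem _).2 hπP.1) ?_
    intro h
    rw [← h, Ideal.mem_span_singleton] at hbP
    exact hπ.not_isUnit (hab hπP.2 hbP)
  by_contra hcon
  have h2 : Q < 𝔪 := lt_of_le_of_ne hQm fun h => hcon (h ▸ hQ)
  have e0 := Ideal.height_add_one_le_of_lt_of_isPrime h0
  have e1 := Ideal.height_add_one_le_of_lt_of_isPrime h1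
  have e2 := Ideal.height_add_one_le_of_lt_of_isPrime hPQ'
  have e3 := Ideal.height_add_one_le_of_lt_of_isPrime h2
  have e4 : (4 : ℕ∞) ≤ 3 := by
    calc (4 : ℕ∞) = 0 + 1 + 1 + 1 + 1 := by norm_num
      _ ≤ (⊥ : Ideal (BB 3)).height + 1 + 1 + 1 + 1 := by gcongr; exact bot_le
      _ ≤ (Ideal.span {π}).height + 1 + 1 + 1 := by gcongr
      _ ≤ P.height + 1 + 1 := by gcongr
      _ ≤ Q.height + 1 := by gcongr
      _ ≤ (𝔪).height := e3
      _ ≤ 3 := height_m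
  exact absurd e4 (by norm_num)

end Crest.Agent.R257.LgA_827
end
end

-- ▼ part R257/LgC_827
section

/-!
Row 257 (S0395), leaf B-NUM (helper827), part C: elementary operations on a basis, scalars outside a
finite set, derivatives and minors in a basis.
-/

set_option autoImplicit false

open Set Filter Topology
open Crest.Agent.R275.Loc2879
open Crest.Agent.R257.UI939 (BB xB)
open Crest.Agent.R257.Num488

noncomputable section

namespace Crest.Agent.R257.LgA_827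

local notation "𝔪" => IsLocalRing.maximalIdeal (BB 3)

/-- bases of `ℂ³` -/
abbrev Bs : Type := Module.Basis (Fin 3) ℂ (Fin 3 → ℂ)

/-- a transvection of the coordinates -/
def tv (i j : Fin 3) (hij : i ≠ j) (c : ℂ) : (Fin 3 → ℂ) ≃ₗ[ℂ] (Fin 3 → ℂ) where
  toFun y := Function.update y j (y j - c * y i)
  invFun y := Function.update y j (y j + c * y i)
  map_add' x y := by
    funext k
    by_cases h : k = j
    · subst h; simp; ring
    · simp [Function.update_of_ne h]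
  map_smul' a x := by
    funext k
    by_cases h : k = j
    · subst h; simp; ring
    · simp [Function.update_of_ne h]
  left_inv x := by
    funext k
    by_cases h : k = j
    · subst h; simp [Function.update_of_ne hij]
    · simp [Function.update_of_ne h]
  right_inv x := by
    funext k
    by_cases h : k = j
    · subst h; simp [Function.update_of_ne hij]
    · simp [Function.update_of_ne h]

/-- elementary operation on a basis -/
theorem exists_op (b : Bs) {i j : Fin 3} (hij : i ≠ j) (c : ℂ) : ∃ b' : Bs,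
    b' i = b i + c • b j ∧ (∀ k, k ≠ i → b' k = b k) ∧ b'.coord j = b.coord j - c • b.coord i ∧
      ∀ k, k ≠ j → b'.coord k = b.coord k := by
  let b' : Bs := Module.Basis.ofEquivFun (b.equivFun.trans (tv i j hij c))
  have hv : ∀ k, b' k = b.equivFun.symm ((tv i j hij c).symm (Pi.single k 1)) := by
    intro k
    simp only [b', Module.Basis.coe_ofEquivFun]
    rfl
  have hc : ∀ k v, b'.coord k v = (tv i j hij c (b.equivFun v)) k := by
    intro k v
    simp only [b', Module.Basis.coord_apply]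
    rfl
  have hb : ∀ k, b.equivFun.symm (Pi.single k 1) = b k := by
    intro k
    rw [Module.Basis.equivFun_symm_apply, Finset.sum_eq_single k]
    · simp
    · intro l _ hl; simp [hl]
    · intro h; exact absurd (Finset.mem_univ _) h
  have h1 : ∀ k, (tv i j hij c).symm (Pi.single k 1) =
      Pi.single k 1 + (c * (Pi.single k 1 : Fin 3 → ℂ) i) • Pi.single j 1 := by
    intro k
    funext l
    change Function.update _ j _ l = _
    by_cases h : l = j
    · subst h; simp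
    · rw [Function.update_of_ne h, Pi.add_apply, Pi.smul_apply, Pi.single_eq_of_ne h, smul_zero,
        add_zero]
  refine ⟨b', ?_, ?_, ?_, ?_⟩
  · rw [hv, h1, map_add, map_smul, hb, hb]; simp
  · intro k hk
    rw [hv, h1, map_add, map_smul, hb, hb]; simp [Pi.single_apply, Ne.symm hk]
  · refine LinearMap.ext fun v => ?_
    rw [hc]
    change Function.update _ j _ j = _
    simp [Module.Basis.coord_apply]
  · intro k hk
    refine LinearMap.ext fun v => ?_
    rw [hc]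
    change Function.update _ j _ k = _
    rw [Function.update_of_ne hk]
    simp [Module.Basis.coord_apply]

/-- derivative in a basis -/
def D (b : Bs) (i : Fin 3) (f : BB 3) : BB 3 := dd (b i) f

/-- coordinates of a basis -/
def X (b : Bs) (i : Fin 3) : BB 3 := lin (LinearMap.toContinuousLinearMap (b.coord i))


/-- the operation on derivatives and coordinates -/
theorem exists_op' (b : Bs) {i j : Fin 3} (hij : i ≠ j) (c : ℂ) : ∃ b' : Bs,
    (∀ f, D b' i f = D b i f + c • D b j f) ∧ (∀ k, k ≠ i → ∀ f, D b' k f = D b k f) ∧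
      X b' j = X b j + (-c) • X b i ∧ ∀ k, k ≠ j → X b' k = X b k := by
  obtain ⟨b', h1, h2, h3, h4⟩ := exists_op b hij c
  refine ⟨b', fun f => ?_, fun k hk f => ?_, ?_, fun k hk => ?_⟩
  · rw [D, h1, dd_add, dd_smul]; rfl
  · rw [D, h2 k hk]; rfl
  · rw [X, h3]
    have : LinearMap.toContinuousLinearMap (b.coord j - c • b.coord i) =
        LinearMap.toContinuousLinearMap (b.coord j) +
          (-c) • LinearMap.toContinuousLinearMap (b.coord i) := by
      ext v; simp; ring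
    rw [this, lin_add, lin_smul]; rfl
  · rw [X, h4 k hk]; rfl

/-! ### scalars -/

lemma smul_mem_iff {U : Ideal (BB 3)} {c : ℂ} (hc : c ≠ 0) {z : BB 3} (h : c • z ∈ U) : z ∈ U := by
  have h1 : c⁻¹ • (c • z) ∈ U := by
    rw [Algebra.smul_def]; exact U.mul_mem_left _ h
  rwa [smul_smul, inv_mul_cancel₀ hc, one_smul] at h1

lemma smul_mem' {U : Ideal (BB 3)} (c : ℂ) {z : BB 3} (h : z ∈ U) : c • z ∈ U := by
  rw [Algebra.smul_def]; exact U.mul_mem_left _ h

lemma sub1 {U : Ideal (BB 3)} {y z : BB 3} (h : y ∉ U ∨ z ∉ U) :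
    {c : ℂ | y + c • z ∈ U}.Subsingleton := by
  intro c hc c' hc'
  by_contra hne
  have h1 : (c - c') • z ∈ U := by
    have := U.sub_mem hc hc'
    rw [add_sub_add_left_eq_sub, ← sub_smul] at this
    exact this
  have h2 := smul_mem_iff (sub_ne_zero.2 hne) h1
  have h3 : y ∈ U := by
    have := U.sub_mem hc (smul_mem' c h2)
    rwa [add_sub_cancel_right] at this
  rcases h with h | h
  · exact h h3
  · exact h h2

lemma sub2 {U : Ideal (BB 3)} {y z w : BB 3} (h : y ∉ U ∨ z ∉ U ∨ w ∉ U) :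
    {c : ℂ | y + c • z ∈ U ∧ w ∈ U}.Subsingleton := by
  by_cases hw : w ∈ U
  · have h1 : y ∉ U ∨ z ∉ U := by tauto
    exact (sub1 h1).anti fun c hc => hc.1
  · intro c hc; exact absurd hc.2 hw

/-- finitely many bad scalars -/
lemma bad_fin {α : Type*} (l : List α) (P : α → ℂ → Prop)
    (h : ∀ a ∈ l, {c : ℂ | P a c}.Subsingleton) : {c : ℂ | ∃ a ∈ l, P a c}.Finite := by
  have : {c : ℂ | ∃ a ∈ l, P a c} = ⋃ a ∈ {a | a ∈ l}, {c : ℂ | P a c} := by
    ext c; simp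
  rw [this]
  exact (List.finite_toSet l).biUnion fun a ha => (h a ha).finite

lemma exists_c {s : Set ℂ} (hs : s.Finite) : ∃ c, c ∉ s := hs.exists_notMem

end Crest.Agent.R257.LgA_827
end
end

-- ▼ part R257/LgD_827
section

/-!
Row 257 (S0395), leaf B-NUM (helper827), part D: invariance of the ideals under elementary
operations; prime factors; a good basis.
-/

set_option autoImplicit false

open Set Filter Topology
open Crest.Agent.R275.Loc2879
open Crest.Agent.R257.UI939 (BB xB)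
open Crest.Agent.R257.Num488

noncomputable section

namespace Crest.Agent.R257.LgA_827

local notation "𝔪" => IsLocalRing.maximalIdeal (BB 3)

/-! ### primes -/

lemma not_all_dvd {π a b c : BB 3} (hπ : Prime π) (h : T a b c ≠ ⊤) :
    ¬ (π ∣ a ∧ π ∣ b ∧ π ∣ c) := by
  rintro ⟨⟨a', rfl⟩, ⟨b', rfl⟩, ⟨c', rfl⟩⟩
  obtain ⟨k, hk⟩ := pow_mem h
  refine Cnm1_889.two_not_enough3 hπ.not_isUnit hπ.not_isUnit (k := k) fun y hy => ?_
  obtain ⟨r, s, t, e⟩ := mem3.1 (hk y hy)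
  exact ⟨r * a' + s * b' + t * c', 0, by rw [e]; ring⟩

lemma prime_list {f : BB 3} (hf : f ≠ 0) : ∃ l : List (BB 3), (∀ π ∈ l, Prime π ∧ π ∣ f) ∧
    ∀ y, (∀ π ∈ l, ¬ π ∣ y) → IsRelPrime f y := by
  obtain ⟨s, hs, hsf⟩ := UniqueFactorizationMonoid.exists_prime_factors f hf
  refine ⟨s.toList, fun π hπ => ?_, fun y hy => ?_⟩
  · rw [Multiset.mem_toList] at hπ
    exact ⟨hs π hπ, (Multiset.dvd_prod hπ).trans hsf.dvd⟩
  · rw [UniqueFactorizationMonoid.isRelPrime_iff_no_prime_factors hf]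
    intro d hdf hdy hd
    have h1 : d ∣ s.prod := hdf.trans hsf.symm.dvd
    obtain ⟨π, hπ, hdπ⟩ := hd.exists_mem_multiset_dvd h1
    have h2 : Associated d π := (hd.dvd_prime_iff_associated (hs π hπ)).1 hdπ
    exact hy π (Multiset.mem_toList.2 hπ) (h2.symm.dvd.trans hdy)

/-! ### the minors in a basis -/

/-- the minors of `(df, dg)` in a basis -/
def W (b : Bs) (f g : BB 3) (p q : Fin 3) : BB 3 := D b p f * D b q g - D b q f * D b p g

/-- the ideal of `f` and of the minors -/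
def IW (b : Bs) (f g : BB 3) : Ideal (BB 3) :=
  Ideal.span (insert f (Set.range fun r : Fin 3 × Fin 3 => W b f g r.1 r.2))

lemma f_mem_IW (b : Bs) (f g : BB 3) : f ∈ IW b f g := Ideal.subset_span (by simp)

lemma W_mem_IW (b : Bs) (f g : BB 3) (p q : Fin 3) : W b f g p q ∈ IW b f g :=
  Ideal.subset_span (Set.mem_insert_of_mem _ ⟨(p, q), rfl⟩)

/-- the ideal of the partial derivatives -/
def IP (b : Bs) (f : BB 3) : Ideal (BB 3) := Ideal.span (Set.range fun r : Fin 3 => D b r f)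

lemma D_mem_IP (b : Bs) (f : BB 3) (p : Fin 3) : D b p f ∈ IP b f :=
  Ideal.subset_span ⟨p, rfl⟩

/-- the determinant -/
def Jd (b : Bs) (f g h : BB 3) : BB 3 :=
  W b f g 1 2 * D b 0 h - W b f g 0 2 * D b 1 h + W b f g 0 1 * D b 2 h

/-- `b'` is obtained from `b` by an elementary operation -/
structure Op (i j : Fin 3) (c : ℂ) (b b' : Bs) : Prop where
  hi : ∀ f, D b' i f = D b i f + c • D b j f
  hk : ∀ k, k ≠ i → ∀ f, D b' k f = D b k f

lemma Op.symm {i j : Fin 3} (hij : i ≠ j) {c : ℂ} {b b' : Bs} (h : Op i j c b b') :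
    Op i j (-c) b' b where
  hi f := by rw [h.hi, h.hk j hij.symm, neg_smul]; ring
  hk k hk f := (h.hk k hk f).symm

lemma Op.IP_le {i j : Fin 3} {c : ℂ} {b b' : Bs} (h : Op i j c b b') (f : BB 3) :
    IP b' f ≤ IP b f := by
  rw [IP, Ideal.span_le]
  rintro _ ⟨p, rfl⟩
  change D b' p f ∈ _
  by_cases hp : p = i
  · subst hp
    rw [h.hi]
    exact Ideal.add_mem _ (D_mem_IP _ _ _) (smul_mem' _ (D_mem_IP _ _ _))
  · rw [h.hk p hp]; exact D_mem_IP _ _ _

lemma Op.IP_eq {i j : Fin 3} (hij : i ≠ j) {c : ℂ} {b b' : Bs} (h : Op i j c b b') (f : BB 3) :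
    IP b' f = IP b f := le_antisymm (h.IP_le f) ((h.symm hij).IP_le f)

lemma Op.W {i j : Fin 3} {c : ℂ} {b b' : Bs} (h : Op i j c b b') (f g : BB 3) (q : Fin 3)
    (hq : q ≠ i) : W b' f g i q = W b f g i q + c • W b f g j q := by
  simp only [LgA_827.W, h.hi, h.hk q hq, Algebra.smul_def]; ring

lemma Op.W' {i j : Fin 3} {c : ℂ} {b b' : Bs} (h : Op i j c b b') (f g : BB 3) (q : Fin 3)
    (hq : q ≠ i) : LgA_827.W b' f g q i = LgA_827.W b f g q i + c • LgA_827.W b f g q j := by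
  simp only [LgA_827.W, h.hi, h.hk q hq, Algebra.smul_def]; ring

lemma Op.W'' {i j : Fin 3} {c : ℂ} {b b' : Bs} (h : Op i j c b b') (f g : BB 3) (p q : Fin 3)
    (hp : p ≠ i) (hq : q ≠ i) : LgA_827.W b' f g p q = LgA_827.W b f g p q := by
  simp only [LgA_827.W, h.hk q hq, h.hk p hp]

lemma W_self (b : Bs) (f g : BB 3) (p : Fin 3) : W b f g p p = 0 := by
  rw [W]; ring

lemma W_swap (b : Bs) (f g : BB 3) (p q : Fin 3) : W b f g p q = - W b f g q p := by
  rw [W, W]; ring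

lemma Op.IW_le {i j : Fin 3} {c : ℂ} {b b' : Bs} (h : Op i j c b b') (f g : BB 3) :
    IW b' f g ≤ IW b f g := by
  rw [IW, Ideal.span_le]
  rintro _ (rfl | ⟨⟨p, q⟩, rfl⟩)
  · exact f_mem_IW _ _ _
  change LgA_827.W b' f g p q ∈ _
  by_cases hp : p = i
  · subst hp
    by_cases hq : q = p
    · subst hq
      rw [W_self]; exact Ideal.zero_mem _
    · rw [h.W f g q hq]
      exact Ideal.add_mem _ (W_mem_IW _ _ _ _ _) (smul_mem' _ (W_mem_IW _ _ _ _ _))
  · by_cases hq : q = i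
    · subst hq
      rw [h.W' f g p hp]
      exact Ideal.add_mem _ (W_mem_IW _ _ _ _ _) (smul_mem' _ (W_mem_IW _ _ _ _ _))
    · rw [h.W'' f g p q hp hq]; exact W_mem_IW _ _ _ _ _

lemma Op.IW_eq {i j : Fin 3} (hij : i ≠ j) {c : ℂ} {b b' : Bs} (h : Op i j c b b') (f g : BB 3) :
    IW b' f g = IW b f g := le_antisymm (h.IW_le f g) ((h.symm hij).IW_le f g)

lemma Op.Jd_eq {i j : Fin 3} (hij : i ≠ j) {c : ℂ} {b b' : Bs} (h : Op i j c b b')
    (f g k : BB 3) : Jd b' f g k = Jd b f g k := by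
  have h1 := h.hi
  have h2 := h.hk
  fin_cases i
  · have e1 := h2 1 (by decide)
    have e2 := h2 2 (by decide)
    simp only [Fin.zero_eta] at h1
    simp only [Jd, LgA_827.W, e1, e2, h1, Algebra.smul_def]
    fin_cases j
    · exact absurd rfl hij
    · simp only [Fin.mk_one]; ring
    · simp only [Fin.reduceFinMk]; ring
  · have e1 := h2 0 (by decide)
    have e2 := h2 2 (by decide)
    simp only [Fin.mk_one] at h1
    simp only [Jd, LgA_827.W, e1, e2, h1, Algebra.smul_def]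
    fin_cases j
    · simp only [Fin.zero_eta]; ring
    · exact absurd rfl hij
    · simp only [Fin.reduceFinMk]; ring
  · have e1 := h2 0 (by decide)
    have e2 := h2 1 (by decide)
    simp only [Fin.reduceFinMk] at h1
    simp only [Jd, LgA_827.W, e1, e2, h1, Algebra.smul_def]
    fin_cases j
    · simp only [Fin.zero_eta]; ring
    · simp only [Fin.mk_one]; ring
    · exact absurd rfl hij

/-- the invariants of a basis -/
structure Inv (f g h : BB 3) (b b' : Bs) : Prop where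
  IP : IP b' f = IP b f
  IW : IW b' f g = IW b f g
  Jd : Jd b' f g h = Jd b f g h

lemma Inv.refl (f g h : BB 3) (b : Bs) : Inv f g h b b := ⟨rfl, rfl, rfl⟩

lemma Inv.op {f g h : BB 3} {b b' b'' : Bs} (H : Inv f g h b b') {i j : Fin 3} (hij : i ≠ j)
    {c : ℂ} (o : Op i j c b' b'') : Inv f g h b b'' :=
  ⟨(o.IP_eq hij f).trans H.IP, (o.IW_eq hij f g).trans H.IW, (o.Jd_eq hij f g h).trans H.Jd⟩

end Crest.Agent.R257.LgA_827
end
end

-- ▼ part R257/LgE_827
section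

/-!
Row 257 (S0395), leaf B-NUM (helper827), part E: a basis in general position.
-/

set_option autoImplicit false

open Set Filter Topology
open Crest.Agent.R275.Loc2879
open Crest.Agent.R257.UI939 (BB xB)
open Crest.Agent.R257.Num488

noncomputable section

namespace Crest.Agent.R257.LgA_827

local notation "𝔪" => IsLocalRing.maximalIdeal (BB 3)

lemma T_congr {a b c a' b' c' : BB 3} (h : Ideal.span {a, b, c} = Ideal.span {a', b', c'}) :
    T a b c = T a' b' c' := by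
  unfold T; rw [h]


lemma T_swap' (a b c : BB 3) : T a b c = T a c b := by
  refine T_congr (congrArg _ ?_)
  ext x; simp only [Set.mem_insert_iff, Set.mem_singleton_iff]; tauto

lemma T_add (a b c : BB 3) (r : ℂ) : T a b (c + r • b) = T a b c := by
  refine T_congr (le_antisymm ?_ ?_)
  · rw [Ideal.span_le]
    rintro _ (rfl | rfl | rfl)
    · exact Ideal.subset_span (by simp)
    · exact Ideal.subset_span (by simp)
    · exact Ideal.add_mem _ (Ideal.subset_span (by simp)) (smul_mem' _ (Ideal.subset_span (by simp)))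
  · rw [Ideal.span_le]
    rintro _ (rfl | rfl | rfl)
    · exact Ideal.subset_span (by simp)
    · exact Ideal.subset_span (by simp)
    · rename_i y
      have h1 : y = (y + r • b) - r • b := by ring
      rw [SetLike.mem_coe, h1]
      exact Ideal.sub_mem _ (Ideal.subset_span (by simp)) (smul_mem' _ (Ideal.subset_span (by simp)))

lemma sub2' {U : Ideal (BB 3)} {y z w : BB 3} (h : y ∉ U ∨ z ∉ U ∨ w ∉ U) :
    {c : ℂ | y + (-c) • z ∈ U ∧ w ∈ U}.Subsingleton :=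
  (sub2 h).preimage neg_injective

lemma sub1' {U : Ideal (BB 3)} {y z : BB 3} (h : y ∉ U ∨ z ∉ U) :
    {c : ℂ | y + (-c) • z ∈ U}.Subsingleton :=
  (sub1 h).preimage neg_injective

/-- a branch does not kill all the coordinates -/
lemma xs_ne (b : Bs) {φ : BB 3 →+* A1} {d : BB 3} (hd : ¬ IsUnit d) (hφ : φ d ≠ 0) :
    ¬ (φ (X b 0) = 0 ∧ φ (X b 1) = 0 ∧ φ (X b 2) = 0) := by
  rintro ⟨h0, h1, h2⟩
  have hl : ∀ l : (Fin 3 → ℂ) →L[ℂ] ℂ, φ (lin l) = 0 := by
    intro l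
    rw [lin_basis b l, map_sum, Fin.sum_univ_three]
    simp only [map_mul]
    change _ * φ (X b 0) + _ * φ (X b 1) + _ * φ (X b 2) = 0
    rw [h0, h1, h2]; ring
  have h3 := mem_m.2 hd
  rw [maxId_eq] at h3
  obtain ⟨r, s, t, e⟩ := mem3.1 h3
  have hx : ∀ i : Fin 3, φ (xB i) = 0 := fun i =>
    hl (ContinuousLinearMap.proj (R := ℂ) (φ := fun _ : Fin 3 => ℂ) i)
  apply hφ
  rw [e]
  simp [hx]

/-- a branch does not kill all the partial derivatives -/
lemma ds_ne (b : Bs) {f : BB 3} (mu : dl (BB 3 ⧸ IP b f) ≠ ⊤) {φ : BB 3 →+* A1} {d : BB 3}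
    (hd : ¬ IsUnit d) (hφ : φ d ≠ 0) :
    ¬ (φ (D b 0 f) = 0 ∧ φ (D b 1 f) = 0 ∧ φ (D b 2 f) = 0) := by
  rintro ⟨h0, h1, h2⟩
  apply hφ
  refine kill mu φ (fun a ha => ?_) hd
  have h3 : IP b f ≤ RingHom.ker φ := by
    rw [IP, Ideal.span_le]
    rintro _ ⟨i, rfl⟩
    rw [SetLike.mem_coe, RingHom.mem_ker]
    fin_cases i
    · exact h0
    · exact h1
    · exact h2
  exact h3 ha

lemma IP_eq (b : Bs) (f : BB 3) : IP b f = Ideal.span {D b 0 f, D b 1 f, D b 2 f} := by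
  rw [IP]
  congr 1
  ext y
  constructor
  · rintro ⟨i, rfl⟩
    fin_cases i <;> simp
  · rintro (rfl | rfl | rfl)
    · exact ⟨0, rfl⟩
    · exact ⟨1, rfl⟩
    · exact ⟨2, rfl⟩

/-- **a basis in general position** -/
theorem generic {f g h : BB 3} (b0 : Bs) (gn : ¬ IsUnit g) (hn : ¬ IsUnit h)
    (mu : dl (BB 3 ⧸ IP b0 f) ≠ ⊤) (fgh : T f g h ≠ ⊤) (fgJ : T f g (Jd b0 f g h) ≠ ⊤) :
    ∃ b, Inv f g h b0 b ∧ T f g (X b 2) ≠ ⊤ ∧ T f g (W b f g 0 1) ≠ ⊤ ∧
      T f (D b 0 f) (D b 1 f) ≠ ⊤ ∧ T f (W b f g 0 1) (D b 1 f) ≠ ⊤ ∧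
      T f (X b 2) (X b 1) ≠ ⊤ := by
  have hf0 : f ≠ 0 := by
    rintro rfl
    obtain ⟨k, hk⟩ := pow_mem fgh
    refine Cnm1_889.two_not_enough3 gn hn (k := k) fun y hy => ?_
    obtain ⟨r, s, t, e⟩ := mem3.1 (hk y hy)
    exact ⟨s, t, by rw [e]; ring⟩
  obtain ⟨l1, hl1, key1⟩ := br_list fgh hn
  obtain ⟨l2, hl2, key2⟩ := prime_list hf0
  have I0 := Inv.refl f g h b0
  have hφh : ∀ φ ∈ l1, φ h ≠ 0 := (key1 h).1 fgh
  -- the branches of `(f, g)` do not kill all the minors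
  have hW0 : ∀ φ ∈ l1, ¬ (φ (W b0 f g 0 2) = 0 ∧ φ (W b0 f g 1 2) = 0 ∧ φ (W b0 f g 0 1) = 0) := by
    rintro φ hφ ⟨h0, h1, h2⟩
    refine hφh φ hφ (kill3 fgJ φ (hl1 φ hφ).fa (hl1 φ hφ).fb ?_ hn)
    rw [Jd]; simp [h0, h1, h2]
  have mem_ker : ∀ (φ : BB 3 →+* A1) (y : BB 3), y ∈ RingHom.ker φ ↔ φ y = 0 := fun φ y =>
    RingHom.mem_ker
  -- step 1
  obtain ⟨b1, I1, F1, F2, F3⟩ : ∃ b1, Inv f g h b0 b1 ∧
      (∀ φ ∈ l1, ¬ (φ (X b1 1) = 0 ∧ φ (X b1 2) = 0)) ∧
      (∀ φ ∈ l1, ¬ (φ (W b1 f g 0 2) = 0 ∧ φ (W b1 f g 0 1) = 0)) ∧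
      (∀ π ∈ l2, ¬ (π ∣ D b1 0 f ∧ π ∣ D b1 2 f)) := by
    have B1 := bad_fin l1 (fun φ c => X b0 1 + (-c) • X b0 0 ∈ RingHom.ker φ ∧
      X b0 2 ∈ RingHom.ker φ) (fun φ hφ => sub2' (by
        have := xs_ne b0 hn (hφh φ hφ)
        simp only [mem_ker]; tauto))
    have B2 := bad_fin l1 (fun φ c => W b0 f g 0 2 + c • W b0 f g 1 2 ∈ RingHom.ker φ ∧
      W b0 f g 0 1 ∈ RingHom.ker φ) (fun φ hφ => sub2 (by
        have := hW0 φ hφ
        simp only [mem_ker]; tauto))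
    have B3 := bad_fin l2 (fun π c => D b0 0 f + c • D b0 1 f ∈ Ideal.span {π} ∧
      D b0 2 f ∈ Ideal.span {π}) (fun π hπ => sub2 (by
        have := not_all_dvd (hl2 π hπ).1 (by rw [T, ← IP_eq]; exact mu)
        simp only [Ideal.mem_span_singleton]; tauto))
    obtain ⟨c, hc⟩ := exists_c (B1.union (B2.union B3))
    simp only [Set.mem_union, Set.mem_ofPred_eq, not_or, not_exists, not_and] at hc
    obtain ⟨h1, h2, h3⟩ := hc
    obtain ⟨b1, e1, e2, e3, e4⟩ := exists_op' b0 (i := 0) (j := 1) (by decide) c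
    have o : Op 0 1 c b0 b1 := ⟨e1, e2⟩
    refine ⟨b1, I0.op (by decide) o, ?_, ?_, ?_⟩
    · rintro φ hφ ⟨h4, h5⟩
      rw [e3] at h4
      rw [e4 2 (by decide)] at h5
      exact h1 φ hφ ((mem_ker _ _).2 h4) ((mem_ker _ _).2 h5)
    · rintro φ hφ ⟨h4, h5⟩
      rw [o.W f g 2 (by decide)] at h4
      rw [o.W f g 1 (by decide), W_self, smul_zero, add_zero] at h5
      exact h2 φ hφ ((mem_ker _ _).2 h4) ((mem_ker _ _).2 h5)
    · rintro π hπ ⟨h4, h5⟩
      rw [e1] at h4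
      rw [e2 2 (by decide)] at h5
      exact h3 π hπ (Ideal.mem_span_singleton.2 h4) (Ideal.mem_span_singleton.2 h5)
  -- step 2
  obtain ⟨b2, I2, G1, G2, G3⟩ : ∃ b2, Inv f g h b0 b2 ∧
      (∀ φ ∈ l1, ¬ (φ (X b2 2) = 0 ∧ φ (X b2 1) = 0)) ∧
      (∀ φ ∈ l1, ¬ (φ (W b2 f g 0 1) = 0 ∧ φ (W b2 f g 0 2) = 0)) ∧
      (∀ π ∈ l2, ¬ π ∣ D b2 0 f) := by
    have B1 := bad_fin l1 (fun φ c => X b1 2 + (-c) • X b1 0 ∈ RingHom.ker φ ∧
      X b1 1 ∈ RingHom.ker φ) (fun φ hφ => sub2' (by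
        have := F1 φ hφ
        simp only [mem_ker]; tauto))
    have B2 := bad_fin l1 (fun φ c => W b1 f g 0 1 + c • W b1 f g 2 1 ∈ RingHom.ker φ ∧
      W b1 f g 0 2 ∈ RingHom.ker φ) (fun φ hφ => sub2 (by
        have := F2 φ hφ
        simp only [mem_ker]; tauto))
    have B3 := bad_fin l2 (fun π c => D b1 0 f + c • D b1 2 f ∈ Ideal.span {π})
      (fun π hπ => sub1 (by
        have := F3 π hπ
        simp only [Ideal.mem_span_singleton]; tauto))
    obtain ⟨c, hc⟩ := exists_c (B1.union (B2.union B3))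
    simp only [Set.mem_union, Set.mem_ofPred_eq, not_or, not_exists, not_and] at hc
    obtain ⟨h1, h2, h3⟩ := hc
    obtain ⟨b2, e1, e2, e3, e4⟩ := exists_op' b1 (i := 0) (j := 2) (by decide) c
    have o : Op 0 2 c b1 b2 := ⟨e1, e2⟩
    refine ⟨b2, I1.op (by decide) o, ?_, ?_, ?_⟩
    · rintro φ hφ ⟨h4, h5⟩
      rw [e3] at h4
      rw [e4 1 (by decide)] at h5
      exact h1 φ hφ ((mem_ker _ _).2 h4) ((mem_ker _ _).2 h5)
    · rintro φ hφ ⟨h4, h5⟩
      rw [o.W f g 1 (by decide)] at h4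
      rw [o.W f g 2 (by decide), W_self, smul_zero, add_zero] at h5
      exact h2 φ hφ ((mem_ker _ _).2 h4) ((mem_ker _ _).2 h5)
    · rintro π hπ h4
      rw [e1] at h4
      exact h3 π hπ (Ideal.mem_span_singleton.2 h4)
  obtain ⟨d, hdn, hd⟩ := exists_third (key2 _ G3)
  obtain ⟨l3, hl3, key3⟩ := br_list hd hdn
  have hφd : ∀ φ ∈ l3, φ d ≠ 0 := (key3 d).1 hd
  have mu2 : dl (BB 3 ⧸ IP b2 f) ≠ ⊤ := by rw [I2.IP]; exact mu
  -- step 3
  obtain ⟨b3, I3, A3, B3, H3⟩ : ∃ b3, Inv f g h b0 b3 ∧ T f g (X b3 2) ≠ ⊤ ∧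
      T f g (W b3 f g 0 1) ≠ ⊤ ∧ T f (D b3 0 f) (D b3 1 f) ≠ ⊤ := by
    have B1 := bad_fin l1 (fun φ c => X b2 2 + (-c) • X b2 1 ∈ RingHom.ker φ)
      (fun φ hφ => sub1' (by
        have := G1 φ hφ
        simp only [mem_ker]; tauto))
    have B2 := bad_fin l1 (fun φ c => W b2 f g 0 1 + c • W b2 f g 0 2 ∈ RingHom.ker φ)
      (fun φ hφ => sub1 (by
        have := G2 φ hφ
        simp only [mem_ker]; tauto))
    have B3 := bad_fin l3 (fun φ c => D b2 1 f + c • D b2 2 f ∈ RingHom.ker φ)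
      (fun φ hφ => sub1 (by
        have h1 := ds_ne b2 mu2 hdn (hφd φ hφ)
        have h2 := (hl3 φ hφ).fb
        simp only [mem_ker]; tauto))
    obtain ⟨c, hc⟩ := exists_c (B1.union (B2.union B3))
    simp only [Set.mem_union, Set.mem_ofPred_eq, not_or, not_exists, not_and] at hc
    obtain ⟨h1, h2, h3⟩ := hc
    obtain ⟨b3, e1, e2, e3, e4⟩ := exists_op' b2 (i := 1) (j := 2) (by decide) c
    have o : Op 1 2 c b2 b3 := ⟨e1, e2⟩
    refine ⟨b3, I2.op (by decide) o, ?_, ?_, ?_⟩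
    · rw [e3]
      exact (key1 _).2 fun φ hφ h4 => h1 φ hφ ((mem_ker _ _).2 h4)
    · rw [o.W' f g 0 (by decide)]
      exact (key1 _).2 fun φ hφ h4 => h2 φ hφ ((mem_ker _ _).2 h4)
    · rw [e1, e2 0 (by decide)]
      exact (key3 _).2 fun φ hφ h4 => h3 φ hφ ((mem_ker _ _).2 h4)
  obtain ⟨l4, hl4, key4⟩ := br_list (a := f) (b := W b3 f g 0 1) (d := g)
    (by have := B3; rw [T_swap'] at this; exact this) gn
  obtain ⟨l5, hl5, key5⟩ := br_list (a := f) (b := X b3 2) (d := g)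
    (by have := A3; rw [T_swap'] at this; exact this) gn
  have hg4 : ∀ φ ∈ l4, φ g ≠ 0 := (key4 g).1 (by have := B3; rw [T_swap'] at this; exact this)
  have hg5 : ∀ φ ∈ l5, φ g ≠ 0 := (key5 g).1 (by have := A3; rw [T_swap'] at this; exact this)
  -- step 4
  obtain ⟨b4, I4, X4, W4, H4, C4⟩ : ∃ b4, Inv f g h b0 b4 ∧ X b4 2 = X b3 2 ∧
      W b4 f g 0 1 = W b3 f g 0 1 ∧ T f (D b4 0 f) (D b4 1 f) ≠ ⊤ ∧
      T f (W b3 f g 0 1) (D b4 1 f) ≠ ⊤ := by
    have B1 := bad_fin l4 (fun φ c => D b3 1 f + c • D b3 0 f ∈ RingHom.ker φ)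
      (fun φ hφ => sub1 (by
        have h1 : ¬ (φ (D b3 0 f) = 0 ∧ φ (D b3 1 f) = 0) := fun h =>
          hg4 φ hφ (kill3 H3 φ (hl4 φ hφ).fa h.1 h.2 gn)
        simp only [mem_ker]; tauto))
    obtain ⟨c, hc⟩ := exists_c B1
    simp only [Set.mem_ofPred_eq, not_exists, not_and] at hc
    obtain ⟨b4, e1, e2, e3, e4⟩ := exists_op' b3 (i := 1) (j := 0) (by decide) c
    have o : Op 1 0 c b3 b4 := ⟨e1, e2⟩
    refine ⟨b4, I3.op (by decide) o, e4 2 (by decide), ?_, ?_, ?_⟩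
    · rw [o.W' f g 0 (by decide), W_self, smul_zero, add_zero]
    · rw [e1, e2 0 (by decide), T_add]
      exact H3
    · rw [e1]
      exact (key4 _).2 fun φ hφ h4 => hc φ hφ ((mem_ker _ _).2 h4)
  -- step 5
  have B1 := bad_fin l5 (fun φ c => X b4 1 + (-c) • X b4 0 ∈ RingHom.ker φ)
    (fun φ hφ => sub1' (by
      have h1 := xs_ne b4 gn (hg5 φ hφ)
      have h2 := (hl5 φ hφ).fb
      rw [← X4] at h2
      simp only [mem_ker]; tauto))
  obtain ⟨c, hc⟩ := exists_c B1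
  simp only [Set.mem_ofPred_eq, not_exists, not_and] at hc
  obtain ⟨b5, e1, e2, e3, e4⟩ := exists_op' b4 (i := 0) (j := 1) (by decide) c
  have o : Op 0 1 c b4 b5 := ⟨e1, e2⟩
  have hX : X b5 2 = X b3 2 := (e4 2 (by decide)).trans X4
  have hW : W b5 f g 0 1 = W b3 f g 0 1 := by
    rw [o.W f g 1 (by decide), W_self, smul_zero, add_zero, W4]
  have hD : D b5 1 f = D b4 1 f := e2 1 (by decide) f
  refine ⟨b5, I4.op (by decide) o, ?_, ?_, ?_, ?_, ?_⟩
  · rw [hX]; exact A3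
  · rw [hW]; exact B3
  · rw [hD, e1, T_swap', T_add, T_swap']; exact H4
  · rw [hW, hD]; exact C4
  · rw [hX, e3]
    exact (key5 _).2 fun φ hφ h4 => hc φ hφ ((mem_ker _ _).2 h4)

end Crest.Agent.R257.LgA_827
end
end

-- ▼ part R257/NumL_488
section

/-!
Row 257 (S0395), leaf B-NUM, part L (helper488): the six relations between the intersection
numbers of the polar curves, and the derived finiteness facts.
-/

set_option autoImplicit false
set_option linter.unusedSectionVars false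

open Set Filter Topology Metric
open Crest.Agent.R275
open Crest.Agent.R275.Loc2879 hiding AA
open Crest.Agent.R257.UI939

noncomputable section

namespace Crest.Agent.R257.Num488

universe u v w

/-- intersection number -/
def I3 (a b c : BB 3) : ℕ∞ := dl (BB 3 ⧸ Ideal.span {a, b, c})

lemma I3_def (a b c : BB 3) : I3 a b c = dl (BB 3 ⧸ Ideal.span {a, b, c}) := rfl

lemma I3_12 (a b c : BB 3) : I3 a b c = I3 b a c := by
  unfold I3; rw [Set.insert_comm]

lemma I3_23 (a b c : BB 3) : I3 a b c = I3 a c b := by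
  unfold I3; rw [Set.pair_comm]


lemma I3_one (a b : BB 3) : I3 a b 1 = 0 := by
  unfold I3
  have h1 : Ideal.span {a, b, (1 : BB 3)} = ⊤ := by
    rw [Ideal.eq_top_iff_one]; exact Ideal.subset_span (by simp)
  rw [h1]
  exact Module.length_eq_zero

lemma I3_congr {a b c c' : BB 3} (h : c - c' ∈ Ideal.span {a, b}) : I3 a b c = I3 a b c' := by
  unfold I3
  have h1 : Ideal.span {a, b} ⊔ Ideal.span {c} = Ideal.span {a, b} ⊔ Ideal.span {c'} := by
    refine le_antisymm (sup_le le_sup_left ?_) (sup_le le_sup_left ?_)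
    · rw [Ideal.span_singleton_le_iff_mem]
      have : c = (c - c') + c' := by ring
      rw [this]
      exact Submodule.add_mem_sup h (Ideal.mem_span_singleton_self _)
    · rw [Ideal.span_singleton_le_iff_mem]
      have : c' = -(c - c') + c := by ring
      rw [this]
      exact Submodule.add_mem_sup ((Ideal.neg_mem_iff _).2 h) (Ideal.mem_span_singleton_self _)
  rw [span3, span3, h1]

/-- the only constant branch is the origin -/
lemma br_zero {a b c : BB 3} (h : I3 a b c ≠ ⊤) {φ : BB 3 →+* A1} (ha : φ a = 0) (hb : φ b = 0)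
    (hc : φ c = 0) {y : BB 3} (hy : ¬ IsUnit y) : φ y = 0 := by
  have h1 : Ideal.span {a, b, c} ≤ RingHom.ker φ := by
    rw [Ideal.span_le]
    intro x hx
    simp only [mem_insert_iff, mem_singleton_iff] at hx
    rcases hx with rfl | rfl | rfl
    · exact ha
    · exact hb
    · exact hc
  have h2 : IsLocalRing.maximalIdeal (BB 3) ≤ RingHom.ker φ := by
    have := primes_of_fin h (RingHom.ker_isPrime φ) h1
    rw [this]
  exact h2 ((IsLocalRing.mem_maximalIdeal _).2 hy)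

lemma eq_zero_of_DD {x : A1} (hx : ¬ IsUnit x) (h : DD x = 0) : x = 0 := by
  rw [← vv_eq_top, ← vv_DD hx, h, vv_eq_top.2 rfl]
  rfl

section Six

variable (b : Module.Basis (Fin 3) ℂ (Fin 3 → ℂ))

/-- the coordinates -/
def xx (i : Fin 3) : BB 3 := lin (LinearMap.toContinuousLinearMap (b.coord i))

lemma xx_nonunit (i : Fin 3) : ¬ IsUnit (xx b i) := lin_mem _

/-- the partial derivatives -/
def pd (f : BB 3) (i : Fin 3) : BB 3 := dd (b i) f

/-- minors -/
def mn (f g : BB 3) (i j : Fin 3) : BB 3 := pd b f i * pd b g j - pd b f j * pd b g i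

/-- Jacobian determinant -/
def dt (f g h : BB 3) : BB 3 :=
  pd b h 0 * mn b f g 1 2 + pd b h 1 * mn b f g 2 0 + pd b h 2 * mn b f g 0 1

lemma chain3 {φ : BB 3 →+* A1} (hφ : ∀ c : ℂ, φ (algebraMap ℂ (BB 3) c) = algebraMap ℂ A1 c)
    (f : BB 3) : DD (φ f) = φ (pd b f 0) * DD (φ (xx b 0)) + φ (pd b f 1) * DD (φ (xx b 1)) +
      φ (pd b f 2) * DD (φ (xx b 2)) := by
  rw [chain hφ f b, Fin.sum_univ_three]
  rfl

variable {f g h : BB 3}

lemma rel_fg (hh : ¬ IsUnit h)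
    (A : I3 f g (xx b 2) ≠ ⊤) (B : I3 f g (mn b f g 0 1) ≠ ⊤) (I0 : I3 f g h ≠ ⊤)
    (J0 : I3 f g (dt b f g h) ≠ ⊤) :
    I3 f g (mn b f g 0 1) + I3 f g h = I3 f g (dt b f g h) + I3 f g (xx b 2) := by
  refine CL hh (xx_nonunit b 2) B I0 J0 A fun φ hφ => ?_
  have e1 := chain3 b hφ.cst f
  have e2 := chain3 b hφ.cst g
  have e3 := chain3 b hφ.cst h
  rw [hφ.fa, map_zero] at e1
  rw [hφ.fb, map_zero] at e2
  rw [e3]
  simp only [dt, mn, map_add, map_mul, map_sub]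
  linear_combination
    (φ (pd b h 1) * φ (pd b g 0) - φ (pd b h 0) * φ (pd b g 1)) * e1 +
    (φ (pd b h 0) * φ (pd b f 1) - φ (pd b h 1) * φ (pd b f 0)) * e2

lemma eq_fM {φ : BB 3 →+* A1} (hφ : Br f (mn b f g 0 1) φ) :
    φ (pd b f 1) * DD (φ g) = φ (mn b f g 1 2) * DD (φ (xx b 2)) := by
  have e1 := chain3 b hφ.cst f
  have e2 := chain3 b hφ.cst g
  have e3 := hφ.fb
  rw [hφ.fa, map_zero] at e1
  rw [e2]
  simp only [mn, map_mul, map_sub] at e3 ⊢
  linear_combination (-φ (pd b g 1)) * e1 - DD (φ (xx b 0)) * e3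

lemma eq_fx {φ : BB 3 →+* A1} (hφ : Br f (xx b 2) φ) :
    φ (pd b f 0) * DD (φ g) = φ (mn b f g 0 1) * DD (φ (xx b 1)) := by
  have e1 := chain3 b hφ.cst f
  have e2 := chain3 b hφ.cst g
  rw [hφ.fa, hφ.fb, map_zero] at e1
  rw [e2, hφ.fb, map_zero]
  simp only [mn, map_mul, map_sub]
  linear_combination (-φ (pd b g 0)) * e1

/-- the finiteness facts needed in general position -/
structure Gen (b : Module.Basis (Fin 3) ℂ (Fin 3 → ℂ)) (f g : BB 3) : Prop where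
  A : I3 f g (xx b 2) ≠ ⊤
  B : I3 f g (mn b f g 0 1) ≠ ⊤
  H : I3 f (pd b f 0) (pd b f 1) ≠ ⊤
  C : I3 f (mn b f g 0 1) (pd b f 1) ≠ ⊤
  G : I3 f (xx b 2) (xx b 1) ≠ ⊤

variable {b}

lemma mul_eq_zero' {x y : A1} (h : x * y = 0) : x = 0 ∨ y = 0 := mul_eq_zero.1 h

lemma Gen.F1 (gen : Gen b f g) : I3 f (xx b 2) (pd b f 0) ≠ ⊤ := by
  obtain ⟨l, hl, hl2⟩ := br_list gen.G (xx_nonunit b 1)
  refine (hl2 _).2 fun φ hφ h0 => ?_
  have br := hl φ hφ
  have hx1 := (hl2 (xx b 1)).1 gen.G φ hφ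
  have e1 := chain3 b br.cst f
  rw [br.fa, br.fb, h0, map_zero, zero_mul, mul_zero, add_zero, zero_add] at e1
  rcases mul_eq_zero' e1.symm with h1 | h1
  · exact hx1 (br_zero gen.H br.fa h0 h1 (xx_nonunit b 1))
  · exact hx1 (eq_zero_of_DD (nonunit_map br.cst (xx_nonunit b 1)) h1)

lemma Gen.F2 (gen : Gen b f g) (hf : ¬ IsUnit f) : I3 (xx b 2) (pd b f 0) (xx b 1) ≠ ⊤ := by
  have h1 : I3 (xx b 2) (xx b 1) f ≠ ⊤ := by
    rw [I3_23, I3_12]; exact gen.G
  obtain ⟨l, hl, hl2⟩ := br_list h1 hf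
  rw [I3_23]
  refine (hl2 _).2 fun φ hφ h0 => ?_
  have br := hl φ hφ
  have hx1 := (hl2 f).1 h1 φ hφ
  have e1 := chain3 b br.cst f
  rw [br.fa, br.fb, h0, map_zero, zero_mul, mul_zero, mul_zero, add_zero, zero_add] at e1
  exact hx1 (eq_zero_of_DD (nonunit_map br.cst hf) e1)

lemma Gen.F3 (gen : Gen b f g) (hf : ¬ IsUnit f) : I3 (pd b f 0) (pd b f 1) (xx b 2) ≠ ⊤ := by
  have h2 := gen.F2 hf
  obtain ⟨l, hl, hl2⟩ := br_list h2 (xx_nonunit b 1)
  have h3 : I3 (xx b 2) (pd b f 0) (pd b f 1) ≠ ⊤ := by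
    refine (hl2 _).2 fun φ hφ h0 => ?_
    have br := hl φ hφ
    have hx1 := (hl2 (xx b 1)).1 h2 φ hφ
    have e1 := chain3 b br.cst f
    rw [br.fa, br.fb, h0, map_zero, zero_mul, zero_mul, mul_zero, add_zero, zero_add] at e1
    have h4 := eq_zero_of_DD (nonunit_map br.cst hf) e1
    exact hx1 (br_zero gen.H h4 br.fb h0 (xx_nonunit b 1))
  rw [I3_23, I3_12]; exact h3

lemma Gen.F5 (gen : Gen b f g) (hg : ¬ IsUnit g) : I3 f (mn b f g 0 1) (xx b 2) ≠ ⊤ := by
  obtain ⟨l, hl, hl2⟩ := br_list gen.G (xx_nonunit b 1)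
  rw [I3_23]
  refine (hl2 _).2 fun φ hφ h0 => ?_
  have br := hl φ hφ
  have e1 := eq_fx (g := g) b br
  rw [h0, zero_mul] at e1
  rcases mul_eq_zero' e1 with h1 | h1
  · exact (hl2 (pd b f 0)).1 gen.F1 φ hφ h1
  · have h2 : I3 f (xx b 2) g ≠ ⊤ := by rw [I3_23]; exact gen.A
    exact (hl2 g).1 h2 φ hφ (eq_zero_of_DD (nonunit_map br.cst hg) h1)

lemma Gen.F6 (gen : Gen b f g) (hg : ¬ IsUnit g) : I3 f (mn b f g 0 1) (mn b f g 1 2) ≠ ⊤ := by
  have h2 : I3 f (mn b f g 0 1) g ≠ ⊤ := by rw [I3_23]; exact gen.B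
  obtain ⟨l, hl, hl2⟩ := br_list h2 hg
  refine (hl2 _).2 fun φ hφ h0 => ?_
  have br := hl φ hφ
  have e1 := eq_fM (g := g) b br
  rw [h0, zero_mul] at e1
  rcases mul_eq_zero' e1 with h1 | h1
  · exact (hl2 (pd b f 1)).1 gen.C φ hφ h1
  · exact (hl2 g).1 h2 φ hφ (eq_zero_of_DD (nonunit_map br.cst hg) h1)

lemma rel_add (f g : BB 3) : I3 f (mn b f g 0 1) (pd b f 1) =
    I3 f (pd b f 0) (pd b f 1) + I3 f (pd b f 1) (pd b g 1) := by
  rw [I3_23 f (mn b f g 0 1), I3_23 f (pd b f 0)]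
  have h1 : I3 f (pd b f 1) (mn b f g 0 1) = I3 f (pd b f 1) (pd b f 0 * pd b g 1) := by
    apply I3_congr
    have : mn b f g 0 1 - pd b f 0 * pd b g 1 = (-pd b g 0) * pd b f 1 := by
      unfold mn; ring
    rw [this]
    exact Ideal.mul_mem_left _ _ (Ideal.subset_span (by simp))
  rw [h1]
  exact I_mul _ _ _ _

lemma Gen.F7 (gen : Gen b f g) : I3 f (pd b f 1) (pd b g 1) ≠ ⊤ := by
  have h := gen.C
  rw [rel_add] at h
  exact fun e => h (by rw [e, add_top])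

lemma dl_max {n : ℕ} : dl (BB n ⧸ IsLocalRing.maximalIdeal (BB n)) = 1 := by
  let ev : BB n →ₐ[ℂ] ℂ := { evp (0 : Fin n → ℂ) with commutes' := fun c => rfl }
  have hs : Function.Surjective ev := fun c => ⟨algebraMap ℂ (BB n) c, rfl⟩
  have hk : RingHom.ker ev = IsLocalRing.maximalIdeal (BB n) := by
    ext x
    rw [RingHom.mem_ker, IsLocalRing.mem_maximalIdeal, mem_nonunits_iff, Loc2879.isUnit_iff, not_not]
    rfl
  have e1 : (BB n ⧸ RingHom.ker ev) ≃ₐ[ℂ] ℂ := Ideal.quotientKerAlgEquivOfSurjective hs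
  have e2 := e1.toLinearEquiv.length_eq
  rw [hk] at e2
  rw [dl, e2, Module.length_eq_one_iff]
  infer_instance

lemma I3_coord (b : Module.Basis (Fin 3) ℂ (Fin 3 → ℂ)) : I3 (xx b 2) (xx b 1) (xx b 0) = 1 := by
  rw [← dl_max (n := 3)]
  unfold I3
  have h1 : Ideal.span {xx b 2, xx b 1, xx b 0} = IsLocalRing.maximalIdeal (BB 3) := by
    refine le_antisymm ?_ ?_
    · rw [Ideal.span_le]
      intro x hx
      simp only [mem_insert_iff, mem_singleton_iff] at hx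
      rcases hx with rfl | rfl | rfl <;>
        exact (IsLocalRing.mem_maximalIdeal _).2 (xx_nonunit b _)
    · rw [max_eq, Ideal.span_le]
      rintro _ ⟨i, rfl⟩
      have e := lin_basis b (ContinuousLinearMap.proj (R := ℂ) (φ := fun _ : Fin 3 => ℂ) i)
      have e' : xB i = lin (ContinuousLinearMap.proj (R := ℂ) (φ := fun _ : Fin 3 => ℂ) i) := rfl
      rw [e', e]
      refine Ideal.sum_mem _ fun j _ => Ideal.mul_mem_left _ _ (Ideal.subset_span ?_)
      fin_cases j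
      · right; right; rfl
      · right; left; rfl
      · left; rfl
  rw [h1]

theorem Gen.six (gen : Gen b f g) (hf : ¬ IsUnit f) (hg : ¬ IsUnit g) (hh : ¬ IsUnit h)
    (mu : I3 (pd b f 0) (pd b f 1) (pd b f 2) ≠ ⊤) (I0 : I3 f g h ≠ ⊤)
    (J0 : I3 f g (dt b f g h) ≠ ⊤) :
    I3 f (mn b f g 0 1) (mn b f g 1 2) ≠ ⊤ ∧ I3 f (pd b f 1) (pd b g 1) ≠ ⊤ ∧
    I3 f (mn b f g 0 1) (mn b f g 1 2) + I3 f g h =
      I3 (pd b f 0) (pd b f 1) (pd b f 2) + I3 f g (dt b f g h) + 1 +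
        I3 f (pd b f 1) (pd b g 1) := by
  have F1 := gen.F1
  have F2 := gen.F2 hf
  have F3 := gen.F3 hf
  have F5 := gen.F5 hg
  have F6 := gen.F6 hg
  have F7 := gen.F7
  have A := gen.A
  have B := gen.B
  have H := gen.H
  have C := gen.C
  have G := gen.G
  refine ⟨F6, F7, ?_⟩
  have R1 := rel_fg b hh A B I0 J0
  have Bg : I3 f (mn b f g 0 1) g ≠ ⊤ := by rw [I3_23]; exact B
  have R2 : I3 f (mn b f g 0 1) (pd b f 1) + I3 f (mn b f g 0 1) g =
      I3 f (mn b f g 0 1) (mn b f g 1 2) + I3 f (mn b f g 0 1) (xx b 2) :=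
    CL hg (xx_nonunit b 2) C Bg F6 F5 fun φ hφ => eq_fM b hφ
  have Ag : I3 f (xx b 2) g ≠ ⊤ := by rw [I3_23]; exact A
  have F5' : I3 f (xx b 2) (mn b f g 0 1) ≠ ⊤ := by rw [I3_23]; exact F5
  have R3 : I3 f (xx b 2) (pd b f 0) + I3 f (xx b 2) g =
      I3 f (xx b 2) (mn b f g 0 1) + I3 f (xx b 2) (xx b 1) :=
    CL hg (xx_nonunit b 1) F1 Ag F5' G fun φ hφ => eq_fx b hφ
  have Hf : I3 (pd b f 0) (pd b f 1) f ≠ ⊤ := by rw [I3_23, I3_12]; exact H
  have R4 : I3 (pd b f 0) (pd b f 1) 1 + I3 (pd b f 0) (pd b f 1) f =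
      I3 (pd b f 0) (pd b f 1) (pd b f 2) + I3 (pd b f 0) (pd b f 1) (xx b 2) := by
    refine CL hf (xx_nonunit b 2) ?_ Hf mu F3 fun φ hφ => ?_
    · rw [← I3_def, I3_one]; exact ENat.zero_ne_top
    · rw [map_one, one_mul, chain3 b hφ.cst f, hφ.fa, hφ.fb, zero_mul, zero_mul, zero_add, zero_add]
  have F1' : I3 (xx b 2) (pd b f 0) f ≠ ⊤ := by rw [I3_23, I3_12]; exact F1
  have F3' : I3 (xx b 2) (pd b f 0) (pd b f 1) ≠ ⊤ := by rw [I3_12, I3_23]; exact F3
  have R5 : I3 (xx b 2) (pd b f 0) 1 + I3 (xx b 2) (pd b f 0) f =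
      I3 (xx b 2) (pd b f 0) (pd b f 1) + I3 (xx b 2) (pd b f 0) (xx b 1) := by
    refine CL hf (xx_nonunit b 1) ?_ F1' F3' F2 fun φ hφ => ?_
    · rw [← I3_def, I3_one]; exact ENat.zero_ne_top
    · rw [map_one, one_mul, chain3 b hφ.cst f, hφ.fa, hφ.fb, map_zero, zero_mul, mul_zero, zero_add,
        add_zero]
  have G' : I3 (xx b 2) (xx b 1) f ≠ ⊤ := by rw [I3_23, I3_12]; exact G
  have F2' : I3 (xx b 2) (xx b 1) (pd b f 0) ≠ ⊤ := by rw [I3_23]; exact F2
  have R6 : I3 (xx b 2) (xx b 1) 1 + I3 (xx b 2) (xx b 1) f =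
      I3 (xx b 2) (xx b 1) (pd b f 0) + I3 (xx b 2) (xx b 1) (xx b 0) := by
    refine CL hf (xx_nonunit b 0) ?_ G' F2' ?_ fun φ hφ => ?_
    · rw [← I3_def, I3_one]; exact ENat.zero_ne_top
    · rw [← I3_def, I3_coord]; exact ENat.one_ne_top
    · rw [map_one, one_mul, chain3 b hφ.cst f, hφ.fa, hφ.fb, map_zero, mul_zero, mul_zero, add_zero,
        add_zero]
  have R7 := rel_add (b := b) f g
  rw [I3_one, zero_add] at R4 R5 R6
  rw [I3_coord] at R6
  rw [I3_23 f (mn b f g 0 1) g, I3_23 f (mn b f g 0 1) (xx b 2)] at R2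
  rw [I3_23 f (xx b 2) g] at R3
  have s1 : I3 (pd b f 0) (pd b f 1) f = I3 f (pd b f 0) (pd b f 1) := by rw [I3_23, I3_12]
  have s2 : I3 (xx b 2) (pd b f 0) f = I3 f (xx b 2) (pd b f 0) := by rw [I3_23, I3_12]
  have s3 : I3 (xx b 2) (pd b f 0) (pd b f 1) = I3 (pd b f 0) (pd b f 1) (xx b 2) := by
    rw [I3_12, I3_23]
  have s4 : I3 (xx b 2) (xx b 1) f = I3 f (xx b 2) (xx b 1) := by rw [I3_23, I3_12]
  have s5 : I3 (xx b 2) (xx b 1) (pd b f 0) = I3 (xx b 2) (pd b f 0) (xx b 1) := by rw [I3_23]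
  rw [s1] at R4
  rw [s2, s3] at R5
  rw [s4, s5] at R6
  generalize I3 f (mn b f g 0 1) (mn b f g 1 2) = a1 at *
  generalize I3 f g h = a2 at *
  generalize I3 (pd b f 0) (pd b f 1) (pd b f 2) = a3 at *
  generalize I3 f g (dt b f g h) = a4 at *
  generalize I3 f (pd b f 1) (pd b g 1) = a5 at *
  generalize I3 f g (mn b f g 0 1) = a6 at *
  generalize I3 f g (xx b 2) = a7 at *
  generalize I3 f (mn b f g 0 1) (pd b f 1) = a8 at *
  generalize I3 f (xx b 2) (mn b f g 0 1) = a9 at *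
  generalize I3 f (xx b 2) (pd b f 0) = a10 at *
  generalize I3 f (xx b 2) (xx b 1) = a11 at *
  generalize I3 f (pd b f 0) (pd b f 1) = a12 at *
  generalize I3 (pd b f 0) (pd b f 1) (xx b 2) = a13 at *
  generalize I3 (xx b 2) (pd b f 0) (xx b 1) = a14 at *
  lift a1 to ℕ using F6
  lift a2 to ℕ using I0
  lift a3 to ℕ using mu
  lift a4 to ℕ using J0
  lift a5 to ℕ using F7
  lift a6 to ℕ using B
  lift a7 to ℕ using A
  lift a8 to ℕ using C
  lift a9 to ℕ using F5'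
  lift a10 to ℕ using F1
  lift a11 to ℕ using G
  lift a12 to ℕ using H
  lift a13 to ℕ using F3
  lift a14 to ℕ using F2
  norm_cast at *
  omega

end Six

end Crest.Agent.R257.Num488
end
end

-- ▼ part R257/LgF_827
section

/-!
Row 257 (S0395), leaf B-NUM (helper827), part F: linkage in a good basis and the Le–Greuel identity
for ideals of the ring of germs.
-/

set_option autoImplicit false

open Set Filter Topology
open Crest.Agent.R275.Loc2879
open Crest.Agent.R257.UI939 (BB xB)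
open Crest.Agent.R257.Num488

noncomputable section

namespace Crest.Agent.R257.LgA_827

local notation "𝔪" => IsLocalRing.maximalIdeal (BB 3)

lemma relPrime_of {a b c : BB 3} (h : T a b c ≠ ⊤) (hc : ¬ IsUnit c) : IsRelPrime a b := by
  intro d hda hdb
  by_contra hd
  obtain ⟨a', rfl⟩ := hda
  obtain ⟨b', rfl⟩ := hdb
  obtain ⟨k, hk⟩ := pow_mem h
  refine Cnm1_889.two_not_enough3 hd hc (k := k) fun y hy => ?_
  obtain ⟨r, s, t, e⟩ := mem3.1 (hk y hy)
  exact ⟨r * a' + s * b', t, by rw [e]; ring⟩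

lemma T_zero {a b c : BB 3} (h : IsUnit a ∨ IsUnit b ∨ IsUnit c) : T a b c = 0 := by
  have h1 : Ideal.span {a, b, c} = ⊤ := by
    rcases h with h | h | h
    · exact Ideal.eq_top_of_isUnit_mem _ (Ideal.subset_span (by simp)) h
    · exact Ideal.eq_top_of_isUnit_mem _ (Ideal.subset_span (by simp)) h
    · exact Ideal.eq_top_of_isUnit_mem _ (Ideal.subset_span (by simp)) h
  unfold T
  rw [h1]
  exact Module.length_eq_zero

lemma IW_eq_sup (b : Bs) (f g : BB 3) :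
    IW b f g = Ideal.span {f, W b f g 0 1, W b f g 1 2} ⊔ Ideal.span {W b f g 2 0} := by
  apply le_antisymm
  · rw [IW, Ideal.span_le]
    have h01 : W b f g 0 1 ∈ Ideal.span {f, W b f g 0 1, W b f g 1 2} ⊔ Ideal.span {W b f g 2 0} :=
      Ideal.mem_sup_left (Ideal.subset_span (by simp))
    have h12 : W b f g 1 2 ∈ Ideal.span {f, W b f g 0 1, W b f g 1 2} ⊔ Ideal.span {W b f g 2 0} :=
      Ideal.mem_sup_left (Ideal.subset_span (by simp))
    have h20 : W b f g 2 0 ∈ Ideal.span {f, W b f g 0 1, W b f g 1 2} ⊔ Ideal.span {W b f g 2 0} :=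
      Ideal.mem_sup_right (Ideal.subset_span (by simp))
    rintro _ (rfl | ⟨⟨p, q⟩, rfl⟩)
    · exact Ideal.mem_sup_left (Ideal.subset_span (by simp))
    · rw [SetLike.mem_coe]
      fin_cases p <;> fin_cases q
      · change W b f g 0 0 ∈ _; rw [W_self]; exact Ideal.zero_mem _
      · exact h01
      · change W b f g 0 2 ∈ _; rw [W_swap b f g 0 2]; exact Ideal.neg_mem_iff _ |>.2 h20
      · change W b f g 1 0 ∈ _; rw [W_swap b f g 1 0]; exact Ideal.neg_mem_iff _ |>.2 h01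
      · change W b f g 1 1 ∈ _; rw [W_self]; exact Ideal.zero_mem _
      · exact h12
      · exact h20
      · change W b f g 2 1 ∈ _; rw [W_swap b f g 2 1]; exact Ideal.neg_mem_iff _ |>.2 h12
      · change W b f g 2 2 ∈ _; rw [W_self]; exact Ideal.zero_mem _
  · refine sup_le ?_ ?_
    · rw [Ideal.span_le]
      rintro _ (rfl | rfl | rfl)
      · exact f_mem_IW _ _ _
      · exact W_mem_IW _ _ _ _ _
      · exact W_mem_IW _ _ _ _ _
    · rw [Ideal.span_le]
      rintro _ rfl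
      exact W_mem_IW _ _ _ _ _

/-- **linkage** -/
theorem link (b : Bs) {f g : BB 3} (h : T f (W b f g 1 2) (W b f g 0 1) ≠ ⊤) :
    T f (W b f g 0 1) (W b f g 1 2) = T f (D b 1 f) (D b 1 g) + dl (BB 3 ⧸ IW b f g) := by
  by_cases hu : IsUnit (W b f g 0 1)
  · have h1 : IsUnit (D b 1 f) ∨ IsUnit (D b 1 g) := by
      by_contra hcon
      push Not at hcon
      have h2 : W b f g 0 1 ∈ 𝔪 := by
        rw [W]
        exact Ideal.sub_mem _ (Ideal.mul_mem_left _ _ (mem_m.2 hcon.2))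
          (Ideal.mul_mem_right _ _ (mem_m.2 hcon.1))
      exact mem_m.1 h2 hu
    have h3 : IW b f g = ⊤ := Ideal.eq_top_of_isUnit_mem _ (W_mem_IW _ _ _ _ _) hu
    rw [T_zero (Or.inr (Or.inl hu)), T_zero (Or.inr h1), h3]
    have : dl (BB 3 ⧸ (⊤ : Ideal (BB 3))) = 0 := Module.length_eq_zero
    rw [this, add_zero]
  · have hrel := relPrime_of h hu
    have key := linkage f (D b 0 f) (D b 1 f) (D b 2 f) (D b 0 g) (D b 1 g) (D b 2 g)
      (fun m hm => nzd h hm) (fun m hm => hrel.dvd_of_dvd_mul_left hm)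
    rw [IW_eq_sup]
    exact dl_colon _ _ _ key

/-- **the Le–Greuel identity**, for ideals -/
theorem lg_alg (b0 : Bs) {f g h : BB 3} (fn : ¬ IsUnit f) (gn : ¬ IsUnit g) (hn : ¬ IsUnit h)
    (mu : dl (BB 3 ⧸ IP b0 f) ≠ ⊤) (fgh : T f g h ≠ ⊤) (fgJ : T f g (Jd b0 f g h) ≠ ⊤) :
    dl (BB 3 ⧸ IW b0 f g) ≠ ⊤ ∧
      dl (BB 3 ⧸ IW b0 f g) + T f g h = dl (BB 3 ⧸ IP b0 f) + T f g (Jd b0 f g h) + 1 := by
  obtain ⟨b, I, A, B, H, C, G⟩ := generic b0 gn hn mu fgh fgJ
  have gen : Gen b f g := ⟨A, B, H, C, G⟩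
  have e1 : dt b f g h = Jd b f g h := by
    change D b 0 h * W b f g 1 2 + D b 1 h * W b f g 2 0 + D b 2 h * W b f g 0 1 = _
    rw [W_swap b f g 2 0, Jd]; ring
  obtain ⟨s1, s2, s3⟩ := gen.six fn gn hn
    (by
      have : dl (BB 3 ⧸ IP b f) ≠ ⊤ := by rw [I.IP]; exact mu
      rw [IP_eq] at this; exact this) fgh (by rw [e1, I.Jd]; exact fgJ)
  have s1' : T f (W b f g 0 1) (W b f g 1 2) ≠ ⊤ := s1
  have h1 := link b (f := f) (g := g) (by rw [T_swap']; exact s1')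
  have hL : dl (BB 3 ⧸ IW b f g) ≠ ⊤ := by
    intro h2
    rw [h2, add_top] at h1
    exact s1' h1
  rw [I.IW] at h1 hL
  refine ⟨hL, ?_⟩
  have s3' : T f (W b f g 0 1) (W b f g 1 2) + T f g h =
      dl (BB 3 ⧸ IP b f) + T f g (Jd b f g h) + 1 + T f (D b 1 f) (D b 1 g) := by
    rw [IP_eq, ← e1]; exact s3
  rw [h1, I.IP, I.Jd] at s3'
  have s2' : T f (D b 1 f) (D b 1 g) ≠ ⊤ := s2
  have h4 : T f (D b 1 f) (D b 1 g) + (dl (BB 3 ⧸ IW b0 f g) + T f g h) =
      T f (D b 1 f) (D b 1 g) + (dl (BB 3 ⧸ IP b0 f) + T f g (Jd b0 f g h) + 1) := by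
    rw [← add_assoc, s3', add_comm]
  exact ENat.add_right_injective_of_ne_top s2' h4

end Crest.Agent.R257.LgA_827
end
end

-- ▼ part R257/LgG_827

/-!
Row 257 (S0395), leaf B-NUM (helper827; numerical half by helper488), part G: `LGStmt` of
`Defs_219`, literally.
-/

set_option autoImplicit false

open Set Filter Topology
open Crest.AlgGeometry.Germ
open Crest.Agent.R275.Loc2879
open Crest.Agent.R257.UI939 (BB xB)
open Crest.Agent.R257.Num488
open Crest.Agent.R257.Defs_219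

noncomputable section

namespace Crest.Agent.R257.LgA_827

/-- the standard basis -/
abbrev b0 : Bs := Pi.basisFun ℂ (Fin 3)

lemma D_gm {f : E3 → ℂ} (hf : AnalyticAt ℂ f 0) (i : Fin 3) :
    D b0 i (gm f hf) = gm (fun x => gr f x i) (Gen_812.an_gr hf i) := by
  rw [D, dd_gm, gm_eq_gm]
  refine Eventually.of_forall fun x => ?_
  simp only [Pi.basisFun_apply]
  rfl

lemma W_gm {f g : E3 → ℂ} (hf : AnalyticAt ℂ f 0) (hg : AnalyticAt ℂ g 0) (i j : Fin 3)
    {F : E3 → ℂ} (hF : AnalyticAt ℂ F 0) (h : ∀ x, F x = gr f x i * gr g x j - gr f x j * gr g x i) :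
    W b0 (gm f hf) (gm g hg) i j = gm F hF := by
  rw [W, D_gm, D_gm, D_gm, D_gm, gm_mul, gm_mul, gm_sub, gm_eq_gm]
  exact Eventually.of_forall fun x => (h x).symm

lemma an_Dt {f g h : E3 → ℂ} (hf : AnalyticAt ℂ f 0) (hg : AnalyticAt ℂ g 0)
    (hh : AnalyticAt ℂ h 0) : AnalyticAt ℂ (Dt f g h) 0 := by
  have e1 := Gen_812.an_gr hf
  have e2 := Gen_812.an_gr hg
  have e3 := Gen_812.an_gr hh
  have : Dt f g h = fun x => gr f x 0 * gr g x 1 * gr h x 2 - gr f x 0 * gr g x 2 * gr h x 1 -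
      gr f x 1 * gr g x 0 * gr h x 2 + gr f x 1 * gr g x 2 * gr h x 0 +
      gr f x 2 * gr g x 0 * gr h x 1 - gr f x 2 * gr g x 1 * gr h x 0 := by
    funext x
    rw [Dt, Matrix.det_fin_three]
    rfl
  rw [this]
  exact ((((((((e1 0).mul (e2 1)).mul (e3 2)).sub (((e1 0).mul (e2 2)).mul (e3 1))).sub
    (((e1 1).mul (e2 0)).mul (e3 2))).add (((e1 1).mul (e2 2)).mul (e3 0))).add
    (((e1 2).mul (e2 0)).mul (e3 1)))).sub (((e1 2).mul (e2 1)).mul (e3 0))

lemma Jd_gm {f g h : E3 → ℂ} (hf : AnalyticAt ℂ f 0) (hg : AnalyticAt ℂ g 0)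
    (hh : AnalyticAt ℂ h 0) :
    Jd b0 (gm f hf) (gm g hg) (gm h hh) = gm (Dt f g h) (an_Dt hf hg hh) := by
  simp only [Jd, W, D_gm, gm_mul, gm_sub, gm_add]
  rw [gm_eq_gm]
  refine Eventually.of_forall fun x => ?_
  rw [Dt, Matrix.det_fin_three]
  change (gr f x 1 * gr g x 2 - gr f x 2 * gr g x 1) * gr h x 0 -
    (gr f x 0 * gr g x 2 - gr f x 2 * gr g x 0) * gr h x 1 +
    (gr f x 0 * gr g x 1 - gr f x 1 * gr g x 0) * gr h x 2 =
      gr f x 0 * gr g x 1 * gr h x 2 - gr f x 0 * gr g x 2 * gr h x 1 -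
      gr f x 1 * gr g x 0 * gr h x 2 + gr f x 1 * gr g x 2 * gr h x 0 +
      gr f x 2 * gr g x 0 * gr h x 1 - gr f x 2 * gr g x 1 * gr h x 0
  ring

/-- `dl` is the dimension -/
lemma dl_finrank {V : Type*} [AddCommGroup V] [Module ℂ V] (h : dl V ≠ ⊤) :
    dl V = (Module.finrank ℂ V : ℕ∞) := by
  have := finite_of_dl h
  exact Module.length_eq_finrank ℂ V

theorem col_dl {m : ℕ} {g : Fin m → E3 → ℂ} (hg : ∀ i, AnalyticAt ℂ (g i) 0) {I : Ideal (BB 3)}
    (hI : Ideal.span (Set.range fun j => (gm (g j) (hg j) : BB 3)) = I) :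
    (ColFin g ↔ dl (BB 3 ⧸ I) ≠ ⊤) ∧ (dl (BB 3 ⧸ I) ≠ ⊤ → dl (BB 3 ⧸ I) = (col g : ℕ∞)) := by
  subst hI
  refine ⟨Gen_812.colFin_iff_dl hg, fun h => ?_⟩
  rw [dl_finrank h, UI939.col_eq hg, CM_812.Idl_eq_span hg]

lemma an3 {a b c : E3 → ℂ} (ha : AnalyticAt ℂ a 0) (hb : AnalyticAt ℂ b 0)
    (hc : AnalyticAt ℂ c 0) (i : Fin 3) : AnalyticAt ℂ ((![a, b, c] : Fin 3 → E3 → ℂ) i) 0 := by
  fin_cases i <;> assumption

lemma range3 {a b c : E3 → ℂ} (ha : AnalyticAt ℂ a 0) (hb : AnalyticAt ℂ b 0)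
    (hc : AnalyticAt ℂ c 0) :
    Ideal.span (Set.range fun j => (gm ((![a, b, c] : Fin 3 → E3 → ℂ) j) (an3 ha hb hc j) : BB 3)) =
      Ideal.span {(gm a ha : BB 3), gm b hb, gm c hc} := by
  congr 1
  ext y
  constructor
  · rintro ⟨i, rfl⟩
    fin_cases i
    · exact Or.inl rfl
    · exact Or.inr (Or.inl rfl)
    · exact Or.inr (Or.inr rfl)
  · rintro (rfl | rfl | rfl)
    · exact ⟨0, rfl⟩
    · exact ⟨1, rfl⟩
    · exact ⟨2, rfl⟩

lemma range_par {f : E3 → ℂ} (hf : AnalyticAt ℂ f 0) (hp : ∀ i, AnalyticAt ℂ (par f i) 0) :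
    Ideal.span (Set.range fun j => (gm (par f j) (hp j) : BB 3)) = IP b0 (gm f hf) := by
  rw [IP]
  congr 2
  funext j
  rw [D_gm]
  rfl

lemma range_mnr {f g : E3 → ℂ} (hf : AnalyticAt ℂ f 0) (hg : AnalyticAt ℂ g 0) :
    Ideal.span (Set.range fun j => (gm (mnr f g j) (Gen_812.an_mnr hf hg j) : BB 3)) =
      IW b0 (gm f hf) (gm g hg) := by
  have e0 : (gm (mnr f g 0) (Gen_812.an_mnr hf hg 0) : BB 3) = gm f hf := rfl
  have e1 : (gm (mnr f g 1) (Gen_812.an_mnr hf hg 1) : BB 3) = W b0 (gm f hf) (gm g hg) 1 2 :=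
    (W_gm hf hg 1 2 _ fun x => rfl).symm
  have e2 : (gm (mnr f g 2) (Gen_812.an_mnr hf hg 2) : BB 3) = W b0 (gm f hf) (gm g hg) 2 0 :=
    (W_gm hf hg 2 0 _ fun x => rfl).symm
  have e3 : (gm (mnr f g 3) (Gen_812.an_mnr hf hg 3) : BB 3) = W b0 (gm f hf) (gm g hg) 0 1 :=
    (W_gm hf hg 0 1 _ fun x => rfl).symm
  rw [IW_eq_sup]
  apply le_antisymm
  · rw [Ideal.span_le]
    rintro _ ⟨j, rfl⟩
    fin_cases j
    · change (gm (mnr f g 0) (Gen_812.an_mnr hf hg 0) : BB 3) ∈ _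
      rw [e0]; exact Ideal.mem_sup_left (Ideal.subset_span (by simp))
    · change (gm (mnr f g 1) (Gen_812.an_mnr hf hg 1) : BB 3) ∈ _
      rw [e1]; exact Ideal.mem_sup_left (Ideal.subset_span (by simp))
    · change (gm (mnr f g 2) (Gen_812.an_mnr hf hg 2) : BB 3) ∈ _
      rw [e2]; exact Ideal.mem_sup_right (Ideal.subset_span (by simp))
    · change (gm (mnr f g 3) (Gen_812.an_mnr hf hg 3) : BB 3) ∈ _
      rw [e3]; exact Ideal.mem_sup_left (Ideal.subset_span (by simp))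
  · refine sup_le ?_ ?_
    · rw [Ideal.span_le]
      rintro _ (rfl | rfl | rfl)
      · exact Ideal.subset_span ⟨0, rfl⟩
      · rw [← e3]; exact Ideal.subset_span ⟨3, rfl⟩
      · rw [← e1]; exact Ideal.subset_span ⟨1, rfl⟩
    · rw [Ideal.span_le]
      rintro _ rfl
      rw [← e2]; exact Ideal.subset_span ⟨2, rfl⟩

/-- **Le–Greuel**, literally `Defs_219.LGStmt` -/
theorem lgStmt : LGStmt := by
  intro f g h hf hg hh f0 g0 h0 mu fgh fgJ
  have hp : ∀ i, AnalyticAt ℂ (par f i) 0 := Gen_812.an_gr hf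
  obtain ⟨c1, d1⟩ := col_dl hp (range_par hf hp)
  obtain ⟨c2, d2⟩ := col_dl (an3 hf hg hh) (range3 hf hg hh)
  obtain ⟨c3, d3⟩ := col_dl (an3 hf hg (an_Dt hf hg hh)) (range3 hf hg (an_Dt hf hg hh))
  obtain ⟨c4, d4⟩ := col_dl (Gen_812.an_mnr hf hg) (range_mnr hf hg)
  have fn : ¬ IsUnit (gm f hf : BB 3) := by rw [isUnit_gm]; simpa using f0
  have gn : ¬ IsUnit (gm g hg : BB 3) := by rw [isUnit_gm]; simpa using g0
  have hn : ¬ IsUnit (gm h hh : BB 3) := by rw [isUnit_gm]; simpa using h0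
  have m1 := c1.1 mu
  have m2 := c2.1 fgh
  have m3 := c3.1 fgJ
  obtain ⟨r1, r2⟩ := lg_alg b0 fn gn hn m1 m2 (by rw [Jd_gm]; exact m3)
  refine ⟨c4.2 r1, ?_⟩
  rw [Jd_gm] at r2
  unfold T at r2
  rw [d1 m1, d2 m2, d3 m3, d4 r1] at r2
  exact_mod_cast r2

end Crest.Agent.R257.LgA_827
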