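import Crest.Agent.R257.PN_835
import Crest.Agent.R273.Reg_835
import Crest.Agent.R273.FS_333
import Crest.Agent.R273.YauMax_635
import Crest.Agent.R273.YauCh_635

-- ▼ part R257/Hyp_835
section

/-!
# R257 (S0395), Part E (helper835): nonsingular projective hypersurfaces

* `Hyp n d`   : homogeneous `H` of degree `d` in `n + 2` variables, nonsingular;
* `X.S`       : the hypersurface in `PN (n + 1)`, closed (`isClosed_S`), a submanifold (`isSub_S`);
* `HAtl X`    : a finite good atlas of `X.S`, subordinate to the affine patches (`exists_hAtl`);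
* `HAtl.P`    : homogeneous coordinates (`ProjD`).
-/

set_option autoImplicit false
set_option linter.unusedSectionVars false

open Set Filter Topology Complex
open scoped ContDiff Matrix ComplexConjugate Manifold

namespace Crest.Agent.R257.Hyp_835

open Crest.Agent.R275.Geo Crest.Agent.R275.Core144 Crest.Agent.R275.GC293
open Crest.Agent.R273.Fam_835 Crest.Agent.R273.Sub_835 Crest.Agent.R273.Reg_835
open Crest.Agent.R273.Defs_333 Crest.Agent.R273.Map_835 Crest.Agent.R273.PB_835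
open Crest.Agent.R257.PN_835

noncomputable section

variable {n d : ℕ}

/-- a nonsingular hypersurface of degree `d` and dimension `n` -/
structure Hyp (n d : ℕ) where
  H : HC (n + 1) → ℂ
  diff : Differentiable ℂ H
  hom : ∀ (c : ℂ) (Z : HC (n + 1)), H (c • Z) = c ^ d * H Z
  ns : ∀ Z, Z ≠ 0 → H Z = 0 → fderiv ℂ H Z ≠ 0

variable (X : Hyp n d)

/-- Euler's identity on the cone -/
theorem Hyp.euler {Z : HC (n + 1)} (hZ : H X Z = 0) : fderiv ℂ X.H Z Z = 0 := by
  have h1 : HasDerivAt (fun c : ℂ => X.H (c • Z)) (fderiv ℂ X.H Z Z) 1 := by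
    have h2 : HasFDerivAt X.H (fderiv ℂ X.H ((1 : ℂ) • Z)) ((1 : ℂ) • Z) :=
      (X.diff _).hasFDerivAt
    have h3 : HasDerivAt (fun c : ℂ => c • Z) Z 1 := by
      simpa using (hasDerivAt_id (1 : ℂ)).smul_const Z
    have h4 := h2.comp_hasDerivAt (1 : ℂ) h3
    rw [one_smul] at h4
    exact h4
  have h5 : (fun c : ℂ => X.H (c • Z)) = fun _ => 0 := by
    funext c
    rw [X.hom, hZ, mul_zero]
  rw [h5] at h1
  exact h1.unique (hasDerivAt_const _ _)

/-- the hypersurface -/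
def Hyp.S : Set (PN (n + 1)) := {P | ∀ j, X.H (fun k => P.1 k j) = 0}

theorem Hyp.isClosed_S : IsClosed X.S := by
  have h1 : X.S = ⋂ j, {P : PN (n + 1) | X.H (fun k => P.1 k j) = 0} := by
    ext P
    simp only [mem_iInter, mem_ofPred_eq]
    exact Iff.rfl
  rw [h1]
  refine isClosed_iInter fun j => isClosed_eq ?_ continuous_const
  exact X.diff.continuous.comp (continuous_pi fun k => continuous_entry k j)

theorem Hyp.cls_mem {Z : HC (n + 1)} (hZ : Z ≠ 0) : cls Z hZ ∈ X.S ↔ X.H Z = 0 := by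
  have h0 : (nsq Z : ℂ) ≠ 0 := by exact_mod_cast (nsq_pos hZ).ne'
  have h1 : ∀ j, (fun k => (cls Z hZ).1 k j) = (conj (Z j) / (nsq Z : ℂ)) • Z := by
    intro j
    funext k
    show Z k * conj (Z j) / (nsq Z : ℂ) = conj (Z j) / (nsq Z : ℂ) * Z k
    ring
  constructor
  · intro h
    obtain ⟨j, hj⟩ := Function.ne_iff.1 hZ
    have h2 : X.H (fun k => (cls Z hZ).1 k j) = 0 := h j
    rw [h1, X.hom] at h2
    have h3 : (conj (Z j) / (nsq Z : ℂ)) ^ d ≠ 0 := by
      have : Z j ≠ 0 := hj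
      exact pow_ne_zero _ (div_ne_zero (by simpa using this) h0)
    exact (mul_eq_zero.1 h2).resolve_left h3
  · intro h j
    rw [h1, X.hom, h, mul_zero]

theorem Hyp.lft_mem {j : Fin (n + 2)} {P : PN (n + 1)} (hP : P.1 j j ≠ 0) :
    P ∈ X.S ↔ X.H (lft j P) = 0 := by
  have h1 := X.cls_mem (lft_ne hP)
  rw [cls_lft hP] at h1
  exact h1

/-- the derivative of `hmg j` -/
theorem hasFDerivAt_hmg {N : ℕ} (j : Fin (N + 1)) (y : Cn N) : ∃ T : Cn N →L[ℂ] HC N,
    HasFDerivAt (hmg (N := N) j) T y ∧ (∀ v, T v j = 0) ∧ ∀ v k, T v (j.succAbove k) = v k := by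
  refine ⟨fderiv ℂ (hmg j) y, (differentiable_hmg j y).hasFDerivAt, fun v => ?_, fun v k => ?_⟩
  · have h1 := hasFDerivAt_pi'.1 (differentiable_hmg j y).hasFDerivAt j
    have h2 : HasFDerivAt (fun y => hmg (N := N) j y j) (0 : Cn N →L[ℂ] ℂ) y := by
      simp only [hmg_self]
      exact hasFDerivAt_const _ _
    have h3 := h1.unique h2
    exact congrArg (fun T : Cn N →L[ℂ] ℂ => T v) h3
  · have h1 := hasFDerivAt_pi'.1 (differentiable_hmg j y).hasFDerivAt (j.succAbove k)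
    have h2 : HasFDerivAt (fun y => hmg (N := N) j y (j.succAbove k))
        (EuclideanSpace.proj k : Cn N →L[ℂ] ℂ) y := by
      simp only [hmg_succAbove]
      exact (EuclideanSpace.proj k : Cn N →L[ℂ] ℂ).hasFDerivAt
    have h3 := h1.unique h2
    exact congrArg (fun T : Cn N →L[ℂ] ℂ => T v) h3

/-- the differential of the affine equation does not vanish -/
theorem Hyp.exists_dir {Z : HC (n + 1)} (hZ : Z ≠ 0) (h0 : X.H Z = 0) {j : Fin (n + 2)}
    (hj : Z j = 1) : ∃ W : HC (n + 1), W j = 0 ∧ fderiv ℂ X.H Z W ≠ 0 := by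
  by_contra hcon
  push Not at hcon
  apply X.ns Z hZ h0
  ext W
  have h1 : W = (W j) • Z + (W - (W j) • Z) := by abel
  have h2 : (W - (W j) • Z) j = 0 := by
    rw [Pi.sub_apply, Pi.smul_apply, smul_eq_mul, hj, mul_one, sub_self]
  rw [h1, map_add, map_smul, X.euler h0, smul_zero, zero_add, hcon _ h2]
  rfl

/-- **the hypersurface is a submanifold** -/
theorem Hyp.isSub_S : IsSub (pnFam (n + 1)) X.S n := by
  refine isSub_of_submersion (k := 1) (by omega) fun P hP => ?_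
  obtain ⟨j, hj'⟩ := exists_patch P
  have hj : P ∈ (aff j).source := hj'
  refine ⟨j, (aff j).source, fun Q => WithLp.toLp 2 fun _ => X.H (lft j Q), hj,
    (aff j).open_source, hj, ?_, ?_, fun Q hQ => ?_⟩
  · -- holomorphic
    have h1 : Differentiable ℂ (fun y => X.H (hmg j y)) := X.diff.comp (differentiable_hmg j)
    have h2 : Differentiable ℂ (fun y => (WithLp.toLp 2 (fun _ : Fin 1 => X.H (hmg j y)) : Cn 1)) :=
      (PiLp.continuousLinearEquiv 2 ℂ (fun _ : Fin 1 => ℂ)).symm.differentiable.comp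
        (differentiable_pi.2 fun _ => h1)
    refine h2.differentiableOn.congr fun y _ => ?_
    show (WithLp.toLp 2 (fun _ : Fin 1 => X.H (lft j ((aff j).symm y))) : Cn 1) = _
    rw [lft_aff_symm]
  · -- submersion
    set y := aff j P with hy
    have hfun : (fun z => (WithLp.toLp 2 (fun _ : Fin 1 => X.H (lft j ((aff j).symm z))) : Cn 1)) =
        fun z => (WithLp.toLp 2 (fun _ : Fin 1 => X.H (hmg j z)) : Cn 1) := by
      funext z
      rw [lft_aff_symm]
    show Function.Surjective (fderiv ℂ (fun z =>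
      (WithLp.toLp 2 (fun _ : Fin 1 => X.H (lft j ((aff j).symm z))) : Cn 1)) y)
    rw [hfun]
    have hL : hmg j y = lft j P := hmg_aff hj'
    have hH : X.H (hmg j y) = 0 := by rw [hL]; exact (X.lft_mem hj').1 hP
    obtain ⟨W, hWj, hW⟩ := X.exists_dir (hmg_ne j y) hH (hmg_self j y)
    obtain ⟨T, hT, hT1, hT2⟩ := hasFDerivAt_hmg j y
    have h2 : HasFDerivAt (fun z => X.H (hmg j z)) ((fderiv ℂ X.H (hmg j y)).comp T) y :=
      (X.diff _).hasFDerivAt.comp y hT
    have h3 : HasFDerivAt (fun z => (WithLp.toLp 2 (fun _ : Fin 1 => X.H (hmg j z)) : Cn 1))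
        (((PiLp.continuousLinearEquiv 2 ℂ (fun _ : Fin 1 => ℂ)).symm :
          (Fin 1 → ℂ) →L[ℂ] Cn 1).comp (ContinuousLinearMap.pi fun _ =>
            (fderiv ℂ X.H (hmg j y)).comp T)) y :=
      ((PiLp.continuousLinearEquiv 2 ℂ (fun _ : Fin 1 => ℂ)).symm :
          (Fin 1 → ℂ) →L[ℂ] Cn 1).hasFDerivAt.comp y (hasFDerivAt_pi.2 fun _ => h2)
    rw [h3.fderiv]
    intro w
    set v : Cn (n + 1) := WithLp.toLp 2 fun k => W (j.succAbove k) with hv
    have hTv : T v = W := by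
      funext k
      rcases Fin.eq_self_or_eq_succAbove j k with rfl | ⟨l, rfl⟩
      · rw [hT1, hWj]
      · rw [hT2]
    refine ⟨(w 0 * (fderiv ℂ X.H (hmg j y) W)⁻¹) • v, ?_⟩
    ext i
    have hi : i = 0 := Subsingleton.elim _ _
    subst hi
    show fderiv ℂ X.H (hmg j y) (T ((w 0 * (fderiv ℂ X.H (hmg j y) W)⁻¹) • v)) = w 0
    rw [map_smul, map_smul, hTv, smul_eq_mul, mul_assoc, inv_mul_cancel₀ hW, mul_one]
  · show Q ∈ X.S ↔ (WithLp.toLp 2 (fun _ : Fin 1 => X.H (lft j Q)) : Cn 1) =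
      WithLp.toLp 2 (fun _ : Fin 1 => X.H (lft j P))
    rw [(X.lft_mem hj').1 hP, X.lft_mem hQ]
    constructor
    · intro h
      rw [h]
    · intro h
      have := congrArg (fun v : Cn 1 => v 0) h
      exact this

instance : CompactSpace X.S := isCompact_iff_compactSpace.1 X.isClosed_S.isCompact

/-- a finite good atlas of the hypersurface, subordinate to the affine patches -/
structure HAtl (X : Hyp n d) where
  A : Atl n X.S
  fin : Finite A.ι
  good : GoodA A
  part : Nonempty (Part A)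
  r : A.ι → Fin (n + 2)
  sub : ∀ i, ∀ x ∈ (A.e i).source, x.1 ∈ (aff (r i)).source
  hol : HolC (fam A) (subFam X.isSub_S) id
  hol' : HolC (subFam X.isSub_S) (fam A) id

theorem Hyp.exists_hAtl : Nonempty (HAtl X) := by
  obtain ⟨A, h1, h2, h3, h4, h5, h6⟩ := (subFam X.isSub_S).exists_atl
    (fun j : Fin (n + 2) => (Subtype.val : X.S → PN (n + 1)) ⁻¹' (aff j).source)
    (fun j => (aff j).open_source.preimage continuous_subtype_val)
    (fun x => (pnFam (n + 1)).cover x.1)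
  choose r hr using h4
  exact ⟨⟨A, h1, h2, h3, r, fun i x hx => hr i hx, h5, h6⟩⟩

end

end Crest.Agent.R257.Hyp_835
end

-- ▼ part R257/HypP_835
section

/-!
# R257 (S0395), Part E (helper835): homogeneous coordinates of a hypersurface

* `imm_iso`   : immersions after a change of the family of charts;
* `HAtl.P`    : `ProjD B.A` with `N = n + 1` and `F i x = lft (r i) x`;
* `lift_diffAt` : maps `z ↦ [F z]` into the hypersurface are holomorphic in the charts of `B.A`.
-/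

set_option autoImplicit false
set_option linter.unusedSectionVars false

open Set Filter Topology Complex
open scoped ContDiff Matrix ComplexConjugate Manifold

namespace Crest.Agent.R257.Hyp_835

open Crest.Agent.R275.Geo Crest.Agent.R275.Core144 Crest.Agent.R275.GC293
open Crest.Agent.R273.Fam_835 Crest.Agent.R273.Sub_835 Crest.Agent.R273.Reg_835
open Crest.Agent.R273.Defs_333 Crest.Agent.R273.Map_835 Crest.Agent.R273.PB_835
open Crest.Agent.R257.PN_835

noncomputable section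

section

variable {n m : ℕ} {M N : Type} [TopologicalSpace M] [TopologicalSpace N] {C C' : Fam n M}
  {D : Fam m N} {f : M → N}

/-- immersions after a change of the family of charts -/
theorem imm_iso (h : HolC C' C id) (h' : HolC C C' id) (hf : HolC C D f) (hi : Imm C D f) :
    Imm C' D f := by
  refine imm_of_local (hf.comp h) fun x => ?_
  obtain ⟨i, hi'⟩ := C'.cover x
  obtain ⟨i0, hi0⟩ := C.cover x
  obtain ⟨j, hj⟩ := D.cover (f x)
  refine ⟨i, j, hi', hj, ?_⟩
  have hd1 : DifferentiableAt ℂ (fun z => C.e i0 ((C'.e i).symm z)) (C'.e i x) :=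
    h.diffAt (i := i) (j := i0) ((C'.e i).map_source hi') (by
      show (C'.e i).symm (C'.e i x) ∈ _
      rw [(C'.e i).left_inv hi']; exact hi0)
  have hd1' : DifferentiableAt ℂ (fun z => C'.e i ((C.e i0).symm z)) (C.e i0 x) :=
    h'.diffAt (i := i0) (j := i) ((C.e i0).map_source hi0) (by
      show (C.e i0).symm (C.e i0 x) ∈ _
      rw [(C.e i0).left_inv hi0]; exact hi')
  have hd2 : DifferentiableAt ℂ (fun z => D.e j (f ((C.e i0).symm z))) (C.e i0 x) :=
    hf.diffAt (i := i0) (j := j) ((C.e i0).map_source hi0) (by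
      rw [(C.e i0).left_inv hi0]; exact hj)
  have e1 : C.e i0 ((C'.e i).symm (C'.e i x)) = C.e i0 x := by rw [(C'.e i).left_inv hi']
  have hc : ContinuousAt (C'.e i).symm (C'.e i x) :=
    (C'.e i).continuousAt_symm ((C'.e i).map_source hi')
  have h8 : ∀ᶠ z in 𝓝 (C'.e i x), (C'.e i).symm z ∈ (C.e i0).source :=
    hc.preimage_mem_nhds (by
      rw [(C'.e i).left_inv hi']
      exact (C.e i0).open_source.mem_nhds hi0)
  have hev : (fun z => D.e j (f ((C'.e i).symm z))) =ᶠ[𝓝 (C'.e i x)]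
      (fun z => D.e j (f ((C.e i0).symm z))) ∘ (fun z => C.e i0 ((C'.e i).symm z)) := by
    filter_upwards [h8] with z hz
    simp only [Function.comp]
    rw [(C.e i0).left_inv hz]
  have h7 := fderiv_comp (C'.e i x) (g := fun z => D.e j (f ((C.e i0).symm z)))
    (f := fun z => C.e i0 ((C'.e i).symm z)) (by rw [e1]; exact hd2) hd1
  rw [hev.fderiv_eq, h7, e1]
  have h9 := fderiv_comp (C'.e i x) (g := fun z => C'.e i ((C.e i0).symm z))
    (f := fun z => C.e i0 ((C'.e i).symm z)) (by rw [e1]; exact hd1') hd1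
  have h10 : (fun z => C'.e i ((C.e i0).symm z)) ∘
      (fun z => C.e i0 ((C'.e i).symm z)) =ᶠ[𝓝 (C'.e i x)] id := by
    filter_upwards [h8, (C'.e i).open_target.mem_nhds ((C'.e i).map_source hi')] with z hz hz'
    simp only [Function.comp, id]
    rw [(C.e i0).left_inv hz, (C'.e i).right_inv hz']
  rw [h10.fderiv_eq, fderiv_id, e1] at h9
  have hinj : Function.Injective (fderiv ℂ (fun z => C.e i0 ((C'.e i).symm z)) (C'.e i x)) := by
    intro v w hvw
    have h7 := congrArg (fun T : Cn n →L[ℂ] Cn n => T v) h9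
    have h8 := congrArg (fun T : Cn n →L[ℂ] Cn n => T w) h9
    simp only [ContinuousLinearMap.coe_id', id_eq, ContinuousLinearMap.coe_comp,
      Function.comp_apply] at h7 h8
    rw [h7, h8, hvw]
  have hs := hi i0 j (C.e i0 x) ((C.e i0).map_source hi0) (by
    rw [(C.e i0).left_inv hi0]; exact hj)
  exact hs.comp hinj

end

variable {n d : ℕ} {X : Hyp n d} (B : HAtl X)

theorem HAtl.holVal : HolC (fam B.A) (pnFam (n + 1)) (Subtype.val : X.S → PN (n + 1)) :=
  (subFam_hol X.isSub_S).comp B.hol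

theorem HAtl.immVal : Imm (fam B.A) (pnFam (n + 1)) (Subtype.val : X.S → PN (n + 1)) :=
  imm_iso B.hol B.hol' (subFam_hol X.isSub_S) (subFam_imm X.isSub_S)

/-- local lifts to homogeneous coordinates -/
def HAtl.F (i : B.A.ι) (x : X.S) : HC (n + 1) := lft (B.r i) x.1

variable {B}

theorem HAtl.mem_aff {i : B.A.ι} {x : X.S} (hx : x ∈ (B.A.e i).source) :
    x.1.1 (B.r i) (B.r i) ≠ 0 := B.sub i x hx

theorem HAtl.F_one {i : B.A.ι} {x : X.S} (hx : x ∈ (B.A.e i).source) : B.F i x (B.r i) = 1 :=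
  lft_self (HAtl.mem_aff hx)

theorem HAtl.F_ne {i : B.A.ι} {x : X.S} (hx : x ∈ (B.A.e i).source) : B.F i x ≠ 0 :=
  lft_ne (HAtl.mem_aff hx)

theorem HAtl.cls_F {i : B.A.ι} {x : X.S} (hx : x ∈ (B.A.e i).source) :
    cls (B.F i x) (HAtl.F_ne hx) = x.1 := cls_lft (HAtl.mem_aff hx)

theorem HAtl.H_F {i : B.A.ι} {x : X.S} (hx : x ∈ (B.A.e i).source) : X.H (B.F i x) = 0 :=
  (X.lft_mem (HAtl.mem_aff hx)).1 x.2

/-- the lift in a chart -/
theorem HAtl.F_eq {i : B.A.ι} {z : Cn n} (hz : z ∈ (B.A.e i).target) :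
    B.F i ((B.A.e i).symm z) = hmg (B.r i) (aff (B.r i) ((B.A.e i).symm z).1) :=
  (hmg_aff (HAtl.mem_aff ((B.A.e i).map_target hz))).symm

theorem HAtl.diffAt_aff {i : B.A.ι} {z : Cn n} (hz : z ∈ (B.A.e i).target) :
    DifferentiableAt ℂ (fun z => aff (B.r i) ((B.A.e i).symm z).1) z :=
  B.holVal.diffAt (i := i) (j := B.r i) hz (B.sub i _ ((B.A.e i).map_target hz))

theorem HAtl.F_diffAt {i : B.A.ι} {z : Cn n} (hz : z ∈ (B.A.e i).target) :
    DifferentiableAt ℂ (fun z => B.F i ((B.A.e i).symm z)) z := by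
  have h1 : DifferentiableAt ℂ (fun z => hmg (B.r i) (aff (B.r i) ((B.A.e i).symm z).1)) z :=
    DifferentiableAt.comp z (g := hmg (B.r i)) (differentiable_hmg (B.r i) _)
      (HAtl.diffAt_aff hz)
  refine h1.congr_of_eventuallyEq ?_
  filter_upwards [(B.A.e i).open_target.mem_nhds hz] with w hw
  exact HAtl.F_eq hw

/-- immersion modulo scaling -/
theorem HAtl.F_imm {i : B.A.ι} {z : Cn n} (hz : z ∈ (B.A.e i).target) {v : Cn n} {c : ℂ}
    (h : fderiv ℂ (fun z => B.F i ((B.A.e i).symm z)) z v = c • B.F i ((B.A.e i).symm z)) :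
    v = 0 := by
  have hd := HAtl.F_diffAt hz
  have hx := (B.A.e i).map_target hz
  -- the component `r i` is constant
  have h1 : fderiv ℂ (fun z => B.F i ((B.A.e i).symm z)) z v (B.r i) = 0 := by
    have h2 := hasFDerivAt_pi'.1 hd.hasFDerivAt (B.r i)
    have h3 : HasFDerivAt (fun z => B.F i ((B.A.e i).symm z) (B.r i)) (0 : Cn n →L[ℂ] ℂ) z := by
      refine (hasFDerivAt_const (1 : ℂ) z).congr_of_eventuallyEq ?_
      filter_upwards [(B.A.e i).open_target.mem_nhds hz] with w hw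
      exact HAtl.F_one ((B.A.e i).map_target hw)
    exact congrArg (fun T : Cn n →L[ℂ] ℂ => T v) (h2.unique h3)
  have hc : c = 0 := by
    have h2 := congrFun h (B.r i)
    rw [h1, Pi.smul_apply, HAtl.F_one hx, smul_eq_mul, mul_one] at h2
    exact h2.symm
  rw [hc, zero_smul] at h
  -- the affine coordinates
  have hF1 : B.F i ((B.A.e i).symm z) (B.r i) ≠ 0 := by rw [HAtl.F_one hx]; exact one_ne_zero
  have h4 : HasFDerivAt (fun z => afc (B.r i) (B.F i ((B.A.e i).symm z)))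
      ((fderiv ℂ (afc (B.r i)) (B.F i ((B.A.e i).symm z))).comp
        (fderiv ℂ (fun z => B.F i ((B.A.e i).symm z)) z)) z :=
    HasFDerivAt.comp z (g := afc (B.r i)) (differentiableAt_afc hF1).hasFDerivAt hd.hasFDerivAt
  have h5 : (fun z => afc (B.r i) (B.F i ((B.A.e i).symm z))) =ᶠ[𝓝 z]
      fun z => aff (B.r i) ((B.A.e i).symm z).1 := Eventually.of_forall fun w => rfl
  have h6 := B.immVal i (B.r i) z hz (B.sub i _ hx)
  have h7 : fderiv ℂ (fun z => aff (B.r i) ((B.A.e i).symm z).1) z v = 0 := by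
    rw [← h5.fderiv_eq, h4.fderiv]
    show fderiv ℂ (afc (B.r i)) (B.F i ((B.A.e i).symm z))
      (fderiv ℂ (fun z => B.F i ((B.A.e i).symm z)) z v) = 0
    rw [h, map_zero]
  exact h6 (h7.trans (map_zero _).symm)

variable (B)

/-- **homogeneous coordinates** -/
def HAtl.P : ProjD B.A where
  N := n + 1
  F := B.F
  hol i k := by
    intro z hz
    have h1 := HAtl.F_diffAt (B := B) hz.1
    exact (differentiableAt_pi.1 h1 k).differentiableWithinAt
  ne i x hx := HAtl.F_ne hx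
  tr i j x hx := by
    have h1 : cls (B.F i x) (HAtl.F_ne hx.1) = cls (B.F j x) (HAtl.F_ne hx.2) := by
      rw [HAtl.cls_F hx.1, HAtl.cls_F hx.2]
    exact (cls_eq_iff _ _).1 h1
  inj i j x hx y hy h := by
    have h1 := (cls_eq_iff (HAtl.F_ne hx) (HAtl.F_ne hy)).2 h
    rw [HAtl.cls_F hx, HAtl.cls_F hy] at h1
    exact Subtype.ext h1
  imm i z hz v h := by
    obtain ⟨c, hc⟩ := h
    exact HAtl.F_imm hz hc

end

end Crest.Agent.R257.Hyp_835
end

-- ▼ part R257/Gram_835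
section

/-!
# R257 (S0395), Part E (helper835): Gram determinants and the adjunction formula

For `F : Cn n → ℂ^m` holomorphic, `RF F z` = the matrix with rows `F z, ∂_1 F z, …, ∂_n F z`,
`gdet R = det (R Rᴴ)`:

* `gram_log`  : `gdet (RF F z) = |F z|^(2(n+1)) * det (cH (log |F|²) z)`;
* `gram_flat` : `gdet (rows ∂_a θ) = det (cH |θ|² z)`;
* `gdet_row`  : if the rows of `R` are in the kernel of the covector `l` and `R` with one more row
                `w` is square, then `gdet (R, w) * |l|² = gdet R * |l(w)|²`.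
-/

set_option autoImplicit false
set_option linter.unusedSectionVars false

open Set Filter Topology Complex
open scoped ContDiff Matrix ComplexConjugate Manifold

namespace Crest.Agent.R257.Gram_835

open Crest.Agent.R275.Geo Crest.Agent.R275.Core144
open Crest.Agent.R273.Defs_333 Crest.Agent.R273.YauDefs_635 Crest.Agent.R273.YauMax_635
open Crest.Agent.R273.FS_333 Crest.Agent.R273.Kah_333
open Crest.Agent.R257.PN_835

noncomputable section

/-! ### linear algebra -/

section LA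

variable {α β : Type*} [Fintype α] [Fintype β] [DecidableEq α] [DecidableEq β]

/-- Gram determinant of the rows -/
def gdet (R : Matrix α β ℂ) : ℂ := (R * Rᴴ).det

/-- a new row -/
def addRow (R : Matrix α β ℂ) (w : β → ℂ) : Matrix (α ⊕ Unit) β ℂ :=
  Matrix.of (Sum.elim (fun a => R a) (fun _ => w))

theorem gdet_submatrix (R : Matrix α β ℂ) (e : β ≃ α) :
    gdet R = (R.submatrix e id).det * conj (R.submatrix e id).det := by
  unfold gdet
  have h1 : (R * Rᴴ).submatrix e e = R.submatrix e id * (R.submatrix e id)ᴴ := by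
    ext a b
    rw [Matrix.mul_apply]
    rfl
  rw [← Matrix.det_submatrix_equiv_self e, h1, Matrix.det_mul, Matrix.det_conjTranspose]
  rfl

theorem gdet_reindex {α' : Type*} [Fintype α'] [DecidableEq α'] (R : Matrix α β ℂ) (e : α' ≃ α) :
    gdet (R.submatrix e id) = gdet R := by
  unfold gdet
  have h1 : (R * Rᴴ).submatrix e e = R.submatrix e id * (R.submatrix e id)ᴴ := by
    ext a b
    rw [Matrix.mul_apply]
    rfl
  rw [← h1, Matrix.det_submatrix_equiv_self]

theorem gdet_reindex_col {β' : Type*} [Fintype β'] [DecidableEq β'] (R : Matrix α β ℂ)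
    (e : β' ≃ β) : gdet (R.submatrix id e) = gdet R := by
  unfold gdet
  rw [Matrix.conjTranspose_submatrix, Matrix.submatrix_mul_equiv R Rᴴ id e id]
  rfl

/-- the determinant with one more row, as a linear function of the row -/
theorem exists_rowLin (R : Matrix α β ℂ) (e : β ≃ α ⊕ Unit) : ∃ T : (β → ℂ) →ₗ[ℂ] ℂ,
    ∀ w, T w = ((addRow R w).submatrix e id).det := by
  refine ⟨Matrix.detRowAlternating.toMultilinearMap.toLinearMap
    (fun b => ((addRow R 0).submatrix e id) b) (e.symm (Sum.inr ())), fun w => ?_⟩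
  show Matrix.det (Function.update _ _ w) = _
  congr 1
  funext b
  by_cases hb : b = e.symm (Sum.inr ())
  · subst hb
    rw [Function.update_self]
    funext k
    simp [addRow]
  · rw [Function.update_of_ne hb]
    funext k
    rcases h : e b with a | u
    · simp [addRow, h]
    · exact absurd (by rw [← e.symm_apply_apply b, h]) hb

/-- pairing of a covector with a vector -/
def prg (l w : β → ℂ) : ℂ := ∑ k, l k * w k

/-- the conjugate gradient -/
theorem prg_conj (l : β → ℂ) : prg l (fun k => conj (l k)) = ((∑ k, ‖l k‖ ^ 2 : ℝ) : ℂ) := by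
  unfold prg
  rw [ofReal_sum]
  refine Finset.sum_congr rfl fun k _ => ?_
  rw [Complex.mul_conj, Complex.normSq_eq_norm_sq]

variable {R : Matrix α β ℂ} {l : β → ℂ}

theorem det_zero_of_ker (e : β ≃ α ⊕ Unit) (hl : l ≠ 0) (hR : ∀ a, prg l (R a) = 0) {w : β → ℂ}
    (hw : prg l w = 0) : ((addRow R w).submatrix e id).det = 0 := by
  refine Matrix.exists_mulVec_eq_zero_iff.1 ⟨l, hl, ?_⟩
  funext b
  show ∑ k, (addRow R w) (e b) k * l k = 0
  rcases e b with a | u
  · have := hR a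
    unfold prg at this
    rw [← this]
    exact Finset.sum_congr rfl fun k _ => mul_comm _ _
  · unfold prg at hw
    rw [← hw]
    exact Finset.sum_congr rfl fun k _ => mul_comm _ _


theorem prg_smul (l : β → ℂ) (c : ℂ) (w : β → ℂ) : prg l (c • w) = c * prg l w := by
  unfold prg
  rw [Finset.mul_sum]
  exact Finset.sum_congr rfl fun k _ => by rw [Pi.smul_apply, smul_eq_mul]; ring

theorem prg_sub (l w w' : β → ℂ) : prg l (w - w') = prg l w - prg l w' := by
  unfold prg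
  rw [← Finset.sum_sub_distrib]
  exact Finset.sum_congr rfl fun k _ => by rw [Pi.sub_apply, mul_sub]

/-- Gram determinant with an orthogonal row -/
theorem gdet_addRow_orth {w : β → ℂ} (h : ∀ a, ∑ k, R a k * conj (w k) = 0) :
    gdet (addRow R w) = gdet R * ((∑ k, ‖w k‖ ^ 2 : ℝ) : ℂ) := by
  unfold gdet
  have h1 : addRow R w * (addRow R w)ᴴ = Matrix.fromBlocks (R * Rᴴ) 0 0
      (Matrix.of fun _ _ => ((∑ k, ‖w k‖ ^ 2 : ℝ) : ℂ)) := by
    ext a b
    rw [Matrix.mul_apply]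
    rcases a with a | a <;> rcases b with b | b
    · rfl
    · show ∑ k, R a k * conj (w k) = 0
      exact h a
    · show ∑ k, w k * conj (R b k) = 0
      have h2 := congrArg conj (h b)
      rw [map_sum, map_zero] at h2
      rw [← h2]
      refine Finset.sum_congr rfl fun k _ => ?_
      rw [map_mul, Complex.conj_conj, mul_comm]
    · show ∑ k, w k * conj (w k) = ((∑ k, ‖w k‖ ^ 2 : ℝ) : ℂ)
      rw [ofReal_sum]
      exact Finset.sum_congr rfl fun k _ => by rw [Complex.mul_conj, Complex.normSq_eq_norm_sq]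
  rw [h1, Matrix.det_fromBlocks_zero₂₁, Matrix.det_unique (n := Unit)]
  rfl

/-- **adjunction**: rows in the kernel of a covector -/
theorem gdet_row (e : β ≃ α ⊕ Unit) (hl : l ≠ 0) (hR : ∀ a, prg l (R a) = 0) (w : β → ℂ) :
    gdet (addRow R w) * ((∑ k, ‖l k‖ ^ 2 : ℝ) : ℂ) = gdet R * ((‖prg l w‖ ^ 2 : ℝ) : ℂ) := by
  obtain ⟨T, hT⟩ := exists_rowLin R e
  set w0 : β → ℂ := fun k => conj (l k) with hw0
  set s : ℂ := ((∑ k, ‖l k‖ ^ 2 : ℝ) : ℂ) with hs
  have hs0 : s ≠ 0 := by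
    rw [hs, Ne, ofReal_eq_zero]
    obtain ⟨k, hk⟩ := Function.ne_iff.1 hl
    have h1 : 0 < ‖l k‖ ^ 2 := by
      have : l k ≠ 0 := hk
      positivity
    exact (h1.trans_le (Finset.single_le_sum (f := fun k => ‖l k‖ ^ 2) (fun _ _ => sq_nonneg _)
      (Finset.mem_univ k))).ne'
  have h1 : prg l w0 = s := prg_conj l
  -- proportionality
  have h2 : s * T w = prg l w * T w0 := by
    have h3 : T (s • w - (prg l w) • w0) = 0 := by
      rw [hT]
      refine det_zero_of_ker e hl hR ?_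
      rw [prg_sub, prg_smul, prg_smul, h1, mul_comm, sub_self]
    rw [map_sub, map_smul, map_smul, sub_eq_zero, smul_eq_mul, smul_eq_mul] at h3
    exact h3
  have h4 : ∀ w, gdet (addRow R w) = T w * conj (T w) := fun w => by
    rw [gdet_submatrix (addRow R w) e, hT]
  have h5 : gdet (addRow R w0) = gdet R * s := by
    rw [gdet_addRow_orth (R := R) (w := w0)]
    · rw [hs]
      simp only [hw0, RCLike.norm_conj]
    · intro a
      have := hR a
      unfold prg at this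
      rw [← this]
      refine Finset.sum_congr rfl fun k _ => ?_
      simp only [hw0, Complex.conj_conj]
      ring
  have hsc : conj s = s := by rw [hs]; exact conj_ofReal _
  have h6 : s * s * gdet (addRow R w) = ((‖prg l w‖ ^ 2 : ℝ) : ℂ) * (gdet R * s) := by
    rw [← h5, h4 w, h4 w0]
    have h7 := congrArg conj h2
    rw [map_mul, map_mul, hsc] at h7
    have h8 : ((‖prg l w‖ ^ 2 : ℝ) : ℂ) = prg l w * conj (prg l w) := by
      rw [Complex.mul_conj, Complex.normSq_eq_norm_sq]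
    rw [h8]
    calc s * s * (T w * conj (T w)) = (s * T w) * (s * conj (T w)) := by ring
      _ = (prg l w * T w0) * (conj (prg l w) * conj (T w0)) := by rw [h2, h7]
      _ = _ := by ring
  have h9 : s * (gdet (addRow R w) * s) = s * (gdet R * ((‖prg l w‖ ^ 2 : ℝ) : ℂ)) := by
    calc s * (gdet (addRow R w) * s) = s * s * gdet (addRow R w) := by ring
      _ = _ := by rw [h6]; ring
  exact mul_left_cancel₀ hs0 h9

end LA

/-! ### holomorphic maps -/

section Hol

variable {n m : ℕ}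

/-- partial derivatives -/
def pd (F : Cn n → Fin m → ℂ) (z : Cn n) (a : Fin n) : Fin m → ℂ := fun k =>
  fderiv ℂ (fun z => F z k) z (EuclideanSpace.single a 1)

/-- the matrix of the partial derivatives -/
def DF (F : Cn n → Fin m → ℂ) (z : Cn n) : Matrix (Fin n) (Fin m) ℂ := Matrix.of (pd F z)

/-- rows `F z, ∂_a F z` -/
def RF (F : Cn n → Fin m → ℂ) (z : Cn n) : Matrix (Unit ⊕ Fin n) (Fin m) ℂ :=
  Matrix.of (Sum.elim (fun _ => F z) (pd F z))

variable {F : Cn n → Fin m → ℂ} {U : Set (Cn n)} {z : Cn n}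

theorem contDiffAt_sq (hU : IsOpen U) (hF : ∀ k, DifferentiableOn ℂ (fun z => F z k) U)
    (hz : z ∈ U) : ContDiffAt ℝ ∞ (sq F) z := by
  refine ContDiffAt.sum fun k _ => ?_
  exact (contDiffAt_of_hol hU (hF k) hz).norm_sq ℝ

theorem gram_flat (hU : IsOpen U) (hF : ∀ k, DifferentiableOn ℂ (fun z => F z k) U)
    (hz : z ∈ U) : gdet (DF F z) = (cH (sq F) z).det := by
  unfold gdet
  congr 1
  rw [cH_eq_hess (contDiffAt_sq hU hF hz)]
  ext a b
  rw [hess_sq hU hF hz, Matrix.mul_apply]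
  rfl

theorem gram_log (hU : IsOpen U) (hF : ∀ k, DifferentiableOn ℂ (fun z => F z k) U)
    (hz : z ∈ U) (h0 : F z ≠ 0) : gdet (RF F z) =
      ((sq F z : ℝ) : ℂ) ^ (n + 1) * (cH (fun w => Real.log (sq F w)) z).det := by
  have hs := contDiffAt_sq hU hF hz
  have hp := sq_pos h0
  have hl : ContDiffAt ℝ ∞ (fun w => Real.log (sq F w)) z := hs.log hp.ne'
  set s : ℂ := ((sq F z : ℝ) : ℂ) with hsdef
  have hs0 : s ≠ 0 := by rw [hsdef, Ne, ofReal_eq_zero]; exact hp.ne'
  have hss : ∑ k, F z k * conj (F z k) = s := by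
    have := congrFun (cu_sq F) z
    exact this.symm
  let A : Matrix Unit Unit ℂ := Matrix.of fun _ _ => s
  let Bm : Matrix Unit (Fin n) ℂ := Matrix.of fun _ b => ∑ k, F z k * conj (pd F z b k)
  let Cm : Matrix (Fin n) Unit ℂ := Matrix.of fun a _ => ∑ k, pd F z a k * conj (F z k)
  let Dm : Matrix (Fin n) (Fin n) ℂ := Matrix.of fun a b => ∑ k, pd F z a k * conj (pd F z b k)
  have h1 : RF F z * (RF F z)ᴴ = Matrix.fromBlocks A Bm Cm Dm := by
    ext a b
    rw [Matrix.mul_apply]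
    rcases a with a | a <;> rcases b with b | b
    · exact hss
    · rfl
    · rfl
    · rfl
  let hinv : Invertible A := ⟨Matrix.of fun _ _ => s⁻¹, by
    ext i j
    rw [Matrix.mul_apply]
    simp [A, hs0], by
    ext i j
    rw [Matrix.mul_apply]
    simp [A, hs0]⟩
  have hdetA : A.det = s := Matrix.det_unique A
  have h2 : Dm - Cm * ⅟A * Bm = s • cH (fun w => Real.log (sq F w)) z := by
    rw [cH_eq_hess hl]
    ext a b
    rw [Matrix.smul_apply, hess_log hs hp, hess_sq hU hF hz, wd_sq hU hF hz, wd_sq' hU hF hz,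
      Matrix.sub_apply, Matrix.mul_apply]
    have h3 : ∀ u : Unit, (Cm * ⅟A) a u = (∑ k, pd F z a k * conj (F z k)) * s⁻¹ := by
      intro u
      rw [Matrix.mul_apply]
      simp only [Finset.univ_unique, Finset.sum_singleton]
      rfl
    simp only [Finset.univ_unique, Finset.sum_singleton, h3]
    show (∑ k, pd F z a k * conj (pd F z b k)) -
      (∑ k, pd F z a k * conj (F z k)) * s⁻¹ * (∑ k, F z k * conj (pd F z b k)) = _
    rw [smul_eq_mul, mul_sub, ← mul_assoc, mul_inv_cancel₀ hs0, one_mul]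
    congr 1
    have h4 : s * (s⁻¹ ^ 2 * ((∑ k, fderiv ℂ (fun z => F z k) z (EuclideanSpace.single a 1) *
        conj (F z k)) * ∑ k, F z k * conj (fderiv ℂ (fun z => F z k) z
          (EuclideanSpace.single b 1)))) = (s * s⁻¹) * s⁻¹ *
        ((∑ k, fderiv ℂ (fun z => F z k) z (EuclideanSpace.single a 1) *
        conj (F z k)) * ∑ k, F z k * conj (fderiv ℂ (fun z => F z k) z
          (EuclideanSpace.single b 1))) := by ring
    rw [h4, mul_inv_cancel₀ hs0, one_mul]
    unfold pd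
    ring
  unfold gdet
  rw [h1, Matrix.det_fromBlocks₁₁, hdetA, h2, Matrix.det_smul, Fintype.card_fin, pow_succ]
  ring

end Hol

end

end Crest.Agent.R257.Gram_835
end

-- ▼ part R257/HypL_835
section

/-!
# R257 (S0395), Part E (helper835): lifts to the cone over a hypersurface

* `gr X Z`, `ng X Z` : gradient and its squared norm;
* `Lift X F U`  : `F : U → cone`, holomorphic, nowhere zero, immersive modulo scaling;
* `lift_diffAt` : `z ↦ [F z]` is holomorphic in the charts of the hypersurface;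
* `eta2`        : `|η|²` for the residue form; `eta2_spec`, `det_log`.
-/

set_option autoImplicit false
set_option linter.unusedSectionVars false

open Set Filter Topology Complex
open scoped ContDiff Matrix ComplexConjugate Manifold

namespace Crest.Agent.R257.Hyp_835

open Crest.Agent.R275.Geo Crest.Agent.R275.Core144 Crest.Agent.R275.GC293
open Crest.Agent.R273.Fam_835 Crest.Agent.R273.Sub_835 Crest.Agent.R273.Reg_835
open Crest.Agent.R273.Defs_333 Crest.Agent.R273.Map_835 Crest.Agent.R273.PB_835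
open Crest.Agent.R273.FS_333 Crest.Agent.R273.YauDefs_635
open Crest.Agent.R257.PN_835 Crest.Agent.R257.Gram_835

noncomputable section

variable {n d : ℕ} (X : Hyp n d)

/-- the gradient covector -/
def Hyp.gr (Z : HC (n + 1)) : HC (n + 1) := fun k => fderiv ℂ X.H Z (Pi.single k 1)

/-- squared norm of the gradient -/
def Hyp.ng (Z : HC (n + 1)) : ℝ := ∑ k, ‖X.gr Z k‖ ^ 2

theorem Hyp.prg_gr (Z W : HC (n + 1)) : prg (X.gr Z) W = fderiv ℂ X.H Z W := by
  have h1 : W = ∑ k, W k • (Pi.single k (1 : ℂ) : HC (n + 1)) := by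
    funext j
    simp [Finset.sum_apply, Pi.single_apply]
  conv_rhs => rw [h1, map_sum]
  unfold prg Hyp.gr
  refine Finset.sum_congr rfl fun k _ => ?_
  rw [map_smul, smul_eq_mul, mul_comm]

theorem Hyp.gr_ne {Z : HC (n + 1)} (hZ : Z ≠ 0) (h0 : X.H Z = 0) : X.gr Z ≠ 0 := by
  intro h
  apply X.ns Z hZ h0
  ext W
  rw [← X.prg_gr, h]
  simp [prg]

theorem Hyp.ng_pos {Z : HC (n + 1)} (hZ : Z ≠ 0) (h0 : X.H Z = 0) : 0 < X.ng Z :=
  nsq_pos (X.gr_ne hZ h0)

/-- homogeneity of the derivative -/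
theorem Hyp.fderiv_smul (c : ℂ) (Z : HC (n + 1)) :
    c • fderiv ℂ X.H (c • Z) = c ^ d • fderiv ℂ X.H Z := by
  have h1 : HasFDerivAt (fun Z : HC (n + 1) => X.H (c • Z)) (c • fderiv ℂ X.H (c • Z)) Z := by
    have h2 : HasFDerivAt (fun Z : HC (n + 1) => c • Z)
        (c • ContinuousLinearMap.id ℂ (HC (n + 1))) Z := (hasFDerivAt_id Z).const_smul c
    have h3 := HasFDerivAt.comp Z (g := X.H) (X.diff (c • Z)).hasFDerivAt h2
    refine h3.congr_fderiv ?_
    ext v
    simp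
  have h2 : (fun Z : HC (n + 1) => X.H (c • Z)) = fun Z => c ^ d • X.H Z := by
    funext W
    rw [X.hom, smul_eq_mul]
  rw [h2] at h1
  exact h1.unique ((X.diff Z).hasFDerivAt.const_smul (c ^ d))

theorem Hyp.ng_smul (c : ℂ) (Z : HC (n + 1)) :
    ‖c‖ ^ 2 * X.ng (c • Z) = ‖c‖ ^ (2 * d) * X.ng Z := by
  have h1 : ∀ k, c * X.gr (c • Z) k = c ^ d * X.gr Z k := fun k =>
    congrArg (fun T : HC (n + 1) →L[ℂ] ℂ => T (Pi.single k 1)) (X.fderiv_smul c Z)
  unfold Hyp.ng
  rw [Finset.mul_sum, Finset.mul_sum]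
  refine Finset.sum_congr rfl fun k _ => ?_
  rw [← mul_pow, ← norm_mul, h1, norm_mul, norm_pow, mul_pow]
  ring

/-! ### lifts -/

/-- local lifts to the cone, immersive modulo scaling -/
structure Lift (F : Cn n → HC (n + 1)) (U : Set (Cn n)) : Prop where
  isOpen : IsOpen U
  hol : DifferentiableOn ℂ F U
  ne : ∀ z ∈ U, F z ≠ 0
  zero : ∀ z ∈ U, X.H (F z) = 0
  imm : ∀ z ∈ U, ∀ v : Cn n, (∃ c : ℂ, fderiv ℂ F z v = c • F z) → v = 0

variable {X}

namespace Lift

variable {F : Cn n → HC (n + 1)} {U : Set (Cn n)} (hF : Lift X F U)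
include hF

theorem diffAt {z : Cn n} (hz : z ∈ U) : DifferentiableAt ℂ F z :=
  hF.hol.differentiableAt (hF.isOpen.mem_nhds hz)

theorem holk (k : Fin (n + 2)) : DifferentiableOn ℂ (fun z => F z k) U := fun z hz =>
  (differentiableAt_pi.1 (hF.diffAt hz) k).differentiableWithinAt

theorem pd_eq {z : Cn n} (hz : z ∈ U) (a : Fin n) :
    pd F z a = fderiv ℂ F z (EuclideanSpace.single a 1) := by
  funext k
  have h1 := hasFDerivAt_pi'.1 (hF.diffAt hz).hasFDerivAt k
  show fderiv ℂ (fun z => F z k) z _ = _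
  rw [h1.fderiv]
  rfl

theorem ker_F {z : Cn n} (hz : z ∈ U) : prg (X.gr (F z)) (F z) = 0 := by
  rw [X.prg_gr]
  exact X.euler (hF.zero z hz)

theorem ker_dF {z : Cn n} (hz : z ∈ U) (v : Cn n) : fderiv ℂ X.H (F z) (fderiv ℂ F z v) = 0 := by
  have h1 : HasFDerivAt (fun z => X.H (F z)) ((fderiv ℂ X.H (F z)).comp (fderiv ℂ F z)) z :=
    HasFDerivAt.comp z (g := X.H) (X.diff _).hasFDerivAt (hF.diffAt hz).hasFDerivAt
  have h2 : HasFDerivAt (fun z => X.H (F z)) (0 : Cn n →L[ℂ] ℂ) z := by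
    refine (hasFDerivAt_const (0 : ℂ) z).congr_of_eventuallyEq ?_
    filter_upwards [hF.isOpen.mem_nhds hz] with w hw
    exact hF.zero w hw
  exact congrArg (fun T : Cn n →L[ℂ] ℂ => T v) (h1.unique h2)

theorem ker_RF {z : Cn n} (hz : z ∈ U) (a : Unit ⊕ Fin n) :
    prg (X.gr (F z)) (RF F z a) = 0 := by
  rcases a with a | a
  · exact hF.ker_F hz
  · show prg (X.gr (F z)) (pd F z a) = 0
    rw [hF.pd_eq hz, X.prg_gr]
    exact hF.ker_dF hz _

end Lift

/-- `|η|²` of the residue form -/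
def eta2 (X : Hyp n d) (F : Cn n → HC (n + 1)) (z : Cn n) : ℝ := (gdet (RF F z)).re / X.ng (F z)

/-- rows of the cone -/
def rowE (n : ℕ) : Fin (n + 2) ≃ (Unit ⊕ Fin n) ⊕ Unit :=
  Fintype.equivOfCardEq (by simp; ring)

theorem gdet_real {α β : Type*} [Fintype α] [Fintype β] [DecidableEq α] [DecidableEq β]
    (R : Matrix α β ℂ) : (((gdet R).re : ℝ) : ℂ) = gdet R := by
  have h1 : conj (gdet R) = gdet R := by
    unfold gdet
    have h2 : (R * Rᴴ)ᴴ = R * Rᴴ := by
      rw [Matrix.conjTranspose_mul, Matrix.conjTranspose_conjTranspose]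
    have h3 := Matrix.det_conjTranspose (R * Rᴴ)
    rw [h2] at h3
    exact h3.symm
  exact Complex.conj_eq_iff_re.1 h1

namespace Lift

variable {F : Cn n → HC (n + 1)} {U : Set (Cn n)} (hF : Lift X F U)
include hF

theorem gdet_eq {z : Cn n} (hz : z ∈ U) :
    gdet (RF F z) = ((eta2 X F z * X.ng (F z) : ℝ) : ℂ) := by
  have h1 := X.ng_pos (hF.ne z hz) (hF.zero z hz)
  rw [eta2, div_mul_cancel₀ _ h1.ne', gdet_real]

/-- **residue form**: `η(∂_1, …, ∂_n) = det (F, ∂F, w) / dH(w)` for every `w` -/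
theorem eta2_spec {z : Cn n} (hz : z ∈ U) (w : HC (n + 1)) :
    gdet (addRow (RF F z) w) = ((eta2 X F z * ‖fderiv ℂ X.H (F z) w‖ ^ 2 : ℝ) : ℂ) := by
  have h1 := X.ng_pos (hF.ne z hz) (hF.zero z hz)
  have h2 := gdet_row (rowE n) (X.gr_ne (hF.ne z hz) (hF.zero z hz)) (hF.ker_RF hz) w
  rw [hF.gdet_eq hz, X.prg_gr] at h2
  have h3 : ((∑ k, ‖X.gr (F z) k‖ ^ 2 : ℝ) : ℂ) = ((X.ng (F z) : ℝ) : ℂ) := rfl
  rw [h3] at h2
  have h4 : ((X.ng (F z) : ℝ) : ℂ) ≠ 0 := by rw [Ne, ofReal_eq_zero]; exact h1.ne'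
  apply mul_right_cancel₀ h4
  rw [h2]
  push_cast
  ring

/-- the volume form of the Fubini-Study metric -/
theorem det_log {z : Cn n} (hz : z ∈ U) :
    ((sq F z : ℝ) : ℂ) ^ (n + 1) * (cH (fun w => Real.log (sq F w)) z).det =
      ((eta2 X F z * X.ng (F z) : ℝ) : ℂ) := by
  rw [← gram_log hF.isOpen hF.holk hz (hF.ne z hz), hF.gdet_eq hz]

end Lift

/-- the chart lifts -/
theorem HAtl.lift (B : HAtl X) (i : B.A.ι) :
    Lift X (fun z => B.F i ((B.A.e i).symm z)) (B.A.e i).target where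
  isOpen := (B.A.e i).open_target
  hol z hz := (HAtl.F_diffAt hz).differentiableWithinAt
  ne z hz := HAtl.F_ne ((B.A.e i).map_target hz)
  zero z hz := HAtl.H_F ((B.A.e i).map_target hz)
  imm z hz v h := by
    obtain ⟨c, hc⟩ := h
    exact HAtl.F_imm hz hc

/-- **`z ↦ [F z]` is holomorphic in the charts of the hypersurface** -/
theorem lift_diffAt (B : HAtl X) {F : Cn n → HC (n + 1)} {U : Set (Cn n)} (hU : IsOpen U)
    (hol : DifferentiableOn ℂ F U) (hne : ∀ z ∈ U, F z ≠ 0) {x : Cn n → X.S}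
    (hx : ∀ z (hz : z ∈ U), (x z).1 = cls (F z) (hne z hz)) {z : Cn n} (hz : z ∈ U) {i : B.A.ι}
    (hi : x z ∈ (B.A.e i).source) :
    ContinuousAt x z ∧ DifferentiableAt ℂ (fun w => B.A.e i (x w)) z := by
  have hd : DifferentiableAt ℂ F z := hol.differentiableAt (hU.mem_nhds hz)
  -- continuity
  have hc1 : ContinuousAt (fun w => (x w).1) z := by
    have h1 : ContinuousAt (fun w => (x w).1.1) z := by
      have h2 : ContinuousAt (fun w => pm (F w)) z :=
        ContinuousAt.comp (g := pm) (continuousAt_pm (hne z hz)) hd.continuousAt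
      refine h2.congr ?_
      filter_upwards [hU.mem_nhds hz] with w hw
      rw [hx w hw]
      rfl
    rw [continuousAt_def]
    intro V hV
    obtain ⟨V', hV', hVV⟩ := mem_nhds_subtype _ _ _ |>.1 hV
    filter_upwards [h1.preimage_mem_nhds hV'] with y hy
    exact hVV hy
  have hc : ContinuousAt x z := by
    rw [continuousAt_def]
    intro V hV
    obtain ⟨V', hV', hVV⟩ := mem_nhds_subtype _ _ _ |>.1 hV
    filter_upwards [hc1.preimage_mem_nhds hV'] with y hy
    exact hVV hy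
  refine ⟨hc, ?_⟩
  obtain ⟨j, hj⟩ := Function.ne_iff.1 (hne z hz)
  have hj' : F z j ≠ 0 := hj
  set x0 := x z with hx0
  set c := X.isSub_S.ch x0 with hcdef
  have hxs : x0.1 ∈ c.ψ.source := X.isSub_S.mem_ch x0
  have hxj : x0.1 ∈ (aff j).source := by
    rw [hx0, hx z hz]
    exact (cls_mem_aff (hne z hz)).2 hj'
  have haff : aff j x0.1 = afc j (F z) := by
    rw [hx0, hx z hz, aff_cls (hne z hz) hj']
  -- the coordinates of the adapted chart
  have h1 : DifferentiableAt ℂ (fun y => c.ψ ((aff j).symm y)) (afc j (F z)) := by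
    refine (c.hol j).differentiableAt ((c.isOpen1 j).mem_nhds ⟨mem_univ _, ?_⟩)
    show (aff j).symm (afc j (F z)) ∈ c.ψ.source
    rw [← haff, (aff j).left_inv hxj]
    exact hxs
  have h2 : DifferentiableAt ℂ (fun w => c.pi (c.ψ ((aff j).symm (afc j (F w))))) z :=
    c.pi.differentiableAt.comp _ (DifferentiableAt.comp z (g := fun y => c.ψ ((aff j).symm y)) h1
      (DifferentiableAt.comp z (g := afc j) (differentiableAt_afc hj') hd))
  have hFj : ∀ᶠ w in 𝓝 z, F w j ≠ 0 :=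
    (continuousAt_pi.1 hd.continuousAt j).eventually_ne hj'
  have h3 : DifferentiableAt ℂ (fun w => (subFam X.isSub_S).e x0 (x w)) z := by
    refine h2.congr_of_eventuallyEq ?_
    filter_upwards [hU.mem_nhds hz, hFj] with w hw hwj
    show c.pi (c.ψ (x w).1) = c.pi (c.ψ ((aff j).symm (afc j (F w))))
    have h4 : (x w).1 ∈ (aff j).source := by
      rw [hx w hw]
      exact (cls_mem_aff (hne w hw)).2 hwj
    have h5 : afc j (F w) = aff j (x w).1 := by rw [hx w hw, aff_cls (hne w hw) hwj]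
    rw [h5, (aff j).left_inv h4]
  have hsrc : x0 ∈ ((subFam X.isSub_S).e x0).source := X.isSub_S.mem_ch x0
  have h6 : DifferentiableAt ℂ (fun z => B.A.e i (((subFam X.isSub_S).e x0).symm z))
      ((subFam X.isSub_S).e x0 x0) :=
    B.hol'.diffAt (i := x0) (j := i) (((subFam X.isSub_S).e x0).map_source hsrc) (by
      show ((subFam X.isSub_S).e x0).symm ((subFam X.isSub_S).e x0 x0) ∈ _
      rw [((subFam X.isSub_S).e x0).left_inv hsrc]; exact hi)
  have h7 : DifferentiableAt ℂ (fun w => B.A.e i (((subFam X.isSub_S).e x0).symm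
      ((subFam X.isSub_S).e x0 (x w)))) z :=
    DifferentiableAt.comp z (g := fun z => B.A.e i (((subFam X.isSub_S).e x0).symm z)) h6 h3
  refine h7.congr_of_eventuallyEq ?_
  have h8 : ∀ᶠ w in 𝓝 z, x w ∈ ((subFam X.isSub_S).e x0).source :=
    hc.preimage_mem_nhds (((subFam X.isSub_S).e x0).open_source.mem_nhds hsrc)
  filter_upwards [h8] with w hw
  rw [((subFam X.isSub_S).e x0).left_inv hw]

end

end Crest.Agent.R257.Hyp_835
end

-- ▼ part R257/KEl_835
section

/-!
# R257 (S0395), Part E (helper835): local rules for `cH` and `lev`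

* `cH_comp`, `det_cH_comp`, `lev_comp'` : composition with a holomorphic map;
* `cH_plh`, `lev_plh` : a term `c log |f|²` does not change `cH`, `lev`;
* `cH_mul`, `lev_mul` : real multiples.
-/

set_option autoImplicit false
set_option linter.unusedSectionVars false

open Set Filter Topology Complex
open scoped ContDiff Matrix ComplexConjugate Manifold

namespace Crest.Agent.R257.KEl_835

open Crest.Agent.R275.Geo Crest.Agent.R275.Core144
open Crest.Agent.R273.Defs_333 Crest.Agent.R273.YauDefs_635 Crest.Agent.R273.YauCh_635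
open Crest.Agent.R273

noncomputable section

variable {n m : ℕ}

theorem cH_eq {u : Cn n → ℝ} {z : Cn n} (h : ContDiffAt ℝ 2 u z) :
    cH u z = Matrix.of (Levi_145.hs (Levi_145.cx u) z) := by
  ext a b
  exact cH_eq_hs h a b

theorem D2_congr {u v : Cn n → ℝ} {z : Cn n} (h : u =ᶠ[𝓝 z] v) (a b : Cn n) :
    D2 u z a b = D2 v z a b := by
  unfold D2
  have h1 : fderiv ℝ u =ᶠ[𝓝 z] fderiv ℝ v := h.fderiv
  rw [h1.fderiv_eq]

theorem cH_congr {u v : Cn n → ℝ} {z : Cn n} (h : u =ᶠ[𝓝 z] v) : cH u z = cH v z := by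
  ext a b
  simp only [cH, Matrix.of_apply, D2_congr h]

theorem lev_congr {u v : Cn n → ℝ} {z : Cn n} (h : u =ᶠ[𝓝 z] v) (w : Cn n) :
    lev u z w = lev v z w := by
  rw [lev333_eq, lev333_eq, D2_congr h, D2_congr h]

/-- the Jacobian matrix (rows = source directions) -/
def Jm (T : Cn n → Cn m) (z : Cn n) : Matrix (Fin n) (Fin m) ℂ := Matrix.of fun a c =>
  (fderiv ℂ T z (EuclideanSpace.single a 1)) c

theorem cH_comp {u : Cn m → ℝ} {T : Cn n → Cn m} {z : Cn n} (hT : AnalyticAt ℂ T z)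
    (hu : ContDiffAt ℝ 2 u (T z)) :
    cH (fun w => u (T w)) z = Jm T z * cH u (T z) * (Jm T z)ᴴ := by
  have hTc : ContDiffAt ℝ 2 T z := hT.contDiffAt.restrict_scalars ℝ
  have hc : ContDiffAt ℝ 2 (fun w => u (T w)) z := hu.comp z hTc
  rw [cH_eq hc, cH_eq hu]
  ext a b
  rw [Matrix.mul_apply]
  simp only [Matrix.mul_apply, Matrix.of_apply, Matrix.conjTranspose_apply]
  have e : Levi_145.cx (fun w => u (T w)) = fun w => (Levi_145.cx u) (T w) := rfl
  rw [e, Levi_145.hs_comp hT (Levi_145.cx_c2 hu), Finset.sum_comm]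
  refine Finset.sum_congr rfl fun d _ => ?_
  rw [Finset.sum_mul]
  refine Finset.sum_congr rfl fun c _ => ?_
  simp only [Jm, Matrix.of_apply]
  show _ = _ * _ * (starRingEnd ℂ) _
  ring

theorem det_cH_comp {u : Cn n → ℝ} {T : Cn n → Cn n} {z : Cn n} (hT : AnalyticAt ℂ T z)
    (hu : ContDiffAt ℝ 2 u (T z)) :
    (cH (fun w => u (T w)) z).det = ((‖(Jm T z).det‖ ^ 2 : ℝ) : ℂ) * (cH u (T z)).det := by
  rw [cH_comp hT hu, Matrix.det_mul, Matrix.det_mul, Matrix.det_conjTranspose]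
  have h1 : ((‖(Jm T z).det‖ ^ 2 : ℝ) : ℂ) = (Jm T z).det * star (Jm T z).det := by
    show _ = _ * (starRingEnd ℂ) _
    rw [Complex.mul_conj, Complex.normSq_eq_norm_sq]
  rw [h1]
  ring

theorem lev_comp' {u : Cn m → ℝ} {T : Cn n → Cn m} {z : Cn n} (hT : AnalyticAt ℂ T z)
    (hu : ContDiffAt ℝ 2 u (T z)) (v : Cn n) :
    lev (fun w => u (T w)) z v = lev u (T z) (fderiv ℂ T z v) := by
  rw [lev333_eq_lev145, lev333_eq_lev145, Levi_145.lev_comp hT hu]

theorem c2_log {f : Cn n → ℂ} {z : Cn n} (hf : AnalyticAt ℂ f z) (h0 : f z ≠ 0) (k : WithTop ℕ∞) :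
    ContDiffAt ℝ k (fun w => Real.log (‖f w‖ ^ 2)) z :=
  Levi_145.c2_log_normSq hf h0 k

theorem cH_plh {u : Cn n → ℝ} {f : Cn n → ℂ} {z : Cn n} (hu : ContDiffAt ℝ 2 u z)
    (hf : AnalyticAt ℂ f z) (h0 : f z ≠ 0) (c : ℝ) :
    cH (fun w => u w + c * Real.log (‖f w‖ ^ 2)) z = cH u z := by
  have h1 := c2_log hf h0 2
  have h2 : ContDiffAt ℝ 2 (fun w => c * Real.log (‖f w‖ ^ 2)) z := contDiffAt_const.mul h1
  rw [cH_eq (hu.add h2), cH_eq hu]
  ext a b
  simp only [Matrix.of_apply]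
  have e : Levi_145.cx (fun w => u w + c * Real.log (‖f w‖ ^ 2)) =
      fun w => Levi_145.cx u w + (c : ℂ) * Levi_145.cx (fun w => Real.log (‖f w‖ ^ 2)) w := by
    funext w
    simp only [Levi_145.cx]
    push_cast
    ring
  rw [e, Levi_145.hs_add (Levi_145.cx_c2 hu) (contDiffAt_const.mul (Levi_145.cx_c2 h1)),
    Levi_145.hs_const_mul _ (Levi_145.cx_c2 h1), Levi_145.hs_log_normSq hf h0, mul_zero, add_zero]

theorem lev_plh {u : Cn n → ℝ} {f : Cn n → ℂ} {z : Cn n} (hu : ContDiffAt ℝ 2 u z)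
    (hf : AnalyticAt ℂ f z) (h0 : f z ≠ 0) (c : ℝ) (v : Cn n) :
    lev (fun w => u w + c * Real.log (‖f w‖ ^ 2)) z v = lev u z v := by
  have h1 := c2_log hf h0 2
  have h2 : ContDiffAt ℝ 2 (fun w => c * Real.log (‖f w‖ ^ 2)) z := contDiffAt_const.mul h1
  rw [lev333_eq_lev145, lev333_eq_lev145, Levi_145.lev_add hu h2, Levi_145.lev_const_mul _ h1,
    Levi_145.lev_log_normSq hf h0, mul_zero, add_zero]

theorem cH_mul {u : Cn n → ℝ} {z : Cn n} (hu : ContDiffAt ℝ 2 u z) (c : ℝ) :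
    cH (fun w => c * u w) z = (c : ℂ) • cH u z := by
  rw [cH_eq (contDiffAt_const.mul hu), cH_eq hu]
  ext a b
  rw [Matrix.smul_apply, Matrix.of_apply, Matrix.of_apply]
  have e : Levi_145.cx (fun w => c * u w) = fun w => (c : ℂ) * Levi_145.cx u w := by
    funext w
    simp only [Levi_145.cx]
    push_cast
    ring
  rw [e, Levi_145.hs_const_mul _ (Levi_145.cx_c2 hu), smul_eq_mul]

theorem lev_mul {u : Cn n → ℝ} {z : Cn n} (hu : ContDiffAt ℝ 2 u z) (c : ℝ) (v : Cn n) :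
    lev (fun w => c * u w) z v = c * lev u z v := by
  rw [lev333_eq_lev145, lev333_eq_lev145, Levi_145.lev_const_mul _ hu]
  ring

end

end Crest.Agent.R257.KEl_835
end

-- ▼ part R257/KE_835

/-!
# R257 (S0395), Part E (helper835): Kaehler-Einstein weights on the cone over a hypersurface

* `FF X κ`     : the right hand side of the Monge-Ampere equation, a smooth function on `X.S`;
* `H0 B κ`     : the metric of `O(κ)`, `κ = d - n - 2`;
* `Lift.chart` : lifts in the charts of the atlas;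
* `AYStmt`     : negative Aubin-Yau theorem;
* `KEw`        : Kaehler-Einstein weight; `kew_of` : from the solution of the Monge-Ampere equation.
-/

set_option autoImplicit false
set_option linter.unusedSectionVars false

open Set Filter Topology Complex
open scoped ContDiff Matrix ComplexConjugate Manifold

namespace Crest.Agent.R257.KE_835

open Crest.Agent.R275.Geo Crest.Agent.R275.Core144 Crest.Agent.R275.GC293
open Crest.Agent.R273.Fam_835 Crest.Agent.R273.Sub_835 Crest.Agent.R273.Reg_835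
open Crest.Agent.R273.Defs_333 Crest.Agent.R273.Map_835 Crest.Agent.R273.PB_835
open Crest.Agent.R273.FS_333 Crest.Agent.R273.YauDefs_635 Crest.Agent.R273.YauCh_635
open Crest.Agent.R273.HM_333
open Crest.Agent.R257.PN_835 Crest.Agent.R257.Gram_835 Crest.Agent.R257.Hyp_835
open Crest.Agent.R257.KEl_835
open Crest.Agent.R273.FS_333 (sq)

noncomputable section

/-- the negative Aubin-Yau theorem -/
def AYStmt : Prop :=
  ∀ (n : ℕ) (M : Type) [TopologicalSpace M] [T2Space M] [CompactSpace M]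
    (A : Atl n M) [Finite A.ι], GoodA A → Nonempty (Part A) →
    ∀ (L : LB A) (H : HM L), H.Pos → ∀ F : M → ℝ, A.Sm F →
      ∃ φ : M → ℝ, A.Sm φ ∧ KPos H φ ∧ MA H φ (fun x => F x + φ x)

variable {n d : ℕ} {X : Hyp n d}

/-! ### the right hand side -/

theorem ng_smul' (hd : 0 < d) {c : ℂ} (hc : c ≠ 0) (Z : HC (n + 1)) :
    X.ng (c • Z) = (‖c‖ ^ 2) ^ (d - 1) * X.ng Z := by
  have h1 := X.ng_smul c Z
  have h2 : ‖c‖ ^ (2 * d) = ‖c‖ ^ 2 * (‖c‖ ^ 2) ^ (d - 1) := by
    rw [pow_mul, ← pow_succ', Nat.sub_add_cancel hd]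
  rw [h2, mul_assoc] at h1
  have h3 : ‖c‖ ^ 2 ≠ 0 := by positivity
  exact mul_left_cancel₀ h3 h1

variable (X) in
/-- the right hand side on the cone -/
def FFc (κ : ℕ) (Z : HC (n + 1)) : ℝ :=
  - Real.log (X.ng Z / nsq Z ^ (d - 1)) - n * Real.log κ

theorem FFc_smul (hd : 0 < d) (κ : ℕ) {c : ℂ} (hc : c ≠ 0) (Z : HC (n + 1)) :
    FFc X κ (c • Z) = FFc X κ Z := by
  unfold FFc
  rw [ng_smul' hd hc, nsq_smul, mul_pow, mul_div_mul_left]
  exact pow_ne_zero _ (by positivity)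

/-- a representative -/
def rep (x : X.S) : HC (n + 1) := (exists_rep x.1).choose

theorem rep_ne (x : X.S) : rep x ≠ 0 := (exists_rep x.1).choose_spec.choose

theorem cls_rep (x : X.S) : cls (rep x) (rep_ne x) = x.1 :=
  (exists_rep x.1).choose_spec.choose_spec

/-- the right hand side -/
def FF (κ : ℕ) (x : X.S) : ℝ := FFc X κ (rep x)

theorem FF_eq (hd : 0 < d) (κ : ℕ) {Z : HC (n + 1)} (hZ : Z ≠ 0) {x : X.S} (h : cls Z hZ = x.1) :
    FF κ x = FFc X κ Z := by
  have h1 : cls (rep x) (rep_ne x) = cls Z hZ := (cls_rep x).trans h.symm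
  obtain ⟨c, hc⟩ := (cls_eq_iff _ _).1 h1
  have hc0 : c ≠ 0 := by
    rintro rfl
    rw [zero_smul] at hc
    exact rep_ne x hc
  rw [FF, hc, FFc_smul hd κ hc0]

theorem contDiffAt_ng {F : Cn n → HC (n + 1)} {U : Set (Cn n)} (hU : IsOpen U)
    (hF : DifferentiableOn ℂ F U) {z : Cn n} (hz : z ∈ U) :
    ContDiffAt ℝ ∞ (fun z => X.ng (F z)) z := by
  have hA : Differentiable ℂ (fderiv ℂ X.H) := by
    have h1 := (Crest.Agent.R266.SCV.analyticOnNhd_of_differentiableOn isOpen_univ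
      X.diff.differentiableOn).fderiv
    exact fun Z => (h1 Z (mem_univ _)).differentiableAt
  have h1 : ∀ k, DifferentiableOn ℂ (fun z => X.gr (F z) k) U := by
    intro k
    have h2 : DifferentiableOn ℂ (fun z => fderiv ℂ X.H (F z)) U :=
      hA.comp_differentiableOn hF
    exact h2.clm_apply (differentiableOn_const _)
  refine ContDiffAt.sum fun k _ => ?_
  exact (contDiffAt_of_hol hU (h1 k) hz).norm_sq ℝ

theorem contDiffAt_nsq {F : Cn n → HC (n + 1)} {U : Set (Cn n)} (hU : IsOpen U)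
    (hF : DifferentiableOn ℂ F U) {z : Cn n} (hz : z ∈ U) :
    ContDiffAt ℝ ∞ (fun z => nsq (F z)) z :=
  contDiffAt_sq hU (fun k => differentiableOn_pi.1 hF k) hz

variable {κ : ℕ} (B : HAtl X)

/-- the chart lift -/
def Fi (i : B.A.ι) (z : Cn n) : HC (n + 1) := B.F i ((B.A.e i).symm z)

theorem lift_Fi (i : B.A.ι) : Lift X (Fi B i) (B.A.e i).target := HAtl.lift B i

theorem FF_Fi (hd : 0 < d) (κ : ℕ) {i : B.A.ι} {z : Cn n} (hz : z ∈ (B.A.e i).target) :
    FF κ ((B.A.e i).symm z) = FFc X κ (Fi B i z) :=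
  FF_eq hd κ (HAtl.F_ne ((B.A.e i).map_target hz)) (HAtl.cls_F ((B.A.e i).map_target hz))

theorem FF_sm (hd : 0 < d) (κ : ℕ) : B.A.Sm (FF (X := X) κ) := by
  intro i
  have hL := lift_Fi B i
  have h1 : ContDiffOn ℝ ∞ (fun z => FFc X κ (Fi B i z)) (B.A.e i).target := by
    intro z hz
    refine ContDiffAt.contDiffWithinAt ?_
    have h2 := contDiffAt_ng (X := X) hL.isOpen hL.hol hz
    have h3 := contDiffAt_nsq hL.isOpen hL.hol hz
    have h4 : 0 < nsq (Fi B i z) := nsq_pos (hL.ne z hz)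
    have h5 : 0 < X.ng (Fi B i z) := X.ng_pos (hL.ne z hz) (hL.zero z hz)
    have h6 : ContDiffAt ℝ ∞ (fun z => X.ng (Fi B i z) / nsq (Fi B i z) ^ (d - 1)) z :=
      h2.div (h3.pow _) (pow_pos h4 _).ne'
    exact (h6.log (by positivity)).neg.sub contDiffAt_const
  refine h1.congr fun z hz => ?_
  exact FF_Fi B hd κ hz

/-- the metric of `O(κ)` -/
def H0 (κ : ℕ) : HM ((lb B.P) ^ κ) := pow (fs B.P) κ

theorem wt_H0 (κ : ℕ) (i : B.A.ι) (z : Cn n) :
    (H0 B κ).wt i z = κ * Real.log (sq (Fi B i) z) := by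
  rw [H0, wt_pow]
  congr 1
  simp only [HM.wt, fs, Real.log_inv, neg_neg]
  rfl

theorem H0_pos {κ : ℕ} (hκ : 0 < κ) : (H0 B κ).Pos := by
  intro i z hz v hv
  have h1 := fs_pos B.P i z hz v hv
  have h2 : (H0 B κ).wt i = fun z => (κ : ℝ) * (fs B.P).wt i z := by
    funext w
    rw [H0, wt_pow]
  have h3 : ContDiffAt ℝ 2 ((fs B.P).wt i) z := wt_c2 _ i hz
  rw [h2, lev_mul h3]
  positivity

/-! ### lifts in charts -/

variable {F : Cn n → HC (n + 1)} {U : Set (Cn n)}

theorem _root_.Crest.Agent.R257.Hyp_835.Lift.chart (hF : Lift X F U) {z₀ : Cn n} (hz : z₀ ∈ U) :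
    ∃ (i : B.A.ι) (g : Cn n → Cn n) (c : Cn n → ℂ) (V : Set (Cn n)), IsOpen V ∧ z₀ ∈ V ∧ V ⊆ U ∧
      (∀ w ∈ V, AnalyticAt ℂ g w) ∧ (∀ w ∈ V, AnalyticAt ℂ c w) ∧ (∀ w ∈ V, c w ≠ 0) ∧
      (∀ w ∈ V, g w ∈ (B.A.e i).target) ∧ (∀ w ∈ V, F w = c w • Fi B i (g w)) ∧
      (∀ w ∈ V, ∀ hn : F w ≠ 0, ((B.A.e i).symm (g w)).1 = cls (F w) hn) ∧
      (∀ w ∈ V, ∀ v, fderiv ℂ g w v = 0 → v = 0) := by
  classical
  set x : Cn n → X.S := fun w => if h : w ∈ U then ⟨cls (F w) (hF.ne w h),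
    (X.cls_mem (hF.ne w h)).2 (hF.zero w h)⟩ else ⟨cls (F z₀) (hF.ne z₀ hz),
    (X.cls_mem (hF.ne z₀ hz)).2 (hF.zero z₀ hz)⟩ with hxdef
  have hx : ∀ w (hw : w ∈ U), (x w).1 = cls (F w) (hF.ne w hw) := by
    intro w hw
    simp only [hxdef, dif_pos hw]
  obtain ⟨i, hi⟩ := B.A.cover (x z₀)
  have hcont : ContinuousOn x U := by
    intro w hw
    obtain ⟨j, hj⟩ := B.A.cover (x w)
    exact (lift_diffAt B hF.isOpen hF.hol hF.ne hx hw hj).1.continuousWithinAt
  set V : Set (Cn n) := U ∩ x ⁻¹' (B.A.e i).source with hV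
  have hVo : IsOpen V := hcont.isOpen_inter_preimage hF.isOpen (B.A.e i).open_source
  have hr : ∀ w ∈ V, F w (B.r i) ≠ 0 := by
    intro w hw
    have h1 := B.sub i (x w) hw.2
    rw [hx w hw.1] at h1
    exact (cls_mem_aff (hF.ne w hw.1)).1 h1
  have hgd : DifferentiableOn ℂ (fun w => B.A.e i (x w)) V := fun w hw =>
    (lift_diffAt B hF.isOpen hF.hol hF.ne hx hw.1 hw.2).2.differentiableWithinAt
  have hga : ∀ w ∈ V, AnalyticAt ℂ (fun w => B.A.e i (x w)) w :=
    Crest.Agent.R266.SCV.analyticOnNhd_of_differentiableOn hVo hgd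
  have hca : ∀ w ∈ V, AnalyticAt ℂ (fun w => F w (B.r i)) w :=
    Crest.Agent.R266.SCV.analyticOnNhd_of_differentiableOn hVo
      ((hF.holk (B.r i)).mono inter_subset_left)
  have hmul : ∀ w ∈ V, F w = F w (B.r i) • Fi B i (B.A.e i (x w)) := by
    intro w hw
    show F w = F w (B.r i) • lft (B.r i) ((B.A.e i).symm (B.A.e i (x w))).1
    rw [(B.A.e i).left_inv hw.2, hx w hw.1, lft_cls (hF.ne w hw.1) (hr w hw), smul_smul,
      mul_inv_cancel₀ (hr w hw), one_smul]
  refine ⟨i, fun w => B.A.e i (x w), fun w => F w (B.r i), V, hVo, ⟨hz, hi⟩, inter_subset_left,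
    hga, hca, hr, fun w hw => (B.A.e i).map_source hw.2, hmul, ?_, ?_⟩
  · intro w hw hn
    rw [(B.A.e i).left_inv hw.2, hx w hw.1]
  · intro w hw v hv
    refine hF.imm w hw.1 v ⟨(F w (B.r i))⁻¹ * fderiv ℂ (fun w => F w (B.r i)) w v, ?_⟩
    have ht : B.A.e i (x w) ∈ (B.A.e i).target := (B.A.e i).map_source hw.2
    have h1 : HasFDerivAt (Fi B i) (fderiv ℂ (Fi B i) (B.A.e i (x w))) (B.A.e i (x w)) :=
      ((lift_Fi B i).diffAt ht).hasFDerivAt
    have h2 := h1.comp w (hga w hw).differentiableAt.hasFDerivAt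
    have h3 := (hca w hw).differentiableAt.hasFDerivAt.smul h2
    have h4 : F =ᶠ[𝓝 w] (fun w => F w (B.r i)) • (Fi B i ∘ fun w => B.A.e i (x w)) := by
      filter_upwards [hVo.mem_nhds hw] with y hy
      exact hmul y hy
    have h5 : fderiv ℂ F w v = fderiv ℂ ((fun w => F w (B.r i)) •
        (Fi B i ∘ fun w => B.A.e i (x w))) w v := by rw [h4.fderiv_eq]
    rw [h5, h3.fderiv]
    have h6 : (fderiv ℂ (Fi B i) (B.A.e i (x w))) ((fderiv ℂ (fun w => B.A.e i (x w)) w) v) = 0 := by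
      rw [hv, map_zero]
    have h7 : (F w (B.r i) • (fderiv ℂ (Fi B i) (B.A.e i (x w))).comp
        (fderiv ℂ (fun w => B.A.e i (x w)) w) + (fderiv ℂ (fun w => F w (B.r i)) w).smulRight
        ((Fi B i ∘ fun w => B.A.e i (x w)) w)) v =
        F w (B.r i) • (fderiv ℂ (Fi B i) (B.A.e i (x w)))
          ((fderiv ℂ (fun w => B.A.e i (x w)) w) v) +
        (fderiv ℂ (fun w => F w (B.r i)) w v) • Fi B i (B.A.e i (x w)) := rfl
    rw [h7, h6, smul_zero, zero_add]
    have hc0 := hr w hw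
    refine Eq.symm ?_
    calc ((F w (B.r i))⁻¹ * fderiv ℂ (fun w => F w (B.r i)) w v) • F w
        = ((F w (B.r i))⁻¹ * fderiv ℂ (fun w => F w (B.r i)) w v) •
          (F w (B.r i) • Fi B i (B.A.e i (x w))) := congrArg _ (hmul w hw)
      _ = _ := by
        rw [smul_smul]
        congr 1
        field_simp

/-! ### the Kaehler-Einstein weight -/

open Classical in
/-- `φ` on the cone -/
def phE (φ : X.S → ℝ) (Z : HC (n + 1)) : ℝ :=
  if h : Z ≠ 0 ∧ X.H Z = 0 then φ ⟨cls Z h.1, (X.cls_mem h.1).2 h.2⟩ else 0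

theorem phE_eq (φ : X.S → ℝ) {Z : HC (n + 1)} (hZ : Z ≠ 0) (h0 : X.H Z = 0) {x : X.S}
    (hx : x.1 = cls Z hZ) : phE φ Z = φ x := by
  unfold phE
  rw [dif_pos ⟨hZ, h0⟩]
  congr 1
  exact Subtype.ext hx.symm

theorem phE_smul (φ : X.S → ℝ) {c : ℂ} (hc : c ≠ 0) {Z : HC (n + 1)} (hZ : Z ≠ 0)
    (h0 : X.H Z = 0) : phE φ (c • Z) = phE φ Z := by
  have h1 : X.H (c • Z) = 0 := by rw [X.hom, h0, mul_zero]
  rw [phE_eq φ (smul_ne_zero hc hZ) h1 (x := ⟨cls Z hZ, (X.cls_mem hZ).2 h0⟩)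
    (cls_smul hc hZ).symm, phE_eq φ hZ h0 (x := ⟨cls Z hZ, (X.cls_mem hZ).2 h0⟩) rfl]

/-- the weight on the cone -/
def Wc (κ : ℕ) (φ : X.S → ℝ) (Z : HC (n + 1)) : ℝ := κ * Real.log (nsq Z) + phE φ Z

/-- Kaehler-Einstein weight on the cone -/
structure KEw (X : Hyp n d) (κ : ℕ) (W : HC (n + 1) → ℝ) : Prop where
  hom : ∀ (c : ℂ) (Z : HC (n + 1)), c ≠ 0 → Z ≠ 0 → X.H Z = 0 →
    W (c • Z) = W Z + κ * Real.log (‖c‖ ^ 2)
  sm : ∀ (F : Cn n → HC (n + 1)) (U : Set (Cn n)), Lift X F U →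
    ContDiffOn ℝ ∞ (fun z => W (F z)) U
  pos : ∀ (F : Cn n → HC (n + 1)) (U : Set (Cn n)), Lift X F U → ∀ z ∈ U, ∀ v : Cn n, v ≠ 0 →
    0 < lev (fun z => W (F z)) z v
  ke : ∀ (F : Cn n → HC (n + 1)) (U : Set (Cn n)), Lift X F U → ∀ z ∈ U,
    (cH (fun z => W (F z)) z).det = ((Real.exp (W (F z)) * eta2 X F z : ℝ) : ℂ)

variable {B}

theorem pot_eq (κ : ℕ) (φ : X.S → ℝ) (i : B.A.ι) (z : Cn n) :
    pot (H0 B κ) φ i z = κ * Real.log (nsq (Fi B i z)) + φ ((B.A.e i).symm z) := by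
  rw [pot, wt_H0]
  rfl

theorem pot_sm {φ : X.S → ℝ} (hφ : B.A.Sm φ) (κ : ℕ) {i : B.A.ι} {z : Cn n}
    (hz : z ∈ (B.A.e i).target) : ContDiffAt ℝ ∞ (pot (H0 B κ) φ i) z :=
  (((wt_smooth (H0 B κ) i).add (hφ i)).contDiffAt ((B.A.e i).open_target.mem_nhds hz))

/-- the Monge-Ampere equation in the charts -/
theorem ma_chart (hd : d = n + 2 + κ) (hκ : 0 < κ) {φ : X.S → ℝ}
    (hMA : MA (H0 B κ) φ (fun x => FF κ x + φ x)) {i : B.A.ι} {z : Cn n}
    (hz : z ∈ (B.A.e i).target) :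
    (cH (pot (H0 B κ) φ i) z).det =
      ((Real.exp (pot (H0 B κ) φ i z) * eta2 X (Fi B i) z : ℝ) : ℂ) := by
  have hd0 : 0 < d := by omega
  have hL := lift_Fi B i
  have h1 := hMA i z hz
  have hs : ContDiffAt ℝ ∞ (fun w => Real.log (sq (Fi B i) w)) z := by
    have h2 := contDiffAt_nsq hL.isOpen hL.hol hz
    exact h2.log (nsq_pos (hL.ne z hz)).ne'
  have hwt : (H0 B κ).wt i = fun w => (κ : ℝ) * Real.log (sq (Fi B i) w) := by
    funext w
    exact wt_H0 B κ i w
  have h2 : (cH ((H0 B κ).wt i) z).det = (κ : ℂ) ^ n *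
      (cH (fun w => Real.log (sq (Fi B i) w)) z).det := by
    rw [hwt, cH_mul (hs.of_le two_le_inf), Matrix.det_smul, Fintype.card_fin]
    norm_cast
  have h3 := hL.det_log hz
  have hq : 0 < nsq (Fi B i z) := nsq_pos (hL.ne z hz)
  have hg : 0 < X.ng (Fi B i z) := X.ng_pos (hL.ne z hz) (hL.zero z hz)
  have hqe : sq (Fi B i) z = nsq (Fi B i z) := rfl
  have hκ' : (0 : ℝ) < κ := by exact_mod_cast hκ
  have h4 : Real.exp (FFc X κ (Fi B i z)) * (κ : ℝ) ^ n * X.ng (Fi B i z) =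
      nsq (Fi B i z) ^ (d - 1) := by
    unfold FFc
    rw [sub_eq_add_neg, Real.exp_add, Real.exp_neg, Real.exp_log (by positivity), Real.exp_neg,
      Real.exp_nat_mul, Real.exp_log hκ']
    field_simp
  rw [h1, h2, pot_eq, inC]
  rw [FF_Fi B hd0 κ hz, Real.exp_add, Real.exp_add]
  have h5 : Real.exp (κ * Real.log (nsq (Fi B i z))) = nsq (Fi B i z) ^ κ := by
    rw [Real.exp_nat_mul, Real.exp_log hq]
  rw [h5]
  have h6 : (((nsq (Fi B i z) : ℝ) : ℂ)) ^ (n + 1) ≠ 0 := by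
    refine pow_ne_zero _ ?_
    rw [Ne, ofReal_eq_zero]
    exact hq.ne'
  apply mul_left_cancel₀ h6
  rw [hqe] at h3
  have h7 : d - 1 = n + 1 + κ := by omega
  rw [h7, pow_add] at h4
  have h8 : ((nsq (Fi B i z) : ℝ) : ℂ) ^ (n + 1) * (((Real.exp (FFc X κ (Fi B i z)) *
      Real.exp (φ ((B.A.e i).symm z)) : ℝ) : ℂ) * ((κ : ℂ) ^ n *
        (cH (fun w => Real.log (sq (Fi B i) w)) z).det)) =
      ((Real.exp (FFc X κ (Fi B i z)) * Real.exp (φ ((B.A.e i).symm z)) : ℝ) : ℂ) * (κ : ℂ) ^ n *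
      (((nsq (Fi B i z) : ℝ) : ℂ) ^ (n + 1) *
        (cH (fun w => Real.log (sq (Fi B i) w)) z).det) := by ring
  rw [h8, h3]
  have h9 := congrArg (fun r : ℝ => (r : ℂ)) h4
  push_cast at h9 ⊢
  linear_combination Complex.exp ((φ ((B.A.e i).symm z) : ℝ) : ℂ) *
    ((eta2 X (Fi B i) z : ℝ) : ℂ) * h9

/-- **the weight of the solution** -/
theorem kew_of (hd : d = n + 2 + κ) (hκ : 0 < κ) {φ : X.S → ℝ} (hφ : B.A.Sm φ)
    (hpos : KPos (H0 B κ) φ) (hMA : MA (H0 B κ) φ (fun x => FF κ x + φ x)) :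
    KEw X κ (Wc κ φ) := by
  have hd0 : 0 < d := by omega
  -- the local form
  have key : ∀ (F : Cn n → HC (n + 1)) (U : Set (Cn n)), Lift X F U → ∀ z ∈ U,
      ContDiffAt ℝ ∞ (fun z => Wc κ φ (F z)) z ∧
      (∀ v : Cn n, v ≠ 0 → 0 < lev (fun z => Wc κ φ (F z)) z v) ∧
      (cH (fun z => Wc κ φ (F z)) z).det =
        ((Real.exp (Wc κ φ (F z)) * eta2 X F z : ℝ) : ℂ) := by
    intro F U hF z hz
    obtain ⟨i, g, c, V, hVo, hzV, hVU, hg, hc, hc0, ht, hm, hcl, him⟩ := hF.chart B hz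
    have hn : ∀ w ∈ V, F w ≠ 0 := fun w hw => hF.ne w (hVU hw)
    have hLi := lift_Fi B i
    -- logarithm of the norm
    have e1 : ∀ w ∈ V, Real.log (nsq (F w)) = Real.log (nsq (Fi B i (g w))) +
        1 * Real.log (‖c w‖ ^ 2) := by
      intro w hw
      have h1 : 0 < ‖c w‖ ^ 2 := by
        have := hc0 w hw
        positivity
      have h2 := nsq_pos (hLi.ne _ (ht w hw))
      rw [hm w hw, nsq_smul, Real.log_mul h1.ne' h2.ne', one_mul, add_comm]
    have e2 : ∀ w ∈ V, Wc κ φ (F w) = pot (H0 B κ) φ i (g w) + κ * Real.log (‖c w‖ ^ 2) := by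
      intro w hw
      rw [Wc, e1 w hw, phE_eq φ (hn w hw) (hF.zero w (hVU hw)) (hcl w hw (hn w hw)), pot_eq]
      ring
    have E2 : (fun w => Wc κ φ (F w)) =ᶠ[𝓝 z]
        fun w => pot (H0 B κ) φ i (g w) + κ * Real.log (‖c w‖ ^ 2) := by
      filter_upwards [hVo.mem_nhds hzV] with w hw
      exact e2 w hw
    have E1 : (fun w => Real.log (nsq (F w))) =ᶠ[𝓝 z]
        fun w => Real.log (nsq (Fi B i (g w))) + 1 * Real.log (‖c w‖ ^ 2) := by
      filter_upwards [hVo.mem_nhds hzV] with w hw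
      exact e1 w hw
    have hgz := hg z hzV
    have hcz := hc z hzV
    have hcz0 := hc0 z hzV
    have htz := ht z hzV
    have hps := pot_sm hφ κ htz
    have hgr : ContDiffAt ℝ ∞ g z := hgz.contDiffAt.restrict_scalars ℝ
    have hpg : ContDiffAt ℝ ∞ (fun w => pot (H0 B κ) φ i (g w)) z := hps.comp z hgr
    have hls : ContDiffAt ℝ ∞ (fun w => Real.log (sq (Fi B i) w)) (g z) :=
      (contDiffAt_nsq hLi.isOpen hLi.hol htz).log (nsq_pos (hLi.ne _ htz)).ne'
    have hlg : ContDiffAt ℝ ∞ (fun w => Real.log (sq (Fi B i) (g w))) z := hls.comp z hgr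
    refine ⟨?_, fun v hv => ?_, ?_⟩
    · refine ContDiffAt.congr_of_eventuallyEq ?_ E2
      exact hpg.add (contDiffAt_const.mul (c2_log hcz hcz0 _))
    · rw [lev_congr E2, lev_plh (hpg.of_le two_le_inf) hcz hcz0, lev_comp' hgz
        (hps.of_le two_le_inf)]
      refine hpos i _ htz _ fun h => hv (him z hzV v h)
    · -- determinants
      have h1 : (cH (fun z => Wc κ φ (F z)) z).det = ((‖(Jm g z).det‖ ^ 2 : ℝ) : ℂ) *
          ((Real.exp (pot (H0 B κ) φ i (g z)) * eta2 X (Fi B i) (g z) : ℝ) : ℂ) := by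
        rw [cH_congr E2, cH_plh (hpg.of_le two_le_inf) hcz hcz0,
          det_cH_comp hgz (hps.of_le two_le_inf), ma_chart hd hκ hMA htz]
      have h2 : (cH (fun w => Real.log (sq F w)) z).det = ((‖(Jm g z).det‖ ^ 2 : ℝ) : ℂ) *
          (cH (fun w => Real.log (sq (Fi B i) w)) (g z)).det := by
        have h3 : (cH (fun w => Real.log (sq F w)) z).det =
            (cH (fun w => Real.log (sq (Fi B i) (g w)) + 1 * Real.log (‖c w‖ ^ 2)) z).det := by
          exact congrArg Matrix.det (cH_congr (u := fun w => Real.log (sq F w))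
            (v := fun w => Real.log (sq (Fi B i) (g w)) + 1 * Real.log (‖c w‖ ^ 2)) E1)
        rw [h3, cH_plh (hlg.of_le two_le_inf) hcz hcz0]
        exact det_cH_comp (u := fun w => Real.log (sq (Fi B i) w)) hgz (hls.of_le two_le_inf)
      have h3 := hF.det_log hz
      have h4 := hLi.det_log htz
      rw [h2] at h3
      have hqe : sq F z = nsq (F z) := rfl
      have hqi : sq (Fi B i) (g z) = nsq (Fi B i (g z)) := rfl
      rw [hqe] at h3
      rw [hqi] at h4
      have hm' := hm z hzV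
      have h5 : nsq (F z) = ‖c z‖ ^ 2 * nsq (Fi B i (g z)) := by rw [hm', nsq_smul]
      have h6 : X.ng (F z) = (‖c z‖ ^ 2) ^ (d - 1) * X.ng (Fi B i (g z)) := by
        rw [hm', ng_smul' hd0 hcz0]
      have h7 : 0 < X.ng (Fi B i (g z)) := X.ng_pos (hLi.ne _ htz) (hLi.zero _ htz)
      have h8 : 0 < ‖c z‖ ^ 2 := by positivity
      -- ratio invariance
      set a : ℝ := ‖c z‖ ^ 2 with ha
      set q : ℝ := nsq (Fi B i (g z)) with hq
      set γ : ℝ := X.ng (Fi B i (g z)) with hγ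
      set J : ℝ := ‖(Jm g z).det‖ ^ 2 with hJ
      set D : ℂ := (cH (fun w => Real.log (sq (Fi B i) w)) (g z)).det with hD
      have h9 : (((a : ℝ) : ℂ) ^ (n + 1)) * ((J : ℝ) : ℂ) * ((eta2 X (Fi B i) (g z) * γ : ℝ) : ℂ) =
          ((eta2 X F z * (a ^ (d - 1) * γ) : ℝ) : ℂ) := by
        rw [← h6, ← h3, ← h4, h5]
        push_cast
        ring
      have h10 : a ^ (n + 1) * J * (eta2 X (Fi B i) (g z) * γ) =
          eta2 X F z * (a ^ (d - 1) * γ) := by
        exact_mod_cast h9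
      have h11 : d - 1 = n + 1 + κ := by omega
      have h12 : J * eta2 X (Fi B i) (g z) = eta2 X F z * a ^ κ := by
        have h13 : (a ^ (n + 1) * γ) * (J * eta2 X (Fi B i) (g z)) =
            (a ^ (n + 1) * γ) * (eta2 X F z * a ^ κ) := by
          rw [h11, pow_add] at h10
          linear_combination h10
        exact mul_left_cancel₀ (by positivity) h13
      have h13 : Real.exp (Wc κ φ (F z)) = Real.exp (pot (H0 B κ) φ i (g z)) * a ^ κ := by
        rw [e2 z hzV, Real.exp_add]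
        congr 1
        rw [Real.exp_nat_mul, Real.exp_log h8]
      rw [h1, h13, ← ofReal_mul]
      congr 1
      linear_combination Real.exp (pot (H0 B κ) φ i (g z)) * h12
  refine ⟨fun c Z hc hZ h0 => ?_, fun F U hF z hz => (key F U hF z hz).1.contDiffWithinAt,
    fun F U hF z hz => (key F U hF z hz).2.1, fun F U hF z hz => (key F U hF z hz).2.2⟩
  have h1 : 0 < ‖c‖ ^ 2 := by positivity
  rw [Wc, Wc, nsq_smul, Real.log_mul h1.ne' (nsq_pos hZ).ne', phE_smul φ hc hZ h0]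
  ring

/-- **existence** -/
theorem exists_kew (hAY : AYStmt) (B : HAtl X) {κ : ℕ} (hd : d = n + 2 + κ) (hκ : 0 < κ) :
    ∃ φ : X.S → ℝ, B.A.Sm φ ∧ KPos (H0 B κ) φ ∧ MA (H0 B κ) φ (fun x => FF κ x + φ x) ∧
      KEw X κ (Wc κ φ) := by
  have := B.fin
  obtain ⟨φ, h1, h2, h3⟩ := hAY n X.S B.A B.good B.part _ (H0 B κ) (H0_pos B hκ) (FF κ)
    (FF_sm B (by omega) κ)
  exact ⟨φ, h1, h2, h3, kew_of hd hκ h1 h2 h3⟩

end

end Crest.Agent.R257.KE_835
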