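import Crest.Agent.R257.LimC_37
import Crest.Agent.R257.Defs_219
import Crest.Agent.R257.Unif_835
import Crest.Agent.R257.KED_952
import Crest.Agent.R257.Loc_835
import Crest.Agent.R257.AYTop_209
import Crest.Agent.R257.KE_835
import Crest.Agent.R257.CLH_39
import Crest.Agent.R257.EHyp_835

-- ▼ part R257/LimD_37
section

/-!
Row 257 (S0395), leaf E-LIM, helper37: limits of Kaehler-Einstein potentials on a holomorphic
family of levels `{g τ = σ τ}`, `τ → τ₀` along a filter.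

* `CCv l S φ x a`  : continuous convergence of functions on moving sets `S i`, at one point;
  `ccv_iff` : the same as `Tendsto (fun q => φ q.1 q.2) ((l ×ˢ 𝓝 x) ⊓ 𝓟 {q | q.2 ∈ S q.1}) (𝓝 a)`
* `Sit g σ D τ₀ C l τ u` : the situation;
* `CC g σ D τ₀ l τ u u₀` : continuous convergence at all points of `{g τ₀ = σ τ₀} ∩ D`;
* `exists_lim` : along an ultrafilter there is a limit;
* `Sit.conv`, `Sit.conv_at` : all derivatives converge in every analytic family of
  parametrisations, `Sit.keon`, `Sit.bdon` : the limit is again such a potential.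
-/

set_option autoImplicit false
set_option linter.unusedSectionVars false

open Set Filter Topology Complex
open scoped ContDiff ComplexConjugate Matrix

namespace Crest.Agent.R257.LimD_37

open Crest.Agent.R275.Geo Crest.Agent.R275.Core144
open Crest.Agent.R273.Defs_333 Crest.Agent.R273.YauDefs_635 Crest.Agent.R273.YauCh_635
open Crest.Agent.R257.PN_835 Crest.Agent.R257.Gram_835 Crest.Agent.R257.Aff_835
open Crest.Agent.R257.LimA_37 Crest.Agent.R257.LimB_37 Crest.Agent.R257.LimC_37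
open Crest.Agent.R257.Loc_835 Crest.Agent.R257.ELoc_611
open Crest.Agent.R273

noncomputable section

/-! ### continuous convergence -/

section cc

variable {ι E : Type*} [TopologicalSpace E]

/-- continuous convergence of functions on moving sets, at one point -/
def CCv (l : Filter ι) (S : ι → Set E) (φ : ι → E → ℝ) (x : E) (a : ℝ) : Prop :=
  ∀ ε > 0, ∃ M ∈ 𝓝 x, ∀ᶠ i in l, ∀ y ∈ M, y ∈ S i → |φ i y - a| < ε


/-- convergence along points which converge -/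
theorem CCv.tendsto {l : Filter ι} {S : ι → Set E} {φ : ι → E → ℝ} {x : E} {a : ℝ}
    (h : CCv l S φ x a) {y : ι → E} (hy : Tendsto y l (𝓝 x)) (hS : ∀ᶠ i in l, y i ∈ S i) :
    Tendsto (fun i => φ i (y i)) l (𝓝 a) := by
  rw [Metric.tendsto_nhds]
  intro ε hε
  obtain ⟨M, hM, h1⟩ := h ε hε
  filter_upwards [h1, hy.eventually hM, hS] with i h2 h3 h4
  rw [Real.dist_eq]
  exact h2 _ h3 h4

theorem CCv.mono {l l' : Filter ι} {S : ι → Set E} {φ : ι → E → ℝ} {x : E} {a : ℝ}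
    (h : CCv l S φ x a) (hl : l' ≤ l) : CCv l' S φ x a := by
  intro ε hε
  obtain ⟨M, hM, h1⟩ := h ε hε
  exact ⟨M, hM, hl h1⟩

theorem CCv.comp {κ : Type*} {l : Filter ι} {l' : Filter κ} {S : ι → Set E} {φ : ι → E → ℝ}
    {x : E} {a : ℝ} (h : CCv l S φ x a) {f : κ → ι} (hf : Tendsto f l' l) :
    CCv l' (fun i => S (f i)) (fun i => φ (f i)) x a := by
  intro ε hε
  obtain ⟨M, hM, h1⟩ := h ε hε
  exact ⟨M, hM, hf.eventually h1⟩

end cc

variable {n : ℕ} {P : Type*} [NormedAddCommGroup P] [NormedSpace ℂ P]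
variable {g : P → AC n → ℂ} {σ : P → ℂ} {D : Set (AC n)} {τ₀ : P} {x₀ : AC n} {C : ℝ}

/-- the level of the parameter `τ` -/
def lvl (g : P → AC n → ℂ) (σ : P → ℂ) (τ : P) : Set (AC n) := {x | g τ x = σ τ}

/-- a smaller chart -/
def _root_.Crest.Agent.R257.LimA_37.Cht.restrict (c : Cht g σ D τ₀ x₀) {ρ' : ℝ} (h0 : 0 < ρ')
    (hρ : ρ' ≤ c.ρ) {T' : Set P} (hT : IsOpen T') (hT' : T' ⊆ c.T) (hm : τ₀ ∈ T') :
    Cht g σ D τ₀ x₀ where
  ρ := ρ'
  ρ_pos := h0
  T := T'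
  T_open := hT
  mem_T := hm
  N := c.N ∩ (fun x => c.π (x - x₀)) ⁻¹' Metric.ball 0 ρ'
  N_open := c.N_open.inter (Metric.isOpen_ball.preimage
    (c.π.continuous.comp (continuous_id.sub continuous_const)))
  mem_N := ⟨c.mem_N, by
    show c.π (x₀ - x₀) ∈ Metric.ball (0 : Cn n) ρ'
    rw [sub_self, map_zero]
    exact Metric.mem_ball_self h0⟩
  Θ := c.Θ
  an z hz τ hτ := c.an z (Metric.ball_subset_ball hρ hz) τ (hT' hτ)
  par τ hτ := (c.par τ (hT' hτ)).mono Metric.isOpen_ball (Metric.ball_subset_ball hρ)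
  maps z hz τ hτ := c.maps z (Metric.ball_subset_ball hρ hz) τ (hT' hτ)
  π := c.π
  left z hz τ hτ := c.left z (Metric.ball_subset_ball hρ hz) τ (hT' hτ)
  right x hx τ hτ hxτ := ⟨hx.2, (c.right x hx.1 τ (hT' hτ) hxτ).2⟩
  zero := c.zero

/-- charts with all good properties -/
theorem exists_good [CompleteSpace P] (hD : IsOpen D) (hx₀ : x₀ ∈ D) (h0 : g τ₀ x₀ = σ τ₀)
    (hJ : AnalyticAt ℂ (jn g σ) (x₀, τ₀)) (hreg : fderiv ℂ (g τ₀) x₀ ≠ 0) :
    ∃ c : Cht g σ D τ₀ x₀, PF g σ D (Metric.ball 0 c.ρ) c.T c.Θ := by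
  obtain ⟨c⟩ := exists_cht hD hx₀ h0 hJ hreg
  have hz0 : (0 : Cn n) ∈ Metric.ball (0 : Cn n) c.ρ := Metric.mem_ball_self c.ρ_pos
  have hΘ : AnalyticAt ℂ c.Θ (0, τ₀) := c.an 0 hz0 τ₀ c.mem_T
  have hφ : AnalyticAt ℂ (fun p : Cn n × P => (c.Θ p, p.2)) (0, τ₀) := hΘ.prod analyticAt_snd
  have hJ' : AnalyticAt ℂ (jn g σ) (c.Θ (0, τ₀), τ₀) := by rw [c.zero]; exact hJ
  have h1 : ∀ᶠ p : Cn n × P in 𝓝 (0, τ₀), AnalyticAt ℂ (jn g σ) (c.Θ p, p.2) :=
    hφ.continuousAt.eventually hJ'.eventually_analyticAt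
  have h2 : ContinuousAt (fun p : Cn n × P => nga (g p.2) (c.Θ p)) (0, τ₀) :=
    (smooth_nga_comp (φ := fun p : Cn n × P => (c.Θ p, p.2)) hφ hJ').continuousAt
  have h3 : 0 < nga (g τ₀) (c.Θ (0, τ₀)) := by
    rw [c.zero]
    exact nga_pos hreg
  have h4 : ∀ᶠ p : Cn n × P in 𝓝 (0, τ₀), 0 < nga (g p.2) (c.Θ p) := h2.eventually_const_lt h3
  obtain ⟨U₁, hU₁, T₁, hT₁, hUT⟩ := mem_nhds_prod_iff.1 (h1.and h4)
  obtain ⟨ρ₁, hρ₁, hρU⟩ := Metric.mem_nhds_iff.1 hU₁
  refine ⟨c.restrict (lt_min c.ρ_pos hρ₁) (min_le_left _ _) (isOpen_interior.inter c.T_open)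
    (T' := interior T₁ ∩ c.T) inter_subset_right
    ⟨mem_interior_iff_mem_nhds.2 hT₁, c.mem_T⟩, ?_⟩
  set c' := c.restrict (lt_min c.ρ_pos hρ₁) (min_le_left _ _) (isOpen_interior.inter c.T_open)
    (T' := interior T₁ ∩ c.T) inter_subset_right
    ⟨mem_interior_iff_mem_nhds.2 hT₁, c.mem_T⟩ with hc'
  have key : ∀ z ∈ Metric.ball (0 : Cn n) c'.ρ, ∀ τ ∈ c'.T, AnalyticAt ℂ (jn g σ) (c.Θ (z, τ), τ) ∧
      0 < nga (g τ) (c.Θ (z, τ)) := fun z hz τ hτ =>
    hUT (mk_mem_prod (hρU (Metric.ball_subset_ball (min_le_right _ _) hz)) (interior_subset hτ.1))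
  refine ⟨Metric.isOpen_ball, c'.T_open, c'.an, c'.par, c'.maps, fun z hz τ hτ => (key z hz τ hτ).1,
    fun z hz τ hτ hcon => ?_⟩
  have h5 := (key z hz τ hτ).2
  have h6 : gra (g τ) (c.Θ (z, τ)) = 0 := by
    funext k
    show fderiv ℂ (g τ) (c.Θ (z, τ)) _ = 0
    have h7 : fderiv ℂ (g τ) (c.Θ (z, τ)) = 0 := hcon
    rw [h7]
    rfl
  rw [nga, h6] at h5
  simp [nsq] at h5

variable {ι : Type*} {l : Filter ι} {τ : ι → P} {u : ι → AC n → ℝ} {u₀ : AC n → ℝ}

/-- the situation of the limit lemma -/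
structure Sit (g : P → AC n → ℂ) (σ : P → ℂ) (D : Set (AC n)) (τ₀ : P) (C : ℝ)
    {ι : Type*} (l : Filter ι) (τ : ι → P) (u : ι → AC n → ℝ) : Prop where
  D_open : IsOpen D
  jan : ∀ x ∈ D, g τ₀ x = σ τ₀ → AnalyticAt ℂ (jn g σ) (x, τ₀)
  reg : ∀ x ∈ D, g τ₀ x = σ τ₀ → fderiv ℂ (g τ₀) x ≠ 0
  tend : Tendsto τ l (𝓝 τ₀)
  ke : ∀ᶠ i in l, KEon (g (τ i)) (σ (τ i)) D (u i)
  bd : ∀ᶠ i in l, BdOn (g (τ i)) (σ (τ i)) D C (u i)

/-- continuous convergence on the level `τ₀` -/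
def CC (g : P → AC n → ℂ) (σ : P → ℂ) (D : Set (AC n)) (τ₀ : P) {ι : Type*} (l : Filter ι)
    (τ : ι → P) (u : ι → AC n → ℝ) (u₀ : AC n → ℝ) : Prop :=
  ∀ x ∈ D, g τ₀ x = σ τ₀ → CCv l (fun i => lvl g σ (τ i)) u x (u₀ x)

namespace Sit

theorem mono {l' : Filter ι} (S : Sit g σ D τ₀ C l τ u) (h : l' ≤ l) :
    Sit g σ D τ₀ C l' τ u :=
  ⟨S.D_open, S.jan, S.reg, S.tend.mono_left h, h S.ke, h S.bd⟩


theorem good [CompleteSpace P] (S : Sit g σ D τ₀ C l τ u) {x : AC n} (hx : x ∈ D)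
    (h0 : g τ₀ x = σ τ₀) : ∃ c : Cht g σ D τ₀ x, PF g σ D (Metric.ball 0 c.ρ) c.T c.Θ :=
  exists_good S.D_open hx h0 (S.jan x hx h0) (S.reg x hx h0)

variable [ProperSpace P]

/-- a compact neighbourhood of the parameter -/
theorem exists_L {T : Set P} (hT : IsOpen T) (hm : τ₀ ∈ T) :
    ∃ L : Set P, IsCompact L ∧ L ⊆ T ∧ L ∈ 𝓝 τ₀ := by
  obtain ⟨r, hr, h⟩ := Metric.isOpen_iff.1 hT τ₀ hm
  exact ⟨Metric.closedBall τ₀ (r / 2), isCompact_closedBall _ _,
    (Metric.closedBall_subset_ball (by linarith)).trans h,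
    Metric.closedBall_mem_nhds _ (by positivity)⟩

/-- uniform continuity near a point -/
theorem near (S : Sit g σ D τ₀ C l τ u) {x : AC n} (c : Cht g σ D τ₀ x)
    (hc : PF g σ D (Metric.ball 0 c.ρ) c.T c.Θ) {ε : ℝ} (hε : 0 < ε) :
    ∃ M ∈ 𝓝 x, ∀ᶠ i in l, ∀ y ∈ M, y ∈ lvl g σ (τ i) → |u i y - u i (c.Θ (0, τ i))| < ε := by
  obtain ⟨L, hL, hLT, hLn⟩ := exists_L c.T_open c.mem_T
  have hρ := c.ρ_pos
  have hK : IsCompact (Metric.closedBall (0 : Cn n) (c.ρ / 2)) := isCompact_closedBall _ _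
  have hKO : Metric.closedBall (0 : Cn n) (c.ρ / 2) ⊆ Metric.ball 0 c.ρ :=
    Metric.closedBall_subset_ball (by linarith)
  obtain ⟨B, hB⟩ := hc.bound hK hKO hL hLT C 1
  set δ : ℝ := min (c.ρ / 2) (ε / (2 * (|B| + 1))) with hδ
  have hδ0 : 0 < δ := lt_min (by positivity) (by positivity)
  have hMo : IsOpen (c.N ∩ (fun y => c.π (y - x)) ⁻¹' Metric.ball 0 δ) :=
    c.N_open.inter (Metric.isOpen_ball.preimage
      (c.π.continuous.comp (continuous_id.sub continuous_const)))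
  refine ⟨c.N ∩ (fun y => c.π (y - x)) ⁻¹' Metric.ball 0 δ, hMo.mem_nhds ⟨c.mem_N, by
    show c.π (x - x) ∈ Metric.ball (0 : Cn n) δ
    rw [sub_self, map_zero]
    exact Metric.mem_ball_self hδ0⟩, ?_⟩
  filter_upwards [S.ke, S.bd, S.tend.eventually (show ∀ᶠ t in 𝓝 τ₀, t ∈ L from hLn)]
    with i h1 h2 h3 y hy hyl
  have hτ : τ i ∈ c.T := hLT h3
  obtain ⟨h4, h5⟩ := c.right y hy.1 (τ i) hτ hyl
  set z := c.π (y - x) with hz
  have hzδ : ‖z‖ < δ := by
    have := hy.2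
    rwa [mem_preimage, mem_ball_zero_iff] at this
  have hz0 : z ∈ Metric.ball (0 : Cn n) (c.ρ / 2) := by
    rw [mem_ball_zero_iff]
    exact hzδ.trans_le (min_le_left _ _)
  have h00 : (0 : Cn n) ∈ Metric.ball (0 : Cn n) (c.ρ / 2) := Metric.mem_ball_self (by positivity)
  have hw := h1.sm _ _ (c.par (τ i) hτ) fun w hw => c.maps w hw (τ i) hτ
  have h6 : ‖u i (c.Θ (z, τ i)) - u i (c.Θ (0, τ i))‖ ≤ |B| * ‖z - 0‖ := by
    refine (convex_ball (0 : Cn n) (c.ρ / 2)).norm_image_sub_le_of_norm_fderiv_le (𝕜 := ℝ)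
      (f := fun z => u i (c.Θ (z, τ i))) (fun w hw' => ?_) (fun w hw' => ?_) h00 hz0
    · exact (hw.contDiffAt (Metric.isOpen_ball.mem_nhds
        (Metric.ball_subset_ball (by linarith) hw'))).differentiableAt (by simp)
    · have h7 := hB (τ i) h3 (u i) h1 h2 w (Metric.ball_subset_closedBall hw') 1 le_rfl
      rw [norm_iteratedFDeriv_one] at h7
      exact h7.trans (le_abs_self _)
  rw [sub_zero, Real.norm_eq_abs, h5] at h6
  refine h6.trans_lt ?_
  have h8 : ‖z‖ < ε / (2 * (|B| + 1)) := hzδ.trans_le (min_le_right _ _)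
  have h9 : (|B| + 1) * (ε / (2 * (|B| + 1))) = ε / 2 := by
    have : |B| + 1 ≠ 0 := by positivity
    field_simp
  have h10 : |B| * ‖z‖ ≤ (|B| + 1) * (ε / (2 * (|B| + 1))) := by
    have h11 := abs_nonneg B
    have h12 := norm_nonneg z
    nlinarith
  linarith

theorem ccv_of_tendsto (S : Sit g σ D τ₀ C l τ u) {x : AC n} (c : Cht g σ D τ₀ x)
    (hc : PF g σ D (Metric.ball 0 c.ρ) c.T c.Θ) {a : ℝ}
    (h : Tendsto (fun i => u i (c.Θ (0, τ i))) l (𝓝 a)) :
    CCv l (fun i => lvl g σ (τ i)) u x a := by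
  intro ε hε
  obtain ⟨M, hM, h1⟩ := S.near c hc (half_pos hε)
  refine ⟨M, hM, ?_⟩
  filter_upwards [h1, (Metric.tendsto_nhds.1 h) (ε / 2) (half_pos hε)] with i h2 h3 y hy hyl
  have h4 := h2 y hy hyl
  rw [Real.dist_eq] at h3
  calc |u i y - a| = |(u i y - u i (c.Θ (0, τ i))) + (u i (c.Θ (0, τ i)) - a)| := by ring_nf
    _ ≤ |u i y - u i (c.Θ (0, τ i))| + |u i (c.Θ (0, τ i)) - a| := abs_add_le _ _
    _ < ε := by linarith

/-- **limits along ultrafilters exist** -/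
theorem exists_lim {𝒰 : Ultrafilter ι} (S : Sit g σ D τ₀ C (𝒰 : Filter ι) τ u) :
    ∃ u₀ : AC n → ℝ, CC g σ D τ₀ (𝒰 : Filter ι) τ u u₀ := by
  have key : ∀ x, ∃ a : ℝ, x ∈ D → g τ₀ x = σ τ₀ →
      CCv (𝒰 : Filter ι) (fun i => lvl g σ (τ i)) u x a := by
    intro x
    by_cases hx : x ∈ D ∧ g τ₀ x = σ τ₀
    · obtain ⟨c, hc⟩ := S.good hx.1 hx.2
      obtain ⟨L, hL, hLT, hLn⟩ := exists_L c.T_open c.mem_T
      have hz : (0 : Cn n) ∈ ({0} : Set (Cn n)) := rfl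
      obtain ⟨B, hB⟩ := hc.bound (K := {0}) isCompact_singleton
        (singleton_subset_iff.2 (Metric.mem_ball_self c.ρ_pos)) hL hLT C 0
      have h1 : ∀ᶠ i in (𝒰 : Filter ι), u i (c.Θ (0, τ i)) ∈ Metric.closedBall (0 : ℝ) B := by
        filter_upwards [S.ke, S.bd, S.tend.eventually (show ∀ᶠ t in 𝓝 τ₀, t ∈ L from hLn)]
          with i h1 h2 h3
        have h4 := hB (τ i) h3 (u i) h1 h2 0 hz 0 le_rfl
        rw [norm_iteratedFDeriv_zero] at h4
        rwa [mem_closedBall_zero_iff]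
      obtain ⟨a, -, ha⟩ := (isCompact_closedBall (0 : ℝ) B).ultrafilter_le_nhds
        (𝒰.map fun i => u i (c.Θ (0, τ i))) (by
          rw [le_principal_iff]
          exact h1)
      exact ⟨a, fun _ _ => S.ccv_of_tendsto c hc ha⟩
    · exact ⟨0, fun h1 h2 => (hx ⟨h1, h2⟩).elim⟩
  choose a ha using key
  exact ⟨a, fun x hx h0 => ha x hx h0⟩

variable {O : Set (Cn n)} {T : Set P} {Θ : Cn n × P → AC n}

/-- a family which is good for all indices -/
theorem data (S : Sit g σ D τ₀ C l τ u) (hcc : CC g σ D τ₀ l τ u u₀)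
    (H : PF g σ D O T Θ) (hT : τ₀ ∈ T) : ∃ F : ι → Cn n → ℝ,
      (∀ᶠ i in l, τ i ∈ T ∧ KEon (g (τ i)) (σ (τ i)) D (u i) ∧
        BdOn (g (τ i)) (σ (τ i)) D C (u i) ∧ F i = fun z => u i (Θ (z, τ i))) ∧
      (∀ i, ContDiffOn ℝ ∞ (F i) O) ∧ (∀ m, UB m O F) ∧
      ∀ z ∈ O, Tendsto (fun i => F i z) l (𝓝 (u₀ (Θ (z, τ₀)))) := by
  classical
  obtain ⟨L, hL, hLT, hLn⟩ := exists_L H.T_open hT
  set I : Set ι := {i | τ i ∈ L ∧ KEon (g (τ i)) (σ (τ i)) D (u i) ∧
    BdOn (g (τ i)) (σ (τ i)) D C (u i)} with hI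
  have hIl : ∀ᶠ i in l, i ∈ I := by
    filter_upwards [S.ke, S.bd, S.tend.eventually (show ∀ᶠ t in 𝓝 τ₀, t ∈ L from hLn)]
      with i h1 h2 h3 using ⟨h3, h1, h2⟩
  set F : ι → Cn n → ℝ := fun i => if i ∈ I then fun z => u i (Θ (z, τ i)) else fun _ => 0 with hF
  have hFI : ∀ i ∈ I, F i = fun z => u i (Θ (z, τ i)) := fun i hi => if_pos hi
  have hFI' : ∀ i, i ∉ I → F i = fun _ => 0 := fun i hi => if_neg hi
  refine ⟨F, ?_, fun i => ?_, fun m x hx => ?_, fun z hz => ?_⟩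
  · filter_upwards [hIl] with i hi using ⟨hLT hi.1, hi.2.1, hi.2.2, hFI i hi⟩
  · by_cases hi : i ∈ I
    · rw [hFI i hi]
      exact hi.2.1.sm _ _ (H.par _ (hLT hi.1)) fun z hz => H.maps z hz _ (hLT hi.1)
    · rw [hFI' i hi]
      exact contDiffOn_const
  · obtain ⟨r, hr, hrO⟩ := Metric.isOpen_iff.1 H.O_open x hx
    have hK : IsCompact (Metric.closedBall x (r / 2)) := isCompact_closedBall _ _
    obtain ⟨B, hB⟩ := H.bound hK ((Metric.closedBall_subset_ball (by linarith)).trans hrO)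
      hL hLT C m
    refine ⟨r / 2, by positivity, |B|, fun i y hy k hk => ?_⟩
    by_cases hi : i ∈ I
    · rw [hFI i hi]
      exact (hB _ hi.1 _ hi.2.1 hi.2.2 y (Metric.ball_subset_closedBall hy) k hk).trans
        (le_abs_self _)
    · rw [hFI' i hi]
      have h0 : iteratedFDeriv ℝ k (fun _ : Cn n => (0 : ℝ)) = 0 := iteratedFDeriv_fun_zero
      rw [h0]
      simp
  · have h1 := hcc _ (H.maps z hz τ₀ hT) ((H.par τ₀ hT).lvl z hz)
    have h2 : ContinuousAt (fun t => Θ (z, t)) τ₀ :=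
      ContinuousAt.comp (g := Θ) (f := fun t => (z, t)) (H.an z hz τ₀ hT).continuousAt
        (by fun_prop)
    have h3 : Tendsto (fun i => Θ (z, τ i)) l (𝓝 (Θ (z, τ₀))) := h2.tendsto.comp S.tend
    have h4 : ∀ᶠ i in l, Θ (z, τ i) ∈ lvl g σ (τ i) := by
      filter_upwards [S.tend.eventually (H.T_open.mem_nhds hT)] with i hi
      exact (H.par _ hi).lvl z hz
    refine (h1.tendsto h3 h4).congr' ?_
    filter_upwards [hIl] with i hi
    rw [hFI i hi]

end Sit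

end

end Crest.Agent.R257.LimD_37
end

-- ▼ part R257/LimE_37
section

/-!
Row 257 (S0395), leaf E-LIM, helper37: the limit lemma.

* `Sit.conv`    : all derivatives of `u i ∘ Θ (·, τ i)` converge locally uniformly;
* `Sit.conv_at` : the same as continuous convergence at a point;
* `Sit.keon`, `Sit.bdon` : the limit is a Kaehler-Einstein potential with the same bounds;
* `Sit.iter`    : iterated limits.
-/

set_option autoImplicit false
set_option linter.unusedSectionVars false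

open Set Filter Topology Complex
open scoped ContDiff ComplexConjugate Matrix

namespace Crest.Agent.R257.LimD_37

open Crest.Agent.R275.Geo Crest.Agent.R275.Core144
open Crest.Agent.R273.Defs_333 Crest.Agent.R273.YauDefs_635 Crest.Agent.R273.YauCh_635
open Crest.Agent.R257.PN_835 Crest.Agent.R257.Gram_835 Crest.Agent.R257.Aff_835
open Crest.Agent.R257.LimA_37 Crest.Agent.R257.LimB_37 Crest.Agent.R257.LimC_37
open Crest.Agent.R257.Loc_835 Crest.Agent.R257.ELoc_611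
open Crest.Agent.R273

noncomputable section

variable {n : ℕ} {P : Type*} [NormedAddCommGroup P] [NormedSpace ℂ P]
variable {g : P → AC n → ℂ} {σ : P → ℂ} {D : Set (AC n)} {τ₀ : P} {C : ℝ}
variable {O : Set (Cn n)} {T : Set P} {Θ : Cn n × P → AC n}
variable {ι : Type*} {l : Filter ι} {τ : ι → P} {u : ι → AC n → ℝ} {u₀ : AC n → ℝ}

section pf

variable (H : PF g σ D O T Θ)
include H

theorem _root_.Crest.Agent.R257.LimC_37.PF.tendsto_Θ (hT : τ₀ ∈ T) (ht : Tendsto τ l (𝓝 τ₀))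
    {z : Cn n} (hz : z ∈ O) : Tendsto (fun i => Θ (z, τ i)) l (𝓝 (Θ (z, τ₀))) := by
  have h2 : ContinuousAt (fun t => Θ (z, t)) τ₀ :=
    ContinuousAt.comp (g := Θ) (f := fun t => (z, t)) (H.an z hz τ₀ hT).continuousAt
      (by fun_prop)
  exact h2.tendsto.comp ht

theorem _root_.Crest.Agent.R257.LimC_37.PF.lev_sq {τ : P} (hτ : τ ∈ T) {z : Cn n} (hz : z ∈ O)
    (v : Cn n) : lev (FS_333.sq fun z => Θ (z, τ)) z v = 4 * nsq (fderiv ℂ Θ (z, τ) (v, 0)) := by
  rw [← H.dΘ hz hτ]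
  exact par_lev_nsq (H.par τ hτ) hz v

theorem _root_.Crest.Agent.R257.LimC_37.PF.tendsto_lev_sq (hT : τ₀ ∈ T)
    (ht : Tendsto τ l (𝓝 τ₀)) {z : Cn n} (hz : z ∈ O) (v : Cn n) :
    Tendsto (fun i => lev (FS_333.sq fun z => Θ (z, τ i)) z v) l
      (𝓝 (lev (FS_333.sq fun z => Θ (z, τ₀)) z v)) := by
  rw [H.lev_sq hT hz]
  have h1 : ContinuousAt (fun t => fderiv ℂ Θ (z, t)) τ₀ :=
    ContinuousAt.comp (g := fderiv ℂ Θ) (f := fun t => (z, t)) (H.an z hz τ₀ hT).fderiv.continuousAt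
      (by fun_prop)
  have h2 : ContinuousAt (fun t => fderiv ℂ Θ (z, t) (v, 0)) τ₀ := h1.clm_apply (by fun_prop)
  have hnsq : Continuous (nsq (m := n + 1)) := by
    unfold nsq
    fun_prop
  have h3 : Tendsto (fun i => 4 * nsq (fderiv ℂ Θ (z, τ i) (v, 0))) l
      (𝓝 (4 * nsq (fderiv ℂ Θ (z, τ₀) (v, 0)))) :=
    (((hnsq.continuousAt.comp h2).const_mul 4).tendsto).comp ht
  refine h3.congr' ?_
  filter_upwards [ht.eventually (H.T_open.mem_nhds hT)] with i hi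
  rw [H.lev_sq hi hz]

theorem _root_.Crest.Agent.R257.LimC_37.PF.tendsto_nga (hT : τ₀ ∈ T) (ht : Tendsto τ l (𝓝 τ₀))
    {z : Cn n} (hz : z ∈ O) : Tendsto (fun i => nga (g (τ i)) (Θ (z, τ i))) l
      (𝓝 (nga (g τ₀) (Θ (z, τ₀)))) := by
  have h1 : ContinuousAt (fun p : Cn n × P => nga (g p.2) (Θ p)) (z, τ₀) :=
    (H.smooth_nga.contDiffAt (H.isOpen_prod.mem_nhds ⟨hz, hT⟩)).continuousAt
  have h2 : ContinuousAt (fun t => nga (g t) (Θ (z, t))) τ₀ :=
    ContinuousAt.comp (g := fun p : Cn n × P => nga (g p.2) (Θ p)) (f := fun t => (z, t)) h1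
      (by fun_prop)
  exact h2.tendsto.comp ht

theorem _root_.Crest.Agent.R257.LimC_37.PF.tendsto_eta (hT : τ₀ ∈ T) (ht : Tendsto τ l (𝓝 τ₀))
    {z : Cn n} (hz : z ∈ O) : Tendsto (fun i => eta2a (g (τ i)) (fun z => Θ (z, τ i)) z) l
      (𝓝 (eta2a (g τ₀) (fun z => Θ (z, τ₀)) z)) := by
  have h1 : ContinuousAt (fun p : Cn n × P => eta2a (g p.2) (fun z => Θ (z, p.2)) p.1) (z, τ₀) :=
    (H.smooth_eta.contDiffAt (H.isOpen_prod.mem_nhds ⟨hz, hT⟩)).continuousAt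
  have h2 : ContinuousAt (fun t => eta2a (g t) (fun z => Θ (z, t)) z) τ₀ :=
    ContinuousAt.comp (g := fun p : Cn n × P => eta2a (g p.2) (fun z => Θ (z, p.2)) p.1)
      (f := fun t => (z, t)) h1 (by fun_prop)
  exact h2.tendsto.comp ht

end pf

namespace Sit

variable [ProperSpace P] [l.NeBot]

/-- **convergence of all derivatives** -/
theorem conv (S : Sit g σ D τ₀ C l τ u) (hcc : CC g σ D τ₀ l τ u u₀)
    (H : PF g σ D O T Θ) (hT : τ₀ ∈ T) :
    ContDiffOn ℝ ∞ (fun z => u₀ (Θ (z, τ₀))) O ∧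
    ∀ k, TendstoLocallyUniformlyOn (fun i => iteratedFDeriv ℝ k (fun z => u i (Θ (z, τ i))))
      (iteratedFDeriv ℝ k (fun z => u₀ (Θ (z, τ₀)))) l O := by
  obtain ⟨F, hF, hs, hB, hp⟩ := S.data hcc H hT
  obtain ⟨h1, h2⟩ := lim_smooth H.O_open hs hB hp
  refine ⟨h1, fun k V hV x hx => ?_⟩
  obtain ⟨t, ht, h3⟩ := h2 k V hV x hx
  refine ⟨t, ht, ?_⟩
  filter_upwards [h3, hF] with i h4 h5
  rw [← h5.2.2.2]
  exact h4


/-- Kaehler-Einstein property and metric bound at the centre of a chart -/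
theorem centre (S : Sit g σ D τ₀ C l τ u) (hcc : CC g σ D τ₀ l τ u u₀) {x : AC n} (hx : x ∈ D)
    (h0 : g τ₀ x = σ τ₀) : ∃ c : Cht g σ D τ₀ x,
      ContDiffAt ℝ ∞ (fun z => u₀ (c.Θ (z, τ₀))) 0 ∧
      (∀ v : Cn n, v ≠ 0 → 0 < lev (fun z => u₀ (c.Θ (z, τ₀))) 0 v) ∧
      (cH (fun z => u₀ (c.Θ (z, τ₀))) 0).det =
        ((Real.exp (u₀ x) * eta2a (g τ₀) (fun z => c.Θ (z, τ₀)) 0 : ℝ) : ℂ) ∧
      (∀ v : Cn n, lev (FS_333.sq fun z => c.Θ (z, τ₀)) 0 v ≤
        C * lev (fun z => u₀ (c.Θ (z, τ₀))) 0 v) ∧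
      Real.log (nga (g τ₀) x) - C ≤ u₀ x ∧ u₀ x ≤ C := by
  obtain ⟨c, H⟩ := S.good hx h0
  have hz : (0 : Cn n) ∈ Metric.ball (0 : Cn n) c.ρ := Metric.mem_ball_self c.ρ_pos
  have hT := c.mem_T
  obtain ⟨F, hF, hs, hB, hp⟩ := S.data hcc H hT
  have hlev := fun v => tendsto_lev H.O_open hs hB hp hz v
  have hsm := (S.conv hcc H hT).1.contDiffAt (H.O_open.mem_nhds hz)
  have hle : ∀ v : Cn n, lev (FS_333.sq fun z => c.Θ (z, τ₀)) 0 v ≤
      C * lev (fun z => u₀ (c.Θ (z, τ₀))) 0 v := by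
    intro v
    refine le_of_tendsto_of_tendsto (H.tendsto_lev_sq hT S.tend hz v) ((hlev v).const_mul C) ?_
    filter_upwards [hF] with i hi
    obtain ⟨h1, h2, h3, h4⟩ := hi
    rw [h4]
    exact h3.lev_le _ _ (H.par _ h1) (fun z hz => H.maps z hz _ h1) 0 hz v
  have hval : Tendsto (fun i => u i (c.Θ (0, τ i))) l (𝓝 (u₀ x)) := by
    have h1 := hp 0 hz
    rw [c.zero] at h1
    refine h1.congr' ?_
    filter_upwards [hF] with i hi
    rw [hi.2.2.2]
  refine ⟨c, hsm, fun v hv => ?_, ?_, hle, ?_, ?_⟩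
  · have h1 : 0 ≤ lev (fun z => u₀ (c.Θ (z, τ₀))) 0 v := by
      refine ge_of_tendsto (hlev v) ?_
      filter_upwards [hF] with i hi
      obtain ⟨h1, h2, h3, h4⟩ := hi
      rw [h4]
      exact (h2.pos _ _ (H.par _ h1) (fun z hz => H.maps z hz _ h1) 0 hz v hv).le
    have h2 : 0 < lev (FS_333.sq fun z => c.Θ (z, τ₀)) 0 v :=
      par_lev_nsq_pos (H.par τ₀ hT) hz hv
    have h3 := h2.trans_le (hle v)
    rcases h1.lt_or_eq with h4 | h4
    · exact h4
    · rw [← h4, mul_zero] at h3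
      exact (lt_irrefl _ h3).elim
  · have h1 := tendsto_det_cH H.O_open hs hB hp hz
    have h2 : Tendsto (fun i => ((Real.exp (u i (c.Θ (0, τ i))) *
        eta2a (g (τ i)) (fun z => c.Θ (z, τ i)) 0 : ℝ) : ℂ)) l
        (𝓝 ((Real.exp (u₀ x) * eta2a (g τ₀) (fun z => c.Θ (z, τ₀)) 0 : ℝ) : ℂ)) :=
      (Complex.continuous_ofReal.tendsto _).comp
        (((Real.continuous_exp.tendsto _).comp hval).mul (H.tendsto_eta hT S.tend hz))
    refine tendsto_nhds_unique h1 (h2.congr' ?_)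
    filter_upwards [hF] with i hi
    obtain ⟨h3, h4, h5, h6⟩ := hi
    rw [h6]
    exact (h4.ke _ _ (H.par _ h3) (fun z hz => H.maps z hz _ h3) 0 hz).symm
  · have h1 := H.tendsto_nga hT S.tend hz
    rw [c.zero] at h1
    have h2 : Tendsto (fun i => Real.log (nga (g (τ i)) (c.Θ (0, τ i))) - C) l
        (𝓝 (Real.log (nga (g τ₀) x) - C)) :=
      (h1.log (nga_pos (S.reg x hx h0)).ne').sub_const C
    refine le_of_tendsto_of_tendsto h2 hval ?_
    filter_upwards [hF] with i hi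
    obtain ⟨h3, h4, h5, h6⟩ := hi
    exact h5.lo _ (H.maps 0 hz _ h3) ((H.par _ h3).lvl 0 hz)
  · refine le_of_tendsto hval ?_
    filter_upwards [hF] with i hi
    obtain ⟨h3, h4, h5, h6⟩ := hi
    exact h5.hi _ (H.maps 0 hz _ h3) ((H.par _ h3).lvl 0 hz)

/-- **the limit is Kaehler-Einstein** -/
theorem keon (S : Sit g σ D τ₀ C l τ u) (hcc : CC g σ D τ₀ l τ u u₀) :
    KEon (g τ₀) (σ τ₀) D u₀ := by
  refine KEon.of_cht S.reg fun x hx h0 => ?_
  obtain ⟨c, h1, h2, h3, -⟩ := S.centre hcc hx h0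
  exact ⟨c, h1, h2, h3⟩

/-- **the limit has the same bounds** -/
theorem bdon (S : Sit g σ D τ₀ C l τ u) (hcc : CC g σ D τ₀ l τ u u₀) :
    BdOn (g τ₀) (σ τ₀) D C u₀ := by
  refine ⟨fun x hx h0 => ?_, fun x hx h0 => ?_, ?_⟩
  · obtain ⟨c, -, -, -, -, h, -⟩ := S.centre hcc hx h0
    exact h
  · obtain ⟨c, -, -, -, -, -, h⟩ := S.centre hcc hx h0
    exact h
  · refine lev_le_of_cht fun x hx h0 => ?_
    obtain ⟨c, h1, -, -, h4, -⟩ := S.centre hcc hx h0
    exact ⟨c, h1, h4⟩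

end Sit

end

end Crest.Agent.R257.LimD_37
end

-- ▼ part R257/GDof_835
section

/-!
# R257 (S0395), Part E (helper835): the global data of a family `GFam` (output of E-GLOB)
-/

set_option autoImplicit false
set_option linter.unusedSectionVars false

open Set Filter Topology Complex
open Crest.AlgGeometry.Germ

namespace Crest.Agent.R257.GDof_835

open Crest.Agent.R257.Defs_219
open Crest.Agent.R257.PN_835 Crest.Agent.R257.Aff_835 Crest.Agent.R257.Hom_835
open Crest.Agent.R257.Unif_835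

noncomputable section

variable {G : E3 × ℂ → ℂ} {μ d : ℕ} {R r c₀ e : ℝ} {P : ℂ → MvPolynomial (Fin 3) ℂ}
  {c : Fin 3 → ℂ}

theorem gr_eq (f : E3 → ℂ) (x : E3) (i : Fin 3) : gr f x i = fderiv ℂ f x (Pi.single i 1) := rfl

theorem norm_gr_le (f : E3 → ℂ) (x : E3) : ‖gr f x‖ ≤ ‖fderiv ℂ f x‖ := by
  refine (pi_norm_le_iff_of_nonneg (norm_nonneg _)).2 fun i => ?_
  rw [gr_eq]
  refine (ContinuousLinearMap.le_opNorm _ _).trans ?_
  have h1 : ‖(Pi.single i 1 : E3)‖ ≤ 1 := by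
    refine (pi_norm_le_iff_of_nonneg zero_le_one).2 fun j => ?_
    by_cases h : j = i
    · subst h
      rw [Pi.single_eq_same, norm_one]
    · rw [Pi.single_eq_of_ne h, norm_zero]
      exact zero_le_one
  calc _ ≤ ‖fderiv ℂ f x‖ * 1 := mul_le_mul_of_nonneg_left h1 (norm_nonneg _)
    _ = _ := mul_one _

theorem fderiv_ne {f : E3 → ℂ} {x : E3} (h : gr f x ≠ 0) : fderiv ℂ f x ≠ 0 := by
  intro h0
  apply h
  funext i
  rw [gr_eq, h0]
  rfl

theorem sl_eq (h : GFam G μ d R r c₀ e P c) (t : ℂ) : sl G t = Gf d (P t) c := by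
  funext x
  exact h.form x t

/-- **the global data** -/
def gd (h : GFam G μ d R r c₀ e P c) : GD 2 d μ where
  P := P
  c := c
  R := min R (min r e)
  R_pos := lt_min h.R_pos (lt_min h.r_pos h.e_pos)
  deg t _ := h.deg t
  ana m := (h.coeff m).differentiableOn.mono (Metric.ball_subset_ball (min_le_left _ _))
  c_ne := h.c_ne
  zero t ht := by
    rw [← sl_eq h]
    exact h.zero t (ht.trans_le (min_le_left _ _))
  low := ⟨c₀, h.c₀_pos, fun t ht x hx => by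
    rw [← sl_eq h]
    exact (h.lower x t (hx.trans_le ((min_le_right _ _).trans (min_le_left _ _)))
      (ht.trans_le (min_le_left _ _))).trans (norm_gr_le _ _)⟩
  ns0 x hx h0 := by
    rw [← sl_eq h] at h0 ⊢
    exact fderiv_ne (h.smooth0 x hx h0)
  ns t s ht hs0 hs x hx := by
    rw [← sl_eq h] at hx ⊢
    have hx' : G (x, t) = s := hx
    refine fderiv_ne (h.smooth x t (ht.trans_le ((min_le_right _ _).trans (min_le_right _ _))) ?_ ?_)
    · rw [hx']
      exact norm_pos_iff.1 hs0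
    · rw [hx']
      exact hs.trans_le ((min_le_right _ _).trans (min_le_right _ _))

theorem gd_G (h : GFam G μ d R r c₀ e P c) (t : ℂ) : (gd h).G t = sl G t := (sl_eq h t).symm

theorem gd_d (h : GFam G μ d R r c₀ e P c) : ∃ κ : ℕ, d = 2 + 2 + κ ∧ μ < κ := by
  have := h.d_big
  exact ⟨d - 4, by omega, by omega⟩

end

end Crest.Agent.R257.GDof_835
end

-- ▼ part R257/Out1_835
section

/-!
# R257 (S0395), Part E (helper835): the Kaehler-Einstein weights `u_(t,s)`, `s ≠ 0`, with uniform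
bounds, in the language of `KED_952`
-/

set_option autoImplicit false
set_option linter.unusedSectionVars false

open Set Filter Topology Complex
open scoped ContDiff Matrix ComplexConjugate Manifold
open Crest.AlgGeometry.Germ

namespace Crest.Agent.R257.Out1_835

open Crest.Agent.R275.Geo Crest.Agent.R275.Core144 Crest.Agent.R275.GC293
open Crest.Agent.R273.Defs_333 Crest.Agent.R273.YauDefs_635
open Crest.Agent.R257.Defs_219 Crest.Agent.R257.KED_952
open Crest.Agent.R257.PN_835 Crest.Agent.R257.Gram_835 Crest.Agent.R257.Hyp_835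
open Crest.Agent.R257.KE_835 Crest.Agent.R257.Aff_835 Crest.Agent.R257.Hom_835
open Crest.Agent.R257.Unif_835 Crest.Agent.R257.EHyp_835 Crest.Agent.R257.Loc_835
open Crest.Agent.R257.GDof_835
open Crest.Agent.R273.FS_333 (sq)

noncomputable section

variable {n d mu : ℕ}

/-- Chern-Lu on `S_(t,s)` [39: E-CLS] -/
def EuclStmt (D : GD n d mu) (κ : ℕ) : Prop :=
  ∀ R : ℝ, 0 < R → ∃ e > 0, e ≤ D.R ∧ ∃ C : ℝ, 0 < C ∧
    ∀ (t s : ℂ) (ht : ‖t‖ < D.R) (hs : 0 < ‖s‖ ∧ ‖s‖ < D.R), ‖t‖ < e → ‖s‖ < e →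
      ∀ (B : HAtl (D.X ht hs)) (φ : (D.X ht hs).S → ℝ), B.A.Sm φ → KPos (H0 B κ) φ →
        MA (H0 B κ) φ (fun x => FF κ x + φ x) →
          ∀ (θ : Cn n → AC n) (U : Set (Cn n)), Par (D.G t) s θ U → ∀ z ∈ U, nsq (θ z) ≤ R →
            ∀ v, lev (fun z => nsq (θ z)) z v ≤ C * lev (fun z => Wc κ φ (hc (θ z))) z v

/-- **the weights on the levels `{G_t = s}`, `s ≠ 0`** -/
theorem GD.out1 (hAY : AYStmt) (D : GD n d mu) {κ : ℕ} (hd : d = n + 2 + κ) (hκ : mu < κ)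
    (hE : EuclStmt D κ) {r : ℝ} (hr : 0 < r) : ∃ e > 0, e ≤ D.R ∧ ∃ (C : ℝ)
    (w : ℂ → ℂ → AC n → ℝ), ∀ t s : ℂ, ‖t‖ < e → 0 < ‖s‖ → ‖s‖ < e →
      (∀ (θ : Cn n → AC n) (U : Set (Cn n)), Par (D.G t) s θ U →
        ContDiffOn ℝ ∞ (fun z => w t s (θ z)) U ∧
        (∀ z ∈ U, ∀ v : Cn n, v ≠ 0 → 0 < lev (fun z => w t s (θ z)) z v) ∧
        (∀ z ∈ U, (cH (fun z => w t s (θ z)) z).det =
          ((Real.exp (w t s (θ z)) * eta2a (D.G t) θ z : ℝ) : ℂ)) ∧
        (∀ z ∈ U, nsq (θ z) ≤ r ^ 2 → ∀ v,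
          lev (fun z => nsq (θ z)) z v ≤ C * lev (fun z => w t s (θ z)) z v)) ∧
      (∀ x, D.G t x = s → nsq x ≤ r ^ 2 →
        Real.log (nga (D.G t) x) - C ≤ w t s x ∧ w t s x ≤ C) := by
  classical
  have hκ0 : 0 < κ := by omega
  obtain ⟨e1, he1, -, C1, hC1⟩ := GD.locBound D hd hκ hr
  obtain ⟨e2, he2, -, C2, hC2, hE⟩ := hE (r ^ 2) (by positivity)
  have hR := D.R_pos
  have hex : ∀ t s : ℂ, ∃ w : AC n → ℝ, ∀ (ht : ‖t‖ < D.R) (hs : 0 < ‖s‖ ∧ ‖s‖ < D.R),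
      ∃ (B : HAtl (D.X ht hs)) (φ : (D.X ht hs).S → ℝ), B.A.Sm φ ∧ KPos (H0 B κ) φ ∧
        MA (H0 B κ) φ (fun x => FF κ x + φ x) ∧ w = fun x => Wc κ φ (hc x) := by
    intro t s
    by_cases h : ‖t‖ < D.R ∧ (0 < ‖s‖ ∧ ‖s‖ < D.R)
    · obtain ⟨B⟩ := (D.X h.1 h.2).exists_hAtl
      obtain ⟨φ, h1, h2, h3, -⟩ := exists_kew hAY B hd hκ0
      exact ⟨fun x => Wc κ φ (hc x), fun ht hs => ⟨B, φ, h1, h2, h3, rfl⟩⟩
    · exact ⟨fun _ => 0, fun ht hs => absurd ⟨ht, hs⟩ h⟩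
  choose w hw using hex
  refine ⟨min D.R (min e1 e2), lt_min hR (lt_min he1 he2), min_le_left _ _, max C1 C2, w, ?_⟩
  intro t s ht hs0 hs
  have htR : ‖t‖ < D.R := ht.trans_le (min_le_left _ _)
  have hsR : ‖s‖ < D.R := hs.trans_le (min_le_left _ _)
  obtain ⟨B, φ, h1, h2, h3, h4⟩ := hw t s htR ⟨hs0, hsR⟩
  have hW := kew_of hd hκ0 h1 h2 h3
  have hcl := D.cl htR ⟨hs0, hsR⟩
  refine ⟨fun θ U hθ => ?_, fun x hx hxr => ?_⟩
  · rw [h4]
    obtain ⟨a1, a2, a3⟩ := hW.par hcl hθ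
    refine ⟨a1, a2, a3, fun z hz hzr v => ?_⟩
    have a4 := hE t s htR ⟨hs0, hsR⟩ (ht.trans_le ((min_le_right _ _).trans (min_le_right _ _)))
      (hs.trans_le ((min_le_right _ _).trans (min_le_right _ _))) B φ h1 h2 h3 θ U hθ z hz hzr v
    have a5 : 0 ≤ lev (fun z => Wc κ φ (hc (θ z))) z v := by
      by_cases hv : v = 0
      · rw [hv, Crest.Agent.R273.YauCh_635.lev_zero]
      · exact (a2 z hz v hv).le
    exact a4.trans (mul_le_mul_of_nonneg_right (le_max_right _ _) a5)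
  · have a1 := hC1 t s htR ⟨hs0, hsR⟩ (ht.trans_le ((min_le_right _ _).trans (min_le_left _ _)))
      (hs.trans_le ((min_le_right _ _).trans (min_le_left _ _))) B φ h1 h2 h3 x hx hxr
    rw [h4]
    have a2 := le_max_left C1 C2
    constructor
    · have := a1.1
      show _ ≤ Wc κ φ (hc x)
      linarith
    · have := a1.2
      show Wc κ φ (hc x) ≤ _
      linarith

/-! ### the language of KED_952 -/

theorem nga_shift (f : AC n → ℂ) (s : ℂ) (x : AC n) : nga (fun x => f x - s) x = nga f x := by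
  unfold nga gra
  simp only [fderiv_sub_const]

theorem eta2a_shift (f : AC n → ℂ) (s : ℂ) (θ : Cn n → AC n) (z : Cn n) :
    eta2a (fun x => f x - s) θ z = eta2a f θ z := by
  unfold eta2a
  rw [nga_shift]

theorem par_shift {f : AC n → ℂ} {s : ℂ} {θ : Cn n → AC n} {O : Set (Cn n)}
    (h : Par (fun x => f x - s) 0 θ O) : Par f s θ O :=
  ⟨h.isOpen, h.hol, fun z hz => sub_eq_zero.1 (h.lvl z hz), h.imm⟩

variable {G : E3 × ℂ → ℂ} {μ : ℕ} {R r c₀ e : ℝ} {P : ℂ → MvPolynomial (Fin 3) ℂ}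
  {c : Fin 3 → ℂ}

/-- **the weights on the smooth levels** -/
theorem out1 (hAY : AYStmt) (h : GFam G μ d R r c₀ e P c)
    (hE : ∀ κ : ℕ, d = 2 + 2 + κ → μ < κ → EuclStmt (gd h) κ) {r₁ : ℝ} (hr : 0 < r₁) :
    ∃ e₁ > 0, ∃ (C : ℝ) (w : PP → E3 → ℝ), ∀ t s : ℂ, ‖t‖ < e₁ → 0 < ‖s‖ → ‖s‖ < e₁ →
      KEon (fun x => fam G (x, (t, s))) 0 r₁ (w (t, s)) ∧
      Bd (fun x => fam G (x, (t, s))) 0 r₁ C (w (t, s)) := by
  obtain ⟨κ, hd, hκ⟩ := gd_d h
  obtain ⟨e₁, he₁, -, C, w, hw⟩ := GD.out1 hAY (gd h) (κ := κ) (by omega) hκ (hE κ hd hκ) hr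
  refine ⟨e₁, he₁, C, fun τ => w τ.1 τ.2, fun t s ht hs0 hs => ?_⟩
  obtain ⟨h1, h2⟩ := hw t s ht hs0 hs
  have e1 : (fun x => fam G (x, (t, s))) = fun x => (gd h).G t x - s := by
    rw [gd_G]
    rfl
  rw [e1]
  constructor
  · refine ⟨fun θ O hP => ?_, fun θ O hP => ?_, fun θ O hP z hz => ?_⟩
    · exact (h1 θ O (par_shift hP.par)).1
    · exact (h1 θ O (par_shift hP.par)).2.1
    · rw [eta2a_shift]
      exact (h1 θ O (par_shift hP.par)).2.2.1 z hz
  · refine ⟨fun x hx _ hxr => ?_, fun x hx _ hxr => ?_, fun θ O hP z hz v => ?_⟩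
    · rw [nga_shift]
      exact (h2 x (sub_eq_zero.1 hx) hxr.le).1
    · exact (h2 x (sub_eq_zero.1 hx) hxr.le).2
    · exact (h1 θ O (par_shift hP.par)).2.2.2 z hz (hP.lt z hz).le v

end

end Crest.Agent.R257.Out1_835
end

-- ▼ part R257/LimF_37
section

/-!
Row 257 (S0395), leaf E-LIM, helper37: iterated limits, and the limit lemma in the language of
`KED_952`.

* `exists_pf`   : germs of families of parametrisations are good;
* `Sit.conv_cpt`: uniform convergence of all derivatives on compact sets, for any analytic family of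
                  parametrisations;
* `Sit.iter`    : iterated limits;
* `kec_of`      : `KED_952.KEc` from continuous convergence.
-/

set_option autoImplicit false
set_option linter.unusedSectionVars false

open Set Filter Topology Complex
open scoped ContDiff ComplexConjugate Matrix

namespace Crest.Agent.R257.LimD_37

open Crest.Agent.R275.Geo Crest.Agent.R275.Core144
open Crest.Agent.R273.Defs_333 Crest.Agent.R273.YauDefs_635 Crest.Agent.R273.YauCh_635
open Crest.Agent.R257.PN_835 Crest.Agent.R257.Gram_835 Crest.Agent.R257.Aff_835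
open Crest.Agent.R257.LimA_37 Crest.Agent.R257.LimB_37 Crest.Agent.R257.LimC_37
open Crest.Agent.R257.Loc_835 Crest.Agent.R257.ELoc_611
open Crest.Agent.R273

noncomputable section

section general

variable {n : ℕ} {P : Type*} [NormedAddCommGroup P] [NormedSpace ℂ P]
variable {g : P → AC n → ℂ} {σ : P → ℂ} {D : Set (AC n)} {τ₀ : P} {C : ℝ}
variable {O : Set (Cn n)} {N : Set P} {Θ : Cn n × P → AC n}
variable {ι : Type*} {l : Filter ι} {τ : ι → P} {u : ι → AC n → ℝ} {u₀ : AC n → ℝ}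

/-- germs of families of parametrisations are good -/
theorem exists_pf {z₀ : Cn n} (hz₀ : z₀ ∈ O) (hN : N ∈ 𝓝 τ₀) (hO : IsOpen O)
    (han : ∀ z ∈ O, ∀ τ ∈ N, AnalyticAt ℂ Θ (z, τ))
    (hpar : ∀ τ ∈ N, Par (g τ) (σ τ) (fun z => Θ (z, τ)) O)
    (hmaps : ∀ z ∈ O, ∀ τ ∈ N, Θ (z, τ) ∈ D)
    (hJ : AnalyticAt ℂ (jn g σ) (Θ (z₀, τ₀), τ₀)) (hreg : fderiv ℂ (g τ₀) (Θ (z₀, τ₀)) ≠ 0) :
    ∃ ε > 0, Metric.ball z₀ ε ⊆ O ∧ ∃ T : Set P, τ₀ ∈ T ∧ T ⊆ N ∧
      PF g σ D (Metric.ball z₀ ε) T Θ := by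
  have hΘ : AnalyticAt ℂ Θ (z₀, τ₀) := han z₀ hz₀ τ₀ (mem_of_mem_nhds hN)
  have hφ : AnalyticAt ℂ (fun p : Cn n × P => (Θ p, p.2)) (z₀, τ₀) := hΘ.prod analyticAt_snd
  have h1 : ∀ᶠ p : Cn n × P in 𝓝 (z₀, τ₀), AnalyticAt ℂ (jn g σ) (Θ p, p.2) :=
    hφ.continuousAt.eventually hJ.eventually_analyticAt
  have h2 : ContinuousAt (fun p : Cn n × P => nga (g p.2) (Θ p)) (z₀, τ₀) :=
    (smooth_nga_comp (φ := fun p : Cn n × P => (Θ p, p.2)) hφ hJ).continuousAt
  have h4 : ∀ᶠ p : Cn n × P in 𝓝 (z₀, τ₀), 0 < nga (g p.2) (Θ p) :=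
    h2.eventually_const_lt (nga_pos hreg)
  obtain ⟨U₁, hU₁, T₁, hT₁, hUT⟩ := mem_nhds_prod_iff.1 (h1.and h4)
  obtain ⟨ε, hε, hεU⟩ := Metric.mem_nhds_iff.1 (inter_mem hU₁ (hO.mem_nhds hz₀))
  have hεO : Metric.ball z₀ ε ⊆ O := fun z hz => (hεU hz).2
  have hTN : interior (T₁ ∩ N) ⊆ N := fun t ht => (interior_subset ht).2
  have key : ∀ z ∈ Metric.ball z₀ ε, ∀ τ ∈ interior (T₁ ∩ N),
      AnalyticAt ℂ (jn g σ) (Θ (z, τ), τ) ∧ 0 < nga (g τ) (Θ (z, τ)) := fun z hz τ hτ =>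
    hUT (mk_mem_prod (hεU hz).1 (interior_subset hτ).1)
  refine ⟨ε, hε, hεO, interior (T₁ ∩ N), mem_interior_iff_mem_nhds.2 (inter_mem hT₁ hN), hTN,
    ⟨Metric.isOpen_ball, isOpen_interior, fun z hz τ hτ => han z (hεO hz) τ (hTN hτ),
      fun τ hτ => (hpar τ (hTN hτ)).mono Metric.isOpen_ball hεO,
      fun z hz τ hτ => hmaps z (hεO hz) τ (hTN hτ), fun z hz τ hτ => (key z hz τ hτ).1,
      fun z hz τ hτ hcon => ?_⟩⟩
  have h5 := (key z hz τ hτ).2
  have h6 : gra (g τ) (Θ (z, τ)) = 0 := by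
    funext k
    show fderiv ℂ (g τ) (Θ (z, τ)) _ = 0
    rw [hcon]
    rfl
  rw [nga, h6] at h5
  simp [nsq] at h5

variable [ProperSpace P] [l.NeBot]

/-- **uniform convergence of all derivatives on compact sets** -/
theorem Sit.conv_cpt (S : Sit g σ D τ₀ C l τ u) (hcc : CC g σ D τ₀ l τ u u₀) (hN : N ∈ 𝓝 τ₀)
    (hO : IsOpen O) (han : ∀ z ∈ O, ∀ τ ∈ N, AnalyticAt ℂ Θ (z, τ))
    (hpar : ∀ τ ∈ N, Par (g τ) (σ τ) (fun z => Θ (z, τ)) O)
    (hmaps : ∀ z ∈ O, ∀ τ ∈ N, Θ (z, τ) ∈ D) (k : ℕ) {K : Set (Cn n)} (hK : IsCompact K)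
    (hKO : K ⊆ O) :
    TendstoUniformlyOn (fun i => iteratedFDeriv ℝ k (fun z => u i (Θ (z, τ i))))
      (iteratedFDeriv ℝ k (fun z => u₀ (Θ (z, τ₀)))) l K := by
  have h1 : TendstoLocallyUniformlyOn (fun i => iteratedFDeriv ℝ k (fun z => u i (Θ (z, τ i))))
      (iteratedFDeriv ℝ k (fun z => u₀ (Θ (z, τ₀)))) l O := by
    intro V hV x hx
    have hT := mem_of_mem_nhds hN
    obtain ⟨ε, hε, hεO, T, hT0, hTN, H⟩ := exists_pf hx hN hO han hpar hmaps
      (S.jan _ (hmaps x hx τ₀ hT) ((hpar τ₀ hT).lvl x hx))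
      (S.reg _ (hmaps x hx τ₀ hT) ((hpar τ₀ hT).lvl x hx))
    obtain ⟨t, ht, h3⟩ := (S.conv hcc H hT0).2 k V hV x (Metric.mem_ball_self hε)
    rw [Metric.isOpen_ball.nhdsWithin_eq (Metric.mem_ball_self hε)] at ht
    exact ⟨t, mem_nhdsWithin_of_mem_nhds ht, h3⟩
  exact (tendstoLocallyUniformlyOn_iff_forall_isCompact hO).1 h1 K hKO hK

/-- **iterated limits** -/
theorem Sit.iter {A : Type*} {L : Filter A} {f : A → P} {m : A → Filter P}
    {w : P → AC n → ℝ} {v : A → AC n → ℝ} {u₀ : AC n → ℝ}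
    (S : Sit g σ D τ₀ C (L.bind m) id w) (hf : Tendsto f L (𝓝 τ₀))
    (hv : CC g σ D τ₀ L f v u₀) (hm : ∀ᶠ a in L, m a ≤ 𝓝 (f a))
    (hw : ∀ᶠ a in L, CC g σ D (f a) (m a) id w (v a)) :
    CC g σ D τ₀ (L.bind m) id w u₀ := by
  intro x hx h0
  obtain ⟨c, hc⟩ := S.good hx h0
  refine S.ccv_of_tendsto c hc ?_
  have hz : (0 : Cn n) ∈ Metric.ball (0 : Cn n) c.ρ := Metric.mem_ball_self c.ρ_pos
  have hcT := c.T_open
  have hlv : ∀ t ∈ c.T, c.Θ (0, t) ∈ lvl g σ t := fun t ht => (c.par t ht).lvl 0 hz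
  -- the outer limit
  have h1 : Tendsto (fun a => v a (c.Θ (0, f a))) L (𝓝 (u₀ x)) := by
    have h2 := hc.tendsto_Θ c.mem_T hf hz
    rw [c.zero] at h2
    refine (hv x hx h0).tendsto h2 ?_
    filter_upwards [hf.eventually (hcT.mem_nhds c.mem_T)] with a ha
    exact hlv _ ha
  rw [Metric.tendsto_nhds]
  intro ε hε
  rw [Filter.eventually_bind]
  filter_upwards [hf.eventually (hcT.mem_nhds c.mem_T), hm, hw,
    (Metric.tendsto_nhds.1 h1) (ε / 2) (half_pos hε)] with a h2 h3 h4 h5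
  have h6 : Tendsto (fun p : P => c.Θ (0, id p)) (m a) (𝓝 (c.Θ (0, f a))) :=
    hc.tendsto_Θ h2 (show Tendsto id (m a) (𝓝 (f a)) from h3) hz
  have h7 : Tendsto (fun p : P => w p (c.Θ (0, id p))) (m a) (𝓝 (v a (c.Θ (0, f a)))) := by
    refine (h4 _ (c.maps 0 hz _ h2) (hlv _ h2)).tendsto h6 ?_
    filter_upwards [h3 (hcT.mem_nhds h2)] with p hp
    exact hlv p hp
  filter_upwards [(Metric.tendsto_nhds.1 h7) (ε / 2) (half_pos hε)] with p h8
  calc dist (w p (c.Θ (0, id p))) (u₀ x) ≤ dist (w p (c.Θ (0, id p))) (v a (c.Θ (0, f a))) +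
        dist (v a (c.Θ (0, f a))) (u₀ x) := dist_triangle _ _ _
    _ < ε := by linarith

end general

/-! ### the language of KED_952 -/

section ked

open Crest.Agent.R257.Defs_219

/-- the punctured ball -/
def PB (r : ℝ) : Set (AC 2) := {x | x ≠ 0 ∧ nsq x < r ^ 2}

theorem isOpen_PB (r : ℝ) : IsOpen (PB r) := by
  have hnsq : Continuous (nsq (m := 3)) := by
    unfold nsq
    fun_prop
  exact isOpen_ne.inter (isOpen_lt hnsq continuous_const)

theorem keon_iff {f : E3 → ℂ} {s : ℂ} {r : ℝ} {u : E3 → ℝ} :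
    KED_952.KEon f s r u ↔ KEon (n := 2) f s (PB r) u := by
  constructor
  · intro h
    have hP : ∀ (θ : Cn 2 → AC 2) (U : Set (Cn 2)), Par f s θ U → (∀ z ∈ U, θ z ∈ PB r) →
        KED_952.PE f s r θ U := fun θ U hθ hm =>
      ⟨hθ, fun z hz => (hm z hz).1, fun z hz => (hm z hz).2⟩
    exact ⟨fun θ U hθ hm => h.sm θ U (hP θ U hθ hm), fun θ U hθ hm => h.pos θ U (hP θ U hθ hm),
      fun θ U hθ hm => h.ma θ U (hP θ U hθ hm)⟩
  · intro h
    exact ⟨fun θ O hθ => h.sm θ O hθ.par fun z hz => ⟨hθ.ne z hz, hθ.lt z hz⟩,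
      fun θ O hθ => h.pos θ O hθ.par fun z hz => ⟨hθ.ne z hz, hθ.lt z hz⟩,
      fun θ O hθ => h.ke θ O hθ.par fun z hz => ⟨hθ.ne z hz, hθ.lt z hz⟩⟩

theorem bd_iff {f : E3 → ℂ} {s : ℂ} {r C : ℝ} {u : E3 → ℝ} :
    KED_952.Bd f s r C u ↔ BdOn (n := 2) f s (PB r) C u := by
  constructor
  · intro h
    exact ⟨fun x hx hs => h.lo x hs hx.1 hx.2, fun x hx hs => h.hi x hs hx.1 hx.2,
      fun θ U hθ hm z hz v => h.eu θ U
        ⟨hθ, fun z hz => (hm z hz).1, fun z hz => (hm z hz).2⟩ z hz v⟩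
  · intro h
    exact ⟨fun x hs h0 hr => h.lo x ⟨h0, hr⟩ hs, fun x hs h0 hr => h.hi x ⟨h0, hr⟩ hs,
      fun θ O hθ z hz v => h.lev_le θ O hθ.par (fun z hz => ⟨hθ.ne z hz, hθ.lt z hz⟩) z hz v⟩

open Crest.Agent.R257.KED_952 (PP)

/-- the family of functions -/
def gP (Φ : E3 × PP → ℂ) (τ : PP) : AC 2 → ℂ := fun x => Φ (x, τ)

theorem jn_gP (Φ : E3 × PP → ℂ) : jn (gP Φ) (fun _ => 0) = Φ := by
  funext p
  show Φ (p.1, p.2) - 0 = Φ p
  rw [sub_zero]

/-- convergence in the sense of `KED_952` -/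
theorem conv_of {Φ : E3 × PP → ℂ} {τ₀ : PP} {l : Filter PP} [l.NeBot] {r C : ℝ}
    {w : PP → E3 → ℝ} {u : E3 → ℝ} (S : Sit (gP Φ) (fun _ => 0) (PB r) τ₀ C l id w)
    (hcc : CC (gP Φ) (fun _ => 0) (PB r) τ₀ l id w u) : KED_952.Conv Φ r l τ₀ w u := by
  intro O N Θ hΘ k K hKO hK
  have hτ₀ := mem_of_mem_nhds hΘ.nhd
  exact S.conv_cpt hcc hΘ.nhd (hΘ.par τ₀ hτ₀).par.isOpen
    (fun z hz τ hτ => hΘ.an (z, τ) ⟨hz, hτ⟩) (fun τ hτ => (hΘ.par τ hτ).par)
    (fun z hz τ hτ => ⟨(hΘ.par τ hτ).ne z hz, (hΘ.par τ hτ).lt z hz⟩) k hK hKO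

/-- **`KEc` from continuous convergence** -/
theorem kec_of {Φ : E3 × PP → ℂ} {τ₀ : PP} {l : Filter PP} [l.NeBot] {r C : ℝ}
    {w : PP → E3 → ℝ} {u : E3 → ℝ} (S : Sit (gP Φ) (fun _ => 0) (PB r) τ₀ C l id w)
    (hcc : CC (gP Φ) (fun _ => 0) (PB r) τ₀ l id w u) : KED_952.KEc Φ τ₀ l r C w u := by
  refine ⟨?_, ⟨keon_iff.2 (S.keon hcc), bd_iff.2 (S.bdon hcc)⟩, conv_of S hcc⟩
  filter_upwards [S.ke, S.bd] with τ h1 h2
  exact ⟨keon_iff.2 h1, bd_iff.2 h2⟩

end ked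

end

end Crest.Agent.R257.LimD_37
end

-- ▼ part R257/AYDisc_209
section

/-!
# R257 (S0395), E-AY (helper209): the negative Aubin-Yau theorem without connectedness

* `rA`, `rL`, `rH`, `rP` : restriction of an atlas / line bundle / metric / partition of unity to
  a clopen subset
* `ay_all : Crest.Agent.R257.KE_835.AYStmt`
-/

set_option autoImplicit false
set_option linter.unusedSectionVars false

open Set Filter Topology Complex Metric TopologicalSpace
open scoped ContDiff Matrix ComplexConjugate ComplexOrder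

namespace Crest.Agent.R257.AYDisc_209

open Crest.Agent.R275.Geo Crest.Agent.R275.Core144 Crest.Agent.R275.GC293
open Crest.Agent.R273.Defs_333 Crest.Agent.R273.YauDefs_635 Crest.Agent.R273.HM_333
open Crest.Agent.R273.YauCh_635
open Crest.Agent.R257.AYTop_209

noncomputable section

variable {n : ℕ} {M : Type} [TopologicalSpace M] {A : Atl n M} {U : Opens M}

theorem mem_tgt (hU : Nonempty U) {i : A.ι} {z : Cn n} :
    z ∈ ((A.e i).subtypeRestr hU).target ↔ z ∈ (A.e i).target ∧ (A.e i).symm z ∈ U := by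
  rw [OpenPartialHomeomorph.subtypeRestr_def]
  simp

theorem symm_coe (hU : Nonempty U) {i : A.ι} {z : Cn n}
    (hz : z ∈ ((A.e i).subtypeRestr hU).target) :
    ((((A.e i).subtypeRestr hU).symm z : U) : M) = (A.e i).symm z :=
  OpenPartialHomeomorph.subtypeRestr_symm_apply _ hU hz

theorem mem_src (hU : Nonempty U) {i : A.ι} {x : U} :
    x ∈ ((A.e i).subtypeRestr hU).source ↔ (x : M) ∈ (A.e i).source := by
  rw [OpenPartialHomeomorph.subtypeRestr_source]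
  rfl

/-- restriction of the atlas -/
def rA (A : Atl n M) (hU : Nonempty U) : Atl n U where
  ι := A.ι
  e i := (A.e i).subtypeRestr hU
  cover x := by
    obtain ⟨i, hi⟩ := A.cover x
    exact ⟨i, (mem_src hU).2 hi⟩
  cube i z hz := A.cube i z ((mem_tgt hU).1 hz).1
  holo i j := by
    refine ((A.holo i j).mono ?_).congr ?_
    · rintro z ⟨h1, h2⟩
      have h3 := (mem_src hU).1 h2
      rw [symm_coe hU h1] at h3
      exact ⟨((mem_tgt hU).1 h1).1, h3⟩
    · rintro z ⟨h1, h2⟩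
      show (A.e j) ((((A.e i).subtypeRestr hU).symm z : U) : M) = _
      rw [symm_coe hU h1]

theorem sm_res {hU : Nonempty U} {f : M → ℝ} (hf : A.Sm f) :
    (rA A hU).Sm (fun x : U => f x) := by
  intro i
  refine ((hf i).mono fun z hz => ((mem_tgt hU).1 hz).1).congr ?_
  intro z hz
  show f ((((A.e i).subtypeRestr hU).symm z : U) : M) = _
  rw [symm_coe hU hz]

theorem ov_res (hU : Nonempty U) (i j : A.ι) :
    (rA A hU).ov i j = {z | z ∈ A.ov i j ∧ (A.e i).symm z ∈ U} := by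
  ext z
  constructor
  · rintro ⟨h1, h2⟩
    have h3 := (mem_src hU).1 h2
    have h5 := symm_coe hU h1
    exact ⟨⟨((mem_tgt hU).1 h1).1, h5 ▸ h3⟩, ((mem_tgt hU).1 h1).2⟩
  · rintro ⟨⟨h1, h2⟩, h3⟩
    have h4 : z ∈ ((A.e i).subtypeRestr hU).target := (mem_tgt hU).2 ⟨h1, h3⟩
    have h5 := symm_coe hU h4
    exact ⟨h4, (mem_src hU).2 (h5.symm ▸ h2)⟩

theorem good_res (hG : GoodA A) (hU : Nonempty U) (hc : IsClosed (U : Set M)) :
    GoodA (rA A hU) := by
  intro i j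
  rw [ov_res]
  have hcv : Convex ℝ (A.ov i j) := hG i j
  by_cases h : ∃ z ∈ A.ov i j, (A.e i).symm z ∈ U
  · obtain ⟨z0, hz0, hz0U⟩ := h
    have hpre : IsPreconnected ((A.e i).symm '' A.ov i j) :=
      hcv.isPreconnected.image _ ((A.e i).continuousOn_symm.mono fun z hz => hz.1)
    have hcl : IsClopen (U : Set M) := ⟨hc, U.2⟩
    have hsub : (A.e i).symm '' A.ov i j ⊆ U :=
      hpre.subset_isClopen hcl ⟨_, ⟨z0, hz0, rfl⟩, hz0U⟩
    have e : {z | z ∈ A.ov i j ∧ (A.e i).symm z ∈ U} = A.ov i j := by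
      ext z
      exact ⟨fun hz => hz.1, fun hz => ⟨hz, hsub ⟨z, hz, rfl⟩⟩⟩
    rw [e]
    exact hcv
  · have e : {z | z ∈ A.ov i j ∧ (A.e i).symm z ∈ U} = (∅ : Set (Cn n)) := by
      ext z
      simp only [mem_ofPred_eq, mem_empty_iff_false, iff_false]
      exact fun hz => h ⟨z, hz.1, hz.2⟩
    rw [e]
    exact convex_empty

/-- restriction of a partition of unity -/
def rP [CompactSpace M] [Finite A.ι] (P : Part A) (hU : Nonempty U) (hc : IsClosed (U : Set M)) :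
    Part (rA A hU) where
  ψ i x := P.ψ i x
  χ i x := P.χ i x
  ψ_sm i := sm_res (P.ψ_sm i)
  χ_sm i := sm_res (P.χ_sm i)
  χ_cpt i := by
    have : CompactSpace U := isCompact_iff_compactSpace.1 hc.isCompact
    exact (isClosed_tsupport _).isCompact
  χ_sub i := by
    intro x hx
    exact (mem_src hU).2 (P.χ_sub i (tsupport_comp_subset_preimage (P.χ i)
      continuous_subtype_val hx))
  χ_one i x hx := by
    have h1 := P.χ_one i x (tsupport_comp_subset_preimage (P.ψ i) continuous_subtype_val hx)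
    exact continuous_subtype_val.continuousAt.eventually h1
  lf K _ := by
    have : Finite (rA A hU).ι := ‹Finite A.ι›
    exact Set.toFinite _
  sum_one x := P.sum_one x

/-- restriction of a line bundle -/
def rL (L : LB A) (hU : Nonempty U) : LB (rA A hU) where
  g i j x := L.g i j x
  hol i j := by
    refine (DifferentiableOn.mono (L.hol i j) ?_).congr ?_
    · rintro z ⟨h1, h2⟩
      have h3 := (mem_src hU).1 h2
      have h5 := symm_coe hU h1
      have h6 : (A.e i).symm z ∈ (A.e j).source := h5 ▸ h3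
      exact ⟨((mem_tgt hU).1 h1).1, h6⟩
    · rintro z ⟨h1, h2⟩
      show L.g i j ((((A.e i).subtypeRestr hU).symm z : U) : M) = _
      rw [symm_coe hU h1]
  off i j x hx := by
    refine L.off i j x fun h => hx ?_
    exact ⟨(mem_src hU).2 h.1, (mem_src hU).2 h.2⟩
  self i x := L.self i x
  mul i j k x hx := L.mul i j k x
    ⟨⟨(mem_src hU).1 hx.1.1, (mem_src hU).1 hx.1.2⟩, (mem_src hU).1 hx.2⟩

variable {L : LB A}

/-- restriction of a metric -/
def rH (H : HM L) (hU : Nonempty U) : HM (rL L hU) where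
  w i x := H.w i x
  pos i x hx := H.pos i x ((mem_src hU).1 hx)
  sm i := by
    refine ((H.sm i).mono fun z hz => ((mem_tgt hU).1 hz).1).congr ?_
    intro z hz
    show H.w i ((((A.e i).subtypeRestr hU).symm z : U) : M) = _
    rw [symm_coe hU hz]
  tr i j x hx := H.tr i j x ⟨(mem_src hU).1 hx.1, (mem_src hU).1 hx.2⟩

theorem tgt_nhds (hU : Nonempty U) {i : A.ι} {z : Cn n} (hz : z ∈ (A.e i).target)
    (hzU : (A.e i).symm z ∈ U) : ∀ᶠ w in 𝓝 z, w ∈ ((A.e i).subtypeRestr hU).target :=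
  ((A.e i).subtypeRestr hU).open_target.mem_nhds ((mem_tgt hU).2 ⟨hz, hzU⟩)

theorem wt_res (H : HM L) (hU : Nonempty U) {i : A.ι} {z : Cn n} (hz : z ∈ (A.e i).target)
    (hzU : (A.e i).symm z ∈ U) : (rH H hU).wt i =ᶠ[𝓝 z] H.wt i := by
  filter_upwards [tgt_nhds hU hz hzU] with w hw
  show - Real.log (H.w i ((((A.e i).subtypeRestr hU).symm w : U) : M)) = _
  rw [symm_coe hU hw]
  rfl

theorem lev_congr {u v : Cn n → ℝ} {z : Cn n} (h : u =ᶠ[𝓝 z] v) (w : Cn n) :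
    lev u z w = lev v z w := by
  rw [lev_D2, lev_D2, D2_congr h]

/-! ### components -/

theorem comp_open (hG : GoodA A) (x : M) : IsOpen (connectedComponent x) := by
  rw [isOpen_iff_mem_nhds]
  intro y hy
  obtain ⟨i, hi⟩ := A.cover y
  have hcv : Convex ℝ (A.e i).target := by
    have h1 := hG i i
    have e : A.ov i i = (A.e i).target := by
      ext z
      exact ⟨fun hz => hz.1, fun hz => ⟨hz, (A.e i).map_target hz⟩⟩
    rwa [e] at h1
  have hpre : IsPreconnected (A.e i).source := by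
    rw [← (A.e i).symm_image_target_eq_source]
    exact hcv.isPreconnected.image _ (A.e i).continuousOn_symm
  have h2 : (A.e i).source ⊆ connectedComponent y := hpre.subset_connectedComponent hi
  rw [← connectedComponent_eq hy] at h2
  exact mem_of_superset ((A.e i).open_source.mem_nhds hi) h2

/-- the component of `x` -/
def cmp (hG : GoodA A) (x : M) : Opens M := ⟨connectedComponent x, comp_open hG x⟩

theorem cmp_eq (hG : GoodA A) {x y : M} (h : y ∈ connectedComponent x) :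
    cmp hG y = cmp hG x := by
  ext1
  exact (connectedComponent_eq h).symm

/-- **the negative Aubin-Yau theorem**, `M` not necessarily connected -/
theorem ay_all : Crest.Agent.R257.KE_835.AYStmt := by
  intro n M _ _ _ A _ hG hP L H hp F hF
  obtain ⟨P⟩ := hP
  -- solution on one component
  have hsol : ∀ U : Opens M, ∃ φ : U → ℝ, ∀ (hU : Nonempty U), IsClosed (U : Set M) →
      IsPreconnected (U : Set M) → (rA A hU).Sm φ ∧ KPos (rH H hU) φ ∧
        MA (rH H hU) φ (fun x => F x + φ x) := by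
    intro U
    by_cases hU : Nonempty U
    · by_cases hc : IsClosed (U : Set M)
      · by_cases hpc : IsPreconnected (U : Set M)
        · have h1 : CompactSpace U := isCompact_iff_compactSpace.1 hc.isCompact
          have h2 : ConnectedSpace U := by
            refine Subtype.connectedSpace ⟨?_, hpc⟩
            obtain ⟨x⟩ := hU
            exact ⟨x.1, x.2⟩
          have h3 : Finite (rA A hU).ι := ‹Finite A.ι›
          have hpos : (rH H hU).Pos := by
            intro i z hz v hv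
            have hz' := (mem_tgt hU).1 hz
            rw [lev_congr (wt_res H hU hz'.1 hz'.2)]
            exact hp i z hz'.1 v hv
          obtain ⟨φ, a1, a2, a3⟩ := ay_holds n U (rA A hU) (good_res hG hU hc)
            ⟨rP P hU hc⟩ (rL L hU) (rH H hU) hpos (fun x => F x) (sm_res hF)
          exact ⟨φ, fun _ _ _ => ⟨a1, a2, a3⟩⟩
        · exact ⟨fun _ => 0, fun _ _ h => absurd h hpc⟩
      · exact ⟨fun _ => 0, fun _ h => absurd h hc⟩
    · exact ⟨fun _ => 0, fun h => absurd h hU⟩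
  choose sol hsol using hsol
  have hsub : ∀ (V W : Opens M) (x : M) (hV : x ∈ V) (hW : x ∈ W), V = W →
      sol V ⟨x, hV⟩ = sol W ⟨x, hW⟩ := by
    intro V W x hV hW h
    subst h
    rfl
  have hmem : ∀ x, x ∈ cmp hG x := fun x => mem_connectedComponent
  set φ : M → ℝ := fun x => sol (cmp hG x) ⟨x, hmem x⟩ with hφ
  -- local form
  have key : ∀ i, ∀ z ∈ (A.e i).target, ∃ (U : Opens M) (hU : Nonempty U),
      IsClosed (U : Set M) ∧ IsPreconnected (U : Set M) ∧ (A.e i).symm z ∈ U ∧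
      inC A i φ =ᶠ[𝓝 z] inC (rA A hU) i (sol U) := by
    intro i z hz
    refine ⟨cmp hG ((A.e i).symm z), ⟨⟨_, hmem _⟩⟩, isClosed_connectedComponent,
      isPreconnected_connectedComponent, hmem _, ?_⟩
    filter_upwards [tgt_nhds ⟨⟨_, hmem _⟩⟩ hz (hmem ((A.e i).symm z))] with w hw
    have hw' := (mem_tgt _).1 hw
    have h1 : (A.e i).symm w ∈ connectedComponent ((A.e i).symm z) := hw'.2
    show sol (cmp hG ((A.e i).symm w)) ⟨(A.e i).symm w, _⟩ = sol (cmp hG ((A.e i).symm z)) _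
    have h2 := hsub (cmp hG ((A.e i).symm w)) (cmp hG ((A.e i).symm z)) ((A.e i).symm w)
      (hmem _) h1 (cmp_eq hG h1)
    rw [h2]
    congr 1
    ext1
    exact (symm_coe _ hw).symm
  have kpot : ∀ i, ∀ z ∈ (A.e i).target, ∀ (U : Opens M) (hU : Nonempty U),
      (A.e i).symm z ∈ U → inC A i φ =ᶠ[𝓝 z] inC (rA A hU) i (sol U) →
      pot H φ i =ᶠ[𝓝 z] pot (rH H hU) (sol U) i := by
    intro i z hz U hU hzU he
    filter_upwards [he, wt_res H hU hz hzU] with w h1 h2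
    simp only [pot]
    rw [h1, h2]
  refine ⟨φ, fun i z hz => ?_, fun i z hz v hv => ?_, fun i z hz => ?_⟩
  · obtain ⟨U, hU, hc, hpc, hzU, he⟩ := key i z hz
    have hz' : z ∈ ((A.e i).subtypeRestr hU).target := (mem_tgt hU).2 ⟨hz, hzU⟩
    have h1 := ((hsol U hU hc hpc).1 i).contDiffAt
      (((A.e i).subtypeRestr hU).open_target.mem_nhds hz')
    exact (h1.congr_of_eventuallyEq he).contDiffWithinAt
  · obtain ⟨U, hU, hc, hpc, hzU, he⟩ := key i z hz
    have hz' : z ∈ ((A.e i).subtypeRestr hU).target := (mem_tgt hU).2 ⟨hz, hzU⟩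
    rw [lev_congr (kpot i z hz U hU hzU he)]
    exact (hsol U hU hc hpc).2.1 i z hz' v hv
  · obtain ⟨U, hU, hc, hpc, hzU, he⟩ := key i z hz
    have hz' : z ∈ ((A.e i).subtypeRestr hU).target := (mem_tgt hU).2 ⟨hz, hzU⟩
    have h1 := (hsol U hU hc hpc).2.2 i z hz'
    rw [cH_congr (kpot i z hz U hU hzU he), h1, cH_congr (wt_res H hU hz hzU)]
    congr 3
    have h2 := he.self_of_nhds
    show _ = F ((A.e i).symm z) + inC A i φ z
    rw [h2]
    show F ((((A.e i).subtypeRestr hU).symm z : U) : M) + _ = _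
    rw [symm_coe hU hz']
    rfl

end

end Crest.Agent.R257.AYDisc_209
end

-- ▼ part R257/LimG_37
section

/-!
Row 257 (S0395), leaf E-LIM / OUT, helper37: the Kaehler-Einstein weights `u_(t,s)`, `u_t`, `u_0`.

* `out_of` : `KED_952.OutStmt` from the Chern-Lu inequality `EuclStmt`.
-/

set_option autoImplicit false
set_option linter.unusedSectionVars false

open Set Filter Topology Complex
open scoped ContDiff ComplexConjugate Matrix

namespace Crest.Agent.R257.LimG_37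

open Crest.Agent.R275.Geo
open Crest.Agent.R257.PN_835 Crest.Agent.R257.Aff_835 Crest.Agent.R257.Hom_835
open Crest.Agent.R257.Unif_835 Crest.Agent.R257.GDof_835 Crest.Agent.R257.Out1_835
open Crest.Agent.R257.LimA_37 Crest.Agent.R257.LimB_37 Crest.Agent.R257.LimC_37
open Crest.Agent.R257.LimD_37 Crest.Agent.R257.Defs_219
open Crest.Agent.R257.KED_952 (PP fam KEc OutStmt)

noncomputable section

variable {G : E3 × ℂ → ℂ} {μ d : ℕ} {R r c₀ e : ℝ} {P : ℂ → MvPolynomial (Fin 3) ℂ}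
  {c : Fin 3 → ℂ}

/-- the family is analytic -/
theorem analytic_fam (h : GFam G μ d R r c₀ e P c) {t s : ℂ} (ht : ‖t‖ < (gd h).R) (x : E3) :
    AnalyticAt ℂ (fam G) (x, (t, s)) := by
  have ho : IsOpen {q : E3 × PP | ‖q.2.1‖ < (gd h).R} :=
    isOpen_lt (continuous_norm.comp (continuous_fst.comp continuous_snd)) continuous_const
  have hd : DifferentiableOn ℂ (fam G) {q : E3 × PP | ‖q.2.1‖ < (gd h).R} := by
    have h1 : DifferentiableOn ℂ (fun q : E3 × PP => (gd h).H q.2 (hc (n := 2) q.1))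
        {q : E3 × PP | ‖q.2.1‖ < (gd h).R} := by
      refine (gd h).diffOn_H.comp (f := fun q : E3 × PP => (q.2, hc (n := 2) q.1)) ?_
        fun q hq => hq
      refine DifferentiableOn.prodMk differentiableOn_snd ?_
      intro q hq
      exact (DifferentiableAt.comp q (g := hc (n := 2)) (hasFDerivAt_hc (n := 2) q.1).differentiableAt
        differentiableAt_fst).differentiableWithinAt
    refine h1.congr fun q hq => ?_
    show G (q.1, q.2.1) - q.2.2 = HH d (P q.2.1) c q.2.2 (hc (n := 2) q.1)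
    rw [HH_hc (h.deg q.2.1)]
    have h2 := congrFun (sl_eq h q.2.1) q.1
    have h3 : G (q.1, q.2.1) = Gf (n := 2) d (P q.2.1) c q.1 := h2
    rw [h3]
  exact Crest.Agent.R266.SCV.analyticOnNhd_of_differentiableOn ho hd (x, (t, s)) ht

/-- the levels are smooth off the origin -/
theorem reg_fam (h : GFam G μ d R r c₀ e P c) {t : ℂ} (ht : ‖t‖ < (gd h).R) {r₁ : ℝ}
    (hr0 : 0 < r₁) (hr : r₁ ≤ (gd h).R) {x : E3} (hx : x ∈ PB r₁) (s : ℂ) :
    fderiv ℂ (gP (fam G) (t, s)) x ≠ 0 := by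
  obtain ⟨c1, hc1, hlow⟩ := (gd h).low
  have h1 : ‖x‖ < (gd h).R := by
    have h2 := norm_sq_le_nsq (m := 3) x
    have h3 : ‖x‖ ^ 2 < r₁ ^ 2 := h2.trans_lt hx.2
    have h4 : ‖x‖ < r₁ := lt_of_pow_lt_pow_left₀ 2 hr0.le h3
    linarith
  have h5 := hlow t ht x h1
  have h6 : 0 < ‖x‖ := norm_pos_iff.2 hx.1
  have h7 : 0 < ‖fderiv ℂ (Gf (n := 2) d ((gd h).P t) (gd h).c) x‖ :=
    lt_of_lt_of_le (by positivity) h5
  have e1 : gP (fam G) (t, s) = fun x => Gf (n := 2) d (P t) c x - s := by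
    funext y
    have h3 : G (y, t) = Gf (n := 2) d (P t) c y := congrFun (sl_eq h t) y
    show G (y, t) - s = _
    rw [h3]
  rw [e1, fderiv_sub_const]
  exact norm_pos_iff.1 h7

theorem cc_congr {g : PP → AC 2 → ℂ} {σ : PP → ℂ} {D : Set (AC 2)} {τ₀ : PP} {ι : Type*}
    {l : Filter ι} {τ : ι → PP} {u u' : ι → AC 2 → ℝ} {u₀ : AC 2 → ℝ}
    (h : CC g σ D τ₀ l τ u u₀) (he : ∀ᶠ i in l, u i = u' i) : CC g σ D τ₀ l τ u' u₀ := by
  intro x hx h0 ε hε
  obtain ⟨M, hM, h1⟩ := h x hx h0 ε hε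
  refine ⟨M, hM, ?_⟩
  filter_upwards [h1, he] with i h2 h3
  rw [← h3]
  exact h2

/-- **OUT** from the Chern-Lu inequality -/
theorem out_of (hE : ∀ (d μ κ : ℕ) (D : GD 2 d μ), d = 2 + 2 + κ → μ < κ → EuclStmt D κ) :
    OutStmt := by
  intro G μ d R r c₀ e P c h
  classical
  have hR := (gd h).R_pos
  set r₁ : ℝ := (gd h).R / 2 with hr₁
  have hr₁0 : 0 < r₁ := by positivity
  have hr₁R : r₁ ≤ (gd h).R := by linarith
  have hRr : (gd h).R ≤ r := (min_le_right _ _).trans (min_le_left _ _)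
  obtain ⟨e₁, he₁, C, w₁, hw₁⟩ := out1 AYDisc_209.ay_all h
    (fun κ hd hκ => hE d μ κ (gd h) hd hκ) hr₁0
  -- the inner ultrafilter
  set S : Ultrafilter ℂ := Ultrafilter.of (𝓝[≠] (0 : ℂ)) with hS
  have hSle : (S : Filter ℂ) ≤ 𝓝[≠] 0 := Ultrafilter.of_le _
  have hS0 : (S : Filter ℂ) ≤ 𝓝 0 := hSle.trans nhdsWithin_le_nhds
  have hSne : ∀ᶠ s in (S : Filter ℂ), s ≠ 0 := hSle self_mem_nhdsWithin
  set e₂ : ℝ := min e₁ (gd h).R with he₂
  have he₂0 : 0 < e₂ := lt_min he₁ hR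
  have hSe : ∀ᶠ s in (S : Filter ℂ), ‖s‖ < e₁ := by
    have h1 : Metric.ball (0 : ℂ) e₁ ∈ 𝓝 (0 : ℂ) := Metric.ball_mem_nhds _ he₁
    filter_upwards [hS0 h1] with s hs
    rwa [mem_ball_zero_iff] at hs
  set m : ℂ → Filter PP := fun t => map (fun s => (t, s)) (S : Filter ℂ) with hm
  have hm0 : ∀ t, m t ≤ 𝓝 (t, 0) := by
    intro t
    have h1 : Tendsto (fun s : ℂ => ((t, s) : PP)) (𝓝 0) (𝓝 (t, 0)) :=
      (Continuous.prodMk continuous_const continuous_id).tendsto' _ _ rfl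
    exact (map_mono hS0).trans h1
  have hmne : ∀ t, (m t).NeBot := fun t => inferInstance
  -- the good set of parameters
  have hgood : ∀ t, ‖t‖ < e₂ → ∀ᶠ τ in m t, τ.2 ≠ 0 ∧
      KEon (gP (fam G) τ) 0 (PB r₁) (w₁ τ) ∧ BdOn (gP (fam G) τ) 0 (PB r₁) C (w₁ τ) := by
    intro t ht
    show ∀ᶠ s in (S : Filter ℂ), _
    filter_upwards [hSne, hSe] with s h1 h2
    obtain ⟨h3, h4⟩ := hw₁ t s (ht.trans_le (min_le_left _ _)) (norm_pos_iff.2 h1) h2
    exact ⟨h1, keon_iff.1 h3, bd_iff.1 h4⟩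
  have hjan : ∀ t, ‖t‖ < e₂ → ∀ x ∈ PB r₁, gP (fam G) (t, 0) x = 0 →
      AnalyticAt ℂ (jn (gP (fam G)) (fun _ => 0)) (x, (t, 0)) := by
    intro t ht x _ _
    rw [jn_gP]
    exact analytic_fam h (ht.trans_le (min_le_right _ _)) x
  have hreg : ∀ t, ‖t‖ < e₂ → ∀ x ∈ PB r₁, gP (fam G) (t, 0) x = 0 →
      fderiv ℂ (gP (fam G) (t, 0)) x ≠ 0 := fun t ht x hx _ =>
    reg_fam h (ht.trans_le (min_le_right _ _)) hr₁0 hr₁R hx 0
  have hSit : ∀ t, ‖t‖ < e₂ → Sit (gP (fam G)) (fun _ => 0) (PB r₁) (t, 0) C (m t) id w₁ :=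
    fun t ht => ⟨isOpen_PB _, hjan t ht, hreg t ht, hm0 t, (hgood t ht).mono fun _ h => h.2.1,
      (hgood t ht).mono fun _ h => h.2.2⟩
  -- the limits `u_t`
  have hex : ∀ t : ℂ, ∃ v : E3 → ℝ, ‖t‖ < e₂ →
      CC (gP (fam G)) (fun _ => 0) (PB r₁) (t, 0) (m t) id w₁ v := by
    intro t
    by_cases ht : ‖t‖ < e₂
    · obtain ⟨v, hv⟩ := Sit.exists_lim (𝒰 := S.map fun s => (t, s)) (hSit t ht)
      exact ⟨v, fun _ => hv⟩
    · exact ⟨fun _ => 0, fun h => (ht h).elim⟩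
  choose V hV using hex
  set w : PP → E3 → ℝ := fun τ => if τ.2 = 0 then V τ.1 else w₁ τ with hw
  have hw0 : ∀ t, w (t, 0) = V t := fun t => if_pos rfl
  have hwm : ∀ t, ‖t‖ < e₂ → ∀ᶠ τ in m t, w₁ τ = w τ := fun t ht =>
    (hgood t ht).mono fun τ hτ => (if_neg hτ.1).symm
  have hcc : ∀ t, ‖t‖ < e₂ →
      CC (gP (fam G)) (fun _ => 0) (PB r₁) (t, 0) (m t) id w (V t) := fun t ht =>
    cc_congr (hV t ht) (hwm t ht)
  have hSit' : ∀ t, ‖t‖ < e₂ → Sit (gP (fam G)) (fun _ => 0) (PB r₁) (t, 0) C (m t) id w := by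
    intro t ht
    have h1 := hSit t ht
    refine ⟨h1.D_open, h1.jan, h1.reg, h1.tend, ?_, ?_⟩
    · filter_upwards [h1.ke, hwm t ht] with τ h2 h3
      rw [← h3]
      exact h2
    · filter_upwards [h1.bd, hwm t ht] with τ h2 h3
      rw [← h3]
      exact h2
  refine ⟨r₁, C, w, S, hr₁0, by linarith, hSle, ?_, fun T hT => ?_⟩
  · have h1 : ∀ᶠ t : ℂ in 𝓝[≠] 0, ‖t‖ < e₂ := by
      have h2 : Metric.ball (0 : ℂ) e₂ ∈ 𝓝 (0 : ℂ) := Metric.ball_mem_nhds _ he₂0
      filter_upwards [nhdsWithin_le_nhds h2] with t ht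
      rwa [mem_ball_zero_iff] at ht
    filter_upwards [h1] with t ht
    have := hmne t
    rw [hw0]
    exact kec_of (hSit' t ht) (hcc t ht)
  · have hT0 : (T : Filter ℂ) ≤ 𝓝 0 := hT.trans nhdsWithin_le_nhds
    have hTe : ∀ᶠ t in (T : Filter ℂ), ‖t‖ < e₂ := by
      have h1 : Metric.ball (0 : ℂ) e₂ ∈ 𝓝 (0 : ℂ) := Metric.ball_mem_nhds _ he₂0
      filter_upwards [hT0 h1] with t ht
      rwa [mem_ball_zero_iff] at ht
    have hf : Tendsto (fun t : ℂ => ((t, 0) : PP)) (T : Filter ℂ) (𝓝 (0, 0)) := by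
      have h1 : Tendsto (fun t : ℂ => ((t, 0) : PP)) (𝓝 0) (𝓝 (0, 0)) :=
        (Continuous.prodMk continuous_id continuous_const).tendsto' _ _ rfl
      exact h1.mono_left hT0
    have h00 : ‖(0 : ℂ)‖ < e₂ := by rw [norm_zero]; exact he₂0
    -- the outer situation
    have hkeT : ∀ᶠ t in (T : Filter ℂ), KEon (gP (fam G) (t, 0)) 0 (PB r₁) (V t) ∧
        BdOn (gP (fam G) (t, 0)) 0 (PB r₁) C (V t) := by
      filter_upwards [hTe] with t ht
      have := hmne t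
      exact ⟨(hSit' t ht).keon (hcc t ht), (hSit' t ht).bdon (hcc t ht)⟩
    have hSitT : Sit (gP (fam G)) (fun _ => 0) (PB r₁) (0, 0) C (T : Filter ℂ)
        (fun t => ((t, 0) : PP)) V :=
      ⟨isOpen_PB _, hjan 0 h00, hreg 0 h00, hf, hkeT.mono fun _ h => h.1,
        hkeT.mono fun _ h => h.2⟩
    obtain ⟨u₀, hu₀⟩ := Sit.exists_lim hSitT
    -- the same with index set `PP`
    have hSitT' : Sit (gP (fam G)) (fun _ => 0) (PB r₁) (0, 0) C
        (map (fun t => ((t, 0) : PP)) (T : Filter ℂ)) id w := by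
      refine ⟨isOpen_PB _, hjan 0 h00, hreg 0 h00, hf, ?_, ?_⟩
      · show ∀ᶠ t in (T : Filter ℂ), KEon (gP (fam G) (t, 0)) 0 (PB r₁) (w (t, 0))
        filter_upwards [hkeT] with t ht
        rw [hw0]
        exact ht.1
      · show ∀ᶠ t in (T : Filter ℂ), BdOn (gP (fam G) (t, 0)) 0 (PB r₁) C (w (t, 0))
        filter_upwards [hkeT] with t ht
        rw [hw0]
        exact ht.2
    have hccT' : CC (gP (fam G)) (fun _ => 0) (PB r₁) (0, 0)
        (map (fun t => ((t, 0) : PP)) (T : Filter ℂ)) id w u₀ := by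
      intro x hx h0 ε hε
      obtain ⟨M, hM, h1⟩ := hu₀ x hx h0 ε hε
      refine ⟨M, hM, ?_⟩
      show ∀ᶠ t in (T : Filter ℂ), _
      filter_upwards [h1] with t h2
      rw [hw0]
      exact h2
    -- the iterated situation
    have hbt : Tendsto id ((T : Filter ℂ).bind m) (𝓝 ((0, 0) : PP)) := by
      intro U hU
      show ∀ᶠ p in (T : Filter ℂ).bind m, p ∈ U
      rw [Filter.eventually_bind]
      filter_upwards [hf.eventually (eventually_mem_nhds_iff.2 hU)] with t ht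
      exact hm0 t ht
    have hSitB : Sit (gP (fam G)) (fun _ => 0) (PB r₁) (0, 0) C ((T : Filter ℂ).bind m) id w := by
      refine ⟨isOpen_PB _, hjan 0 h00, hreg 0 h00, hbt, ?_, ?_⟩
      · rw [Filter.eventually_bind]
        filter_upwards [hTe] with t ht
        exact (hSit' t ht).ke
      · rw [Filter.eventually_bind]
        filter_upwards [hTe] with t ht
        exact (hSit' t ht).bd
    have hBne : ((T : Filter ℂ).bind m).NeBot :=
      (T.bind fun t => S.map fun s => ((t, s) : PP)).neBot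
    have hccB : CC (gP (fam G)) (fun _ => 0) (PB r₁) (0, 0) ((T : Filter ℂ).bind m) id w u₀ :=
      hSitB.iter hf hu₀ (Eventually.of_forall hm0) (by
        filter_upwards [hTe] with t ht
        exact hcc t ht)
    exact ⟨u₀, kec_of hSitT' hccT', kec_of hSitB hccB⟩

end

end Crest.Agent.R257.LimG_37
end

-- ▼ part R257/CLSA_39
section

/-!
# Row 257 (S0395), E-CLS (helper39), part A: the residue form, charts

* `eta2_sm`, `eta2_hess`, `eta2_pos` : `|η|²` of a lift is smooth, positive, `log |η|²` is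
  pluriharmonic.
-/

set_option autoImplicit false
set_option linter.unusedSectionVars false

open Set Filter Topology Complex
open scoped ContDiff ComplexConjugate Matrix ComplexOrder

namespace Crest.Agent.R257.CLSA_39

open Crest.Agent.R275.Geo Crest.Agent.R275.Core144 Crest.Agent.R275.GC293
open Crest.Agent.R273 Crest.Agent.R273.Defs_333 Crest.Agent.R273.YauDefs_635
open Crest.Agent.R273.YauMax_635 Crest.Agent.R273.HM_333
open Crest.Agent.R273.Hess_333 Crest.Agent.R273.HessB_333 Crest.Agent.R273.FS_333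
open Crest.Agent.R257.CLC_39 Crest.Agent.R257.CLD_39 Crest.Agent.R257.CLE_39
open Crest.Agent.R257.CLF_39 Crest.Agent.R257.CLG_39 Crest.Agent.R257.CLH_39
open Crest.Agent.R257.PN_835 Crest.Agent.R257.Gram_835 Crest.Agent.R257.Hyp_835
open Crest.Agent.R257.KEl_835 Crest.Agent.R257.KE_835 Crest.Agent.R257.Aff_835

noncomputable section

variable {n d : ℕ} {X : Hyp n d}

/-- holomorphic derivative in a fixed direction -/
theorem hol_pd {F : Cn n → HC (n + 1)} {U : Set (Cn n)} (hF : Lift X F U) (a : Fin n)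
    (k : Fin (n + 2)) : DifferentiableOn ℂ (fun z => pd F z a k) U := by
  have h1 : DifferentiableOn ℂ (fderiv ℂ (fun z => F z k)) U := fun z hz =>
    ((Crest.Agent.R266.SCV.analyticOnNhd_of_differentiableOn hF.isOpen
      (hF.holk k)).fderiv z hz).differentiableAt.differentiableWithinAt
  exact h1.clm_apply (differentiableOn_const _)

theorem diffOn_prod {ι : Type*} (s : Finset ι) {f : ι → Cn n → ℂ} {U : Set (Cn n)}
    (h : ∀ i ∈ s, DifferentiableOn ℂ (f i) U) :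
    DifferentiableOn ℂ (fun z => ∏ i ∈ s, f i z) U := by
  classical
  induction s using Finset.induction_on with
  | empty => simp
  | insert a s ha ih =>
    simp only [Finset.prod_insert ha]
    exact (h a (Finset.mem_insert_self a s)).mul
      (ih fun i hi => h i (Finset.mem_insert_of_mem hi))

/-- the determinant -/
def dN (F : Cn n → HC (n + 1)) (W : HC (n + 1)) (z : Cn n) : ℂ :=
  ((addRow (RF F z) W).submatrix (rowE n) id).det

theorem hol_dN {F : Cn n → HC (n + 1)} {U : Set (Cn n)} (hF : Lift X F U) (W : HC (n + 1)) :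
    DifferentiableOn ℂ (dN F W) U := by
  unfold dN
  simp only [Matrix.det_apply]
  refine DifferentiableOn.fun_sum fun σ _ => ?_
  refine DifferentiableOn.const_smul ?_ _
  have h1 : ∀ b ∈ (Finset.univ : Finset (Fin (n + 2))),
      DifferentiableOn ℂ (fun z => (addRow (RF F z) W) (rowE n (σ b)) b) U := by
    intro b _
    rcases rowE n (σ b) with (a | a) | a
    · exact hF.holk b
    · exact hol_pd hF a b
    · exact differentiableOn_const _
  exact diffOn_prod _ h1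

theorem eta2_dN {F : Cn n → HC (n + 1)} {U : Set (Cn n)} (hF : Lift X F U) {z : Cn n}
    (hz : z ∈ U) (W : HC (n + 1)) :
    ‖dN F W z‖ ^ 2 = eta2 X F z * ‖fderiv ℂ X.H (F z) W‖ ^ 2 := by
  have h1 := hF.eta2_spec hz W
  rw [gdet_submatrix _ (rowE n), Complex.mul_conj, Complex.normSq_eq_norm_sq] at h1
  exact_mod_cast h1

theorem hol_dH {F : Cn n → HC (n + 1)} {U : Set (Cn n)} (hF : Lift X F U) (W : HC (n + 1)) :
    DifferentiableOn ℂ (fun z => fderiv ℂ X.H (F z) W) U := by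
  have hA : Differentiable ℂ (fderiv ℂ X.H) := by
    have h1 := (Crest.Agent.R266.SCV.analyticOnNhd_of_differentiableOn isOpen_univ
      X.diff.differentiableOn).fderiv
    exact fun Z => (h1 Z (mem_univ _)).differentiableAt
  have h2 : DifferentiableOn ℂ (fun z => fderiv ℂ X.H (F z)) U :=
    hA.comp_differentiableOn hF.hol
  exact h2.clm_apply (differentiableOn_const _)

/-- the local form of `|η|²` -/
theorem eta2_loc {F : Cn n → HC (n + 1)} {U : Set (Cn n)} (hF : Lift X F U) {z : Cn n}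
    (hz : z ∈ U) : ∃ (W : HC (n + 1)), fderiv ℂ X.H (F z) W ≠ 0 ∧ ∀ᶠ w in 𝓝 z,
      eta2 X F w = ‖dN F W w‖ ^ 2 / ‖fderiv ℂ X.H (F w) W‖ ^ 2 := by
  have h1 := X.ns (F z) (hF.ne z hz) (hF.zero z hz)
  obtain ⟨W, hW⟩ : ∃ W, fderiv ℂ X.H (F z) W ≠ 0 := by
    by_contra h
    push Not at h
    exact h1 (by ext W; rw [h W]; rfl)
  refine ⟨W, hW, ?_⟩
  have hc : ContinuousAt (fun w => fderiv ℂ X.H (F w) W) z :=
    ((hol_dH hF W).differentiableAt (hF.isOpen.mem_nhds hz)).continuousAt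
  filter_upwards [hF.isOpen.mem_nhds hz, hc.eventually_ne hW] with w hw hw0
  rw [eta2_dN hF hw W, mul_div_cancel_right₀]
  have := norm_ne_zero_iff.2 hw0
  positivity

theorem eta2_sm {F : Cn n → HC (n + 1)} {U : Set (Cn n)} (hF : Lift X F U) :
    ContDiffOn ℝ ∞ (eta2 X F) U := by
  intro z hz
  refine ContDiffAt.contDiffWithinAt ?_
  obtain ⟨W, hW, hev⟩ := eta2_loc hF hz
  refine ContDiffAt.congr_of_eventuallyEq ?_ hev
  have h1 := (contDiffAt_of_hol hF.isOpen (hol_dN hF W) hz).norm_sq ℝ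
  have h2 := (contDiffAt_of_hol hF.isOpen (hol_dH hF W) hz).norm_sq ℝ
  refine h1.div h2 ?_
  have := norm_ne_zero_iff.2 hW
  positivity

theorem eta2_hess {F : Cn n → HC (n + 1)} {U : Set (Cn n)} (hF : Lift X F U) {z : Cn n}
    (hz : z ∈ U) (hpos : 0 < eta2 X F z) :
    hess (fun w => Real.log (eta2 X F w)) z = 0 := by
  obtain ⟨W, hW, hev⟩ := eta2_loc hF hz
  have hn := hF.isOpen.mem_nhds hz
  have hN0 : dN F W z ≠ 0 := by
    intro h0
    have h1 := eta2_dN hF hz W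
    rw [h0] at h1
    have := norm_pos_iff.2 hW
    simp only [norm_zero, ne_eq, OfNat.ofNat_ne_zero, not_false_eq_true, zero_pow] at h1
    have h2 : 0 < eta2 X F z * ‖fderiv ℂ X.H (F z) W‖ ^ 2 := by positivity
    linarith
  have d1 : ∀ᶠ w in 𝓝 z, DifferentiableAt ℂ (dN F W) w := by
    filter_upwards [hF.isOpen.mem_nhds hz] with w hw
    exact (hol_dN hF W).differentiableAt (hF.isOpen.mem_nhds hw)
  have d2 : ∀ᶠ w in 𝓝 z, DifferentiableAt ℂ (fun w => fderiv ℂ X.H (F w) W) w := by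
    filter_upwards [hF.isOpen.mem_nhds hz] with w hw
    exact (hol_dH hF W).differentiableAt (hF.isOpen.mem_nhds hw)
  have c1 : ContDiffAt ℝ ∞ (fun w => Real.log (‖dN F W w‖ ^ 2)) z :=
    ((contDiffAt_of_hol hF.isOpen (hol_dN hF W) hz).norm_sq ℝ).log (by
      have := norm_ne_zero_iff.2 hN0
      positivity)
  have c2 : ContDiffAt ℝ ∞ (fun w => Real.log (‖fderiv ℂ X.H (F w) W‖ ^ 2)) z :=
    ((contDiffAt_of_hol hF.isOpen (hol_dH hF W) hz).norm_sq ℝ).log (by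
      have := norm_ne_zero_iff.2 hW
      positivity)
  have h1 : (fun w => Real.log (eta2 X F w)) =ᶠ[𝓝 z]
      fun w => Real.log (‖dN F W w‖ ^ 2) - Real.log (‖fderiv ℂ X.H (F w) W‖ ^ 2) := by
    filter_upwards [hev, d1.self_of_nhds.continuousAt.eventually_ne hN0,
      d2.self_of_nhds.continuousAt.eventually_ne hW] with w hw h3 h4
    rw [hw, Real.log_div]
    · have := norm_ne_zero_iff.2 h3
      positivity
    · have := norm_ne_zero_iff.2 h4
      positivity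
  rw [hess_congr h1, hess_sub c1 c2, hess_log_norm d1 hN0, hess_log_norm d2 hW, sub_zero]

end

end Crest.Agent.R257.CLSA_39
end

-- ▼ part R257/CLSB_39
section

/-!
# Row 257 (S0395), E-CLS (helper39), part B: `ω_eucl ≤ C ω` on a level

* `eucl_X` : one hypersurface, explicit constant
-/

set_option autoImplicit false
set_option linter.unusedSectionVars false

open Set Filter Topology Complex
open scoped ContDiff ComplexConjugate Matrix ComplexOrder

namespace Crest.Agent.R257.CLSB_39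

open Crest.Agent.R275.Geo Crest.Agent.R275.Core144 Crest.Agent.R275.GC293
open Crest.Agent.R273 Crest.Agent.R273.Defs_333 Crest.Agent.R273.YauDefs_635
open Crest.Agent.R273.YauMax_635
open Crest.Agent.R273.HM_333 hiding nsq
open Crest.Agent.R273.Hess_333 Crest.Agent.R273.HessB_333
open Crest.Agent.R273.FS_333
open Crest.Agent.R257.CLC_39 Crest.Agent.R257.CLD_39 Crest.Agent.R257.CLE_39
open Crest.Agent.R257.CLF_39 hiding FF
open Crest.Agent.R257.CLG_39 Crest.Agent.R257.CLH_39 Crest.Agent.R257.CLSA_39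
open Crest.Agent.R257.PN_835 Crest.Agent.R257.Gram_835 Crest.Agent.R257.Hyp_835
open Crest.Agent.R257.KEl_835 Crest.Agent.R257.KE_835 Crest.Agent.R257.Aff_835
open Crest.Agent.R257.Unif_835 Crest.Agent.R257.EHyp_835

noncomputable section

variable {n d : ℕ} {X : Hyp n d}

theorem det_pos {u : Cn n → ℝ} {z : Cn n} (hu : ContDiffAt ℝ ∞ u z)
    (h : ∀ v : Cn n, v ≠ 0 → 0 < lev u z v) {r : ℝ} (hd : (cH u z).det = (r : ℂ)) : 0 < r := by
  have e1 : C2a_793.Um u z = cH u z := by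
    ext a b
    rw [cH_eq_hs (two_le' hu)]
    rfl
  have h1 : (C2a_793.Um u z).PosDef := C2c_793.Um_posDef (two_le' hu) fun v hv => by
    have := h v hv
    rw [lev333_eq_lev145] at this
    linarith
  have h2 := h1.det_pos
  rw [e1, hd] at h2
  exact_mod_cast h2

section fixed

variable (B : HAtl X) {κ mu : ℕ} (hd : d = n + 2 + κ) (hκ : mu < κ)
  (htl : ∀ Z, Z ≠ 0 → X.H Z = 0 → tl Z ≠ 0) {φ : X.S → ℝ}
  (hφ : B.A.Sm φ) (hpos : KPos (H0 B κ) φ) (hMA : MA (H0 B κ) φ (fun x => FF κ x + φ x))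

include hd hκ hφ hpos hMA in
theorem eta2_Fi_pos {i : B.A.ι} {z : Cn n} (hz : z ∈ (B.A.e i).target) :
    0 < eta2 X (Fi B i) z := by
  have h1 := det_pos (pot_sm hφ κ hz) (hpos i z hz) (ma_chart hd (by omega) hMA hz)
  exact (mul_pos_iff_of_pos_left (Real.exp_pos _)).1 h1

theorem wt_fsP (i : B.A.ι) : (fs B.P).wt i = fun w => Real.log (nsq (Fi B i w)) := by
  rw [wt_fs]
  rfl


include hκ htl in
/-- the subsolution -/
theorem sub_fs (i : B.A.ι) {z : Cn n} (hz : z ∈ (B.A.e i).target) (v : Cn n) :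
    (κ - mu : ℝ) * lev ((fs B.P).wt i) z v ≤ lev (pot (H0 B κ) (psS X mu) i) z v := by
  have h1 := psS_lev B htl hκ i hz v
  have hκ0 : (κ : ℝ) ≠ 0 := by
    have : 0 < κ := by omega
    positivity
  have h2 : lev ((H0 B κ).wt i) z v = κ * lev ((fs B.P).wt i) z v := by
    have e1 : (H0 B κ).wt i = fun w => (κ : ℝ) * Real.log (nsq (Fi B i w)) := by
      funext w
      rw [wt_H0]
      rfl
    rw [e1, wt_fsP, lev_mul ((contDiffAt_log_Fi B hz).of_le YauCh_635.two_le_inf)]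
  rw [h2] at h1
  have h3 : (κ - mu : ℝ) / κ * (κ * lev ((fs B.P).wt i) z v)
      = (κ - mu : ℝ) * lev ((fs B.P).wt i) z v := by
    field_simp
  linarith

/-- class of a representative -/
theorem Wc_rep (x : X.S) : X.H (rep x) = 0 ∧
    Wc κ φ (rep x) = κ * Real.log (nsq (rep x)) + φ x ∧
    psS X mu x = mu * Real.log (nsq (tl (rep x)) / nsq (rep x)) := by
  have hx := rep_ne x
  have h0 : X.H (rep x) = 0 := (X.cls_mem hx).1 (by rw [cls_rep]; exact x.2)
  refine ⟨h0, ?_, psS_eq hx (cls_rep x)⟩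
  rw [Wc, phE_eq φ hx h0 (x := x) (cls_rep x).symm]

/-- the same for an arbitrary representative -/
theorem Wc_of {Z : HC (n + 1)} (hZ : Z ≠ 0) (h0 : X.H Z = 0) {x : X.S} (hx : cls Z hZ = x.1) :
    Wc κ φ Z = κ * Real.log (nsq Z) + φ x ∧ psS X mu x = mu * Real.log (nsq (tl Z) / nsq Z) :=
  ⟨by rw [Wc, phE_eq φ hZ h0 (x := x) hx.symm], psS_eq hZ hx⟩

variable {C : ℝ} (hup : ∀ Z, Z ≠ 0 → X.H Z = 0 → Wc κ φ Z ≤ κ * Real.log (nsq Z) + C)
  (hlo : ∀ Z, Z ≠ 0 → X.H Z = 0 →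
    κ * Real.log (nsq Z) + mu * Real.log (nsq (tl Z) / nsq Z) - C ≤ Wc κ φ Z)

include hlo in
theorem low_phi (x : X.S) : -C ≤ φ x - psS X mu x := by
  obtain ⟨h0, h1, h2⟩ := Wc_rep (κ := κ) (mu := mu) (φ := φ) x
  have h3 := hlo _ (rep_ne x) h0
  rw [h1] at h3
  rw [h2]
  linarith

include hup in
theorem up_phi {R : ℝ} (hR : 0 < R) {x : X.S} (hx : x ∈ D0 B.P) (hxR : sqM (Yc B.P) x = R) :
    φ x - psS X mu x - (-C) ≤ 2 * C - mu * Real.log (R / (1 + R)) := by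
  obtain ⟨i, hi⟩ := B.A.cover x
  have hF0 : B.F i x 0 ≠ 0 := (mem_D0 B.P hi).1 hx
  have hne : B.F i x ≠ 0 := HAtl.F_ne hi
  have h0 : X.H (B.F i x) = 0 := HAtl.H_F hi
  obtain ⟨h1, h2⟩ := Wc_of (κ := κ) (mu := mu) (φ := φ) hne h0 (HAtl.cls_F hi)
  have h3 := hup _ hne h0
  rw [h1] at h3
  have h4 : nsq (tl (B.F i x)) = ‖B.F i x 0‖ ^ 2 * R := by
    rw [← hxR, sqM, Finset.mul_sum]
    refine Finset.sum_congr rfl fun k _ => ?_
    have h5 : Yc B.P x k = B.F i x k.succ / B.F i x 0 := Yc_eq B.P hi k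
    rw [h5, norm_div, div_pow]
    have : ‖B.F i x 0‖ ^ 2 ≠ 0 := by positivity
    show ‖B.F i x k.succ‖ ^ 2 = _
    field_simp
  have h5 : nsq (B.F i x) = ‖B.F i x 0‖ ^ 2 * (1 + R) := by
    rw [nsq_eq, h4]
    ring
  have h6 : nsq (tl (B.F i x)) / nsq (B.F i x) = R / (1 + R) := by
    rw [h4, h5, mul_div_mul_left]
    positivity
  rw [h2, h6]
  linarith

include hd hκ htl hφ hpos hMA hup hlo in
/-- `ω_eucl ≤ C ω` in the charts -/
theorem eucl_chart {R : ℝ} (hR : 0 < R) {x : X.S} (hx : x ∈ KR B.P R) {i : B.A.ι}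
    (hi : x ∈ (B.A.e i).source) (v : Cn n) :
    lev (inC B.A i (sqM (Yc B.P))) (B.A.e i x) v
      ≤ CB n 1 (κ - mu) R (2 * C - mu * Real.log (R / (1 + R))) *
        lev (pot (H0 B κ) φ i) (B.A.e i x) v := by
  have hκ' : (0 : ℝ) < (κ : ℝ) - mu := by
    have : (mu : ℝ) < κ := by exact_mod_cast hκ
    linarith
  exact ke_eucl_le B.P (H0 B κ) hφ (psS_sm B htl) hpos (e := fun i => eta2 X (Fi B i))
    (fun i => eta2_sm (lift_Fi B i))
    (fun i z hz => eta2_Fi_pos B hd hκ hφ hpos hMA hz)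
    (fun i z hz => eta2_hess (lift_Fi B i) hz (eta2_Fi_pos B hd hκ hφ hpos hMA hz))
    (fun i z hz => ma_chart hd (by omega) hMA hz) hκ'
    (fun i z hz v => sub_fs B hκ htl i hz v)
    (m := -C) (low_phi hlo) hR (fun x hx hxR => up_phi B hup hR hx hxR) hx hi v

end fixed

end

end Crest.Agent.R257.CLSB_39
end

-- ▼ part R257/CLSC_39
section

/-!
# Row 257 (S0395), E-CLS (helper39), part C: parametrisations of the level

* `eucl_X`  : `lev (sq θ) ≤ C lev (u ∘ θ)` on `|x|² ≤ R`, one level, explicit constant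
-/

set_option autoImplicit false
set_option linter.unusedSectionVars false

open Set Filter Topology Complex
open scoped ContDiff ComplexConjugate Matrix ComplexOrder

namespace Crest.Agent.R257.CLSC_39

open Crest.Agent.R275.Geo Crest.Agent.R275.Core144 Crest.Agent.R275.GC293
open Crest.Agent.R273 Crest.Agent.R273.Defs_333 Crest.Agent.R273.YauDefs_635
open Crest.Agent.R273.YauMax_635
open Crest.Agent.R273.HM_333 hiding nsq
open Crest.Agent.R273.Hess_333 Crest.Agent.R273.HessB_333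
open Crest.Agent.R273.FS_333
open Crest.Agent.R257.CLC_39 Crest.Agent.R257.CLD_39 Crest.Agent.R257.CLE_39
open Crest.Agent.R257.CLF_39 hiding FF
open Crest.Agent.R257.CLG_39 Crest.Agent.R257.CLH_39 Crest.Agent.R257.CLSA_39
open Crest.Agent.R257.CLSB_39
open Crest.Agent.R257.PN_835 Crest.Agent.R257.Gram_835 Crest.Agent.R257.Hyp_835
open Crest.Agent.R257.KEl_835 Crest.Agent.R257.KE_835 Crest.Agent.R257.Aff_835
open Crest.Agent.R257.Unif_835 Crest.Agent.R257.EHyp_835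

noncomputable section

variable {n d : ℕ} {X : Hyp n d}

section fixed

variable (B : HAtl X) {κ mu : ℕ} (hd : d = n + 2 + κ) (hκ : mu < κ)
  (htl : ∀ Z, Z ≠ 0 → X.H Z = 0 → tl Z ≠ 0) {φ : X.S → ℝ}
  (hφ : B.A.Sm φ) (hpos : KPos (H0 B κ) φ) (hMA : MA (H0 B κ) φ (fun x => FF κ x + φ x))
  {C : ℝ} (hup : ∀ Z, Z ≠ 0 → X.H Z = 0 → Wc κ φ Z ≤ κ * Real.log (nsq Z) + C)
  (hlo : ∀ Z, Z ≠ 0 → X.H Z = 0 →
    κ * Real.log (nsq Z) + mu * Real.log (nsq (tl Z) / nsq Z) - C ≤ Wc κ φ Z)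
  {g : AC n → ℂ} {s : ℂ} (hX : Cl X g s) {θ : Cn n → AC n} {U : Set (Cn n)}
  (hθ : Par g s θ U)

include hd hκ htl hφ hpos hMA hup hlo hX hθ in
/-- **`ω_eucl ≤ C ω` on a level** -/
theorem eucl_X {R : ℝ} (hR : 0 < R) {z : Cn n} (hz : z ∈ U) (hzR : nsq (θ z) ≤ R) (v : Cn n) :
    lev (sq θ) z v ≤ CB n 1 (κ - mu) R (2 * C - mu * Real.log (R / (1 + R))) *
      lev (fun z => Wc κ φ (hc (θ z))) z v := by
  have hL := hθ.lift hX
  obtain ⟨i, g', c, V, hVo, hzV, hVU, hg, hca, hc0, ht, hm, hcl, him⟩ := hL.chart B hz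
  set x : Cn n → X.S := fun w => (B.A.e i).symm (g' w) with hx
  have hxs : ∀ w ∈ V, x w ∈ (B.A.e i).source := fun w hw => (B.A.e i).map_target (ht w hw)
  have hex : ∀ w ∈ V, B.A.e i (x w) = g' w := fun w hw => (B.A.e i).right_inv (ht w hw)
  have hFx : ∀ w ∈ V, B.F i (x w) = Fi B i (g' w) := fun w hw => rfl
  -- homogeneous coordinates
  have h0 : ∀ w ∈ V, c w * Fi B i (g' w) 0 = 1 := fun w hw => by
    have h1 := congrFun (hm w hw) 0
    rw [hc_zero, Pi.smul_apply, smul_eq_mul] at h1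
    exact h1.symm
  have h1 : ∀ w ∈ V, ∀ k : Fin (n + 1), c w * Fi B i (g' w) k.succ = θ w k := fun w hw k => by
    have h1 := congrFun (hm w hw) k.succ
    rw [hc_succ, Pi.smul_apply, smul_eq_mul] at h1
    exact h1.symm
  have hF0 : ∀ w ∈ V, Fi B i (g' w) 0 ≠ 0 := fun w hw h => by
    have := h0 w hw
    rw [h, mul_zero] at this
    exact zero_ne_one this
  have hD : ∀ w ∈ V, x w ∈ D0 B.P := fun w hw => (mem_D0 B.P (hxs w hw)).2 (hF0 w hw)
  have hYk : ∀ w ∈ V, ∀ k : Fin (n + 1), Yc B.P (x w) k = θ w k := fun w hw k => by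
    have h2 : Yc B.P (x w) k = Fi B i (g' w) k.succ / Fi B i (g' w) 0 := Yc_eq B.P (hxs w hw) k
    have h3 := h0 w hw
    have h4 := h1 w hw k
    rw [h2, div_eq_iff (hF0 w hw), ← h4]
    linear_combination (-(Fi B i (g' w) k.succ)) * h3
  have hY : ∀ w ∈ V, Yc B.P (x w) = θ w := fun w hw => funext (hYk w hw)
  have hV : V ∈ 𝓝 z := hVo.mem_nhds hzV
  have hgc : ContinuousAt g' z := (hg z hzV).continuousAt
  have hxc : ContinuousAt x z :=
    ((B.A.e i).continuousAt_symm (ht z hzV)).comp hgc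
  have hKR : x z ∈ KR B.P R := by
    refine ⟨hD z hzV, ?_⟩
    rw [sqM, hY z hzV]
    exact hzR
  have key := lev_theta_le B.P (H0 B κ) hφ (x := x) (z := z) (i := i) hxc (hxs z hzV)
    (by
      filter_upwards [hV, hVo.eventually_mem hzV |>.eventually_nhds] with w hw hw2
      refine (hg w hw).differentiableAt.congr_of_eventuallyEq ?_
      filter_upwards [hw2] with y hy
      exact hex y hy)
    (θ := θ)
    (by
      filter_upwards [hV] with w hw
      exact hY w hw)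
    (c := fun w => c w ^ κ)
    (by
      filter_upwards [hV] with w hw
      exact (hca w hw).differentiableAt.pow κ)
    (pow_ne_zero _ (hc0 z hzV)) (u := fun z => Wc κ φ (hc (θ z)))
    (by
      filter_upwards [hV] with w hw
      have hcw := hc0 w hw
      have hne : hc (θ w) ≠ 0 := hc_ne _
      have e1 : Wc κ φ (hc (θ w)) = κ * Real.log (nsq (hc (θ w))) + phE φ (hc (θ w)) := rfl
      rw [hex w hw, pot_eq, e1, phE_eq φ hne (hL.zero w (hVU hw)) (hcl w hw hne), hm w hw,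
        nsq_smul, norm_pow, ← pow_mul, mul_comm κ 2, pow_mul, Real.log_pow,
        Real.log_mul (by positivity) (nsq_pos ((lift_Fi B i).ne _ (ht w hw))).ne']
      ring)
    (C := CB n 1 (κ - mu) R (2 * C - mu * Real.log (R / (1 + R)))) (hD z hzV)
    (fun v => eucl_chart B hd hκ htl hφ hpos hMA hup hlo hR hKR (hxs z hzV) v) v
  exact key

end fixed

end

end Crest.Agent.R257.CLSC_39
end

-- ▼ part R257/CLSD_39
section

/-!
# Row 257 (S0395), E-CLS (helper39), part D: uniform estimates on the levels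

* `euclStmt` : `Out1_835.EuclStmt`
-/

set_option autoImplicit false
set_option linter.unusedSectionVars false

open Set Filter Topology Complex
open scoped ContDiff ComplexConjugate Matrix ComplexOrder

namespace Crest.Agent.R257.CLSD_39

open Crest.Agent.R275.Geo Crest.Agent.R275.Core144 Crest.Agent.R275.GC293
open Crest.Agent.R273 Crest.Agent.R273.Defs_333 Crest.Agent.R273.YauDefs_635
open Crest.Agent.R273.YauMax_635
open Crest.Agent.R273.HM_333 hiding nsq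
open Crest.Agent.R273.Hess_333 Crest.Agent.R273.HessB_333
open Crest.Agent.R273.FS_333
open Crest.Agent.R257.CLC_39 Crest.Agent.R257.CLD_39 Crest.Agent.R257.CLE_39
open Crest.Agent.R257.CLF_39 hiding FF
open Crest.Agent.R257.CLG_39 Crest.Agent.R257.CLH_39 Crest.Agent.R257.CLSA_39
open Crest.Agent.R257.CLSB_39 Crest.Agent.R257.CLSC_39
open Crest.Agent.R257.PN_835 Crest.Agent.R257.Gram_835 Crest.Agent.R257.Hyp_835
open Crest.Agent.R257.KEl_835 Crest.Agent.R257.KE_835 Crest.Agent.R257.Aff_835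
open Crest.Agent.R257.Unif_835 Crest.Agent.R257.EHyp_835

noncomputable section

variable {n d mu : ℕ}

theorem CB_pos (n : ℕ) (κ E : ℝ) {R : ℝ} (hR : 0 < R) : 0 < CB n 1 κ R E := by
  unfold CB
  refine mul_pos (lt_max_of_lt_right ?_) (Real.exp_pos _)
  rw [one_mul]
  exact hR

/-- **(4b) on the levels, uniform in `(t, s)`** -/
theorem euclStmt (D : GD n d mu) {κ : ℕ} (hd : d = n + 2 + κ) (hκ : mu < κ) :
    Out1_835.EuclStmt D κ := by
  intro R hR
  obtain ⟨e, he, heR, C, hC⟩ := GD.bounds D hd hκ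
  refine ⟨e, he, heR, CB n 1 (κ - mu) R (2 * C - mu * Real.log (R / (1 + R))),
    CB_pos _ _ _ hR, ?_⟩
  intro t s ht hs hte hse B φ hφ hpos hMA θ U hθ z hz hzR v
  have h1 := hC t s ht hs hte hse B φ hφ hpos hMA
  exact eucl_X B hd hκ (fun Z hZ h => GD.tl_ne D ht (norm_pos_iff.1 hs.1) hZ h) hφ hpos hMA
    (fun Z hZ h0 => (h1 Z hZ h0).1) (fun Z hZ h0 => (h1 Z hZ h0).2) (D.cl ht hs) hθ hR hz hzR v

end

end Crest.Agent.R257.CLSD_39
end

-- ▼ part R257/LimH_37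

/-!
Row 257 (S0395), leaf OUT, helper37 (+ 835, 39, 209, 611): `outStmt : KED_952.OutStmt`.
-/

set_option autoImplicit false

namespace Crest.Agent.R257.LimH_37

/-- **(OUT)** -/
theorem outStmt : Crest.Agent.R257.KED_952.OutStmt :=
  LimG_37.out_of fun _ _ _ D hd hκ => CLSD_39.euclStmt D hd hκ

end Crest.Agent.R257.LimH_37
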