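import Crest.Agent.R257.LCDefs_472
import Crest.Agent.R257.GB_554
import Crest.Agent.R257.Flag3A_799
import Crest.Agent.R257.FlowF_941
import Crest.Agent.R257.Line1_648

-- ▼ part R257/Flag3B_799
section

/-!
R257 / Flag3B_799: algebra of the cubic form `D3 f` for `Flag3Stmt`: symmetry, polarisation,
isolated nodes, a generic plane transversal to the cubic and a direction in it.
-/

set_option autoImplicit false
set_option linter.unusedSectionVars false

open Set Filter Topology Metric MeasureTheory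
open Crest.AlgGeometry.Germ

noncomputable section

namespace Crest.Agent.R257.Flag3_799

open Crest.Agent.R257.Defs_219 Crest.Agent.R257.LCDefs_472

/-! ### symmetry of the third derivatives -/

section Sym

variable {n : ℕ}

theorem an_cd {f : (Fin n → ℂ) → ℂ} {x : Fin n → ℂ} (hf : AnalyticAt ℂ f x) (i : Fin n) :
    AnalyticAt ℂ (coordDeriv f i) x := by
  have h1 : AnalyticAt ℂ (fderiv ℂ f) x := hf.fderiv
  exact ((ContinuousLinearMap.apply ℂ ℂ (Pi.single i 1 : Fin n → ℂ)).analyticAt _).comp h1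

theorem cd_symm {f : (Fin n → ℂ) → ℂ} {x : Fin n → ℂ} (hf : AnalyticAt ℂ f x) (i j : Fin n) :
    coordDeriv (coordDeriv f i) j x = coordDeriv (coordDeriv f j) i x := by
  have h1 : AnalyticAt ℂ (fderiv ℂ f) x := hf.fderiv
  have h2 : ∀ k l : Fin n, coordDeriv (coordDeriv f k) l x =
      fderiv ℂ (fderiv ℂ f) x (Pi.single l 1) (Pi.single k 1) := by
    intro k l
    have h3 : HasFDerivAt (fun y => fderiv ℂ f y (Pi.single k 1))
        ((ContinuousLinearMap.apply ℂ ℂ (Pi.single k 1 : Fin n → ℂ)).comp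
          (fderiv ℂ (fderiv ℂ f) x)) x :=
      (ContinuousLinearMap.apply ℂ ℂ (Pi.single k 1 : Fin n → ℂ)).hasFDerivAt.comp x
        h1.differentiableAt.hasFDerivAt
    change fderiv ℂ (fun y => fderiv ℂ f y (Pi.single k 1)) x (Pi.single l 1) = _
    rw [h3.fderiv]
    rfl
  rw [h2, h2]
  have h4 : IsSymmSndFDerivAt ℂ f x :=
    (hf.contDiffAt (n := ⊤)).isSymmSndFDerivAt (by simp)
  exact h4 _ _


theorem H3_symm₁ {f : (Fin n → ℂ) → ℂ} (hf : AnalyticAt ℂ f 0) (i j k : Fin n) :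
    H3 f i j k = H3 f j i k := by
  have h1 : coordDeriv (coordDeriv f i) j =ᶠ[𝓝 0] coordDeriv (coordDeriv f j) i := by
    filter_upwards [hf.eventually_analyticAt] with x hx
    exact cd_symm hx i j
  change fderiv ℂ (coordDeriv (coordDeriv f i) j) 0 (Pi.single k 1) =
    fderiv ℂ (coordDeriv (coordDeriv f j) i) 0 (Pi.single k 1)
  rw [h1.fderiv_eq]

theorem H3_symm₂ {f : (Fin n → ℂ) → ℂ} (hf : AnalyticAt ℂ f 0) (i j k : Fin n) :
    H3 f i j k = H3 f i k j := cd_symm (an_cd hf i) j k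

end Sym

/-! ### symmetric trilinear forms on `ℂ³` -/

/-- the form -/
def tri (T : Fin 3 → Fin 3 → Fin 3 → ℂ) (u v w : E3) : ℂ :=
  ∑ i, ∑ j, ∑ k, T i j k * u i * v j * w k

theorem D3_eq (f : E3 → ℂ) (u v w : E3) : D3 f u v w = tri (H3 f) u v w := rfl

structure Sy (T : Fin 3 → Fin 3 → Fin 3 → ℂ) : Prop where
  s1 : ∀ i j k, T i j k = T j i k
  s2 : ∀ i j k, T i j k = T i k j

theorem sy_H3 {f : E3 → ℂ} (hf : AnalyticAt ℂ f 0) : Sy (H3 f) := ⟨H3_symm₁ hf, H3_symm₂ hf⟩

variable {T : Fin 3 → Fin 3 → Fin 3 → ℂ}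

theorem tri_add₁ (u u' v w : E3) : tri T (u + u') v w = tri T u v w + tri T u' v w := by
  simp only [tri, Pi.add_apply, ← Finset.sum_add_distrib]
  refine Finset.sum_congr rfl fun i _ => Finset.sum_congr rfl fun j _ =>
    Finset.sum_congr rfl fun k _ => by ring

theorem tri_smul₁ (c : ℂ) (u v w : E3) : tri T (c • u) v w = c * tri T u v w := by
  simp only [tri, Pi.smul_apply, smul_eq_mul, Finset.mul_sum]
  refine Finset.sum_congr rfl fun i _ => Finset.sum_congr rfl fun j _ =>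
    Finset.sum_congr rfl fun k _ => by ring

theorem Sy.swap₁ (h : Sy T) (u v w : E3) : tri T u v w = tri T v u w := by
  simp only [tri]
  rw [Finset.sum_comm]
  refine Finset.sum_congr rfl fun i _ => Finset.sum_congr rfl fun j _ =>
    Finset.sum_congr rfl fun k _ => by rw [h.s1 j i k]; ring

theorem Sy.swap₂ (h : Sy T) (u v w : E3) : tri T u v w = tri T u w v := by
  simp only [tri]
  refine Finset.sum_congr rfl fun i _ => ?_
  rw [Finset.sum_comm]
  refine Finset.sum_congr rfl fun j _ =>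
    Finset.sum_congr rfl fun k _ => by rw [h.s2 i k j]; ring

theorem Sy.swap₃ (h : Sy T) (u v w : E3) : tri T u v w = tri T w v u := by
  rw [h.swap₁, h.swap₂, h.swap₁]

theorem Sy.add₂ (h : Sy T) (u v v' w : E3) : tri T u (v + v') w = tri T u v w + tri T u v' w := by
  rw [h.swap₁, tri_add₁, h.swap₁ v, h.swap₁ v']

theorem Sy.smul₂ (h : Sy T) (c : ℂ) (u v w : E3) : tri T u (c • v) w = c * tri T u v w := by
  rw [h.swap₁, tri_smul₁, h.swap₁ v]

theorem Sy.add₃ (h : Sy T) (u v w w' : E3) : tri T u v (w + w') = tri T u v w + tri T u v w' := by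
  rw [h.swap₂, h.add₂, h.swap₂ u w, h.swap₂ u w']

theorem Sy.smul₃ (h : Sy T) (c : ℂ) (u v w : E3) : tri T u v (c • w) = c * tri T u v w := by
  rw [h.swap₂, h.smul₂, h.swap₂ u w]

/-- the linear form `w ↦ tri T u v w` as a vector -/
def vec (T : Fin 3 → Fin 3 → Fin 3 → ℂ) (u v : E3) : E3 := fun k => ∑ i, ∑ j, T i j k * u i * v j

theorem tri_eq_vec (u v w : E3) : tri T u v w = ∑ k, vec T u v k * w k := by
  simp only [tri, vec, Finset.sum_mul]
  rw [Finset.sum_congr rfl fun i _ => Finset.sum_comm, Finset.sum_comm]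

theorem vec_eq (u v : E3) (k : Fin 3) : vec T u v k = tri T u v (Pi.single k 1) := by
  rw [tri_eq_vec, Finset.sum_eq_single k]
  · simp
  · intro j _ hj; simp [hj]
  · intro h; exact absurd (Finset.mem_univ _) h

theorem vec_eq_zero_iff (u v : E3) : vec T u v = 0 ↔ ∀ w, tri T u v w = 0 := by
  constructor
  · intro h w; rw [tri_eq_vec, h]; simp
  · intro h; funext k; rw [vec_eq, h]; rfl

/-- the nodality condition -/
def Nod (T : Fin 3 → Fin 3 → Fin 3 → ℂ) : Prop :=
  ∀ v u : E3, v ≠ 0 → (∀ w, tri T v v w = 0) → (∀ w, tri T v u w = 0) → ∃ c : ℂ, u = c • v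

theorem nod_of {f : E3 → ℂ} (h : Nodal f) : Nod (H3 f) := h

/-- singular vectors -/
def Sg (T : Fin 3 → Fin 3 → Fin 3 → ℂ) : Set E3 := {v | v ≠ 0 ∧ ∀ w, tri T v v w = 0}

/-- the algebra behind `isolated` -/
theorem iso_alg (hS : Sy T) {v u k κ : E3} {a r : ℂ} (hv : ∀ w, tri T v v w = 0)
    (hu : ∀ w, tri T u u w = 0) (h1 : u = a • v + k) (h2 : k = r • κ) (hr : r ≠ 0) :
    (2 * a) • vec T v κ + r • vec T κ κ = 0 := by
  funext j
  have hj : (0 : E3) j = 0 := rfl
  rw [Pi.add_apply, Pi.smul_apply, Pi.smul_apply, smul_eq_mul, smul_eq_mul, vec_eq, vec_eq, hj]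
  generalize (Pi.single j 1 : E3) = w
  have h3 := hu w
  rw [h1, h2, tri_add₁, hS.add₂, hS.add₂, tri_smul₁, tri_smul₁, hS.smul₂, hv w,
      hS.smul₂, hS.smul₂, tri_smul₁, tri_smul₁, hS.smul₂, hS.swap₁ κ v w] at h3
  apply mul_left_cancel₀ hr
  linear_combination h3

/-- the limit behind `isolated` -/
theorem iso_lim {v ω : E3} {a r : ℕ → ℂ} {κ : ℕ → E3} (ha : Tendsto a atTop (𝓝 1))
    (hr : Tendsto r atTop (𝓝 0)) (hκ : Tendsto κ atTop (𝓝 ω))
    (h : ∀ m, (2 * a m) • vec T v (κ m) + r m • vec T (κ m) (κ m) = 0) : vec T v ω = 0 := by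
  have hc1 : Continuous fun w : E3 => vec T v w := by unfold vec; fun_prop
  have hc2 : Continuous fun w : E3 => vec T w w := by unfold vec; fun_prop
  have h1 : Tendsto (fun m => vec T v (κ m)) atTop (𝓝 (vec T v ω)) :=
    (hc1.tendsto ω).comp hκ
  have h2 : Tendsto (fun m => vec T (κ m) (κ m)) atTop (𝓝 (vec T ω ω)) :=
    (hc2.tendsto ω).comp hκ
  have h3 : Tendsto (fun m => 2 * a m) atTop (𝓝 (2 * 1)) := ha.const_mul 2
  have h5 := (h3.smul h1).add (hr.smul h2)
  have h7 := tendsto_nhds_unique (h5.congr h) tendsto_const_nhds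
  rw [zero_smul, add_zero] at h7
  rcases smul_eq_zero.1 h7 with h | h
  · norm_num at h
  · exact h

/-- normalisation -/
theorem iso_norm {k : E3} (hk : k ≠ 0) : ((‖k‖ : ℝ) : ℂ)⁻¹ • k ∈ sphere (0 : E3) 1 := by
  rw [mem_sphere_zero_iff_norm, norm_smul, norm_inv, Complex.norm_real, norm_norm]
  exact inv_mul_cancel₀ (norm_ne_zero_iff.2 hk)

/-- a sequence of singular vectors, not multiples of `v`, does not converge to `v` -/
theorem iso_seq (hS : Sy T) {v : E3} (hv1 : ∀ w, tri T v v w = 0) {i : Fin 3} (hi : v i ≠ 0)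
    {u : ℕ → E3} (hu1 : Tendsto u atTop (𝓝 v)) (hu2 : ∀ m w, tri T (u m) (u m) w = 0)
    (hk : ∀ m, u m - (u m i / v i) • v ≠ 0) : ∃ ω : E3, ω ≠ 0 ∧ ω i = 0 ∧ vec T v ω = 0 := by
  obtain ⟨k, hkdef⟩ : ∃ k : ℕ → E3, ∀ m, k m = u m - (u m i / v i) • v := ⟨_, fun m => rfl⟩
  have hk' : ∀ m, k m ≠ 0 := fun m => by rw [hkdef]; exact hk m
  have hki : ∀ m, k m i = 0 := by
    intro m; rw [hkdef]; simp [hi]
  have hui : Tendsto (fun m => u m i / v i) atTop (𝓝 1) := by
    have h1 : Tendsto (fun m => u m i) atTop (𝓝 (v i)) := (tendsto_pi_nhds.1 hu1) i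
    have := h1.div_const (v i)
    rwa [div_self hi] at this
  have hk0 : Tendsto k atTop (𝓝 0) := by
    have h1 := hu1.sub (hui.smul_const v)
    rw [one_smul, sub_self] at h1
    exact h1.congr fun m => (hkdef m).symm
  -- normalise
  obtain ⟨κ, hκ⟩ : ∃ κ : ℕ → E3, ∀ m, κ m = ((‖k m‖ : ℝ) : ℂ)⁻¹ • k m := ⟨_, fun m => rfl⟩
  have hκs : ∀ m, κ m ∈ sphere (0 : E3) 1 := fun m => by rw [hκ]; exact iso_norm (hk' m)
  obtain ⟨ω, hω, φ, hφ, hlim⟩ := (isCompact_sphere (0 : E3) 1).tendsto_subseq hκs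
  have hωi : ω i = 0 := by
    have h1 : Tendsto (fun m => (κ ∘ φ) m i) atTop (𝓝 (ω i)) := (tendsto_pi_nhds.1 hlim) i
    have h2 : (fun m => (κ ∘ φ) m i) = fun _ => (0 : ℂ) := by
      funext m
      rw [Function.comp_apply, hκ, Pi.smul_apply, hki, smul_zero]
    rw [h2] at h1
    exact tendsto_nhds_unique h1 tendsto_const_nhds
  have hω0 : ω ≠ 0 := by
    intro h
    rw [h, mem_sphere_zero_iff_norm, norm_zero] at hω
    exact zero_ne_one hω
  have hmain : ∀ m, (2 * (u m i / v i)) • vec T v (κ m) + ((‖k m‖ : ℝ) : ℂ) • vec T (κ m) (κ m)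
      = 0 := by
    intro m
    have hn : ((‖k m‖ : ℝ) : ℂ) ≠ 0 := by exact_mod_cast norm_ne_zero_iff.2 (hk' m)
    refine iso_alg hS hv1 (hu2 m) (k := k m) ?_ ?_ hn
    · rw [hkdef, add_sub_cancel]
    · rw [hκ, smul_smul, mul_inv_cancel₀ hn, one_smul]
  have hφt := hφ.tendsto_atTop
  have h4 : Tendsto (fun m => ((‖k (φ m)‖ : ℝ) : ℂ)) atTop (𝓝 (0 : ℂ)) := by
    have h5 : Tendsto (fun m => ‖k (φ m)‖) atTop (𝓝 0) := by
      have := (hk0.comp hφt).norm
      rwa [norm_zero] at this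
    have h6 := (Complex.continuous_ofReal.tendsto 0).comp h5
    rw [Complex.ofReal_zero] at h6
    exact h6
  exact ⟨ω, hω0, hωi, iso_lim (a := fun m => u (φ m) i / v i) (r := fun m => ((‖k (φ m)‖ : ℝ) : ℂ))
    (κ := fun m => κ (φ m)) (hui.comp hφt) h4 hlim fun m => hmain (φ m)⟩

/-- near a singular vector there are only multiples of it -/
theorem isolated (hS : Sy T) (hN : Nod T) {v : E3} (hv : v ∈ Sg T) :
    ∀ᶠ u in 𝓝 v, u ∈ Sg T → ∃ c : ℂ, u = c • v := by
  obtain ⟨hv0, hv1⟩ := hv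
  obtain ⟨i, hi⟩ : ∃ i, v i ≠ 0 := by
    by_contra h; push Not at h; exact hv0 (funext h)
  by_contra hcon
  rw [Filter.not_eventually] at hcon
  obtain ⟨u, hu1, hu2⟩ := Filter.exists_seq_forall_of_frequently hcon
  have hk : ∀ m, u m - (u m i / v i) • v ≠ 0 := by
    intro m hm
    exact hu2 m fun _ => ⟨_, sub_eq_zero.1 hm⟩
  have hu3 : ∀ m w, tri T (u m) (u m) w = 0 := by
    intro m
    have h1 := hu2 m
    rw [Classical.not_imp] at h1
    exact h1.1.2
  obtain ⟨ω, hω0, hωi, h8⟩ := iso_seq hS hv1 hi hu1 hu3 hk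
  obtain ⟨c, hc⟩ := hN v ω hv0 hv1 ((vec_eq_zero_iff v ω).1 h8)
  have hc0 : c = 0 := by
    have h8 := congrFun hc i
    rw [hωi, Pi.smul_apply, smul_eq_mul] at h8
    rcases mul_eq_zero.1 h8.symm with h | h
    · exact h
    · exact absurd h hi
  apply hω0
  rw [hc, hc0, zero_smul]

/-- countably many singular directions -/
theorem countable_sg (hS : Sy T) (hN : Nod T) :
    ∃ C : Set E3, C.Countable ∧ C ⊆ Sg T ∧ ∀ u ∈ Sg T, ∃ v ∈ C, ∃ c : ℂ, u = c • v := by
  classical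
  choose! U hU using fun (v : E3) (hv : v ∈ Sg T) =>
    (show ∃ U : Set E3, U ∈ 𝓝 v ∧ ∀ u ∈ U, u ∈ Sg T → ∃ c : ℂ, u = c • v from
      ⟨_, isolated hS hN hv, fun u hu => hu⟩)
  obtain ⟨C, hC1, hC2, hC3⟩ := TopologicalSpace.countable_cover_nhdsWithin
    (f := U) (s := Sg T) fun v hv => mem_nhdsWithin_of_mem_nhds (hU v hv).1
  refine ⟨C, hC2, hC1, fun u hu => ?_⟩
  obtain ⟨v, hv, huv⟩ := mem_iUnion₂.1 (hC3 hu)
  exact ⟨v, hv, (hU v (hC1 hv)).2 u huv hu⟩

/-! ### null sets -/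

/-- the cubic polynomial -/
def pol (T : Fin 3 → Fin 3 → Fin 3 → ℂ) : MvPolynomial (Fin 3) ℂ :=
  ∑ i, ∑ j, ∑ k, MvPolynomial.C (T i j k) * MvPolynomial.X i * MvPolynomial.X j * MvPolynomial.X k

theorem eval_pol (v : E3) : MvPolynomial.eval v (pol T) = tri T v v v := by
  simp [pol, tri]

theorem polar (hS : Sy T) (h : ∀ v, tri T v v v = 0) : ∀ u v w, tri T u v w = 0 := by
  have h1 : ∀ u v, tri T u u v = 0 := by
    intro u v
    have e1 := h (u + v)
    have e2 := h (u + (-1 : ℂ) • v)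
    simp only [tri_add₁, hS.add₂, hS.add₃, tri_smul₁, hS.smul₂, hS.smul₃, h] at e1 e2
    have s1 : tri T u v u = tri T u u v := hS.swap₂ _ _ _
    have s2 : tri T v u u = tri T u u v := by rw [hS.swap₁, s1]
    have s3 : tri T v u v = tri T u v v := hS.swap₁ _ _ _
    have s4 : tri T v v u = tri T u v v := hS.swap₃ _ _ _
    rw [s1, s2, s3, s4] at e1 e2
    linear_combination (1 / 6) * e1 - (1 / 6) * e2
  intro u v w
  have e1 := h1 (u + v) w
  simp only [tri_add₁, hS.add₂, h1] at e1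
  rw [hS.swap₁ v u] at e1
  linear_combination (1 / 2) * e1

theorem pol_ne (hS : Sy T) (hN : Nod T) : pol T ≠ 0 := by
  intro h
  have h1 : ∀ v, tri T v v v = 0 := by intro v; rw [← eval_pol, h, map_zero]
  have h2 := polar hS h1
  obtain ⟨c, hc⟩ := hN (Pi.single 0 1) (Pi.single 1 1) (by
    intro h; have := congrFun h 0; simp at this) (fun w => h2 _ _ w) (fun w => h2 _ _ w)
  have := congrFun hc 1
  simp at this

/-- a generic linear form -/
theorem exists_form (hS : Sy T) (hN : Nod T) : ∃ l : E3, l ≠ 0 ∧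
    (∀ v ∈ Sg T, ∑ i, l i * v i ≠ 0) ∧ ∀ v : E3, tri T v v v = 0 → vec T v v ≠ l := by
  classical
  obtain ⟨C, hC1, hC2, hC3⟩ := countable_sg hS hN
  have n1 : volume {v : E3 | tri T v v v = 0} = 0 := by
    have := Bert554.volume_zeroSet (pol T) (pol_ne hS hN)
    simpa only [eval_pol] using this
  have n2 : volume ((fun v : E3 => vec T v v) '' {v : E3 | tri T v v v = 0}) = 0 := by
    have hd : Differentiable ℂ (fun v : E3 => vec T v v) := by
      rw [differentiable_pi]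
      intro k
      simp only [vec]
      fun_prop
    exact MeasureTheory.addHaar_image_eq_zero_of_differentiableOn_of_addHaar_eq_zero _
      ((hd.restrictScalars ℝ).differentiableOn) n1
  have n3 : ∀ v ∈ C, volume {l : E3 | ∑ i, l i * v i = 0} = 0 := by
    intro v hv
    have h1 := Bert554.volume_zeroSet (∑ i : Fin 3, MvPolynomial.C (v i) * MvPolynomial.X i) (by
      intro h
      apply (hC2 hv).1
      funext i
      have h2 := congrArg (MvPolynomial.eval (Pi.single i (1 : ℂ))) h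
      simp only [map_sum, map_mul, MvPolynomial.eval_C, MvPolynomial.eval_X, map_zero] at h2
      rw [Finset.sum_eq_single i] at h2
      · simpa using h2
      · intro j _ hj; simp [hj]
      · intro h; exact absurd (Finset.mem_univ _) h)
    simp only [map_sum, map_mul, MvPolynomial.eval_C, MvPolynomial.eval_X] at h1
    simpa only [mul_comm] using h1
  have n4 : volume (⋃ v ∈ C, {l : E3 | ∑ i, l i * v i = 0}) = 0 :=
    (measure_biUnion_null_iff hC1).2 n3
  have n5 : volume ({(0 : E3)}) = 0 := measure_singleton _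
  have n6 := measure_union_null (measure_union_null n2 n4) n5
  obtain ⟨l, hl⟩ : ∃ l : E3, l ∉ (((fun v : E3 => vec T v v) '' {v : E3 | tri T v v v = 0}) ∪
      (⋃ v ∈ C, {l : E3 | ∑ i, l i * v i = 0})) ∪ {(0 : E3)} := by
    by_contra h
    push Not at h
    have : (univ : Set E3) ⊆ _ := fun l _ => h l
    have h2 := measure_mono_null this n6
    exact (NeZero.ne (volume : Measure E3)) (Measure.measure_univ_eq_zero.1 h2)
  simp only [mem_union, not_or, mem_singleton_iff, mem_iUnion, mem_ofPred_eq, not_exists,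
    mem_image, not_and] at hl
  obtain ⟨⟨hl1, hl2⟩, hl3⟩ := hl
  refine ⟨l, hl3, ?_, fun v hv => hl1 v hv⟩
  intro v hv h0
  obtain ⟨w, hw, c, hc⟩ := hC3 v hv
  apply hl2 w hw
  have hc0 : c ≠ 0 := by
    rintro rfl
    exact hv.1 (by rw [hc, zero_smul])
  rw [hc] at h0
  have : ∑ i, l i * (c • w) i = c * ∑ i, l i * w i := by
    rw [Finset.mul_sum]
    exact Finset.sum_congr rfl fun i _ => by simp; ring
  rw [this] at h0
  rcases mul_eq_zero.1 h0 with h | h
  · exact absurd h hc0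
  · exact h

/-- **the basis**: `b 0` is not on the cubic, the plane `b 0, b 1` is transversal to the cubic and
its sections with the polar of `b 0` -/
theorem exists_basis (hS : Sy T) (hN : Nod T) : ∃ b : Module.Basis (Fin 3) ℂ E3,
    tri T (b 0) (b 0) (b 0) ≠ 0 ∧
    ∀ v : E3, v ≠ 0 → b.coord 2 v = 0 → tri T v v v = 0 → tri T v v (b 0) ≠ 0 := by
  classical
  obtain ⟨l, hl0, hl1, hl2⟩ := exists_form hS hN
  let lam : E3 →ₗ[ℂ] ℂ := ∑ i, l i • LinearMap.proj i
  have hlam : ∀ v, lam v = ∑ i, l i * v i := by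
    intro v; simp [lam]
  obtain ⟨i₀, hi₀⟩ : ∃ i, l i ≠ 0 := by
    by_contra h; push Not at h; exact hl0 (funext h)
  have hlamne : lam ≠ 0 := by
    intro h
    have := hlam (Pi.single i₀ 1)
    rw [h, Finset.sum_eq_single i₀] at this
    · simp at this; exact hi₀ this.symm
    · intro j _ hj; simp [hj]
    · intro h; exact absurd (Finset.mem_univ _) h
  set K := LinearMap.ker lam with hK
  -- on the plane the cubic has no multiple root
  have key : ∀ v ∈ K, v ≠ 0 → (∀ u ∈ K, tri T v v u = 0) → False := by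
    intro v hv hv0 h
    -- `tri T v v ·` is a multiple of `lam`
    obtain ⟨m, hm⟩ : ∃ m : E3, lam m = 1 := by
      obtain ⟨x, hx⟩ : ∃ x, lam x ≠ 0 := by
        by_contra h; push Not at h; exact hlamne (LinearMap.ext h)
      exact ⟨(lam x)⁻¹ • x, by rw [map_smul, smul_eq_mul, inv_mul_cancel₀ hx]⟩
    set s := tri T v v m with hs
    have h1 : ∀ w, tri T v v w = s * lam w := by
      intro w
      have h2 : w = (w - lam w • m) + lam w • m := by abel
      have h3 : w - lam w • m ∈ K := by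
        rw [hK, LinearMap.mem_ker, map_sub, map_smul, hm, smul_eq_mul, mul_one, sub_self]
      conv_lhs => rw [h2]
      rw [hS.add₃, h _ h3, hS.smul₃, zero_add, mul_comm]
    have hvlam : lam v = 0 := hv
    have hc : tri T v v v = 0 := by rw [h1, hvlam, mul_zero]
    by_cases hs0 : s = 0
    · have hsg : v ∈ Sg T := ⟨hv0, fun w => by rw [h1, hs0, zero_mul]⟩
      exact hl1 v hsg (by rw [← hlam]; exact hvlam)
    · obtain ⟨r, hr⟩ : ∃ r : ℂ, r ^ 2 = s⁻¹ := IsAlgClosed.exists_pow_nat_eq _ (by norm_num)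
      have h4 : tri T (r • v) (r • v) (r • v) = 0 := by
        rw [tri_smul₁, hS.smul₂, hS.smul₃, hc]; ring
      apply hl2 (r • v) h4
      funext k
      rw [vec_eq, tri_smul₁, hS.smul₂, h1, hlam, Finset.sum_eq_single k]
      · have : r * (r * (s * (l k * (Pi.single k (1 : ℂ) : E3) k))) = (r ^ 2 * s) * l k := by
          simp; ring
        rw [this, hr, inv_mul_cancel₀ hs0, one_mul]
      · intro j _ hj; simp [hj]
      · intro h; exact absurd (Finset.mem_univ _) h
  have hfin : Module.finrank ℂ K = 2 := by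
    have h1 := LinearMap.finrank_range_add_finrank_ker lam
    have h2 : Module.finrank ℂ (LinearMap.range lam) = 1 := by
      rw [LinearMap.range_eq_top.2 (LinearMap.surjective hlamne), finrank_top,
        Module.finrank_self]
    have h3 : Module.finrank ℂ E3 = 3 := Module.finrank_fin_fun ℂ
    rw [h2, h3] at h1
    have h4 : 1 + Module.finrank ℂ K = 3 := h1
    omega
  -- a vector of the plane off the cubic
  obtain ⟨e, heK, he⟩ : ∃ e ∈ K, tri T e e e ≠ 0 := by
    by_contra hcon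
    push Not at hcon
    obtain ⟨v, hv⟩ : ∃ v : K, v ≠ 0 := by
      have : Nontrivial K := Module.nontrivial_of_finrank_pos (R := ℂ) (by rw [hfin]; norm_num)
      exact exists_ne 0
    refine key v v.2 (by simpa using hv) fun u hu => ?_
    have e1 := hcon (v + u) (K.add_mem v.2 hu)
    have e2 := hcon (v + (-1 : ℂ) • u) (K.add_mem v.2 (K.smul_mem _ hu))
    have e3 := hcon v v.2
    have e4 := hcon u hu
    simp only [tri_add₁, hS.add₂, hS.add₃, tri_smul₁, hS.smul₂, hS.smul₃, e3, e4] at e1 e2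
    have s1 : tri T (v : E3) u v = tri T v v u := hS.swap₂ _ _ _
    have s2 : tri T u (v : E3) v = tri T v v u := by rw [hS.swap₁, s1]
    have s3 : tri T u (v : E3) u = tri T v u u := hS.swap₁ _ _ _
    have s4 : tri T u u (v : E3) = tri T v u u := hS.swap₃ _ _ _
    rw [s1, s2, s3, s4] at e1 e2
    linear_combination (1 / 6) * e1 - (1 / 6) * e2
  have he0 : e ≠ 0 := by
    rintro rfl
    apply he
    have := tri_smul₁ (T := T) 0 (0 : E3) 0 0
    simpa using this
  obtain ⟨k, hk⟩ := exists_linearIndependent_pair_of_one_lt_finrank (R := ℂ) (M := K)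
    (by rw [hfin]; norm_num) (x := ⟨e, heK⟩) (by simpa using he0)
  obtain ⟨m, hm⟩ : ∃ m : E3, lam m ≠ 0 := by
    by_contra h; push Not at h; exact hlamne (LinearMap.ext h)
  have hek : LinearIndependent ℂ ![e, (k : E3)] := by
    have h1 := hk.map' K.subtype K.ker_subtype
    have h2 : ![e, (k : E3)] = K.subtype ∘ ![⟨e, heK⟩, k] := by
      funext j; fin_cases j <;> rfl
    rw [h2]; exact h1
  have hli : LinearIndependent ℂ ![e, (k : E3), m] := by
    rw [LinearIndependent.pair_iff] at hek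
    rw [Fintype.linearIndependent_iff]
    intro g hg
    simp only [Fin.sum_univ_three, Matrix.cons_val_zero, Matrix.cons_val_one,
      Matrix.cons_val] at hg
    have h1 := congrArg lam hg
    simp only [map_add, map_smul, map_zero] at h1
    have h2 : lam e = 0 := heK
    have h3 : lam (k : E3) = 0 := k.2
    rw [h2, h3, smul_zero, smul_zero, zero_add, zero_add, smul_eq_mul] at h1
    have h4 : g 2 = 0 := (mul_eq_zero.1 h1).resolve_right hm
    rw [h4, zero_smul, add_zero] at hg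
    obtain ⟨h5, h6⟩ := hek _ _ hg
    intro i; fin_cases i
    · exact h5
    · exact h6
    · exact h4
  let b : Module.Basis (Fin 3) ℂ E3 := basisOfLinearIndependentOfCardEqFinrank hli (by simp)
  have hb0 : b 0 = e := by simp [b]
  have hb1 : b 1 = (k : E3) := by simp [b]
  have hb2 : b 2 = m := by simp [b]
  have hcoord : ∀ v, lam v = b.coord 2 v * lam m := by
    intro v
    conv_lhs => rw [← b.sum_repr v]
    rw [Fin.sum_univ_three, hb0, hb1, hb2]
    simp only [map_add, map_smul, smul_eq_mul]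
    have h2 : lam e = 0 := heK
    have h3 : lam (k : E3) = 0 := k.2
    rw [h2, h3]
    simp [Module.Basis.coord_apply]
  refine ⟨b, by rw [hb0]; exact he, fun v hv0 hv h1 h2 => ?_⟩
  rw [hb0] at h2
  have hvK : v ∈ K := by rw [hK, LinearMap.mem_ker, hcoord, hv, zero_mul]
  -- `v, e` span the plane
  have hve : LinearIndependent ℂ ![(⟨e, heK⟩ : K), ⟨v, hvK⟩] := by
    rw [LinearIndependent.pair_iff]
    intro s t hst
    have h3 : s • e + t • v = 0 := congrArg Subtype.val hst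
    have hs : s = 0 := by
      by_contra hs
      apply he
      have h4 : e = (-(s⁻¹ * t)) • v := by
        have h5 : s • e = (-t) • v := by rw [neg_smul]; exact eq_neg_of_add_eq_zero_left h3
        calc e = s⁻¹ • (s • e) := by rw [smul_smul, inv_mul_cancel₀ hs, one_smul]
          _ = _ := by rw [h5, smul_smul]; congr 1; ring
      rw [h4, tri_smul₁, hS.smul₂, hS.smul₃, h1]; ring
    refine ⟨hs, ?_⟩
    rw [hs, zero_smul, zero_add] at h3
    exact (smul_eq_zero.1 h3).resolve_right hv0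
  refine key v hvK hv0 fun u hu => ?_
  let b' : Module.Basis (Fin 2) ℂ K := basisOfLinearIndependentOfCardEqFinrank hve (by simp [hfin])
  have h5 : u = (b'.repr ⟨u, hu⟩ 0) • e + (b'.repr ⟨u, hu⟩ 1) • v := by
    have h6 := b'.sum_repr ⟨u, hu⟩
    rw [Fin.sum_univ_two] at h6
    have h7 := congrArg Subtype.val h6
    simp only [b', coe_basisOfLinearIndependentOfCardEqFinrank, Matrix.cons_val_zero,
      Matrix.cons_val_one] at h7
    exact h7.symm
  rw [h5, hS.add₃, hS.smul₃, hS.smul₃, h1, h2]; ring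

end Crest.Agent.R257.Flag3_799
end
end

-- ▼ part R257/Flag3C_799
section

/-!
R257 / Flag3C_799: expansions along a direction of a family with vanishing 2-jet:
`F (z u, t) = z³ Q`, `∂ᵢF (z u, t) = z² Rᵢ`.
-/

set_option autoImplicit false
set_option linter.unusedSectionVars false

open Set Filter Topology Metric
open Crest.AlgGeometry.Germ

noncomputable section

namespace Crest.Agent.R257.Flag3_799

open Crest.Agent.R257.Defs_219 Crest.Agent.R257.LCDefs_472

variable {n : ℕ}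

/-! ### derivatives along a line -/

theorem fd_sum (f : (Fin n → ℂ) → ℂ) (x m : Fin n → ℂ) :
    fderiv ℂ f x m = ∑ i, m i * coordDeriv f i x := by
  have h1 : m = ∑ i, m i • (Pi.single i (1 : ℂ) : Fin n → ℂ) := by
    funext j
    rw [Finset.sum_apply, Finset.sum_eq_single j]
    · simp
    · intro i _ hi; simp [hi.symm]
    · intro h; exact absurd (Finset.mem_univ _) h
  conv_lhs => rw [h1]
  rw [map_sum]
  exact Finset.sum_congr rfl fun i _ => by rw [map_smul, smul_eq_mul]; rfl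

theorem hasDerivAt_line {f : (Fin n → ℂ) → ℂ} {u : Fin n → ℂ} {z : ℂ}
    (hf : AnalyticAt ℂ f (z • u)) :
    HasDerivAt (fun z : ℂ => f (z • u)) (∑ i, u i * coordDeriv f i (z • u)) z := by
  rw [← fd_sum]
  have h1 : HasDerivAt (fun z : ℂ => z • u) ((1 : ℂ) • u) z := (hasDerivAt_id z).smul_const u
  rw [one_smul] at h1
  exact hf.differentiableAt.hasFDerivAt.comp_hasDerivAt z h1

theorem tendsto_line (u : Fin n → ℂ) : Tendsto (fun z : ℂ => z • u) (𝓝 0) (𝓝 0) := by
  have : Continuous (fun z : ℂ => z • u) := by fun_prop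
  exact this.tendsto' _ _ (by simp)

theorem an_line {f : (Fin n → ℂ) → ℂ} (hf : AnalyticAt ℂ f 0) (u : Fin n → ℂ) :
    AnalyticAt ℂ (fun z : ℂ => f (z • u)) 0 := by
  have h1 : AnalyticAt ℂ (fun z : ℂ => z • u) 0 := analyticAt_id.smul analyticAt_const
  refine AnalyticAt.fun_comp (g := f) (f := fun z : ℂ => z • u) ?_ h1
  simpa using hf

theorem itd_succ {f : (Fin n → ℂ) → ℂ} (hf : AnalyticAt ℂ f 0) (u : Fin n → ℂ) (k : ℕ) :
    iteratedDeriv (k + 1) (fun z : ℂ => f (z • u)) 0 =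
      ∑ i, u i * iteratedDeriv k (fun z : ℂ => coordDeriv f i (z • u)) 0 := by
  have h1 : deriv (fun z : ℂ => f (z • u)) =ᶠ[𝓝 0]
      fun z => ∑ i, u i * coordDeriv f i (z • u) := by
    filter_upwards [(tendsto_line u).eventually hf.eventually_analyticAt] with z hz
    exact (hasDerivAt_line hz).deriv
  have h2 : ∀ i, ContDiffAt ℂ k (fun z : ℂ => coordDeriv f i (z • u)) 0 := fun i =>
    (an_line (an_cd hf i) u).contDiffAt
  rw [iteratedDeriv_succ', h1.iteratedDeriv_eq k, iteratedDeriv_fun_sum]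
  · exact Finset.sum_congr rfl fun i _ => iteratedDeriv_const_mul (u i) (h2 i)
  · exact fun i _ => contDiffAt_const.mul (h2 i)

theorem itd_zero (f : (Fin n → ℂ) → ℂ) (u : Fin n → ℂ) :
    iteratedDeriv 0 (fun z : ℂ => f (z • u)) 0 = f 0 := by
  rw [iteratedDeriv_zero, zero_smul]

/-! ### families -/

/-- the hypotheses used below -/
structure Hyp3 (F : E3 × ℂ → ℂ) : Prop where
  an : AnalyticAt ℂ F (0, 0)
  zero : ∀ᶠ t in 𝓝 (0 : ℂ), F (0, t) = 0
  crit : ∀ᶠ t in 𝓝 (0 : ℂ), ∀ i, coordDeriv (sl F t) i 0 = 0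
  hess : ∀ᶠ t in 𝓝 (0 : ℂ), ∀ i j, H2 (sl F t) i j = 0

theorem an_sl {F : (Fin n → ℂ) × ℂ → ℂ} {x : Fin n → ℂ} {t : ℂ} (hF : AnalyticAt ℂ F (x, t)) :
    AnalyticAt ℂ (sl F t) x :=
  AnalyticAt.fun_comp (g := F) (f := fun x : Fin n → ℂ => (x, t)) hF
    (analyticAt_id.prod analyticAt_const)

theorem ev_an_sl {F : (Fin n → ℂ) × ℂ → ℂ} (hF : AnalyticAt ℂ F (0, 0)) :
    ∀ᶠ t in 𝓝 (0 : ℂ), AnalyticAt ℂ (sl F t) 0 := by
  have h1 : Tendsto (fun t : ℂ => ((0 : Fin n → ℂ), t)) (𝓝 0) (𝓝 (0, 0)) := by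
    have : Continuous (fun t : ℂ => ((0 : Fin n → ℂ), t)) := by fun_prop
    exact this.tendsto' _ _ rfl
  filter_upwards [h1.eventually hF.eventually_analyticAt] with t ht
  exact an_sl ht

theorem cd_sl {F : (Fin n → ℂ) × ℂ → ℂ} {p : (Fin n → ℂ) × ℂ} (hF : DifferentiableAt ℂ F p)
    (i : Fin n) : coordDeriv (sl F p.2) i p.1 = fderiv ℂ F p (Pi.single i 1, 0) := by
  have h1 : HasFDerivAt (fun x : Fin n → ℂ => ((x, p.2) : (Fin n → ℂ) × ℂ))
      (ContinuousLinearMap.inl ℂ (Fin n → ℂ) ℂ) p.1 := hasFDerivAt_prodMk_left p.1 p.2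
  have h2 : HasFDerivAt F (fderiv ℂ F p)
      ((fun x : Fin n → ℂ => ((x, p.2) : (Fin n → ℂ) × ℂ)) p.1) := hF.hasFDerivAt
  have h3 : HasFDerivAt (sl F p.2)
      ((fderiv ℂ F p).comp (ContinuousLinearMap.inl ℂ (Fin n → ℂ) ℂ)) p.1 := h2.comp p.1 h1
  change fderiv ℂ (sl F p.2) p.1 (Pi.single i 1) = _
  rw [h3.fderiv]
  rfl

theorem an_cdt {F : (Fin n → ℂ) × ℂ → ℂ} {p : (Fin n → ℂ) × ℂ} (hF : AnalyticAt ℂ F p)
    (i : Fin n) : AnalyticAt ℂ (fun p : (Fin n → ℂ) × ℂ => coordDeriv (sl F p.2) i p.1) p := by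
  have h1 : AnalyticAt ℂ (fun p => fderiv ℂ F p ((Pi.single i 1 : Fin n → ℂ), (0 : ℂ))) p :=
    ((ContinuousLinearMap.apply ℂ ℂ ((Pi.single i 1 : Fin n → ℂ), (0 : ℂ))).analyticAt _).fun_comp
      hF.fderiv
  refine h1.congr ?_
  filter_upwards [hF.eventually_analyticAt] with q hq
  exact (cd_sl hq.differentiableAt i).symm

/-- the map `((u,t),z) ↦ (z u, t)` -/
theorem an_dir (v : E3) {G : E3 × ℂ → ℂ} (hG : AnalyticAt ℂ G (0, 0)) :
    AnalyticAt ℂ (fun q : (E3 × ℂ) × ℂ => G (q.2 • q.1.1, q.1.2)) ((v, 0), 0) := by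
  have h1 : AnalyticAt ℂ (fun q : (E3 × ℂ) × ℂ => ((q.2 • q.1.1, q.1.2) : E3 × ℂ))
      ((v, 0), 0) := by
    refine AnalyticAt.prod ?_ ?_
    · exact analyticAt_snd.smul (analyticAt_fst.fun_comp analyticAt_fst)
    · exact analyticAt_snd.fun_comp analyticAt_fst
  refine AnalyticAt.fun_comp (g := G)
    (f := fun q : (E3 × ℂ) × ℂ => ((q.2 • q.1.1, q.1.2) : E3 × ℂ)) ?_ h1
  simpa using hG

theorem ev_t {P : ℂ → Prop} (h : ∀ᶠ t in 𝓝 (0 : ℂ), P t) (v : E3) :
    ∀ᶠ e in 𝓝 ((v, (0 : ℂ)) : E3 × ℂ), P e.2 :=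
  (continuous_snd.continuousAt (x := ((v, (0 : ℂ)) : E3 × ℂ))).eventually h

theorem exp_F {F : E3 × ℂ → ℂ} (h : Hyp3 F) (v : E3) : ∃ Q : (E3 × ℂ) × ℂ → ℂ,
    AnalyticAt ℂ Q ((v, 0), 0) ∧
    (∀ᶠ q in 𝓝 ((v, (0 : ℂ)), (0 : ℂ)), F (q.2 • q.1.1, q.1.2) = q.2 ^ 3 * Q q) ∧
    6 * Q ((v, 0), 0) = D3 (sl F 0) v v v := by
  have hev : ∀ j < 3, ∀ᶠ e in 𝓝 ((v, (0 : ℂ)) : E3 × ℂ),
      iteratedDeriv j (fun z : ℂ => F (z • e.1, e.2)) 0 = 0 := by
    intro j hj
    filter_upwards [ev_t (ev_an_sl h.an) v, ev_t h.zero v, ev_t h.crit v, ev_t h.hess v]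
      with e h1 h2 h3 h4
    have e1 : (fun z : ℂ => F (z • e.1, e.2)) = fun z : ℂ => sl F e.2 (z • e.1) := rfl
    rw [e1]
    interval_cases j
    · rw [itd_zero]; exact h2
    · rw [itd_succ h1]
      refine Finset.sum_eq_zero fun i _ => ?_
      rw [itd_zero, h3 i, mul_zero]
    · rw [itd_succ h1]
      refine Finset.sum_eq_zero fun i _ => ?_
      rw [itd_succ (an_cd h1 i), Finset.sum_eq_zero, mul_zero]
      intro j _
      rw [itd_zero]
      exact mul_eq_zero_of_right _ (h4 i j)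
  obtain ⟨Q, hQ, h1, h2⟩ := div_pow (E := E3 × ℂ) (e₀ := (v, 0)) (an_dir v h.an) 3 hev
  refine ⟨Q, hQ, h1, ?_⟩
  have h3 := h2.self_of_nhds
  have h4 : AnalyticAt ℂ (sl F 0) 0 := an_sl h.an
  have e1 : (fun z : ℂ => F (z • ((v, (0 : ℂ)) : E3 × ℂ).1, ((v, (0 : ℂ)) : E3 × ℂ).2)) =
    fun z : ℂ => sl F 0 (z • v) := rfl
  have h5 : ((3).factorial : ℂ) = 6 := by norm_num [Nat.factorial]
  simp only at h3
  rw [h5] at h3
  rw [← h3]
  have h6 : (fun z : ℂ => F (z • v, 0)) = fun z : ℂ => sl F 0 (z • v) := rfl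
  rw [h6, itd_succ h4, D3]
  refine Finset.sum_congr rfl fun i _ => ?_
  rw [itd_succ (an_cd h4 i), Finset.mul_sum]
  refine Finset.sum_congr rfl fun j _ => ?_
  rw [itd_succ (an_cd (an_cd h4 i) j), Finset.mul_sum, Finset.mul_sum]
  refine Finset.sum_congr rfl fun k _ => ?_
  rw [itd_zero]
  simp only [H3]
  ring

theorem exp_D {F : E3 × ℂ → ℂ} (h : Hyp3 F) (v : E3) (i : Fin 3) : ∃ R : (E3 × ℂ) × ℂ → ℂ,
    AnalyticAt ℂ R ((v, 0), 0) ∧
    (∀ᶠ q in 𝓝 ((v, (0 : ℂ)), (0 : ℂ)),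
      coordDeriv (sl F q.1.2) i (q.2 • q.1.1) = q.2 ^ 2 * R q) ∧
    ∀ᶠ u in 𝓝 v, 2 * R ((u, 0), 0) = tri (H3 (sl F 0)) (Pi.single i 1) u u := by
  have hev : ∀ j < 2, ∀ᶠ e in 𝓝 ((v, (0 : ℂ)) : E3 × ℂ),
      iteratedDeriv j (fun z : ℂ => coordDeriv (sl F e.2) i (z • e.1)) 0 = 0 := by
    intro j hj
    filter_upwards [ev_t (ev_an_sl h.an) v, ev_t h.zero v, ev_t h.crit v, ev_t h.hess v]
      with e h1 h2 h3 h4
    interval_cases j
    · rw [itd_zero]; exact h3 i
    · rw [itd_succ (an_cd h1 i)]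
      refine Finset.sum_eq_zero fun j _ => ?_
      rw [itd_zero]
      exact mul_eq_zero_of_right _ (h4 i j)
  obtain ⟨R, hR, h1, h2⟩ := div_pow (E := E3 × ℂ) (e₀ := (v, 0))
    (an_dir v (an_cdt h.an i)) 2 hev
  refine ⟨R, hR, h1, ?_⟩
  have h3 : Tendsto (fun u : E3 => (u, (0 : ℂ))) (𝓝 v) (𝓝 (v, 0)) := by
    have : Continuous (fun u : E3 => (u, (0 : ℂ))) := by fun_prop
    exact this.tendsto' _ _ rfl
  filter_upwards [h3.eventually h2] with u hu
  have h4 : AnalyticAt ℂ (sl F 0) 0 := an_sl h.an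
  have h5 : ((2).factorial : ℂ) = 2 := by norm_num [Nat.factorial]
  rw [h5] at hu
  have e2 : tri (H3 (sl F 0)) (Pi.single i 1) u u =
      ∑ j, ∑ k, H3 (sl F 0) i j k * u j * u k := by
    rw [tri, Finset.sum_eq_single i]
    · refine Finset.sum_congr rfl fun j _ => Finset.sum_congr rfl fun k _ => ?_
      rw [Pi.single_eq_same, mul_one]
    · intro j _ hj
      refine Finset.sum_eq_zero fun k _ => Finset.sum_eq_zero fun l _ => ?_
      simp [hj]
    · intro h; exact absurd (Finset.mem_univ _) h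
  rw [← hu, itd_succ (an_cd h4 i), e2]
  refine Finset.sum_congr rfl fun j _ => ?_
  rw [itd_succ (an_cd (an_cd h4 i) j), Finset.mul_sum]
  refine Finset.sum_congr rfl fun k _ => ?_
  rw [itd_zero]
  simp only [H3]
  ring

/-! ### non-vanishing near a direction -/

theorem ne_F {F : E3 × ℂ → ℂ} (h : Hyp3 F) {v : E3} (hv : D3 (sl F 0) v v v ≠ 0) :
    ∀ᶠ q in 𝓝 ((v, (0 : ℂ)), (0 : ℂ)), q.2 ≠ 0 → F (q.2 • q.1.1, q.1.2) ≠ 0 := by
  obtain ⟨Q, hQ, h1, h2⟩ := exp_F h v
  have h3 : Q ((v, 0), 0) ≠ 0 := by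
    intro h0; rw [h0, mul_zero] at h2; exact hv h2.symm
  filter_upwards [h1, hQ.continuousAt.eventually_ne h3] with q hq hq2 hq3
  rw [hq]
  exact mul_ne_zero (pow_ne_zero _ hq3) hq2

theorem ne_D {F : E3 × ℂ → ℂ} (h : Hyp3 F) {v : E3} (m : E3) (hv : D3 (sl F 0) v v m ≠ 0) :
    ∀ᶠ q in 𝓝 ((v, (0 : ℂ)), (0 : ℂ)), q.2 ≠ 0 →
      fderiv ℂ (sl F q.1.2) (q.2 • q.1.1) m ≠ 0 := by
  choose R hR h1 h2 using exp_D h v
  have hS : Sy (H3 (sl F 0)) := sy_H3 (an_sl h.an)
  have h3 : (∑ i, m i * R i ((v, 0), 0)) ≠ 0 := by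
    intro h0
    apply hv
    have h4 : D3 (sl F 0) v v m = tri (H3 (sl F 0)) m v v := by rw [D3_eq, hS.swap₃]
    have h5 : tri (H3 (sl F 0)) m v v = ∑ i, m i * tri (H3 (sl F 0)) (Pi.single i 1) v v := by
      have h6 : ∀ i, tri (H3 (sl F 0)) (Pi.single i 1) v v = vec (H3 (sl F 0)) v v i := by
        intro i; rw [vec_eq, hS.swap₃]
      simp only [h6]
      rw [hS.swap₃, tri_eq_vec]
      exact Finset.sum_congr rfl fun i _ => mul_comm _ _
    rw [h4, h5]
    have h7 : ∀ i, m i * tri (H3 (sl F 0)) (Pi.single i 1) v v = 2 * (m i * R i ((v, 0), 0)) := by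
      intro i; rw [← (h2 i).self_of_nhds]; ring
    rw [Finset.sum_congr rfl fun i _ => h7 i, ← Finset.mul_sum, h0, mul_zero]
  have hRa : ContinuousAt (fun q : (E3 × ℂ) × ℂ => ∑ i, m i * R i q) ((v, 0), 0) := by
    refine tendsto_finsetSum _ fun i _ => ?_
    exact (hR i).continuousAt.tendsto.const_mul (m i)
  filter_upwards [eventually_all.2 h1, hRa.eventually_ne h3] with q hq hq2 hq3
  rw [fd_sum]
  have h4 : ∑ i, m i * coordDeriv (sl F q.1.2) i (q.2 • q.1.1) = q.2 ^ 2 * ∑ i, m i * R i q := by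
    rw [Finset.mul_sum]
    exact Finset.sum_congr rfl fun i _ => by rw [hq i]; ring
  rw [h4]
  exact mul_ne_zero (pow_ne_zero _ hq3) hq2

end Crest.Agent.R257.Flag3_799
end
end

-- ▼ part R257/Flag3D_799
section

/-!
R257 / Flag3D_799: `Flag3Stmt` of `LCDefs_472`: a `μ`-constant family of germs of multiplicity `3`
whose `3`-jet at `t = 0` is a nodal (or smooth) cubic satisfies the conclusion of S0395; the flag
consists of two constant linear forms.
-/

set_option autoImplicit false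
set_option linter.unusedSectionVars false

open Set Filter Topology Metric
open Crest.AlgGeometry.Germ

noncomputable section

namespace Crest.Agent.R257.Flag3_799

open Crest.Agent.R257.Defs_219 Crest.Agent.R257.LCDefs_472

abbrev K2 : Type := ℂ × ℂ

section Node

variable {F : E3 × ℂ → ℂ} (b : Module.Basis (Fin 3) ℂ E3)

/-- the plane of `b 0, b 1` -/
def kk (w : K2) : E3 := w.1 • b 0 + w.2 • b 1

theorem kk_coord (w : K2) : b.coord 0 (kk b w) = w.1 ∧ b.coord 1 (kk b w) = w.2 ∧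
    b.coord 2 (kk b w) = 0 := by
  simp only [kk, map_add, map_smul, smul_eq_mul, Module.Basis.coord_apply, Module.Basis.repr_self]
  refine ⟨?_, ?_, ?_⟩ <;> simp

theorem kk_smul (c : ℂ) (w : K2) : kk b (c • w) = c • kk b w := by
  simp only [kk, Prod.smul_fst, Prod.smul_snd, smul_eq_mul, smul_add, smul_smul]

theorem an_kk (p : K2) : AnalyticAt ℂ (kk b) p := by
  unfold kk
  exact (analyticAt_fst.smul analyticAt_const).add (analyticAt_snd.smul analyticAt_const)

/-- a linear form which kills `b 0`, `b 1` and `v`, `b.coord 2 v ≠ 0`, is zero -/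
theorem kill {A : E3 → ℂ} (hadd : ∀ x y, A (x + y) = A x + A y) (hsm : ∀ (c : ℂ) x, A (c • x) = c * A x)
    {v : E3} (hv : b.coord 2 v ≠ 0) (h0 : A (b 0) = 0) (h1 : A (b 1) = 0) (h2 : A v = 0) (x : E3) :
    A x = 0 := by
  have e : ∀ y : E3, A y = b.coord 2 y * A (b 2) := by
    intro y
    conv_lhs => rw [← b.sum_repr y]
    rw [Fin.sum_univ_three, hadd, hadd, hsm, hsm, hsm, h0, h1]
    simp [Module.Basis.coord_apply]
  have h3 : A (b 2) = 0 := by
    rw [e] at h2
    exact (mul_eq_zero.1 h2).resolve_left hv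
  rw [e, h3, mul_zero]

theorem node (h : Hyp3 F) (hN : Nod (H3 (sl F 0)))
    (hiso : ∀ᶠ q in 𝓝 ((0 : E3), (0 : ℂ)), (∀ i, coordDeriv (sl F q.2) i q.1 = 0) → q.1 = 0)
    {v : E3} (hv0 : v ≠ 0) (hv : ∀ w, D3 (sl F 0) v v w = 0) (hc : b.coord 2 v ≠ 0) :
    ∀ᶠ q in 𝓝 ((v, (0 : ℂ)), (0 : ℂ)), q.2 ≠ 0 → F (q.2 • q.1.1, q.1.2) = 0 →
      fderiv ℂ (sl F q.1.2) (q.2 • q.1.1) (b 0) = 0 →
      fderiv ℂ (sl F q.1.2) (q.2 • q.1.1) (b 1) = 0 → False := by
  have hS : Sy (H3 (sl F 0)) := sy_H3 (an_sl h.an)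
  choose R hR h1 h2 using exp_D h v
  set T := H3 (sl F 0) with hT
  -- the combination of the `R i`
  let RR : E3 → (E3 × ℂ) × ℂ → ℂ := fun m q => ∑ i, m i * R i q
  have hRR : ∀ m, AnalyticAt ℂ (RR m) ((v, 0), 0) := fun m =>
    Finset.analyticAt_fun_sum _ fun i _ => analyticAt_const.mul (hR i)
  have hRRe : ∀ᶠ q in 𝓝 ((v, (0 : ℂ)), (0 : ℂ)), ∀ m,
      fderiv ℂ (sl F q.1.2) (q.2 • q.1.1) m = q.2 ^ 2 * RR m q := by
    filter_upwards [eventually_all.2 h1] with q hq m
    rw [fd_sum, Finset.mul_sum]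
    exact Finset.sum_congr rfl fun i _ => by rw [hq i]; ring
  have hRR0 : ∀ᶠ u in 𝓝 v, ∀ m, 2 * RR m ((u, 0), 0) = tri T u u m := by
    filter_upwards [eventually_all.2 h2] with u hu m
    have h6 : ∀ i, 2 * R i ((u, 0), 0) = vec T u u i := by
      intro i; rw [vec_eq, hS.swap₃]; exact hu i
    rw [tri_eq_vec, Finset.mul_sum]
    exact Finset.sum_congr rfl fun i _ => by rw [← h6 i]; ring
  -- the map
  let A : K2 × K2 → (E3 × ℂ) × ℂ := fun q => ((v + kk b q.1, q.2.1), q.2.2)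
  have hA : AnalyticAt ℂ A 0 := by
    refine AnalyticAt.prod (AnalyticAt.prod ?_ ?_) ?_
    · exact analyticAt_const.add ((an_kk b _).fun_comp analyticAt_fst)
    · exact analyticAt_fst.fun_comp analyticAt_snd
    · exact analyticAt_snd.fun_comp analyticAt_snd
  have hkk0 : kk b 0 = 0 := by simp [kk]
  have hA0 : A 0 = ((v, 0), 0) := by
    simp only [A, Prod.fst_zero, Prod.snd_zero, hkk0, add_zero]
  let N : K2 × K2 → K2 := fun q => (RR (b 0) (A q), RR (b 1) (A q))
  have hNa : AnalyticAt ℂ N 0 := by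
    refine AnalyticAt.prod ?_ ?_
    · exact AnalyticAt.fun_comp (g := RR (b 0)) (f := A) (by rw [hA0]; exact hRR _) hA
    · exact AnalyticAt.fun_comp (g := RR (b 1)) (f := A) (by rw [hA0]; exact hRR _) hA
  have hRv : ∀ m, RR m ((v, 0), 0) = 0 := by
    intro m
    have h3 := hRR0.self_of_nhds m
    rw [show tri T v v m = 0 from hv m] at h3
    exact (mul_eq_zero.1 h3).resolve_left two_ne_zero
  have hN0 : N 0 = 0 := by
    simp only [N, hA0, hRv]; rfl
  have hinj : ∀ w : K2, fderiv ℂ N 0 (w, 0) = 0 → w = 0 := by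
    intro w hw
    have e1 : HasDerivAt (fun s : ℂ => N (s • (w, (0 : K2)))) (fderiv ℂ N 0 (w, 0)) 0 := by
      have e2 : HasDerivAt (fun s : ℂ => s • ((w, (0 : K2)) : K2 × K2)) ((1 : ℂ) • (w, (0 : K2))) 0 :=
        (hasDerivAt_id (0 : ℂ)).smul_const _
      rw [one_smul] at e2
      have e3 : HasFDerivAt N (fderiv ℂ N 0) ((0 : ℂ) • ((w, (0 : K2)) : K2 × K2)) := by
        rw [zero_smul]; exact hNa.differentiableAt.hasFDerivAt
      exact e3.comp_hasDerivAt (0 : ℂ) e2
    rw [hw] at e1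
    -- explicit form
    have e4 : ∀ᶠ s in 𝓝 (0 : ℂ), ∀ m, RR m (A (s • (w, (0 : K2)))) =
        s * tri T v (kk b w) m + s ^ 2 * (tri T (kk b w) (kk b w) m / 2) := by
      have e5 : Tendsto (fun s : ℂ => v + s • kk b w) (𝓝 0) (𝓝 v) := by
        have : Continuous (fun s : ℂ => v + s • kk b w) := by fun_prop
        exact this.tendsto' _ _ (by simp)
      filter_upwards [e5.eventually hRR0] with s hs m
      have e6 : A (s • (w, (0 : K2))) = ((v + s • kk b w, 0), 0) := by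
        simp only [A, Prod.smul_fst, Prod.smul_snd, kk_smul, smul_zero, Prod.fst_zero,
          Prod.snd_zero]
      rw [e6]
      have e7 := hs m
      rw [tri_add₁, hS.add₂, hS.add₂, hS.smul₂, hS.smul₂, tri_smul₁, tri_smul₁,
        show tri T v v m = 0 from hv m, hS.swap₁ (kk b w) v m] at e7
      linear_combination (1 / 2) * e7
    have e8 : ∀ m, HasDerivAt (fun s : ℂ => s * tri T v (kk b w) m +
        s ^ 2 * (tri T (kk b w) (kk b w) m / 2)) (tri T v (kk b w) m) 0 := by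
      intro m
      have e9 := ((hasDerivAt_id (0 : ℂ)).mul_const (tri T v (kk b w) m)).add
        (((hasDerivAt_id (0 : ℂ)).pow 2).mul_const (tri T (kk b w) (kk b w) m / 2))
      simp only [id, Nat.cast_ofNat, one_mul] at e9
      have e10 : tri T v (kk b w) m + 2 * 0 ^ (2 - 1) * 1 * (tri T (kk b w) (kk b w) m / 2) =
        tri T v (kk b w) m := by norm_num
      rw [e10] at e9
      exact e9
    have e11 : tri T v (kk b w) (b 0) = 0 := by
      have e12 := e1.fst
      have e13 : HasDerivAt (fun s : ℂ => RR (b 0) (A (s • (w, (0 : K2)))))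
          (tri T v (kk b w) (b 0)) 0 :=
        (e8 (b 0)).congr_of_eventuallyEq (e4.mono fun s hs => hs (b 0))
      exact e13.unique e12
    have e14 : tri T v (kk b w) (b 1) = 0 := by
      have e12 := e1.snd
      have e13 : HasDerivAt (fun s : ℂ => RR (b 1) (A (s • (w, (0 : K2)))))
          (tri T v (kk b w) (b 1)) 0 :=
        (e8 (b 1)).congr_of_eventuallyEq (e4.mono fun s hs => hs (b 1))
      exact e13.unique e12
    have e15 : tri T v (kk b w) v = 0 := by rw [hS.swap₂]; exact hv _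
    have e16 := kill b (A := fun x => tri T v (kk b w) x) (fun x y => hS.add₃ _ _ _ _)
      (fun c x => hS.smul₃ _ _ _ _) hc e11 e14 e15
    obtain ⟨c, hc1⟩ := hN v (kk b w) hv0 hv e16
    obtain ⟨k0, k1, k2⟩ := kk_coord b w
    have e17 : c = 0 := by
      have := congrArg (b.coord 2) hc1
      rw [k2, map_smul, smul_eq_mul] at this
      exact (mul_eq_zero.1 this.symm).resolve_right hc
    rw [e17, zero_smul] at hc1
    rw [hc1, map_zero] at k0 k1
    exact Prod.ext k0.symm k1.symm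
  obtain ⟨W, hW, hW0, hW1, hW2⟩ := ift hNa hN0 hinj
  -- the critical value
  let X : K2 → (E3 × ℂ) × ℂ := fun p => ((v + kk b (W p), p.1), p.2)
  have hX : AnalyticAt ℂ X 0 := by
    refine AnalyticAt.prod (AnalyticAt.prod ?_ analyticAt_fst) analyticAt_snd
    exact analyticAt_const.add ((an_kk b _).fun_comp hW)
  have hX0 : X 0 = ((v, 0), 0) := by
    simp only [X, hW0, hkk0, add_zero, Prod.fst_zero, Prod.snd_zero]
  have hXt : Tendsto X (𝓝 0) (𝓝 ((v, 0), 0)) := by
    have := hX.continuousAt.tendsto; rwa [hX0] at this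
  let H : K2 → ℂ := fun p => F (p.2 • (v + kk b (W p)), p.1)
  have hH : AnalyticAt ℂ H 0 :=
    AnalyticAt.fun_comp (g := fun q : (E3 × ℂ) × ℂ => F (q.2 • q.1.1, q.1.2)) (f := X)
      (by rw [hX0]; exact an_dir v h.an) hX
  have hH0 : ∀ᶠ t in 𝓝 (0 : ℂ), H (t, 0) = 0 := by
    filter_upwards [h.zero] with t ht
    simp only [H, zero_smul]; exact ht
  have hXd : Tendsto (fun p : K2 => ((p.2 • (v + kk b (W p)), p.1) : E3 × ℂ)) (𝓝 0)
      (𝓝 ((0 : E3), (0 : ℂ))) := by
    have e1 : AnalyticAt ℂ (fun p : K2 => ((p.2 • (v + kk b (W p)), p.1) : E3 × ℂ)) 0 := by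
      refine AnalyticAt.prod (analyticAt_snd.smul ?_) analyticAt_fst
      exact analyticAt_const.add ((an_kk b _).fun_comp hW)
    have e2 := e1.continuousAt.tendsto
    simpa using e2
  have hcoord : ∀ w : K2, b.coord 2 (v + kk b w) = b.coord 2 v := by
    intro w
    rw [map_add, (kk_coord b w).2.2, add_zero]
  have hH1 : ∀ᶠ p in 𝓝 (0 : K2), p.2 ≠ 0 → deriv (fun z => H (p.1, z)) p.2 ≠ 0 := by
    filter_upwards [hXt.eventually hRRe, hW2, hW.eventually_analyticAt,
      hXd.eventually h.an.eventually_analyticAt, hXd.eventually hiso] with p p1 p2 p3 p4 p5 p6 p7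
    obtain ⟨t, ζ⟩ := p
    simp only at p4 p5 p6 p7
    set x : E3 := ζ • (v + kk b (W (t, ζ))) with hx
    have c0 : fderiv ℂ (sl F t) x (b 0) = 0 := by
      have e1 := p1 (b 0)
      have e2 : RR (b 0) (X (t, ζ)) = 0 := congrArg Prod.fst p2
      rw [e2, mul_zero] at e1
      exact e1
    have c1 : fderiv ℂ (sl F t) x (b 1) = 0 := by
      have e1 := p1 (b 1)
      have e2 : RR (b 1) (X (t, ζ)) = 0 := congrArg Prod.snd p2
      rw [e2, mul_zero] at e1
      exact e1
    have hdW : ∃ w' : K2, HasDerivAt (fun z : ℂ => W (t, z)) w' ζ := by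
      have e1 : HasDerivAt (fun z : ℂ => (t, z)) ((0 : ℂ), (1 : ℂ)) ζ :=
        (hasDerivAt_const ζ t).prodMk (hasDerivAt_id ζ)
      exact ⟨_, (p3.differentiableAt.hasFDerivAt (x := (t, ζ))).comp_hasDerivAt ζ e1⟩
    obtain ⟨w', hw'⟩ := hdW
    have d1 : HasDerivAt (fun z : ℂ => kk b (W (t, z))) (kk b w') ζ := by
      have e1 : HasDerivAt (fun z : ℂ => (W (t, z)).1) w'.1 ζ := hw'.fst
      have e2 : HasDerivAt (fun z : ℂ => (W (t, z)).2) w'.2 ζ := hw'.snd
      exact (e1.smul_const (b 0)).add (e2.smul_const (b 1))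
    have d2 : HasDerivAt (fun z : ℂ => z • (v + kk b (W (t, z))))
        (ζ • kk b w' + (1 : ℂ) • (v + kk b (W (t, ζ)))) ζ :=
      (hasDerivAt_id ζ).smul (d1.const_add v)
    have d3 : HasFDerivAt (sl F t) (fderiv ℂ (sl F t) x) x := (an_sl p4).differentiableAt.hasFDerivAt
    have d3' : HasFDerivAt (sl F t) (fderiv ℂ (sl F t) x)
        ((fun z : ℂ => z • (v + kk b (W (t, z)))) ζ) := d3
    have d4 : HasDerivAt (fun z : ℂ => H (t, z))
        (fderiv ℂ (sl F t) x (ζ • kk b w' + (1 : ℂ) • (v + kk b (W (t, ζ))))) ζ :=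
      HasFDerivAt.comp_hasDerivAt (x := ζ) (l := sl F t) d3' d2
    rw [d4.deriv] at p7
    have c2 : fderiv ℂ (sl F t) x (kk b w') = 0 := by
      simp only [kk, map_add, map_smul, c0, c1, smul_zero, add_zero]
    rw [map_add, map_smul, c2, smul_zero, zero_add, one_smul] at p7
    have c3 := kill b (A := fun y => fderiv ℂ (sl F t) x y) (fun x y => map_add _ _ _)
      (fun c x => by rw [map_smul, smul_eq_mul]) (v := v + kk b (W (t, ζ)))
      (by rw [hcoord]; exact hc) c0 c1 p7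
    have c4 : x = 0 := p5 fun i => c3 _
    rw [hx] at c4
    have c5 := congrArg (b.coord 2) ((smul_eq_zero.1 c4).resolve_left p6)
    rw [hcoord, map_zero] at c5
    exact hc c5
  have hH2 := zz hH hH0 hH1
  -- change of coordinates
  let s : E3 → ℂ := fun u => b.coord 2 u / b.coord 2 v
  let ω : E3 → K2 := fun u => (b.coord 0 u / s u - b.coord 0 v, b.coord 1 u / s u - b.coord 1 v)
  have hcont : ∀ i, Continuous (b.coord i) := fun i => (b.coord i).continuous_of_finiteDimensional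
  have hs : Tendsto s (𝓝 v) (𝓝 1) := by
    have e1 : ContinuousAt s v := ((hcont 2).div_const _).continuousAt
    have e2 : s v = 1 := div_self hc
    have := e1.tendsto
    rwa [e2] at this
  have hω : Tendsto ω (𝓝 v) (𝓝 0) := by
    have e1 : ∀ i, Tendsto (fun u => b.coord i u / s u - b.coord i v) (𝓝 v) (𝓝 0) := by
      intro i
      have := (((hcont i).tendsto v).div hs one_ne_zero).sub_const (b.coord i v)
      simpa using this
    exact (e1 0).prodMk_nhds (e1 1)
  have hfst : Tendsto (fun q : (E3 × ℂ) × ℂ => q.1.1) (𝓝 ((v, (0 : ℂ)), (0 : ℂ))) (𝓝 v) := by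
    have : Continuous (fun q : (E3 × ℂ) × ℂ => q.1.1) := by fun_prop
    exact this.tendsto' _ _ rfl
  have hsnd : Tendsto (fun q : (E3 × ℂ) × ℂ => q.1.2) (𝓝 ((v, (0 : ℂ)), (0 : ℂ))) (𝓝 0) := by
    have : Continuous (fun q : (E3 × ℂ) × ℂ => q.1.2) := by fun_prop
    exact this.tendsto' _ _ rfl
  have hz : Tendsto (fun q : (E3 × ℂ) × ℂ => q.2) (𝓝 ((v, (0 : ℂ)), (0 : ℂ))) (𝓝 0) := by
    have : Continuous (fun q : (E3 × ℂ) × ℂ => q.2) := by fun_prop
    exact this.tendsto' _ _ rfl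
  have hζ : Tendsto (fun q : (E3 × ℂ) × ℂ => q.2 * s q.1.1) (𝓝 ((v, (0 : ℂ)), (0 : ℂ))) (𝓝 0) := by
    have := hz.mul (hs.comp hfst)
    simpa using this
  have hp : Tendsto (fun q : (E3 × ℂ) × ℂ => (q.1.2, q.2 * s q.1.1))
      (𝓝 ((v, (0 : ℂ)), (0 : ℂ))) (𝓝 (0 : K2)) := hsnd.prodMk_nhds hζ
  have hq' : Tendsto (fun q : (E3 × ℂ) × ℂ => (ω q.1.1, (q.1.2, q.2 * s q.1.1)))
      (𝓝 ((v, (0 : ℂ)), (0 : ℂ))) (𝓝 (0 : K2 × K2)) := (hω.comp hfst).prodMk_nhds hp
  have hAq : Tendsto (fun q : (E3 × ℂ) × ℂ => A (ω q.1.1, (q.1.2, q.2 * s q.1.1)))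
      (𝓝 ((v, (0 : ℂ)), (0 : ℂ))) (𝓝 ((v, 0), 0)) := by
    have e1 := hA.continuousAt.tendsto
    rw [hA0] at e1
    exact e1.comp hq'
  have hs' := (hs.comp hfst).eventually_ne (one_ne_zero)
  filter_upwards [hAq.eventually hRRe, hq'.eventually hW1, hp.eventually hH2, hs'] with
    q q1 q2 q3 q4 q5 q6 q7 q8
  obtain ⟨⟨u, t⟩, z⟩ := q
  simp only [Function.comp_apply] at q1 q2 q3 q4 q5 q6 q7 q8
  have hu : u = s u • (v + kk b (ω u)) := by
    apply b.ext_elem
    intro i
    have k0 := kk_coord b (ω u)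
    have hh : ∀ i, b.repr u i = b.coord i u := fun i => rfl
    have hh' : ∀ i, b.repr (s u • (v + kk b (ω u))) i = s u * (b.coord i v + b.coord i (kk b (ω u))) := by
      intro i
      change b.coord i _ = _
      rw [map_smul, map_add, smul_eq_mul]
    rw [hh, hh']
    fin_cases i
    · change b.coord 0 u = s u * (b.coord 0 v + b.coord 0 (kk b (ω u)))
      rw [k0.1]
      simp only [ω]
      field_simp
      ring
    · change b.coord 1 u = s u * (b.coord 1 v + b.coord 1 (kk b (ω u)))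
      rw [k0.2.1]
      simp only [ω]
      field_simp
      ring
    · change b.coord 2 u = s u * (b.coord 2 v + b.coord 2 (kk b (ω u)))
      rw [k0.2.2, add_zero]
      simp only [s]
      field_simp
  have hzu : z • u = (z * s u) • (v + kk b (ω u)) := by
    conv_lhs => rw [hu]
    rw [smul_smul]
  have hζ0 : z * s u ≠ 0 := mul_ne_zero q5 q4
  rw [hzu] at q6 q7 q8
  have n0 : RR (b 0) (A (ω u, (t, z * s u))) = 0 := by
    have e1 := q1 (b 0)
    simp only [A] at e1 ⊢
    rw [q7] at e1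
    exact (mul_eq_zero.1 e1.symm).resolve_left (pow_ne_zero _ hζ0)
  have n1 : RR (b 1) (A (ω u, (t, z * s u))) = 0 := by
    have e1 := q1 (b 1)
    simp only [A] at e1 ⊢
    rw [q8] at e1
    exact (mul_eq_zero.1 e1.symm).resolve_left (pow_ne_zero _ hζ0)
  have hww : ω u = W (t, z * s u) := q2 (by
    change (RR (b 0) _, RR (b 1) _) = (0 : K2)
    rw [n0, n1]; rfl)
  apply q3 hζ0
  change F ((z * s u) • (v + kk b (W (t, z * s u))), t) = 0
  rw [← hww]
  exact q6

end Node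

/-! ### the flag -/

theorem flag3 {F : E3 × ℂ → ℂ} {μ : ℕ} (hF : Fam F μ)
    (hh : ∀ᶠ t in 𝓝 (0 : ℂ), ∀ i j, H2 (sl F t) i j = 0) (hN : Nodal (sl F 0)) : Concl F := by
  have h : Hyp3 F := ⟨hF.an, hF.zero, hF.crit, hh⟩
  have hS : Sy (H3 (sl F 0)) := sy_H3 (an_sl h.an)
  have hNod : Nod (H3 (sl F 0)) := nod_of hN
  obtain ⟨b, hb0, hb⟩ := exists_basis hS hNod
  -- (h2)
  have H2' : ∀ᶠ p in 𝓝 ((0 : E3), (0 : ℂ)), p.1 ≠ 0 → (F p = 0 →
      fderiv ℂ (sl F p.2) p.1 (b 0) = 0 → fderiv ℂ (sl F p.2) p.1 (b 1) = 0 → False) := by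
    refine cone (P := fun p => F p = 0 → fderiv ℂ (sl F p.2) p.1 (b 0) = 0 →
      fderiv ℂ (sl F p.2) p.1 (b 1) = 0 → False) fun v hv => ?_
    by_cases c1 : D3 (sl F 0) v v v = 0
    swap
    · filter_upwards [ne_F h c1] with q h1 h2 h3 _ _
      exact h1 h2 h3
    by_cases c2 : D3 (sl F 0) v v (b 0) = 0
    swap
    · filter_upwards [ne_D h (b 0) c2] with q h1 h2 _ h3 _
      exact h1 h2 h3
    by_cases c3 : D3 (sl F 0) v v (b 1) = 0
    swap
    · filter_upwards [ne_D h (b 1) c3] with q h1 h2 _ _ h3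
      exact h1 h2 h3
    have c4 : b.coord 2 v ≠ 0 := fun h0 => hb v hv h0 c1 c2
    have c5 := kill b (A := fun x => tri (H3 (sl F 0)) v v x) (fun x y => hS.add₃ _ _ _ _)
      (fun c x => hS.smul₃ _ _ _ _) c4 c2 c3 c1
    exact node b h hNod hF.iso hv c5 c4
  -- (h3)
  have H3' : ∀ᶠ p in 𝓝 ((0 : E3), (0 : ℂ)), p.1 ≠ 0 → (F p = 0 → b.coord 2 p.1 = 0 →
      b.coord 1 p.1 ≠ 0 ∧ fderiv ℂ (sl F p.2) p.1 (b 0) ≠ 0) := by
    refine cone (P := fun p => F p = 0 → b.coord 2 p.1 = 0 →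
      b.coord 1 p.1 ≠ 0 ∧ fderiv ℂ (sl F p.2) p.1 (b 0) ≠ 0) fun v hv => ?_
    have hfst : Tendsto (fun q : (E3 × ℂ) × ℂ => q.1.1) (𝓝 ((v, (0 : ℂ)), (0 : ℂ))) (𝓝 v) := by
      have : Continuous (fun q : (E3 × ℂ) × ℂ => q.1.1) := by fun_prop
      exact this.tendsto' _ _ rfl
    have hcont : ∀ i, Continuous (b.coord i) := fun i => (b.coord i).continuous_of_finiteDimensional
    have hne : ∀ i, b.coord i v ≠ 0 → ∀ᶠ q in 𝓝 ((v, (0 : ℂ)), (0 : ℂ)), q.2 ≠ 0 →
        b.coord i (q.2 • q.1.1) ≠ 0 := by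
      intro i hi
      have e1 := (((hcont i).tendsto v).comp hfst).eventually_ne hi
      filter_upwards [e1] with q h1 h2
      rw [map_smul, smul_eq_mul]
      exact mul_ne_zero h2 h1
    by_cases c0 : b.coord 2 v = 0
    swap
    · filter_upwards [hne 2 c0] with q h1 h2 _ h3
      exact absurd h3 (h1 h2)
    by_cases c1 : D3 (sl F 0) v v v = 0
    swap
    · filter_upwards [ne_F h c1] with q h1 h2 h3 _
      exact absurd h3 (h1 h2)
    have c2 := hb v hv c0 c1
    have c3 : b.coord 1 v ≠ 0 := by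
      intro h0
      have e1 : v = b.coord 0 v • b 0 := by
        conv_lhs => rw [← b.sum_repr v]
        rw [Fin.sum_univ_three]
        rw [Module.Basis.coord_apply] at h0 c0
        rw [h0, c0, zero_smul, zero_smul, add_zero, add_zero, Module.Basis.coord_apply]
      have e2 : b.coord 0 v ≠ 0 := by
        intro h0; rw [h0, zero_smul] at e1; exact hv e1
      rw [D3_eq, e1, tri_smul₁, hS.smul₂, hS.smul₃] at c1
      exact mul_ne_zero e2 (mul_ne_zero e2 (mul_ne_zero e2 hb0)) c1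
    filter_upwards [hne 1 c3, ne_D h (b 0) c2] with q h1 h2 h3 _ _
    exact ⟨h1 h3, h2 h3⟩
  -- the linear forms
  let L : Fin 3 → (E3 →L[ℂ] ℂ) := fun i => LinearMap.toContinuousLinearMap (b.coord i)
  have hL : ∀ i x, L i x = b.coord i x := fun i x => rfl
  have hfd : ∀ i (x : E3), fderiv ℂ (fun x : E3 => L i x) x = L i := fun i x => (L i).fderiv
  have hLb : ∀ i j, L i (b j) = if j = i then 1 else 0 := by
    intro i j
    rw [hL, Module.Basis.coord_apply, Module.Basis.repr_self]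
    simp [Finsupp.single_apply]
  refine Flow_941.flow_three (E := E3) (F := F) (g := fun p => L 2 p.1) (h := fun p => L 1 p.1)
    hF.an ?_ ?_ ?_ ?_ ?_ ?_
  · exact ((L 2).analyticAt _).fun_comp analyticAt_fst
  · exact ((L 1).analyticAt _).fun_comp analyticAt_fst
  · filter_upwards [hF.zero] with t ht
    exact ⟨ht, map_zero _, map_zero _⟩
  · filter_upwards [hF.iso] with p hp h0 h1
    refine h0 (hp fun i => ?_)
    change fderiv ℂ (fun x => F (x, p.2)) p.1 (Pi.single i 1) = 0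
    rw [h1]; rfl
  · filter_upwards [H2'] with p hp h0 h1
    rw [hfd, LinearIndependent.pair_iff]
    intro α β hαβ
    have e : ∀ x, α * fderiv ℂ (sl F p.2) p.1 x + β * L 2 x = 0 := by
      intro x
      have e0 := congrArg (fun A : E3 →L[ℂ] ℂ => A x) hαβ
      exact e0
    have hα : α = 0 := by
      by_contra hα
      have e0 := e (b 0)
      have e1 := e (b 1)
      rw [hLb] at e0 e1
      simp only [Fin.reduceEq, if_false, mul_zero, add_zero] at e0 e1
      exact hp h0 h1 ((mul_eq_zero.1 e0).resolve_left hα) ((mul_eq_zero.1 e1).resolve_left hα)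
    refine ⟨hα, ?_⟩
    have e2 := e (b 2)
    rw [hLb, hα] at e2
    simpa using e2
  · filter_upwards [H3'] with p hp h0 h1 h2
    obtain ⟨h3, h4⟩ := hp h0 h1 h2
    refine ⟨h3, ?_⟩
    rw [hfd, hfd, Fintype.linearIndependent_iff]
    intro g hg
    have e : ∀ x, g 0 * fderiv ℂ (sl F p.2) p.1 x + g 1 * L 2 x + g 2 * L 1 x = 0 := by
      intro x
      rw [Fin.sum_univ_three] at hg
      have e0 := congrArg (fun A : E3 →L[ℂ] ℂ => A x) hg
      exact e0
    have g0 : g 0 = 0 := by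
      have e0 := e (b 0)
      rw [hLb, hLb] at e0
      simp only [Fin.reduceEq, if_false, mul_zero, add_zero] at e0
      exact (mul_eq_zero.1 e0).resolve_right h4
    have g1 : g 1 = 0 := by
      have e0 := e (b 2)
      rw [hLb, hLb, g0] at e0
      simpa using e0
    have g2 : g 2 = 0 := by
      have e0 := e (b 1)
      rw [hLb, hLb, g0] at e0
      simpa using e0
    intro i
    fin_cases i
    · exact g0
    · exact g1
    · exact g2

/-- **`Flag3Stmt` of `LCDefs_472`** -/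
theorem flag3Stmt : Flag3Stmt := fun _ _ hF hh hN => flag3 hF hh hN

end Crest.Agent.R257.Flag3_799
end
end

-- ▼ part R257/Line2_648
section

/-!
R257 / Line2_648: persistence of a nondegenerate critical point `p ≠ 0` of the lowest part
`½ T(0)(x,x) + c₀(x)` of `F(t^a x, t) / t^{3a}`: contradiction with (H1).
-/

set_option autoImplicit false

open Topology Filter Set
open Crest.AlgGeometry.Germ

noncomputable section

namespace Crest.Agent.R257.Line_648

open Crest.Agent.R257.Defs_219 Crest.Agent.R257.LCDefs_472 Crest.Agent.R257.Skel_219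

variable {n : ℕ}

/-- zeros of a family near a nondegenerate zero -/
theorem zeros_near {N : (Fin n → ℂ) × ℂ → (Fin n → ℂ)} {p : Fin n → ℂ}
    (hN : AnalyticAt ℂ N (p, 0)) (h0 : N (p, 0) = 0)
    (hinj : ∀ u : Fin n → ℂ, fderiv ℂ N (p, 0) (u, 0) = 0 → u = 0)
    {P : (Fin n → ℂ) × ℂ → Prop} (hP : ∀ᶠ q in 𝓝 (p, (0 : ℂ)), P q) :
    ∀ᶠ t in 𝓝 (0 : ℂ), ∃ x, P (x, t) ∧ N (x, t) = 0 := by
  set D := fderiv ℂ N (p, 0) with hD
  have h1 : HasStrictFDerivAt (fun q : (Fin n → ℂ) × ℂ => (N q, q.2))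
      (D.prod (ContinuousLinearMap.snd ℂ (Fin n → ℂ) ℂ)) (p, 0) :=
    hN.hasStrictFDerivAt.prodMk hasStrictFDerivAt_snd
  have hsurj : Function.Surjective
      ((D : ((Fin n → ℂ) × ℂ) →ₗ[ℂ] (Fin n → ℂ)) ∘ₗ LinearMap.inl ℂ (Fin n → ℂ) ℂ) := by
    rw [← LinearMap.injective_iff_surjective]
    rw [injective_iff_map_eq_zero]
    intro u hu
    exact hinj u hu
  have h2 : (D.prod (ContinuousLinearMap.snd ℂ (Fin n → ℂ) ℂ)).range = ⊤ := by
    rw [eq_top_iff]
    rintro ⟨y, s⟩ -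
    obtain ⟨u, hu⟩ := hsurj (y - D (0, s))
    refine ⟨(u, s), ?_⟩
    have h3 : D (u, s) = D (u, 0) + D (0, s) := by
      rw [← map_add]; simp
    have h4 : D (u, 0) = y - D (0, s) := hu
    change (D (u, s), s) = (y, s)
    rw [h3, h4]
    simp
  have h3 := h1.map_nhds_eq_of_surj h2
  simp only [h0] at h3
  have h4 : ∀ᶠ z in 𝓝 ((0 : Fin n → ℂ), (0 : ℂ)), ∃ q : (Fin n → ℂ) × ℂ, P q ∧ (N q, q.2) = z := by
    rw [← h3, eventually_map]
    filter_upwards [hP] with q hq
    exact ⟨q, hq, rfl⟩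
  have h5 : Tendsto (fun t : ℂ => ((0 : Fin n → ℂ), t)) (𝓝 0) (𝓝 (0, 0)) :=
    (Continuous.prodMk_right (0 : Fin n → ℂ)).tendsto 0
  filter_upwards [h5.eventually h4] with t ht
  obtain ⟨⟨x, s⟩, hq, he⟩ := ht
  simp only [Prod.mk.injEq] at he
  obtain ⟨he1, rfl⟩ := he
  exact ⟨x, hq, he1⟩

theorem crit_scale {F : (Fin n → ℂ) × ℂ → ℂ} {μ : ℕ} (hF : Fam F μ)
    {a : ℕ} (ha : 1 ≤ a) {T : Fin n → Fin n → ℂ → ℂ} (hT : ∀ i j, AnalyticAt ℂ (T i j) 0)
    (hTa : ∀ᶠ t in 𝓝 (0 : ℂ), ∀ i j, H2 (sl F t) i j = t ^ a * T i j t)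
    {p : Fin n → ℂ} (hp : p ≠ 0)
    (hp1 : ∀ i, ∑ j, T i j 0 * p j + (1 / 2) * ∑ j, ∑ k, H3 (sl F 0) i j k * p j * p k = 0)
    (hp2 : ∀ u : Fin n → ℂ, (∀ i, ∑ j, T i j 0 * u j +
      ∑ j, ∑ k, H3 (sl F 0) i j k * p j * u k = 0) → u = 0) : False := by
  -- the gradient
  set g : Fin n → (Fin n → ℂ) × ℂ → ℂ := fun i q => coordDeriv (sl F q.2) i q.1 with hg
  have hgan : ∀ i, AnalyticAt ℂ (g i) (0, 0) := fun i => analyticAt_pd hF.an i
  have hg0 : ∀ i, ∀ᶠ t in 𝓝 (0 : ℂ), g i (0, t) = 0 := by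
    intro i
    filter_upwards [hF.crit] with t ht
    exact ht i
  choose R hR hexp hsym using fun i => expand (hgan i) (hg0 i)
  have hsym' : ∀ i j k, R i j k (0, 0) + R i k j (0, 0) = H3 (sl F 0) i j k := hsym
  -- the rescaled gradient
  set N : (Fin n → ℂ) × ℂ → (Fin n → ℂ) := fun q i =>
    ∑ j, T i j q.2 * q.1 j + ∑ j, ∑ k, q.1 j * q.1 k * R i j k (q.2 ^ a • q.1, q.2) with hN
  have hsc : AnalyticAt ℂ (fun q : (Fin n → ℂ) × ℂ => ((q.2 ^ a • q.1, q.2) : (Fin n → ℂ) × ℂ))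
      (p, 0) := ((analyticAt_snd.pow a).smul analyticAt_fst).prod analyticAt_snd
  have hsc0 : ((0 : ℂ) ^ a • p, (0 : ℂ)) = ((0 : Fin n → ℂ), (0 : ℂ)) := by
    simp [zero_pow (by omega : a ≠ 0)]
  have hcoord : ∀ j, AnalyticAt ℂ (fun q : (Fin n → ℂ) × ℂ => q.1 j) (p, 0) := by
    intro j
    exact ((ContinuousLinearMap.proj (R := ℂ) (φ := fun _ : Fin n => ℂ) j).comp
      (ContinuousLinearMap.fst ℂ (Fin n → ℂ) ℂ)).analyticAt _
  have hNan : AnalyticAt ℂ N (p, 0) := by
    refine AnalyticAt.pi fun i => ?_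
    refine (Finset.analyticAt_fun_sum _ fun j _ => ?_).add
      (Finset.analyticAt_fun_sum _ fun j _ => Finset.analyticAt_fun_sum _ fun k _ => ?_)
    · refine AnalyticAt.mul ?_ (hcoord j)
      exact AnalyticAt.comp (g := T i j) (f := Prod.snd) (hT i j) analyticAt_snd
    · refine ((hcoord j).mul (hcoord k)).mul ?_
      refine AnalyticAt.comp (g := R i j k) ?_ hsc
      change AnalyticAt ℂ (R i j k) ((0 : ℂ) ^ a • p, (0 : ℂ))
      rw [hsc0]
      exact hR i j k
  have hNx0 : ∀ x : Fin n → ℂ, N (x, 0) = fun i => ∑ j, T i j 0 * x j +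
      ∑ j, ∑ k, x j * x k * R i j k (0, 0) := by
    intro x
    funext i
    simp only [hN]
    rw [zero_pow (by omega : a ≠ 0), zero_smul]
  have hquad : ∀ i (x y : Fin n → ℂ), ∑ j, ∑ k, (y j * x k + x j * y k) * R i j k (0, 0) =
      ∑ j, ∑ k, H3 (sl F 0) i j k * x j * y k := by
    intro i x y
    simp only [← hsym', add_mul, Finset.sum_add_distrib]
    rw [add_comm]
    congr 1
    · exact Finset.sum_congr rfl fun j _ => Finset.sum_congr rfl fun k _ => by ring
    · rw [Finset.sum_comm]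
      exact Finset.sum_congr rfl fun j _ => Finset.sum_congr rfl fun k _ => by ring
  have hN0 : N (p, 0) = 0 := by
    rw [hNx0]
    funext i
    have h1 := hp1 i
    rw [← hquad i p p] at h1
    have h2 : ∑ j, ∑ k, (p j * p k + p j * p k) * R i j k (0, 0) =
        2 * ∑ j, ∑ k, p j * p k * R i j k (0, 0) := by
      simp only [Finset.mul_sum]
      exact Finset.sum_congr rfl fun j _ => Finset.sum_congr rfl fun k _ => by ring
    rw [h2] at h1
    simp only [Pi.zero_apply]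
    linear_combination h1
  have hinj : ∀ u : Fin n → ℂ, fderiv ℂ N (p, 0) (u, 0) = 0 → u = 0 := by
    intro u hu
    apply hp2 u
    intro i
    rw [← hquad i p u]
    -- line derivative
    have h1 : HasDerivAt (fun s : ℂ => N (p + s • u, 0)) (fderiv ℂ N (p, 0) (u, 0)) 0 := by
      have h2 : HasDerivAt (fun s : ℂ => ((p + s • u, 0) : (Fin n → ℂ) × ℂ)) (u, 0) 0 := by
        refine HasDerivAt.prodMk ?_ (hasDerivAt_const _ _)
        simpa using ((hasDerivAt_id (0 : ℂ)).smul_const u).const_add p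
      have h3 : HasFDerivAt N (fderiv ℂ N (p, 0)) ((fun s : ℂ => ((p + s • u, 0) :
          (Fin n → ℂ) × ℂ)) 0) := by
        simpa using hNan.differentiableAt.hasFDerivAt
      exact h3.comp_hasDerivAt (f := fun s : ℂ => ((p + s • u, 0) : (Fin n → ℂ) × ℂ)) (0 : ℂ) h2
    rw [hu] at h1
    have h2 := (hasDerivAt_pi.1 h1) i
    have h3 : HasDerivAt (fun s : ℂ => ∑ j, T i j 0 * (p j + s * u j) +
        ∑ j, ∑ k, (p j + s * u j) * (p k + s * u k) * R i j k (0, 0))
        (∑ j, T i j 0 * u j + ∑ j, ∑ k, (u j * p k + p j * u k) * R i j k (0, 0)) 0 := by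
      have hl : ∀ j, HasDerivAt (fun s : ℂ => p j + s * u j) (u j) 0 := by
        intro j
        simpa using ((hasDerivAt_id (0 : ℂ)).mul_const (u j)).const_add (p j)
      refine HasDerivAt.add (HasDerivAt.fun_sum fun j _ => (hl j).const_mul _)
        (HasDerivAt.fun_sum fun j _ => HasDerivAt.fun_sum fun k _ => ?_)
      have := ((hl j).mul (hl k)).mul_const (R i j k (0, 0))
      simpa using this
    have h4 : (fun s : ℂ => N (p + s • u, 0) i) = fun s : ℂ => ∑ j, T i j 0 * (p j + s * u j) +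
        ∑ j, ∑ k, (p j + s * u j) * (p k + s * u k) * R i j k (0, 0) := by
      funext s
      rw [hNx0]
      simp
    rw [h4] at h2
    exact h3.unique h2
  -- zeros of `N` give critical points off the axis
  have hcont : Tendsto (fun q : (Fin n → ℂ) × ℂ => ((q.2 ^ a • q.1, q.2) : (Fin n → ℂ) × ℂ))
      (𝓝 (p, 0)) (𝓝 (0, 0)) := by
    have := hsc.continuousAt.tendsto
    change Tendsto _ _ (𝓝 ((0 : ℂ) ^ a • p, (0 : ℂ))) at this
    rwa [hsc0] at this
  have hP : ∀ᶠ q in 𝓝 (p, (0 : ℂ)), q.1 ≠ 0 ∧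
      ((∀ i, g i (q.2 ^ a • q.1, q.2) = 0) → q.2 ^ a • q.1 = 0) ∧
      (∀ i, g i (q.2 ^ a • q.1, q.2) = ∑ j, (q.2 ^ a • q.1) j * H2 (sl F q.2) i j +
        ∑ j, ∑ k, (q.2 ^ a • q.1) j * (q.2 ^ a • q.1) k * R i j k (q.2 ^ a • q.1, q.2)) ∧
      ∀ i j, H2 (sl F q.2) i j = q.2 ^ a * T i j q.2 := by
    have e1 : ∀ᶠ q in 𝓝 (p, (0 : ℂ)), q.1 ≠ 0 := by
      have : Tendsto (fun q : (Fin n → ℂ) × ℂ => q.1) (𝓝 (p, (0 : ℂ))) (𝓝 p) :=
        continuous_fst.tendsto _
      exact this.eventually_ne hp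
    have e2 := hcont.eventually hF.iso
    have e3 := hcont.eventually (eventually_all.2 hexp)
    have e4 : ∀ᶠ q in 𝓝 (p, (0 : ℂ)), ∀ i j, H2 (sl F q.2) i j = q.2 ^ a * T i j q.2 := by
      have : Tendsto (fun q : (Fin n → ℂ) × ℂ => q.2) (𝓝 (p, (0 : ℂ))) (𝓝 0) :=
        continuous_snd.tendsto _
      exact this.eventually hTa
    filter_upwards [e1, e2, e3, e4] with q h1 h2 h3 h4
    exact ⟨h1, h2, h3, h4⟩
  have hz := zeros_near hNan hN0 hinj hP
  obtain ⟨t, ⟨x, ⟨hx0, hiso, hgx, hH⟩, hNz⟩, ht⟩ :=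
    ((hz.filter_mono nhdsWithin_le_nhds).and self_mem_nhdsWithin).exists (f := 𝓝[≠] (0 : ℂ))
  have ht0 : t ≠ 0 := ht
  have hcrit : ∀ i, g i (t ^ a • x, t) = 0 := by
    intro i
    rw [hgx i]
    have e1 : ∑ j, T i j t * x j + ∑ j, ∑ k, x j * x k * R i j k (t ^ a • x, t) = 0 :=
      congrFun hNz i
    have e2 : ∑ j, (t ^ a • x) j * H2 (sl F t) i j +
        ∑ j, ∑ k, (t ^ a • x) j * (t ^ a • x) k * R i j k (t ^ a • x, t) =
        t ^ a * t ^ a * (∑ j, T i j t * x j +
          ∑ j, ∑ k, x j * x k * R i j k (t ^ a • x, t)) := by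
      rw [mul_add, Finset.mul_sum, Finset.mul_sum]
      congr 1
      · refine Finset.sum_congr rfl fun j _ => ?_
        have := hH i j
        simp only at this
        rw [this, Pi.smul_apply, smul_eq_mul]
        ring
      · refine Finset.sum_congr rfl fun j _ => ?_
        rw [Finset.mul_sum]
        refine Finset.sum_congr rfl fun k _ => ?_
        rw [Pi.smul_apply, Pi.smul_apply, smul_eq_mul, smul_eq_mul]
        ring
    rw [e2, e1, mul_zero]
  have h0 := hiso hcrit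
  rcases smul_eq_zero.1 h0 with h | h
  · exact ht0 (pow_eq_zero_iff (by omega : a ≠ 0) |>.1 h)
  · exact hx0 h

end Crest.Agent.R257.Line_648
end
end

-- ▼ part R257/Line3_648

/-!
R257 / Line3_648: `LineStmt` of `LCDefs_472`: the nodal cubic with all nodes on the line `l = 0`.
-/

set_option autoImplicit false

open Topology Filter Set
open Crest.AlgGeometry.Germ

noncomputable section

namespace Crest.Agent.R257.Line_648

open Crest.Agent.R257.Defs_219 Crest.Agent.R257.LCDefs_472 Crest.Agent.R257.Skel_219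

/-- symmetric trilinear forms (as functions) -/
structure Tri (T : E3 → E3 → E3 → ℂ) : Prop where
  add : ∀ u u' v w, T (u + u') v w = T u v w + T u' v w
  smul : ∀ (c : ℂ) u v w, T (c • u) v w = c * T u v w
  s12 : ∀ u v w, T u v w = T v u w
  s23 : ∀ u v w, T u v w = T u w v

namespace Tri

variable {T : E3 → E3 → E3 → ℂ} (h : Tri T)
include h

lemma add2 (u v v' w : E3) : T u (v + v') w = T u v w + T u v' w := by
  rw [h.s12, h.add, h.s12 v, h.s12 v']

lemma smul2 (c : ℂ) (u v w : E3) : T u (c • v) w = c * T u v w := by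
  rw [h.s12, h.smul, h.s12 v]

lemma add3 (u v w w' : E3) : T u v (w + w') = T u v w + T u v w' := by
  rw [h.s23, h.add2, h.s23 u w, h.s23 u w']

lemma smul3 (c : ℂ) (u v w : E3) : T u v (c • w) = c * T u v w := by
  rw [h.s23, h.smul2, h.s23 u w]

end Tri

/-- a nonzero linear form on `ℂ³` and a nonzero vector of its kernel: adapted basis -/
lemma exists_am (L : E3 →ₗ[ℂ] ℂ) (hL : L ≠ 0) (e : E3) :
    (∃ a, L a = 1) ∧ ∃ m, L m = 0 ∧ ∀ c : ℂ, m ≠ c • e := by
  constructor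
  · obtain ⟨x, hx⟩ : ∃ x, L x ≠ 0 := by
      by_contra hc
      push Not at hc
      exact hL (LinearMap.ext hc)
    exact ⟨(L x)⁻¹ • x, by rw [map_smul, smul_eq_mul, inv_mul_cancel₀ hx]⟩
  · by_contra hc
    push Not at hc
    have h1 : LinearMap.ker L ≤ Submodule.span ℂ {e} := by
      intro m hm
      obtain ⟨c, rfl⟩ := hc m hm
      exact Submodule.smul_mem _ _ (Submodule.mem_span_singleton_self e)
    have h2 := Submodule.finrank_mono h1
    have h3 := LinearMap.finrank_range_add_finrank_ker L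
    have h4 : Module.finrank ℂ (LinearMap.range L) ≤ 1 := by
      have := Submodule.finrank_le (LinearMap.range L)
      simpa using this
    have h5 : Module.finrank ℂ (Submodule.span ℂ {e}) ≤ 1 := by
      have := finrank_span_le_card (R := ℂ) ({e} : Set E3)
      simpa using this
    have h6 : Module.finrank ℂ E3 = 3 := by simp [E3]
    omega

lemma span3 (L : E3 →ₗ[ℂ] ℂ) {e f m : E3} (he : e ≠ 0) (hLe : L e = 0) (hLf : L f = 1)
    (hLm : L m = 0) (hm : ∀ c : ℂ, m ≠ c • e) (x : E3) :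
    ∃ α β γ : ℂ, x = α • e + β • f + γ • m := by
  have hli : LinearIndependent ℂ ![e, f, m] := by
    rw [Fintype.linearIndependent_iff]
    intro g hg
    rw [Fin.sum_univ_three] at hg
    simp only [Matrix.cons_val_zero, Matrix.cons_val_one, Matrix.cons_val] at hg
    have h1 : g 1 = 0 := by
      have := congrArg L hg
      simpa [hLe, hLf, hLm] using this
    rw [h1, zero_smul, add_zero] at hg
    have h2 : g 2 = 0 := by
      by_contra hc
      apply hm (-(g 2)⁻¹ * g 0)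
      have h3 : g 2 • m = -(g 0 • e) := by
        rw [eq_neg_iff_add_eq_zero, add_comm]; exact hg
      rw [neg_mul, neg_smul, mul_smul, ← smul_neg, ← h3, smul_smul, inv_mul_cancel₀ hc, one_smul]
    rw [h2, zero_smul, add_zero] at hg
    have h0 : g 0 = 0 := (smul_eq_zero.1 hg).resolve_right he
    intro i
    fin_cases i
    · exact h0
    · exact h1
    · exact h2
  have hcard : Fintype.card (Fin 3) = Module.finrank ℂ E3 := by simp [E3]
  set b := basisOfLinearIndependentOfCardEqFinrank hli hcard with hb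
  refine ⟨b.repr x 0, b.repr x 1, b.repr x 2, ?_⟩
  have h := b.sum_repr x
  rw [Fin.sum_univ_three] at h
  have hbc : ⇑b = ![e, f, m] := coe_basisOfLinearIndependentOfCardEqFinrank hli hcard
  rw [hbc] at h
  simpa using h.symm

/-- the explicit nondegenerate critical point of `½ L² + T/6` -/
theorem alg {T : E3 → E3 → E3 → ℂ} (h : Tri T) (L : E3 →ₗ[ℂ] ℂ) (hL : L ≠ 0)
    (nodal : ∀ v u : E3, v ≠ 0 → (∀ w, T v v w = 0) → (∀ w, T v u w = 0) → ∃ c : ℂ, u = c • v)
    (hl : ∀ v : E3, v ≠ 0 → (∀ w, T v v w = 0) → L v = 0)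
    {e : E3} (he : e ≠ 0) (hee : ∀ w, T e e w = 0) :
    ∃ p : E3, p ≠ 0 ∧ (∀ w, L p * L w + (1 / 2) * T p p w = 0) ∧
      ∀ u, (∀ w, L u * L w + T p u w = 0) → u = 0 := by
  have hLe : L e = 0 := hl e he hee
  obtain ⟨⟨a, ha⟩, m₀, hm₀, hm₀e⟩ := exists_am L hL e
  -- an isotropic vector `f` with `L f = 1`
  obtain ⟨s, hs⟩ : ∃ s : ℂ, T e (a + s • m₀) (a + s • m₀) = 0 := by
    have hexp : ∀ s : ℂ, T e (a + s • m₀) (a + s • m₀) =
        T e m₀ m₀ * (s * s) + (2 * T e a m₀) * s + T e a a := by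
      intro s
      rw [h.add2, h.add3, h.add3, h.smul2, h.smul2, h.smul3, h.smul3, h.s23 e m₀ a]
      ring
    by_cases hmm : T e m₀ m₀ = 0
    · have ham : T e a m₀ ≠ 0 := by
        intro h0
        obtain ⟨c, hc⟩ := nodal e m₀ he hee (fun w => by
          obtain ⟨α, β, γ, rfl⟩ := span3 L he hLe ha hm₀ hm₀e w
          rw [h.add3, h.add3, h.smul3, h.smul3, h.smul3, hmm, h.s23 e m₀ e, hee,
            h.s23 e m₀ a, h0]
          ring)
        exact hm₀e c hc
      refine ⟨-(T e a a) / (2 * T e a m₀), ?_⟩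
      rw [hexp, hmm]
      field_simp
      ring
    · obtain ⟨s, hs⟩ := exists_quadratic_eq_zero (a := T e m₀ m₀) (b := 2 * T e a m₀)
        (c := T e a a) hmm (IsAlgClosed.exists_eq_mul_self _)
      exact ⟨s, by rw [hexp]; exact hs⟩
  obtain ⟨f₁, hf₁⟩ : ∃ f₁, f₁ = a + s • m₀ := ⟨_, rfl⟩
  rw [← hf₁] at hs
  have hLf₁ : L f₁ = 1 := by rw [hf₁, map_add, map_smul, hm₀, ha]; simp
  have hem₀ : T e f₁ m₀ ≠ 0 := by
    intro h0
    obtain ⟨c, hc⟩ := nodal e f₁ he hee (fun w => by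
      obtain ⟨α, β, γ, rfl⟩ := span3 L he hLe hLf₁ hm₀ hm₀e w
      rw [h.add3, h.add3, h.smul3, h.smul3, h.smul3, hs, h0, h.s23 e f₁ e, hee]
      ring)
    rw [hc, map_smul, hLe, smul_zero] at hLf₁
    exact zero_ne_one hLf₁
  obtain ⟨m, hm⟩ : ∃ m, m = (T e f₁ m₀)⁻¹ • m₀ := ⟨_, rfl⟩
  have hefm₁ : T e f₁ m = 1 := by rw [hm, h.smul3, inv_mul_cancel₀ hem₀]
  have hLm : L m = 0 := by rw [hm, map_smul, hm₀, smul_zero]
  obtain ⟨f, hf⟩ : ∃ f, f = f₁ + (-(T f₁ f₁ m) / 2) • e := ⟨_, rfl⟩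
  have hLf : L f = 1 := by rw [hf, map_add, map_smul, hLe, hLf₁]; simp
  have hf0 : f ≠ 0 := by
    rintro h0
    rw [h0, map_zero] at hLf
    exact zero_ne_one hLf
  have hefm : T e f m = 1 := by
    rw [hf, h.add2, h.smul2, hee, hefm₁]; ring
  have heff : T e f f = 0 := by
    rw [hf, h.add2, h.add3, h.smul2, h.smul3, hee, hs, h.s23 e f₁ e, hee]; ring
  have hffm : T f f m = 0 := by
    rw [hf, h.add, h.add2, h.add2, h.smul, h.smul, h.smul2, h.smul2, hee, h.s12 f₁ e m, hefm₁]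
    ring
  have hm_e : ∀ c : ℂ, m ≠ c • e := by
    intro c hc
    rw [hc, h.smul3, h.s23 e f e, hee, mul_zero] at hefm
    exact zero_ne_one hefm
  have hγ : T f f f ≠ 0 := by
    intro h0
    have h1 := hl f hf0 (fun w => by
      obtain ⟨α, β, γ, rfl⟩ := span3 L he hLe hLf hLm hm_e w
      rw [h.add3, h.add3, h.smul3, h.smul3, h.smul3, hffm, h0, h.s23 f f e, h.s12 f e f, heff]
      ring)
    rw [h1] at hLf
    exact zero_ne_one hLf
  have hffe : T f f e = 0 := by rw [h.s23 f f e, h.s12 f e f, heff]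
  obtain ⟨y, hy⟩ : ∃ y : ℂ, y = -2 / T f f f := ⟨_, rfl⟩
  have hy0 : y ≠ 0 := by rw [hy]; exact div_ne_zero (by norm_num) hγ
  have hyγ : y * T f f f = -2 := by rw [hy]; field_simp
  refine ⟨y • f, smul_ne_zero hy0 hf0, ?_, ?_⟩
  · intro w
    obtain ⟨α, β, γ, rfl⟩ := span3 L he hLe hLf hLm hm_e w
    rw [h.add3, h.add3, h.smul3, h.smul3, h.smul3, h.smul, h.smul, h.smul, h.smul2, h.smul2,
      h.smul2, hffm, hffe, map_add, map_add, map_smul, map_smul, map_smul, map_smul, hLe, hLf,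
      hLm]
    simp only [smul_eq_mul]
    linear_combination (β * y / 2) * hyγ
  · intro u hu
    obtain ⟨α, β, δ, rfl⟩ := span3 L he hLe hLf hLm hm_e u
    have hLu : L (α • e + β • f + δ • m) = β := by
      rw [map_add, map_add, map_smul, map_smul, map_smul, hLe, hLf, hLm]; simp
    have key : ∀ w, T (y • f) (α • e + β • f + δ • m) w =
        y * (α * T f e w + β * T f f w + δ * T f m w) := by
      intro w
      rw [h.smul, h.add2, h.add2, h.smul2, h.smul2, h.smul2]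
    have e1 := hu e
    have e2 := hu f
    have e3 := hu m
    rw [hLu, key] at e1 e2 e3
    have k1 : T f e e = 0 := by rw [h.s12, h.s23, hee]
    have k2 : T f m e = 1 := by rw [h.s23, h.s12, hefm]
    have k3 : T f e f = 0 := by rw [h.s12, heff]
    have k4 : T f m f = 0 := by rw [h.s23, hffm]
    have k5 : T f e m = 1 := by rw [h.s12, hefm]
    rw [hLe, k1, hffe, k2] at e1
    rw [hLf, k3, k4] at e2
    rw [hLm, k5, hffm] at e3
    have hδ : δ = 0 := by
      have : y * δ = 0 := by linear_combination e1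
      exact (mul_eq_zero.1 this).resolve_left hy0
    have hβ : β = 0 := by linear_combination β * hyγ - e2
    have hα : α = 0 := by
      rw [hδ] at e3
      have : y * α = 0 := by linear_combination e3
      exact (mul_eq_zero.1 this).resolve_left hy0
    rw [hα, hβ, hδ]
    simp

/-- `D3 f` is a symmetric trilinear form -/
theorem tri_D3 {f : E3 → ℂ} (hf : AnalyticAt ℂ f 0) : Tri (D3 f) where
  add u u' v w := by
    simp only [D3, Pi.add_apply, ← Finset.sum_add_distrib]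
    refine Finset.sum_congr rfl fun i _ => Finset.sum_congr rfl fun j _ =>
      Finset.sum_congr rfl fun k _ => by ring
  smul c u v w := by
    simp only [D3, Pi.smul_apply, smul_eq_mul, Finset.mul_sum]
    refine Finset.sum_congr rfl fun i _ => Finset.sum_congr rfl fun j _ =>
      Finset.sum_congr rfl fun k _ => by ring
  s12 u v w := by
    simp only [D3]
    rw [Finset.sum_comm]
    refine Finset.sum_congr rfl fun i _ => Finset.sum_congr rfl fun j _ =>
      Finset.sum_congr rfl fun k _ => ?_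
    rw [H3_symm12 hf j i k]
    ring
  s23 u v w := by
    simp only [D3]
    refine Finset.sum_congr rfl fun i _ => ?_
    rw [Finset.sum_comm]
    refine Finset.sum_congr rfl fun j _ => Finset.sum_congr rfl fun k _ => ?_
    rw [H3_symm23 hf i k j]
    ring

theorem lineStmt : LineStmt := by
  intro F μ hF hH2 hnod a T hT hTa l hl0 hTl hline hex
  obtain ⟨e, he, hee⟩ := hex
  have hf : AnalyticAt ℂ (sl F 0) 0 := analyticAt_sl hF.an
  have htri := tri_D3 hf
  obtain ⟨i₀, hi₀⟩ := hl0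
  -- `a ≥ 1`
  have ha : 1 ≤ a := by
    by_contra hc
    have ha0 : a = 0 := by omega
    have h1 := hTa.self_of_nhds i₀ i₀
    rw [hH2, ha0, pow_zero, one_mul, hTl] at h1
    exact hi₀ (by simpa using h1.symm)
  -- the linear form
  set L : E3 →ₗ[ℂ] ℂ :=
    { toFun := fun v => ∑ i, l i * v i
      map_add' := fun v w => by
        simp only [Pi.add_apply, mul_add, Finset.sum_add_distrib]
      map_smul' := fun c v => by
        simp only [Pi.smul_apply, smul_eq_mul, RingHom.id_apply, Finset.mul_sum]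
        exact Finset.sum_congr rfl fun i _ => by ring } with hLdef
  have hLapp : ∀ v, L v = ∑ i, l i * v i := fun v => rfl
  have hLs : ∀ i, L (Pi.single i 1) = l i := by
    intro i
    rw [hLapp, Finset.sum_eq_single i]
    · simp
    · intro b _ hb
      simp [Pi.single_eq_of_ne hb]
    · intro h; exact absurd (Finset.mem_univ i) h
  have hL : L ≠ 0 := by
    intro h0
    have := hLs i₀
    rw [h0] at this
    exact hi₀ (by simpa using this.symm)
  obtain ⟨p, hp, hp1, hp2⟩ := alg htri L hL hnod hline he hee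
  have hDs : ∀ i u v, ∑ j, ∑ k, H3 (sl F 0) i j k * u j * v k = D3 (sl F 0) u v (Pi.single i 1) := by
    intro i u v
    rw [htri.s23, htri.s12]
    have : D3 (sl F 0) (Pi.single i 1) u v = ∑ j, ∑ k, H3 (sl F 0) i j k * u j * v k := by
      unfold D3
      rw [Finset.sum_eq_single i]
      · simp
      · intro b _ hb
        simp [Pi.single_eq_of_ne hb]
      · intro h; exact absurd (Finset.mem_univ i) h
    rw [this]
  have hTs : ∀ i u, ∑ j, T i j 0 * u j = L u * l i := by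
    intro i u
    rw [hLapp, Finset.sum_mul]
    exact Finset.sum_congr rfl fun j _ => by rw [hTl]; ring
  refine crit_scale hF ha hT hTa hp (fun i => ?_) (fun u hu => ?_)
  · rw [hTs, hDs]
    have := hp1 (Pi.single i 1)
    rwa [hLs] at this
  · apply hp2
    intro w
    have hw : w = ∑ i, w i • (Pi.single i 1 : E3) := by
      funext j
      simp [Finset.sum_apply, Pi.single_apply]
    have h1 : D3 (sl F 0) p u w = ∑ i, w i * D3 (sl F 0) p u (Pi.single i 1) := by
      simp only [← hDs]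
      rw [htri.s23, htri.s12]
      simp only [D3, Finset.mul_sum]
      refine Finset.sum_congr rfl fun i _ => Finset.sum_congr rfl fun j _ =>
        Finset.sum_congr rfl fun k _ => by ring
    rw [h1, hLapp w, Finset.mul_sum, ← Finset.sum_add_distrib]
    refine Finset.sum_eq_zero fun i _ => ?_
    have h2 := hu i
    rw [hTs, hDs] at h2
    linear_combination w i * h2

end Crest.Agent.R257.Line_648
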