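import Crest.Agent.R257.N2B_328
import Crest.Agent.R257.AJ4_387
import Crest.Agent.R275.Loc2G_879
import Crest.Agent.R257.CNS_939
import Crest.Agent.R257.LCDefs_472
import Crest.Agent.R257.SkelC_219
import Crest.Agent.R257.LCf_472
import Crest.Agent.R257.Sh14_297

-- ▼ part R257/N2C_328
section

/-!
Row 257 (S0395), leaf LC-N2, file C (helper328): Puiseux sheets exist for a germ `h` regular in `y`
with `h, h_y` relatively prime (`AJ387.Data.abhyankar_jung` with a dummy second variable).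
-/

set_option autoImplicit false

open Set Filter Topology Metric Complex
open Crest.Agent.R275.Loc2879

noncomputable section

namespace Crest.Agent.R257.N2_328

/-! ### partial derivatives -/

/-- derivative in `x` (first coordinate, the base) -/
def dX (h : ℂ × ℂ → ℂ) (p : ℂ × ℂ) : ℂ := fderiv ℂ h p (1, 0)

/-- derivative in `y` (second coordinate, the fibre) -/
def dY (h : ℂ × ℂ → ℂ) (p : ℂ × ℂ) : ℂ := fderiv ℂ h p (0, 1)

lemma an_dX {h : ℂ × ℂ → ℂ} {p : ℂ × ℂ} (hh : AnalyticAt ℂ h p) : AnalyticAt ℂ (dX h) p :=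
  ((ContinuousLinearMap.apply ℂ ℂ ((1, 0) : ℂ × ℂ)).analyticAt _).comp hh.fderiv

lemma an_dY {h : ℂ × ℂ → ℂ} {p : ℂ × ℂ} (hh : AnalyticAt ℂ h p) : AnalyticAt ℂ (dY h) p :=
  ((ContinuousLinearMap.apply ℂ ℂ ((0, 1) : ℂ × ℂ)).analyticAt _).comp hh.fderiv

/-- chain rule along a curve -/
lemma hasDerivAt_curve {h : ℂ × ℂ → ℂ} {a b : ℂ → ℂ} {s a' b' : ℂ} (hh : AnalyticAt ℂ h (a s, b s))
    (ha : HasDerivAt a a' s) (hb : HasDerivAt b b' s) :
    HasDerivAt (fun s => h (a s, b s)) (a' * dX h (a s, b s) + b' * dY h (a s, b s)) s := by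
  have h1 := hh.differentiableAt.hasFDerivAt.comp_hasDerivAt s (ha.prodMk hb)
  have h2 : fderiv ℂ h (a s, b s) (a', b') = a' * dX h (a s, b s) + b' * dY h (a s, b s) := by
    have : ((a', b') : ℂ × ℂ) = a' • ((1, 0) : ℂ × ℂ) + b' • ((0, 1) : ℂ × ℂ) := by
      simp
    rw [this, map_add, map_smul, map_smul]; rfl
  rw [← h2]; exact h1

lemma hasDerivAt_fibre {h : ℂ × ℂ → ℂ} {x y : ℂ} (hh : AnalyticAt ℂ h (x, y)) :
    HasDerivAt (fun y => h (x, y)) (dY h (x, y)) y := by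
  have := hasDerivAt_curve (h := h) (a := fun _ => x) (b := id) (s := y) (a' := 0) (b' := 1)
    (by simpa using hh) (hasDerivAt_const _ _) (hasDerivAt_id _)
  simpa using this


lemma reg_dY {h : ℂ × ℂ → ℂ} {hh : AnalyticAt ℂ h o2} {d : ℕ} (hd : Reg (gm h hh) (d + 1)) :
    Reg (gm (dY h) (an_dY hh)) d := by
  rw [reg_iff_order] at hd ⊢
  have h0 : h (0, 0) = 0 := by
    have h1 : analyticOrderAt (fun w => h (0, w)) 0 ≠ 0 := by rw [hd]; simp
    exact apply_eq_zero_of_analyticOrderAt_ne_zero (f := fun w => h (0, w)) h1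
  have han : AnalyticAt ℂ (fun w => h (0, w)) 0 :=
    AnalyticAt.comp (g := h) (f := fun w : ℂ => ((0 : ℂ), w)) hh
      (analyticAt_const.prod analyticAt_id)
  have h1 := han.analyticOrderAt_deriv_add_one
  have h2 : (fun w => h (0, w) - h (0, 0)) = fun w => h (0, w) := by
    ext w; rw [h0, sub_zero]
  rw [h2, hd] at h1
  have h3 : deriv (fun w => h (0, w)) =ᶠ[𝓝 0] fun w => dY h (0, w) := by
    have h4 : ∀ᶠ p in 𝓝 o2, AnalyticAt ℂ h p := hh.eventually_analyticAt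
    have h5 : Tendsto (fun w : ℂ => ((0 : ℂ), w)) (𝓝 0) (𝓝 o2) :=
      (continuous_const.prodMk continuous_id).tendsto' _ _ rfl
    filter_upwards [h5.eventually h4] with w hw
    exact (hasDerivAt_fibre hw).deriv
  rw [analyticOrderAt_congr h3] at h1
  have h6 : analyticOrderAt (fun w => dY h (0, w)) 0 + 1 = (d : ℕ∞) + 1 := by
    rw [h1]; push_cast; rfl
  exact (ENat.add_left_injective_of_ne_top (ENat.natCast_ne_top 1)) (by simpa using h6)

lemma isRelPrime_dY {h : ℂ × ℂ → ℂ} {hh : AnalyticAt ℂ h o2} {d : ℕ} (hd : Reg (gm h hh) d)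
    (hirr : Irreducible (gm h hh)) : IsRelPrime (gm h hh) (gm (dY h) (an_dY hh)) := by
  rw [hirr.isRelPrime_iff_not_dvd]
  rintro ⟨c, hc⟩
  rcases d with _ | d
  · exact hirr.not_isUnit (reg_zero_iff.1 hd)
  · have h1 := reg_dY hd
    rw [hc] at h1
    obtain ⟨a, b, ha, hb, hab⟩ := h1.of_mul
    have := ha.unique hd
    omega

/-! ### existence of sheets -/

/-- representatives of a Weierstrass polynomial -/
lemma exists_wpoly {h : ℂ × ℂ → ℂ} {hh : AnalyticAt ℂ h o2} {d : ℕ} (hd : Reg (gm h hh) d) :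
    ∃ (a : ℕ → ℂ → ℂ) (U : ℂ × ℂ → ℂ), (∀ i, AnalyticAt ℂ (a i) 0) ∧ (∀ i, a i 0 = 0) ∧
      AnalyticAt ℂ U o2 ∧ U o2 ≠ 0 ∧
      ∀ᶠ p in 𝓝 o2, h p = U p * (p.2 ^ d + ∑ i ∈ Finset.range d, a i p.1 * p.2 ^ i) := by
  classical
  obtain ⟨P, u, hm, hn, hfu, hlow⟩ := wprep hd
  choose b hb hbe using fun i => exists_gm (P.coeff i)
  obtain ⟨U, hU, hUe⟩ := exists_gm (u : OO o2)
  have hU0 : U o2 ≠ 0 := by
    have := u.isUnit
    rw [← hUe, isUnit_gm] at this
    exact this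
  refine ⟨fun i => if i < d then b i else 0, U, ?_, ?_, hU, hU0, ?_⟩
  · intro i
    by_cases hi : i < d
    · simp only [hi, if_true]; exact hb i
    · simp only [hi, if_false]; exact analyticAt_const
  · intro i
    by_cases hi : i < d
    · simp only [hi, if_true]
      have := hlow i hi
      rw [← hbe i] at this
      exact this
    · simp only [hi, if_false]; rfl
  · have hsum : P = Polynomial.X ^ d + ∑ i ∈ Finset.range d,
        Polynomial.C (P.coeff i) * Polynomial.X ^ i := by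
      conv_lhs => rw [hm.as_sum, hn]
    have h2 : ev 0 P = Wv 0 ^ d + ∑ i ∈ Finset.range d, iot 0 (P.coeff i) * Wv 0 ^ i := by
      conv_lhs => rw [hsum]
      simp
    have h3 : ∃ hA, ev (0 : ℂ) P = gm (p := o2)
        (fun p => p.2 ^ d + ∑ i ∈ Finset.range d, b i p.1 * p.2 ^ i) hA := by
      have key : ∀ s : Finset ℕ, ∃ hA, Wv (0 : ℂ) ^ d + ∑ i ∈ s, iot 0 (P.coeff i) * Wv 0 ^ i =
          gm (p := o2) (fun p => p.2 ^ d + ∑ i ∈ s, b i p.1 * p.2 ^ i) hA := by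
        intro s
        induction s using Finset.induction_on with
        | empty =>
          refine ⟨by simpa using analyticAt_snd.fun_pow d, ?_⟩
          rw [Finset.sum_empty, add_zero, Wv, gm_pow, gm_eq_gm]
          exact Eventually.of_forall fun w => by simp
        | insert i s hi ih =>
          obtain ⟨hA, e⟩ := ih
          have hAi : AnalyticAt ℂ (fun p : ℂ × ℂ => b i p.1 * p.2 ^ i) o2 :=
            (AnalyticAt.fun_comp (g := b i) (f := Prod.fst) (hb i) analyticAt_fst).fun_mul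
              (analyticAt_snd.fun_pow i)
          have e2 : iot 0 (P.coeff i) * Wv 0 ^ i = gm (p := o2) _ hAi := by
            rw [← hbe i, iot, pull_gm, Wv, gm_pow, gm_mul, gm_eq_gm]
            exact Eventually.of_forall fun w => by simp
          refine ⟨?_, ?_⟩
          · have := hAi.fun_add hA
            refine this.congr (Eventually.of_forall fun w => ?_)
            simp only [Finset.sum_insert hi]; ring
          · rw [Finset.sum_insert hi, ← add_assoc, add_comm (Wv (0 : ℂ) ^ d), add_assoc, e, e2,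
              gm_add, gm_eq_gm]
            exact Eventually.of_forall fun w => by
              simp only [Pi.add_apply, Finset.sum_insert hi]; ring
      rw [h2]; exact key _
    obtain ⟨hA, h3⟩ := h3
    rw [← hUe, h3, gm_mul, gm_eq_gm] at hfu
    filter_upwards [hfu] with p hp
    rw [hp]
    simp only [Pi.mul_apply]
    congr 2
    refine Finset.sum_congr rfl fun i hi => ?_
    rw [if_pos (Finset.mem_range.1 hi)]

/-- roots of the Weierstrass polynomial tend to `0` -/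
lemma roots_small {a : ℕ → ℂ → ℂ} (ha : ∀ i, AnalyticAt ℂ (a i) 0) (h0 : ∀ i, a i 0 = 0) (d : ℕ)
    {ε : ℝ} (hε : 0 < ε) : ∀ᶠ x in 𝓝 (0 : ℂ), ∀ y : ℂ,
      y ^ d + ∑ i ∈ Finset.range d, a i x * y ^ i = 0 → ‖y‖ < ε := by
  have h1 : Tendsto (fun x => ∑ i ∈ Finset.range d, ‖a i x‖) (𝓝 0) (𝓝 0) := by
    have : Tendsto (fun x => ∑ i ∈ Finset.range d, ‖a i x‖) (𝓝 0)
        (𝓝 (∑ i ∈ Finset.range d, ‖a i 0‖)) :=
      tendsto_finsetSum _ fun i _ => (ha i).continuousAt.norm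
    simpa [h0] using this
  set η : ℝ := min ε 1 with hη
  have hη0 : 0 < η := lt_min hε one_pos
  have h2 : ∀ᶠ x in 𝓝 (0 : ℂ), ∑ i ∈ Finset.range d, ‖a i x‖ < η ^ d :=
    h1.eventually_lt_const (by positivity)
  filter_upwards [h2] with x hx y hy
  by_contra hcon
  push Not at hcon
  have h3 : y ^ d = - ∑ i ∈ Finset.range d, a i x * y ^ i := by linear_combination hy
  have h4 : ‖y‖ ^ d ≤ ∑ i ∈ Finset.range d, ‖a i x‖ * ‖y‖ ^ i := by
    calc ‖y‖ ^ d = ‖y ^ d‖ := (norm_pow _ _).symm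
      _ = ‖∑ i ∈ Finset.range d, a i x * y ^ i‖ := by rw [h3, norm_neg]
      _ ≤ ∑ i ∈ Finset.range d, ‖a i x * y ^ i‖ := norm_sum_le _ _
      _ = _ := by simp_rw [norm_mul, norm_pow]
  have hy0 : 0 < ‖y‖ := hε.trans_le hcon
  have h5 : ∀ i ∈ Finset.range d, ‖a i x‖ * ‖y‖ ^ i ≤ ‖a i x‖ * (‖y‖ ^ d / η ^ d) := by
    intro i hi
    refine mul_le_mul_of_nonneg_left ?_ (norm_nonneg _)
    rw [le_div_iff₀ (by positivity)]
    have hid : i ≤ d := (Finset.mem_range.1 hi).le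
    have h6 : ‖y‖ ^ d = ‖y‖ ^ i * ‖y‖ ^ (d - i) := by rw [← pow_add]; congr 1; omega
    have h7 : η ^ d ≤ η ^ (d - i) := pow_le_pow_of_le_one hη0.le (min_le_right _ _) (by omega)
    have h8 : η ^ (d - i) ≤ ‖y‖ ^ (d - i) :=
      pow_le_pow_left₀ hη0.le ((min_le_left _ _).trans hcon) _
    rw [h6]
    exact mul_le_mul_of_nonneg_left (h7.trans h8) (by positivity)
  have h6 := h4.trans (Finset.sum_le_sum h5)
  rw [← Finset.sum_mul] at h6
  have h7 : (∑ i ∈ Finset.range d, ‖a i x‖) * (‖y‖ ^ d / η ^ d) < η ^ d * (‖y‖ ^ d / η ^ d) :=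
    mul_lt_mul_of_pos_right hx (by positivity)
  rw [mul_div_cancel₀ _ (by positivity)] at h7
  exact absurd (h6.trans_lt h7) (lt_irrefl _)

/-- the polynomial with coefficients `a i x` -/
def wp (a : ℕ → ℂ → ℂ) (d : ℕ) (x : ℂ) : Polynomial ℂ :=
  Polynomial.X ^ d + ∑ i ∈ Finset.range d, Polynomial.C (a i x) * Polynomial.X ^ i

lemma wp_deg_lt (a : ℕ → ℂ → ℂ) (d : ℕ) (x : ℂ) :
    (∑ i ∈ Finset.range d, Polynomial.C (a i x) * Polynomial.X ^ i).degree < (d : WithBot ℕ) := by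
  refine (Polynomial.degree_sum_le _ _).trans_lt ?_
  rw [Finset.sup_lt_iff (by exact WithBot.bot_lt_coe d)]
  intro j hj
  refine (Polynomial.degree_C_mul_X_pow_le _ _).trans_lt ?_
  exact_mod_cast Finset.mem_range.1 hj

lemma wp_monic (a : ℕ → ℂ → ℂ) (d : ℕ) (x : ℂ) : (wp a d x).Monic :=
  Polynomial.monic_X_pow_add (wp_deg_lt a d x)

lemma wp_natDegree (a : ℕ → ℂ → ℂ) (d : ℕ) (x : ℂ) : (wp a d x).natDegree = d := by
  refine Polynomial.natDegree_eq_of_degree_eq_some ?_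
  rw [wp, Polynomial.degree_add_eq_left_of_degree_lt]
  · exact Polynomial.degree_X_pow d
  · rw [Polynomial.degree_X_pow]; exact wp_deg_lt a d x

lemma wp_eval (a : ℕ → ℂ → ℂ) (d : ℕ) (x y : ℂ) :
    (wp a d x).eval y = y ^ d + ∑ i ∈ Finset.range d, a i x * y ^ i := by
  rw [wp, Polynomial.eval_add, Polynomial.eval_pow, Polynomial.eval_X, Polynomial.eval_finsetSum]
  simp

lemma wp_coeff (a : ℕ → ℂ → ℂ) (d : ℕ) (x : ℂ) (k : ℕ) :
    (wp a d x).coeff k = (if k = d then 1 else 0) + if k < d then a k x else 0 := by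
  rw [wp, Polynomial.coeff_add, Polynomial.coeff_X_pow, Polynomial.finsetSum_coeff]
  congr 1
  simp only [Polynomial.coeff_C_mul, Polynomial.coeff_X_pow, mul_ite, mul_one, mul_zero]
  rw [Finset.sum_ite_eq]
  simp

/-- data for Abhyankar-Jung with a dummy second variable -/
lemma exists_data {h : ℂ × ℂ → ℂ} {hh : AnalyticAt ℂ h o2} {d : ℕ} (hd : Reg (gm h hh) d)
    (hrel : IsRelPrime (gm h hh) (gm (dY h) (an_dY hh))) {a : ℕ → ℂ → ℂ} {U : ℂ × ℂ → ℂ}
    (ha : ∀ i, AnalyticAt ℂ (a i) 0) (ha0 : ∀ i, a i 0 = 0) (hU : AnalyticAt ℂ U o2)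
    (hfac : ∀ᶠ p in 𝓝 o2, h p = U p * (p.2 ^ d + ∑ i ∈ Finset.range d, a i p.1 * p.2 ^ i)) :
    ∃ (r : ℝ) (D : AJ387.Data d r 1), D.P = fun p => wp a d p.1 := by
  classical
  obtain ⟨M, hM⟩ := pow_Zv_mem hd hrel
  obtain ⟨A, B, hAB⟩ := Ideal.mem_span_pair.1 hM
  obtain ⟨A, hA, rfl⟩ := exists_gm A
  obtain ⟨B, hB, rfl⟩ := exists_gm B
  rw [gm_mul, gm_mul, gm_add, Zv_eq, gm_pow, gm_eq_gm] at hAB
  simp only [sub_zero] at hAB
  -- near the origin, double roots lie over `x = 0`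
  have hdbl : ∀ᶠ p in 𝓝 o2, (wp a d p.1).eval p.2 = 0 → (wp a d p.1).derivative.eval p.2 = 0 →
      p.1 ^ M = 0 := by
    have hUan := hU.eventually_analyticAt
    have hhan := hh.eventually_analyticAt
    filter_upwards [hAB, hfac.eventually_nhds, hUan, hhan] with p h1 h2 h3 h4 h5 h6
    have h7 : h p = 0 := by
      rw [h2.self_of_nhds, ← wp_eval, h5, mul_zero]
    have h8 : dY h p = 0 := by
      have e1 : (fun y => h (p.1, y)) =ᶠ[𝓝 p.2] fun y => U (p.1, y) * (wp a d p.1).eval y := by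
        have ht : Tendsto (fun y : ℂ => (p.1, y)) (𝓝 p.2) (𝓝 p) :=
          (continuous_const.prodMk continuous_id).tendsto' _ _ rfl
        filter_upwards [ht.eventually h2] with y hy
        rw [hy, wp_eval]
      have e2 : HasDerivAt (fun y => U (p.1, y) * (wp a d p.1).eval y)
          (dY U p * (wp a d p.1).eval p.2 + U p * (wp a d p.1).derivative.eval p.2) p.2 :=
        (hasDerivAt_fibre (h := U) (x := p.1) (y := p.2) h3).mul ((wp a d p.1).hasDerivAt p.2)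
      have e3 := (hasDerivAt_fibre (h := h) (x := p.1) (y := p.2) h4).unique
        (e2.congr_of_eventuallyEq e1)
      change dY h p = _ at e3
      rw [e3, h5, h6]; ring
    have h9 : A p * h p + B p * dY h p = p.1 ^ M := h1
    rw [← h9, h7, h8]; ring
  -- radii
  obtain ⟨ε, hε, hball⟩ := Metric.eventually_nhds_iff_ball.1 hdbl
  obtain ⟨r, hr, hball2⟩ := Metric.eventually_nhds_iff_ball.1
    ((roots_small ha ha0 d hε).and ((Filter.eventually_all_finset (Finset.range d)).2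
      fun i _ => (ha i).eventually_analyticAt))
  set r₁ := min r ε with hr₁
  have hr₁0 : 0 < r₁ := lt_min hr hε
  let D : AJ387.Data d r₁ 1 :=
    { P := fun p => wp a d p.1
      h₁ := hr₁0
      h₂ := one_pos
      monic := fun p _ => wp_monic a d p.1
      deg := fun p _ => wp_natDegree a d p.1
      an := by
        intro i p hp
        simp only [wp_coeff]
        refine analyticAt_const.fun_add ?_
        by_cases hi : i < d
        · simp only [hi, if_true]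
          refine AnalyticAt.fun_comp (g := a i) (f := Prod.fst) ?_ analyticAt_fst
          refine (hball2 p.1 ?_).2 i (Finset.mem_range.2 hi)
          rw [mem_ball_zero_iff]
          exact hp.1.trans_le (min_le_left _ _)
        · simp only [hi, if_false]; exact analyticAt_const
      nodup := by
        intro p hp hp0
        have hx0 : p.1 ≠ 0 := left_ne_zero_of_mul hp0
        rw [Multiset.nodup_iff_count_le_one]
        intro y
        rw [Polynomial.count_roots]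
        by_contra hns
        push Not at hns
        rw [Polynomial.one_lt_rootMultiplicity_iff_isRoot (wp_monic a d p.1).ne_zero] at hns
        have hx1 : ‖p.1‖ < r := hp.1.trans_le (min_le_left _ _)
        have hx2 : ‖p.1‖ < ε := hp.1.trans_le (min_le_right _ _)
        have hy : ‖y‖ < ε := by
          refine (hball2 p.1 (by rwa [mem_ball_zero_iff])).1 y ?_
          have := hns.1
          rw [Polynomial.IsRoot.def, wp_eval] at this
          exact this
        have hmem : ((p.1, y) : ℂ × ℂ) ∈ Metric.ball o2 ε := by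
          rw [Metric.mem_ball, dist_eq_norm]
          simp only [Prod.norm_def, Prod.fst_sub, Prod.snd_sub, sub_zero]
          exact max_lt hx2 hy
        exact hx0 (eq_zero_of_pow_eq_zero (hball (p.1, y) hmem hns.1 hns.2)) }
  exact ⟨r₁, D, rfl⟩

/-- **existence of sheets** -/
theorem exists_sheets {h : ℂ × ℂ → ℂ} {hh : AnalyticAt ℂ h o2} {d : ℕ} (hd : Reg (gm h hh) d)
    (hrel : IsRelPrime (gm h hh) (gm (dY h) (an_dY hh))) :
    ∃ ζ : Fin d → ℂ → ℂ, Sheets h d.factorial d ζ ∧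
      ∀ᶠ s in 𝓝[≠] (0 : ℂ), Function.Injective fun j => ζ j s := by
  classical
  obtain ⟨a, U, ha, ha0, hU, hU0, hfac⟩ := exists_wpoly hd
  obtain ⟨r₁, D, hDP⟩ := exists_data hd hrel ha ha0 hU hfac
  obtain ⟨ζ, hζan, hζ⟩ := D.abhyankar_jung
  have hr₁0 : 0 < r₁ := D.h₁
  set N := d.factorial with hNdef
  have hN : N ≠ 0 := Nat.factorial_ne_zero d
  -- the slice `b = 1/2`
  have hhalf : ‖((1 / 2 : ℂ))‖ ^ N < 1 := by
    have : ‖((1 / 2 : ℂ))‖ = 1 / 2 := by norm_num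
    rw [this]
    exact pow_lt_one₀ (by norm_num) (by norm_num) hN
  have hKD : ∀ s : ℂ, ‖s‖ ^ N < r₁ → ((s, 1 / 2) : ℂ × ℂ) ∈ AJ387.Data.KD N r₁ 1 :=
    fun s hs => ⟨hs, hhalf⟩
  have hroots : ∀ s : ℂ, ‖s‖ ^ N < r₁ → wp a d (s ^ N) =
      ∏ j, (Polynomial.X - Polynomial.C (ζ j (s, 1 / 2))) := by
    intro s hs
    have h1 := hζ _ (hKD s hs)
    rw [hDP] at h1
    exact h1
  have h00 : ‖(0 : ℂ)‖ ^ N < r₁ := by rw [norm_zero, zero_pow hN]; exact hr₁0
  have hev : ∀ᶠ s in 𝓝 (0 : ℂ), ‖s‖ ^ N < r₁ := by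
    have : ContinuousAt (fun s : ℂ => ‖s‖ ^ N) 0 := by fun_prop
    exact this.eventually_lt_const h00
  have hz0 : ∀ j, ζ j (0, 1 / 2) = 0 := by
    intro j
    have h1 := congrArg (Polynomial.eval (ζ j (0, 1 / 2))) (hroots 0 h00)
    rw [Polynomial.eval_prod, Finset.prod_eq_zero (Finset.mem_univ j) (by simp), wp_eval,
      zero_pow hN] at h1
    simp only [ha0, zero_mul, Finset.sum_const_zero, add_zero] at h1
    exact eq_zero_of_pow_eq_zero h1
  refine ⟨fun j s => ζ j (s, 1 / 2), ⟨hN, ?_, hz0, ?_⟩, ?_⟩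
  · intro j
    exact AnalyticAt.comp (g := ζ j) (f := fun s : ℂ => (s, (1 / 2 : ℂ))) (hζan j _ (hKD 0 h00))
      (analyticAt_id.prod analyticAt_const)
  · refine ⟨fun p => U (p.1 ^ N, p.2), ?_, ?_, ?_⟩
    · exact AnalyticAt.comp (g := U) (f := fun q : ℂ × ℂ => (q.1 ^ N, q.2))
        (by simpa only [zero_pow hN] using hU) (an_cov N _)
    · simpa only [zero_pow hN] using hU0
    · have ht : Tendsto (fun q : ℂ × ℂ => (q.1 ^ N, q.2)) (𝓝 o2) (𝓝 o2) := by
        have := (an_cov N o2).continuousAt.tendsto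
        simpa only [zero_pow hN] using this
      have hs : ∀ᶠ p in 𝓝 o2, ‖(p : ℂ × ℂ).1‖ ^ N < r₁ :=
        (continuous_fst.tendsto o2).eventually hev
      filter_upwards [ht.eventually hfac, hs] with p h1 h2
      rw [h1, ← wp_eval, hroots _ h2, Polynomial.eval_prod]
      simp
  · filter_upwards [hev.filter_mono nhdsWithin_le_nhds, self_mem_nhdsWithin] with s hs hs0
    have h1 := D.nodup (s ^ N, 1 / 2) ⟨by simpa using hs, by norm_num⟩
      (mul_ne_zero (pow_ne_zero _ hs0) (by norm_num))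
    rw [hDP] at h1
    change (wp a d (s ^ N)).roots.Nodup at h1
    have h2 : (∏ j, (Polynomial.X - Polynomial.C (ζ j (s, 1 / 2)))) =
        (((Finset.univ : Finset (Fin d)).val.map fun j => ζ j (s, 1 / 2)).map
          fun a => Polynomial.X - Polynomial.C a).prod := by
      rw [Multiset.map_map]; rfl
    rw [hroots s hs, h2, Polynomial.roots_multiset_prod_X_sub_C] at h1
    intro i j hij
    exact Multiset.inj_on_of_nodup_map h1 i (Finset.mem_univ i) j (Finset.mem_univ j) hij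

end Crest.Agent.R257.N2_328
end
end

-- ▼ part R257/N2D_328
section

/-!
Row 257 (S0395), leaf LC-N2, file D (helper328): Teissier's formula
`inum q_y q = inum q_y q_x + inum q_y x` and the Le-Greuel formula
`inum q J(q,g) + inum q x = inum q q_y + inum q g` for plane curves.
-/

set_option autoImplicit false

open Set Filter Topology Metric Complex
open Crest.Agent.R275.Loc2879

noncomputable section

namespace Crest.Agent.R257.N2_328

/-! ### the base coordinate -/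


lemma Zv_irreducible : Irreducible (Zv (0 : ℂ)) :=
  irreducible_of_inum_eq_one (F := ℂ × ℂ) (by simp) inum_coord

lemma isRelPrime_Zv {f : OO o2} {n : ℕ} (hf : Reg f n) : IsRelPrime f (Zv (0 : ℂ)) := by
  rw [isRelPrime_comm, Zv_irreducible.isRelPrime_iff_not_dvd]
  rintro ⟨c, hc⟩
  have h1 := congrArg (rho (0 : ℂ)) hc
  have h2 : rho (0 : ℂ) (Zv 0) = 0 := by
    rw [Zv, rho_iot]
    have : evp (0 : ℂ) (TT 0) = 0 := by
      have := TT_not_unit (a := (0 : ℂ))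
      rwa [R275.Loc2879.isUnit_iff, not_not] at this
    rw [this, map_zero]
  rw [map_mul, h2, zero_mul] at h1
  exact hf.rho_ne_zero h1

theorem inum_Zv {f : OO o2} {n : ℕ} (hf : Reg f n) : inum f (Zv (0 : ℂ)) = n := by
  obtain ⟨P, u, hm, hn, hfu, hlow⟩ := wprep hf
  have hsum : P = Polynomial.X ^ n + ∑ i ∈ Finset.range n,
      Polynomial.C (P.coeff i) * Polynomial.X ^ i := by
    conv_lhs => rw [hm.as_sum, hn]
  have h2 : ev 0 P = Wv 0 ^ n + ∑ i ∈ Finset.range n, iot 0 (P.coeff i) * Wv 0 ^ i := by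
    conv_lhs => rw [hsum]
    simp
  have h3 : Zv (0 : ℂ) ∣ ∑ i ∈ Finset.range n, iot 0 (P.coeff i) * Wv 0 ^ i := by
    refine Finset.dvd_sum fun i hi => Dvd.dvd.mul_right ?_ _
    have h4 := hlow i (Finset.mem_range.1 hi)
    have h5 : TT (0 : ℂ) ∣ P.coeff i := TT_dvd (by rw [R275.Loc2879.isUnit_iff, not_not]; exact h4)
    exact map_dvd _ h5
  obtain ⟨c, hc⟩ := h3
  have hWZ : IsRelPrime (Zv (0 : ℂ)) (Wv (0 : ℂ)) :=
    isRelPrime_of_inum_eq_one (F := ℂ × ℂ) (by simp) inum_coord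
  have hpow : ∀ k : ℕ, inum (Zv (0 : ℂ)) (Wv 0 ^ k) = k := by
    intro k
    induction k with
    | zero => rw [pow_zero, inum_of_isUnit_right isUnit_one]
    | succ k ih =>
      rw [pow_succ, inum_mul (F := ℂ × ℂ) (by simp) hWZ.pow_right hWZ, ih, inum_coord]
  rw [inum_comm, hfu, mul_comm, inum_mul_unit_right u.isUnit, h2, hc, mul_comm (Zv (0 : ℂ)) c,
    inum_add_mul, hpow]

/-! ### finite orders on all sheets -/

lemma exists_prime_dvd {R : Type*} [CommRing R] [IsDomain R] [UniqueFactorizationMonoid R]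
    {ι : Type*} {s : Finset ι} {p : ι → R} (hp : ∀ i, Prime (p i)) {u x : R} (hu : IsUnit u)
    (hx : ¬ IsUnit x) (hx0 : x ≠ 0) (h : x ∣ u * ∏ i ∈ s, p i) : ∃ i ∈ s, p i ∣ x := by
  obtain ⟨q, hq, hqx⟩ := WfDvdMonoid.exists_irreducible_factor hx hx0
  have hq' : Prime q := hq.prime
  have h1 := hqx.trans h
  rcases hq'.dvd_or_dvd h1 with h2 | h2
  · exact absurd (isUnit_of_dvd_unit h2 hu) hq.not_isUnit
  · obtain ⟨i, hi, h3⟩ := (Prime.dvd_finsetProd_iff hq' _).1 h2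
    exact ⟨i, hi, ((hq.associated_of_dvd (hp i).irreducible h3).symm.dvd).trans hqx⟩

variable {h : ℂ × ℂ → ℂ} {N d : ℕ} {ζ : Fin d → ℂ → ℂ}

lemma Sheets.cov_fac (S : Sheets h N d ζ) (hh : AnalyticAt ℂ h o2) :
    ∃ u : OO o2, IsUnit u ∧ cov S.hN (gm h hh) = u * ∏ j, Yz (ζ j) (S.an j) := by
  obtain ⟨u, hu, hu0, hfac⟩ := S.fac
  refine ⟨gm u hu, isUnit_gm.2 hu0, ?_⟩
  obtain ⟨hp, e⟩ := prod_gm Finset.univ (fun j => fun p : ℂ × ℂ => p.2 - ζ j p.1)
    (fun j => an_graph (S.an j))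
  change _ = gm u hu * ∏ j, gm _ (an_graph (S.an j))
  rw [e, cov_gm, gm_mul, gm_eq_gm]
  exact hfac

/-- a germ with finite order on all the sheets of `h` is relatively prime to `h` -/
lemma Sheets.isRelPrime (S : Sheets h N d ζ) {hh : AnalyticAt ℂ h o2} {g : ℂ × ℂ → ℂ}
    {hg : AnalyticAt ℂ g o2} (hord : ∀ j, analyticOrderAt (fun s => g (s ^ N, ζ j s)) 0 ≠ ⊤) :
    IsRelPrime (gm h hh) (gm g hg) := by
  intro k hk1 hk2
  by_contra hku
  obtain ⟨u, hu, hfac⟩ := S.cov_fac hh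
  have hcov := map_dvd (cov S.hN) hk1
  rw [hfac] at hcov
  obtain ⟨K, hK, rfl⟩ := exists_gm k
  have hnu : ¬ IsUnit (cov S.hN (gm K hK)) := by
    rw [cov_gm, isUnit_gm, not_not]
    rw [isUnit_gm, not_not] at hku
    simpa [zero_pow S.hN] using hku
  have hprod : u * ∏ j, Yz (ζ j) (S.an j) ≠ 0 :=
    mul_ne_zero hu.ne_zero (Finset.prod_ne_zero_iff.2 fun j _ => (prime_Yz (S.an j) (S.zero j)).ne_zero)
  have hne : cov S.hN (gm K hK) ≠ 0 := ne_zero_of_dvd_ne_zero hprod hcov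
  obtain ⟨j, -, hj⟩ := exists_prime_dvd (fun j => prime_Yz (S.an j) (S.zero j)) hu hnu hne hcov
  have h1 : Yz (ζ j) (S.an j) ∣ cov S.hN (gm g hg) := hj.trans (map_dvd _ hk2)
  rw [← ker_gr (S.an j) (S.zero j), cov_gm] at h1
  obtain ⟨h2, e⟩ := gr_gm (S.an j) (S.zero j)
    (f := g ∘ fun q : ℂ × ℂ => (q.1 ^ N, q.2))
    (AnalyticAt.comp (by simpa only [zero_pow S.hN] using hg) (an_cov N _))
  rw [e, gm_eq_zero] at h1
  exact hord j (analyticOrderAt_eq_top.2 h1)

/-- a multiple of `h` vanishes on the sheets -/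
lemma Sheets.vanish_of_dvd (S : Sheets h N d ζ) {hh : AnalyticAt ℂ h o2} {g : ℂ × ℂ → ℂ}
    {hg : AnalyticAt ℂ g o2} (hdvd : gm h hh ∣ gm g hg) (j : Fin d) :
    ∀ᶠ s in 𝓝 (0 : ℂ), g (s ^ N, ζ j s) = 0 := by
  obtain ⟨c, hc⟩ := hdvd
  obtain ⟨C, hC, rfl⟩ := exists_gm c
  rw [gm_mul, gm_eq_gm] at hc
  filter_upwards [(S.tendsto' j).eventually hc, S.vanish j] with s h1 h2
  rw [h1, Pi.mul_apply, h2, zero_mul]

/-- analyticity along a sheet -/
lemma Sheets.an_comp (S : Sheets h N d ζ) {g : ℂ × ℂ → ℂ} (hg : AnalyticAt ℂ g o2) (j : Fin d) :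
    AnalyticAt ℂ (fun s => g (s ^ N, ζ j s)) 0 := by
  refine AnalyticAt.fun_comp (g := g) (f := fun s => (s ^ N, ζ j s)) ?_
    ((analyticAt_id.fun_pow N).prod (S.an j))
  simpa only [id, zero_pow S.hN, S.zero j] using hg

/-- chain rule along a sheet -/
lemma Sheets.deriv_comp (S : Sheets h N d ζ) {g : ℂ × ℂ → ℂ} (hg : AnalyticAt ℂ g o2) (j : Fin d) :
    ∀ᶠ s in 𝓝 (0 : ℂ), deriv (fun s => g (s ^ N, ζ j s)) s =
      (N * s ^ (N - 1)) * dX g (s ^ N, ζ j s) + deriv (ζ j) s * dY g (s ^ N, ζ j s) := by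
  filter_upwards [(S.tendsto' j).eventually hg.eventually_analyticAt,
    (S.an j).eventually_analyticAt] with s h1 h2
  exact (hasDerivAt_curve (a := fun s => s ^ N) (b := ζ j) h1 (hasDerivAt_pow N s)
    h2.differentiableAt.hasDerivAt).deriv

lemma order_monomial {N : ℕ} : analyticOrderAt (fun s : ℂ => (N + 1 : ℂ) * s ^ N) 0 = N := by
  have h1 : (fun s : ℂ => (N + 1 : ℂ) * s ^ N) = (fun _ => (N + 1 : ℂ)) * fun s => (s - 0) ^ N := by
    ext s; simp
  have h2 : analyticOrderAt (fun s : ℂ => (s - 0) ^ N) 0 = N := analyticOrderAt_centeredMonomial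
  rw [h1, analyticOrderAt_mul analyticAt_const ((analyticAt_id.fun_sub analyticAt_const).fun_pow N),
    h2]
  have : analyticOrderAt (fun _ : ℂ => (N + 1 : ℂ)) 0 = 0 := by
    rw [analyticAt_const.analyticOrderAt_eq_zero]
    exact_mod_cast N.succ_ne_zero
  rw [this, zero_add]

/-- order of the derivative -/
lemma order_deriv {f : ℂ → ℂ} (hf : AnalyticAt ℂ f 0) (h0 : f 0 = 0) :
    analyticOrderAt (deriv f) 0 + 1 = analyticOrderAt f 0 := by
  rw [hf.analyticOrderAt_deriv_add_one, h0]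
  simp


/-- the factor `N s^(N-1)` -/
lemma order_kummer (hN : N ≠ 0) :
    analyticOrderAt (fun s : ℂ => (N * s ^ (N - 1) : ℂ)) 0 + 1 = N := by
  obtain ⟨M, rfl⟩ := Nat.exists_eq_succ_of_ne_zero hN
  simp only [Nat.succ_eq_add_one, Nat.add_sub_cancel, Nat.cast_add, Nat.cast_one]
  rw [order_monomial]

lemma an_kummer : AnalyticAt ℂ (fun s : ℂ => (N * s ^ (N - 1) : ℂ)) 0 :=
  analyticAt_const.fun_mul (analyticAt_id.fun_pow _)

/-- **Teissier's lemma on one factor of `q_y`** -/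
lemma teissier_factor {q : ℂ × ℂ → ℂ} {hq : AnalyticAt ℂ q o2} (hq0 : q o2 = 0)
    {H : ℂ × ℂ → ℂ} {hH : AnalyticAt ℂ H o2} {e : ℕ} (he : Reg (gm H hH) e)
    (hirr : Irreducible (gm H hH)) (hdvd : gm H hH ∣ gm (dY q) (an_dY hq))
    (hrel : IsRelPrime (gm H hH) (gm (dX q) (an_dX hq))) :
    IsRelPrime (gm H hH) (gm q hq) ∧
      inum (gm H hH) (gm q hq) = inum (gm H hH) (gm (dX q) (an_dX hq)) + inum (gm H hH) (Zv 0) := by
  obtain ⟨ζ, S, -⟩ := exists_sheets he (isRelPrime_dY he hirr)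
  have hord : ∀ j, analyticOrderAt (fun s => q (s ^ e.factorial, ζ j s)) 0 =
      analyticOrderAt (fun s => dX q (s ^ e.factorial, ζ j s)) 0 + e.factorial := by
    intro j
    have h1 := S.vanish_of_dvd hdvd j
    have h2 := S.deriv_comp hq j
    have h3 : deriv (fun s => q (s ^ e.factorial, ζ j s)) =ᶠ[𝓝 0]
        (fun s : ℂ => (e.factorial * s ^ (e.factorial - 1) : ℂ)) *
          fun s => dX q (s ^ e.factorial, ζ j s) := by
      filter_upwards [h1, h2] with s h4 h5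
      rw [h5, h4, mul_zero, add_zero]; rfl
    have h6 := order_deriv (S.an_comp hq j) (by simp [zero_pow S.hN, S.zero j, hq0])
    rw [← h6, analyticOrderAt_congr h3, analyticOrderAt_mul an_kummer (S.an_comp (an_dX hq) j),
      add_right_comm, order_kummer S.hN, add_comm]
  have hne : ∀ j, analyticOrderAt (fun s => dX q (s ^ e.factorial, ζ j s)) 0 ≠ ⊤ :=
    fun j => S.order_ne_top hrel j
  have hne' : ∀ j, analyticOrderAt (fun s => q (s ^ e.factorial, ζ j s)) 0 ≠ ⊤ := by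
    intro j
    rw [hord j]
    exact WithTop.add_ne_top.2 ⟨hne j, ENat.natCast_ne_top _⟩
  have hrq : IsRelPrime (gm H hH) (gm q hq) := S.isRelPrime hne'
  refine ⟨hrq, ?_⟩
  have h1 := S.inum_eq hrq
  have h2 := S.inum_eq hrel
  have h3 : ∀ j, analyticOrderNatAt (fun s => q (s ^ e.factorial, ζ j s)) 0 =
      analyticOrderNatAt (fun s => dX q (s ^ e.factorial, ζ j s)) 0 + e.factorial := by
    intro j
    have h4 := hord j
    rw [← Nat.cast_analyticOrderNatAt (hne j), ← Nat.cast_analyticOrderNatAt (hne' j)] at h4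
    exact_mod_cast h4
  rw [Finset.sum_congr rfl fun j _ => h3 j, Finset.sum_add_distrib, ← h2, Finset.sum_const,
    Finset.card_univ, Fintype.card_fin, smul_eq_mul] at h1
  rw [inum_Zv he]
  have h5 : e.factorial * inum (gm H hH) (gm q hq) =
      e.factorial * (inum (gm H hH) (gm (dX q) (an_dX hq)) + e) := by
    rw [h1]; ring
  exact Nat.eq_of_mul_eq_mul_left (Nat.factorial_pos e) h5

/-- **Teissier's lemma** -/
theorem teissier {q : ℂ × ℂ → ℂ} {hq : AnalyticAt ℂ q o2} (hq0 : q o2 = 0) {e : ℕ}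
    (he : Reg (gm (dY q) (an_dY hq)) e)
    (hrel : IsRelPrime (gm (dY q) (an_dY hq)) (gm (dX q) (an_dX hq))) :
    IsRelPrime (gm (dY q) (an_dY hq)) (gm q hq) ∧
      inum (gm (dY q) (an_dY hq)) (gm q hq) =
        inum (gm (dY q) (an_dY hq)) (gm (dX q) (an_dX hq)) + e := by
  have key : ∀ f : OO o2, f ∣ gm (dY q) (an_dY hq) →
      IsRelPrime f (gm q hq) ∧
        inum f (gm q hq) = inum f (gm (dX q) (an_dX hq)) + inum f (Zv 0) := by
    intro f
    induction f using WfDvdMonoid.induction_on_irreducible with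
    | zero => intro h; exact absurd (zero_dvd_iff.1 h) he.ne_zero
    | unit u hu =>
      intro _
      refine ⟨hu.isRelPrime_left, ?_⟩
      rw [inum_of_isUnit_left hu, inum_of_isUnit_left hu, inum_of_isUnit_left hu]
    | mul a i ha hi ih =>
      intro hdvd
      have hid : i ∣ gm (dY q) (an_dY hq) := (Dvd.intro _ rfl).trans hdvd
      have had : a ∣ gm (dY q) (an_dY hq) := (Dvd.intro_left _ rfl).trans hdvd
      obtain ⟨H, hH, rfl⟩ := exists_gm i
      obtain ⟨c, hc⟩ := hid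
      have hreg : ∃ n, Reg (gm H hH) n := by
        have h1 := he
        rw [hc] at h1
        obtain ⟨a, b, ha, hb, hab⟩ := h1.of_mul
        exact ⟨a, ha⟩
      obtain ⟨n, hn⟩ := hreg
      have hregA : ∃ n, Reg a n := by
        obtain ⟨c, hc⟩ := had
        have h1 := he
        rw [hc] at h1
        obtain ⟨a, b, ha, hb, hab⟩ := h1.of_mul
        exact ⟨a, ha⟩
      obtain ⟨m, hm⟩ := hregA
      have hrX : IsRelPrime (gm H hH) (gm (dX q) (an_dX hq)) :=
        hrel.of_dvd_left ⟨c, hc⟩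
      obtain ⟨h1, h2⟩ := teissier_factor hq0 hn hi ⟨c, hc⟩ hrX
      obtain ⟨h3, h4⟩ := ih had
      have haX : IsRelPrime a (gm (dX q) (an_dX hq)) := hrel.of_dvd_left had
      refine ⟨IsRelPrime.mul_left h1 h3, ?_⟩
      rw [inum_comm, inum_mul (F := ℂ × ℂ) (by simp) h1.symm h3.symm,
        inum_comm (gm H hH * a), inum_mul (F := ℂ × ℂ) (by simp) hrX.symm haX.symm,
        inum_comm (gm H hH * a), inum_mul (F := ℂ × ℂ) (by simp) (isRelPrime_Zv hn).symm
          (isRelPrime_Zv hm).symm, inum_comm _ (gm H hH), inum_comm _ a, h2, h4,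
        inum_comm _ (gm H hH), inum_comm _ a, inum_comm _ (gm H hH), inum_comm _ a]
      ring
  obtain ⟨h1, h2⟩ := key _ dvd_rfl
  exact ⟨h1, by rw [h2, inum_Zv he]⟩

/-- the Jacobian determinant `q_x g_y - q_y g_x` -/
def JJ (q g : ℂ × ℂ → ℂ) (p : ℂ × ℂ) : ℂ := dX q p * dY g p - dY q p * dX g p

lemma an_JJ {q g : ℂ × ℂ → ℂ} {p : ℂ × ℂ} (hq : AnalyticAt ℂ q p) (hg : AnalyticAt ℂ g p) :
    AnalyticAt ℂ (JJ q g) p :=
  ((an_dX hq).mul (an_dY hg)).sub ((an_dY hq).mul (an_dX hg))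

/-- **Le-Greuel formula for plane curves** -/
theorem le_greuel {q g : ℂ × ℂ → ℂ} {hq : AnalyticAt ℂ q o2} {hg : AnalyticAt ℂ g o2}
    (hg0 : g o2 = 0) {d : ℕ} (hd : Reg (gm q hq) d)
    (hrel : IsRelPrime (gm q hq) (gm (dY q) (an_dY hq))) (hqg : IsRelPrime (gm q hq) (gm g hg)) :
    IsRelPrime (gm q hq) (gm (JJ q g) (an_JJ hq hg)) ∧
      inum (gm q hq) (gm (JJ q g) (an_JJ hq hg)) + d =
        inum (gm q hq) (gm (dY q) (an_dY hq)) + inum (gm q hq) (gm g hg) := by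
  obtain ⟨ζ, S, -⟩ := exists_sheets hd hrel
  have hord : ∀ j, analyticOrderAt (fun s => JJ q g (s ^ d.factorial, ζ j s)) 0 + d.factorial =
      analyticOrderAt (fun s => dY q (s ^ d.factorial, ζ j s)) 0 +
        analyticOrderAt (fun s => g (s ^ d.factorial, ζ j s)) 0 := by
    intro j
    have h1 : ∀ᶠ s in 𝓝 (0 : ℂ), deriv (fun s => q (s ^ d.factorial, ζ j s)) s = 0 := by
      have h2 := (S.vanish j).eventually_nhds
      filter_upwards [h2] with s hs
      have : (fun s => q (s ^ d.factorial, ζ j s)) =ᶠ[𝓝 s] fun _ => 0 := hs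
      rw [this.deriv_eq, deriv_const]
    have h2 := S.deriv_comp hq j
    have h3 := S.deriv_comp hg j
    have h4 : (fun s => dY q (s ^ d.factorial, ζ j s)) *
        deriv (fun s => g (s ^ d.factorial, ζ j s)) =ᶠ[𝓝 0]
        -((fun s : ℂ => (d.factorial * s ^ (d.factorial - 1) : ℂ)) *
          fun s => JJ q g (s ^ d.factorial, ζ j s)) := by
      filter_upwards [h1, h2, h3] with s h5 h6 h7
      rw [h5] at h6
      simp only [Pi.mul_apply, Pi.neg_apply, h7, JJ]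
      linear_combination (-(dY g (s ^ d.factorial, ζ j s))) * h6
    have h5 := order_deriv (S.an_comp hg j) (by simp [zero_pow S.hN, S.zero j, hg0])
    have h6 := analyticOrderAt_congr h4
    rw [analyticOrderAt_mul (S.an_comp (an_dY hq) j) (S.an_comp hg j).deriv, analyticOrderAt_neg,
      analyticOrderAt_mul an_kummer (S.an_comp (an_JJ hq hg) j)] at h6
    rw [← h5, ← add_assoc, h6, add_right_comm, order_kummer S.hN, add_comm]
  have hneY := fun j => S.order_ne_top hrel j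
  have hneg := fun j => S.order_ne_top hqg j
  have hneJ : ∀ j, analyticOrderAt (fun s => JJ q g (s ^ d.factorial, ζ j s)) 0 ≠ ⊤ := by
    intro j hj
    have h1 := hord j
    rw [hj, top_add] at h1
    exact WithTop.add_ne_top.2 ⟨hneY j, hneg j⟩ h1.symm
  have hrJ : IsRelPrime (gm q hq) (gm (JJ q g) (an_JJ hq hg)) := S.isRelPrime hneJ
  refine ⟨hrJ, ?_⟩
  have e1 := S.inum_eq hrJ
  have e2 := S.inum_eq hrel
  have e3 := S.inum_eq hqg
  have h3 : ∀ j, analyticOrderNatAt (fun s => JJ q g (s ^ d.factorial, ζ j s)) 0 + d.factorial =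
      analyticOrderNatAt (fun s => dY q (s ^ d.factorial, ζ j s)) 0 +
        analyticOrderNatAt (fun s => g (s ^ d.factorial, ζ j s)) 0 := by
    intro j
    have h4 := hord j
    rw [← Nat.cast_analyticOrderNatAt (hneY j), ← Nat.cast_analyticOrderNatAt (hneg j),
      ← Nat.cast_analyticOrderNatAt (hneJ j)] at h4
    exact_mod_cast h4
  have h4 := Finset.sum_congr (s₁ := (Finset.univ : Finset (Fin d))) rfl fun j _ => h3 j
  rw [Finset.sum_add_distrib, Finset.sum_add_distrib, ← e1, ← e2, ← e3, Finset.sum_const,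
    Finset.card_univ, Fintype.card_fin, smul_eq_mul] at h4
  refine Nat.eq_of_mul_eq_mul_left (Nat.factorial_pos d) ?_
  rw [mul_add, mul_add, ← h4]
  ring

end Crest.Agent.R257.N2_328
end
end

-- ▼ part R257/N2E_328
section

/-!
Row 257 (S0395), leaf LC-N2, file E (helper328): dictionary between `col ![f, g]` on `Fin 2 → ℂ`
(index `0` = fibre coordinate `y`, index `1` = base coordinate `x`) and `inum` on `ℂ × ℂ`.
-/

set_option autoImplicit false

open Set Filter Topology Metric Complex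
open Crest.Agent.R275.Loc2879
open Crest.Agent.R257.Defs_219
open Crest.AlgGeometry.Germ

noncomputable section

namespace Crest.Agent.R257.N2_328

/-- `(x, y) ↦ ![y, x]` -/
def psi (p : ℂ × ℂ) : Fin 2 → ℂ := ![p.2, p.1]

/-- `![y, x] ↦ (x, y)` -/
def phi (v : Fin 2 → ℂ) : ℂ × ℂ := (v 1, v 0)

@[simp] lemma phi_psi (p : ℂ × ℂ) : phi (psi p) = p := rfl
@[simp] lemma psi_phi (v : Fin 2 → ℂ) : psi (phi v) = v := by
  ext i; fin_cases i <;> rfl
@[simp] lemma psi_zero : psi o2 = 0 := by ext i; fin_cases i <;> rfl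
@[simp] lemma phi_zero : phi 0 = o2 := rfl

/-- `psi` as a continuous linear equivalence -/
def psiL : (ℂ × ℂ) ≃L[ℂ] (Fin 2 → ℂ) :=
  { toFun := psi
    invFun := phi
    left_inv := phi_psi
    right_inv := psi_phi
    map_add' := fun p q => by ext i; fin_cases i <;> rfl
    map_smul' := fun c p => by ext i; fin_cases i <;> rfl
    continuous_toFun := by
      refine continuous_pi fun i => ?_
      fin_cases i
      · exact continuous_snd
      · exact continuous_fst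
    continuous_invFun := (continuous_apply 1).prodMk (continuous_apply 0) }

lemma an_psi (p : ℂ × ℂ) : AnalyticAt ℂ psi p := psiL.toContinuousLinearMap.analyticAt p
lemma an_phi (v : Fin 2 → ℂ) : AnalyticAt ℂ phi v := psiL.symm.toContinuousLinearMap.analyticAt v

lemma continuous_psi : Continuous psi := psiL.continuous

lemma tendsto_psi : Tendsto psi (𝓝 o2) (𝓝 0) := continuous_psi.tendsto' _ _ psi_zero

/-- a function of two variables on `ℂ × ℂ` -/
def two (f : (Fin 2 → ℂ) → ℂ) (p : ℂ × ℂ) : ℂ := f (psi p)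

lemma an_two' {f : (Fin 2 → ℂ) → ℂ} {p : ℂ × ℂ} (hf : AnalyticAt ℂ f (psi p)) :
    AnalyticAt ℂ (two f) p := hf.comp (an_psi p)

lemma an_two {f : (Fin 2 → ℂ) → ℂ} (hf : AnalyticAt ℂ f 0) : AnalyticAt ℂ (two f) o2 :=
  an_two' (by rwa [psi_zero])

lemma dX_two {f : (Fin 2 → ℂ) → ℂ} {p : ℂ × ℂ} (hf : AnalyticAt ℂ f (psi p)) :
    dX (two f) p = coordDeriv f 1 (psi p) := by
  have h1 := hf.differentiableAt.hasFDerivAt.comp p psiL.toContinuousLinearMap.hasFDerivAt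
  change fderiv ℂ (two f) p (1, 0) = _
  have h2 : fderiv ℂ (two f) p = (fderiv ℂ f (psi p)).comp psiL.toContinuousLinearMap := h1.fderiv
  rw [h2, coordDeriv]
  change fderiv ℂ f (psi p) (psi (1, 0)) = _
  congr 1
  ext i; fin_cases i <;> simp [psi]

lemma dY_two {f : (Fin 2 → ℂ) → ℂ} {p : ℂ × ℂ} (hf : AnalyticAt ℂ f (psi p)) :
    dY (two f) p = coordDeriv f 0 (psi p) := by
  have h1 := hf.differentiableAt.hasFDerivAt.comp p psiL.toContinuousLinearMap.hasFDerivAt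
  change fderiv ℂ (two f) p (0, 1) = _
  have h2 : fderiv ℂ (two f) p = (fderiv ℂ f (psi p)).comp psiL.toContinuousLinearMap := h1.fderiv
  rw [h2, coordDeriv]
  change fderiv ℂ f (psi p) (psi (0, 1)) = _
  congr 1
  ext i; fin_cases i <;> simp [psi]

lemma an_coordDeriv {n : ℕ} {f : (Fin n → ℂ) → ℂ} {x : Fin n → ℂ} (hf : AnalyticAt ℂ f x)
    (i : Fin n) : AnalyticAt ℂ (coordDeriv f i) x :=
  ((ContinuousLinearMap.apply ℂ ℂ (Pi.single i (1 : ℂ) : Fin n → ℂ)).analyticAt _).comp hf.fderiv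

/-- congruence of germs of partial derivatives -/
lemma gm_two_coordDeriv {f : (Fin 2 → ℂ) → ℂ} (hf : AnalyticAt ℂ f 0) :
    gm (two (coordDeriv f 1)) (an_two (an_coordDeriv hf 1)) = gm (dX (two f)) (an_dX (an_two hf)) ∧
    gm (two (coordDeriv f 0)) (an_two (an_coordDeriv hf 0)) = gm (dY (two f)) (an_dY (an_two hf)) := by
  have h1 : ∀ᶠ p in 𝓝 o2, AnalyticAt ℂ f (psi p) := tendsto_psi.eventually hf.eventually_analyticAt
  constructor
  · rw [gm_eq_gm]; filter_upwards [h1] with p hp; rw [dX_two hp]; rfl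
  · rw [gm_eq_gm]; filter_upwards [h1] with p hp; rw [dY_two hp]; rfl

/-! ### colengths -/

lemma an_pair {f g : (Fin 2 → ℂ) → ℂ} (hf : AnalyticAt ℂ f 0) (hg : AnalyticAt ℂ g 0) :
    ∀ i, AnalyticAt ℂ ((![f, g] : Fin 2 → (Fin 2 → ℂ) → ℂ) i) 0 := by
  intro i; fin_cases i
  · exact hf
  · exact hg

lemma Idl_pair {f g : (Fin 2 → ℂ) → ℂ} (hf : AnalyticAt ℂ f 0) (hg : AnalyticAt ℂ g 0) :
    UI939.Idl (0 : Fin 2 → ℂ) ![f, g] = Ideal.span {gm f hf, gm g hg} := by
  unfold UI939.Idl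
  congr 1
  ext x
  simp only [mem_range, Fin.exists_fin_two, Matrix.cons_val_zero, Matrix.cons_val_one,
    mem_insert_iff, mem_singleton_iff]
  rw [UI939.gz_eq hf, UI939.gz_eq hg]
  exact ⟨fun h => h.imp Eq.symm Eq.symm, fun h => h.imp Eq.symm Eq.symm⟩

lemma pull_psi {f : (Fin 2 → ℂ) → ℂ} (hf : AnalyticAt ℂ f 0) :
    pull psi (an_psi o2) psi_zero (gm f hf) = gm (two f) (an_two hf) := rfl

theorem col_two {f g : (Fin 2 → ℂ) → ℂ} (hf : AnalyticAt ℂ f 0) (hg : AnalyticAt ℂ g 0) :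
    col ![f, g] = inum (gm (two f) (an_two hf)) (gm (two g) (an_two hg)) := by
  rw [UI939.col_eq (an_pair hf hg), Idl_pair hf hg, ← pull_psi hf, ← pull_psi hg,
    inum_pullEquiv psi (an_psi o2) psi_zero phi (an_phi 0) phi_zero
      (Eventually.of_forall phi_psi) (Eventually.of_forall psi_phi)]
  rfl

lemma isRelPrime_of_isolated {F H : ℂ × ℂ → ℂ} {hF : AnalyticAt ℂ F o2} {hH : AnalyticAt ℂ H o2}
    (hiso : ∀ᶠ p in 𝓝 o2, F p = 0 → H p = 0 → p = o2) : IsRelPrime (gm F hF) (gm H hH) := by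
  intro k hk1 hk2
  by_contra hku
  obtain ⟨K, hK, rfl⟩ := exists_gm k
  rw [isUnit_gm, not_not] at hku
  have h1 := frequently_zero (F := ℂ × ℂ) (by simp) hK hku
  obtain ⟨c, hc⟩ := hk1
  obtain ⟨d, hd⟩ := hk2
  obtain ⟨C, hC, rfl⟩ := exists_gm c
  obtain ⟨D, hD, rfl⟩ := exists_gm d
  rw [gm_mul, gm_eq_gm] at hc hd
  have h2 : ∀ᶠ p in 𝓝[≠] o2, K p ≠ 0 := by
    filter_upwards [hiso.filter_mono nhdsWithin_le_nhds, hc.filter_mono nhdsWithin_le_nhds,
      hd.filter_mono nhdsWithin_le_nhds, self_mem_nhdsWithin] with p h3 h4 h5 h6 h7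
    exact h6 (h3 (by rw [h4, Pi.mul_apply, h7, zero_mul]) (by rw [h5, Pi.mul_apply, h7, zero_mul]))
  exact h1 h2

/-- isolated common zeros of two functions with finite colength -/
lemma isolated_of_colFin {n m : ℕ} {G : Fin m → (Fin n → ℂ) → ℂ} (hG : ∀ j, AnalyticAt ℂ (G j) 0)
    (h : ColFin G) : ∀ᶠ x in 𝓝 (0 : Fin n → ℂ), (∀ j, G j x = 0) → x = 0 := by
  have hGG : ∀ j, AnalyticAt ℂ (fun p : (Fin n → ℂ) × ℂ => G j p.1) 0 := fun j =>
    AnalyticAt.fun_comp (g := G j) (f := Prod.fst) (hG j) analyticAt_fst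
  have h1 := UI939.cn (fun j (p : (Fin n → ℂ) × ℂ) => G j p.1) hGG (col G)
    (Eventually.of_forall fun t => ⟨(UI939.colFin_iff hG).1 h, (UI939.col_eq hG).symm⟩)
  have h2 : Tendsto (fun x : Fin n → ℂ => ((x, 0) : (Fin n → ℂ) × ℂ)) (𝓝 0) (𝓝 0) :=
    (continuous_id.prodMk continuous_const).tendsto' _ _ rfl
  exact h2.eventually h1

theorem colFin_two {f g : (Fin 2 → ℂ) → ℂ} (hf : AnalyticAt ℂ f 0) (hg : AnalyticAt ℂ g 0) :
    ColFin ![f, g] ↔ IsRelPrime (gm (two f) (an_two hf)) (gm (two g) (an_two hg)) := by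
  constructor
  · intro h
    have h1 := isolated_of_colFin (an_pair hf hg) h
    refine isRelPrime_of_isolated ?_
    filter_upwards [tendsto_psi.eventually h1] with p hp h2 h3
    have h4 := hp (fun j => by fin_cases j <;> assumption)
    have h5 := congrArg phi h4
    simpa using h5
  · intro h
    rw [UI939.colFin_iff (an_pair hf hg), Idl_pair hf hg]
    have e := map_span_pair (pullEquiv psi (an_psi o2) psi_zero phi (an_phi 0) phi_zero
      (Eventually.of_forall phi_psi) (Eventually.of_forall psi_phi)) (gm f hf) (gm g hg)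
    refine finite_quot (F := Fin 2 → ℂ) (by simp) ?_
    exact (isRelPrime_map (pullEquiv psi (an_psi o2) psi_zero phi (an_phi 0) phi_zero
      (Eventually.of_forall phi_psi) (Eventually.of_forall psi_phi)).toMulEquiv).1 h

/-- the partial derivatives -/
lemma par_eq (f : (Fin 2 → ℂ) → ℂ) : par f = ![coordDeriv f 0, coordDeriv f 1] := by
  funext i; fin_cases i <;> rfl

theorem par_two {f : (Fin 2 → ℂ) → ℂ} (hf : AnalyticAt ℂ f 0) :
    (ColFin (par f) ↔ IsRelPrime (gm (dY (two f)) (an_dY (an_two hf)))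
      (gm (dX (two f)) (an_dX (an_two hf)))) ∧
    col (par f) = inum (gm (dY (two f)) (an_dY (an_two hf)))
      (gm (dX (two f)) (an_dX (an_two hf))) := by
  have h1 := gm_two_coordDeriv hf
  rw [par_eq, colFin_two (an_coordDeriv hf 0) (an_coordDeriv hf 1),
    col_two (an_coordDeriv hf 0) (an_coordDeriv hf 1), h1.1, h1.2]
  exact ⟨Iff.rfl, rfl⟩

end Crest.Agent.R257.N2_328
end
end

-- ▼ part R257/N2F_328
section

/-!
Row 257 (S0395), leaf LC-N2, file F (helper328): `J_p` for plane curves; the lower bound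
`ord_j g > p (ord_j f_y - N)` on every sheet of `f`, hence
`inum f g > p (inum f f_y - inum f x)` for `g ∈ J_p(f)`.
-/

set_option autoImplicit false

open Set Filter Topology Metric Complex MeasureTheory
open Crest.Agent.R275.Loc2879
open Crest.Agent.R257.Defs_219
open Crest.AlgGeometry.Germ
open scoped ENNReal

noncomputable section

namespace Crest.Agent.R257.N2_328

/-! ### integrals over a disc -/

lemma integrableOn_norm_rpow {β ρ : ℝ} (hρ : 0 < ρ) :
    IntegrableOn (fun x : ℂ => ‖x‖ ^ β) (ball 0 ρ) ↔ -2 < β := by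
  rw [integrableOn_fun_norm_addHaar (E := ℂ) volume (f := fun y : ℝ => y ^ β) (r := ρ)]
  have h1 : IntegrableOn (fun y : ℝ => y ^ (Module.finrank ℝ ℂ - 1) • y ^ β) (Ioo 0 ρ) ↔
      IntegrableOn (fun y : ℝ => y ^ (β + 1)) (Ioo 0 ρ) := by
    refine integrableOn_congr_fun ?_ measurableSet_Ioo
    intro y hy
    simp only [Complex.finrank_real_complex, smul_eq_mul]
    rw [Real.rpow_add_one hy.1.ne']; ring
  rw [h1, intervalIntegral.integrableOn_Ioo_rpow_iff hρ]
  constructor <;> intro h <;> linarith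

lemma lintegral_norm_rpow_lt_top {β ρ : ℝ} (hρ : 0 < ρ) (hβ : -2 < β) :
    ∫⁻ x : ℂ in ball 0 ρ, ENNReal.ofReal (‖x‖ ^ β) < ⊤ :=
  ((integrableOn_norm_rpow hρ).2 hβ).lintegral_lt_top

lemma lt_of_lintegral_norm_rpow {β ρ : ℝ} (hρ : 0 < ρ)
    (h : ∫⁻ x : ℂ in ball 0 ρ, ENNReal.ofReal (‖x‖ ^ β) < ⊤) : -2 < β := by
  rw [← integrableOn_norm_rpow hρ]
  refine ⟨Measurable.aestronglyMeasurable (by fun_prop), ?_⟩
  rw [hasFiniteIntegral_iff_ofReal (Filter.Eventually.of_forall fun x => by positivity)]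
  exact h

lemma lintegral_fin_one (r : ℝ) (F : ℂ → ENNReal) :
    ∫⁻ x' : Fin 1 → ℂ in {x' | ∀ i, ‖x' i‖ < r}, F (x' 0) = ∫⁻ x in ball (0 : ℂ) r, F x := by
  have h1 := (volume_preserving_funUnique (Fin 1) ℂ)
  have h2 := h1.setLIntegral_comp_preimage_emb (MeasurableEquiv.measurableEmbedding _) F (ball (0 : ℂ) r)
  rw [← h2]
  congr 1
  congr 1
  ext x'
  simp [Fin.forall_fin_one]

/-! ### `J_p` -/

/-- `∫ |g|^(2/p) |eta|²` over `{f = 0}`, in sheets over the box `{|x'_i| < r}` -/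
def JintN {n : ℕ} (p r : ℝ) (f g : (Fin (n + 1) → ℂ) → ℂ) : ℝ≥0∞ :=
  ∫⁻ x' : Fin n → ℂ in {x' | ∀ i, ‖x' i‖ < r},
    ∑' z : {z : ℂ // ‖z‖ < r ∧ f (Fin.cons z x') = 0 ∧ coordDeriv f 0 (Fin.cons z x') ≠ 0},
      ENNReal.ofReal (‖g (Fin.cons z.1 x')‖ ^ (2 / p) / ‖coordDeriv f 0 (Fin.cons z.1 x')‖ ^ 2)

/-- `g ∈ J_p(f)` -/
def InJN {n : ℕ} (p : ℝ) (f g : (Fin (n + 1) → ℂ) → ℂ) : Prop := ∃ r : ℝ, 0 < r ∧ JintN p r f g < ∞

/-- the integrand for `n = 1` as a function of `x ∈ ℂ` -/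
def sh (p r : ℝ) (f g : (Fin 2 → ℂ) → ℂ) (x : ℂ) : ℝ≥0∞ :=
  ∑' z : {z : ℂ // ‖z‖ < r ∧ f (psi (x, z)) = 0 ∧ coordDeriv f 0 (psi (x, z)) ≠ 0},
      ENNReal.ofReal (‖g (psi (x, z.1))‖ ^ (2 / p) / ‖coordDeriv f 0 (psi (x, z.1))‖ ^ 2)

lemma cons_eq_psi (z : ℂ) (x' : Fin 1 → ℂ) : (Fin.cons z x' : Fin 2 → ℂ) = psi (x' 0, z) := by
  ext i; fin_cases i <;> rfl

lemma JintN_eq (p r : ℝ) (f g : (Fin 2 → ℂ) → ℂ) :
    JintN p r f g = ∫⁻ x in ball (0 : ℂ) r, sh p r f g x := by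
  rw [← lintegral_fin_one]
  unfold JintN sh
  refine lintegral_congr fun x' => ?_
  have h : (fun z : ℂ => (Fin.cons z x' : Fin 2 → ℂ)) = fun z => psi (x' 0, z) :=
    funext fun z => cons_eq_psi z x'
  change (fun k : ℂ → (Fin 2 → ℂ) =>
    ∑' z : {z : ℂ // ‖z‖ < r ∧ f (k z) = 0 ∧ coordDeriv f 0 (k z) ≠ 0},
      ENNReal.ofReal (‖g (k z.1)‖ ^ (2 / p) / ‖coordDeriv f 0 (k z.1)‖ ^ 2))
    (fun z : ℂ => (Fin.cons z x' : Fin 2 → ℂ)) = _
  rw [h]

/-! ### growth along a sheet -/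

lemma order_bounds {F : ℂ → ℂ} (hF : AnalyticAt ℂ F 0) (h : analyticOrderAt F 0 ≠ ⊤) :
    ∃ c C : ℝ, 0 < c ∧ 0 < C ∧ ∀ᶠ s in 𝓝 (0 : ℂ),
      c * ‖s‖ ^ analyticOrderNatAt F 0 ≤ ‖F s‖ ∧ ‖F s‖ ≤ C * ‖s‖ ^ analyticOrderNatAt F 0 := by
  obtain ⟨n, hn⟩ := ENat.ne_top_iff_exists.1 h
  obtain ⟨g, hg, hg0, hfg⟩ := hF.analyticOrderAt_eq_natCast.1 hn.symm
  have h2 : analyticOrderNatAt F 0 = n := by
    rw [analyticOrderNatAt, ← hn]; rfl
  rw [h2]
  have hg0' : 0 < ‖g 0‖ := norm_pos_iff.2 hg0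
  refine ⟨‖g 0‖ / 2, ‖g 0‖ + 1, by positivity, by positivity, ?_⟩
  have hc := hg.continuousAt.norm
  filter_upwards [hfg, hc.eventually_const_lt (half_lt_self hg0'),
    hc.eventually_lt_const (lt_add_one _)] with s h3 h4 h5
  rw [h3]
  simp only [sub_zero, smul_eq_mul, norm_mul, norm_pow]
  rw [mul_comm (‖s‖ ^ n)]
  exact ⟨mul_le_mul_of_nonneg_right h4.le (by positivity),
    mul_le_mul_of_nonneg_right h5.le (by positivity)⟩

/-- the lower bound on one sheet -/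
theorem sheet_ineq {f g : (Fin 2 → ℂ) → ℂ} (hf : AnalyticAt ℂ f 0) (hg : AnalyticAt ℂ g 0) {p : ℝ}
    (hp : 0 < p) (hJ : InJN p f g) {N d : ℕ} {ζ : Fin d → ℂ → ℂ} (S : Sheets (two f) N d ζ)
    (j : Fin d) (hc : analyticOrderAt (fun s => dY (two f) (s ^ N, ζ j s)) 0 ≠ ⊤)
    (ha : analyticOrderAt (fun s => two g (s ^ N, ζ j s)) 0 ≠ ⊤) :
    p * (analyticOrderNatAt (fun s => dY (two f) (s ^ N, ζ j s)) 0 : ℝ) <
      analyticOrderNatAt (fun s => two g (s ^ N, ζ j s)) 0 + p * N := by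
  by_contra hcon
  push Not at hcon
  set A := analyticOrderNatAt (fun s => two g (s ^ N, ζ j s)) 0 with hA
  set c := analyticOrderNatAt (fun s => dY (two f) (s ^ N, ζ j s)) 0 with hcdef
  obtain ⟨r, hr, hint⟩ := hJ
  rw [JintN_eq] at hint
  obtain ⟨c1, C1, hc1, -, hb1⟩ := order_bounds (S.an_comp (an_two hg) j) ha
  obtain ⟨c2, C2, hc2, hC2, hb2⟩ := order_bounds (S.an_comp (an_dY (an_two hf)) j) hc
  rw [← hA] at hb1
  rw [← hcdef] at hb2
  have hz : ∀ᶠ s in 𝓝 (0 : ℂ), ‖ζ j s‖ < r := by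
    have := (S.an j).continuousAt.norm
    refine this.eventually_lt_const ?_
    simp only [S.zero j, norm_zero]; exact hr
  have han : ∀ᶠ s in 𝓝 (0 : ℂ), AnalyticAt ℂ f (psi (s ^ N, ζ j s)) :=
    (S.tendsto' j).eventually (tendsto_psi.eventually hf.eventually_analyticAt)
  obtain ⟨δ, hδ, hball⟩ := Metric.eventually_nhds_iff_ball.1
    (((hb1.and hb2).and (hz.and han)).and (S.vanish j))
  set δ' := min δ 1 with hδ'
  have hδ'0 : 0 < δ' := lt_min hδ one_pos
  set ρ := min (δ' ^ N) r with hρ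
  have hρ0 : 0 < ρ := lt_min (pow_pos hδ'0 _) hr
  set K := c1 ^ (2 / p) / C2 ^ 2 with hK
  have hK0 : 0 < K := div_pos (Real.rpow_pos_of_pos hc1 _) (by positivity)
  -- pointwise bound
  have hpt : ∀ x : ℂ, x ∈ ball (0 : ℂ) ρ → x ≠ 0 →
      ENNReal.ofReal (K * ‖x‖ ^ (-2 : ℝ)) ≤ sh p r f g x := by
    intro x hx hx0
    rw [mem_ball_zero_iff] at hx
    obtain ⟨s, hs⟩ := IsAlgClosed.exists_pow_nat_eq x (Nat.pos_of_ne_zero S.hN)
    have hsN : ‖s‖ ^ N = ‖x‖ := by rw [← norm_pow, hs]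
    have hslt : ‖s‖ < δ' := by
      refine lt_of_pow_lt_pow_left₀ N hδ'0.le ?_
      rw [hsN]; exact hx.trans_le (min_le_left _ _)
    have hs0 : s ≠ 0 := by
      rintro rfl
      rw [zero_pow S.hN] at hs
      exact hx0 hs.symm
    have hs0' : 0 < ‖s‖ := norm_pos_iff.2 hs0
    have hb := hball s (by rw [mem_ball_zero_iff]; exact hslt.trans_le (min_le_left _ _))
    obtain ⟨⟨⟨⟨h1, -⟩, h2, h3⟩, h4, h5⟩, h6⟩ := hb
    rw [hs] at h1 h2 h3 h5 h6
    have h7 : dY (two f) (x, ζ j s) = coordDeriv f 0 (psi (x, ζ j s)) := dY_two h5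
    rw [h7] at h2 h3
    have hne : coordDeriv f 0 (psi (x, ζ j s)) ≠ 0 := by
      rw [← norm_pos_iff]
      exact lt_of_lt_of_le (by positivity) h2
    refine le_trans ?_ (ENNReal.le_tsum ⟨ζ j s, h4, h6, hne⟩)
    refine ENNReal.ofReal_le_ofReal ?_
    have hne' : 0 < ‖coordDeriv f 0 (psi (x, ζ j s))‖ := norm_pos_iff.2 hne
    change K * ‖x‖ ^ (-2 : ℝ) ≤ ‖two g (x, ζ j s)‖ ^ (2 / p) / ‖coordDeriv f 0 (psi (x, ζ j s))‖ ^ 2
    have e1 : (c1 * ‖s‖ ^ A) ^ (2 / p) ≤ ‖two g (x, ζ j s)‖ ^ (2 / p) :=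
      Real.rpow_le_rpow (by positivity) h1 (by positivity)
    have e2 : ‖coordDeriv f 0 (psi (x, ζ j s))‖ ^ 2 ≤ (C2 * ‖s‖ ^ c) ^ 2 :=
      pow_le_pow_left₀ (norm_nonneg _) h3 2
    refine le_trans ?_ (div_le_div₀ (by positivity) e1 (by positivity) e2)
    have e3 : (c1 * ‖s‖ ^ A) ^ (2 / p) / (C2 * ‖s‖ ^ c) ^ 2 =
        K * ‖s‖ ^ ((2 / p) * A - 2 * c) := by
      rw [Real.mul_rpow hc1.le (by positivity), ← Real.rpow_natCast ‖s‖ A,
        ← Real.rpow_mul hs0'.le, mul_pow, ← pow_mul, ← Real.rpow_natCast ‖s‖ (c * 2),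
        Real.rpow_sub hs0', hK]
      have : ((c * 2 : ℕ) : ℝ) = 2 * c := by push_cast; ring
      rw [this, mul_comm (A : ℝ) (2 / p)]
      have hp1 : ‖s‖ ^ (2 * (c : ℝ)) ≠ 0 := (Real.rpow_pos_of_pos hs0' _).ne'
      field_simp
    rw [e3]
    refine mul_le_mul_of_nonneg_left ?_ hK0.le
    rw [← hsN, ← Real.rpow_natCast ‖s‖ N, ← Real.rpow_mul hs0'.le]
    refine Real.rpow_le_rpow_of_exponent_ge hs0' (hslt.le.trans (min_le_right _ _)) ?_
    have e4 : (2 / p) * (A : ℝ) - 2 * c = (2 / p) * (A - p * c) := by field_simp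
    rw [e4]
    have e5 : (A : ℝ) - p * c ≤ - (p * N) := by linarith
    calc (2 / p) * ((A : ℝ) - p * c) ≤ (2 / p) * (-(p * N)) :=
          mul_le_mul_of_nonneg_left e5 (by positivity)
      _ = N * -2 := by field_simp
  -- integrate
  have hfin : ∫⁻ x in ball (0 : ℂ) ρ, ENNReal.ofReal (K * ‖x‖ ^ (-2 : ℝ)) < ⊤ := by
    refine lt_of_le_of_lt ?_ hint
    calc ∫⁻ x in ball (0 : ℂ) ρ, ENNReal.ofReal (K * ‖x‖ ^ (-2 : ℝ))
        ≤ ∫⁻ x in ball (0 : ℂ) ρ, sh p r f g x := by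
          refine lintegral_mono_ae ?_
          have h0 : ∀ᵐ x : ℂ ∂(volume.restrict (ball (0 : ℂ) ρ)), x ≠ 0 :=
            ae_restrict_of_ae (by simp [ae_iff])
          filter_upwards [ae_restrict_mem measurableSet_ball, h0] with x hx hx0
          exact hpt x hx hx0
      _ ≤ ∫⁻ x in ball (0 : ℂ) r, sh p r f g x :=
          lintegral_mono_set (ball_subset_ball (min_le_right _ _))
  have hfin2 : ∫⁻ x in ball (0 : ℂ) ρ, ENNReal.ofReal (‖x‖ ^ (-2 : ℝ)) < ⊤ := by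
    have h1 : ∀ x : ℂ, ENNReal.ofReal (K * ‖x‖ ^ (-2 : ℝ)) =
        ENNReal.ofReal K * ENNReal.ofReal (‖x‖ ^ (-2 : ℝ)) := fun x => ENNReal.ofReal_mul hK0.le
    simp only [h1] at hfin
    rw [lintegral_const_mul' _ _ ENNReal.ofReal_ne_top] at hfin
    by_contra h2
    rw [not_lt, top_le_iff] at h2
    rw [h2, ENNReal.mul_top (by simpa using hK0)] at hfin
    exact lt_irrefl _ hfin
  exact lt_irrefl _ (lt_of_lintegral_norm_rpow hρ0 hfin2)

/-- **the lower bound** -/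
theorem inum_lower {f g : (Fin 2 → ℂ) → ℂ} (hf : AnalyticAt ℂ f 0) (hg : AnalyticAt ℂ g 0) {p : ℝ}
    (hp : 0 < p) (hJ : InJN p f g) {d : ℕ} (hd0 : d ≠ 0) (hd : Reg (gm (two f) (an_two hf)) d)
    (hrel : IsRelPrime (gm (two f) (an_two hf)) (gm (dY (two f)) (an_dY (an_two hf))))
    (hfg : IsRelPrime (gm (two f) (an_two hf)) (gm (two g) (an_two hg))) :
    p * (inum (gm (two f) (an_two hf)) (gm (dY (two f)) (an_dY (an_two hf))) : ℝ) <
      inum (gm (two f) (an_two hf)) (gm (two g) (an_two hg)) + p * d := by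
  obtain ⟨ζ, S, -⟩ := exists_sheets hd hrel
  have h1 := fun j => sheet_ineq hf hg hp hJ S j (S.order_ne_top hrel j) (S.order_ne_top hfg j)
  have e1 := S.inum_eq hrel
  have e2 := S.inum_eq hfg
  have hne : (Finset.univ : Finset (Fin d)).Nonempty :=
    ⟨⟨0, Nat.pos_of_ne_zero hd0⟩, Finset.mem_univ _⟩
  have h2 := Finset.sum_lt_sum_of_nonempty hne fun j _ => h1 j
  rw [← Finset.mul_sum, Finset.sum_add_distrib, Finset.sum_const, Finset.card_univ,
    Fintype.card_fin, nsmul_eq_mul] at h2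
  have e1' : (∑ j, (analyticOrderNatAt (fun s => dY (two f) (s ^ d.factorial, ζ j s)) 0 : ℝ)) =
      d.factorial * inum (gm (two f) (an_two hf)) (gm (dY (two f)) (an_dY (an_two hf))) := by
    exact_mod_cast e1.symm
  have e2' : (∑ j, (analyticOrderNatAt (fun s => two g (s ^ d.factorial, ζ j s)) 0 : ℝ)) =
      d.factorial * inum (gm (two f) (an_two hf)) (gm (two g) (an_two hg)) := by
    exact_mod_cast e2.symm
  rw [e1', e2'] at h2
  have hN : (0 : ℝ) < d.factorial := by exact_mod_cast Nat.factorial_pos d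
  refine lt_of_mul_lt_mul_left ?_ hN.le
  linarith [h2]

end Crest.Agent.R257.N2_328
end
end

-- ▼ part R257/N2G_328
section

/-!
Row 257 (S0395), leaf LC-N2, file G (helper328): the exact function `g_0 = h_y²/x²` at `t = 0`
for a plane curve germ `h` of multiplicity `m ≥ 3` in generic linear coordinates.
-/

set_option autoImplicit false

open Set Filter Topology Metric Complex MeasureTheory
open Crest.Agent.R275.Loc2879
open Crest.Agent.R257.Defs_219
open Crest.AlgGeometry.Germ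
open scoped ENNReal

noncomputable section

namespace Crest.Agent.R257.N2_328

/-- the maximal ideal of the ring of germs -/
abbrev mm : Ideal (OO o2) := Ideal.span {Zv 0, Wv 0}

lemma mem_mm_of_not_isUnit {F : OO o2} (hF : ¬ IsUnit F) : F ∈ mm := by
  have hreg : Reg (Wv (0 : ℂ)) 1 := ⟨1, by rw [rho_Wv]; simp⟩
  obtain ⟨q, c, h⟩ := div_exists hreg F
  simp only [Finset.univ_unique, Fin.default_eq_zero, Fin.isValue, Fin.val_eq_zero, pow_zero,
      mul_one, Finset.sum_singleton] at h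
  have h0 : evp o2 F = 0 := by
    rwa [R275.Loc2879.isUnit_iff, not_not] at hF
  have h1 : evp (0 : ℂ) (c 0) = 0 := by
    have h2 := congrArg (evp o2) h
    rw [h0, map_add, map_mul] at h2
    have h3 : evp o2 (Wv (0 : ℂ)) = 0 := rfl
    have h4 : evp o2 (iot (0 : ℂ) (c 0)) = evp (0 : ℂ) (c 0) := by
      obtain ⟨f, hf, he⟩ := exists_gm (c 0)
      rw [← he]; rfl
    rw [h3, mul_zero, zero_add, h4] at h2
    exact h2.symm
  obtain ⟨d, hd⟩ := TT_dvd (a := (0 : ℂ)) (x := c 0) (by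
    rw [R275.Loc2879.isUnit_iff, not_not]; exact h1)
  rw [h, hd, map_mul]
  refine Ideal.add_mem _ (Ideal.mul_mem_left _ _ (Ideal.subset_span (by simp)))
    (Ideal.mul_mem_right _ _ (Ideal.subset_span (by simp [Zv])))

lemma Wv_mem : Wv (0 : ℂ) ∈ mm := Ideal.subset_span (by simp)
lemma Zv_mem : Zv (0 : ℂ) ∈ mm := Ideal.subset_span (by simp)

/-- elements of `mm^(k+1)` -/
lemma mem_pow_succ {k : ℕ} {F : OO o2} (hF : F ∈ mm ^ (k + 1)) :
    ∃ A ∈ mm ^ k, ∃ B ∈ mm ^ k, F = Zv 0 * A + Wv 0 * B := by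
  rw [pow_succ', mm, Ideal.span_insert, Ideal.sup_mul] at hF
  obtain ⟨a, ha, b, hb, rfl⟩ := Submodule.mem_sup.1 hF
  obtain ⟨A, hA, rfl⟩ := Ideal.mem_span_singleton_mul.1 ha
  obtain ⟨B, hB, rfl⟩ := Ideal.mem_span_singleton_mul.1 hb
  exact ⟨A, by rwa [mm, Ideal.span_insert], B, by rwa [mm, Ideal.span_insert], rfl⟩

lemma mul_mem_pow_succ {k : ℕ} {x A : OO o2} (hx : x ∈ mm) (hA : A ∈ mm ^ k) :
    x * A ∈ mm ^ (k + 1) := by
  rw [pow_succ']; exact Ideal.mul_mem_mul hx hA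

lemma split_pow : ∀ (k : ℕ) {F : OO o2}, F ∈ mm ^ (k + 1) →
    ∃ A ∈ mm ^ k, ∃ e, F = Zv 0 * A + e * Wv 0 ^ (k + 1) := by
  intro k
  induction k with
  | zero =>
    intro F hF
    obtain ⟨A, hA, B, hB, rfl⟩ := mem_pow_succ hF
    exact ⟨A, hA, B, by ring⟩
  | succ k ih =>
    intro F hF
    obtain ⟨A, hA, B, hB, rfl⟩ := mem_pow_succ hF
    obtain ⟨A', hA', e, rfl⟩ := ih hB
    exact ⟨A + Wv 0 * A', Ideal.add_mem _ hA (mul_mem_pow_succ Wv_mem hA'), e, by ring⟩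

variable {h : OO o2} {m : ℕ}

lemma claim1 (hm : h ∈ mm ^ (m + 1)) (hr : Reg h (m + 1)) {F : OO o2} (hF : F ∈ mm ^ (m + 1)) :
    ∃ A ∈ mm ^ m, ∃ b, F = Zv 0 * A + b * h := by
  obtain ⟨A, hA, e, he⟩ := split_pow m hm
  obtain ⟨A', hA', e', he'⟩ := split_pow m hF
  have hu : IsUnit e := by
    obtain ⟨u, hu⟩ := hr
    have h1 := congrArg (rho (0 : ℂ)) he
    have h2 : rho (0 : ℂ) (Zv 0) = 0 := by
      rw [Zv, rho_iot]
      have : evp (0 : ℂ) (TT 0) = 0 := by
        have := TT_not_unit (a := (0 : ℂ))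
        rwa [R275.Loc2879.isUnit_iff, not_not] at this
      rw [this, map_zero]
    rw [map_add, map_mul, map_mul, map_pow, h2, zero_mul, zero_add, rho_Wv, hu, mul_comm] at h1
    have h3 : (u : OO (0 : ℂ)) = rho 0 e := by
      have h4 : (u : OO (0 : ℂ)) * TT 0 ^ (m + 1) = rho 0 e * TT 0 ^ (m + 1) := h1
      exact mul_right_cancel₀ (pow_ne_zero _ TT_ne_zero) h4
    rw [R275.Loc2879.isUnit_iff, ← evp_rho, ← R275.Loc2879.isUnit_iff, ← h3]
    exact u.isUnit
  obtain ⟨v, rfl⟩ := hu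
  refine ⟨A' - e' * (v⁻¹ : (OO o2)ˣ) * A, Ideal.sub_mem _ hA' (Ideal.mul_mem_left _ _ hA),
    e' * (v⁻¹ : (OO o2)ˣ), ?_⟩
  rw [he', he]
  have h5 : ((v⁻¹ : (OO o2)ˣ) : OO o2) * v = 1 := v.inv_mul
  linear_combination (-(e' * Wv 0 ^ (m + 1))) * h5

lemma claim2 (hm : h ∈ mm ^ (m + 1)) (hr : Reg h (m + 1)) : ∀ (j : ℕ) {F : OO o2},
    F ∈ mm ^ (m + j + 1) → ∃ A ∈ mm ^ (m + j), ∃ b, F = Zv 0 * A + b * h := by
  intro j
  induction j with
  | zero => intro F hF; exact claim1 hm hr hF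
  | succ j ih =>
    intro F hF
    obtain ⟨A, hA, B, hB, rfl⟩ := mem_pow_succ hF
    obtain ⟨A1, hA1, a, rfl⟩ := ih hA
    obtain ⟨B1, hB1, b, rfl⟩ := ih hB
    exact ⟨Zv 0 * A1 + Wv 0 * B1, Ideal.add_mem _ (mul_mem_pow_succ Zv_mem hA1)
      (mul_mem_pow_succ Wv_mem hB1), Zv 0 * a + Wv 0 * b, by ring⟩

lemma claim3 (hm : h ∈ mm ^ (m + 1)) (hr : Reg h (m + 1)) : ∀ (k : ℕ) {F : OO o2},
    F ∈ mm ^ (m + k) → ∃ A ∈ mm ^ m, ∃ b, F = Zv 0 ^ k * A + b * h := by
  intro k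
  induction k with
  | zero => intro F hF; exact ⟨F, hF, 0, by ring⟩
  | succ k ih =>
    intro F hF
    obtain ⟨A, hA, b, rfl⟩ := claim2 hm hr k hF
    obtain ⟨A', hA', b', rfl⟩ := ih hA
    exact ⟨A', hA', Zv 0 * b' + b, by ring⟩

/-! ### derivatives and growth -/

lemma dY_mem : ∀ (k : ℕ) {F : ℂ × ℂ → ℂ} (hF : AnalyticAt ℂ F o2), gm F hF ∈ mm ^ (k + 1) →
    gm (dY F) (an_dY hF) ∈ mm ^ k := by
  intro k
  induction k with
  | zero => intro F hF _; simp
  | succ k ih =>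
    intro F hF hmem
    obtain ⟨A, hA, B, hB, e⟩ := mem_pow_succ hmem
    obtain ⟨a, ha, rfl⟩ := exists_gm A
    obtain ⟨b, hb, rfl⟩ := exists_gm B
    have e1 : ∀ᶠ p in 𝓝 o2, F p = p.1 * a p + p.2 * b p := by
      rw [Zv_eq, Wv, gm_mul, gm_mul, gm_add, gm_eq_gm] at e
      filter_upwards [e] with p hp
      rw [hp]; simp
    have e2 : gm (dY F) (an_dY hF) = Zv 0 * gm (dY a) (an_dY ha) +
        (gm b hb + Wv 0 * gm (dY b) (an_dY hb)) := by
      rw [Zv_eq, Wv, gm_mul, gm_mul, gm_add, gm_add, gm_eq_gm]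
      filter_upwards [e1.eventually_nhds, ha.eventually_analyticAt, hb.eventually_analyticAt,
        hF.eventually_analyticAt] with p h1 h2 h3 h4
      have d1 : (fun y => F (p.1, y)) =ᶠ[𝓝 p.2] fun y => p.1 * a (p.1, y) + y * b (p.1, y) := by
        have ht : Tendsto (fun y : ℂ => (p.1, y)) (𝓝 p.2) (𝓝 p) :=
          (continuous_const.prodMk continuous_id).tendsto' _ _ rfl
        exact ht.eventually h1
      have d2 := ((hasDerivAt_fibre (h := a) (x := p.1) (y := p.2) h2).const_mul p.1).add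
        ((hasDerivAt_id p.2).mul (hasDerivAt_fibre (h := b) (x := p.1) (y := p.2) h3))
      have d3 := (hasDerivAt_fibre (h := F) (x := p.1) (y := p.2) h4).unique
        (d2.congr_of_eventuallyEq d1)
      change dY F p = _ at d3
      rw [d3]
      simp
    rw [e2]
    exact Ideal.add_mem _ (mul_mem_pow_succ Zv_mem (ih ha hA))
      (Ideal.add_mem _ hB (mul_mem_pow_succ Wv_mem (ih hb hB)))

lemma growth : ∀ (k : ℕ) {F : ℂ × ℂ → ℂ} (hF : AnalyticAt ℂ F o2), gm F hF ∈ mm ^ k →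
    ∃ C : ℝ, 0 < C ∧ ∀ᶠ p in 𝓝 o2, ‖F p‖ ≤ C * ‖p‖ ^ k := by
  intro k
  induction k with
  | zero =>
    intro F hF _
    refine ⟨‖F o2‖ + 1, by positivity, ?_⟩
    filter_upwards [hF.continuousAt.norm.eventually_lt_const (lt_add_one _)] with p hp
    rw [pow_zero, mul_one]; exact hp.le
  | succ k ih =>
    intro F hF hmem
    obtain ⟨A, hA, B, hB, e⟩ := mem_pow_succ hmem
    obtain ⟨a, ha, rfl⟩ := exists_gm A
    obtain ⟨b, hb, rfl⟩ := exists_gm B
    have e1 : ∀ᶠ p in 𝓝 o2, F p = p.1 * a p + p.2 * b p := by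
      rw [Zv_eq, Wv, gm_mul, gm_mul, gm_add, gm_eq_gm] at e
      filter_upwards [e] with p hp
      rw [hp]; simp
    obtain ⟨C1, hC1, h1⟩ := ih ha hA
    obtain ⟨C2, hC2, h2⟩ := ih hb hB
    refine ⟨C1 + C2, by positivity, ?_⟩
    filter_upwards [e1, h1, h2] with p h3 h4 h5
    rw [h3]
    have h6 : ‖p.1‖ ≤ ‖p‖ := norm_fst_le p
    have h7 : ‖p.2‖ ≤ ‖p‖ := norm_snd_le p
    calc ‖p.1 * a p + p.2 * b p‖ ≤ ‖p.1‖ * ‖a p‖ + ‖p.2‖ * ‖b p‖ := by
          refine (norm_add_le _ _).trans ?_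
          rw [norm_mul, norm_mul]
      _ ≤ ‖p‖ * (C1 * ‖p‖ ^ k) + ‖p‖ * (C2 * ‖p‖ ^ k) := by gcongr
      _ = (C1 + C2) * ‖p‖ ^ (k + 1) := by ring

/-- on the curve `|y| ≤ C |x|` -/
lemma curve_cone {H : ℂ × ℂ → ℂ} {hH : AnalyticAt ℂ H o2} (hm : gm H hH ∈ mm ^ (m + 1))
    (hr : Reg (gm H hH) (m + 1)) : ∃ C : ℝ, 1 ≤ C ∧ ∀ᶠ p in 𝓝 o2, H p = 0 → ‖p.2‖ ≤ C * ‖p.1‖ := by
  have hW : Wv (0 : ℂ) ^ (m + 1) ∈ mm ^ (m + 1) := Ideal.pow_mem_pow Wv_mem _
  obtain ⟨A, hA, b, e⟩ := claim1 hm hr hW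
  obtain ⟨a, ha, rfl⟩ := exists_gm A
  obtain ⟨b, hb, rfl⟩ := exists_gm b
  rw [Zv_eq, Wv, gm_mul, gm_mul, gm_add, gm_pow, gm_eq_gm] at e
  obtain ⟨C, hC, h1⟩ := growth m ha hA
  refine ⟨max C 1, le_max_right _ _, ?_⟩
  filter_upwards [e, h1] with p h2 h3 h4
  by_cases hle : ‖p.2‖ ≤ ‖p.1‖
  · calc ‖p.2‖ ≤ 1 * ‖p.1‖ := by rw [one_mul]; exact hle
      _ ≤ max C 1 * ‖p.1‖ := by gcongr; exact le_max_right _ _
  · push Not at hle
    have hn : ‖p‖ = ‖p.2‖ := by rw [Prod.norm_def]; exact max_eq_right hle.le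
    have hpos : 0 < ‖p.2‖ := (norm_nonneg _).trans_lt hle
    have h5 : p.2 ^ (m + 1) = p.1 * a p := by
      simpa [h4] using h2
    have h6 : ‖p.2‖ ^ m * ‖p.2‖ ≤ ‖p.2‖ ^ m * (C * ‖p.1‖) := by
      calc ‖p.2‖ ^ m * ‖p.2‖ = ‖p.1 * a p‖ := by rw [← h5, norm_pow, pow_succ]
        _ = ‖p.1‖ * ‖a p‖ := norm_mul _ _
        _ ≤ ‖p.1‖ * (C * ‖p.2‖ ^ m) := by rw [hn] at h3; gcongr
        _ = ‖p.2‖ ^ m * (C * ‖p.1‖) := by ring
    have h7 := le_of_mul_le_mul_left h6 (pow_pos hpos m)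
    exact h7.trans (by gcongr; exact le_max_left _ _)

/-- on the curve `|h_y| ≤ C |x|^(m-1)` -/
lemma curve_dY {H : ℂ × ℂ → ℂ} {hH : AnalyticAt ℂ H o2} (hm : gm H hH ∈ mm ^ (m + 1))
    (hr : Reg (gm H hH) (m + 1)) :
    ∃ C : ℝ, 0 < C ∧ ∀ᶠ p in 𝓝 o2, H p = 0 → ‖dY H p‖ ≤ C * ‖p.1‖ ^ m := by
  obtain ⟨C, hC, h1⟩ := curve_cone hm hr
  obtain ⟨C', hC', h2⟩ := growth m (an_dY hH) (dY_mem m hH hm)
  refine ⟨C' * C ^ m, by positivity, ?_⟩
  filter_upwards [h1, h2] with p h3 h4 h5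
  have h6 := h3 h5
  have h7 : ‖p‖ ≤ C * ‖p.1‖ := by
    rw [Prod.norm_def]
    refine max_le ?_ h6
    calc ‖p.1‖ = 1 * ‖p.1‖ := (one_mul _).symm
      _ ≤ C * ‖p.1‖ := by gcongr
  calc ‖dY H p‖ ≤ C' * ‖p‖ ^ m := h4
    _ ≤ C' * (C * ‖p.1‖) ^ m := by gcongr
    _ = C' * C ^ m * ‖p.1‖ ^ m := by ring

/-! ### the exact function -/

theorem exists_exact {H : ℂ × ℂ → ℂ} {hH : AnalyticAt ℂ H o2} (hm2 : 2 ≤ m)
    (hm : gm H hH ∈ mm ^ (m + 1)) (hr : Reg (gm H hH) (m + 1))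
    (hrel : IsRelPrime (gm H hH) (gm (dY H) (an_dY hH))) :
    ∃ (g : ℂ × ℂ → ℂ) (hg : AnalyticAt ℂ g o2), (∀ᶠ p in 𝓝 o2, H p = 0 → dY H p ^ 2 = p.1 ^ 2 * g p) ∧
      IsRelPrime (gm H hH) (gm g hg) ∧
      inum (gm H hH) (gm g hg) + 2 * (m + 1) = 2 * inum (gm H hH) (gm (dY H) (an_dY hH)) := by
  have h1 : gm (dY H) (an_dY hH) ^ 2 ∈ mm ^ (m + m) := by
    rw [sq, pow_add]
    exact Ideal.mul_mem_mul (dY_mem m hH hm) (dY_mem m hH hm)
  obtain ⟨A, hA, b, e⟩ := claim3 hm hr m h1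
  obtain ⟨k, rfl⟩ := Nat.exists_eq_add_of_le hm2
  obtain ⟨g, hg, hge⟩ := exists_gm (Zv 0 ^ k * A)
  have e2 : gm (dY H) (an_dY hH) ^ 2 = Zv 0 ^ 2 * gm g hg + b * gm H hH := by
    rw [hge, e]; ring
  have hr2 : IsRelPrime (gm H hH) (gm (dY H) (an_dY hH) ^ 2) := hrel.pow_right
  have hr3 : IsRelPrime (gm H hH) (Zv 0 ^ 2 * gm g hg) := by
    intro d hd1 hd2
    refine hr2 hd1 ?_
    rw [e2]
    exact dvd_add hd2 (Dvd.dvd.mul_left hd1 _)
  have hr4 : IsRelPrime (gm H hH) (gm g hg) := hr3.of_dvd_right (Dvd.intro_left _ rfl)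
  have hrZ := isRelPrime_Zv hr
  refine ⟨g, hg, ?_, hr4, ?_⟩
  · obtain ⟨B, hB, rfl⟩ := exists_gm b
    rw [Zv_eq, gm_pow, gm_pow, gm_mul, gm_mul, gm_add, gm_eq_gm] at e2
    filter_upwards [e2] with p hp h0
    simpa [h0] using hp
  · have h2 : inum (gm H hH) (gm (dY H) (an_dY hH) ^ 2) =
        inum (gm H hH) (gm (dY H) (an_dY hH)) + inum (gm H hH) (gm (dY H) (an_dY hH)) := by
      rw [sq, inum_mul (F := ℂ × ℂ) (by simp) hrel hrel]
    have h3 : inum (gm H hH) (gm (dY H) (an_dY hH) ^ 2) =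
        inum (gm H hH) (Zv 0) + inum (gm H hH) (Zv 0) + inum (gm H hH) (gm g hg) := by
      rw [e2, inum_add_mul, inum_mul (F := ℂ × ℂ) (by simp) hrZ.pow_right hr4, sq,
        inum_mul (F := ℂ × ℂ) (by simp) hrZ hrZ]
    rw [inum_Zv hr] at h3
    omega

end Crest.Agent.R257.N2_328
end
end

-- ▼ part R257/N2H_328
section

/-!
Row 257 (S0395), leaf LC-N2, file H (helper328): the exact function belongs to `J_p(f)` for `p < 2`.
-/

set_option autoImplicit false

open Set Filter Topology Metric Complex MeasureTheory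
open Crest.Agent.R275.Loc2879
open Crest.Agent.R257.Defs_219
open Crest.AlgGeometry.Germ
open scoped ENNReal

noncomputable section

namespace Crest.Agent.R257.N2_328

variable {m : ℕ}

/-- a sum over at most `d` points -/
lemma tsum_le_of_roots {P : Polynomial ℂ} (hP : P ≠ 0) {Q : ℂ → Prop} (hQ : ∀ z, Q z → P.eval z = 0)
    {F : {z : ℂ // Q z} → ℝ≥0∞} {K : ℝ≥0∞} (hF : ∀ z, F z ≤ K) :
    ∑' z : {z : ℂ // Q z}, F z ≤ P.natDegree * K := by
  classical
  let T := P.roots.toFinset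
  let ι : {z : ℂ // Q z} → T := fun z => ⟨z.1, by
    rw [Multiset.mem_toFinset, Polynomial.mem_roots hP]; exact hQ z.1 z.2⟩
  have hι : Function.Injective ι := by
    intro z w hzw
    exact Subtype.ext (congrArg (fun t : T => t.1) hzw)
  calc ∑' z : {z : ℂ // Q z}, F z ≤ ∑' z : {z : ℂ // Q z}, (fun _ : T => K) (ι z) :=
        ENNReal.tsum_le_tsum fun z => hF z
    _ ≤ ∑' _ : T, K := ENNReal.tsum_comp_le_tsum_of_injective hι _
    _ = (T.card : ℝ≥0∞) * K := by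
        rw [tsum_fintype, Finset.sum_const, Finset.card_univ, Fintype.card_coe, nsmul_eq_mul]
    _ ≤ P.natDegree * K := by
        gcongr
        exact (Multiset.toFinset_card_le _).trans (Polynomial.card_roots' P)

theorem exact_InJ {f : (Fin 2 → ℂ) → ℂ} (hf : AnalyticAt ℂ f 0) (hm2 : 2 ≤ m)
    (hm : gm (two f) (an_two hf) ∈ mm ^ (m + 1)) (hr : Reg (gm (two f) (an_two hf)) (m + 1))
    {g : ℂ × ℂ → ℂ} (hid : ∀ᶠ p in 𝓝 o2, two f p = 0 → dY (two f) p ^ 2 = p.1 ^ 2 * g p)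
    {p : ℝ} (hp : 0 < p) (hp2 : p < 2) : InJN p f (g ∘ phi) := by
  obtain ⟨a, U, ha, ha0, hU, hU0, hfac⟩ := exists_wpoly hr
  obtain ⟨C, hC, hcv⟩ := curve_dY hm hr
  have hU1 : ∀ᶠ q in 𝓝 o2, U q ≠ 0 := hU.continuousAt.eventually_ne hU0
  have han : ∀ᶠ q in 𝓝 o2, AnalyticAt ℂ f (psi q) :=
    tendsto_psi.eventually hf.eventually_analyticAt
  obtain ⟨r, hr0, hball⟩ := Metric.eventually_nhds_iff_ball.1
    ((hid.and hcv).and ((hfac.and hU1).and han))
  have e4 : 0 < 4 / p - 2 := by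
    rw [sub_pos, lt_div_iff₀ hp]; linarith
  set β : ℝ := m * (4 / p - 2) - 4 / p with hβ
  have hβ2 : -2 < β := by
    have h1 : (2 : ℝ) ≤ m := by exact_mod_cast hm2
    have h2 : 2 * (4 / p - 2) ≤ m * (4 / p - 2) := mul_le_mul_of_nonneg_right h1 e4.le
    rw [hβ]; linarith
  set K : ℝ := C ^ (4 / p - 2) with hK
  have hK0 : 0 < K := Real.rpow_pos_of_pos hC _
  refine ⟨r, hr0, ?_⟩
  rw [JintN_eq]
  have hpt : ∀ x : ℂ, x ∈ ball (0 : ℂ) r → x ≠ 0 →
      sh p r f (g ∘ phi) x ≤ ((m + 1 : ℕ) : ℝ≥0∞) * ENNReal.ofReal (K * ‖x‖ ^ β) := by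
    intro x hx hx0
    rw [mem_ball_zero_iff] at hx
    have hxpos : 0 < ‖x‖ := norm_pos_iff.2 hx0
    have hmem : ∀ z : ℂ, ‖z‖ < r → ((x, z) : ℂ × ℂ) ∈ ball o2 r := by
      intro z hz
      rw [Metric.mem_ball, dist_eq_norm]
      simp only [Prod.norm_def, Prod.fst_sub, Prod.snd_sub, sub_zero]
      exact max_lt hx hz
    have hdeg : (wp a (m + 1) x).natDegree = m + 1 := wp_natDegree a (m + 1) x
    rw [← hdeg]
    refine tsum_le_of_roots (wp_monic a (m + 1) x).ne_zero ?_ ?_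
    · rintro z ⟨hz, hz0, -⟩
      obtain ⟨⟨-, -⟩, ⟨h3, h4⟩, -⟩ := hball _ (hmem z hz)
      have h5 : two f (x, z) = 0 := hz0
      rw [h5, ← wp_eval] at h3
      exact (mul_eq_zero.1 h3.symm).resolve_left h4
    · rintro ⟨z, hz, hz0, hne⟩
      obtain ⟨⟨h1, h2⟩, -, h5⟩ := hball _ (hmem z hz)
      have h6 : two f (x, z) = 0 := hz0
      have h7 : dY (two f) (x, z) = coordDeriv f 0 (psi (x, z)) := dY_two h5
      have h8 := h1 h6
      have h9 := h2 h6
      rw [h7] at h8 h9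
      refine ENNReal.ofReal_le_ofReal ?_
      change ‖g (phi (psi (x, z)))‖ ^ (2 / p) / ‖coordDeriv f 0 (psi (x, z))‖ ^ 2 ≤ K * ‖x‖ ^ β
      rw [phi_psi]
      set D := coordDeriv f 0 (psi (x, z)) with hD
      have hDpos : 0 < ‖D‖ := norm_pos_iff.2 hne
      have e1 : ‖g (x, z)‖ = ‖D‖ ^ 2 / ‖x‖ ^ 2 := by
        rw [eq_div_iff (by positivity), ← norm_pow D, h8, norm_mul, norm_pow]; ring
      have e2 : (‖D‖ ^ 2 / ‖x‖ ^ 2) ^ (2 / p) / ‖D‖ ^ 2 = ‖D‖ ^ (4 / p - 2) * ‖x‖ ^ (-(4 / p)) := by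
        rw [Real.div_rpow (by positivity) (by positivity), ← Real.rpow_natCast ‖D‖ 2,
          ← Real.rpow_natCast ‖x‖ 2, ← Real.rpow_mul hDpos.le, ← Real.rpow_mul hxpos.le,
          Real.rpow_sub hDpos, Real.rpow_neg hxpos.le]
        have : ((2 : ℕ) : ℝ) * (2 / p) = 4 / p := by push_cast; ring
        rw [this]
        have h10 : ‖D‖ ^ (2 : ℝ) ≠ 0 := (Real.rpow_pos_of_pos hDpos _).ne'
        have h11 : ‖x‖ ^ (4 / p) ≠ 0 := (Real.rpow_pos_of_pos hxpos _).ne'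
        push_cast
        field_simp
      rw [e1, e2]
      have e3 : ‖D‖ ^ (4 / p - 2) ≤ (C * ‖x‖ ^ m) ^ (4 / p - 2) :=
        Real.rpow_le_rpow hDpos.le h9 e4.le
      calc ‖D‖ ^ (4 / p - 2) * ‖x‖ ^ (-(4 / p))
          ≤ (C * ‖x‖ ^ m) ^ (4 / p - 2) * ‖x‖ ^ (-(4 / p)) := by gcongr
        _ = K * ‖x‖ ^ β := by
          rw [Real.mul_rpow hC.le (by positivity), ← Real.rpow_natCast ‖x‖ m,
            ← Real.rpow_mul hxpos.le, mul_assoc, ← Real.rpow_add hxpos, hβ]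
          rfl
  have hae : ∀ᵐ x : ℂ ∂(volume.restrict (ball (0 : ℂ) r)),
      sh p r f (g ∘ phi) x ≤ ((m + 1 : ℕ) : ℝ≥0∞) * ENNReal.ofReal (K * ‖x‖ ^ β) := by
    have h0 : ∀ᵐ x : ℂ ∂(volume.restrict (ball (0 : ℂ) r)), x ≠ 0 :=
      ae_restrict_of_ae (by simp [ae_iff])
    filter_upwards [ae_restrict_mem measurableSet_ball, h0] with x hx hx0
    exact hpt x hx hx0
  refine (lintegral_mono_ae hae).trans_lt ?_
  rw [lintegral_const_mul' _ _ (ENNReal.natCast_ne_top _)]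
  refine ENNReal.mul_lt_top (ENNReal.natCast_lt_top _) ?_
  have h1 : ∀ x : ℂ, ENNReal.ofReal (K * ‖x‖ ^ β) =
      ENNReal.ofReal K * ENNReal.ofReal (‖x‖ ^ β) := fun x => ENNReal.ofReal_mul hK0.le
  simp only [h1]
  rw [lintegral_const_mul' _ _ ENNReal.ofReal_ne_top]
  exact ENNReal.mul_lt_top ENNReal.ofReal_lt_top (lintegral_norm_rpow_lt_top hr0 hβ2)

end Crest.Agent.R257.N2_328
end
end

-- ▼ part R257/N2I_328
section

/-!
Row 257 (S0395), leaf LC-N2, file I (helper328): generic linear coordinates: after a shear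
`(x, y) ↦ (x + s y, y)` a nonzero germ `h ∈ m^k` is regular of order `k` in `y`.
-/

set_option autoImplicit false

open Set Filter Topology Metric Complex MeasureTheory
open Crest.Agent.R275.Loc2879
open Crest.Agent.R257.Defs_219
open Crest.AlgGeometry.Germ
open scoped ENNReal

noncomputable section

namespace Crest.Agent.R257.N2_328

variable {m : ℕ}

lemma mm_ne_top : (mm : Ideal (OO o2)) ≠ ⊤ := by
  intro h
  have h1 : (1 : OO o2) ∈ mm := by rw [h]; trivial
  obtain ⟨a, b, hab⟩ := Ideal.mem_span_pair.1 h1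
  have h2 := congrArg (evp o2) hab
  have h3 : evp o2 (Wv (0 : ℂ)) = 0 := rfl
  have h4 : evp o2 (Zv (0 : ℂ)) = 0 := by
    rw [Zv_eq]; change (0 : ℂ) - 0 = 0; simp
  rw [map_add, map_mul, map_mul, h3, h4, map_one] at h2
  simp at h2

/-- the multiplicity -/
lemma exists_mult {h : OO o2} (h0 : h ≠ 0) : ∃ m, h ∈ mm ^ m ∧ h ∉ mm ^ (m + 1) := by
  classical
  have h1 : ∃ k, h ∉ mm ^ k := by
    by_contra hcon
    push Not at hcon
    have h2 : h ∈ ⨅ i : ℕ, (mm : Ideal (OO o2)) ^ i := by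
      rw [Submodule.mem_iInf]; exact hcon
    rw [Ideal.iInf_pow_eq_bot_of_isLocalRing _ mm_ne_top] at h2
    exact h0 h2
  have h2 := Nat.find_spec h1
  rcases hk : Nat.find h1 with _ | k
  · rw [hk, pow_zero] at h2; exact absurd (by simp) h2
  · rw [hk] at h2
    refine ⟨k, ?_, h2⟩
    have := Nat.find_min h1 (m := k) (by omega)
    rwa [not_not] at this

/-- the leading form -/
lemma exists_lead : ∀ (m : ℕ) {h : OO o2}, h ∈ mm ^ m →
    ∃ c : ℕ → ℂ, h - ∑ i ∈ Finset.range (m + 1), algebraMap ℂ (OO o2) (c i) *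
      (Zv 0 ^ i * Wv 0 ^ (m - i)) ∈ mm ^ (m + 1) := by
  intro m
  induction m with
  | zero =>
    intro h _
    refine ⟨fun _ => evp o2 h, ?_⟩
    simp only [zero_add, Finset.range_one, Finset.sum_singleton, pow_zero, mul_one, pow_one,
      Nat.sub_zero]
    refine mem_mm_of_not_isUnit ?_
    rw [R275.Loc2879.isUnit_iff, not_not, map_sub]
    have : evp o2 (algebraMap ℂ (OO o2) (evp o2 h)) = evp o2 h := rfl
    rw [this, sub_self]
  | succ m ih =>
    intro h hh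
    obtain ⟨A, hA, B, hB, rfl⟩ := mem_pow_succ hh
    obtain ⟨a, ha⟩ := ih hA
    obtain ⟨b, hb⟩ := ih hB
    refine ⟨fun i => (if i = 0 then 0 else a (i - 1)) + (if i = m + 1 then 0 else b i), ?_⟩
    have h1 := Ideal.add_mem _ (mul_mem_pow_succ Zv_mem ha) (mul_mem_pow_succ Wv_mem hb)
    convert h1 using 1
    have e1 : ∑ i ∈ Finset.range (m + 1 + 1), algebraMap ℂ (OO o2)
        (if i = 0 then 0 else a (i - 1)) * (Zv 0 ^ i * Wv 0 ^ (m + 1 - i)) =
        Zv 0 * ∑ i ∈ Finset.range (m + 1), algebraMap ℂ (OO o2) (a i) *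
          (Zv 0 ^ i * Wv 0 ^ (m - i)) := by
      rw [Finset.sum_range_succ', Finset.mul_sum]
      simp only [if_true, map_zero, zero_mul, add_zero, Nat.add_sub_cancel, Nat.succ_ne_zero,
        if_false, Nat.add_sub_add_right]
      refine Finset.sum_congr rfl fun i _ => ?_
      ring
    have e2 : ∑ i ∈ Finset.range (m + 1 + 1), algebraMap ℂ (OO o2)
        (if i = m + 1 then 0 else b i) * (Zv 0 ^ i * Wv 0 ^ (m + 1 - i)) =
        Wv 0 * ∑ i ∈ Finset.range (m + 1), algebraMap ℂ (OO o2) (b i) *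
          (Zv 0 ^ i * Wv 0 ^ (m - i)) := by
      rw [Finset.sum_range_succ, Finset.mul_sum]
      simp only [if_true, map_zero, zero_mul, add_zero]
      refine Finset.sum_congr rfl fun i hi => ?_
      have hi' := Finset.mem_range.1 hi
      rw [if_neg (by omega), show m + 1 - i = (m - i) + 1 by omega]
      ring
    have e3 : ∑ i ∈ Finset.range (m + 1 + 1), algebraMap ℂ (OO o2)
        ((if i = 0 then 0 else a (i - 1)) + (if i = m + 1 then 0 else b i)) *
          (Zv 0 ^ i * Wv 0 ^ (m + 1 - i)) =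
        ∑ i ∈ Finset.range (m + 1 + 1), algebraMap ℂ (OO o2)
          (if i = 0 then 0 else a (i - 1)) * (Zv 0 ^ i * Wv 0 ^ (m + 1 - i)) +
        ∑ i ∈ Finset.range (m + 1 + 1), algebraMap ℂ (OO o2)
          (if i = m + 1 then 0 else b i) * (Zv 0 ^ i * Wv 0 ^ (m + 1 - i)) := by
      rw [← Finset.sum_add_distrib]
      refine Finset.sum_congr rfl fun i _ => ?_
      rw [map_add, add_mul]
    rw [e3, e1, e2]
    ring

/-- the shear -/
def shear (s : ℂ) (p : ℂ × ℂ) : ℂ × ℂ := (p.1 + s * p.2, p.2)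

lemma an_shear (s : ℂ) (p : ℂ × ℂ) : AnalyticAt ℂ (shear s) p :=
  (analyticAt_fst.fun_add (analyticAt_const.fun_mul analyticAt_snd)).prod analyticAt_snd

@[simp] lemma shear_zero (s : ℂ) : shear s o2 = o2 := by simp [shear]

/-- the ring homomorphism -/
def shR (s : ℂ) : OO o2 →+* OO o2 := pull (shear s) (an_shear s o2) (shear_zero s)

lemma shR_Wv (s : ℂ) : shR s (Wv 0) = Wv 0 := rfl

lemma shR_Zv (s : ℂ) : shR s (Zv 0) = Zv 0 + algebraMap ℂ (OO o2) s * Wv 0 := by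
  rw [Zv_eq, shR, pull_gm, Wv, R275.Loc2879.algebraMap_apply, gm_mul, gm_add, gm_eq_gm]
  exact Eventually.of_forall fun p => by simp [shear]

lemma shR_algebraMap (s c : ℂ) : shR s (algebraMap ℂ (OO o2) c) = algebraMap ℂ (OO o2) c := rfl

lemma shR_mm (s : ℂ) : mm.map (shR s) ≤ mm := by
  rw [mm, Ideal.map_span, Ideal.span_le]
  rintro _ ⟨x, hx, rfl⟩
  rcases hx with rfl | hx
  · rw [shR_Zv]
    exact Ideal.add_mem _ Zv_mem (Ideal.mul_mem_left _ _ Wv_mem)
  · rw [mem_singleton_iff] at hx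
    rw [hx, shR_Wv]; exact Wv_mem

lemma shR_pow (s : ℂ) {k : ℕ} {x : OO o2} (hx : x ∈ mm ^ k) : shR s x ∈ mm ^ k := by
  have h1 : shR s x ∈ (mm ^ k).map (shR s) := Ideal.mem_map_of_mem _ hx
  rw [Ideal.map_pow] at h1
  exact Ideal.pow_right_mono (shR_mm s) k h1

lemma rho_Zv : rho (0 : ℂ) (Zv 0) = 0 := by
  rw [Zv, rho_iot]
  have : evp (0 : ℂ) (TT 0) = 0 := by
    have := TT_not_unit (a := (0 : ℂ))
    rwa [R275.Loc2879.isUnit_iff, not_not] at this
  rw [this, map_zero]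

lemma rho_pow {k : ℕ} {x : OO o2} (hx : x ∈ mm ^ k) : TT (0 : ℂ) ^ k ∣ rho (0 : ℂ) x := by
  have h1 : rho (0 : ℂ) x ∈ (mm ^ k).map (rho (0 : ℂ)) := Ideal.mem_map_of_mem _ hx
  rw [Ideal.map_pow] at h1
  have h2 : (mm : Ideal (OO o2)).map (rho (0 : ℂ)) ≤ Ideal.span {TT (0 : ℂ)} := by
    rw [mm, Ideal.map_span, Ideal.span_le]
    rintro _ ⟨x, hx, rfl⟩
    rcases hx with rfl | hx
    · rw [rho_Zv]; exact Ideal.zero_mem _
    · rw [mem_singleton_iff] at hx
      rw [hx, rho_Wv]; exact Ideal.subset_span rfl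
  have h3 := Ideal.pow_right_mono h2 k h1
  rwa [Ideal.span_singleton_pow, Ideal.mem_span_singleton] at h3

lemma rho_algebraMap (c : ℂ) :
    rho (0 : ℂ) (algebraMap ℂ (OO o2) c) = algebraMap ℂ (OO (0 : ℂ)) c := rfl

/-- **generic linear coordinates** -/
theorem exists_shear {h : OO o2} (h0 : h ≠ 0) :
    ∃ (m : ℕ) (s : ℂ), shR s h ∈ mm ^ m ∧ Reg (shR s h) m := by
  obtain ⟨m, hm1, hm2⟩ := exists_mult h0
  obtain ⟨c, hc⟩ := exists_lead m hm1
  -- the polynomial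
  set P : Polynomial ℂ := ∑ i ∈ Finset.range (m + 1), Polynomial.C (c i) * Polynomial.X ^ i with hP
  have hPne : P ≠ 0 := by
    intro hP0
    apply hm2
    have h1 : ∀ i ∈ Finset.range (m + 1), c i = 0 := by
      intro i hi
      have h2 := congrArg (fun Q : Polynomial ℂ => Q.coeff i) hP0
      simp only [hP, Polynomial.finsetSum_coeff, Polynomial.coeff_C_mul, Polynomial.coeff_X_pow,
        mul_ite, mul_one, mul_zero, Polynomial.coeff_zero] at h2
      rw [Finset.sum_ite_eq, if_pos hi] at h2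
      exact h2
    rw [Finset.sum_eq_zero fun i hi => by rw [h1 i hi, map_zero, zero_mul], sub_zero] at hc
    exact hc
  obtain ⟨s, hs⟩ : ∃ s : ℂ, P.eval s ≠ 0 := by
    by_contra hcon
    push Not at hcon
    exact hPne (Polynomial.funext fun x => by rw [hcon x, Polynomial.eval_zero])
  refine ⟨m, s, shR_pow s hm1, ?_⟩
  have h1 := rho_pow (shR_pow s hc)
  rw [map_sub, map_sum, map_sub, map_sum] at h1
  have h2 : ∑ i ∈ Finset.range (m + 1), rho (0 : ℂ) (shR s (algebraMap ℂ (OO o2) (c i) *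
      (Zv 0 ^ i * Wv 0 ^ (m - i)))) = algebraMap ℂ (OO (0 : ℂ)) (P.eval s) * TT 0 ^ m := by
    rw [hP, Polynomial.eval_finsetSum, map_sum, Finset.sum_mul]
    refine Finset.sum_congr rfl fun i hi => ?_
    have hi' : i ≤ m := Nat.lt_succ_iff.1 (Finset.mem_range.1 hi)
    have e1 : rho (0 : ℂ) (shR s (Zv 0)) = algebraMap ℂ (OO (0 : ℂ)) s * TT 0 := by
      rw [shR_Zv, map_add, map_mul, rho_Zv, rho_Wv, rho_algebraMap, zero_add]
    have e2 : rho (0 : ℂ) (shR s (Wv 0)) = TT 0 := by rw [shR_Wv, rho_Wv]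
    simp only [map_mul, map_pow, e1, e2, shR_algebraMap, rho_algebraMap, Polynomial.eval_mul,
      Polynomial.eval_C, Polynomial.eval_pow, Polynomial.eval_X]
    rw [mul_pow, mul_assoc, mul_assoc, ← pow_add, show i + (m - i) = m by omega]
  rw [h2] at h1
  obtain ⟨d, hd⟩ := h1
  have h3 : rho (0 : ℂ) (shR s h) = TT 0 ^ m * (algebraMap ℂ (OO (0 : ℂ)) (P.eval s) + TT 0 * d) := by
    rw [pow_succ] at hd
    linear_combination hd
  have h4 : IsUnit (algebraMap ℂ (OO (0 : ℂ)) (P.eval s) + TT 0 * d) := by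
    rw [R275.Loc2879.isUnit_iff, map_add, map_mul]
    have h5 : evp (0 : ℂ) (TT 0) = 0 := by
      have := TT_not_unit (a := (0 : ℂ))
      rwa [R275.Loc2879.isUnit_iff, not_not] at this
    have h6 : evp (0 : ℂ) (algebraMap ℂ (OO (0 : ℂ)) (P.eval s)) = P.eval s := rfl
    rw [h5, zero_mul, add_zero, h6]
    exact hs
  exact ⟨h4.unit, by rw [h3, IsUnit.unit_spec]⟩

end Crest.Agent.R257.N2_328
end
end

-- ▼ part R257/N2J_328
section

/-!
Row 257 (S0395), leaf LC-N2, file J (helper328): assembly of the flag for a `μ`-constant family of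
plane curves, from the `L^{2/p}` extension theorem one dimension lower.
-/

set_option autoImplicit false

open Set Filter Topology Metric Complex MeasureTheory
open Crest.Agent.R275.Loc2879
open Crest.Agent.R257.Defs_219 Crest.Agent.R257.Skel_219 Crest.Agent.R257.LCDefs_472
open Crest.AlgGeometry.Germ
open scoped ENNReal

noncomputable section

namespace Crest.Agent.R257.N2_328

abbrev E2 : Type := Fin 2 → ℂ

/-- the `L^{2/p}` extension theorem for plane curves -/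
def OT2Stmt : Prop := ∀ (F : E2 × ℂ → ℂ) (g : E2 → ℂ) (p : ℝ), 1 ≤ p → AnalyticAt ℂ F (0, 0) →
  (∀ᶠ t in 𝓝 (0 : ℂ), F (0, t) = 0) → (∀ i, coordDeriv (sl F 0) i 0 = 0) → ColFin (par (sl F 0)) →
  (∃ᶠ z : ℂ in 𝓝[≠] 0, sl F 0 (Fin.cons z 0) ≠ 0) → AnalyticAt ℂ g 0 → InJN p (sl F 0) g →
  ∃ G : E2 × ℂ → ℂ, AnalyticAt ℂ G (0, 0) ∧
    (∃ a : E2 → ℂ, AnalyticAt ℂ a 0 ∧ ∀ᶠ x in 𝓝 (0 : E2), G (x, 0) = g x + a x * F (x, 0)) ∧
    ∃ δ : ℝ, 0 < δ ∧ ∀ᵐ t : ℂ, ‖t‖ < δ → InJN p (sl F t) (sl G t)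

/-- the flag of a family of plane curves -/
def Flag2 (q : E2 × ℂ → ℂ) : Prop := ∃ g : E2 × ℂ → ℂ, AnalyticAt ℂ g (0, 0) ∧
  (∀ᶠ t in 𝓝 (0 : ℂ), g (0, t) = 0) ∧
  ∀ᶠ p in 𝓝 ((0 : E2), (0 : ℂ)), p.1 ≠ 0 → q p = 0 → g p ≠ 0 ∧
    coordDeriv (sl q p.2) 1 p.1 * coordDeriv (sl g p.2) 0 p.1 -
      coordDeriv (sl q p.2) 0 p.1 * coordDeriv (sl g p.2) 1 p.1 ≠ 0

/-- the Jacobian determinant in the family -/
def JF (q G : E2 × ℂ → ℂ) (p : E2 × ℂ) : ℂ :=
  coordDeriv (sl q p.2) 1 p.1 * coordDeriv (sl G p.2) 0 p.1 -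
    coordDeriv (sl q p.2) 0 p.1 * coordDeriv (sl G p.2) 1 p.1

lemma an_JF {q G : E2 × ℂ → ℂ} (hq : AnalyticAt ℂ q (0, 0)) (hG : AnalyticAt ℂ G (0, 0)) :
    AnalyticAt ℂ (JF q G) (0, 0) :=
  ((analyticAt_pd hq 1).mul (analyticAt_pd hG 0)).sub
    ((analyticAt_pd hq 0).mul (analyticAt_pd hG 1))

lemma sl2 (F G : E2 × ℂ → ℂ) (t : ℂ) :
    (fun j => sl ((![F, G] : Fin 2 → E2 × ℂ → ℂ) j) t) = ![sl F t, sl G t] := by
  funext j; fin_cases j <;> rfl

lemma an2 {F G : E2 × ℂ → ℂ} (hF : AnalyticAt ℂ F (0, 0)) (hG : AnalyticAt ℂ G (0, 0)) :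
    ∀ j, AnalyticAt ℂ ((![F, G] : Fin 2 → E2 × ℂ → ℂ) j) 0 := by
  intro j; fin_cases j
  · exact hF
  · exact hG

variable {q : E2 × ℂ → ℂ} {μ m : ℕ}

/-- the order in `y` is finite for small `t` -/
lemma exists_reg_slice (hq : AnalyticAt ℂ q (0, 0)) {han : AnalyticAt ℂ (sl q 0) 0}
    (hreg : Reg (gm (two (sl q 0)) (an_two han)) m) :
    ∀ᶠ t in 𝓝 (0 : ℂ), ∀ han : AnalyticAt ℂ (sl q t) 0,
      ∃ n, Reg (gm (two (sl q t)) (an_two han)) n := by
  -- the restriction to the `y`-axis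
  have hΦ : AnalyticAt ℂ (fun p : ℂ × ℂ => q (psi (0, p.2), p.1)) o2 := by
    have h1 : AnalyticAt ℂ (fun p : ℂ × ℂ => ((psi (0, p.2), p.1) : E2 × ℂ)) o2 := by
      refine AnalyticAt.prod ?_ analyticAt_fst
      exact AnalyticAt.comp (g := psi) (f := fun p : ℂ × ℂ => ((0 : ℂ), p.2)) (an_psi _)
        (analyticAt_const.prod analyticAt_snd)
    refine AnalyticAt.fun_comp (g := q) (f := fun p : ℂ × ℂ => ((psi (0, p.2), p.1) : E2 × ℂ)) ?_ h1
    change AnalyticAt ℂ q (psi o2, 0)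
    rw [psi_zero]; exact hq
  have hregΦ : Reg (gm _ hΦ) m := by
    rw [reg_iff_order] at hreg ⊢
    exact hreg
  obtain ⟨a, U, ha, ha0, hU, hU0, hfac⟩ := exists_wpoly hregΦ
  have hU1 : ∀ᶠ p in 𝓝 o2, U p ≠ 0 := hU.continuousAt.eventually_ne hU0
  have h1 := (hfac.and hU1).curry_nhds
  filter_upwards [h1] with t ht han
  have hne : analyticOrderAt (fun w => two (sl q t) (0, w)) 0 ≠ ⊤ := by
    intro htop
    rw [analyticOrderAt_eq_top] at htop
    have h2 : ∀ᶠ w in 𝓝 (0 : ℂ), (wp a m t).eval w = 0 := by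
      filter_upwards [ht, htop] with w hw hw2
      have h3 : q (psi (0, w), t) = 0 := hw2
      have h4 : q (psi (0, w), t) = U (t, w) *
          (w ^ m + ∑ i ∈ Finset.range m, a i t * w ^ i) := hw.1
      rw [h3, ← wp_eval] at h4
      exact (mul_eq_zero.1 h4.symm).resolve_left hw.2
    have h3 : {w | (wp a m t).IsRoot w}.Infinite := infinite_of_mem_nhds (0 : ℂ) h2
    exact (wp_monic a m t).ne_zero (Polynomial.eq_zero_of_infinite_isRoot _ h3)
  obtain ⟨n, hn⟩ := ENat.ne_top_iff_exists.1 hne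
  exact ⟨n, by rw [reg_iff_order]; exact hn.symm⟩

/-- Teissier's formula for all small `t` -/
lemma slice_facts (hF : Fam q μ) {han : AnalyticAt ℂ (sl q 0) 0}
    (hreg : Reg (gm (two (sl q 0)) (an_two han)) m) :
    ∀ᶠ t in 𝓝 (0 : ℂ), ∃ (han : AnalyticAt ℂ (sl q t) 0) (e : ℕ), 1 ≤ e ∧
      two (sl q t) o2 = 0 ∧
      Reg (gm (two (sl q t)) (an_two han)) (e + 1) ∧
      IsRelPrime (gm (two (sl q t)) (an_two han)) (gm (dY (two (sl q t))) (an_dY (an_two han))) ∧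
      inum (gm (two (sl q t)) (an_two han)) (gm (dY (two (sl q t))) (an_dY (an_two han))) = μ + e := by
  filter_upwards [exists_reg_slice (han := han) hF.an hreg, eventually_sl hF.an, hF.zero, hF.crit, hF.fin]
    with t h1 h2 h3 h4 h5
  have han := analyticAt_sl h2
  obtain ⟨n, hn⟩ := h1 han
  have h0 : two (sl q t) o2 = 0 := by
    change sl q t (psi o2) = 0
    rw [psi_zero]; exact h3
  have hdY : dY (two (sl q t)) o2 = 0 := by
    rw [dY_two (by rw [psi_zero]; exact han), psi_zero]; exact h4 0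
  obtain ⟨hrel, hcol⟩ := par_two han
  have hrel' := hrel.1 h5.1
  rw [h5.2] at hcol
  -- `n ≥ 2`
  rcases n with _ | _ | e
  · exfalso
    have := reg_zero_iff.1 hn
    rw [isUnit_gm] at this
    exact this h0
  · exfalso
    have := reg_zero_iff.1 (reg_dY hn)
    rw [isUnit_gm] at this
    exact this hdY
  · have hd := reg_dY hn
    obtain ⟨t1, t2⟩ := teissier h0 hd hrel'
    refine ⟨han, e + 1, by omega, h0, hn, t1.symm, ?_⟩
    rw [inum_comm, t2, ← hcol]

lemma two_JF {q G : E2 × ℂ → ℂ} {t : ℂ} (hq : AnalyticAt ℂ (sl q t) 0)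
    (hG : AnalyticAt ℂ (sl G t) 0) :
    ∀ᶠ p in 𝓝 o2, two (sl (JF q G) t) p = JJ (two (sl q t)) (two (sl G t)) p := by
  filter_upwards [tendsto_psi.eventually hq.eventually_analyticAt,
    tendsto_psi.eventually hG.eventually_analyticAt] with p h1 h2
  change coordDeriv (sl q t) 1 (psi p) * coordDeriv (sl G t) 0 (psi p) -
    coordDeriv (sl q t) 0 (psi p) * coordDeriv (sl G t) 1 (psi p) =
    dX (two (sl q t)) p * dY (two (sl G t)) p - dY (two (sl q t)) p * dX (two (sl G t)) p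
  rw [dX_two h1, dY_two h1, dX_two h2, dY_two h2]

/-- a function with constant intersection number gives the flag -/
theorem flag_of_const (hF : Fam q μ) {han : AnalyticAt ℂ (sl q 0) 0}
    (hreg : Reg (gm (two (sl q 0)) (an_two han)) m) {G : E2 × ℂ → ℂ} (hG : AnalyticAt ℂ G (0, 0))
    (hG0 : ∀ᶠ t in 𝓝 (0 : ℂ), G (0, t) = 0) (hfin : ColFin ![sl q 0, sl G 0])
    (hfr : ∃ᶠ t in 𝓝[≠] (0 : ℂ), col ![sl q 0, sl G 0] ≤ col ![sl q t, sl G t]) : Flag2 q := by
  have hfin' : ColFin (fun j => sl ((![q, G] : Fin 2 → E2 × ℂ → ℂ) j) 0) := by rw [sl2]; exact hfin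
  have hfr' : ∃ᶠ t in 𝓝[≠] (0 : ℂ), col (fun j => sl ((![q, G] : Fin 2 → E2 × ℂ → ℂ) j) 0) ≤
      col (fun j => sl ((![q, G] : Fin 2 → E2 × ℂ → ℂ) j) t) := by
    simp only [sl2]; exact hfr
  have hconst := UI939.const_col ![q, G] (an2 hF.an hG) hfin' hfr'
  have hcn := UI939.cn_col ![q, G] (an2 hF.an hG) hfin' hfr'
  set N := col ![sl q 0, sl G 0] with hN
  have hcolJ : ∀ᶠ t in 𝓝 (0 : ℂ), ColFin ![sl q t, sl (JF q G) t] ∧
      col ![sl q t, sl (JF q G) t] + 1 = μ + N := by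
    filter_upwards [slice_facts (han := han) hF hreg, hconst, eventually_sl hG, hG0,
      eventually_sl (an_JF hF.an hG)] with t h1 h2 h3 h4 h5
    obtain ⟨hq, e, he, h0, hr, hrel, hi⟩ := h1
    have hGa := analyticAt_sl h3
    have hJa := analyticAt_sl h5
    have ev : ∀ j, AnalyticAt ℂ (sl ((![q, G] : Fin 2 → E2 × ℂ → ℂ) j) t) 0 := by
      intro j; fin_cases j
      · exact hq
      · exact hGa
    have k1 : ColFin ![sl q t, sl G t] := by
      rw [← sl2]; exact (UI939.colFin_iff ev).2 h2.1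
    have k2 : col ![sl q t, sl G t] = N := by
      have e1 := UI939.col_eq ev
      rw [← sl2 q G t, e1, hN, ← sl2 q G 0]
      exact h2.2
    have k3 := (colFin_two hq hGa).1 k1
    rw [col_two hq hGa] at k2
    obtain ⟨l1, l2⟩ := le_greuel (hg := an_two hGa) (by
      change sl G t (psi o2) = 0
      rw [psi_zero]; exact h4) hr hrel k3
    have hJeq : gm (two (sl (JF q G) t)) (an_two hJa) =
        gm (JJ (two (sl q t)) (two (sl G t))) (an_JJ (an_two hq) (an_two hGa)) := by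
      rw [gm_eq_gm]; exact two_JF hq hGa
    rw [colFin_two hq hJa, col_two hq hJa, hJeq]
    refine ⟨l1, ?_⟩
    omega
  have hJ0 := hcolJ.self_of_nhds
  have hcnJ := UI939.cn_col ![q, JF q G] (an2 hF.an (an_JF hF.an hG)) (by rw [sl2]; exact hJ0.1)
    (by
      refine Eventually.frequently ?_
      filter_upwards [hcolJ.filter_mono nhdsWithin_le_nhds] with t ht
      rw [sl2, sl2]
      have := hJ0.2
      omega)
  refine ⟨G, hG, hG0, ?_⟩
  filter_upwards [hcn, hcnJ] with p h1 h2 hp0 hq0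
  constructor
  · intro hG0
    exact hp0 (h1 fun j => by fin_cases j <;> assumption)
  · intro hJ0
    exact hp0 (h2 fun j => by fin_cases j <;> assumption)

end Crest.Agent.R257.N2_328
end
end

-- ▼ part R257/N2K_328
section

/-!
Row 257 (S0395), leaf LC-N2, file K (helper328): `N2Stmt` from the `L^{2/p}` extension theorem for
plane curves.
-/

set_option autoImplicit false

open Set Filter Topology Metric Complex MeasureTheory
open Crest.Agent.R275.Loc2879
open Crest.Agent.R257.Defs_219 Crest.Agent.R257.Skel_219 Crest.Agent.R257.LCDefs_472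
open Crest.AlgGeometry.Germ
open scoped ENNReal

noncomputable section

namespace Crest.Agent.R257.N2_328

variable {q : E2 × ℂ → ℂ} {μ m : ℕ}

lemma an_coord1 (v : E2) : AnalyticAt ℂ (fun v : E2 => v 1) v :=
  (ContinuousLinearMap.proj (R := ℂ) (φ := fun _ : Fin 2 => ℂ) 1).analyticAt v

/-- intersection with the base coordinate -/
lemma col_coord {f : E2 → ℂ} (hf : AnalyticAt ℂ f 0) {n : ℕ}
    (hr : Reg (gm (two f) (an_two hf)) n) :
    ColFin ![f, fun v : E2 => v 1] ∧ col ![f, fun v : E2 => v 1] = n := by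
  have h1 : gm (two fun v : E2 => v 1) (an_two (an_coord1 0)) = Zv (0 : ℂ) := by
    rw [Zv_eq, gm_eq_gm]
    exact Eventually.of_forall fun p => by simp [two, psi]
  rw [colFin_two hf (an_coord1 0), col_two hf (an_coord1 0), h1]
  exact ⟨isRelPrime_Zv hr, inum_Zv hr⟩

lemma frequently_of_reg {f : E2 → ℂ} (hf : AnalyticAt ℂ f 0) {n : ℕ}
    (hr : Reg (gm (two f) (an_two hf)) n) : ∃ᶠ z : ℂ in 𝓝[≠] 0, f (Fin.cons z 0) ≠ 0 := by
  rw [reg_iff_order] at hr
  have han : AnalyticAt ℂ (fun w => two f (0, w)) 0 :=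
    AnalyticAt.comp (g := two f) (f := fun w : ℂ => ((0 : ℂ), w)) (an_two hf)
      (analyticAt_const.prod analyticAt_id)
  have h1 : ¬ ∀ᶠ z in 𝓝 (0 : ℂ), two f (0, z) = 0 := by
    intro h
    rw [← analyticOrderAt_eq_top] at h
    rw [h] at hr
    exact ENat.top_ne_natCast _ hr
  have h2 := han.eventually_eq_zero_or_eventually_ne_zero.resolve_left h1
  refine Eventually.frequently ?_
  filter_upwards [h2] with z hz
  have : (Fin.cons z 0 : E2) = psi (0, z) := cons_eq_psi z 0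
  rw [this]; exact hz

/-- the flag in generic coordinates -/
theorem flag_generic (ot : OT2Stmt) (hF : Fam q μ) (han : AnalyticAt ℂ (sl q 0) 0)
    (hm : gm (two (sl q 0)) (an_two han) ∈ mm ^ m)
    (hreg : Reg (gm (two (sl q 0)) (an_two han)) m) : Flag2 q := by
  have hsl := slice_facts (han := han) hF hreg
  obtain ⟨hq0, e, he, h00, hr0, hrel0, hi0⟩ := hsl.self_of_nhds
  obtain rfl : m = e + 1 := hreg.unique hr0
  rcases Nat.lt_or_ge e 2 with he2 | he2
  · -- multiplicity two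
    have he1 : e = 1 := by omega
    have hG : AnalyticAt ℂ (fun p : E2 × ℂ => p.1 1) (0, 0) :=
      AnalyticAt.fun_comp (g := fun v : E2 => v 1) (f := Prod.fst) (an_coord1 _) analyticAt_fst
    have hc0 := col_coord hq0 hr0
    refine flag_of_const (han := han) hF hreg (G := fun p : E2 × ℂ => p.1 1) hG
      (Eventually.of_forall fun t => rfl) hc0.1 ?_
    refine Eventually.frequently ?_
    filter_upwards [hsl.filter_mono nhdsWithin_le_nhds] with t ht
    obtain ⟨hq, e', he', -, hr, -, -⟩ := ht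
    have hc := col_coord hq hr
    change col ![sl q 0, fun v : E2 => v 1] ≤ col ![sl q t, fun v : E2 => v 1]
    rw [hc0.2, hc.2]
    omega
  · -- multiplicity at least three
    obtain ⟨g, hg, hid, hrg, hig⟩ := exists_exact he2 hm hr0 hrel0
    rw [hi0] at hig
    have hμ1 : 1 ≤ μ := by omega
    have hμ1' : (1 : ℝ) ≤ μ := by exact_mod_cast hμ1
    set p : ℝ := 2 - 1 / (μ + 1) with hp
    have hpos : (0 : ℝ) < 1 / (μ + 1) := by positivity
    have hle1 : (1 : ℝ) / (μ + 1) ≤ 1 := by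
      rw [div_le_one (by positivity)]; linarith
    have hp1 : 1 ≤ p := by rw [hp]; linarith
    have hp2 : p < 2 := by rw [hp]; linarith
    have hp0 : 0 < p := by linarith
    have hga : AnalyticAt ℂ (g ∘ phi) 0 :=
      AnalyticAt.comp (g := g) (f := phi) (by rw [phi_zero]; exact hg) (an_phi 0)
    have hJ : InJN p (sl q 0) (g ∘ phi) := exact_InJ hq0 he2 hm hr0 hid hp0 hp2
    obtain ⟨G, hG, ⟨a, ha, hGa⟩, δ, hδ, hae⟩ := ot q (g ∘ phi) p hp1 hF.an hF.zero
      hF.crit.self_of_nhds hF.fin.self_of_nhds.1 (frequently_of_reg hq0 hr0) hga hJ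
    have hG0a : AnalyticAt ℂ (sl G 0) 0 := analyticAt_sl hG
    -- the germ of `G` at `t = 0`
    have hgerm : gm (two (sl G 0)) (an_two hG0a) =
        gm g hg + gm (two a) (an_two ha) * gm (two (sl q 0)) (an_two hq0) := by
      rw [gm_mul, gm_add, gm_eq_gm]
      filter_upwards [tendsto_psi.eventually hGa] with x hx
      have h1 : G (psi x, 0) = g (phi (psi x)) + a (psi x) * q (psi x, 0) := hx
      rw [phi_psi] at h1
      exact h1
    have hfin : ColFin ![sl q 0, sl G 0] := by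
      rw [colFin_two hq0 hG0a, hgerm]
      intro d hd1 hd2
      refine hrg hd1 ?_
      have := dvd_sub hd2 (Dvd.dvd.mul_left hd1 (gm (two a) (an_two ha)))
      simpa using this
    have hcol : col ![sl q 0, sl G 0] + 2 = 2 * μ := by
      rw [col_two hq0 hG0a, hgerm, inum_add_mul]
      omega
    have husc := UI939.usc_col ![q, G] (an2 hF.an hG) (by rw [sl2]; exact hfin)
    have hfr : ∃ᶠ t in 𝓝[≠] (0 : ℂ), col ![sl q 0, sl G 0] ≤ col ![sl q t, sl G t] ∧
        0 < col ![sl q t, sl G t] := by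
      have s1 : ∀ᶠ t in 𝓝 (0 : ℂ), ‖t‖ < δ := by
        have := Metric.ball_mem_nhds (0 : ℂ) hδ
        filter_upwards [this] with t ht using by simpa using ht
      have ev := ((hsl.and husc).and ((eventually_sl hG).and s1)).filter_mono
        (nhdsWithin_le_nhds (s := {(0 : ℂ)}ᶜ))
      refine ((frequently_of_ae hae).and_eventually ev).mono ?_
      rintro t ⟨hJt, ⟨⟨hq, e', he', h0, hr, hrel, hi⟩, hc1, -⟩, hGt, hδt⟩
      have hGta := analyticAt_sl hGt
      rw [sl2] at hc1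
      have hrelG := (colFin_two hq hGta).1 hc1
      have hlow := inum_lower hq hGta hp0 (hJt hδt) (by omega) hr hrel hrelG
      rw [hi, ← col_two hq hGta] at hlow
      push_cast at hlow
      have h1 : p * (μ - 1) < (col ![sl q t, sl G t] : ℝ) := by linarith
      have h2 : p * (μ - 1) = 2 * (μ - 1) - (μ - 1) / (μ + 1) := by rw [hp]; ring
      have h3 : ((μ : ℝ) - 1) / (μ + 1) < 1 := by
        rw [div_lt_one (by positivity)]; linarith
      have h4 : (2 : ℝ) * μ < (col ![sl q t, sl G t] : ℝ) + 3 := by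
        rw [h2] at h1; linarith
      have h5 : 2 * μ < col ![sl q t, sl G t] + 3 := by exact_mod_cast h4
      have h6 : 0 < (col ![sl q t, sl G t] : ℝ) :=
        lt_of_le_of_lt (mul_nonneg hp0.le (by linarith)) h1
      refine ⟨by omega, by exact_mod_cast h6⟩
    have hfr1 := hfr.mono fun t ht => ht.1
    -- `G` vanishes on the axis
    have hfin' : ColFin (fun j => sl ((![q, G] : Fin 2 → E2 × ℂ → ℂ) j) 0) := by
      rw [sl2]; exact hfin
    have hfr' : ∃ᶠ t in 𝓝[≠] (0 : ℂ), col (fun j => sl ((![q, G] : Fin 2 → E2 × ℂ → ℂ) j) 0) ≤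
        col (fun j => sl ((![q, G] : Fin 2 → E2 × ℂ → ℂ) j) t) := by
      simp only [sl2]; exact hfr1
    have hconst := UI939.const_col ![q, G] (an2 hF.an hG) hfin' hfr'
    have hev : ∀ t, (AnalyticAt ℂ (sl q t) 0 ∧ AnalyticAt ℂ (sl G t) 0) →
        ∀ j, AnalyticAt ℂ (sl ((![q, G] : Fin 2 → E2 × ℂ → ℂ) j) t) 0 := by
      rintro t ⟨h1, h2⟩ j
      fin_cases j
      · exact h1
      · exact h2
    have hconst' : ∀ᶠ t in 𝓝 (0 : ℂ), col ![sl q t, sl G t] = col ![sl q 0, sl G 0] ∧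
        AnalyticAt ℂ (sl G t) 0 := by
      filter_upwards [hconst, eventually_sl hF.an, eventually_sl hG] with t h1 h2 h3
      refine ⟨?_, analyticAt_sl h3⟩
      rw [← sl2 q G t, UI939.col_eq (hev t ⟨analyticAt_sl h2, analyticAt_sl h3⟩), ← sl2 q G 0]
      exact h1.2
    have hNpos : 0 < col ![sl q 0, sl G 0] := by
      obtain ⟨t, ht, ht'⟩ := (hfr.and_eventually (hconst'.filter_mono nhdsWithin_le_nhds)).exists
      rw [← ht'.1]; exact ht.2
    have hG0 : ∀ᶠ t in 𝓝 (0 : ℂ), G (0, t) = 0 := by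
      filter_upwards [hconst'] with t ht
      by_contra hne
      have := col_eq_zero (G := ![sl q t, sl G t]) (j := 1) ht.2 hne
      rw [ht.1] at this
      omega
    exact flag_of_const (han := han) hF hreg hG hG0 hfin hfr1

/-! ### the flag gives the conclusion -/

open Crest.Agent.R257.LCd_472 in
/-- the conclusion of S0395 for `x_0² + q` from the flag of `q` -/
theorem concl_of_flag (hF : Fam q μ) (hfl : Flag2 q) :
    Concl (fun p : E3 × ℂ => p.1 0 ^ 2 + q (Fin.tail p.1, p.2)) := by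
  obtain ⟨G, hG, hG0, hflag⟩ := hfl
  -- tails
  have htl : AnalyticAt ℂ (fun p : E3 × ℂ => ((Fin.tail p.1, p.2) : E2 × ℂ)) (0, 0) :=
    (AnalyticAt.fun_comp (g := tl 2) (f := Prod.fst) ((tl 2).analyticAt _) analyticAt_fst).prod
      analyticAt_snd
  have htt : Tendsto (fun p : E3 × ℂ => ((Fin.tail p.1, p.2) : E2 × ℂ)) (𝓝 (0, 0)) (𝓝 (0, 0)) :=
    htl.continuousAt.tendsto
  have hFan : AnalyticAt ℂ (sqF q) ((0 : E3), (0 : ℂ)) := analyticAt_sqF hF.an
  have hgan : AnalyticAt ℂ (fun p : E3 × ℂ => p.1 0) (0, 0) :=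
    AnalyticAt.fun_comp (g := fun v : E3 => v 0) (f := Prod.fst)
      ((ContinuousLinearMap.proj (R := ℂ) (φ := fun _ : Fin 3 => ℂ) 0).analyticAt _) analyticAt_fst
  have hhan : AnalyticAt ℂ (fun p : E3 × ℂ => G (Fin.tail p.1, p.2)) (0, 0) :=
    AnalyticAt.fun_comp (g := G) (f := fun p : E3 × ℂ => ((Fin.tail p.1, p.2) : E2 × ℂ)) hG htl
  -- the derivatives
  have hqd : ∀ᶠ p : E3 × ℂ in 𝓝 (0, 0), DifferentiableAt ℂ (sl q p.2) (Fin.tail p.1) := by
    filter_upwards [htt.eventually hF.an.eventually_analyticAt] with p hp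
    exact (UI_slice hp).differentiableAt
  have hGd : ∀ᶠ p : E3 × ℂ in 𝓝 (0, 0), DifferentiableAt ℂ (sl G p.2) (Fin.tail p.1) := by
    filter_upwards [htt.eventually hG.eventually_analyticAt] with p hp
    exact (UI_slice hp).differentiableAt
  have hiso : ∀ᶠ p : E3 × ℂ in 𝓝 (0, 0), (∀ i, coordDeriv (sl q p.2) i (Fin.tail p.1) = 0) →
      Fin.tail p.1 = 0 := htt.eventually hF.iso
  have hq0 : ∀ᶠ p : E3 × ℂ in 𝓝 (0, 0), q (0, p.2) = 0 :=
    (continuous_snd.tendsto ((0 : E3), (0 : ℂ))).eventually hF.zero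
  have hfl' := htt.eventually hflag
  have hx0 : ∀ p : E3 × ℂ, p.1 0 = 0 → Fin.tail p.1 = 0 → p.1 = 0 := by
    intro p h1 h2
    ext i
    refine Fin.cases h1 (fun j => ?_) i
    exact congrFun h2 j
  -- coordinate derivatives
  have dF0 : ∀ {p : E3 × ℂ}, DifferentiableAt ℂ (sl q p.2) (Fin.tail p.1) →
      coordDeriv (sl (sqF q) p.2) 0 p.1 = 2 * p.1 0 := fun h => coordDeriv_dsq_zero h
  have dFs : ∀ {p : E3 × ℂ}, DifferentiableAt ℂ (sl q p.2) (Fin.tail p.1) → ∀ k : Fin 2,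
      coordDeriv (sl (sqF q) p.2) k.succ p.1 = coordDeriv (sl q p.2) k (Fin.tail p.1) :=
    fun h k => coordDeriv_dsq_succ h k
  have dg : ∀ (x : E3) (i : Fin 3), coordDeriv (fun x : E3 => x 0) i x = if i = 0 then 1 else 0 := by
    intro x i
    have h1 : HasFDerivAt (fun x : E3 => x 0)
        (ContinuousLinearMap.proj (R := ℂ) (φ := fun _ : Fin 3 => ℂ) 0) x :=
      (ContinuousLinearMap.proj (R := ℂ) (φ := fun _ : Fin 3 => ℂ) 0).hasFDerivAt
    rw [coordDeriv, h1.fderiv]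
    change (Pi.single i (1 : ℂ) : E3) 0 = _
    rw [Pi.single_apply]
    simp [eq_comm]
  have dh : ∀ {p : E3 × ℂ}, DifferentiableAt ℂ (sl G p.2) (Fin.tail p.1) →
      coordDeriv (fun x : E3 => sl G p.2 (Fin.tail x)) 0 p.1 = 0 ∧ ∀ k : Fin 2,
        coordDeriv (fun x : E3 => sl G p.2 (Fin.tail x)) k.succ p.1 =
          coordDeriv (sl G p.2) k (Fin.tail p.1) := by
    intro p h
    have h3 : HasFDerivAt (sl G p.2) (fderiv ℂ (sl G p.2) (Fin.tail p.1)) (tl 2 p.1) :=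
      h.hasFDerivAt
    have h4 : fderiv ℂ (fun x : E3 => sl G p.2 (Fin.tail x)) p.1 =
        (fderiv ℂ (sl G p.2) (Fin.tail p.1)).comp (tl 2) :=
      (h3.comp p.1 (tl 2).hasFDerivAt).fderiv
    constructor
    · rw [coordDeriv, h4, ContinuousLinearMap.comp_apply, tl_single_zero, map_zero]
    · intro k
      rw [coordDeriv, h4, ContinuousLinearMap.comp_apply, tl_single_succ]
      rfl
  refine Flow_941.flow_three (E := E3) (F := sqF q) (g := fun p => p.1 0)
    (h := fun p => G (Fin.tail p.1, p.2)) hFan hgan hhan ?_ ?_ ?_ ?_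
  · filter_upwards [hF.zero, hG0] with t h1 h2
    refine ⟨?_, rfl, ?_⟩
    · change (0 : ℂ) ^ 2 + q (Fin.tail (0 : E3), t) = 0
      have : Fin.tail (0 : E3) = 0 := rfl
      rw [this, h1]; simp
    · change G (Fin.tail (0 : E3), t) = 0
      have : Fin.tail (0 : E3) = 0 := rfl
      rw [this, h2]
  · filter_upwards [hqd, hiso] with p h1 h2 hp
    refine fderiv_ne (f := sl (sqF q) p.2) fun hall => hp ?_
    have e0 := hall 0
    rw [dF0 h1] at e0
    refine hx0 p (by simpa using e0) (h2 fun k => ?_)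
    rw [← dFs h1]; exact hall k.succ
  · filter_upwards [hqd, hiso, hq0] with p h1 h2 h3 hp hFp
    refine li2 (f := sl (sqF q) p.2) (g := fun x : E3 => x 0) ?_
    by_contra hcon
    push Not at hcon
    obtain ⟨-, c2, c3⟩ := hcon
    simp only [Defs_219.gr, dg] at c2 c3
    have e1 : coordDeriv (sl (sqF q) p.2) 1 p.1 = 0 := by simpa using c3
    have e2 : coordDeriv (sl (sqF q) p.2) 2 p.1 = 0 := by simpa using c2
    have ht : Fin.tail p.1 = 0 := by
      refine h2 fun k => ?_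
      rw [← dFs h1]
      fin_cases k
      · exact e1
      · exact e2
    have h5 : p.1 0 ^ 2 + q (Fin.tail p.1, p.2) = 0 := hFp
    rw [ht, h3, add_zero] at h5
    exact hp (hx0 p (by simpa using h5) ht)
  · filter_upwards [hqd, hGd, hfl'] with p h1 h2 h3 hp hFp hg
    have hg' : p.1 0 = 0 := hg
    have ht : Fin.tail p.1 ≠ 0 := fun ht => hp (hx0 p hg' ht)
    have h5 : p.1 0 ^ 2 + q (Fin.tail p.1, p.2) = 0 := hFp
    rw [hg'] at h5
    have h6 : q (Fin.tail p.1, p.2) = 0 := by simpa using h5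
    obtain ⟨k1, k2⟩ := h3 ht h6
    refine ⟨k1, li3 (f := sl (sqF q) p.2) (g := fun x : E3 => x 0)
      (h := fun x : E3 => sl G p.2 (Fin.tail x)) ?_⟩
    obtain ⟨dh0, dhs⟩ := dh h2
    have a1 : coordDeriv (sl (sqF q) p.2) 1 p.1 = coordDeriv (sl q p.2) 0 (Fin.tail p.1) := dFs h1 0
    have a2 : coordDeriv (sl (sqF q) p.2) 2 p.1 = coordDeriv (sl q p.2) 1 (Fin.tail p.1) := dFs h1 1
    have b1 : coordDeriv (fun x : E3 => sl G p.2 (Fin.tail x)) 1 p.1 =
      coordDeriv (sl G p.2) 0 (Fin.tail p.1) := dhs 0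
    have b2 : coordDeriv (fun x : E3 => sl G p.2 (Fin.tail x)) 2 p.1 =
      coordDeriv (sl G p.2) 1 (Fin.tail p.1) := dhs 1
    rw [Dt_eq]
    simp only [dg, a1, a2, b1, b2, dh0]
    intro hz
    apply k2
    have h10 : ¬ ((1 : Fin 3) = 0) := by decide
    have h20 : ¬ ((2 : Fin 3) = 0) := by decide
    rw [if_neg h10, if_neg h20] at hz
    simp only [if_true] at hz
    linear_combination hz
where
  UI_slice {G : E2 × ℂ → ℂ} {p : E2 × ℂ} (h : AnalyticAt ℂ G p) :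
      AnalyticAt ℂ (sl G p.2) p.1 := by
    have : AnalyticAt ℂ (fun x : E2 => ((x, p.2) : E2 × ℂ)) p.1 :=
      analyticAt_id.prod analyticAt_const
    exact AnalyticAt.fun_comp (f := fun x : E2 => ((x, p.2) : E2 × ℂ)) (g := G) (by simpa using h)
      this

/-! ### generic linear coordinates -/

/-- the shear as a continuous linear equivalence of `ℂ × ℂ` -/
def shearL (s : ℂ) : (ℂ × ℂ) ≃L[ℂ] (ℂ × ℂ) :=
  { toFun := shear s
    invFun := shear (-s)
    left_inv := fun p => by simp [shear]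
    right_inv := fun p => by simp [shear]
    map_add' := fun p q => by simp only [shear, Prod.fst_add, Prod.snd_add, Prod.mk_add_mk]; ring_nf
    map_smul' := fun c p => by
      simp only [shear, Prod.smul_fst, Prod.smul_snd, smul_eq_mul, RingHom.id_apply, Prod.smul_mk]
      ring_nf
    continuous_toFun := by unfold shear; fun_prop
    continuous_invFun := by unfold shear; fun_prop }

/-- the shear of `Fin 2 → ℂ` -/
def L2 (s : ℂ) : E2 ≃L[ℂ] E2 := psiL.symm.trans ((shearL s).trans psiL)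


/-- the shear of `Fin 3 → ℂ` fixing the first coordinate -/
def L3 (L : E2 ≃L[ℂ] E2) : E3 ≃L[ℂ] E3 :=
  { toFun := fun v => Fin.cons (v 0) (L (Fin.tail v))
    invFun := fun v => Fin.cons (v 0) (L.symm (Fin.tail v))
    left_inv := fun v => by
      change (Fin.cons _ (L.symm (L (Fin.tail v))) : E3) = v
      rw [L.symm_apply_apply]; exact Fin.cons_self_tail v
    right_inv := fun v => by
      change (Fin.cons _ (L (L.symm (Fin.tail v))) : E3) = v
      rw [L.apply_symm_apply]; exact Fin.cons_self_tail v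
    map_add' := fun v w => by
      have h : Fin.tail (v + w) = Fin.tail v + Fin.tail w := rfl
      ext i
      refine Fin.cases ?_ (fun j => ?_) i
      · rfl
      · change L (Fin.tail (v + w)) j = (L (Fin.tail v) + L (Fin.tail w)) j
        rw [h, map_add]
    map_smul' := fun c v => by
      have h : Fin.tail (c • v) = c • Fin.tail v := rfl
      ext i
      refine Fin.cases ?_ (fun j => ?_) i
      · rfl
      · change L (Fin.tail (c • v)) j = (c • L (Fin.tail v)) j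
        rw [h, map_smul]
    continuous_toFun := by
      refine continuous_pi fun i => ?_
      refine Fin.cases (continuous_apply 0) (fun j => ?_) i
      exact (continuous_apply j).comp (L.continuous.comp (LCd_472.tl 2).continuous)
    continuous_invFun := by
      refine continuous_pi fun i => ?_
      refine Fin.cases (continuous_apply 0) (fun j => ?_) i
      exact (continuous_apply j).comp (L.symm.continuous.comp (LCd_472.tl 2).continuous) }

/-- **plane curves** -/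
theorem n2Stmt_of (ot : OT2Stmt) : N2Stmt := by
  intro q μ hF
  have han : AnalyticAt ℂ (sl q 0) 0 := analyticAt_sl hF.an
  -- the germ is not zero
  have hne : gm (two (sl q 0)) (an_two han) ≠ 0 := by
    intro h0
    have hrel := (par_two han).1.1 hF.fin.self_of_nhds.1
    rw [gm_eq_zero] at h0
    have h1 : ∀ᶠ p in 𝓝 o2, fderiv ℂ (two (sl q 0)) p = 0 := by
      filter_upwards [h0.eventually_nhds] with p hp
      have : two (sl q 0) =ᶠ[𝓝 p] fun _ => 0 := hp
      rw [this.fderiv_eq]; simp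
    have h2 : gm (dY (two (sl q 0))) (an_dY (an_two han)) = 0 := by
      rw [gm_eq_zero]; filter_upwards [h1] with p hp; rw [dY, hp]; rfl
    have h3 : gm (dX (two (sl q 0))) (an_dX (an_two han)) = 0 := by
      rw [gm_eq_zero]; filter_upwards [h1] with p hp; rw [dX, hp]; rfl
    rw [h2, h3, isRelPrime_zero_left] at hrel
    exact not_isUnit_zero hrel
  obtain ⟨m, s, hm, hr⟩ := exists_shear hne
  have hF' := LCf_472.Fam.linear hF (L2 s)
  have han' : AnalyticAt ℂ (sl (fun p : E2 × ℂ => q (L2 s p.1, p.2)) 0) 0 := analyticAt_sl hF'.an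
  have hg : gm (two (sl (fun p : E2 × ℂ => q (L2 s p.1, p.2)) 0)) (an_two han') =
      shR s (gm (two (sl q 0)) (an_two han)) := rfl
  have hfl := flag_generic ot hF' han' (by rw [hg]; exact hm) (by rw [hg]; exact hr)
  have hC := concl_of_flag hF' hfl
  exact LCf_472.concl_linear (L3 (L2 s)) hC

end Crest.Agent.R257.N2_328
end
end

-- ▼ part R257/N2L_328

/-!
Row 257 (S0395), leaf LC-N2, file L (helper328): `N2Stmt` (plane curves, unconditional).
-/

set_option autoImplicit false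

open Set Filter Topology
open Crest.Agent.R257.Defs_219 Crest.Agent.R257.LCDefs_472

noncomputable section

namespace Crest.Agent.R257.N2_328

theorem ot2Stmt : OT2Stmt := by
  intro F g p hp hF _ _ hfin hreg hg hJ
  exact Sh_297.otN (n := 1) le_rfl hp hF hfin hreg hg hJ

/-- **`μ`-constant families `x_0² + q(y, z, t)`** -/
theorem n2Stmt : N2Stmt := n2Stmt_of ot2Stmt

end Crest.Agent.R257.N2_328
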