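import Crest.Agent.R273.StokesV_332
import Crest.Agent.R273.Vm_333
import Crest.Agent.R257.Area_5
import Crest.Agent.R257.DegC_5
import Crest.Agent.R257.GBL1_625
import Crest.Agent.R273.MassA_5
import Crest.Agent.R273.TLs_201
import Crest.Agent.R257.Atl5_941
import Crest.Agent.R257.KED_952
import Crest.Agent.R257.NS0c_554
import Crest.Agent.R257.UpK1_938
import Crest.Agent.R257.Up3_938
import Crest.Agent.R257.Ked2_397
import Crest.Agent.R257.V1Pe_822
import Crest.Agent.R257.Cnm7_889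

-- ▼ part R257/DegM_5
section

/-!
# R257 (S0395), leaf MASS-M3 (helper5), part 3: change of variables for a finite-to-one
holomorphic map `π : M → ℂⁿ` (on the open set `N`)

* `jm A π l x` : complex Jacobian matrix in the chart `l`
* `fsum_eq` : sum over the sheets
* `cov` : `intD P f = m ∫ G` when `f l = G(π) |det jm|²` and `π` is `m`-to-one on `{G ≠ 0}`
-/

set_option autoImplicit false
set_option linter.unusedSectionVars false

open Set Filter Topology Complex MeasureTheory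
open scoped ContDiff Matrix ComplexConjugate ENNReal

namespace Crest.Agent.R257.DegM_5

open Crest.Agent.R275 Crest.Agent.R275.Geo Crest.Agent.R275.C1d194 Crest.Agent.R275.Pai323
open Crest.Agent.R275.SerG398 (lint dens)
open Crest.Agent.R273.StokesV_332 Crest.Agent.R273.Vm_333
open Crest.Agent.R257.Area_5

noncomputable section

variable {n : ℕ} {M : Type} [TopologicalSpace M] {A : Atl n M}

/-- `(∂_a π_c)_{a c}` in the chart `l` -/
def jm (A : Atl n M) (π : M → Cn n) (l : A.ι) (x : M) : Matrix (Fin n) (Fin n) ℂ :=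
  Matrix.of fun a c => (fderiv ℂ (fun z => π ((A.e l).symm z)) (A.e l x)
    (EuclideanSpace.single a 1)) c

theorem det_jm (π : M → Cn n) (l : A.ι) (x : M) :
    (jm A π l x).det =
      LinearMap.det ((fderiv ℂ (fun z => π ((A.e l).symm z)) (A.e l x) : Cn n →L[ℂ] Cn n) :
        Cn n →ₗ[ℂ] Cn n) := by
  rw [← LinearMap.det_toMatrix (EuclideanSpace.basisFun (Fin n) ℂ).toBasis, ← Matrix.det_transpose]
  congr 1

/-- `π` in real coordinates -/
def pr (A : Atl n M) (π : M → Cn n) (l : A.ι) (y : RI n → ℝ) : RI n → ℝ := rc (π (sg A l y))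

/-- the part of the chart over `N` -/
def UN (A : Atl n M) (N : Set M) (l : A.ι) : Set (RI n → ℝ) := {y | y ∈ Ui A l ∧ sg A l y ∈ N}

variable {N : Set M} {π : M → Cn n}

theorem isOpen_UN (hN : IsOpen N) (l : A.ι) : IsOpen (UN A N l) :=
  (continuousOn_sg l).isOpen_inter_preimage (C1d194.isOpen_Ui l) hN

/-- `π` is holomorphic on `N` -/
def HolN (A : Atl n M) (N : Set M) (π : M → Cn n) : Prop :=
  ∀ l, DifferentiableOn ℂ (fun z => π ((A.e l).symm z)) {z | z ∈ (A.e l).target ∧ (A.e l).symm z ∈ N}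

theorem isOpen_TN (hN : IsOpen N) (l : A.ι) :
    IsOpen {z | z ∈ (A.e l).target ∧ (A.e l).symm z ∈ N} :=
  (A.e l).continuousOn_symm.isOpen_inter_preimage (A.e l).open_target hN

theorem HolN.diffAt (hπ : HolN A N π) (hN : IsOpen N) {l : A.ι} {y : RI n → ℝ} (hy : y ∈ UN A N l) :
    DifferentiableAt ℂ (fun z => π ((A.e l).symm z)) (cc y) :=
  (hπ l).differentiableAt ((isOpen_TN hN l).mem_nhds hy)

theorem hasFDerivAt_pr (hπ : HolN A N π) (hN : IsOpen N) {l : A.ι} {y : RI n → ℝ}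
    (hy : y ∈ UN A N l) :
    ∃ L : (RI n → ℝ) →L[ℝ] (RI n → ℝ), HasFDerivAt (pr A π l) L y ∧
      |L.det| = ‖(jm A π l (sg A l y)).det‖ ^ 2 := by
  have hd := hπ.diffAt hN hy
  set D := fderiv ℂ (fun z => π ((A.e l).symm z)) (cc y) with hD
  have h1 : HasFDerivAt (fun z => π ((A.e l).symm z)) (D.restrictScalars ℝ) (cc y) :=
    hd.hasFDerivAt.restrictScalars ℝ
  let ccL : (RI n → ℝ) →L[ℝ] Cn n := ((rcE n).symm.toContinuousLinearEquiv : (RI n → ℝ) →L[ℝ] Cn n)
  have h2 : HasFDerivAt (cc : (RI n → ℝ) → Cn n) ccL y :=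
    ((rcE n).symm.toContinuousLinearEquiv).hasFDerivAt
  have h3 : HasFDerivAt (rc : Cn n → RI n → ℝ) (rcL n) (π ((A.e l).symm (cc y))) := by
    rw [rc_eq]; exact (rcL n).hasFDerivAt
  have h4 := h3.comp y (h1.comp y h2)
  refine ⟨_, h4, ?_⟩
  have h5 : ((((rcL n).comp ((D.restrictScalars ℝ).comp ccL)) : (RI n → ℝ) →L[ℝ] (RI n → ℝ)) :
      (RI n → ℝ) →ₗ[ℝ] (RI n → ℝ)) = ((rcE n : Cn n →ₗ[ℝ] (RI n → ℝ)) ∘ₗ
        ((D : Cn n →ₗ[ℂ] Cn n).restrictScalars ℝ)) ∘ₗ ((rcE n).symm : (RI n → ℝ) →ₗ[ℝ] Cn n) := by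
    ext v p
    rfl
  have h6 : ((rcL n).comp ((D.restrictScalars ℝ).comp ccL)).det =
      ‖LinearMap.det (D : Cn n →ₗ[ℂ] Cn n)‖ ^ 2 := by
    rw [← det_real D, ← h5]
  have h7 : A.e l (sg A l y) = cc y := (A.e l).right_inv hy.1
  rw [h6, det_jm, h7, ← hD, abs_of_nonneg (by positivity)]

theorem contDiffOn_pr (hπ : HolN A N π) (hN : IsOpen N) (l : A.ι) :
    ContDiffOn ℝ 1 (pr A π l) (UN A N l) := by
  have h1 : ContDiffOn ℝ 1 (fun z => π ((A.e l).symm z))
      {z | z ∈ (A.e l).target ∧ (A.e l).symm z ∈ N} :=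
    ((Crest.Agent.R266.SCV.contDiffOn_omega_of_differentiableOn (isOpen_TN hN l)
      (hπ l)).restrict_scalars ℝ).of_le le_top
  have h2 : ContDiffOn ℝ 1 (fun y => π ((A.e l).symm (cc y))) (UN A N l) :=
    h1.comp (contDiff_cc.contDiffOn) fun y hy => hy
  have h3 : ContDiff ℝ 1 (rc : Cn n → RI n → ℝ) := by
    rw [rc_eq]; exact (rcL n).contDiff
  exact h3.comp_contDiffOn h2

theorem fderiv_pr (hπ : HolN A N π) (hN : IsOpen N) {l : A.ι} {y : RI n → ℝ} (hy : y ∈ UN A N l) :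
    |(fderiv ℝ (pr A π l) y).det| = ‖(jm A π l (sg A l y)).det‖ ^ 2 := by
  obtain ⟨L, h1, h2⟩ := hasFDerivAt_pr hπ hN hy
  rw [h1.fderiv, h2]

/-- the sum over the points of the fibre in one chart -/
theorem fs_chart (l : A.ι) {ρ : M → ℝ≥0∞} (hρ : ∀ x ∉ (A.e l).source, ρ x = 0)
    (y : RI n → ℝ) :
    fs (UN A N l) (pr A π l) (fun z => ρ (sg A l z)) y =
      ∑' x : {x // x ∈ N ∧ π x = cc y}, ρ x := by
  classical
  rw [fs_eq]
  -- injection of the left index set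
  let φ : {z // z ∈ UN A N l ∧ pr A π l z = y} → {x // x ∈ N ∧ π x = cc y} := fun z =>
    ⟨sg A l z, z.2.1.2, by
      have h := congrArg (cc (n := n)) z.2.2
      rw [← h]
      exact (cc_rc _).symm⟩
  have hφ : Function.Injective φ := by
    rintro ⟨z, hz⟩ ⟨z', hz'⟩ h
    have h1 : sg A l z = sg A l z' := congrArg Subtype.val h
    have h2 : cc z = cc z' := by
      rw [← (A.e l).right_inv hz.1.1, ← (A.e l).right_inv hz'.1.1]
      exact congrArg _ h1
    have h3 : z = z' := by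
      rw [← rc_cc z, ← rc_cc z', h2]
    exact Subtype.ext h3
  rw [← hφ.tsum_eq (f := fun x : {x // x ∈ N ∧ π x = cc y} => ρ x)]
  rintro ⟨x, hx⟩ hne
  have hxs : x ∈ (A.e l).source := by
    by_contra h
    exact hne (hρ x h)
  have h1 : sg A l (rc (A.e l x)) = x := sg_rc hxs
  refine ⟨⟨rc (A.e l x), ⟨mem_Ui hxs, by rw [h1]; exact hx.1⟩, ?_⟩, ?_⟩
  · unfold pr
    rw [h1, hx.2, rc_cc]
  · exact Subtype.ext h1

/-- the sum over all charts -/
theorem fsum_eq {F : Finset A.ι} {ρ : A.ι → M → ℝ} (hρ0 : ∀ l x, 0 ≤ ρ l x)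
    (hρ : ∀ l, ∀ x ∉ (A.e l).source, ρ l x = 0) {y : RI n → ℝ} {m : ℕ}
    (h1 : ∀ x ∈ N, π x = cc y → ∑ l ∈ F, ρ l x = 1) (hm : {x | x ∈ N ∧ π x = cc y}.encard = m) :
    ∑ l ∈ F, fs (UN A N l) (pr A π l) (fun z => ENNReal.ofReal (ρ l (sg A l z))) y = m := by
  classical
  have h2 : ∀ l ∈ F, fs (UN A N l) (pr A π l) (fun z => ENNReal.ofReal (ρ l (sg A l z))) y =
      ∑' x : {x // x ∈ N ∧ π x = cc y}, ENNReal.ofReal (ρ l x) := fun l _ =>
    fs_chart l (ρ := fun x => ENNReal.ofReal (ρ l x)) (fun x hx => by rw [hρ l x hx]; simp) y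
  rw [Finset.sum_congr rfl h2]
  have hfin : {x | x ∈ N ∧ π x = cc y}.Finite := Set.finite_of_encard_eq_coe hm
  have : Fintype {x // x ∈ N ∧ π x = cc y} := hfin.fintype
  have e : ∀ l, ∑' x : {x // x ∈ N ∧ π x = cc y}, ENNReal.ofReal (ρ l x) =
      ∑ x : {x // x ∈ N ∧ π x = cc y}, ENNReal.ofReal (ρ l x) := fun l => tsum_fintype _
  simp only [e]
  rw [Finset.sum_comm]
  have e2 : ∀ x : {x // x ∈ N ∧ π x = cc y}, ∑ l ∈ F, ENNReal.ofReal (ρ l x) = 1 := fun x => by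
    rw [← ENNReal.ofReal_sum_of_nonneg fun l _ => hρ0 l x, h1 x x.2.1 x.2.2, ENNReal.ofReal_one]
  simp only [e2]
  rw [Finset.sum_const, Finset.card_univ, nsmul_eq_mul, mul_one]
  have h3 : ENat.card {x // x ∈ N ∧ π x = cc y} = m := by
    rw [← hm]
    rfl
  rw [ENat.card_eq_coe_fintype_card] at h3
  exact_mod_cast h3

/-! ### the change of variables -/

/-- the density in the chart `l` -/
def gl (A : Atl n M) (π : M → Cn n) (ρ : A.ι → M → ℝ) (G : Cn n → ℝ) (l : A.ι)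
    (y : RI n → ℝ) : ℝ :=
  ρ l (sg A l y) * (G (π (sg A l y)) * ‖(jm A π l (sg A l y)).det‖ ^ 2)

theorem cov_lint (hN : IsOpen N) (hπ : HolN A N π) {F : Finset A.ι} {ρ : A.ι → M → ℝ}
    (hρc : ∀ l, ContinuousOn (fun y => ρ l (sg A l y)) (Ui A l))
    (hρ0 : ∀ l x, 0 ≤ ρ l x) (hρ : ∀ l, ∀ x ∉ (A.e l).source, ρ l x = 0)
    {G : Cn n → ℝ} (hG : Continuous G) {m : ℕ}
    (hfib : ∀ᵐ y : RI n → ℝ, G (cc y) ≠ 0 → (∀ x ∈ N, π x = cc y → ∑ l ∈ F, ρ l x = 1) ∧
      {x | x ∈ N ∧ π x = cc y}.encard = m) :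
    ∑ l ∈ F, ∫⁻ y in UN A N l, ENNReal.ofReal (gl A π ρ G l y) =
      m * ∫⁻ y : RI n → ℝ, ENNReal.ofReal (G (cc y)) := by
  classical
  have hpc : ∀ l, ContinuousOn (pr A π l) (UN A N l) := fun l =>
    (contDiffOn_pr hπ hN l).continuousOn
  set g : A.ι → (RI n → ℝ) → ℝ≥0∞ := fun l =>
    (UN A N l).indicator fun y => ENNReal.ofReal (ρ l (sg A l y) * G (π (sg A l y))) with hg
  have hcc : ∀ l y, cc (pr A π l y) = π (sg A l y) := fun l y => cc_rc _
  have hgm : ∀ l, Measurable (g l) := by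
    intro l
    have h1 : ContinuousOn (fun y => ENNReal.ofReal (ρ l (sg A l y) * G (π (sg A l y))))
        (UN A N l) := by
      refine ENNReal.continuous_ofReal.comp_continuousOn ?_
      refine ((hρc l).mono fun y hy => hy.1).mul ?_
      have h2 : ContinuousOn (fun y => G (cc (pr A π l y))) (UN A N l) :=
        (hG.comp continuous_cc).comp_continuousOn (hpc l)
      simpa only [hcc] using h2
    have h3 := h1.measurable_piecewise (g := fun _ => (0 : ℝ≥0∞)) continuousOn_const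
      (isOpen_UN hN l).measurableSet
    have h4 : g l = (UN A N l).piecewise
        (fun y => ENNReal.ofReal (ρ l (sg A l y) * G (π (sg A l y)))) (fun _ => 0) := by
      simp only [hg]
      exact (Set.piecewise_eq_indicator).symm
    rw [h4]
    exact h3
  have har := fun l => area' (volume : Measure (RI n → ℝ)) (isOpen_UN hN l) (contDiffOn_pr hπ hN l)
    (hgm l)
  have h1 : ∀ l ∈ F, ∫⁻ y in UN A N l, ENNReal.ofReal (gl A π ρ G l y) =
      ∫⁻ y, fs (UN A N l) (pr A π l) (g l) y := by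
    intro l _
    rw [(har l).2]
    refine setLIntegral_congr_fun (isOpen_UN hN l).measurableSet fun y hy => ?_
    simp only [hg]
    rw [indicator_of_mem hy, fderiv_pr hπ hN hy, ← ENNReal.ofReal_mul (by positivity)]
    congr 1
    unfold gl
    ring
  rw [Finset.sum_congr rfl h1, ← lintegral_finsetSum' _ fun l _ => (har l).1,
    ← lintegral_const_mul' _ _ (by simp)]
  refine lintegral_congr_ae ?_
  filter_upwards [hfib] with y hy
  -- the fibre sums
  have h2 : ∀ l, fs (UN A N l) (pr A π l) (g l) y = ENNReal.ofReal (G (cc y)) *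
      fs (UN A N l) (pr A π l) (fun z => ENNReal.ofReal (ρ l (sg A l z))) y := by
    intro l
    rw [fs_eq, fs_eq, ← ENNReal.tsum_mul_left]
    refine tsum_congr fun z => ?_
    simp only [hg]
    have h3 : π (sg A l z) = cc y := by
      have h := congrArg (cc (n := n)) z.2.2
      rw [← h]
      exact (cc_rc _).symm
    rw [indicator_of_mem z.2.1, h3, ENNReal.ofReal_mul (hρ0 _ _), mul_comm]
  simp only [h2]
  rw [← Finset.mul_sum]
  by_cases h0 : G (cc y) = 0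
  · rw [h0]; simp
  · rw [fsum_eq hρ0 hρ (hy h0).1 (hy h0).2, mul_comm]

/-- **change of variables**, real form -/
theorem cov_real (hN : IsOpen N) (hπ : HolN A N π) {F : Finset A.ι} {ρ : A.ι → M → ℝ}
    (hρc : ∀ l, ContinuousOn (fun y => ρ l (sg A l y)) (Ui A l))
    (hρ0 : ∀ l x, 0 ≤ ρ l x) (hρ : ∀ l, ∀ x ∉ (A.e l).source, ρ l x = 0)
    {G : Cn n → ℝ} (hG : Continuous G) (hGi : Integrable fun y : RI n → ℝ => G (cc y)) {m : ℕ}
    (hfib : ∀ᵐ y : RI n → ℝ, G (cc y) ≠ 0 → (∀ x ∈ N, π x = cc y → ∑ l ∈ F, ρ l x = 1) ∧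
      {x | x ∈ N ∧ π x = cc y}.encard = m) :
    ∑ l ∈ F, ∫ y in UN A N l, gl A π ρ G l y = m * ∫ y : RI n → ℝ, G (cc y) := by
  classical
  have hpc : ∀ l, ContinuousOn (pr A π l) (UN A N l) := fun l =>
    (contDiffOn_pr hπ hN l).continuousOn
  have hcc : ∀ l y, cc (pr A π l y) = π (sg A l y) := fun l y => cc_rc _
  have hdc : ∀ l, ContinuousOn (fun y => ‖(jm A π l (sg A l y)).det‖ ^ 2) (UN A N l) := by
    intro l
    have h1 : ContinuousOn (fun y => |(fderiv ℝ (pr A π l) y).det|) (UN A N l) :=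
      (ContinuousLinearMap.continuous_det.comp_continuousOn
        ((contDiffOn_pr hπ hN l).continuousOn_fderiv_of_isOpen (isOpen_UN hN l) le_rfl)).abs
    exact h1.congr fun y hy => (fderiv_pr hπ hN hy).symm
  -- nonnegative case
  have key : ∀ G : Cn n → ℝ, Continuous G → (∀ y, 0 ≤ G y) →
      (Integrable fun y : RI n → ℝ => G (cc y)) →
      (∀ᵐ y : RI n → ℝ, G (cc y) ≠ 0 → (∀ x ∈ N, π x = cc y → ∑ l ∈ F, ρ l x = 1) ∧
        {x | x ∈ N ∧ π x = cc y}.encard = m) →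
      (∀ l ∈ F, IntegrableOn (gl A π ρ G l) (UN A N l)) ∧
      ∑ l ∈ F, ∫ y in UN A N l, gl A π ρ G l y = m * ∫ y : RI n → ℝ, G (cc y) := by
    intro G hG hG0 hGi hfib
    have h1 := cov_lint hN hπ hρc hρ0 hρ hG hfib
    have hg0 : ∀ l y, 0 ≤ gl A π ρ G l y := fun l y =>
      mul_nonneg (hρ0 _ _) (mul_nonneg (hG0 _) (by positivity))
    have hmeas : ∀ l, AEStronglyMeasurable (gl A π ρ G l) (volume.restrict (UN A N l)) := by
      intro l
      have h2 : ContinuousOn (gl A π ρ G l) (UN A N l) := by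
        refine ((hρc l).mono fun y hy => hy.1).mul (ContinuousOn.mul ?_ (hdc l))
        have h2 : ContinuousOn (fun y => G (cc (pr A π l y))) (UN A N l) :=
          (hG.comp continuous_cc).comp_continuousOn (hpc l)
        simpa only [hcc] using h2
      exact h2.aestronglyMeasurable (isOpen_UN hN l).measurableSet
    have hfin : (m : ℝ≥0∞) * ∫⁻ y : RI n → ℝ, ENNReal.ofReal (G (cc y)) ≠ ⊤ := by
      refine ENNReal.mul_ne_top (by simp) ?_
      rw [← ofReal_integral_eq_lintegral_ofReal hGi (Eventually.of_forall fun y => hG0 _)]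
      exact ENNReal.ofReal_ne_top
    have hfl : ∀ l ∈ F, ∫⁻ y in UN A N l, ENNReal.ofReal (gl A π ρ G l y) ≠ ⊤ := by
      intro l hl
      rw [← h1] at hfin
      exact (ENNReal.sum_ne_top.1 hfin) l hl
    have hint : ∀ l ∈ F, IntegrableOn (gl A π ρ G l) (UN A N l) := by
      intro l hl
      refine ⟨hmeas l, ?_⟩
      rw [hasFiniteIntegral_iff_ofReal (Eventually.of_forall fun y => hg0 l y)]
      exact (hfl l hl).lt_top
    refine ⟨hint, ?_⟩
    have h2 : ∀ l ∈ F, ∫ y in UN A N l, gl A π ρ G l y =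
        (∫⁻ y in UN A N l, ENNReal.ofReal (gl A π ρ G l y)).toReal := fun l hl =>
      integral_eq_lintegral_of_nonneg_ae (Eventually.of_forall fun y => hg0 l y) (hmeas l)
    rw [Finset.sum_congr rfl h2, ← ENNReal.toReal_sum hfl, h1, ENNReal.toReal_mul,
      integral_eq_lintegral_of_nonneg_ae (Eventually.of_forall fun y => hG0 _)
        hGi.aestronglyMeasurable]
    simp
  -- positive and negative parts
  have hp := key (fun y => max (G y) 0) (hG.max continuous_const) (fun y => le_max_right _ _)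
    hGi.pos_part (hfib.mono fun y hy h => hy fun h' => h (by simp [h']))
  have hn := key (fun y => max (-G y) 0) (hG.neg.max continuous_const) (fun y => le_max_right _ _)
    hGi.neg_part (hfib.mono fun y hy h => hy fun h' => h (by simp [h']))
  have e : ∀ t : ℝ, t = max t 0 - max (-t) 0 := fun t => by
    rcases le_total 0 t with h | h
    · rw [max_eq_left h, max_eq_right (by linarith)]; ring
    · rw [max_eq_right h, max_eq_left (by linarith)]; ring
  have h3 : ∀ l ∈ F, ∫ y in UN A N l, gl A π ρ G l y =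
      (∫ y in UN A N l, gl A π ρ (fun y => max (G y) 0) l y) -
        ∫ y in UN A N l, gl A π ρ (fun y => max (-G y) 0) l y := by
    intro l hl
    rw [← integral_sub (hp.1 l hl) (hn.1 l hl)]
    refine integral_congr_ae (Eventually.of_forall fun y => ?_)
    show gl A π ρ G l y = gl A π ρ (fun y => max (G y) 0) l y -
      gl A π ρ (fun y => max (-G y) 0) l y
    unfold gl
    conv_lhs => rw [e (G (π (sg A l y)))]
    ring
  rw [Finset.sum_congr rfl h3, Finset.sum_sub_distrib, hp.2, hn.2, ← mul_sub,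
    ← integral_sub hGi.pos_part hGi.neg_part]
  congr 1
  refine integral_congr_ae (Eventually.of_forall fun y => ?_)
  exact (e _).symm

variable [T2Space M]

/-- **change of variables on `M`** -/
theorem cov (P : Part A) (hN : IsOpen N) (hπ : HolN A N π) {f : A.ι → M → ℂ} (hf : Den A f)
    {K : Set M} (hK : IsCompact K) (hKf : OffK A f K)
    {G : Cn n → ℝ} (hG : Continuous G) (hGi : Integrable fun y : RI n → ℝ => G (cc y))
    (hfN : ∀ l, ∀ x ∈ (A.e l).source, x ∈ N →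
      f l x = ((G (π x) * ‖(jm A π l x).det‖ ^ 2 : ℝ) : ℂ))
    (hfO : ∀ l, ∀ x ∈ (A.e l).source, x ∉ N → f l x = 0) {m : ℕ}
    (hfib : ∀ᵐ y : RI n → ℝ, G (cc y) ≠ 0 → (∀ x ∈ N, π x = cc y → x ∈ K) ∧
      {x | x ∈ N ∧ π x = cc y}.encard = m) :
    intD P f = ((m * ∫ y : RI n → ℝ, G (cc y) : ℝ) : ℂ) := by
  rw [intD_rho P hf hK hKf]
  set ρ := rho P (Fn P hK) with hρ
  have h1 : ∀ l ∈ Fn P hK, lint A l (fun x => (ρ l x : ℂ) * f l x) =
      ((∫ y in UN A N l, gl A π ρ G l y : ℝ) : ℂ) := by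
    intro l _
    have h2 : ∫ y in UN A N l, ((gl A π ρ G l y : ℝ) : ℂ) =
        ((∫ y in UN A N l, gl A π ρ G l y : ℝ) : ℂ) := integral_ofReal
    rw [← h2, ← integral_indicator (isOpen_UN hN l).measurableSet]
    show ∫ y, rd A l (fun x => (ρ l x : ℂ) * f l x) y = _
    refine integral_congr_ae (Eventually.of_forall fun y => ?_)
    show rd A l (fun x => (ρ l x : ℂ) * f l x) y = _
    by_cases hy : y ∈ Ui A l
    · rw [rd_of_mem hy]
      have hs : sg A l y ∈ (A.e l).source := sg_mem hy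
      by_cases hyN : sg A l y ∈ N
      · rw [indicator_of_mem (show y ∈ UN A N l from ⟨hy, hyN⟩)]
        show (ρ l (sg A l y) : ℂ) * f l (sg A l y) = _
        rw [hfN l _ hs hyN, gl]
        push_cast
        ring
      · rw [indicator_of_notMem (fun h : y ∈ UN A N l => hyN h.2)]
        show (ρ l (sg A l y) : ℂ) * f l (sg A l y) = _
        rw [hfO l _ hs hyN, mul_zero]
    · rw [rd_off hy, indicator_of_notMem (fun h : y ∈ UN A N l => hy h.1)]
  rw [Finset.sum_congr rfl h1, ← Complex.ofReal_sum]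
  congr 1
  refine cov_real hN hπ (fun l => ?_) (rho_nonneg P _) (fun l x hx => ?_) hG hGi ?_
  · have h2 : ContDiffOn ℝ ∞ (fun z => ρ l ((A.e l).symm z)) (A.e l).target := rho_sm P _ l l
    exact h2.continuousOn.comp continuous_cc.continuousOn fun y hy => hy
  · exact rho_off P _ l fun h => hx (P.χ_sub l h)
  · filter_upwards [hfib] with y hy h0
    exact ⟨fun x hx hxy => sum_rho P hK (Finset.Subset.refl _) ((hy h0).1 x hx hxy), (hy h0).2⟩

end

end Crest.Agent.R257.DegM_5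
end

-- ▼ part R257/DegT_5
section

/-!
# R257 (S0395), leaf MASS-M3 (helper5), part 4: the mass of `log |π|²`

`π : M → ℂ²` holomorphic on the open set `N`, `m`-to-one over a punctured ball, `w = log |π|²` on `N`:
* `ddm_smul_hess`  : `∂∂̄ (w ∂∂̄ w) = (∂∂̄ w)²`
* `CovD`           : the hypotheses on `π`
* `tot_eq`         : `intD P (w pd (hsf w) (hsf χ)) = π² m`
-/

set_option autoImplicit false
set_option linter.unusedSectionVars false

open Set Filter Topology Complex MeasureTheory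
open scoped ContDiff Matrix ComplexConjugate ComplexOrder

namespace Crest.Agent.R257.DegT_5

open Crest.Agent.R275.Geo Crest.Agent.R275.TorS666
open Crest.Agent.R275.Tor812 hiding pd
open Crest.Agent.R275.C1d194 Crest.Agent.R275.Pai323 Crest.Agent.R275.OmT75
open Crest.Agent.R275.SerG398 (lint dens)
open Crest.Agent.R273.StokesV_332
open Crest.Agent.R273.Fock_243
open Crest.Agent.R273.Calc_243 hiding dj
open Crest.Agent.R273.Bkn_243 Crest.Agent.R273.Pos_243 Crest.Agent.R273.BochA_101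
open Crest.Agent.R273.BochB_101 Crest.Agent.R273.BochC_101 Crest.Agent.R273.BochD_101
open Crest.Agent.R275.Core144 Crest.Agent.R273.Defs_333 Crest.Agent.R273.HM_333
open Crest.Agent.R273.Hess_333 Crest.Agent.R273.HessB_333 Crest.Agent.R273.Kah_333
open Crest.Agent.R257.C2F1_625 Crest.Agent.R257.C2F2_625 Crest.Agent.R257.C2F4_625
open Crest.Agent.R257.GBL1_625 Crest.Agent.R257.DegM_5 Crest.Agent.R257.DegC_5

noncomputable section

/-! ### `∂∂̄ (w ∂∂̄ w)` -/

theorem swapB {n : ℕ} {f : Cn n → ℂ} {z : Cn n} (hf : ∀ᶠ y in 𝓝 z, Sm y f) (c d e : Fin n) :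
    dS I c (dS (-I) d (dS I e f)) z = dS I e (dS (-I) d (dS I c f)) z := by
  rw [dS_comm ((hf.self_of_nhds).dS I e), dS_congr (comm_ev hf I I c e),
    dS_comm (((hf.self_of_nhds).dS I c).dS I e |> fun _ => (hf.self_of_nhds).dS I c)]

theorem ddm_smul_hess {w : Cn 2 → ℝ} {z : Cn 2} (hw : ∀ᶠ y in 𝓝 z, ContDiffAt ℝ ∞ w y) :
    ddm (fun y => (w y : ℂ) • hess w y) z = pd (hess w z) (hess w z) := by
  set v : Cn 2 → ℂ := cu w with hv
  have hvs : ∀ᶠ y in 𝓝 z, Sm y v := hw.mono fun y hy => contDiffAt_cu hy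
  have hv0 : Sm z v := hvs.self_of_nhds
  have hz : ∀ a b, Sm z (dS (-I) a (dS I b v)) := fun a b => (hv0.dS I b).dS (-I) a
  have e1 : ∀ a b, (fun y => ((w y : ℂ) • hess w y) a b) = fun y => v y * dS (-I) a (dS I b v) y :=
    fun a b => rfl
  unfold ddm
  rw [e1, e1, e1, e1]
  rw [dS2_mul hv0 (hz 1 1), dS2_mul hv0 (hz 0 0), dS2_mul hv0 (hz 1 0), dS2_mul hv0 (hz 0 1)]
  have a1 : dS (-I) 0 (dS (-I) 1 (dS I 1 v)) z = dS (-I) 1 (dS (-I) 0 (dS I 1 v)) z :=
    dS_comm (hv0.dS I 1)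
  have a2 : dS (-I) 1 (dS (-I) 0 (dS I 0 v)) z = dS (-I) 0 (dS (-I) 1 (dS I 0 v)) z :=
    dS_comm (hv0.dS I 0)
  have b1 : dS I 0 (dS (-I) 1 (dS I 1 v)) =ᶠ[𝓝 z] dS I 1 (dS (-I) 1 (dS I 0 v)) := by
    filter_upwards [hvs.eventually_nhds] with y hy
    exact swapB hy 0 1 1
  have b2 : dS I 1 (dS (-I) 0 (dS I 0 v)) =ᶠ[𝓝 z] dS I 0 (dS (-I) 0 (dS I 1 v)) := by
    filter_upwards [hvs.eventually_nhds] with y hy
    exact swapB hy 1 0 0
  rw [a1, a2, b1.self_of_nhds, b2.self_of_nhds, dS_congr b1, dS_congr b2]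
  simp only [pd, hess_eq]
  rw [← hv]
  ring

variable {M : Type} [TopologicalSpace M] {A : Atl 2 M} {N : Set M} {π : M → Cn 2}

/-! ### the Hessian of a composition with `π` -/

theorem hsf_comp (hN : IsOpen N) (hπ : HolN A N π) {u : Cn 2 → ℝ} {l : A.ι} {x : M}
    (hx : x ∈ (A.e l).source) (hxN : x ∈ N) (hu : ContDiffAt ℝ ∞ u (π x)) :
    hsf A (fun x => u (π x)) l x =
      jm A π l x * hess u (π x) * ((jm A π l x).map conj)ᵀ := by
  set T : Cn 2 → Cn 2 := fun z => π ((A.e l).symm z) with hT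
  have hTx : T (A.e l x) = π x := by
    simp only [hT]
    rw [(A.e l).left_inv hx]
  have hTd : ∀ᶠ z in 𝓝 (A.e l x), DifferentiableAt ℂ T z := by
    have h1 : A.e l x ∈ {z | z ∈ (A.e l).target ∧ (A.e l).symm z ∈ N} := by
      refine ⟨(A.e l).map_source hx, ?_⟩
      rw [(A.e l).left_inv hx]
      exact hxN
    filter_upwards [(isOpen_TN hN l).mem_nhds h1] with z hz
    exact (hπ l).differentiableAt ((isOpen_TN hN l).mem_nhds hz)
  show hess (fun z => u (T z)) (A.e l x) = _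
  ext a b
  rw [hess_comp (u := u) (T := T) (by rwa [hTx]) hTd, hTx]
  simp only [Matrix.mul_apply, Matrix.transpose_apply, Matrix.map_apply, Finset.sum_mul]
  rw [Finset.sum_comm]
  rfl

theorem pd_jm {J X Y : Matrix (Fin 2) (Fin 2) ℂ} :
    pd (J * X * (J.map conj)ᵀ) (J * Y * (J.map conj)ᵀ) = ((‖J.det‖ ^ 2 : ℝ) : ℂ) * pd X Y := by
  rw [pd_mul, Matrix.det_transpose, Crest.Agent.R273.GreenM_5.det_map_conj, Complex.mul_conj,
    Complex.normSq_eq_norm_sq]

/-- the function `θ ∘ π` on `N`, zero elsewhere -/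
def thN (N : Set M) (π : M → Cn 2) (θ : Cn 2 → ℝ) (x : M) : ℝ := by
  classical
  exact if x ∈ N then θ (π x) else 0

theorem thN_of {θ : Cn 2 → ℝ} {x : M} (hx : x ∈ N) : thN N π θ x = θ (π x) := if_pos hx

theorem thN_off {θ : Cn 2 → ℝ} {x : M} (hx : x ∉ N) : thN N π θ x = 0 := if_neg hx

/-- smooth composition with `π` -/
theorem smO_comp (hN : IsOpen N) (hπ : HolN A N π) {u : Cn 2 → ℝ} {l : A.ι} {x : M}
    (hx : x ∈ (A.e l).source) (hxN : x ∈ N) (hu : ContDiffAt ℝ ∞ u (π x)) {f : M → ℝ}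
    (hf : ∀ y ∈ N, f y = u (π y)) : ContDiffAt ℝ ∞ (fun z => f ((A.e l).symm z)) (A.e l x) := by
  have h1 : A.e l x ∈ {z | z ∈ (A.e l).target ∧ (A.e l).symm z ∈ N} := by
    refine ⟨(A.e l).map_source hx, ?_⟩
    rw [(A.e l).left_inv hx]
    exact hxN
  have h2 : ContDiffAt ℝ ∞ (fun z => π ((A.e l).symm z)) (A.e l x) :=
    (((Crest.Agent.R266.SCV.contDiffOn_omega_of_differentiableOn (isOpen_TN hN l)
      (hπ l)).restrict_scalars ℝ).of_le le_top).contDiffAt ((isOpen_TN hN l).mem_nhds h1)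
  have h3 : ContDiffAt ℝ ∞ (fun z => u (π ((A.e l).symm z))) (A.e l x) := by
    refine ContDiffAt.comp (A.e l x) ?_ h2
    rw [(A.e l).left_inv hx]
    exact hu
  refine h3.congr_of_eventuallyEq ?_
  filter_upwards [(isOpen_TN hN l).mem_nhds h1] with z hz
  exact hf _ hz.2

theorem hsf_eq_comp (hN : IsOpen N) (hπ : HolN A N π) {u : Cn 2 → ℝ} {l : A.ι} {x : M}
    (hx : x ∈ (A.e l).source) (hxN : x ∈ N) (hu : ContDiffAt ℝ ∞ u (π x)) {f : M → ℝ}
    (hf : ∀ y ∈ N, f y = u (π y)) :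
    hsf A f l x = jm A π l x * hess u (π x) * ((jm A π l x).map conj)ᵀ := by
  rw [← hsf_comp hN hπ hx hxN hu]
  have h1 : A.e l x ∈ {z | z ∈ (A.e l).target ∧ (A.e l).symm z ∈ N} := by
    refine ⟨(A.e l).map_source hx, ?_⟩
    rw [(A.e l).left_inv hx]
    exact hxN
  refine hess_congr ?_
  filter_upwards [(isOpen_TN hN l).mem_nhds h1] with z hz
  exact hf _ hz.2

/-- the hypotheses on `π` -/
structure CovD (A : Atl 2 M) (N : Set M) (π : M → Cn 2) (δ : ℝ) (m : ℕ) : Prop where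
  hN : IsOpen N
  hol : HolN A N π
  ne : ∀ x ∈ N, π x ≠ 0
  pos : 0 < δ
  cl : IsClosed (N ∩ {x | ‖π x‖ ≤ δ})
  cpt : ∀ ε > 0, IsCompact (N ∩ {x | ε ≤ ‖π x‖ ∧ ‖π x‖ ≤ δ})
  cnt : ∀ᵐ y : RI 2 → ℝ, ‖(cc y : Cn 2)‖ < δ → {x | x ∈ N ∧ π x = cc y}.encard = m

namespace CovD

variable {δ : ℝ} {m : ℕ} (D : CovD A N π δ m)

include D

theorem sm_thN {θ : Cn 2 → ℝ} (hθ : ContDiff ℝ ∞ θ) (h0 : ∀ y, δ ≤ ‖y‖ → θ y = 0) :
    A.Sm (thN N π θ) := by
  intro l z hz
  have hx := (A.e l).map_target hz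
  refine ContDiffAt.contDiffWithinAt ?_
  by_cases hxN : (A.e l).symm z ∈ N
  · have h1 := smO_comp (f := thN N π θ) D.hN D.hol hx hxN hθ.contDiffAt fun y hy => thN_of hy
    rwa [(A.e l).right_inv hz] at h1
  · have h1 : (A.e l).symm z ∉ N ∩ {x | ‖π x‖ ≤ δ} := fun h => hxN h.1
    have h2 : ∀ᶠ y in 𝓝 ((A.e l).symm z), thN N π θ y = 0 := by
      filter_upwards [D.cl.isOpen_compl.mem_nhds h1] with y hy
      by_cases hyN : y ∈ N
      · rw [thN_of hyN]
        refine h0 _ ?_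
        by_contra h
        exact hy ⟨hyN, (not_le.1 h).le⟩
      · exact thN_off hyN
    have h3 : Tendsto (A.e l).symm (𝓝 z) (𝓝 ((A.e l).symm z)) :=
      (A.e l).symm.continuousAt (by simpa using hz)
    exact contDiffAt_const.congr_of_eventuallyEq (h3.eventually h2)

variable {w : M → ℝ} (hw : ∀ x ∈ N, w x = W0 (π x))

include hw

theorem smS : SmS A N (fun i x => (w x : ℂ) • hsf A w i x) := by
  intro i a b x hx hxN
  have hW : ContDiffAt ℝ ∞ W0 (π x) := W0_smooth (D.ne x hxN)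
  have h1 : ContDiffAt ℝ ∞ (fun z => w ((A.e i).symm z)) (A.e i x) :=
    smO_comp D.hN D.hol hx hxN hW hw
  have h2 : ContDiffAt ℝ ∞ (fun z => hess (fun z => w ((A.e i).symm z)) z a b) (A.e i x) :=
    contDiffAt_hess h1 a b
  have h3 : ContDiffAt ℝ ∞ (fun z => (w ((A.e i).symm z) : ℂ)) (A.e i x) := contDiffAt_cu h1
  refine (h3.mul h2).congr_of_eventuallyEq ?_
  filter_upwards [(A.e i).open_target.mem_nhds ((A.e i).map_source hx)] with z hz
  show (w ((A.e i).symm z) : ℂ) * hsf A w i ((A.e i).symm z) a b = _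
  rw [hsf_read w i hz]

theorem tnO : TnO A N (fun i x => (w x : ℂ) • hsf A w i x) := by
  intro i j x hx hxN
  have hW : ContDiffAt ℝ ∞ W0 (π x) := W0_smooth (D.ne x hxN)
  have h1 : hsf A w i x = (Jm A i j x)ᵀ * hsf A w j x * (Jm A i j x).map conj := by
    have ho : IsOpen (A.ov i j) := isOpen_ov i j
    have hm : A.e i x ∈ A.ov i j := mem_ov hx
    refine hess_tr (f := fun _ => (1 : ℂ)) hx
      (smO_comp D.hN D.hol hx.1 hxN hW hw) (smO_comp D.hN D.hol hx.2 hxN hW hw)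
      (Eventually.of_forall fun w => differentiableAt_const _) one_ne_zero ?_
    filter_upwards [ho.mem_nhds hm] with y hy
    rw [(A.e j).left_inv hy.2]
    simp
  show (w x : ℂ) • hsf A w i x = (Jm A i j x)ᵀ * ((w x : ℂ) • hsf A w j x) * (Jm A i j x).map conj
  rw [h1, Matrix.mul_smul, Matrix.smul_mul]

/-- `(∂∂̄ w)² = 0` -/
theorem pd_self_zero {l : A.ι} {x : M} (hx : x ∈ (A.e l).source) (hxN : x ∈ N) :
    pd (hsf A w l x) (hsf A w l x) = 0 := by
  rw [hsf_eq_comp D.hN D.hol hx hxN (W0_smooth (D.ne x hxN)) hw, pd_jm, pd_log_self (D.ne x hxN),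
    mul_zero]

theorem ddD_zero {l : A.ι} {x : M} (hx : x ∈ (A.e l).source) (hxN : x ∈ N) :
    ddD A (fun i x => (w x : ℂ) • hsf A w i x) l x = 0 := by
  have h1 : A.e l x ∈ {z | z ∈ (A.e l).target ∧ (A.e l).symm z ∈ N} := by
    refine ⟨(A.e l).map_source hx, ?_⟩
    rw [(A.e l).left_inv hx]
    exact hxN
  unfold ddD
  have h2 : rdS A (fun i x => (w x : ℂ) • hsf A w i x) l =ᶠ[𝓝 (A.e l x)]
      fun y => ((fun z => w ((A.e l).symm z)) y : ℂ) • hess (fun z => w ((A.e l).symm z)) y := by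
    filter_upwards [(A.e l).open_target.mem_nhds ((A.e l).map_source hx)] with z hz
    show (w ((A.e l).symm z) : ℂ) • hsf A w l ((A.e l).symm z) = _
    rw [hsf_read w l hz]
  rw [ddm_congr h2, ddm_smul_hess]
  · exact D.pd_self_zero hw hx hxN
  · filter_upwards [(isOpen_TN D.hN l).mem_nhds h1] with z hz
    have hs := (A.e l).map_target hz.1
    have h3 := smO_comp D.hN D.hol hs hz.2 (W0_smooth (D.ne _ hz.2)) hw
    rwa [(A.e l).right_inv hz.1] at h3

end CovD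

/-! ### the radial cut-off -/

/-- `1` on `(-∞, a]`, `0` on `[b, ∞)` -/
def vt (a b s : ℝ) : ℝ := Real.smoothTransition ((b - s) / (b - a))

theorem vt_contDiff (a b : ℝ) : ContDiff ℝ ∞ (vt a b) :=
  Real.smoothTransition.contDiff.comp ((contDiff_const.sub contDiff_id).div_const _)

theorem vt_one {a b s : ℝ} (hab : a < b) (h : s ≤ a) : vt a b s = 1 := by
  refine Real.smoothTransition.one_of_one_le ?_
  rw [le_div_iff₀ (by linarith)]
  linarith

theorem vt_zero {a b s : ℝ} (hab : a < b) (h : b ≤ s) : vt a b s = 0 := by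
  refine Real.smoothTransition.zero_of_nonpos ?_
  exact div_nonpos_of_nonpos_of_nonneg (by linarith) (by linarith)

theorem vt_d1 (a b s : ℝ) : HasDerivAt (vt a b) (deriv (vt a b) s) s :=
  ((vt_contDiff a b).differentiable (by simp)).differentiableAt.hasDerivAt

theorem vt_d1c (a b : ℝ) : ContDiff ℝ ∞ (deriv (vt a b)) :=
  (contDiff_infty_iff_deriv.1 (vt_contDiff a b)).2

theorem vt_d2 (a b s : ℝ) : HasDerivAt (deriv (vt a b)) (deriv (deriv (vt a b)) s) s :=
  ((vt_d1c a b).differentiable (by simp)).differentiableAt.hasDerivAt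

theorem vt_d2c (a b : ℝ) : Continuous (deriv (deriv (vt a b))) :=
  (contDiff_infty_iff_deriv.1 (vt_d1c a b)).2.continuous

theorem vt_d1_small {a b s : ℝ} (hab : a < b) (h : s < a) : deriv (vt a b) s = 0 := by
  have : vt a b =ᶠ[𝓝 s] fun _ => 1 := by
    filter_upwards [Iio_mem_nhds h] with t ht
    exact vt_one hab (le_of_lt ht)
  rw [this.deriv_eq, deriv_const]

theorem vt_d1_big {a b s : ℝ} (hab : a < b) (h : b < s) : deriv (vt a b) s = 0 := by
  have : vt a b =ᶠ[𝓝 s] fun _ => 0 := by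
    filter_upwards [Ioi_mem_nhds h] with t ht
    exact vt_zero hab (le_of_lt ht)
  rw [this.deriv_eq, deriv_const]

theorem vt_d2_small {a b s : ℝ} (hab : a < b) (h : s < a) : deriv (deriv (vt a b)) s = 0 := by
  have : deriv (vt a b) =ᶠ[𝓝 s] fun _ => 0 := by
    filter_upwards [Iio_mem_nhds h] with t ht
    exact vt_d1_small hab ht
  rw [this.deriv_eq, deriv_const]

theorem vt_d2_big {a b s : ℝ} (hab : a < b) (h : b < s) : deriv (deriv (vt a b)) s = 0 := by
  have : deriv (vt a b) =ᶠ[𝓝 s] fun _ => 0 := by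
    filter_upwards [Ioi_mem_nhds h] with t ht
    exact vt_d1_big hab ht
  rw [this.deriv_eq, deriv_const]

/-- `log |y|² pd (hess log |y|²) (hess ϑ(|y|²))` -/
def GG (a b : ℝ) (y : Cn 2) : ℝ :=
  Real.log (U0 y) * ((deriv (vt a b) (U0 y) + U0 y * deriv (deriv (vt a b)) (U0 y)) / U0 y)

theorem GG_small {a b : ℝ} (hab : a < b) {y : Cn 2} (h : U0 y < a) : GG a b y = 0 := by
  unfold GG
  rw [vt_d1_small hab h, vt_d2_small hab h]
  simp

theorem GG_big {a b : ℝ} (hab : a < b) {y : Cn 2} (h : b < U0 y) : GG a b y = 0 := by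
  unfold GG
  rw [vt_d1_big hab h, vt_d2_big hab h]
  simp

theorem GG_continuous {a b : ℝ} (ha : 0 < a) (hab : a < b) : Continuous (GG a b) := by
  rw [continuous_iff_continuousAt]
  intro y
  have hU : Continuous (U0 : Cn 2 → ℝ) := U0_smooth.continuous
  rcases lt_or_ge (U0 y) a with h | h
  · have : GG a b =ᶠ[𝓝 y] fun _ => 0 := by
      filter_upwards [hU.continuousAt.eventually (gt_mem_nhds h)] with z hz
      exact GG_small hab hz
    exact continuousAt_const.congr this.symm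
  · have h0 : U0 y ≠ 0 := by linarith
    have c1 : ContinuousAt (fun y : Cn 2 => deriv (vt a b) (U0 y)) y :=
      ((vt_d1c a b).continuous.comp hU).continuousAt
    have c2 : ContinuousAt (fun y : Cn 2 => deriv (deriv (vt a b)) (U0 y)) y :=
      ((vt_d2c a b).comp hU).continuousAt
    exact (hU.continuousAt.log h0).mul ((c1.add (hU.continuousAt.mul c2)).div hU.continuousAt h0)

theorem GG_integrable {a b : ℝ} (ha : 0 < a) (hab : a < b) :
    Integrable fun y : RI 2 → ℝ => GG a b (cc y) := by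
  have h1 : HasCompactSupport (GG a b) := by
    refine HasCompactSupport.intro (isCompact_closedBall (0 : Cn 2) (√b)) fun y hy => ?_
    refine GG_big hab ?_
    have h2 : √b < ‖y‖ := by
      by_contra h
      exact hy (by simpa using not_lt.1 h)
    exact (Real.sqrt_lt (by linarith) (norm_nonneg y)).1 h2
  have h2 : Topology.IsClosedEmbedding (cc : (RI 2 → ℝ) → Cn 2) :=
    (rcE 2).symm.toContinuousLinearEquiv.toHomeomorph.isClosedEmbedding
  exact ((GG_continuous ha hab).comp continuous_cc).integrable_of_hasCompactSupport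
    (h1.comp_isClosedEmbedding h2)

theorem GG_int {a b : ℝ} (ha : 0 < a) (hab : a < b) :
    ∫ y : RI 2 → ℝ, GG a b (cc y) = Real.pi ^ 2 :=
  const_rad (vt_d1 a b) (vt_d2 a b) (vt_d2c a b) ha hab (fun _ h => vt_one hab h)
    (fun _ h => vt_zero hab h)

section main

variable [T2Space M]

namespace CovD

variable {δ : ℝ} {m : ℕ} (D : CovD A N π δ m) {w : M → ℝ} (hw : ∀ x ∈ N, w x = W0 (π x))

/-- the inner and outer radii -/
def ra (δ : ℝ) : ℝ := δ ^ 2 / 4

def rb (δ : ℝ) : ℝ := δ ^ 2 / 2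

include D

theorem ra_pos : 0 < ra δ := by have := D.pos; unfold ra; positivity

theorem ra_rb : ra δ < rb δ := by have := D.pos; unfold ra rb; nlinarith [sq_nonneg δ, mul_pos this this]

theorem rb_lt : rb δ < δ ^ 2 := by have := D.pos; unfold rb; nlinarith [mul_pos this this]

/-- the standard cut-off -/
def chi0 (_D : CovD A N π δ m) : M → ℝ := thN N π fun y => vt (ra δ) (rb δ) (U0 y)

theorem sm_chi0 : A.Sm D.chi0 :=
  D.sm_thN ((vt_contDiff _ _).comp U0_smooth) fun y hy => vt_zero D.ra_rb (by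
    have h1 := D.rb_lt
    have h2 : δ ^ 2 ≤ ‖y‖ ^ 2 := pow_le_pow_left₀ D.pos.le hy 2
    exact (h1.trans_le h2).le)

theorem chi0_one {x : M} (hx : x ∈ N) (h : ‖π x‖ < δ / 2) : D.chi0 x = 1 := by
  unfold chi0
  rw [thN_of hx]
  refine vt_one D.ra_rb ?_
  unfold U0 ra
  have := norm_nonneg (π x)
  nlinarith

theorem chi0_zero {x : M} (h : x ∉ N ∩ {x | ‖π x‖ ≤ δ}) : D.chi0 x = 0 := by
  unfold chi0
  by_cases hx : x ∈ N
  · rw [thN_of hx]
    refine vt_zero D.ra_rb ?_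
    have h1 : δ < ‖π x‖ := by
      by_contra h2
      exact h ⟨hx, not_lt.1 h2⟩
    have h2 := D.rb_lt
    have h3 : δ ^ 2 ≤ ‖π x‖ ^ 2 := pow_le_pow_left₀ D.pos.le h1.le 2
    exact (h2.trans_le h3).le
  · exact thN_off hx

theorem eventually_chart {l : A.ι} {x : M} (hx : x ∈ (A.e l).source) {p : M → Prop}
    (h : ∀ᶠ y in 𝓝 x, p y) : ∀ᶠ z in 𝓝 (A.e l x), p ((A.e l).symm z) := by
  have h1 : Tendsto (A.e l).symm (𝓝 (A.e l x)) (𝓝 x) := by
    have := ((A.e l).symm.continuousAt (x := A.e l x) (by simpa using (A.e l).map_source hx)).tendsto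
    rwa [(A.e l).left_inv hx] at this
  exact h1.eventually h

/-- the Hessian vanishes where the function is locally constant -/
theorem hsf_zero_of {f : M → ℝ} {c : ℝ} {l : A.ι} {x : M} (hx : x ∈ (A.e l).source)
    (h : ∀ᶠ y in 𝓝 x, f y = c) : hsf A f l x = 0 := by
  have h1 := D.eventually_chart hx h
  have h2 : hsf A f l x = hsf A (fun _ => c) l x := hess_congr h1
  rw [h2]
  exact Crest.Agent.R273.MassA_5.hsf_const c l x

theorem pi_lt {x : M} (hx : x ∈ N) {r : ℝ} (h : ‖π x‖ < r) :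
    ∀ᶠ y in 𝓝 x, y ∈ N ∧ ‖π y‖ < r := by
  obtain ⟨l, hl⟩ := A.cover x
  have h1 : A.e l x ∈ {z | z ∈ (A.e l).target ∧ (A.e l).symm z ∈ N} := by
    refine ⟨(A.e l).map_source hl, ?_⟩
    rw [(A.e l).left_inv hl]
    exact hx
  have h2 : ContinuousAt (fun z => π ((A.e l).symm z)) (A.e l x) :=
    (D.hol l).continuousOn.continuousAt ((isOpen_TN D.hN l).mem_nhds h1)
  have h3 : ContinuousAt (fun y => π ((A.e l).symm (A.e l y))) x :=
    ContinuousAt.comp (f := A.e l) h2 ((A.e l).continuousAt hl)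
  have h4 : ContinuousAt π x := h3.congr (by
    filter_upwards [(A.e l).open_source.mem_nhds hl] with y hy
    rw [(A.e l).left_inv hy])
  filter_upwards [D.hN.mem_nhds hx, h4.norm.eventually (gt_mem_nhds h)] with y h5 h6
  exact ⟨h5, h6⟩

include hw

/-- the integral for the standard cut-off -/
theorem tot_chi0 (P : Part A) :
    intD P (fun i x => pd (hsf A D.chi0 i x) ((w x : ℂ) • hsf A w i x)) =
      ((m * Real.pi ^ 2 : ℝ) : ℂ) := by
  have hden : Den A (fun i x => pd (hsf A D.chi0 i x) ((w x : ℂ) • hsf A w i x)) := by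
    have h := den_pd D.cl D.sm_chi0 (inter_subset_left : _ ⊆ N) (fun x hx => D.chi0_zero hx)
      (D.smS hw) (D.tnO hw)
    simpa only [hc_ofReal] using h
  have hoff : OffK A (fun i x => pd (hsf A D.chi0 i x) ((w x : ℂ) • hsf A w i x))
      (N ∩ {x | δ / 2 ≤ ‖π x‖ ∧ ‖π x‖ ≤ δ}) := by
    intro i x hx hxK
    have hp : ∀ Y : Matrix (Fin 2) (Fin 2) ℂ, pd 0 Y = 0 := fun Y => by simp [pd]
    have h0 : hsf A D.chi0 i x = 0 := by
      by_cases h1 : x ∈ N ∩ {x | ‖π x‖ ≤ δ}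
      · have h2 : ‖π x‖ < δ / 2 := by
          by_contra h
          exact hxK ⟨h1.1, not_lt.1 h, h1.2⟩
        refine D.hsf_zero_of hx (c := 1) ?_
        filter_upwards [D.pi_lt h1.1 h2] with y hy
        exact D.chi0_one hy.1 hy.2
      · refine D.hsf_zero_of hx (c := 0) ?_
        filter_upwards [D.cl.isOpen_compl.mem_nhds h1] with y hy
        exact D.chi0_zero hy
    show pd (hsf A D.chi0 i x) _ = 0
    rw [h0, hp]
  rw [cov P D.hN D.hol hden (D.cpt (δ / 2) (half_pos D.pos)) hoff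
    (GG_continuous D.ra_pos D.ra_rb) (GG_integrable D.ra_pos D.ra_rb) (m := m) ?_ ?_ ?_]
  · rw [GG_int D.ra_pos D.ra_rb]
  · intro l x hx hxN
    have hW := W0_smooth (D.ne x hxN)
    have h1 : hsf A D.chi0 l x = jm A π l x * hess (fun y => vt (ra δ) (rb δ) (U0 y)) (π x) *
        ((jm A π l x).map conj)ᵀ :=
      hsf_eq_comp D.hN D.hol hx hxN ((vt_contDiff _ _).comp U0_smooth).contDiffAt
        fun y hy => thN_of hy
    show pd (hsf A D.chi0 l x) ((w x : ℂ) • hsf A w l x) = _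
    rw [h1, hsf_eq_comp D.hN D.hol hx hxN hW hw, pd_smul, pd_jm, pd_comm,
      pd_rad (D.ne x hxN) (Eventually.of_forall fun s => vt_d1 _ _ s) (vt_d2 _ _ _), hw x hxN]
    unfold GG W0
    push_cast
    ring
  · intro l x hx hxN
    have h0 : hsf A D.chi0 l x = 0 := by
      refine D.hsf_zero_of hx (c := 0) ?_
      filter_upwards [D.cl.isOpen_compl.mem_nhds fun h => hxN h.1] with y hy
      exact D.chi0_zero hy
    show pd (hsf A D.chi0 l x) _ = 0
    rw [h0]
    simp [pd]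
  · filter_upwards [D.cnt] with y hy h0
    have h1 : ra δ ≤ U0 (cc y : Cn 2) := by
      by_contra h
      exact h0 (GG_small D.ra_rb (not_le.1 h))
    have h2 : U0 (cc y : Cn 2) ≤ rb δ := by
      by_contra h
      exact h0 (GG_big D.ra_rb (not_le.1 h))
    have h3 : ‖(cc y : Cn 2)‖ < δ := by
      have h4 := D.rb_lt
      unfold U0 at h2
      exact lt_of_pow_lt_pow_left₀ 2 D.pos.le (h2.trans_lt h4)
    have h4 : δ / 2 ≤ ‖(cc y : Cn 2)‖ := by
      unfold U0 ra at h1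
      have := norm_nonneg (cc y : Cn 2)
      have hp := D.pos
      by_contra h
      rw [not_le] at h
      nlinarith
    refine ⟨fun x hx hxy => ⟨hx, ?_, ?_⟩, hy h3⟩
    · rw [hxy]; exact h4
    · rw [hxy]; exact h3.le

/-- **(M3)** the mass of `log |π|²` -/
theorem tot_eq (P : Part A) {χ : M → ℝ} (hχ : A.Sm χ) (hχN : tsupport χ ⊆ N)
    {ε : ℝ} (hε : 0 < ε) (hχ1 : ∀ x ∈ N, ‖π x‖ < ε → χ x = 1)
    (hχK : ∀ r > 0, IsCompact (tsupport χ ∩ {x | r ≤ ‖π x‖})) :
    intD P (fun i x => (w x : ℂ) * pd (hsf A w i x) (hsf A χ i x)) =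
      ((Real.pi ^ 2 * m : ℝ) : ℂ) := by
  set r : ℝ := min ε (δ / 2) with hr
  have hr0 : 0 < r := lt_min hε (half_pos D.pos)
  set K : Set M := (tsupport χ ∩ {x | r ≤ ‖π x‖}) ∪ (N ∩ {x | r ≤ ‖π x‖ ∧ ‖π x‖ ≤ δ}) with hK
  have hKc : IsCompact K := (hχK r hr0).union (D.cpt r hr0)
  have hKN : K ⊆ N := by
    rintro x (hx | hx)
    · exact hχN hx.1
    · exact hx.1
  set φ : M → ℝ := fun x => χ x - D.chi0 x with hφ
  have hφs : A.Sm φ := fun i => (hχ i).sub (D.sm_chi0 i)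
  have hφ0 : ∀ x, x ∉ K → φ x = 0 := by
    intro x hx
    simp only [hφ]
    by_cases hxN : x ∈ N
    · rcases lt_or_ge ‖π x‖ r with h | h
      · rw [hχ1 x hxN (h.trans_le (min_le_left _ _)), D.chi0_one hxN (h.trans_le (min_le_right _ _)),
          sub_self]
      · have h1 : χ x = 0 := by
          by_contra h1
          exact hx (Or.inl ⟨subset_tsupport _ h1, h⟩)
        have h2 : D.chi0 x = 0 := D.chi0_zero fun h2 => hx (Or.inr ⟨hxN, h, h2.2⟩)
        rw [h1, h2, sub_self]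
    · have h1 : χ x = 0 := by
        by_contra h1
        exact hxN (hχN (subset_tsupport _ h1))
      rw [h1, D.chi0_zero fun h => hxN h.1, sub_self]
  -- the three densities
  have hdφ : Den A (fun i x => pd (hsf A φ i x) ((w x : ℂ) • hsf A w i x)) := by
    have h := den_pd hKc.isClosed hφs hKN hφ0 (D.smS hw) (D.tnO hw)
    simpa only [hc_ofReal] using h
  have hd0 : Den A (fun i x => pd (hsf A D.chi0 i x) ((w x : ℂ) • hsf A w i x)) := by
    have h := den_pd D.cl D.sm_chi0 (inter_subset_left : _ ⊆ N) (fun x hx => D.chi0_zero hx)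
      (D.smS hw) (D.tnO hw)
    simpa only [hc_ofReal] using h
  have hp : ∀ Y : Matrix (Fin 2) (Fin 2) ℂ, pd 0 Y = 0 := fun Y => by simp [pd]
  have ho0 : OffK A (fun i x => pd (hsf A D.chi0 i x) ((w x : ℂ) • hsf A w i x)) K := by
    intro i x hx hxK
    have h0 : hsf A D.chi0 i x = 0 := by
      by_cases h1 : x ∈ N ∩ {x | ‖π x‖ ≤ δ}
      · have h2 : ‖π x‖ < r := by
          by_contra h
          exact hxK (Or.inr ⟨h1.1, not_lt.1 h, h1.2⟩)
        refine D.hsf_zero_of hx (c := 1) ?_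
        filter_upwards [D.pi_lt h1.1 h2] with y hy
        exact D.chi0_one hy.1 (hy.2.trans_le (min_le_right _ _))
      · refine D.hsf_zero_of hx (c := 0) ?_
        filter_upwards [D.cl.isOpen_compl.mem_nhds h1] with y hy
        exact D.chi0_zero hy
    show pd (hsf A D.chi0 i x) _ = 0
    rw [h0, hp]
  have hoφ : OffK A (fun i x => pd (hsf A φ i x) ((w x : ℂ) • hsf A w i x)) K := by
    intro i x hx hxK
    have h0 : hsf A φ i x = 0 := by
      refine D.hsf_zero_of hx (c := 0) ?_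
      filter_upwards [hKc.isClosed.isOpen_compl.mem_nhds hxK] with y hy
      exact hφ0 y hy
    show pd (hsf A φ i x) _ = 0
    rw [h0, hp]
  have e1 : intD P (fun i x => (w x : ℂ) * pd (hsf A w i x) (hsf A χ i x)) =
      intD P (fun i x => pd (hsf A D.chi0 i x) ((w x : ℂ) • hsf A w i x) +
        pd (hsf A φ i x) ((w x : ℂ) • hsf A w i x)) := by
    refine intD_congr P fun i x hx => ?_
    have h1 : hsf A χ i x = hsf A D.chi0 i x + hsf A φ i x := by
      have h2 : χ = fun y => D.chi0 y + φ y := by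
        funext y
        simp only [hφ]
        ring
      conv_lhs => rw [h2]
      exact Crest.Agent.R273.TLs_201.hsf_add D.sm_chi0 hφs hx
    rw [← add_pd, ← h1, pd_smul, pd_comm]
  rw [e1, intD_add P (fun i => hd0.sm i) (fun i => hdφ.sm i) hKc ho0 hoφ, D.tot_chi0 hw P,
    ← tensor_stokes P D.hN hφs hKc hKN hφ0 (D.smS hw) (D.tnO hw)]
  have e2 : intD P (fun i x => (φ x : ℂ) * ddD A (fun i x => (w x : ℂ) • hsf A w i x) i x) = 0 := by
    rw [← intD_zero P]
    refine intD_congr P fun i x hx => ?_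
    by_cases hxK : x ∈ K
    · rw [D.ddD_zero hw hx (hKN hxK), mul_zero]
    · rw [hφ0 x hxK]; simp
  rw [e2, add_zero]
  push_cast
  ring

end CovD

end main

end

end Crest.Agent.R257.DegT_5
end

-- ▼ part R257/DegP_5
section

/-!
# R257 (S0395), leaf MASS-M3 (helper5), part 5: powers

`pwr p q π = (π_0^p, π_1^q)`; `CovD.pow : CovD A N (pwr p q π) δ' (p q m)`;
`tot_pow` : the mass of `(1/c) log (|π_0|^{2p} + |π_1|^{2q})` is `π² p q m / c²`.
-/

set_option autoImplicit false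
set_option linter.unusedSectionVars false

open Set Filter Topology Complex MeasureTheory
open scoped ContDiff Matrix ComplexConjugate ComplexOrder

namespace Crest.Agent.R257.DegP_5

open Crest.Agent.R275.Geo Crest.Agent.R275.TorS666
open Crest.Agent.R275.Tor812 hiding pd
open Crest.Agent.R275.C1d194 Crest.Agent.R275.Pai323 Crest.Agent.R275.OmT75
open Crest.Agent.R275.SerG398 (lint dens)
open Crest.Agent.R273.StokesV_332
open Crest.Agent.R275.Core144 Crest.Agent.R273.Defs_333 Crest.Agent.R273.HM_333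
open Crest.Agent.R273.Hess_333 Crest.Agent.R273.HessB_333 Crest.Agent.R273.Kah_333
open Crest.Agent.R257.C2F1_625 Crest.Agent.R257.C2F2_625 Crest.Agent.R257.C2F4_625
open Crest.Agent.R257.GBL1_625 Crest.Agent.R257.DegM_5 Crest.Agent.R257.DegC_5
open Crest.Agent.R257.DegT_5

noncomputable section

/-- `(y_0^p, y_1^q)` -/
def pw (p q : ℕ) (y : Cn 2) : Cn 2 := WithLp.toLp 2 ![(y 0) ^ p, (y 1) ^ q]

@[simp] theorem pw_zero (p q : ℕ) (y : Cn 2) : pw p q y 0 = (y 0) ^ p := rfl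
@[simp] theorem pw_one (p q : ℕ) (y : Cn 2) : pw p q y 1 = (y 1) ^ q := rfl

theorem pw_diff (p q : ℕ) : Differentiable ℂ (pw p q) := by
  have h : Differentiable ℂ (fun y : Cn 2 => (![(y 0) ^ p, (y 1) ^ q] : Fin 2 → ℂ)) := by
    rw [differentiable_pi]
    intro i
    fin_cases i
    · exact ((EuclideanSpace.proj 0 : Cn 2 →L[ℂ] ℂ).differentiable).pow p
    · exact ((EuclideanSpace.proj 1 : Cn 2 →L[ℂ] ℂ).differentiable).pow q
  exact ((PiLp.continuousLinearEquiv 2 ℂ (fun _ : Fin 2 => ℂ)).symm.differentiable).comp h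

theorem norm_two (y : Cn 2) : ‖y‖ ^ 2 = ‖y 0‖ ^ 2 + ‖y 1‖ ^ 2 := by
  rw [EuclideanSpace.norm_sq_eq, Fin.sum_univ_two]

theorem coord_le (y : Cn 2) (i : Fin 2) : ‖y i‖ ≤ ‖y‖ := PiLp.norm_apply_le y i

theorem pw_ne {p q : ℕ} {y : Cn 2} (hy : y ≠ 0) : pw p q y ≠ 0 := by
  intro h
  apply hy
  have h0 : (y 0) ^ p = 0 := by rw [← pw_zero p q y, h]; rfl
  have h1 : (y 1) ^ q = 0 := by rw [← pw_one p q y, h]; rfl
  ext i
  fin_cases i
  · exact eq_zero_of_pow_eq_zero h0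
  · exact eq_zero_of_pow_eq_zero h1

/-- number of roots -/
theorem ncard_roots {p : ℕ} (hp : 0 < p) {c : ℂ} (hc : c ≠ 0) : {z : ℂ | z ^ p = c}.encard = p := by
  classical
  obtain ⟨b, hb⟩ := IsAlgClosed.exists_pow_nat_eq c hp
  have hb0 : b ≠ 0 := by
    rintro rfl
    rw [zero_pow hp.ne'] at hb
    exact hc hb.symm
  have : NeZero p := ⟨hp.ne'⟩
  have h1 : {z : ℂ | z ^ p = c} = (fun u => b * u) '' ((Polynomial.nthRootsFinset p (1 : ℂ)) : Set ℂ) := by
    ext z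
    simp only [mem_ofPred_eq, mem_image, Finset.mem_coe, Polynomial.mem_nthRootsFinset hp]
    constructor
    · intro hz
      refine ⟨z / b, ?_, by field_simp⟩
      rw [div_pow, hz, hb, div_self hc]
    · rintro ⟨u, hu, rfl⟩
      rw [mul_pow, hu, mul_one, hb]
  rw [h1, (mul_right_injective₀ hb0).injOn.encard_image, Set.encard_coe_eq_coe_finsetCard]
  have h2 := (Complex.isPrimitiveRoot_exp p hp.ne').card_nthRootsFinset
  rw [h2]

theorem encard_iUnion_fin {α β : Type*} {s : Set α} (hs : s.Finite) {t : α → Set β}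
    (hd : s.PairwiseDisjoint t) {m : ℕ} (ht : ∀ i ∈ s, (t i).encard = m) :
    (⋃ i ∈ s, t i).encard = s.encard * m := by
  classical
  induction s, hs using Set.Finite.induction_on with
  | empty => simp
  | @insert a s has hs ih =>
    rw [biUnion_insert, Set.encard_union_eq, ih (hd.subset (subset_insert _ _))
      fun i hi => ht i (mem_insert_of_mem _ hi), ht a (mem_insert _ _), encard_insert_of_notMem has]
    · ring
    · rw [disjoint_iUnion₂_right]
      intro i hi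
      exact hd (mem_insert _ _) (mem_insert_of_mem _ hi) (by rintro rfl; exact has hi)

variable {M : Type} [TopologicalSpace M] {A : Atl 2 M} {N : Set M} {π : M → Cn 2}

/-- `(π_0^p, π_1^q)` -/
def pwr (p q : ℕ) (π : M → Cn 2) (x : M) : Cn 2 := pw p q (π x)

/-- the power map in real coordinates -/
def pwR (p q : ℕ) (y : RI 2 → ℝ) : RI 2 → ℝ := rc (pw p q (cc y))

theorem pwR_diff (p q : ℕ) : Differentiable ℝ (pwR p q) := by
  have h1 : Differentiable ℝ (rc : Cn 2 → RI 2 → ℝ) := by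
    rw [rc_eq]; exact (rcL 2).differentiable
  have h2 : Differentiable ℝ (cc : (RI 2 → ℝ) → Cn 2) :=
    (contDiff_cc (n := 2) (m := 1)).differentiable (by norm_num)
  exact h1.comp (((pw_diff p q).restrictScalars ℝ).comp h2)

/-- null sets of points with a coordinate zero -/
theorem ae_coord_ne (i : Fin 2) : ∀ᵐ y : RI 2 → ℝ, (cc y : Cn 2) i ≠ 0 := by
  have h1 : volume {y : RI 2 → ℝ | y (i, 0) = 0} = 0 := by
    have h2 : {y : RI 2 → ℝ | y (i, 0) = 0} =
        (LinearMap.ker (LinearMap.proj (i, 0) : (RI 2 → ℝ) →ₗ[ℝ] ℝ) : Set (RI 2 → ℝ)) := by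
      ext y; simp
    rw [h2]
    refine Measure.addHaar_submodule _ _ fun h => ?_
    have h3 : (Pi.single (i, 0) (1 : ℝ) : RI 2 → ℝ) ∈
        LinearMap.ker (LinearMap.proj (i, 0) : (RI 2 → ℝ) →ₗ[ℝ] ℝ) := by rw [h]; trivial
    simp at h3
  have h4 : ∀ᵐ y : RI 2 → ℝ, y (i, 0) ≠ 0 := by
    rw [ae_iff]
    simpa using h1
  filter_upwards [h4] with y hy h
  apply hy
  have h5 := congrArg Complex.re h
  rw [cc_apply] at h5
  simpa using h5

theorem CovD.continuousOn {δ : ℝ} {m : ℕ} (D : CovD A N π δ m) : ContinuousOn π N := by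
  intro x hx
  obtain ⟨l, hl⟩ := A.cover x
  have h1 : A.e l x ∈ {z | z ∈ (A.e l).target ∧ (A.e l).symm z ∈ N} := by
    refine ⟨(A.e l).map_source hl, ?_⟩
    rw [(A.e l).left_inv hl]
    exact hx
  have h2 : ContinuousAt (fun z => π ((A.e l).symm z)) (A.e l x) :=
    (D.hol l).continuousOn.continuousAt ((isOpen_TN D.hN l).mem_nhds h1)
  have h3 : ContinuousAt (fun y => π ((A.e l).symm (A.e l y))) x :=
    ContinuousAt.comp (f := A.e l) h2 ((A.e l).continuousAt hl)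
  exact (h3.congr (by
    filter_upwards [(A.e l).open_source.mem_nhds hl] with y hy
    rw [(A.e l).left_inv hy])).continuousWithinAt

/-- the points with a given power -/
theorem encard_pw {p q : ℕ} (hp : 0 < p) (hq : 0 < q) {y : Cn 2} (h0 : y 0 ≠ 0) (h1 : y 1 ≠ 0) :
    {c : Cn 2 | pw p q c = y}.encard = (p * q : ℕ) := by
  have h2 : {c : Cn 2 | pw p q c = y} =
      (fun z : ℂ × ℂ => (WithLp.toLp 2 ![z.1, z.2] : Cn 2)) ''
        ({z : ℂ | z ^ p = y 0} ×ˢ {z : ℂ | z ^ q = y 1}) := by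
    ext c
    simp only [mem_ofPred_eq, mem_image, mem_prod, Prod.exists]
    constructor
    · intro h
      refine ⟨c 0, c 1, ⟨by rw [← h]; rfl, by rw [← h]; rfl⟩, ?_⟩
      ext i
      fin_cases i <;> rfl
    · rintro ⟨a, b, ⟨ha, hb⟩, rfl⟩
      ext i
      fin_cases i
      · exact ha
      · exact hb
  have hinj : Function.Injective (fun z : ℂ × ℂ => (WithLp.toLp 2 ![z.1, z.2] : Cn 2)) := by
    rintro ⟨a, b⟩ ⟨a', b'⟩ h
    have e0 : a = a' := congrArg (fun c : Cn 2 => c 0) h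
    have e1 : b = b' := congrArg (fun c : Cn 2 => c 1) h
    rw [e0, e1]
  rw [h2, hinj.encard_image, Set.encard_prod, ncard_roots hp h0, ncard_roots hq h1]
  norm_cast

theorem CovD.pow [T2Space M] {δ : ℝ} {m : ℕ} (D : CovD A N π δ m) {p q : ℕ} (hp : 0 < p) (hq : 0 < q) :
    ∃ δ' : ℝ, CovD A N (pwr p q π) δ' (p * q * m) := by
  have hδ := D.pos
  set ρ : ℝ := min (δ / 2) (1 / 2) with hρ
  have hρ0 : 0 < ρ := lt_min (by linarith) (by norm_num)
  have hρ1 : ρ ≤ 1 / 2 := min_le_right _ _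
  have hρδ : ρ ≤ δ / 2 := min_le_left _ _
  set δ' : ℝ := ρ ^ (max p q) with hδ'
  have hδ'0 : 0 < δ' := by positivity
  -- `‖pw y‖ ≤ δ'` implies `‖y‖ < δ`
  have key : ∀ y : Cn 2, ‖pw p q y‖ ≤ δ' → ‖y‖ < δ := by
    intro y hy
    have h0 : ‖y 0‖ ≤ ρ := by
      have h1 : ‖y 0‖ ^ p ≤ ρ ^ p := by
        have h2 := (coord_le (pw p q y) 0).trans hy
        rw [pw_zero, norm_pow] at h2
        exact h2.trans (pow_le_pow_of_le_one hρ0.le (by linarith) (le_max_left _ _))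
      exact le_of_pow_le_pow_left₀ hp.ne' hρ0.le h1
    have h1 : ‖y 1‖ ≤ ρ := by
      have h1 : ‖y 1‖ ^ q ≤ ρ ^ q := by
        have h2 := (coord_le (pw p q y) 1).trans hy
        rw [pw_one, norm_pow] at h2
        exact h2.trans (pow_le_pow_of_le_one hρ0.le (by linarith) (le_max_right _ _))
      exact le_of_pow_le_pow_left₀ hq.ne' hρ0.le h1
    have h2 : ‖y‖ ^ 2 < δ ^ 2 := by
      rw [norm_two]
      have e0 : ‖y 0‖ ^ 2 ≤ ρ ^ 2 := pow_le_pow_left₀ (norm_nonneg _) h0 2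
      have e1 : ‖y 1‖ ^ 2 ≤ ρ ^ 2 := pow_le_pow_left₀ (norm_nonneg _) h1 2
      have e2 : ρ ^ 2 ≤ (δ / 2) ^ 2 := pow_le_pow_left₀ hρ0.le hρδ 2
      nlinarith [mul_pos hδ hδ]
    exact lt_of_pow_lt_pow_left₀ 2 hδ.le h2
  have hc : ContinuousOn (pwr p q π) N := (pw_diff p q).continuous.comp_continuousOn
    (CovD.continuousOn D)
  refine ⟨δ', D.hN, fun l => ?_, fun x hx => pw_ne (D.ne x hx), hδ'0, ?_, fun ε hε => ?_, ?_⟩
  · exact (pw_diff p q).comp_differentiableOn (D.hol l)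
  · have h1 : N ∩ {x | ‖pwr p q π x‖ ≤ δ'} =
        (N ∩ {x | ‖π x‖ ≤ δ}) ∩ (fun x => ‖pwr p q π x‖) ⁻¹' Iic δ' := by
      ext x
      constructor
      · rintro ⟨h1, h2⟩
        exact ⟨⟨h1, (key _ h2).le⟩, h2⟩
      · rintro ⟨h1, h2⟩
        exact ⟨h1.1, h2⟩
    rw [h1]
    exact (hc.norm.mono inter_subset_left).preimage_isClosed_of_isClosed D.cl isClosed_Iic
  · -- small `π` gives small power
    obtain ⟨r, hr0, hr⟩ : ∃ r > 0, ∀ y : Cn 2, ‖y‖ < r → ‖pw p q y‖ < ε := by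
      have h1 : Continuous (pw p q) := (pw_diff p q).continuous
      have h2 : pw p q 0 = 0 := by
        ext i
        fin_cases i
        · exact zero_pow hp.ne'
        · exact zero_pow hq.ne'
      have h3 := Metric.continuousAt_iff.1 (h1.continuousAt (x := (0 : Cn 2))) ε hε
      obtain ⟨r, hr0, hr⟩ := h3
      refine ⟨r, hr0, fun y hy => ?_⟩
      have := hr (x := y) (by simpa using hy)
      rwa [h2, dist_zero_right] at this
    have h1 : N ∩ {x | ε ≤ ‖pwr p q π x‖ ∧ ‖pwr p q π x‖ ≤ δ'} =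
        (N ∩ {x | r ≤ ‖π x‖ ∧ ‖π x‖ ≤ δ}) ∩ (fun x => ‖pwr p q π x‖) ⁻¹' Icc ε δ' := by
      ext x
      constructor
      · rintro ⟨h1, h2, h3⟩
        refine ⟨⟨h1, ?_, (key _ h3).le⟩, h2, h3⟩
        by_contra h
        exact absurd (hr _ (not_le.1 h)) (not_lt.2 h2)
      · rintro ⟨h1, h2⟩
        exact ⟨h1.1, h2⟩
    rw [h1]
    have hK := D.cpt r hr0
    exact hK.of_isClosed_subset ((hc.norm.mono inter_subset_left).preimage_isClosed_of_isClosed
      hK.isClosed isClosed_Icc) inter_subset_left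
  · -- the number of points
    set Bad : Set (RI 2 → ℝ) :=
      {y | ¬ (‖(cc y : Cn 2)‖ < δ → {x | x ∈ N ∧ π x = cc y}.encard = m)} with hBad
    have hB0 : volume Bad = 0 := D.cnt
    have hB1 : volume (pwR p q '' Bad) = 0 :=
      addHaar_image_eq_zero_of_differentiableOn_of_addHaar_eq_zero _
        (pwR_diff p q).differentiableOn hB0
    have hB2 : ∀ᵐ y : RI 2 → ℝ, y ∉ pwR p q '' Bad := measure_eq_zero_iff_ae_notMem.1 hB1
    filter_upwards [hB2, ae_coord_ne 0, ae_coord_ne 1] with y hy h0 h1 hyδ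
    set S : Set (Cn 2) := {c | pw p q c = cc y} with hS
    have hSc : S.encard = (p * q : ℕ) := encard_pw hp hq h0 h1
    have hSf : S.Finite := Set.finite_of_encard_eq_coe hSc
    have h2 : {x | x ∈ N ∧ pwr p q π x = cc y} = ⋃ c ∈ S, {x | x ∈ N ∧ π x = c} := by
      ext x
      simp only [mem_ofPred_eq, mem_iUnion, exists_prop]
      constructor
      · rintro ⟨hx, hxy⟩
        exact ⟨π x, hxy, hx, rfl⟩
      · rintro ⟨c, hc, hx, rfl⟩
        exact ⟨hx, hc⟩
    have h3 : ∀ c ∈ S, {x | x ∈ N ∧ π x = c}.encard = m := by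
      intro c hc
      have h4 : ‖c‖ < δ := key c (by rw [show pw p q c = cc y from hc]; exact hyδ.le)
      have h5 : rc c ∉ Bad := fun h => hy ⟨rc c, h, by
        unfold pwR
        rw [cc_rc, show pw p q c = cc y from hc, rc_cc]⟩
      rw [hBad, mem_ofPred_eq, not_not, cc_rc] at h5
      exact h5 h4
    rw [h2, encard_iUnion_fin hSf ?_ h3, hSc]
    · push_cast; rfl
    · intro c _ c' _ hcc
      show Disjoint {x | x ∈ N ∧ π x = c} {x | x ∈ N ∧ π x = c'}
      rw [Set.disjoint_left]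
      rintro x ⟨_, h⟩ ⟨_, h'⟩
      exact hcc (h.symm.trans h')

theorem U0_pw (p q : ℕ) (y : Cn 2) : U0 (pw p q y) = ‖y 0‖ ^ (2 * p) + ‖y 1‖ ^ (2 * q) := by
  rw [U0, norm_two, pw_zero, pw_one, norm_pow, norm_pow, ← pow_mul, ← pow_mul, mul_comm p 2,
    mul_comm q 2]

/-- **(M3)** the mass of `(1/c) log (|π_0|^{2p} + |π_1|^{2q})` -/
theorem tot_pow [T2Space M] {δ : ℝ} {m : ℕ} (D : CovD A N π δ m) {p q : ℕ} (hp : 0 < p)
    (hq : 0 < q) {c : ℝ} (hc : c ≠ 0) {w : M → ℝ}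
    (hw : ∀ x ∈ N, w x = c⁻¹ * Real.log (‖π x 0‖ ^ (2 * p) + ‖π x 1‖ ^ (2 * q)))
    (P : Part A) {χ : M → ℝ} (hχ : A.Sm χ) (hχN : tsupport χ ⊆ N)
    {ε : ℝ} (hε : 0 < ε) (hχ1 : ∀ x ∈ N, ‖π x‖ < ε → χ x = 1)
    (hχK : ∀ r > 0, IsCompact (tsupport χ ∩ {x | r ≤ ‖π x‖})) :
    intD P (fun i x => (w x : ℂ) * pd (hsf A w i x) (hsf A χ i x)) =
      ((Real.pi ^ 2 * (p * q * m) / c ^ 2 : ℝ) : ℂ) := by
  obtain ⟨δ', D'⟩ := CovD.pow D hp hq
  have hcont : ContinuousOn π N := CovD.continuousOn D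
  have hc' : ContinuousOn (pwr p q π) N := (pw_diff p q).continuous.comp_continuousOn hcont
  -- conditions on `χ` relative to the powers
  have hpw0 : ∀ e > 0, ∃ r > 0, ∀ y : Cn 2, ‖y‖ < r → ‖pw p q y‖ < e := by
    intro e he
    have h1 : Continuous (pw p q) := (pw_diff p q).continuous
    have h2 : pw p q 0 = 0 := by
      ext i
      fin_cases i
      · exact zero_pow hp.ne'
      · exact zero_pow hq.ne'
    obtain ⟨r, hr0, hr⟩ := Metric.continuousAt_iff.1 (h1.continuousAt (x := (0 : Cn 2))) e he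
    refine ⟨r, hr0, fun y hy => ?_⟩
    have := hr (x := y) (by simpa using hy)
    rwa [h2, dist_zero_right] at this
  have hsmall : ∃ e > 0, ∀ y : Cn 2, ‖pw p q y‖ < e → ‖y‖ < ε := by
    set ρ : ℝ := min (ε / 2) (1 / 2) with hρ
    have hρ0 : 0 < ρ := lt_min (by linarith) (by norm_num)
    have hρ1 : ρ ≤ 1 / 2 := min_le_right _ _
    have hρδ : ρ ≤ ε / 2 := min_le_left _ _
    refine ⟨ρ ^ (max p q), by positivity, fun y hy => ?_⟩
    have h0 : ‖y 0‖ ≤ ρ := by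
      have h1 : ‖y 0‖ ^ p ≤ ρ ^ p := by
        have h2 := (coord_le (pw p q y) 0).trans hy.le
        rw [pw_zero, norm_pow] at h2
        exact h2.trans (pow_le_pow_of_le_one hρ0.le (by linarith) (le_max_left _ _))
      exact le_of_pow_le_pow_left₀ hp.ne' hρ0.le h1
    have h1 : ‖y 1‖ ≤ ρ := by
      have h1 : ‖y 1‖ ^ q ≤ ρ ^ q := by
        have h2 := (coord_le (pw p q y) 1).trans hy.le
        rw [pw_one, norm_pow] at h2
        exact h2.trans (pow_le_pow_of_le_one hρ0.le (by linarith) (le_max_right _ _))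
      exact le_of_pow_le_pow_left₀ hq.ne' hρ0.le h1
    have h2 : ‖y‖ ^ 2 < ε ^ 2 := by
      rw [norm_two]
      have e0 : ‖y 0‖ ^ 2 ≤ ρ ^ 2 := pow_le_pow_left₀ (norm_nonneg _) h0 2
      have e1 : ‖y 1‖ ^ 2 ≤ ρ ^ 2 := pow_le_pow_left₀ (norm_nonneg _) h1 2
      have e2 : ρ ^ 2 ≤ (ε / 2) ^ 2 := pow_le_pow_left₀ hρ0.le hρδ 2
      nlinarith [mul_pos hε hε]
    exact lt_of_pow_lt_pow_left₀ 2 hε.le h2
  obtain ⟨e, he0, he⟩ := hsmall
  -- apply `tot_eq` to `c w`
  set w' : M → ℝ := fun x => c * w x with hw'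
  have hw'N : ∀ x ∈ N, w' x = W0 (pwr p q π x) := by
    intro x hx
    simp only [hw', hw x hx, W0, pwr, U0_pw]
    rw [← mul_assoc, mul_inv_cancel₀ hc, one_mul]
  have hK' : ∀ r > 0, IsCompact (tsupport χ ∩ {x | r ≤ ‖pwr p q π x‖}) := by
    intro r hr
    obtain ⟨r', hr'0, hr'⟩ := hpw0 r hr
    have h1 : tsupport χ ∩ {x | r ≤ ‖pwr p q π x‖} =
        (tsupport χ ∩ {x | r' ≤ ‖π x‖}) ∩ (fun x => ‖pwr p q π x‖) ⁻¹' Ici r := by
      ext x
      constructor
      · rintro ⟨h1, h2⟩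
        refine ⟨⟨h1, ?_⟩, h2⟩
        by_contra h
        exact absurd (hr' _ (not_le.1 h)) (not_lt.2 h2)
      · rintro ⟨h1, h2⟩
        exact ⟨h1.1, h2⟩
    rw [h1]
    have hK := hχK r' hr'0
    exact hK.of_isClosed_subset ((hc'.norm.mono fun x hx => hχN hx.1).preimage_isClosed_of_isClosed
      hK.isClosed isClosed_Ici) inter_subset_left
  have h1 := D'.tot_eq hw'N P hχ hχN he0 (fun x hx h => hχ1 x hx (he _ h)) hK'
  -- compare
  have hz : ∀ i, ∀ x ∈ (A.e i).source, (w x : ℂ) * pd (hsf A w i x) (hsf A χ i x) =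
      ((c ^ 2 : ℝ) : ℂ)⁻¹ * ((w' x : ℂ) * pd (hsf A w' i x) (hsf A χ i x)) := by
    intro i x hx
    by_cases hxs : x ∈ tsupport χ
    · have hxN := hχN hxs
      have hwx : ContDiffAt ℝ ∞ (fun z => w ((A.e i).symm z)) (A.e i x) := by
        have h2 : ContDiffAt ℝ ∞ (fun z => w' ((A.e i).symm z)) (A.e i x) :=
          smO_comp D'.hN D'.hol hx hxN (W0_smooth (D'.ne x hxN)) hw'N
        have h3 := contDiffAt_const (c := c⁻¹) |>.mul h2
        refine h3.congr_of_eventuallyEq (Eventually.of_forall fun z => ?_)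
        simp only [hw']
        rw [← mul_assoc, inv_mul_cancel₀ hc, one_mul]
      have h4 : hsf A w' i x = (c : ℂ) • hsf A w i x := by
        show hess (fun z => c * w ((A.e i).symm z)) (A.e i x) = _
        rw [hess_const_mul c hwx]
        rfl
      rw [h4, smul_pd]
      simp only [hw']
      have hc0 : (c : ℂ) ≠ 0 := by exact_mod_cast hc
      push_cast
      field_simp
    · have h0 : hsf A χ i x = 0 := by
        refine D.hsf_zero_of hx (c := 0) ?_
        filter_upwards [(isClosed_tsupport χ).isOpen_compl.mem_nhds hxs] with y hy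
        exact image_eq_zero_of_notMem_tsupport hy
      rw [h0]
      simp [pd]
  have hoff : OffK A (fun i x => (w' x : ℂ) * pd (hsf A w' i x) (hsf A χ i x))
      (tsupport χ ∩ {x | ε ≤ ‖π x‖}) := by
    intro i x hx hxK
    have h0 : hsf A χ i x = 0 := by
      by_cases hxs : x ∈ tsupport χ
      · have h2 : ‖π x‖ < ε := by
          by_contra h
          exact hxK ⟨hxs, not_lt.1 h⟩
        refine D.hsf_zero_of hx (c := 1) ?_
        filter_upwards [D.pi_lt (hχN hxs) h2] with y hy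
        exact hχ1 y hy.1 hy.2
      · refine D.hsf_zero_of hx (c := 0) ?_
        filter_upwards [(isClosed_tsupport χ).isOpen_compl.mem_nhds hxs] with y hy
        exact image_eq_zero_of_notMem_tsupport hy
    show (w' x : ℂ) * pd (hsf A w' i x) (hsf A χ i x) = 0
    rw [h0]
    simp [pd]
  rw [intD_congr P hz, intD_smul P _ (hχK ε hε) hoff, h1]
  push_cast
  field_simp

end

end Crest.Agent.R257.DegP_5
end

-- ▼ part R257/DegV1_5
section

/-!
# R257 (S0395), leaf M3-V (helper5), part 1: the pair `(g, h)` on a level surface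

* `sard`      : almost every value of `π` is regular
* `gh X τ g h`: the map `x ↦ (g x, h x)` on `X.M τ`, `holN_gh`
* `inj_of_jm` : at a regular point, `(dF, dg, dh)` is injective
-/

set_option autoImplicit false
set_option linter.unusedSectionVars false

open Set Filter Topology Complex MeasureTheory
open scoped ContDiff Matrix ComplexConjugate ENNReal

namespace Crest.Agent.R257.DegV_5

open Crest.Agent.R275 Crest.Agent.R275.Geo Crest.Agent.R275.C1d194 Crest.Agent.R275.Pai323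
open Crest.Agent.R275.SerG398 (lint dens)
open Crest.Agent.R273.StokesV_332 Crest.Agent.R273.Vm_333
open Crest.Agent.R257.Area_5 Crest.Agent.R257.DegM_5 Crest.Agent.R257.DegT_5
open Crest.Agent.R257.Atl_941 (SFam dX dch inj_chart dch_tangent par_chart)

noncomputable section

section sard

variable {n : ℕ} {M : Type} [TopologicalSpace M] {A : Atl n M} {N : Set M} {π : M → Cn n}

/-- **Sard** : almost every value of `π` is regular -/
theorem sard (hc : Countable A.ι) (hN : IsOpen N) (hπ : HolN A N π) :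
    ∀ᵐ y : RI n → ℝ, ∀ x ∈ N, π x = cc y → ∀ l, x ∈ (A.e l).source → (jm A π l x).det ≠ 0 := by
  have h1 : ∀ l, volume (pr A π l '' {y | y ∈ UN A N l ∧ (fderiv ℝ (pr A π l) y).det = 0}) = 0 := by
    intro l
    refine addHaar_image_eq_zero_of_det_fderivWithin_eq_zero volume
      (f' := fun y => fderiv ℝ (pr A π l) y) ?_ fun y hy => hy.2
    intro y hy
    exact (((contDiffOn_pr hπ hN l).differentiableOn one_ne_zero).differentiableAt
      ((isOpen_UN hN l).mem_nhds hy.1)).hasFDerivAt.hasFDerivWithinAt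
  have h2 : ∀ᵐ y : RI n → ℝ, ∀ l,
      y ∉ pr A π l '' {y | y ∈ UN A N l ∧ (fderiv ℝ (pr A π l) y).det = 0} :=
    ae_all_iff.2 fun l => measure_eq_zero_iff_ae_notMem.1 (h1 l)
  filter_upwards [h2] with y hy x hx hxy l hl h0
  refine hy l ⟨rc (A.e l x), ⟨⟨mem_Ui hl, ?_⟩, ?_⟩, ?_⟩
  · show sg A l (rc (A.e l x)) ∈ N
    rw [sg_rc hl]; exact hx
  · have h3 := fderiv_pr hπ hN (l := l) (y := rc (A.e l x))
      ⟨mem_Ui hl, by rw [sg_rc hl]; exact hx⟩
    rw [sg_rc hl, h0] at h3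
    simpa using h3
  · show rc (π (sg A l (rc (A.e l x)))) = y
    rw [sg_rc hl, hxy, rc_cc]

end sard

variable {E P : Type} [NormedAddCommGroup E] [NormedSpace ℂ E] [FiniteDimensional ℂ E]
  [NormedAddCommGroup P] [NormedSpace ℂ P] [FiniteDimensional ℂ P] (X : SFam 2 E P) (τ : P)

/-- the map `(g, h)` -/
def gh (g h : E → ℂ) (x : X.M τ) : Cn 2 := WithLp.toLp 2 ![g x.1, h x.1]


variable {X τ}

theorem diffOn_two {V : Type*} [NormedAddCommGroup V] [NormedSpace ℂ V] {a b : V → ℂ} {U : Set V}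
    (ha : DifferentiableOn ℂ a U) (hb : DifferentiableOn ℂ b U) :
    DifferentiableOn ℂ (fun z => (WithLp.toLp 2 ![a z, b z] : Cn 2)) U := by
  have h : DifferentiableOn ℂ (fun z => (![a z, b z] : Fin 2 → ℂ)) U := by
    refine differentiableOn_pi.2 fun i => ?_
    fin_cases i
    · exact ha
    · exact hb
  exact ((PiLp.continuousLinearEquiv 2 ℂ (fun _ : Fin 2 => ℂ)).symm.differentiable).comp_differentiableOn h

theorem holN_gh {g h : E → ℂ} {U : Set E} (hg : DifferentiableOn ℂ g U)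
    (hh : DifferentiableOn ℂ h U) : HolN (X.A τ) {x | x.1 ∈ U} (gh X τ g h) := by
  intro l
  have h1 : DifferentiableOn ℂ (fun z => (((X.A τ).e l).symm z).1) ((X.A τ).e l).target :=
    (par_chart l).hol
  exact diffOn_two (hg.comp (h1.mono fun z hz => hz.1) fun z hz => hz.2)
    (hh.comp (h1.mono fun z hz => hz.1) fun z hz => hz.2)

/-- the tangent space is the image of the chart -/
theorem exists_tangent {x : X.M τ} {l : (X.A τ).ι} (hx : x ∈ ((X.A τ).e l).source) {v : E}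
    (hv : dX X (x.1, τ) v = 0) : ∃ w, dch X τ l x w = v := by
  set T : Cn 2 →L[ℂ] E := dch X τ l x with hT
  have hinj : Function.Injective T := inj_chart l (((X.A τ).e l).map_source hx)
  have hle : LinearMap.range (T : Cn 2 →ₗ[ℂ] E) ≤ LinearMap.ker (dX X (x.1, τ) : E →ₗ[ℂ] ℂ) := by
    rintro _ ⟨w, rfl⟩
    exact dch_tangent l hx w
  have hdE : Module.finrank ℂ E = 3 := by
    rw [X.b.toLinearEquiv.finrank_eq]
    simp
  have h1 : Module.finrank ℂ (LinearMap.range (T : Cn 2 →ₗ[ℂ] E)) = 2 := by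
    rw [LinearMap.finrank_range_of_inj hinj]
    simp
  have h2 : Module.finrank ℂ (LinearMap.ker (dX X (x.1, τ) : E →ₗ[ℂ] ℂ)) = 2 := by
    have h3 := LinearMap.finrank_range_add_finrank_ker (dX X (x.1, τ) : E →ₗ[ℂ] ℂ)
    have h4 : (dX X (x.1, τ) : E →ₗ[ℂ] ℂ) ≠ 0 := by
      intro h
      apply Crest.Agent.R257.Atl_941.dX_ne' x
      ext v
      exact LinearMap.congr_fun h v
    have h5 : LinearMap.range (dX X (x.1, τ) : E →ₗ[ℂ] ℂ) = ⊤ := LinearMap.range_eq_top.2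
      (LinearMap.surjective h4)
    rw [h5, finrank_top, Module.finrank_self, hdE] at h3
    omega
  have h6 := Submodule.eq_of_le_of_finrank_eq hle (h1.trans h2.symm)
  have h7 : v ∈ LinearMap.range (T : Cn 2 →ₗ[ℂ] E) := by
    rw [h6]
    exact hv
  exact h7

/-- at a regular point the three differentials are independent -/
theorem inj_of_jm {x : X.M τ} {l : (X.A τ).ι} (hx : x ∈ ((X.A τ).e l).source) {g h : E → ℂ}
    (hdet : (jm (X.A τ) (gh X τ g h) l x).det ≠ 0) (hg : DifferentiableAt ℂ g x.1)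
    (hh : DifferentiableAt ℂ h x.1) {v : E} (hv : dX X (x.1, τ) v = 0)
    (hgv : fderiv ℂ g x.1 v = 0) (hhv : fderiv ℂ h x.1 v = 0) : v = 0 := by
  obtain ⟨w, rfl⟩ := exists_tangent hx hv
  have hz := ((X.A τ).e l).map_source hx
  have hsx : ((X.A τ).e l).symm ((X.A τ).e l x) = x := ((X.A τ).e l).left_inv hx
  have h1 : HasFDerivAt (fun z => (((X.A τ).e l).symm z).1) (dch X τ l x) ((X.A τ).e l x) :=
    ((par_chart l).diffAt hz).hasFDerivAt
  have hG : HasFDerivAt (fun z => g (((X.A τ).e l).symm z).1) ((fderiv ℂ g x.1).comp (dch X τ l x))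
      ((X.A τ).e l x) := by
    have h2 : HasFDerivAt g (fderiv ℂ g x.1)
        ((fun z => (((X.A τ).e l).symm z).1) ((X.A τ).e l x)) := by
      show HasFDerivAt g (fderiv ℂ g x.1) (((X.A τ).e l).symm ((X.A τ).e l x)).1
      rw [hsx]; exact hg.hasFDerivAt
    exact HasFDerivAt.comp (g := g) _ h2 h1
  have hH : HasFDerivAt (fun z => h (((X.A τ).e l).symm z).1) ((fderiv ℂ h x.1).comp (dch X τ l x))
      ((X.A τ).e l x) := by
    have h2 : HasFDerivAt h (fderiv ℂ h x.1)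
        ((fun z => (((X.A τ).e l).symm z).1) ((X.A τ).e l x)) := by
      show HasFDerivAt h (fderiv ℂ h x.1) (((X.A τ).e l).symm ((X.A τ).e l x)).1
      rw [hsx]; exact hh.hasFDerivAt
    exact HasFDerivAt.comp (g := h) _ h2 h1
  have hπ : DifferentiableAt ℂ (fun z => gh X τ g h (((X.A τ).e l).symm z)) ((X.A τ).e l x) := by
    have h2 : DifferentiableAt ℂ (fun z => (![g (((X.A τ).e l).symm z).1,
        h (((X.A τ).e l).symm z).1] : Fin 2 → ℂ)) ((X.A τ).e l x) := by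
      refine differentiableAt_pi.2 fun i => ?_
      fin_cases i
      · exact hG.differentiableAt
      · exact hH.differentiableAt
    exact ((PiLp.continuousLinearEquiv 2 ℂ (fun _ : Fin 2 => ℂ)).symm.differentiableAt).comp _ h2
  set D := fderiv ℂ (fun z => gh X τ g h (((X.A τ).e l).symm z)) ((X.A τ).e l x) with hD
  have hc : ∀ i, HasFDerivAt (fun z => gh X τ g h (((X.A τ).e l).symm z) i)
      ((EuclideanSpace.proj i : Cn 2 →L[ℂ] ℂ).comp D) ((X.A τ).e l x) := fun i =>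
    (EuclideanSpace.proj i : Cn 2 →L[ℂ] ℂ).hasFDerivAt.comp _ hπ.hasFDerivAt
  have e0 := congrArg (fun S : Cn 2 →L[ℂ] ℂ => S w) ((hc 0).unique hG)
  have e1 := congrArg (fun S : Cn 2 →L[ℂ] ℂ => S w) ((hc 1).unique hH)
  have hDw : D w = 0 := by
    ext i
    fin_cases i
    · exact e0.trans hgv
    · exact e1.trans hhv
  have hinj : Function.Injective (D : Cn 2 →ₗ[ℂ] Cn 2) := by
    rw [det_jm] at hdet
    have h3 := (LinearMap.isUnit_iff_isUnit_det (D : Cn 2 →ₗ[ℂ] Cn 2)).2 (isUnit_iff_ne_zero.2 hdet)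
    exact (LinearMap.isUnit_iff_ker_eq_bot _).1 h3 |> LinearMap.ker_eq_bot.1
  have hw : w = 0 := hinj (by simpa using hDw)
  rw [hw, map_zero]

end

end Crest.Agent.R257.DegV_5
end

-- ▼ part R257/DegV2_5
section

/-!
# R257 (S0395), leaf M3-V (helper5), part 2: `CovD` on the level `{f = 0}` in `E3`

* `Lv X τ f r`    : `X.M τ` is the level `{f = 0}` in the punctured ball `0 < |x| < r`
* `PairD f g h r m` : `g, h` on the level: no common zeros, `m` points over regular values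
* `covD`          : `CovD` for `(g, h)` on `{|x| < ρ}`
* `tot_lv`        : the mass of `c⁻¹ log (|g|^{2p} + |h|^{2q})` on the level
-/

set_option autoImplicit false
set_option linter.unusedSectionVars false

open Set Filter Topology Complex MeasureTheory
open scoped ContDiff Matrix ComplexConjugate ENNReal

namespace Crest.Agent.R257.DegV_5

open Crest.Agent.R275 Crest.Agent.R275.Geo Crest.Agent.R275.C1d194 Crest.Agent.R275.Pai323
open Crest.Agent.R275.SerG398 (lint dens)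
open Crest.Agent.R273.Defs_333 Crest.Agent.R273.Hess_333 Crest.Agent.R273.Kah_333
open Crest.Agent.R273.StokesV_332 Crest.Agent.R273.Vm_333
open Crest.Agent.R257.Area_5 Crest.Agent.R257.DegM_5 Crest.Agent.R257.DegT_5
open Crest.Agent.R257.DegP_5
open Crest.Agent.R257.Atl_941 (SFam dX dch inj_chart dch_tangent par_chart sm_comp_val)
open Crest.Agent.R257.Defs_219 (E3)
open Crest.Agent.R257.PN_835 (nsq nsq_nonneg nsq_pos continuous_nsq)
open Crest.Agent.R257.KED_952 (Cut)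
open Crest.Agent.R257.C2F1_625 (pd)

noncomputable section

variable {P : Type} [NormedAddCommGroup P] [NormedSpace ℂ P] [FiniteDimensional ℂ P]

/-- `X.M τ` is the level `{f = 0}` in the punctured ball -/
structure Lv (X : SFam 2 E3 P) (τ : P) (f : E3 → ℂ) (r : ℝ) : Prop where
  W : ∀ x, (x, τ) ∈ X.W ↔ x ≠ 0 ∧ nsq x < r ^ 2
  F : ∀ x, x ≠ 0 → nsq x < r ^ 2 → X.F (x, τ) = f x

/-- the data on `(g, h)` -/
structure PairD (f g h : E3 → ℂ) (r : ℝ) (m : ℕ) : Prop where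
  pos : 0 < r
  hf : DifferentiableOn ℂ f {x | nsq x < r ^ 2}
  hg : DifferentiableOn ℂ g {x | nsq x < r ^ 2}
  hh : DifferentiableOn ℂ h {x | nsq x < r ^ 2}
  f0 : f 0 = 0
  g0 : g 0 = 0
  h0 : h 0 = 0
  nz : ∀ x, x ≠ 0 → nsq x < r ^ 2 → f x = 0 → g x = 0 → h x = 0 → False
  cnt : ∀ ρ, 0 < ρ → ρ < r → ∀ᶠ y in 𝓝 (0 : Cn 2),
    (∀ x, nsq x < ρ ^ 2 → f x = 0 → g x = y 0 → h x = y 1 →
      ∀ v, fderiv ℂ f x v = 0 → fderiv ℂ g x v = 0 → fderiv ℂ h x v = 0 → v = 0) →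
    {x | nsq x < ρ ^ 2 ∧ f x = 0 ∧ g x = y 0 ∧ h x = y 1}.encard = m

/-! ### compactness in the ball -/

theorem isCompact_nsq_le (ρ : ℝ) : IsCompact {x : E3 | nsq x ≤ ρ} := by
  refine Metric.isCompact_of_isClosed_isBounded (isClosed_le continuous_nsq continuous_const) ?_
  refine isBounded_iff_forall_norm_le.2 ⟨ρ + 1, fun x hx => ?_⟩
  have hx' : nsq x ≤ ρ := hx
  refine (pi_norm_le_iff_of_nonneg (by linarith [nsq_nonneg x])).2 fun k => ?_
  have h1 := Crest.Agent.R257.PN_835.sq_le_nsq x k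
  nlinarith [norm_nonneg (x k), sq_nonneg (‖x k‖ - 1)]

theorem isOpen_nsq_lt (ρ : ℝ) : IsOpen {x : E3 | nsq x < ρ} :=
  isOpen_lt continuous_nsq continuous_const

variable {f g h : E3 → ℂ} {r : ℝ} {m : ℕ}

/-- the ambient map -/
def g2 (g h : E3 → ℂ) (x : E3) : Cn 2 := WithLp.toLp 2 ![g x, h x]

theorem g2_eq_zero {x : E3} : g2 g h x = 0 ↔ g x = 0 ∧ h x = 0 := by
  constructor
  · intro e
    exact ⟨congrArg (fun c : Cn 2 => c 0) e, congrArg (fun c : Cn 2 => c 1) e⟩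
  · rintro ⟨e0, e1⟩
    ext i
    fin_cases i
    · exact e0
    · exact e1

namespace PairD

variable (D : PairD f g h r m)
include D

theorem cont_g2 : ContinuousOn (g2 g h) {x | nsq x < r ^ 2} :=
  (diffOn_two D.hg D.hh).continuousOn

/-- the part of the level between two radii, where `(g,h)` is bounded below -/
theorem lower {ρ a : ℝ} (hρ : ρ < r) (hρ0 : 0 < ρ) (ha : 0 < a) : ∃ c > 0, ∀ x, a ≤ nsq x →
    nsq x ≤ ρ ^ 2 → f x = 0 → c ≤ ‖g2 g h x‖ := by
  have hsub : {x : E3 | nsq x ≤ ρ ^ 2} ⊆ {x | nsq x < r ^ 2} := fun x hx =>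
    lt_of_le_of_lt hx (pow_lt_pow_left₀ hρ hρ0.le two_ne_zero)
  set S : Set E3 := ({x : E3 | nsq x ≤ ρ ^ 2} ∩ f ⁻¹' {0}) ∩ {x | a ≤ nsq x} with hS
  have h1 : IsCompact ({x : E3 | nsq x ≤ ρ ^ 2} ∩ f ⁻¹' {0}) :=
    (isCompact_nsq_le (ρ ^ 2)).of_isClosed_subset
      ((D.hf.continuousOn.mono hsub).preimage_isClosed_of_isClosed
        (isCompact_nsq_le (ρ ^ 2)).isClosed isClosed_singleton) inter_subset_left
  have h2 : IsCompact S := h1.inter_right (isClosed_le continuous_const continuous_nsq)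
  rcases S.eq_empty_or_nonempty with he | hne
  · refine ⟨1, one_pos, fun x h3 h4 h5 => ?_⟩
    have : x ∈ S := ⟨⟨h4, h5⟩, h3⟩
    rw [he] at this
    exact absurd this (notMem_empty x)
  · have hc : ContinuousOn (fun x => ‖g2 g h x‖) S :=
      (D.cont_g2.norm).mono fun x hx => hsub hx.1.1
    obtain ⟨x₀, hx₀, hmin⟩ := h2.exists_isMinOn hne hc
    refine ⟨‖g2 g h x₀‖, ?_, fun x h3 h4 h5 => hmin ⟨⟨h4, h5⟩, h3⟩⟩
    rw [gt_iff_lt, norm_pos_iff]
    intro h0
    obtain ⟨h6, h7⟩ := g2_eq_zero.1 h0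
    have hx0 : x₀ ≠ 0 := by
      rintro rfl
      have : a ≤ nsq (0 : E3) := hx₀.2
      have h8 : nsq (0 : E3) = 0 := by simp [nsq]
      linarith
    exact D.nz x₀ hx0 (hsub hx₀.1.1) hx₀.1.2 h6 h7

end PairD

variable {X : SFam 2 E3 P} {τ : P}

namespace Lv

variable (L : Lv X τ f r)
include L

theorem ne (x : X.M τ) : x.1 ≠ 0 := ((L.W x.1).1 x.2.1).1
theorem lt (x : X.M τ) : nsq x.1 < r ^ 2 := ((L.W x.1).1 x.2.1).2
theorem f_eq (x : X.M τ) : f x.1 = 0 := by rw [← L.F x.1 (L.ne x) (L.lt x)]; exact x.2.2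

theorem mem {x : E3} (h0 : x ≠ 0) (h1 : nsq x < r ^ 2) (h2 : f x = 0) :
    (x, τ) ∈ X.W ∧ X.F (x, τ) = 0 := ⟨(L.W x).2 ⟨h0, h1⟩, by rw [L.F x h0 h1, h2]⟩

theorem dX_eq (hf : DifferentiableOn ℂ f {x | nsq x < r ^ 2}) (x : X.M τ) :
    dX X (x.1, τ) = fderiv ℂ f x.1 := by
  have h1 : HasFDerivAt (fun y : E3 => X.F (y, τ)) (dX X (x.1, τ)) x.1 := by
    have h2 : HasFDerivAt X.F (fderiv ℂ X.F (x.1, τ)) (x.1, τ) := (X.diffAt x.2.1).hasFDerivAt
    have h3 : HasFDerivAt (fun y : E3 => (y, τ)) (ContinuousLinearMap.inl ℂ E3 P) x.1 :=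
      hasFDerivAt_prodMk_left x.1 τ
    exact h2.comp x.1 h3
  have h4 : HasFDerivAt f (fderiv ℂ f x.1) x.1 :=
    (hf.differentiableAt ((isOpen_nsq_lt _).mem_nhds (L.lt x))).hasFDerivAt
  have h5 : (fun y : E3 => X.F (y, τ)) =ᶠ[𝓝 x.1] f := by
    filter_upwards [(isOpen_nsq_lt (r ^ 2)).mem_nhds (L.lt x), isOpen_compl_singleton.mem_nhds
      (show x.1 ∈ ({0} : Set E3)ᶜ from L.ne x)] with y hy hy0
    exact L.F y hy0 hy
  exact h1.unique (h4.congr_of_eventuallyEq h5)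

end Lv

theorem gh_eq (x : X.M τ) : gh X τ g h x = g2 g h x.1 := rfl

/-- the open part of the level -/
def NN (X : SFam 2 E3 P) (τ : P) (ρ : ℝ) : Set (X.M τ) := {x | x.1 ∈ {y : E3 | nsq y < ρ ^ 2}}

theorem mem_NN {ρ : ℝ} {x : X.M τ} : x ∈ NN X τ ρ ↔ nsq x.1 < ρ ^ 2 := Iff.rfl

theorem isOpen_NN (ρ : ℝ) : IsOpen (NN X τ ρ) := (isOpen_nsq_lt _).preimage continuous_subtype_val

/-- compact parts of the level -/
theorem isCompact_part (L : Lv X τ f r) (D : PairD f g h r m) {ρ ε : ℝ} (hρ0 : 0 < ρ) (hρ : ρ < r)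
    (hε : 0 < ε) {C : Set E3} (hC : IsClosed C) :
    IsCompact {x : X.M τ | nsq x.1 ≤ ρ ^ 2 ∧ ε ≤ ‖gh X τ g h x‖ ∧ x.1 ∈ C} := by
  have hsub : {x : E3 | nsq x ≤ ρ ^ 2} ⊆ {x | nsq x < r ^ 2} := fun x hx =>
    lt_of_le_of_lt hx (pow_lt_pow_left₀ hρ hρ0.le two_ne_zero)
  refine (Topology.IsInducing.isCompact_iff (f := (Subtype.val : X.M τ → E3))
    Topology.IsInducing.subtypeVal).2 ?_
  have h1 : IsCompact ({x : E3 | nsq x ≤ ρ ^ 2} ∩ (fun x => (f x, ‖g2 g h x‖)) ⁻¹' ({0} ×ˢ Ici ε)) :=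
    (isCompact_nsq_le (ρ ^ 2)).of_isClosed_subset
      (((D.hf.continuousOn.prodMk D.cont_g2.norm).mono hsub).preimage_isClosed_of_isClosed
        (isCompact_nsq_le (ρ ^ 2)).isClosed (isClosed_singleton.prod isClosed_Ici)) inter_subset_left
  have h2 := h1.inter_right hC
  convert h2 using 1
  ext x
  constructor
  · rintro ⟨x, ⟨h3, h4, h5⟩, rfl⟩
    exact ⟨⟨h3, L.f_eq x, h4⟩, h5⟩
  · rintro ⟨⟨h3, h4, h5⟩, h6⟩
    have hx0 : x ≠ 0 := by
      rintro rfl
      have h7 : g2 g h 0 = 0 := g2_eq_zero.2 ⟨D.g0, D.h0⟩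
      have h8 : ε ≤ ‖g2 g h 0‖ := h5
      rw [h7, norm_zero] at h8
      linarith
    exact ⟨⟨x, L.mem hx0 (hsub h3) h4⟩, ⟨h3, h5, h6⟩, rfl⟩

/-- **`CovD` on the level** -/
theorem covD (L : Lv X τ f r) (D : PairD f g h r m) {ρ : ℝ} (hρ0 : 0 < ρ) (hρ : ρ < r) :
    ∃ δ : ℝ, CovD (X.A τ) (NN X τ ρ) (gh X τ g h) δ m := by
  have hsub : {x : E3 | nsq x < ρ ^ 2} ⊆ {x | nsq x < r ^ 2} := fun x hx =>
    hx.trans (pow_lt_pow_left₀ hρ hρ0.le two_ne_zero)
  obtain ⟨c, hc0, hc⟩ := D.lower hρ hρ0 (a := ρ ^ 2) (by positivity)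
  obtain ⟨δ₁, hδ₁0, hδ₁⟩ := Metric.eventually_nhds_iff.1 (D.cnt ρ hρ0 hρ)
  set δ : ℝ := min (c / 2) δ₁ with hδ
  have hδ0 : 0 < δ := lt_min (by linarith) hδ₁0
  have hδc : δ < c := (min_le_left _ _).trans_lt (by linarith)
  have hπ : HolN (X.A τ) (NN X τ ρ) (gh X τ g h) := holN_gh (D.hg.mono hsub) (D.hh.mono hsub)
  have hbd : ∀ x : X.M τ, nsq x.1 ≤ ρ ^ 2 → ‖gh X τ g h x‖ ≤ δ → nsq x.1 < ρ ^ 2 := by
    intro x h1 h2
    refine lt_of_le_of_ne h1 fun h3 => ?_
    have h4 := hc x.1 h3.ge h1 (L.f_eq x)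
    rw [gh_eq] at h2
    linarith
  have hcont : ContinuousOn (gh X τ g h) {x : X.M τ | nsq x.1 < r ^ 2} :=
    D.cont_g2.comp continuous_subtype_val.continuousOn fun x hx => hx
  refine ⟨δ, isOpen_NN ρ, hπ, ?_, hδ0, ?_, fun ε hε => ?_, ?_⟩
  · intro x hx h0
    rw [gh_eq] at h0
    obtain ⟨h1, h2⟩ := g2_eq_zero.1 h0
    exact D.nz x.1 (L.ne x) (L.lt x) (L.f_eq x) h1 h2
  · have h1 : NN X τ ρ ∩ {x | ‖gh X τ g h x‖ ≤ δ} =
        {x : X.M τ | nsq x.1 ≤ ρ ^ 2} ∩ (fun x => ‖gh X τ g h x‖) ⁻¹' Iic δ := by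
      ext x
      constructor
      · rintro ⟨h1, h2⟩
        exact ⟨(mem_NN.1 h1).le, h2⟩
      · rintro ⟨h1, h2⟩
        exact ⟨hbd x h1 h2, h2⟩
    rw [h1]
    refine ContinuousOn.preimage_isClosed_of_isClosed (hcont.norm.mono fun x _ => L.lt x) ?_
      isClosed_Iic
    exact isClosed_le (continuous_nsq.comp continuous_subtype_val) continuous_const
  · have h1 : NN X τ ρ ∩ {x | ε ≤ ‖gh X τ g h x‖ ∧ ‖gh X τ g h x‖ ≤ δ} =
        {x : X.M τ | nsq x.1 ≤ ρ ^ 2 ∧ ε ≤ ‖gh X τ g h x‖ ∧ x.1 ∈ (univ : Set E3)} ∩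
          (fun x => ‖gh X τ g h x‖) ⁻¹' Iic δ := by
      ext x
      constructor
      · rintro ⟨h1, h2, h3⟩
        exact ⟨⟨(mem_NN.1 h1).le, h2, mem_univ _⟩, h3⟩
      · rintro ⟨⟨h1, h2, -⟩, h3⟩
        exact ⟨hbd x h1 h3, h2, h3⟩
    rw [h1]
    have hK := isCompact_part L D hρ0 hρ hε (C := univ) isClosed_univ
    exact hK.of_isClosed_subset ((hcont.norm.mono fun x _ => L.lt x).preimage_isClosed_of_isClosed
      hK.isClosed isClosed_Iic) inter_subset_left
  · have hs := sard (X.countable τ) (isOpen_NN ρ) hπ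
    filter_upwards [hs, ae_coord_ne 0] with y hy hy0 hyδ
    have h1 := hδ₁ (y := cc y) (by rw [dist_zero_right]; exact hyδ.trans_le (min_le_right _ _))
    have hx0 : ∀ x : E3, g x = (cc y : Cn 2) 0 → x ≠ 0 := by
      rintro x hx rfl
      exact hy0 (by rw [← hx, D.g0])
    have h2 : {x : X.M τ | x ∈ NN X τ ρ ∧ gh X τ g h x = cc y} =
        Subtype.val ⁻¹' {x | nsq x < ρ ^ 2 ∧ f x = 0 ∧ g x = (cc y : Cn 2) 0 ∧
          h x = (cc y : Cn 2) 1} := by
      ext x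
      constructor
      · rintro ⟨h3, h4⟩
        exact ⟨h3, L.f_eq x, congrArg (fun c : Cn 2 => c 0) h4, congrArg (fun c : Cn 2 => c 1) h4⟩
      · rintro ⟨h3, -, h4, h5⟩
        refine ⟨h3, ?_⟩
        ext i
        fin_cases i
        · exact h4
        · exact h5
    rw [h2, ← Subtype.val_injective.encard_image, image_preimage_eq_inter_range]
    rw [inter_eq_left.2]
    · refine h1 fun x h3 h4 h5 h6 v hfv hgv hhv => ?_
      set x' : X.M τ := ⟨x, L.mem (hx0 x h5) (hsub h3) h4⟩ with hx'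
      obtain ⟨l, hl⟩ := (X.A τ).cover x'
      have h7 : gh X τ g h x' = cc y := by
        ext i
        fin_cases i
        · exact h5
        · exact h6
      have hdet := hy x' h3 h7 l hl
      refine inj_of_jm hl hdet ?_ ?_ (v := v) ?_ hgv hhv
      · exact D.hg.differentiableAt ((isOpen_nsq_lt _).mem_nhds (hsub h3))
      · exact D.hh.differentiableAt ((isOpen_nsq_lt _).mem_nhds (hsub h3))
      · rw [L.dX_eq D.hf x']
        exact hfv
    · rintro x ⟨h3, h4, h5, h6⟩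
      exact ⟨⟨x, L.mem (hx0 x h5) (hsub h3) h4⟩, rfl⟩

/-- **the mass of `c⁻¹ log (|g|^{2p} + |h|^{2q})` on the level** -/
theorem tot_lv (L : Lv X τ f r) (D : PairD f g h r m) {p q : ℕ} (hp : 0 < p) (hq : 0 < q) {c : ℝ}
    (hc : c ≠ 0) {w : E3 → ℝ}
    (hw : ∀ x, x ≠ 0 → nsq x < r ^ 2 → f x = 0 →
      w x = c⁻¹ * Real.log (‖g x‖ ^ (2 * p) + ‖h x‖ ^ (2 * q)))
    (Pt : Part (X.A τ)) {χ : E3 → ℝ} (hχ : Cut r χ) :
    intD Pt (fun i x => (w x.1 : ℂ) * pd (hsf (X.A τ) (fun x => w x.1) i x)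
      (hsf (X.A τ) (fun x => χ x.1) i x)) = ((Real.pi ^ 2 * (p * q * m) / c ^ 2 : ℝ) : ℂ) := by
  obtain ⟨r', hr'0, hr'r, hr'⟩ := hχ.supp
  have hr0 : 0 < r := hr'0.trans hr'r
  obtain ⟨ρ, hρ1, hρ2⟩ := exists_between hr'r
  have hρ0 : 0 < ρ := hr'0.trans hρ1
  obtain ⟨δ, C⟩ := covD L D hρ0 hρ2
  have hts : ∀ x ∈ tsupport (fun x : X.M τ => χ x.1), nsq x.1 ≤ r' ^ 2 := by
    have h1 : tsupport (fun x : X.M τ => χ x.1) ⊆ {x | nsq x.1 ≤ r' ^ 2} := by
      refine closure_minimal (fun x hx => ?_)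
        (isClosed_le (continuous_nsq.comp continuous_subtype_val) continuous_const)
      by_contra h2
      exact hx (hr' x.1 (not_le.1 h2).le)
    exact h1
  obtain ⟨a, ha0, ha⟩ : ∃ a > 0, ∀ x : E3, nsq x < a → χ x = 1 := by
    obtain ⟨e, he0, he⟩ := Metric.eventually_nhds_iff.1 hχ.one
    refine ⟨e ^ 2, by positivity, fun x hx => he ?_⟩
    rw [dist_zero_right]
    refine (pi_norm_lt_iff he0).2 fun k => ?_
    have h1 := (Crest.Agent.R257.PN_835.sq_le_nsq x k).trans_lt hx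
    exact lt_of_pow_lt_pow_left₀ 2 he0.le h1
  obtain ⟨ε, hε0, hε⟩ := D.lower hρ2 hρ0 ha0
  refine tot_pow C hp hq hc (fun x _ => hw x.1 (L.ne x) (L.lt x) (L.f_eq x)) Pt
    (sm_comp_val (hχ.sm.contDiffOn (s := univ)) fun _ => mem_univ _) ?_ hε0 ?_ fun e he => ?_
  · intro x hx
    exact (hts x hx).trans_lt (pow_lt_pow_left₀ hρ1 hr'0.le two_ne_zero)
  · intro x hx hx2
    refine ha _ ?_
    by_contra h1
    have h2 := hε x.1 (not_lt.1 h1) (mem_NN.1 hx).le (L.f_eq x)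
    rw [gh_eq] at hx2
    linarith
  · have hK := isCompact_part L D hρ0 hρ2 he (C := univ) isClosed_univ
    have h1 : tsupport (fun x : X.M τ => χ x.1) ∩ {x | e ≤ ‖gh X τ g h x‖} =
        {x : X.M τ | nsq x.1 ≤ ρ ^ 2 ∧ e ≤ ‖gh X τ g h x‖ ∧ x.1 ∈ (univ : Set E3)} ∩
          tsupport (fun x : X.M τ => χ x.1) := by
      ext x
      constructor
      · rintro ⟨h2, h3⟩
        exact ⟨⟨(hts x h2).trans (pow_le_pow_left₀ hr'0.le hρ1.le 2), h3, mem_univ _⟩, h2⟩
      · rintro ⟨⟨-, h3, -⟩, h2⟩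
        exact ⟨h2, h3⟩
    rw [h1]
    exact hK.inter_right (isClosed_tsupport _)

end

end Crest.Agent.R257.DegV_5
end

-- ▼ part R257/DegV3_5
section

/-!
# R257 (S0395), leaf M3-V (helper5), part 3: the data `PairD` from germs

* `CntAt f g h m` : the count of the zeros of `(f, g - y_0, h - y_1)` in small balls
* `exists_pairD`  : `ColFin ![f,g,h]` and the count give `PairD f g h r m` for all small `r`
-/

set_option autoImplicit false
set_option linter.unusedSectionVars false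

open Set Filter Topology Complex MeasureTheory
open scoped ContDiff Matrix ComplexConjugate ENNReal

namespace Crest.Agent.R257.DegV_5

open Crest.Agent.R275 Crest.Agent.R275.Geo
open Crest.Agent.R257.Defs_219
open Crest.Agent.R257.PN_835 (nsq nsq_nonneg nsq_pos continuous_nsq sq_le_nsq)

noncomputable section

/-- the count of the zeros of `(f, g - y_0, h - y_1)` in small balls -/
def CntAt (f g h : E3 → ℂ) (m : ℕ) : Prop :=
  ∀ᶠ R in 𝓝[>] (0 : ℝ), ∀ᶠ y in 𝓝 (0 : Cn 2),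
    (∀ x : E3, ‖x‖ < R → f x = 0 → g x = y 0 → h x = y 1 →
      ∀ v, fderiv ℂ f x v = 0 → fderiv ℂ g x v = 0 → fderiv ℂ h x v = 0 → v = 0) →
    {x : E3 | ‖x‖ < R ∧ f x = 0 ∧ g x = y 0 ∧ h x = y 1}.encard = m

theorem norm_lt_of_nsq {x : E3} {R : ℝ} (hR : 0 < R) (h : nsq x < R ^ 2) : ‖x‖ < R := by
  refine (pi_norm_lt_iff hR).2 fun k => ?_
  exact lt_of_pow_lt_pow_left₀ 2 hR.le ((sq_le_nsq x k).trans_lt h)

theorem exists_pairD {f g h : E3 → ℂ} {m : ℕ} (hf : AnalyticAt ℂ f 0) (hg : AnalyticAt ℂ g 0)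
    (hh : AnalyticAt ℂ h 0) (f0 : f 0 = 0) (g0 : g 0 = 0) (h0 : h 0 = 0)
    (hfin : ColFin ![f, g, h]) (hc : CntAt f g h m) :
    ∃ r₁ : ℝ, 0 < r₁ ∧ ∀ r, 0 < r → r ≤ r₁ → PairD f g h r m := by
  have hiso : ∀ᶠ x in 𝓝 (0 : E3), f x = 0 → g x = 0 → h x = 0 → x = 0 := by
    have hG : ∀ j : Fin 3, AnalyticAt ℂ ((![f, g, h] : Fin 3 → E3 → ℂ) j) 0 := by
      intro j
      fin_cases j
      · exact hf
      · exact hg
      · exact hh
    have h1 := (Crest.Agent.R257.NS0554.colFin_iff_isolated hG).1 hfin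
    filter_upwards [h1] with x hx h2 h3 h4
    refine hx fun j => ?_
    fin_cases j
    · exact h2
    · exact h3
    · exact h4
  obtain ⟨ε, hε0, hε⟩ := Metric.eventually_nhds_iff.1
    (((hf.eventually_analyticAt.and hg.eventually_analyticAt).and hh.eventually_analyticAt).and
      hiso)
  have hε' : ∀ x : E3, ‖x‖ < ε → ((AnalyticAt ℂ f x ∧ AnalyticAt ℂ g x) ∧ AnalyticAt ℂ h x) ∧
      (f x = 0 → g x = 0 → h x = 0 → x = 0) := fun x hx => hε (by rwa [dist_zero_right])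
  obtain ⟨R, ⟨hR0, hRε⟩, hR⟩ : ∃ R, (0 < R ∧ R < ε) ∧ ∀ᶠ y in 𝓝 (0 : Cn 2),
      (∀ x : E3, ‖x‖ < R → f x = 0 → g x = y 0 → h x = y 1 →
        ∀ v, fderiv ℂ f x v = 0 → fderiv ℂ g x v = 0 → fderiv ℂ h x v = 0 → v = 0) →
      {x : E3 | ‖x‖ < R ∧ f x = 0 ∧ g x = y 0 ∧ h x = y 1}.encard = m := by
    have h1 : ∀ᶠ R in 𝓝[>] (0 : ℝ), R < ε :=
      (eventually_lt_nhds hε0).filter_mono nhdsWithin_le_nhds
    obtain ⟨R, h2, h3, h4⟩ := ((h1.and hc).and self_mem_nhdsWithin).exists.imp fun R h => 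
      (⟨⟨h.2, h.1.1⟩, h.1.2, trivial⟩ : (0 < R ∧ R < ε) ∧ _ ∧ True)
    exact ⟨R, h2, h3⟩
  refine ⟨R, hR0, fun r hr0 hr => ?_⟩
  have hlt : ∀ x : E3, nsq x < r ^ 2 → ‖x‖ < R := fun x hx =>
    (norm_lt_of_nsq hr0 hx).trans_le hr
  refine ⟨hr0, ?_, ?_, ?_, f0, g0, h0, ?_, ?_⟩
  · exact fun x hx => (hε' x ((hlt x hx).trans hRε)).1.1.1.differentiableAt.differentiableWithinAt
  · exact fun x hx => (hε' x ((hlt x hx).trans hRε)).1.1.2.differentiableAt.differentiableWithinAt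
  · exact fun x hx => (hε' x ((hlt x hx).trans hRε)).1.2.differentiableAt.differentiableWithinAt
  · exact fun x hx0 hx h1 h2 h3 => hx0 ((hε' x ((hlt x hx).trans hRε)).2 h1 h2 h3)
  · intro ρ hρ0 hρr
    -- lower bound outside of the small ball
    set K : Set E3 := Metric.closedBall 0 R ∩ {x | ρ ^ 2 ≤ nsq x} with hK
    have hKc : IsCompact K :=
      (isCompact_closedBall 0 R).inter_right (isClosed_le continuous_const continuous_nsq)
    have hKn : ∀ x ∈ K, ‖x‖ < ε := fun x hx => by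
      have : ‖x‖ ≤ R := by simpa using hx.1
      linarith
    have hFc : ContinuousOn (fun x => ‖f x‖ + ‖g x‖ + ‖h x‖) K := by
      intro x hx
      have h1 := (hε' x (hKn x hx)).1
      exact ((h1.1.1.continuousAt.norm.add h1.1.2.continuousAt.norm).add
        h1.2.continuousAt.norm).continuousWithinAt
    obtain ⟨c, hc0, hcK⟩ : ∃ c > 0, ∀ x ∈ K, c ≤ ‖f x‖ + ‖g x‖ + ‖h x‖ := by
      rcases K.eq_empty_or_nonempty with he | hne
      · exact ⟨1, one_pos, fun x hx => by rw [he] at hx; exact absurd hx (notMem_empty x)⟩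
      · obtain ⟨x₀, hx₀, hmin⟩ := hKc.exists_isMinOn hne hFc
        refine ⟨_, ?_, fun x hx => hmin hx⟩
        by_contra h1
        have h2 : ‖f x₀‖ + ‖g x₀‖ + ‖h x₀‖ = 0 :=
          le_antisymm (not_lt.1 h1) (by positivity)
        have e1 : ‖f x₀‖ = 0 := by
          linarith [norm_nonneg (f x₀), norm_nonneg (g x₀), norm_nonneg (h x₀)]
        have e2 : ‖g x₀‖ = 0 := by
          linarith [norm_nonneg (f x₀), norm_nonneg (g x₀), norm_nonneg (h x₀)]
        have e3 : ‖h x₀‖ = 0 := by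
          linarith [norm_nonneg (f x₀), norm_nonneg (g x₀), norm_nonneg (h x₀)]
        have h3 := (hε' x₀ (hKn x₀ hx₀)).2 (norm_eq_zero.1 e1) (norm_eq_zero.1 e2)
          (norm_eq_zero.1 e3)
        have h4 : ρ ^ 2 ≤ nsq x₀ := hx₀.2
        rw [h3] at h4
        have h5 : nsq (0 : E3) = 0 := by simp [nsq]
        rw [h5] at h4
        have := pow_pos hρ0 2
        linarith
    have hy : ∀ᶠ y in 𝓝 (0 : Cn 2), ‖y 0‖ + ‖y 1‖ < c := by
      have h1 : Continuous fun y : Cn 2 => ‖y 0‖ + ‖y 1‖ := by fun_prop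
      exact (h1.tendsto' 0 0 (by simp)).eventually (eventually_lt_nhds hc0)
    filter_upwards [hR, hy] with y h1 h2 h3
    have h4 : ∀ x : E3, ‖x‖ < R → f x = 0 → g x = y 0 → h x = y 1 → nsq x < ρ ^ 2 := by
      intro x hx e1 e2 e3
      by_contra h5
      have h6 := hcK x ⟨by simpa using hx.le, not_lt.1 h5⟩
      rw [e1, e2, e3, norm_zero] at h6
      linarith
    have h5 : {x : E3 | nsq x < ρ ^ 2 ∧ f x = 0 ∧ g x = y 0 ∧ h x = y 1} =
        {x : E3 | ‖x‖ < R ∧ f x = 0 ∧ g x = y 0 ∧ h x = y 1} := by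
      ext x
      constructor
      · rintro ⟨a, b⟩
        exact ⟨hlt x (a.trans (pow_lt_pow_left₀ hρr hρ0.le two_ne_zero)), b⟩
      · rintro ⟨a, b⟩
        exact ⟨h4 x a b.1 b.2.1 b.2.2, b⟩
    rw [h5]
    exact h1 fun x a e1 e2 e3 v => h3 x (h4 x a e1 e2 e3) e1 e2 e3 v

end

end Crest.Agent.R257.DegV_5
end

-- ▼ part R257/DegBr_5
section

/-!
# R257 (S0395) (helper5): the bridge between integrals on 941's atlas and the interface KED_952

* `dn_pd`    : `φ ∂∂̄a ∧ ∂∂̄b` is a density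
* `intD_mxd` : `intD Pt (φ pd (∂∂̄a) (∂∂̄b)) = ∫ φ mxd f a b ∂ν` (compact support)
-/

set_option autoImplicit false
set_option linter.unusedSectionVars false

open Set Filter Topology Complex MeasureTheory
open scoped ContDiff Matrix ComplexConjugate ENNReal

namespace Crest.Agent.R257.DegBr_5

open Crest.Agent.R275 Crest.Agent.R275.Geo Crest.Agent.R275.Core144 Crest.Agent.R275.EDR890
open Crest.Agent.R275.C1d194 Crest.Agent.R275.Pai323
open Crest.Agent.R275.SerG398 (lint dens)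
open Crest.Agent.R273.Defs_333 Crest.Agent.R273.Hess_333 Crest.Agent.R273.Kah_333
open Crest.Agent.R273.StokesV_332 Crest.Agent.R273.Vm_333
open Crest.Agent.R273.StV_37 (tot)
open Crest.Agent.R273.GreenM_5 (Dn)
open Crest.Agent.R273.Green_5 (hsf_cf)
open Crest.Agent.R273.YauDefs_635 (cH)
open Crest.Agent.R273.YauMax_635 (cH_eq_hess)
open Crest.Agent.R273.Mass_5 (w_dens fH wC_ne fH_div sm_fH)
open Crest.Agent.R257.Atl_941 (SFam dX dch inj_chart dch_tangent par_chart sm_comp_val)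
open Crest.Agent.R257.Defs_219 (E3)
open Crest.Agent.R257.KED_952 Crest.Agent.R257.V1Defs_822 Crest.Agent.R257.UpK_938
open Crest.Agent.R257.C2F1_625 (pd)

noncomputable section

section gen

variable {M : Type} [TopologicalSpace M] {A : Atl 2 M}

theorem pd_conj {X Y : Matrix (Fin 2) (Fin 2) ℂ} (hX : X.IsHermitian) (hY : Y.IsHermitian) :
    conj (pd X Y) = pd X Y := by
  have x01 := hX.apply 0 1
  have x00 := hX.apply 0 0
  have x11 := hX.apply 1 1
  have y01 := hY.apply 0 1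
  have y00 := hY.apply 0 0
  have y11 := hY.apply 1 1
  have x10 := hX.apply 1 0
  have y10 := hY.apply 1 0
  simp only [pd, map_sub, map_add, map_mul]
  simp only [← Complex.star_def, x01, x00, x11, y01, y00, y11, x10, y10]
  ring

theorem dn_pd {φ a b : M → ℝ} (ha : A.Sm a) (hb : A.Sm b) :
    Dn A (fun i x => (φ x : ℂ) * pd (hsf A a i x) (hsf A b i x)) := by
  intro i j x hx
  show (φ x : ℂ) * pd (hsf A a i x) (hsf A b i x) = _
  rw [hsf_tr ha hx, hsf_tr hb hx, Crest.Agent.R257.GBL1_625.pd_tn,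
    Crest.Agent.R273.GreenM_5.dens_Jm]
  ring

theorem sm_pd {φ a b : M → ℝ} (hφ : A.Sm φ) (ha : A.Sm a) (hb : A.Sm b) (i : A.ι) :
    A.SmAt i (fun x => (φ x : ℂ) * pd (hsf A a i x) (hsf A b i x)) := by
  have h1 : A.SmAt i (fun y => (φ y : ℂ)) := smAt_ofReal (hφ i)
  have h2 := fun c d => (hsf_cf ha).sm i c d
  have h3 := fun c d => (hsf_cf hb).sm i c d
  exact h1.mul (((((h2 0 0).mul (h3 1 1)).add ((h2 1 1).mul (h3 0 0))).sub
    ((h2 0 1).mul (h3 1 0))).sub ((h2 1 0).mul (h3 0 1)))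

end gen

section br

variable {f : E3 → ℂ} {s : ℂ} {r : ℝ} (hf : LvlOK f s r)

/-- smooth functions on the level -/
theorem sm_val {a : E3 → ℝ} (ha : SmL f s r a) : ((LX hf).A 0).Sm (fun x => a x.1) := fun i =>
  ha _ _ (pe_chart hf i)

theorem hsf_cH {a : E3 → ℝ} (ha : SmL f s r a) {i : ((LX hf).A 0).ι} {x : (LX hf).M 0}
    (hx : x ∈ (((LX hf).A 0).e i).source) :
    hsf ((LX hf).A 0) (fun x => a x.1) i x =
      cH (fun z => a (thc hf i z)) (((LX hf).A 0).e i x) := by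
  have h := (ha _ _ (pe_chart hf i)).contDiffAt
    ((((LX hf).A 0).e i).open_target.mem_nhds ((((LX hf).A 0).e i).map_source hx))
  rw [cH_eq_hess h]
  rfl

/-- the density w.r.t. `|η|²` -/
theorem fH_mxd {φ a b : E3 → ℝ} (ha : SmL f s r a) (hb : SmL f s r b) (x : (LX hf).M 0) :
    fH ((LX hf).eta 0) (fun i x => (φ x.1 : ℂ) * pd (hsf ((LX hf).A 0) (fun x => a x.1) i x)
      (hsf ((LX hf).A 0) (fun x => b x.1) i x)) x = ((φ x.1 * mxd f a b x.1 : ℝ) : ℂ) := by
  obtain ⟨i, hi⟩ := ((LX hf).A 0).cover x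
  have hz := (((LX hf).A 0).e i).map_source hi
  rw [fH_div _ (dn_pd (sm_val hf ha) (sm_val hf hb)) hi]
  have hd := (Crest.Agent.R257.Ked2_397.denStmt f s r hf.pos hf.an hf.sm _ _ (pe_chart hf i)).1 a b
    (ha _ _ (pe_chart hf i)) (hb _ _ (pe_chart hf i)) _ hz
  rw [thc_eq hf hi, ← hsf_cH hf ha hi, ← hsf_cH hf hb hi] at hd
  have hw : ((LX hf).eta 0).w i x = Crest.Agent.R257.Aff_835.eta2a (n := 2) f (thc hf i)
      (((LX hf).A 0).e i x) := by
    rw [← e2_eta hf hz, (((LX hf).A 0).e i).left_inv hi]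
  have hne := wC_ne ((LX hf).eta 0) hi
  rw [div_eq_iff hne, hw]
  have hre : ((pd (hsf ((LX hf).A 0) (fun x => a x.1) i x)
      (hsf ((LX hf).A 0) (fun x => b x.1) i x)).re : ℂ) =
      pd (hsf ((LX hf).A 0) (fun x => a x.1) i x) (hsf ((LX hf).A 0) (fun x => b x.1) i x) :=
    Complex.conj_eq_iff_re.1 (pd_conj (Crest.Agent.R273.GreenM_5.hsf_herm (sm_val hf ha) hi)
      (Crest.Agent.R273.GreenM_5.hsf_herm (sm_val hf hb) hi))
  rw [← hre, ← hd]
  push_cast
  ring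

/-- integrals over the level -/
theorem integral_nu {ν : Measure E3} (hν : IsNu f s r ν) {W : Type*} [NormedAddCommGroup W]
    [NormedSpace ℝ W] (Φ : E3 → W) : ∫ x, Φ x.1 ∂((LX hf).vol 0) = ∫ x, Φ x ∂ν := by
  rw [← nu_eq hf hν]
  have h1 : MeasurableEmbedding (Subtype.val : (LX hf).M 0 → E3) :=
    MeasurableEmbedding.subtype_coe (meas_lvl hf)
  exact (h1.integral_map Φ).symm

/-- **the bridge** -/
theorem intD_mxd {ν : Measure E3} (hν : IsNu f s r ν) {φ a b : E3 → ℝ} (hφ : SmL f s r φ)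
    (ha : SmL f s r a) (hb : SmL f s r b) {K : Set ((LX hf).M 0)} (hK : IsCompact K)
    (h0 : ∀ x ∉ K, φ x.1 * mxd f a b x.1 = 0) (Pt : Part ((LX hf).A 0)) :
    intD Pt (fun i x => (φ x.1 : ℂ) * pd (hsf ((LX hf).A 0) (fun x => a x.1) i x)
      (hsf ((LX hf).A 0) (fun x => b x.1) i x)) = ((∫ x, φ x * mxd f a b x ∂ν : ℝ) : ℂ) := by
  have hc := (LX hf).countable 0
  set D : ((LX hf).A 0).ι → (LX hf).M 0 → ℂ := fun i x =>
    (φ x.1 : ℂ) * pd (hsf ((LX hf).A 0) (fun x => a x.1) i x)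
      (hsf ((LX hf).A 0) (fun x => b x.1) i x) with hD
  have hDn : Dn ((LX hf).A 0) D := dn_pd (sm_val hf ha) (sm_val hf hb)
  have hfH : ∀ x, fH ((LX hf).eta 0) D x = ((φ x.1 * mxd f a b x.1 : ℝ) : ℂ) :=
    fH_mxd hf ha hb
  have hoff : OffK ((LX hf).A 0) D K := by
    intro i x hx hxK
    have h1 := hfH x
    rw [h0 x hxK, fH_div _ hDn hx, Complex.ofReal_zero, div_eq_zero_iff] at h1
    exact h1.resolve_right (wC_ne _ hx)
  have h1 := Crest.Agent.R257.Up3_938.tot_eq ((LX hf).eta 0) Pt hDn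
    (fun i => sm_pd (sm_val hf hφ) (sm_val hf ha) (sm_val hf hb) i) hK (F := Fn Pt hK)
    Subset.rfl fun x hx => by rw [hfH, h0 x hx]; simp
  rw [intD_eq_sum Pt hK (Finset.Subset.refl _) hoff]
  refine Eq.trans (h1 : _ = _) ?_
  simp only [hfH]
  refine Eq.trans (integral_ofReal (𝕜 := ℂ)) ?_
  congr 1
  exact integral_nu hf hν (fun x => φ x * mxd f a b x)

end br

end

end Crest.Agent.R257.DegBr_5
end

-- ▼ part R257/M3_5
section

/-!
# R257 (S0395) (helper5): `M3Stmt` of V1Defs_822, from the count of zeros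

* `CntStmt` : the count of the zeros of `(f, g - y_0, h - y_1)` is `col ![f,g,h]` at regular values
* `m3_pow`  : `TOT ν f (c⁻¹ log (|g|^{2p} + |h|^{2q})) χ = π² p q col ![f,g,h] / c²`
* `m3Stmt_of`
-/

set_option autoImplicit false
set_option linter.unusedSectionVars false

open Set Filter Topology Complex MeasureTheory
open scoped ContDiff Matrix ComplexConjugate ENNReal

namespace Crest.Agent.R257.M3_5

open Crest.Agent.R275 Crest.Agent.R275.Geo
open Crest.Agent.R273.Kah_333 (hsf)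
open Crest.Agent.R273.StokesV_332
open Crest.Agent.R273.YauDefs_635 (cH)
open Crest.Agent.R273.YauMax_635 (cH_eq_hess)
open Crest.Agent.R257.DegM_5 Crest.Agent.R257.DegT_5 Crest.Agent.R257.DegC_5
open Crest.Agent.R257.DegP_5 Crest.Agent.R257.DegV_5 Crest.Agent.R257.DegBr_5
open Crest.Agent.R257.Defs_219
open Crest.Agent.R257.KED_952 Crest.Agent.R257.V1Defs_822 Crest.Agent.R257.UpK_938
open Crest.Agent.R257.PN_835 (nsq nsq_nonneg nsq_pos continuous_nsq sq_le_nsq)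
open Crest.Agent.R257.C2F1_625 (pd)

noncomputable section

/-- the count of the zeros [889] -/
def CntStmt : Prop := ∀ f g h : E3 → ℂ, AnalyticAt ℂ f 0 → AnalyticAt ℂ g 0 →
  AnalyticAt ℂ h 0 → f 0 = 0 → g 0 = 0 → h 0 = 0 → ColFin ![f, g, h] →
  CntAt f g h (col ![f, g, h])

variable {f g h : E3 → ℂ} {r : ℝ} {m : ℕ}

/-- the level of 938 is a level in the sense of `Lv` -/
theorem lv (hf : LvlOK f 0 r) : Lv (LX hf) 0 f r where
  W x := Iff.rfl
  F x _ _ := by show f x - 0 = f x; rw [sub_zero]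

/-- the weight -/
def wpq (g h : E3 → ℂ) (p q : ℕ) (c : ℝ) (x : E3) : ℝ :=
  c⁻¹ * Real.log (‖g x‖ ^ (2 * p) + ‖h x‖ ^ (2 * q))

theorem wpq_eq (p q : ℕ) (c : ℝ) (x : E3) : wpq g h p q c x = c⁻¹ * W0 (pw p q (g2 g h x)) := by
  rw [wpq, W0, U0_pw]
  rfl

theorem wpq_smL (D : PairD f g h r m) (p q : ℕ) (c : ℝ) : SmL f 0 r (wpq g h p q c) := by
  intro θ O hθ
  have h1 : DifferentiableOn ℂ (fun z => g2 g h (θ z)) O :=
    (diffOn_two D.hg D.hh).comp hθ.par.hol fun z hz => hθ.lt z hz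
  have h2 : DifferentiableOn ℂ (fun z => pw p q (g2 g h (θ z))) O :=
    (pw_diff p q).comp_differentiableOn h1
  have h3 : ContDiffOn ℝ ∞ (fun z => pw p q (g2 g h (θ z))) O :=
    ((Crest.Agent.R266.SCV.contDiffOn_omega_of_differentiableOn hθ.par.isOpen h2).of_le
      (show (∞ : WithTop ℕ∞) ≤ ω from le_top)).restrict_scalars ℝ
  intro z hz
  have h4 : pw p q (g2 g h (θ z)) ≠ 0 := by
    refine pw_ne fun h0 => ?_
    obtain ⟨e1, e2⟩ := g2_eq_zero.1 h0
    exact D.nz _ (hθ.ne z hz) (hθ.lt z hz) (hθ.par.lvl z hz) e1 e2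
  have h5 : ContDiffAt ℝ ∞ (fun z => W0 (pw p q (g2 g h (θ z)))) z :=
    ContDiffAt.comp (f := fun z => pw p q (g2 g h (θ z))) z (W0_smooth h4)
      (h3.contDiffAt (hθ.par.isOpen.mem_nhds hz))
  have h6 : ContDiffAt ℝ ∞ (fun z => c⁻¹ * W0 (pw p q (g2 g h (θ z)))) z :=
    contDiffAt_const.mul h5
  refine (h6.congr_of_eventuallyEq (Eventually.of_forall fun w => ?_)).contDiffWithinAt
  exact wpq_eq p q c (θ w)

/-- mixed densities with a locally constant function vanish -/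
theorem mxd_const (hL : LvlOK f 0 r) {a b : E3 → ℝ} {x : E3} (hx : x ≠ 0) (hr : nsq x < r ^ 2)
    (hfx : f x = 0) {c : ℝ} (hb : ∀ᶠ y in 𝓝 x, b y = c) : mxd f a b x = 0 := by
  obtain ⟨θ, O, z, h1, h2, h3, h4⟩ := V1Pe_822.mxd_cases hx hr hfx hL
  rw [h4]
  have hc : ContinuousAt θ z := h1.par.hol.continuousOn.continuousAt (h1.par.isOpen.mem_nhds h2)
  have h5 : (fun z => b (θ z)) =ᶠ[𝓝 z] fun _ => c := by
    rw [← h3] at hb
    exact hc.eventually hb
  have h6 : cH (fun z => b (θ z)) z = 0 := by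
    have h7 : ContDiffAt ℝ ∞ (fun z => b (θ z)) z :=
      (contDiffAt_const (c := c)).congr_of_eventuallyEq h5
    rw [cH_eq_hess h7, Crest.Agent.R273.HessB_333.hess_congr h5,
      ← cH_eq_hess (contDiffAt_const (c := c))]
    ext i j
    simp [cH, Crest.Agent.R273.YauDefs_635.D2]
  rw [h6]
  simp [pd]

/-- **the mass of `c⁻¹ log (|g|^{2p} + |h|^{2q})`** -/
theorem m3_pow (D : PairD f g h r m) (hL : LvlOK f 0 r) {ν : Measure E3} (hν : IsNu f 0 r ν)
    {χ : E3 → ℝ} (hχ : Cut r χ) {p q : ℕ} (hp : 0 < p) (hq : 0 < q) {c : ℝ} (hc : c ≠ 0) :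
    TOT ν f (wpq g h p q c) χ = Real.pi ^ 2 * (p * q * m) / c ^ 2 := by
  have h1 := tot_lv (lv hL) D hp hq hc (w := wpq g h p q c) (fun x _ _ _ => rfl)
    ((LX hL).part 0) hχ
  obtain ⟨r', hr'0, hr'r, hr'⟩ := hχ.supp
  obtain ⟨ρ, hρ1, hρ2⟩ := exists_between hr'r
  have hρ0 : 0 < ρ := hr'0.trans hρ1
  obtain ⟨a, ha0, ha⟩ : ∃ a > 0, ∀ x : E3, nsq x < a → χ x = 1 := by
    obtain ⟨e, he0, he⟩ := Metric.eventually_nhds_iff.1 hχ.one
    refine ⟨e ^ 2, by positivity, fun x hx => he ?_⟩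
    rw [dist_zero_right]
    exact norm_lt_of_nsq he0 hx
  obtain ⟨ε, hε0, hε⟩ := D.lower hρ2 hρ0 ha0
  set K : Set ((LX hL).M 0) := {x | nsq x.1 ≤ ρ ^ 2 ∧ ε ≤ ‖gh (LX hL) 0 g h x‖ ∧
    x.1 ∈ {y : E3 | a ≤ nsq y}} with hK
  have hKc : IsCompact K := isCompact_part (lv hL) D hρ0 hρ2 hε0
    (isClosed_le continuous_const continuous_nsq)
  have hoff : ∀ x ∉ K, wpq g h p q c x.1 * mxd f (wpq g h p q c) χ x.1 = 0 := by
    intro x hx
    have hxm := mem_M hL x
    have h2 : mxd f (wpq g h p q c) χ x.1 = 0 := by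
      by_cases h3 : nsq x.1 < a
      · refine mxd_const hL hxm.2.1 hxm.2.2 hxm.1 (c := 1) ?_
        filter_upwards [(isOpen_nsq_lt a).mem_nhds h3] with y hy
        exact ha y hy
      · by_cases h4 : nsq x.1 ≤ ρ ^ 2
        · exact absurd ⟨h4, hε x.1 (not_lt.1 h3) h4 hxm.1, not_lt.1 h3⟩ hx
        · refine mxd_const hL hxm.2.1 hxm.2.2 hxm.1 (c := 0) ?_
          have h5 : r' ^ 2 < nsq x.1 :=
            (pow_lt_pow_left₀ hρ1 hr'0.le two_ne_zero).trans (not_le.1 h4)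
          filter_upwards [(isOpen_lt continuous_const continuous_nsq).mem_nhds h5] with y hy
          exact hr' y (le_of_lt hy)
    rw [h2, mul_zero]
  have h2 := intD_mxd hL hν (wpq_smL D p q c) (wpq_smL D p q c) (V1Pe_822.cut_smL hχ) hKc hoff
    ((LX hL).part 0)
  rw [h2] at h1
  exact_mod_cast h1

theorem exists_pow (cnt : CntStmt) (hf : AnalyticAt ℂ f 0) (hg : AnalyticAt ℂ g 0)
    (hh : AnalyticAt ℂ h 0) (f0 : f 0 = 0) (g0 : g 0 = 0) (h0 : h 0 = 0)
    (hfin : ColFin ![f, g, h]) :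
    ∃ r₁ : ℝ, 0 < r₁ ∧ ∀ r, r ≤ r₁ → LvlOK f 0 r → ∀ ν, IsNu f 0 r ν → ∀ χ, Cut r χ →
      ∀ (p q : ℕ) (c : ℝ), 0 < p → 0 < q → c ≠ 0 →
      TOT ν f (wpq g h p q c) χ = Real.pi ^ 2 * (p * q * col ![f, g, h]) / c ^ 2 := by
  obtain ⟨r₁, hr₁, h1⟩ := exists_pairD hf hg hh f0 g0 h0 hfin (cnt f g h hf hg hh f0 g0 h0 hfin)
  exact ⟨r₁, hr₁, fun r hr hL ν hν χ hχ p q c hp hq hc =>
    m3_pow (h1 r hL.pos hr) hL hν hχ hp hq hc⟩

/-- **`M3Stmt`** -/
theorem m3Stmt_of (cnt : CntStmt) : M3Stmt := by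
  intro f g h hf hg hh g0 h0 hfin
  obtain ⟨r₁, hr₁, h1⟩ := exists_pow cnt hf.an hg hh hf.zero g0 h0 hfin
  refine ⟨r₁, hr₁, fun r hr hL ν hν χ hχ => ?_⟩
  have h2 := h1 r hr hL ν hν χ hχ 1 1 1 one_pos one_pos one_ne_zero
  have h3 : wpq g h 1 1 1 = lgh g h := by
    funext x
    simp [wpq, lgh]
  rw [h3] at h2
  rw [h2]
  push_cast
  ring

end

end Crest.Agent.R257.M3_5
end

-- ▼ part R257/M3Cnt_5

/-!
# R257 (S0395) (helper5): `M3Stmt`

* `cntStmt` : the count, from helper889's `fto_gen`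
* `m3Stmt : M3Stmt`, `m3_mass` (the form with powers)
-/

set_option autoImplicit false
set_option linter.unusedSectionVars false

open Set Filter Topology Complex MeasureTheory
open scoped ContDiff Matrix ComplexConjugate ENNReal

namespace Crest.Agent.R257.M3_5

open Crest.Agent.R275.Geo
open Crest.Agent.R257.DegV_5
open Crest.Agent.R257.Defs_219
open Crest.Agent.R257.KED_952 Crest.Agent.R257.V1Defs_822

noncomputable section

theorem cntStmt : CntStmt := by
  intro f g h hf hg hh f0 g0 h0 hfin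
  have hF : ∀ j : Fin 3, AnalyticAt ℂ ((![f, g, h] : Fin 3 → E3 → ℂ) j) 0 := by
    intro j
    fin_cases j
    · exact hf
    · exact hg
    · exact hh
  have hF0 : ∀ j : Fin 3, (![f, g, h] : Fin 3 → E3 → ℂ) j 0 = 0 := by
    intro j
    fin_cases j
    · exact f0
    · exact g0
    · exact h0
  obtain ⟨r₀, hr₀, ⟨r', hr'0, hr'r, hfi⟩, hc⟩ :=
    Crest.Agent.R257.Cnm7_889.fto_gen (![f, g, h] : Fin 3 → E3 → ℂ) hF hF0 hfin
  have h1 : ∀ᶠ R in 𝓝[>] (0 : ℝ), R < r' :=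
    (eventually_lt_nhds hr'0).filter_mono nhdsWithin_le_nhds
  filter_upwards [h1, self_mem_nhdsWithin] with R hR hR0
  have hR0' : 0 < R := hR0
  have h2 := hc R hR0' (hR.le.trans hr'r)
  have h3 : Tendsto (fun y : Cn 2 => (![0, y 0, y 1] : Fin 3 → ℂ)) (𝓝 0) (𝓝 0) := by
    refine tendsto_pi_nhds.2 fun j => ?_
    fin_cases j
    · exact tendsto_const_nhds
    · exact (EuclideanSpace.proj (0 : Fin 2) : Cn 2 →L[ℂ] ℂ).continuous.tendsto' 0 0 (by simp)
    · exact (EuclideanSpace.proj (1 : Fin 2) : Cn 2 →L[ℂ] ℂ).continuous.tendsto' 0 0 (by simp)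
  have hs : ∀ (y : Cn 2) (x : E3),
      (∀ j : Fin 3, (![f, g, h] : Fin 3 → E3 → ℂ) j x = (![0, y 0, y 1] : Fin 3 → ℂ) j) ↔
        f x = 0 ∧ g x = y 0 ∧ h x = y 1 := by
    intro y x
    constructor
    · intro H
      exact ⟨H 0, H 1, H 2⟩
    · rintro ⟨a, b, c⟩ j
      fin_cases j
      · exact a
      · exact b
      · exact c
  filter_upwards [h3.eventually h2] with y hy hnd
  have h4 : {x : E3 | ‖x‖ < R ∧ f x = 0 ∧ g x = y 0 ∧ h x = y 1} =
      {x | ‖x‖ < R ∧ ∀ j : Fin 3, (![f, g, h] : Fin 3 → E3 → ℂ) j x =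
        (![0, y 0, y 1] : Fin 3 → ℂ) j} := by
    ext x
    simp only [mem_ofPred_eq, hs]
  have h5 := hy fun x hx hxs v hv => by
    obtain ⟨a, b, c⟩ := (hs y x).1 hxs
    exact hnd x hx a b c v (hv 0) (hv 1) (hv 2)
  have h6 : ({x | ‖x‖ < R ∧ ∀ j : Fin 3, (![f, g, h] : Fin 3 → E3 → ℂ) j x =
      (![0, y 0, y 1] : Fin 3 → ℂ) j} : Set E3).Finite :=
    (hfi _).1.subset fun x hx => ⟨hx.1.trans hR, hx.2⟩
  rw [h4, ← h6.cast_ncard_eq, h5]

/-- **`M3Stmt`** -/
theorem m3Stmt : M3Stmt := m3Stmt_of cntStmt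

/-- **(M3) with powers** -/
theorem m3_mass {f g h : E3 → ℂ} (hf : AnalyticAt ℂ f 0) (hg : AnalyticAt ℂ g 0)
    (hh : AnalyticAt ℂ h 0) (f0 : f 0 = 0) (g0 : g 0 = 0) (h0 : h 0 = 0)
    (hfin : ColFin ![f, g, h]) :
    ∃ r₁ : ℝ, 0 < r₁ ∧ ∀ r, r ≤ r₁ → LvlOK f 0 r → ∀ ν, IsNu f 0 r ν → ∀ χ, Cut r χ →
      ∀ (p q : ℕ) (c : ℝ), 0 < p → 0 < q → c ≠ 0 →
      TOT ν f (wpq g h p q c) χ = Real.pi ^ 2 * (p * q * col ![f, g, h]) / c ^ 2 :=
  exists_pow cntStmt hf hg hh f0 g0 h0 hfin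

end

end Crest.Agent.R257.M3_5
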