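import Crest.Agent.R257.SkelV_952
import Crest.Agent.R257.KEG_952
import Crest.Agent.R257.Skel2_219
import Crest.Agent.R257.UI8_939
import Crest.Agent.R275.Loc2G_879
import Crest.Agent.R257.Defs_219
import Crest.Agent.R257.GA_554
import Crest.Agent.R257.GB_554
import Crest.Agent.R257.Jac_554
import Crest.Agent.R257.CNS_939
import Crest.Agent.R257.UpK3_938_Mg
import Crest.Agent.R257.Sh14_297
import Crest.Agent.R257.Cmp_157
import Crest.Agent.R257.NS0_554
import Crest.Agent.R257.LcTop_980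
import Crest.Agent.R257.Rig6_20
import Crest.Agent.R257.Line3_648_Mg
import Crest.Agent.R257.LcN_980
import Crest.Agent.R257.LCf_472
import Crest.Agent.R257.N2L_328
import Crest.Agent.R257.KedM3_941
import Crest.Agent.R257.Ked4_397
import Crest.Agent.R257.LimH_37
import Crest.Agent.R257.V1Top2_822
import Crest.Agent.R257.UpK4_938
import Crest.Agent.R257.Vol_397
import Crest.Agent.R257.M3Cnt_5

-- ▼ part R257/Tou1_939
section

/-!
Row 257 (S0395), leaf TOU (helper939), part 1: Hadamard lemma with parameters, second order Taylor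
formula, analytic implicit function theorem.
-/

set_option autoImplicit false
set_option linter.unusedSectionVars false

open Set Filter Topology Metric Complex
open Crest.Agent.R275.Loc2879

noncomputable section

namespace Crest.Agent.R257.UI939

universe u v w

variable {n : ℕ}

section Par

variable {E : Type u} [NormedAddCommGroup E] [NormedSpace ℂ E] [FiniteDimensional ℂ E]

lemma an_sndcoord (i : Fin n) (p : E × (Fin n → ℂ)) :
    AnalyticAt ℂ (fun p : E × (Fin n → ℂ) => p.2 i) p :=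
  (ContinuousLinearMap.analyticAt
    ((ContinuousLinearMap.proj (R := ℂ) (φ := fun _ : Fin n => ℂ) i).comp
      (ContinuousLinearMap.snd ℂ E (Fin n → ℂ))) p)

/-- one variable at a time, with parameters -/
lemma hadamard_coord_par {f : E × (Fin n → ℂ) → ℂ} (hf : AnalyticAt ℂ f 0) (k : Fin n) :
    ∃ q : E × (Fin n → ℂ) → ℂ, AnalyticAt ℂ q 0 ∧
      ∀ᶠ p in 𝓝 (0 : E × (Fin n → ℂ)),
        f p = f (p.1, Function.update p.2 k 0) + p.2 k * q p := by
  have hup : ∀ p : (E × (Fin n → ℂ)) × ℂ, AnalyticAt ℂ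
      (fun p : (E × (Fin n → ℂ)) × ℂ => (p.1.1, Function.update p.1.2 k p.2)) p := by
    intro p
    refine AnalyticAt.prod (analyticAt_fst.comp analyticAt_fst) (AnalyticAt.pi fun i => ?_)
    by_cases h : i = k
    · subst h
      simpa using analyticAt_snd
    · simp only [Function.update_of_ne h]
      exact AnalyticAt.comp (g := fun p : E × (Fin n → ℂ) => p.2 i) (f := Prod.fst)
        (an_sndcoord i _) analyticAt_fst
  have h1 : AnalyticAt ℂ (fun p : (E × (Fin n → ℂ)) × ℂ =>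
      f (p.1.1, Function.update p.1.2 k p.2)) 0 := by
    refine AnalyticAt.comp (g := f) ?_ (hup 0)
    have : ((0 : (E × (Fin n → ℂ)) × ℂ).1.1,
        Function.update (0 : (E × (Fin n → ℂ)) × ℂ).1.2 k (0 : (E × (Fin n → ℂ)) × ℂ).2) =
          (0 : E × (Fin n → ℂ)) := by
      refine Prod.ext rfl ?_
      ext i
      by_cases h : i = k
      · subst h; simp
      · simp [Function.update_of_ne h]
    rw [this]
    exact hf
  obtain ⟨q, hq, h⟩ := hadamard_fun h1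
  have hlin : AnalyticAt ℂ (fun x : E × (Fin n → ℂ) =>
      ((x, x.2 k) : (E × (Fin n → ℂ)) × ℂ)) 0 :=
    analyticAt_id.prod (an_sndcoord k 0)
  refine ⟨fun x => q (x, x.2 k), AnalyticAt.comp (g := q) (by exact hq) hlin, ?_⟩
  have h2 : Tendsto (fun x : E × (Fin n → ℂ) =>
      ((x, x.2 k) : (E × (Fin n → ℂ)) × ℂ)) (𝓝 0) (𝓝 0) :=
    hlin.continuousAt
  filter_upwards [h2.eventually h] with x hx
  simpa using hx

/-- **Hadamard lemma with parameters** -/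
theorem hadamard_par {f : E × (Fin n → ℂ) → ℂ} (hf : AnalyticAt ℂ f 0) :
    ∃ y : Fin n → E × (Fin n → ℂ) → ℂ, (∀ i, AnalyticAt ℂ (y i) 0) ∧
      ∀ᶠ p in 𝓝 (0 : E × (Fin n → ℂ)), f p = f (p.1, 0) + ∑ i, p.2 i * y i p := by
  classical
  have key : ∀ s : Finset (Fin n), ∃ y : Fin n → E × (Fin n → ℂ) → ℂ,
      (∀ i, AnalyticAt ℂ (y i) 0) ∧
      AnalyticAt ℂ (fun p : E × (Fin n → ℂ) => f (p.1, fun i => if i ∈ s then 0 else p.2 i)) 0 ∧
      ∀ᶠ p in 𝓝 (0 : E × (Fin n → ℂ)),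
        f p = f (p.1, fun i => if i ∈ s then 0 else p.2 i) + ∑ i, p.2 i * y i p := by
    intro s
    induction s using Finset.induction_on with
    | empty =>
      refine ⟨fun _ _ => 0, fun _ => analyticAt_const, by simpa using hf, ?_⟩
      simp
    | insert k s hk ih =>
      obtain ⟨y, hy, h, e⟩ := ih
      obtain ⟨q, hq, hqe⟩ := hadamard_coord_par h k
      have hlin : AnalyticAt ℂ (fun p : E × (Fin n → ℂ) =>
          ((p.1, fun i => if i ∈ insert k s then 0 else p.2 i) : E × (Fin n → ℂ))) 0 := by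
        refine AnalyticAt.prod analyticAt_fst (AnalyticAt.pi fun i => ?_)
        by_cases hi : i ∈ insert k s
        · simpa [hi] using analyticAt_const
        · simpa [hi] using an_sndcoord i 0
      have h' : AnalyticAt ℂ (fun p : E × (Fin n → ℂ) =>
          f (p.1, fun i => if i ∈ insert k s then 0 else p.2 i)) 0 := by
        refine AnalyticAt.comp (g := f) ?_ hlin
        have : (((0 : E × (Fin n → ℂ)).1, fun i => if i ∈ insert k s then 0 else
            (0 : E × (Fin n → ℂ)).2 i) : E × (Fin n → ℂ)) = 0 := by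
          refine Prod.ext rfl ?_
          ext i; simp
        rw [this]; exact hf
      refine ⟨fun i p => y i p + if i = k then q p else 0, ?_, h', ?_⟩
      · intro i
        by_cases hi : i = k
        · simp only [hi, if_true]; exact (hy k).add hq
        · simp only [hi, if_false, add_zero]; exact hy i
      · filter_upwards [e, hqe] with p h1 h2
        rw [h1, h2]
        have e1 : (fun i => if i ∈ s then 0 else Function.update p.2 k 0 i) =
            (fun i => if i ∈ insert k s then 0 else p.2 i : Fin n → ℂ) := by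
          ext i
          by_cases hi : i = k
          · subst hi; simp
          · simp [hi]
        rw [e1]
        simp only [mul_add, Finset.sum_add_distrib, mul_ite, mul_zero, Finset.sum_ite_eq',
          Finset.mem_univ, if_true]
        ring
  obtain ⟨y, hy, h, e⟩ := key Finset.univ
  refine ⟨y, hy, ?_⟩
  filter_upwards [e] with p hp
  rw [hp]
  simp only [Finset.mem_univ, if_true]
  rfl

end Par

/-- second order Taylor formula in `x`, with parameter `t` -/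
theorem taylor2 {F : (Fin n → ℂ) × ℂ → ℂ} (hF : AnalyticAt ℂ F 0) :
    ∃ H : Fin n → Fin n → ((Fin n → ℂ) × ℂ) × (Fin n → ℂ) → ℂ,
      (∀ i j, AnalyticAt ℂ (H i j) 0) ∧
      ∀ᶠ p in 𝓝 (0 : ((Fin n → ℂ) × ℂ) × (Fin n → ℂ)),
        F (p.1.1 + p.2, p.1.2) = F p.1 + ∑ i, p.2 i * grad F i p.1 +
          ∑ i, ∑ j, p.2 i * p.2 j * H i j p := by
  classical
  have hlin : AnalyticAt ℂ (fun p : ((Fin n → ℂ) × ℂ) × (Fin n → ℂ) =>
      ((p.1.1 + p.2, p.1.2) : (Fin n → ℂ) × ℂ)) 0 :=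
    ((analyticAt_fst.comp analyticAt_fst).add analyticAt_snd).prod
      (analyticAt_snd.comp analyticAt_fst)
  have h0 : (fun p : ((Fin n → ℂ) × ℂ) × (Fin n → ℂ) =>
      ((p.1.1 + p.2, p.1.2) : (Fin n → ℂ) × ℂ)) 0 = 0 := by
    refine Prod.ext ?_ rfl
    simp
  have hF' : AnalyticAt ℂ F ((fun p : ((Fin n → ℂ) × ℂ) × (Fin n → ℂ) =>
      ((p.1.1 + p.2, p.1.2) : (Fin n → ℂ) × ℂ)) 0) := by rw [h0]; exact hF
  have hΦ : AnalyticAt ℂ (fun p : ((Fin n → ℂ) × ℂ) × (Fin n → ℂ) => F (p.1.1 + p.2, p.1.2)) 0 :=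
    AnalyticAt.comp (g := F) (f := fun p : ((Fin n → ℂ) × ℂ) × (Fin n → ℂ) =>
      ((p.1.1 + p.2, p.1.2) : (Fin n → ℂ) × ℂ)) hF' hlin
  obtain ⟨Φ, hΦa, e1⟩ := hadamard_par hΦ
  choose H hHa e2 using fun i => hadamard_par (hΦa i)
  refine ⟨H, hHa, ?_⟩
  -- Φ i (z, 0) = grad F i z
  have h1 : ∀ᶠ z in 𝓝 (0 : (Fin n → ℂ) × ℂ), ∀ᶠ ξ in 𝓝 (0 : Fin n → ℂ),
      (F (z.1 + ξ, z.2) = F z + ∑ i, ξ i * Φ i (z, ξ)) := by
    have : ∀ᶠ p in 𝓝 (0 : ((Fin n → ℂ) × ℂ) × (Fin n → ℂ)),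
      (F (p.1.1 + p.2, p.1.2) = F p.1 + ∑ i, p.2 i * Φ i p) := by
      filter_upwards [e1] with p hp
      rw [hp]
      simp
    have h3 := this
    rw [show (0 : ((Fin n → ℂ) × ℂ) × (Fin n → ℂ)) = (0, 0) from rfl] at h3
    rw [nhds_prod_eq] at h3
    exact h3.curry
  have h2 : ∀ᶠ z in 𝓝 (0 : (Fin n → ℂ) × ℂ), ∀ i, AnalyticAt ℂ (Φ i) (z, 0) := by
    have h3 : Tendsto (fun z : (Fin n → ℂ) × ℂ => ((z, 0) : ((Fin n → ℂ) × ℂ) × (Fin n → ℂ)))
        (𝓝 0) (𝓝 0) := by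
      have : Continuous (fun z : (Fin n → ℂ) × ℂ =>
        ((z, 0) : ((Fin n → ℂ) × ℂ) × (Fin n → ℂ))) := by fun_prop
      exact this.tendsto' _ _ rfl
    exact h3.eventually (Filter.eventually_all.2 fun i => (hΦa i).eventually_analyticAt)
  have h3 : ∀ᶠ z in 𝓝 (0 : (Fin n → ℂ) × ℂ), AnalyticAt ℂ F z := hF.eventually_analyticAt
  have hgr : ∀ᶠ z in 𝓝 (0 : (Fin n → ℂ) × ℂ), ∀ i, Φ i (z, 0) = grad F i z := by
    filter_upwards [h1, h2, h3] with z k1 k2 k3 i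
    -- derivative of ξ ↦ F(z.1 + ξ, z.2)
    have d1 : HasFDerivAt (fun x : Fin n → ℂ => F (x, z.2))
        (fderiv ℂ (fun x : Fin n → ℂ => F (x, z.2)) z.1) z.1 := by
      have : DifferentiableAt ℂ (fun x : Fin n → ℂ => F (x, z.2)) z.1 := by
        have h5 : AnalyticAt ℂ (fun x : Fin n → ℂ => F (x, z.2)) z.1 :=
          AnalyticAt.comp (g := F) (f := fun x : Fin n → ℂ => (x, z.2)) k3
            (analyticAt_id.prod analyticAt_const)
        exact h5.differentiableAt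
      exact this.hasFDerivAt
    have d2 : HasFDerivAt (fun ξ : Fin n → ℂ => F (z.1 + ξ, z.2))
        (fderiv ℂ (fun x : Fin n → ℂ => F (x, z.2)) z.1) 0 := by
      have h5 : HasFDerivAt (fun x : Fin n → ℂ => F (x, z.2))
        (fderiv ℂ (fun x : Fin n → ℂ => F (x, z.2)) z.1) (z.1 + 0) := by rw [add_zero]; exact d1
      have h6 : HasFDerivAt (fun ξ : Fin n → ℂ => z.1 + ξ)
          (ContinuousLinearMap.id ℂ (Fin n → ℂ)) 0 := (hasFDerivAt_id 0).const_add z.1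
      have h7 := HasFDerivAt.comp (0 : Fin n → ℂ) h5 h6
      rw [ContinuousLinearMap.comp_id] at h7
      exact h7
    -- derivative of the right hand side
    have d3 : ∀ j, HasFDerivAt (fun ξ : Fin n → ℂ => ξ j * Φ j (z, ξ))
        (Φ j (z, 0) • ContinuousLinearMap.proj (R := ℂ) (φ := fun _ : Fin n => ℂ) j) 0 := by
      intro j
      have h5 : HasFDerivAt (fun ξ : Fin n → ℂ => ξ j)
          (ContinuousLinearMap.proj (R := ℂ) (φ := fun _ : Fin n => ℂ) j) 0 :=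
        hasFDerivAt_apply j 0
      have h6 : DifferentiableAt ℂ (fun ξ : Fin n → ℂ => Φ j (z, ξ)) 0 := by
        have h7 : AnalyticAt ℂ (fun ξ : Fin n → ℂ => Φ j (z, ξ)) 0 :=
          AnalyticAt.comp (g := Φ j) (f := fun ξ : Fin n → ℂ => (z, ξ)) (k2 j)
            (analyticAt_const.prod analyticAt_id)
        exact h7.differentiableAt
      have h8 := h5.mul h6.hasFDerivAt
      have h9 : (Φ j (z, 0) • ContinuousLinearMap.proj (R := ℂ) (φ := fun _ : Fin n => ℂ) j :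
          (Fin n → ℂ) →L[ℂ] ℂ) = (0 : Fin n → ℂ) j • fderiv ℂ (fun ξ : Fin n → ℂ => Φ j (z, ξ)) 0 +
          Φ j (z, 0) • ContinuousLinearMap.proj (R := ℂ) (φ := fun _ : Fin n => ℂ) j := by
        refine ContinuousLinearMap.ext fun v => ?_
        simp
      rw [h9]
      exact h8
    have d4 : HasFDerivAt (fun ξ : Fin n → ℂ => F z + ∑ j, ξ j * Φ j (z, ξ))
        (∑ j, Φ j (z, 0) • ContinuousLinearMap.proj (R := ℂ) (φ := fun _ : Fin n => ℂ) j) 0 := by
      refine HasFDerivAt.const_add _ ?_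
      exact HasFDerivAt.fun_sum fun j _ => d3 j
    have d5 := d4.congr_of_eventuallyEq (f₁ := fun ξ : Fin n → ℂ => F (z.1 + ξ, z.2)) k1
    have d6 := d2.unique d5
    rw [grad, d6]
    have d7 : ∀ v : Fin n → ℂ, (∑ j, Φ j (z, 0) •
        ContinuousLinearMap.proj (R := ℂ) (φ := fun _ : Fin n => ℂ) j) v = ∑ j, Φ j (z, 0) * v j := by
      intro v
      simp
    rw [d7, Finset.sum_eq_single i]
    · simp
    · intro j _ hj
      simp [Pi.single_eq_of_ne hj]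
    · intro h; exact absurd (Finset.mem_univ _) h
  have hgr' : ∀ᶠ p in 𝓝 (0 : ((Fin n → ℂ) × ℂ) × (Fin n → ℂ)), ∀ i,
      Φ i (p.1, 0) = grad F i p.1 :=
    (continuous_fst.tendsto' (0 : ((Fin n → ℂ) × ℂ) × (Fin n → ℂ)) 0 rfl).eventually hgr
  filter_upwards [e1, Filter.eventually_all.2 e2, hgr'] with p k1 k2 k3
  have k4 : F (p.1.1 + p.2, p.1.2) = F p.1 + ∑ i, p.2 i * Φ i p := by
    rw [k1]; simp
  rw [k4, add_assoc, ← Finset.sum_add_distrib]
  congr 1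
  refine Finset.sum_congr rfl fun i _ => ?_
  rw [k2 i, k3 i, mul_add, Finset.mul_sum]
  congr 1
  exact Finset.sum_congr rfl fun j _ => by ring

section Implicit

variable {Z : Type u} [NormedAddCommGroup Z] [NormedSpace ℂ Z] [FiniteDimensional ℂ Z]
variable {Y : Type v} [NormedAddCommGroup Y] [NormedSpace ℂ Y] [FiniteDimensional ℂ Y]

/-- analytic implicit function theorem -/
theorem implicit_an {Ψ : Z × Y → Y} (hΨ : AnalyticAt ℂ Ψ 0) (h0 : Ψ 0 = 0)
    (hinj : ∀ v : Y, fderiv ℂ Ψ 0 (0, v) = 0 → v = 0) :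
    ∃ y : Z → Y, AnalyticAt ℂ y 0 ∧ y 0 = 0 ∧ (∀ᶠ z in 𝓝 (0 : Z), Ψ (z, y z) = 0) ∧
      (∀ᶠ p in 𝓝 (0 : Z × Y), Ψ p = 0 → p.2 = y p.1) := by
  have hΘ : AnalyticAt ℂ (fun p : Z × Y => ((p.1, Ψ p) : Z × Y)) 0 := analyticAt_fst.prod hΨ
  have hd : fderiv ℂ (fun p : Z × Y => ((p.1, Ψ p) : Z × Y)) 0 =
      (ContinuousLinearMap.fst ℂ Z Y).prod (fderiv ℂ Ψ 0) :=
    (hasFDerivAt_fst.prodMk hΨ.differentiableAt.hasFDerivAt).fderiv
  obtain ⟨R, hR, hR0, -, -, hRs⟩ := exists_bihol (F := Z × Y) (G := Z × Y) rfl hΘ (by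
    intro v hv
    rw [hd] at hv
    have h1 : v.1 = 0 := congrArg Prod.fst hv
    have h2 : fderiv ℂ Ψ 0 v = 0 := congrArg Prod.snd hv
    have h3 : v = (0, v.2) := Prod.ext h1 rfl
    rw [h3] at h2
    rw [h3, hinj v.2 h2]
    rfl) Filter.univ_mem
  have hR00 : R 0 = 0 := by
    rw [hR]
    exact Prod.ext rfl h0
  have h0t : (0 : Z × Y) ∈ R.target := by
    rw [← hR00]; exact R.map_source hR0
  have hs0 : R.symm 0 = 0 := by
    conv_lhs => rw [← hR00]
    exact R.left_inv hR0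
  have hlin : AnalyticAt ℂ (fun z : Z => ((z, 0) : Z × Y)) 0 := analyticAt_id.prod analyticAt_const
  have hyan : AnalyticAt ℂ (fun z : Z => (R.symm (z, 0)).2) 0 := by
    have h1 : AnalyticAt ℂ (fun z : Z => R.symm (z, 0)) 0 :=
      AnalyticAt.comp (g := R.symm) (hRs 0 h0t) hlin
    exact analyticAt_snd.comp h1
  refine ⟨fun z => (R.symm (z, 0)).2, hyan, ?_, ?_, ?_⟩
  · change (R.symm (0 : Z × Y)).2 = 0
    rw [hs0]; rfl
  · have h1 : ∀ᶠ z in 𝓝 (0 : Z), ((z, 0) : Z × Y) ∈ R.target := by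
      have : Tendsto (fun z : Z => ((z, 0) : Z × Y)) (𝓝 0) (𝓝 0) := hlin.continuousAt
      exact this.eventually (R.open_target.mem_nhds h0t)
    filter_upwards [h1] with z hz
    have h2 := R.right_inv hz
    rw [hR] at h2
    have h3 : (R.symm (z, 0)).1 = z := congrArg Prod.fst h2
    have h4 : Ψ (R.symm (z, 0)) = 0 := congrArg Prod.snd h2
    have h5 : R.symm (z, 0) = (z, (R.symm (z, 0)).2) := Prod.ext h3 rfl
    rw [← h5]
    exact h4
  · filter_upwards [R.open_source.mem_nhds hR0] with p hp h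
    have h1 : R p = (p.1, 0) := by
      rw [hR]; exact Prod.ext rfl h
    rw [← h1, R.left_inv hp]

end Implicit

end Crest.Agent.R257.UI939
end
end

-- ▼ part R257/Tou2_939
section

/-!
Row 257 (S0395), leaf TOU (helper939), part 2: a perturbation of order `> 2μ` of a `μ`-constant
family is analytically trivial (parametrised Tougeron theorem).
-/

set_option autoImplicit false
set_option linter.unusedSectionVars false

open Set Filter Topology Metric Complex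
open Crest.Agent.R275.Loc2879

noncomputable section

namespace Crest.Agent.R257.UI939

universe u v w

variable {n : ℕ}

lemma quadD {E : Type u} [NormedAddCommGroup E] [NormedSpace ℂ E] {a b c : E → ℂ} {p : E}
    (ha : DifferentiableAt ℂ a p) (hb : DifferentiableAt ℂ b p) (hc : DifferentiableAt ℂ c p)
    (ha0 : a p = 0) (hb0 : b p = 0) :
    HasFDerivAt (fun x => a x * b x * c x) (0 : E →L[ℂ] ℂ) p := by
  have h := (ha.hasFDerivAt.fun_mul hb.hasFDerivAt).fun_mul hc.hasFDerivAt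
  refine h.congr_fderiv ?_
  refine ContinuousLinearMap.ext fun v => ?_
  simp [ha0, hb0]

lemma prodD {E : Type u} [NormedAddCommGroup E] [NormedSpace ℂ E] {a b : E → ℂ} {p : E}
    (ha : DifferentiableAt ℂ a p) (hb : DifferentiableAt ℂ b p)
    (ha0 : a p = 0) (hb0 : b p = 0) :
    HasFDerivAt (fun x => a x * b x) (0 : E →L[ℂ] ℂ) p := by
  have h := ha.hasFDerivAt.fun_mul hb.hasFDerivAt
  refine h.congr_fderiv ?_
  refine ContinuousLinearMap.ext fun v => ?_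
  simp [ha0, hb0]

lemma sum4 (f : Fin n → Fin n → Fin n → Fin n → ℂ) :
    ∑ l, ∑ k, ∑ i, ∑ j, f l k i j = ∑ i, ∑ j, ∑ k, ∑ l, f l k i j := by
  calc ∑ l, ∑ k, ∑ i, ∑ j, f l k i j = ∑ l, ∑ i, ∑ k, ∑ j, f l k i j :=
        Finset.sum_congr rfl fun l _ => Finset.sum_comm
    _ = ∑ i, ∑ l, ∑ k, ∑ j, f l k i j := Finset.sum_comm
    _ = ∑ i, ∑ l, ∑ j, ∑ k, f l k i j :=
        Finset.sum_congr rfl fun i _ => Finset.sum_congr rfl fun l _ => Finset.sum_comm
    _ = ∑ i, ∑ j, ∑ l, ∑ k, f l k i j := Finset.sum_congr rfl fun i _ => Finset.sum_comm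
    _ = ∑ i, ∑ j, ∑ k, ∑ l, f l k i j :=
        Finset.sum_congr rfl fun i _ => Finset.sum_congr rfl fun j _ => Finset.sum_comm

/-- the algebraic identity behind Tougeron's theorem -/
lemma tou_alg (y : Fin n → Fin n → ℂ) (D : Fin n → ℂ) (H g : Fin n → Fin n → ℂ)
    (h : ∀ l k, y l k + ∑ i, ∑ j, y i k * y j l * H i j = g l k) :
    ∑ i, (∑ k, y i k * D k) * D i +
      ∑ i, ∑ j, (∑ k, y i k * D k) * (∑ k, y j k * D k) * H i j =
      ∑ l, ∑ k, g l k * D l * D k := by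
  have e1 : ∑ i, (∑ k, y i k * D k) * D i = ∑ l, ∑ k, y l k * D l * D k := by
    refine Finset.sum_congr rfl fun i _ => ?_
    rw [Finset.sum_mul]
    exact Finset.sum_congr rfl fun k _ => by ring
  have e2 : ∑ i, ∑ j, (∑ k, y i k * D k) * (∑ k, y j k * D k) * H i j =
      ∑ l, ∑ k, (∑ i, ∑ j, y i k * y j l * H i j) * D l * D k := by
    have e3 : ∑ l, ∑ k, (∑ i, ∑ j, y i k * y j l * H i j) * D l * D k =
        ∑ l, ∑ k, ∑ i, ∑ j, y i k * y j l * H i j * D l * D k := by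
      refine Finset.sum_congr rfl fun l _ => Finset.sum_congr rfl fun k _ => ?_
      rw [Finset.sum_mul, Finset.sum_mul]
      refine Finset.sum_congr rfl fun i _ => ?_
      rw [Finset.sum_mul, Finset.sum_mul]
    rw [e3, sum4]
    refine Finset.sum_congr rfl fun i _ => Finset.sum_congr rfl fun j _ => ?_
    rw [Finset.sum_mul_sum, Finset.sum_mul]
    refine Finset.sum_congr rfl fun k _ => ?_
    rw [Finset.sum_mul]
    refine Finset.sum_congr rfl fun l _ => ?_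
    ring
  rw [e1, e2, ← Finset.sum_add_distrib]
  refine Finset.sum_congr rfl fun l _ => ?_
  rw [← Finset.sum_add_distrib]
  refine Finset.sum_congr rfl fun k _ => ?_
  rw [← h l k]
  ring

/-- a product over a word as a monomial -/
lemma word_mon {m : ℕ} (w : Fin m → Fin n) :
    ∃ α : Fin n → ℕ, ∑ i, α i = m ∧ ∀ x : Fin n → ℂ, ∏ j, x (w j) = ∏ i, x i ^ α i := by
  classical
  refine ⟨fun i => (Finset.univ.filter fun j => w j = i).card, ?_, fun x => ?_⟩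
  · have := Finset.card_eq_sum_card_fiberwise (s := (Finset.univ : Finset (Fin m)))
      (t := (Finset.univ : Finset (Fin n))) (f := w) (fun _ _ => Finset.mem_coe.2 (Finset.mem_univ _))
    rw [← this]; simp
  · rw [← Finset.prod_fiberwise_of_maps_to (s := (Finset.univ : Finset (Fin m)))
      (t := (Finset.univ : Finset (Fin n))) (g := w) (fun _ _ => Finset.mem_univ _)]
    refine Finset.prod_congr rfl fun i _ => ?_
    rw [← Finset.prod_const]
    exact Finset.prod_congr rfl fun j hj => by rw [(Finset.mem_filter.1 hj).2]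

/-- **analytic part**: if `G - F = ∑ g_lk D_l D_k` with `g_lk(0,t) = 0`, then `G = F ∘ ψ` -/
theorem tou_core (F G : (Fin n → ℂ) × ℂ → ℂ) (hF : AnalyticAt ℂ F 0)
    (hcrit : ∀ᶠ t in 𝓝 (0 : ℂ), fderiv ℂ (fun x => F (x, t)) 0 = 0)
    (g : Fin n → Fin n → (Fin n → ℂ) × ℂ → ℂ) (hg : ∀ l k, AnalyticAt ℂ (g l k) 0)
    (hg0 : ∀ l k, ∀ t : ℂ, g l k (0, t) = 0)
    (hGF : ∀ᶠ p in 𝓝 (0 : (Fin n → ℂ) × ℂ),
      G p - F p = ∑ l, ∑ k, g l k p * grad F l p * grad F k p) :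
    ∃ psi : (Fin n → ℂ) × ℂ → (Fin n → ℂ), AnalyticAt ℂ psi 0 ∧
      (∀ᶠ t in 𝓝 (0 : ℂ), psi (0, t) = 0) ∧
      (∀ᶠ t in 𝓝 (0 : ℂ), fderiv ℂ (fun x => psi (x, t)) 0 = ContinuousLinearMap.id ℂ _) ∧
      ∀ᶠ p in 𝓝 (0 : (Fin n → ℂ) × ℂ), F (psi p, p.2) = G p := by
  classical
  obtain ⟨H, hH, hTay⟩ := taylor2 hF
  have hD : ∀ k, AnalyticAt ℂ (grad F k) 0 := fun k => an_grad hF k
  have hD0 : ∀ᶠ t in 𝓝 (0 : ℂ), ∀ k, grad F k (0, t) = 0 := by
    filter_upwards [hcrit] with t ht k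
    change fderiv ℂ (fun x => F (x, t)) 0 _ = 0
    rw [ht]; rfl
  have hD00 : ∀ k, grad F k 0 = 0 := hD0.self_of_nhds
  -- the map ξ
  let ξ : ((Fin n → ℂ) × ℂ) × (Fin n → Fin n → ℂ) → (Fin n → ℂ) :=
    fun p i => ∑ k, p.2 i k * grad F k p.1
  have hy : ∀ i k, ∀ p : ((Fin n → ℂ) × ℂ) × (Fin n → Fin n → ℂ),
      AnalyticAt ℂ (fun p : ((Fin n → ℂ) × ℂ) × (Fin n → Fin n → ℂ) => p.2 i k) p := by
    intro i k p
    exact (ContinuousLinearMap.analyticAt
      (((ContinuousLinearMap.proj (R := ℂ) (φ := fun _ : Fin n => ℂ) k).comp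
        (ContinuousLinearMap.proj (R := ℂ) (φ := fun _ : Fin n => (Fin n → ℂ)) i)).comp
      (ContinuousLinearMap.snd ℂ ((Fin n → ℂ) × ℂ) (Fin n → Fin n → ℂ))) p)
  have hD1 : ∀ k, AnalyticAt ℂ (fun p : ((Fin n → ℂ) × ℂ) × (Fin n → Fin n → ℂ) =>
      grad F k p.1) 0 := by
    intro k
    exact AnalyticAt.comp (g := grad F k) (f := Prod.fst) (by exact hD k) analyticAt_fst
  have hξ : AnalyticAt ℂ ξ 0 := by
    refine AnalyticAt.pi fun i => ?_
    exact Finset.analyticAt_fun_sum _ fun k _ => (hy i k 0).mul (hD1 k)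
  have hξ0 : ξ 0 = 0 := by
    ext i
    simp [ξ]
  have hpair : AnalyticAt ℂ (fun p : ((Fin n → ℂ) × ℂ) × (Fin n → Fin n → ℂ) =>
      ((p.1, ξ p) : ((Fin n → ℂ) × ℂ) × (Fin n → ℂ))) 0 := analyticAt_fst.prod hξ
  have hpair0 : (((0 : ((Fin n → ℂ) × ℂ) × (Fin n → Fin n → ℂ)).1, ξ 0) :
      ((Fin n → ℂ) × ℂ) × (Fin n → ℂ)) = 0 := Prod.ext rfl hξ0
  have hHξ : ∀ i j, AnalyticAt ℂ (fun p : ((Fin n → ℂ) × ℂ) × (Fin n → Fin n → ℂ) =>
      H i j (p.1, ξ p)) 0 := by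
    intro i j
    refine AnalyticAt.comp (g := H i j) (f := fun p : ((Fin n → ℂ) × ℂ) × (Fin n → Fin n → ℂ) =>
      ((p.1, ξ p) : ((Fin n → ℂ) × ℂ) × (Fin n → ℂ))) ?_ hpair
    rw [hpair0]; exact hH i j
  have hg1 : ∀ l k, AnalyticAt ℂ (fun p : ((Fin n → ℂ) × ℂ) × (Fin n → Fin n → ℂ) =>
      g l k p.1) 0 := by
    intro l k
    exact AnalyticAt.comp (g := g l k) (f := Prod.fst) (by exact hg l k) analyticAt_fst
  -- the equation
  let Ψ : ((Fin n → ℂ) × ℂ) × (Fin n → Fin n → ℂ) → (Fin n → Fin n → ℂ) :=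
    fun p l k => p.2 l k + ∑ i, ∑ j, p.2 i k * p.2 j l * H i j (p.1, ξ p) - g l k p.1
  have hΨ : AnalyticAt ℂ Ψ 0 := by
    refine AnalyticAt.pi fun l => AnalyticAt.pi fun k => ?_
    refine ((hy l k 0).add ?_).sub (hg1 l k)
    exact Finset.analyticAt_fun_sum _ fun i _ => Finset.analyticAt_fun_sum _ fun j _ =>
      ((hy i k 0).mul (hy j l 0)).mul (hHξ i j)
  have hΨ0 : Ψ 0 = 0 := by
    ext l k
    have := hg0 l k 0
    simp only [Ψ]
    simp only [Prod.fst_zero, Prod.snd_zero, Pi.zero_apply, zero_mul, Finset.sum_const_zero,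
      add_zero, zero_sub, neg_eq_zero]
    exact this
  have hinj : ∀ v : Fin n → Fin n → ℂ, fderiv ℂ Ψ 0 (0, v) = 0 → v = 0 := by
    intro v hv
    have hcomp : ∀ l k, HasFDerivAt
        (fun p : ((Fin n → ℂ) × ℂ) × (Fin n → Fin n → ℂ) => Ψ p l k)
        ((((ContinuousLinearMap.proj (R := ℂ) (φ := fun _ : Fin n => ℂ) k).comp
        (ContinuousLinearMap.proj (R := ℂ) (φ := fun _ : Fin n => (Fin n → ℂ)) l)).comp
        (ContinuousLinearMap.snd ℂ ((Fin n → ℂ) × ℂ) (Fin n → Fin n → ℂ))) + ∑ _i : Fin n, ∑ _j : Fin n, 0 -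
        (fderiv ℂ (g l k) 0).comp (ContinuousLinearMap.fst ℂ ((Fin n → ℂ) × ℂ)
          (Fin n → Fin n → ℂ))) 0 := by
      intro l k
      refine HasFDerivAt.fun_sub (HasFDerivAt.fun_add ?_ ?_) ?_
      · exact ContinuousLinearMap.hasFDerivAt
          (((ContinuousLinearMap.proj (R := ℂ) (φ := fun _ : Fin n => ℂ) k).comp
        (ContinuousLinearMap.proj (R := ℂ) (φ := fun _ : Fin n => (Fin n → ℂ)) l)).comp
        (ContinuousLinearMap.snd ℂ ((Fin n → ℂ) × ℂ) (Fin n → Fin n → ℂ)))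
      · refine HasFDerivAt.fun_sum fun i _ => HasFDerivAt.fun_sum fun j _ => ?_
        exact quadD (hy i k 0).differentiableAt (hy j l 0).differentiableAt
          (hHξ i j).differentiableAt rfl rfl
      · exact HasFDerivAt.comp (g := g l k) (g' := fderiv ℂ (g l k) 0)
          (f := (Prod.fst : ((Fin n → ℂ) × ℂ) × (Fin n → Fin n → ℂ) → (Fin n → ℂ) × ℂ))
          (0 : ((Fin n → ℂ) × ℂ) × (Fin n → Fin n → ℂ))
          ((hg l k).differentiableAt.hasFDerivAt) hasFDerivAt_fst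
    ext l k
    have h1 : fderiv ℂ Ψ 0 (0, v) l k = v l k := by
      have h2 : HasFDerivAt (fun p : ((Fin n → ℂ) × ℂ) × (Fin n → Fin n → ℂ) => Ψ p l k)
        (((ContinuousLinearMap.proj (R := ℂ) (φ := fun _ : Fin n => ℂ) k).comp
        (ContinuousLinearMap.proj (R := ℂ) (φ := fun _ : Fin n => (Fin n → ℂ)) l)).comp
          (fderiv ℂ Ψ 0)) 0 :=
        HasFDerivAt.comp (g := fun y : Fin n → Fin n → ℂ => y l k)
          (g' := (ContinuousLinearMap.proj (R := ℂ) (φ := fun _ : Fin n => ℂ) k).comp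
        (ContinuousLinearMap.proj (R := ℂ) (φ := fun _ : Fin n => (Fin n → ℂ)) l)) (f := Ψ)
          (0 : ((Fin n → ℂ) × ℂ) × (Fin n → Fin n → ℂ))
          (ContinuousLinearMap.hasFDerivAt ((ContinuousLinearMap.proj (R := ℂ)
            (φ := fun _ : Fin n => ℂ) k).comp
        (ContinuousLinearMap.proj (R := ℂ) (φ := fun _ : Fin n => (Fin n → ℂ)) l)))
          hΨ.differentiableAt.hasFDerivAt
      have h3 := h2.unique (hcomp l k)
      have h4 := congrArg (fun L : ((Fin n → ℂ) × ℂ) × (Fin n → Fin n → ℂ) →L[ℂ] ℂ => L (0, v)) h3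
      simpa using h4
    rw [← h1, hv]
  obtain ⟨y, hya, hy0, hyΨ, hyu⟩ := implicit_an hΨ hΨ0 hinj
  -- y(0,t) = 0
  have hyt : ∀ᶠ t in 𝓝 (0 : ℂ), y (0, t) = 0 := by
    have h1 : Tendsto (fun t : ℂ => (((0, t), 0) : ((Fin n → ℂ) × ℂ) × (Fin n → Fin n → ℂ)))
        (𝓝 0) (𝓝 0) := by
      have : Continuous (fun t : ℂ =>
        (((0, t), 0) : ((Fin n → ℂ) × ℂ) × (Fin n → Fin n → ℂ))) := by fun_prop
      exact this.tendsto' _ _ rfl
    filter_upwards [h1.eventually hyu] with t ht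
    refine (ht ?_).symm
    ext l k
    simp only [Ψ, Pi.zero_apply, zero_mul, Finset.sum_const_zero, hg0 l k t, add_zero, sub_zero]
  have hya' : ∀ i k, AnalyticAt ℂ (fun z => y z i k) 0 := fun i k =>
    analyticAt_pi_iff.1 (analyticAt_pi_iff.1 hya i) k
  have hξy : AnalyticAt ℂ (fun z : (Fin n → ℂ) × ℂ => ξ (z, y z)) 0 := by
    refine AnalyticAt.pi fun i => ?_
    exact Finset.analyticAt_fun_sum _ fun k _ => (hya' i k).mul (hD k)
  have hξy0 : ξ ((0 : (Fin n → ℂ) × ℂ), y 0) = 0 := by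
    rw [hy0]; exact hξ0
  refine ⟨fun z => z.1 + ξ (z, y z), analyticAt_fst.add hξy, ?_, ?_, ?_⟩
  · filter_upwards [hyt] with t ht
    simp only [ht, zero_add]
    ext i
    simp [ξ]
  · have hev1 : ∀ᶠ t in 𝓝 (0 : ℂ), ∀ i k, AnalyticAt ℂ (fun z => y z i k) (0, t) :=
      (tendsto_0t (n := n)).eventually (Filter.eventually_all.2 fun i =>
        Filter.eventually_all.2 fun k => (hya' i k).eventually_analyticAt)
    have hev2 : ∀ᶠ t in 𝓝 (0 : ℂ), ∀ k, AnalyticAt ℂ (grad F k) (0, t) :=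
      (tendsto_0t (n := n)).eventually (Filter.eventually_all.2 fun k =>
        (hD k).eventually_analyticAt)
    filter_upwards [hyt, hev1, hev2, hD0] with t h1 h2 h3 h4
    refine HasFDerivAt.fderiv ?_
    have h5 : HasFDerivAt (fun x : Fin n → ℂ => ξ ((x, t), y (x, t)))
        (0 : (Fin n → ℂ) →L[ℂ] (Fin n → ℂ)) 0 := by
      rw [hasFDerivAt_pi']
      intro i
      have h6 : HasFDerivAt (fun x : Fin n → ℂ => ξ ((x, t), y (x, t)) i)
          (∑ k : Fin n, (0 : (Fin n → ℂ) →L[ℂ] ℂ)) 0 := by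
        refine HasFDerivAt.fun_sum fun k _ => ?_
        refine prodD ?_ ?_ ?_ (h4 k)
        · exact (an_slice (h2 i k)).differentiableAt
        · exact (an_slice (h3 k)).differentiableAt
        · rw [h1]; rfl
      refine h6.congr_fderiv ?_
      simp
    have h7 := (hasFDerivAt_id (𝕜 := ℂ) (0 : Fin n → ℂ)).fun_add h5
    refine h7.congr_fderiv ?_
    rw [add_zero]
  · have h1 : Tendsto (fun z : (Fin n → ℂ) × ℂ =>
        ((z, ξ (z, y z)) : ((Fin n → ℂ) × ℂ) × (Fin n → ℂ))) (𝓝 0) (𝓝 0) := by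
      have h2 : AnalyticAt ℂ (fun z : (Fin n → ℂ) × ℂ =>
        ((z, ξ (z, y z)) : ((Fin n → ℂ) × ℂ) × (Fin n → ℂ))) 0 := analyticAt_id.prod hξy
      have h3 := h2.continuousAt.tendsto
      rw [hξy0] at h3
      exact h3
    filter_upwards [h1.eventually hTay, hyΨ, hGF] with z h2 h3 h4
    have h5 : F (z.1 + ξ (z, y z), z.2) = F z + (∑ i, (∑ k, y z i k * grad F k z) * grad F i z +
      ∑ i, ∑ j, (∑ k, y z i k * grad F k z) * (∑ k, y z j k * grad F k z) *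
        H i j (z, ξ (z, y z))) := by
      rw [← add_assoc]; exact h2
    rw [h5, tou_alg (y z) (fun k => grad F k z) (fun i j => H i j (z, ξ (z, y z)))
      (fun l k => g l k z), ← h4]
    · ring
    · intro l k
      have h6 : Ψ (z, y z) l k = 0 := by rw [h3]; rfl
      simp only [Ψ] at h6
      exact sub_eq_zero.1 h6

open Crest.AlgGeometry Crest.AlgGeometry.Germ in
/-- **(TOU)** parametrised Tougeron theorem for `μ`-constant families -/
theorem tou {mu : ℕ} (F G : (Fin n → ℂ) × ℂ → ℂ) (hF : AnalyticAt ℂ F 0) (_hG : AnalyticAt ℂ G 0)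
    (hmu : ∀ᶠ t in 𝓝 (0 : ℂ), Module.Finite ℂ (JacobianQuotient n (fun x => F (x, t))) ∧
      milnorNumber n (fun x => F (x, t)) = mu)
    (hcrit : ∀ᶠ t in 𝓝 (0 : ℂ), fderiv ℂ (fun x => F (x, t)) 0 = 0)
    (q : (Fin (2 * mu + 1) → Fin n) → (Fin n → ℂ) × ℂ → ℂ) (hq : ∀ w, AnalyticAt ℂ (q w) 0)
    (hGF : ∀ᶠ p in 𝓝 (0 : (Fin n → ℂ) × ℂ), G p - F p = ∑ w, (∏ j, p.1 (w j)) * q w p) :
    ∃ psi : (Fin n → ℂ) × ℂ → (Fin n → ℂ), AnalyticAt ℂ psi 0 ∧
      (∀ᶠ t in 𝓝 (0 : ℂ), psi (0, t) = 0) ∧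
      (∀ᶠ t in 𝓝 (0 : ℂ), fderiv ℂ (fun x => psi (x, t)) 0 = ContinuousLinearMap.id ℂ _) ∧
      ∀ᶠ p in 𝓝 (0 : (Fin n → ℂ) × ℂ), F (psi p, p.2) = G p := by
  classical
  have hdim : ∀ᶠ t in 𝓝 (0 : ℂ),
      Module.Finite ℂ (BB n ⧸ Idl (0 : Fin n → ℂ) (fun j x => grad F j (x, t))) ∧
      dimQ (0 : Fin n → ℂ) (fun j x => grad F j (x, t)) = mu := by
    filter_upwards [hmu, (tendsto_0t (n := n)).eventually hF.eventually_analyticAt] with t h12 hFt
    obtain ⟨h1, h2⟩ := h12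
    have han : ∀ i, AnalyticAt ℂ (coordDeriv (fun x => F (x, t)) i) (0 : Fin n → ℂ) := by
      intro i
      rw [coordDeriv_eq]
      exact an_slice (an_grad hFt i)
    obtain ⟨e⟩ := dict han
    refine ⟨Module.Finite.equiv e, ?_⟩
    rw [← h2]
    exact e.finrank_eq.symm
  -- monomials of degree `mu`
  have hui : ∀ u : Fin mu → Fin n, ∃ b : Fin n → (Fin n → ℂ) × ℂ → ℂ,
      (∀ j, AnalyticAt ℂ (b j) 0) ∧
      ∀ᶠ p in 𝓝 (0 : (Fin n → ℂ) × ℂ), ∏ j, p.1 (u j) = ∑ j, b j p * grad F j p := by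
    intro u
    obtain ⟨α, hα, hw⟩ := word_mon u
    obtain ⟨b, hb, h⟩ := ui (grad F) (fun j => an_grad hF j) mu hdim α hα
    refine ⟨b, hb, ?_⟩
    filter_upwards [h] with p hp
    rw [hw, hp]
  choose b hb hbe using hui
  -- words
  let w0 : (Fin (2 * mu + 1) → Fin n) → Fin n := fun w => w 0
  let w1 : (Fin (2 * mu + 1) → Fin n) → Fin mu → Fin n := fun w j => w ⟨1 + j, by omega⟩
  let w2 : (Fin (2 * mu + 1) → Fin n) → Fin mu → Fin n := fun w j => w ⟨1 + (mu + j), by omega⟩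
  have hword : ∀ (w : Fin (2 * mu + 1) → Fin n) (x : Fin n → ℂ),
      ∏ j, x (w j) = x (w0 w) * ((∏ j, x (w1 w j)) * (∏ j, x (w2 w j))) := by
    intro w x
    have e : 1 + (mu + mu) = 2 * mu + 1 := by ring
    have h1 : ∏ j, x (w j) = ∏ j : Fin (1 + (mu + mu)), x (w (Fin.cast e j)) :=
      (Fintype.prod_equiv (finCongr e) _ _ fun j => rfl).symm
    rw [h1, Fin.prod_univ_add, Fin.prod_univ_add]
    congr 1
    simp only [Finset.univ_unique, Fin.default_eq_zero, Fin.isValue, Finset.prod_singleton]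
    rfl
  refine tou_core F G hF hcrit
    (fun l k p => ∑ w : Fin (2 * mu + 1) → Fin n, p.1 (w0 w) * (b (w1 w) l p * b (w2 w) k p * q w p))
    ?_ ?_ ?_
  · intro l k
    exact Finset.analyticAt_fun_sum _ fun w _ => (an_x _ 0).mul
      (((hb (w1 w) l).mul (hb (w2 w) k)).mul (hq w))
  · intro l k t
    simp
  · have hb' : ∀ᶠ p in 𝓝 (0 : (Fin n → ℂ) × ℂ), ∀ u : Fin mu → Fin n,
        ∏ j, p.1 (u j) = ∑ j, b u j p * grad F j p := Filter.eventually_all.2 hbe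
    filter_upwards [hGF, hb'] with p h1 h2
    rw [h1]
    have h3 : ∀ w : Fin (2 * mu + 1) → Fin n, (∏ j, p.1 (w j)) * q w p =
        ∑ l, ∑ k, (p.1 (w0 w) * (b (w1 w) l p * b (w2 w) k p * q w p)) * grad F l p *
          grad F k p := by
      intro w
      rw [hword, h2, h2, Finset.sum_mul_sum, Finset.mul_sum, Finset.sum_mul]
      refine Finset.sum_congr rfl fun l _ => ?_
      rw [Finset.mul_sum, Finset.sum_mul]
      refine Finset.sum_congr rfl fun k _ => ?_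
      ring
    rw [Finset.sum_congr rfl fun w _ => h3 w, Finset.sum_comm]
    refine Finset.sum_congr rfl fun l _ => ?_
    rw [Finset.sum_comm]
    refine Finset.sum_congr rfl fun k _ => ?_
    rw [Finset.sum_mul, Finset.sum_mul]

end Crest.Agent.R257.UI939
end
end

-- ▼ part R257/GC_554
section

/-!
Row 257 (S0395), leaf E-GLOB, part 3c (helper554): the polynomial family
`G(x,t) = P_t(x) + ∑ c_i x_i^d`, its gradient, boundedness of the critical points, property (G5).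
-/

set_option autoImplicit false

open Set Filter Topology
open Crest.AlgGeometry.Germ

noncomputable section

namespace Crest.Agent.R257.Glob554

open Crest.Agent.R257.Defs_219 Crest.Agent.R257.Jac554
open MvPolynomial

variable {n : ℕ}

/-- the family -/
def Gf (P : ℂ → MvPolynomial (Fin n) ℂ) (c : Fin n → ℂ) (d : ℕ) (p : (Fin n → ℂ) × ℂ) : ℂ :=
  eval p.1 (P p.2) + ∑ i, c i * p.1 i ^ d

/-- the linear form with given coefficients -/
def lin (a : Fin n → ℂ) : (Fin n → ℂ) →L[ℂ] ℂ :=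
  ∑ i, a i • (ContinuousLinearMap.proj (R := ℂ) (φ := fun _ : Fin n => ℂ) i)

@[simp] lemma lin_apply (a v : Fin n → ℂ) : lin a v = ∑ i, a i * v i := by
  simp [lin]

lemma hasFDerivAt_eval (p : MvPolynomial (Fin n) ℂ) (x : Fin n → ℂ) :
    HasFDerivAt (fun y : Fin n → ℂ => eval y p) (lin fun i => eval x (pderiv i p)) x := by
  induction p using MvPolynomial.induction_on with
  | C a =>
    simp only [eval_C]
    refine (hasFDerivAt_const a x).congr_fderiv ?_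
    ext v
    simp
  | add p q hp hq =>
    simp only [map_add]
    refine (hp.fun_add hq).congr_fderiv ?_
    ext v
    simp [add_mul, Finset.sum_add_distrib]
  | mul_X p j hp =>
    simp only [map_mul, eval_X]
    have h1 : HasFDerivAt (fun y : Fin n → ℂ => y j)
      (ContinuousLinearMap.proj (R := ℂ) (φ := fun _ : Fin n => ℂ) j) x :=
      (ContinuousLinearMap.proj (R := ℂ) (φ := fun _ : Fin n => ℂ) j).hasFDerivAt
    refine (hp.fun_mul h1).congr_fderiv ?_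
    ext v
    simp only [pderiv_mul, map_add, map_mul, eval_X, lin_apply, add_mul,
      Finset.sum_add_distrib]
    change eval x p • v j + x j • lin (fun i => eval x (pderiv i p)) v = _
    rw [lin_apply, smul_eq_mul, smul_eq_mul, add_comm]
    congr 1
    · rw [Finset.mul_sum]
      exact Finset.sum_congr rfl (fun i _ => by ring)
    · rw [Finset.sum_eq_single j]
      · rw [pderiv_X_self, map_one, mul_one]
      · intro i _ hi
        rw [pderiv_X_of_ne hi.symm, map_zero, mul_zero, zero_mul]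
      · intro h; exact absurd (Finset.mem_univ j) h

lemma hasFDerivAt_Gf (P : ℂ → MvPolynomial (Fin n) ℂ) (c : Fin n → ℂ) (d : ℕ) (x : Fin n → ℂ)
    (t : ℂ) :
    HasFDerivAt (sl (Gf P c d) t)
      (lin fun i => eval x (pderiv i (P t)) + d * c i * x i ^ (d - 1)) x := by
  have h0 : ∀ i ∈ (Finset.univ : Finset (Fin n)), HasFDerivAt (fun y : Fin n → ℂ => c i * y i ^ d)
      ((d * c i * x i ^ (d - 1)) • (ContinuousLinearMap.proj (R := ℂ) (φ := fun _ : Fin n => ℂ) i))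
      x := by
    intro i _
    have h1 : HasFDerivAt (fun y : Fin n → ℂ => y i)
        (ContinuousLinearMap.proj (R := ℂ) (φ := fun _ : Fin n => ℂ) i) x :=
        (ContinuousLinearMap.proj (R := ℂ) (φ := fun _ : Fin n => ℂ) i).hasFDerivAt
    refine ((h1.pow d).const_mul (c i)).congr_fderiv ?_
    ext v
    simp
    ring
  refine ((hasFDerivAt_eval (P t) x).fun_add (HasFDerivAt.fun_sum h0)).congr_fderiv ?_
  ext v
  simp [add_mul, Finset.sum_add_distrib]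

lemma gr_Gf (P : ℂ → MvPolynomial (Fin n) ℂ) (c : Fin n → ℂ) (d : ℕ) (x : Fin n → ℂ)
    (t : ℂ) (i : Fin n) :
    coordDeriv (sl (Gf P c d) t) i x = eval x (pderiv i (P t)) + d * c i * x i ^ (d - 1) := by
  rw [coordDeriv, (hasFDerivAt_Gf P c d x t).fderiv, lin_apply, Finset.sum_eq_single i]
  · simp
  · intro j _ hj
    rw [Pi.single_eq_of_ne hj, mul_zero]
  · intro h; exact absurd (Finset.mem_univ i) h

/-- the multiindices of degree at most `k` -/
def TT (n k : ℕ) : Finset (Fin n →₀ ℕ) := (Finsupp.finite_of_degree_le k).toFinset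

lemma mem_TT {k : ℕ} {m : Fin n →₀ ℕ} : m ∈ TT n k ↔ ∑ i, m i ≤ k := by
  rw [TT, Set.Finite.mem_toFinset, mem_ofPred_eq, Finsupp.degree_eq_sum]

lemma eval_TT {q : MvPolynomial (Fin n) ℂ} {k : ℕ} (hq : q.totalDegree ≤ k) (x : Fin n → ℂ) :
    eval x q = ∑ m ∈ TT n k, coeff m q * ∏ i, x i ^ m i := by
  rw [eval_eq']
  refine Finset.sum_subset ?_ ?_
  · intro m hm
    rw [mem_TT]
    have h1 := le_totalDegree hm
    have h2 : m.sum (fun _ n => n) = ∑ j, m j := Finsupp.sum_fintype _ _ (fun _ => rfl)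
    omega
  · intro m _ hm
    rw [notMem_support_iff.1 hm, zero_mul]

lemma totalDegree_pderiv {q : MvPolynomial (Fin n) ℂ} {k : ℕ} (hq : q.totalDegree ≤ k + 1)
    (i : Fin n) : (pderiv i q).totalDegree ≤ k := by
  refine Finset.sup_le (fun m hm => ?_)
  rw [mem_support_iff, coeff_pderiv] at hm
  have h1 := le_totalDegree (mem_support_iff.2 (left_ne_zero_of_mul hm))
  have h2 : (m + Finsupp.single i 1).sum (fun _ n => n) =
      m.sum (fun _ n => n) + 1 := by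
    rw [Finsupp.sum_add_index' (fun _ => rfl) (fun _ _ _ => rfl), Finsupp.sum_single_index rfl]
  omega

section

variable {P : ℂ → MvPolynomial (Fin n) ℂ} {c : Fin n → ℂ} {d : ℕ}

lemma analyticAt_eval {k : ℕ} (hP : ∀ t, (P t).totalDegree ≤ k) {t : ℂ}
    (ha : ∀ m, AnalyticAt ℂ (fun t => (P t).coeff m) t) (x : Fin n → ℂ) :
    AnalyticAt ℂ (fun p : (Fin n → ℂ) × ℂ => eval p.1 (P p.2)) (x, t) := by
  have : (fun p : (Fin n → ℂ) × ℂ => eval p.1 (P p.2)) =
      fun p => ∑ m ∈ TT n k, coeff m (P p.2) * ∏ i, p.1 i ^ m i := by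
    funext p
    exact eval_TT (hP _) _
  rw [this]
  refine Finset.analyticAt_fun_sum _ (fun m _ => ?_)
  refine AnalyticAt.mul ?_ ?_
  · exact AnalyticAt.comp (g := fun t => coeff m (P t)) (f := Prod.snd) (ha m) analyticAt_snd
  · refine Finset.analyticAt_fun_prod _ (fun i _ => ?_)
    exact (Uni554.analyticAt_coord i _).pow _

lemma analyticAt_pderiv_coeff {t : ℂ} (ha : ∀ m, AnalyticAt ℂ (fun t => (P t).coeff m) t)
    (i : Fin n) (m : Fin n →₀ ℕ) : AnalyticAt ℂ (fun t => (pderiv i (P t)).coeff m) t := by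
  simp only [coeff_pderiv]
  exact (ha _).mul analyticAt_const

lemma analyticAt_Gf (hP : ∀ t, (P t).totalDegree < d) {t : ℂ}
    (ha : ∀ m, AnalyticAt ℂ (fun t => (P t).coeff m) t) (x : Fin n → ℂ) :
    AnalyticAt ℂ (Gf P c d) (x, t) := by
  refine (analyticAt_eval (fun t => (hP t).le) ha x).add ?_
  refine Finset.analyticAt_fun_sum _ (fun i _ => ?_)
  exact analyticAt_const.mul ((Uni554.analyticAt_coord i _).pow _)

lemma continuousAt_grad (hP : ∀ t, (P t).totalDegree < d) {t : ℂ}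
    (ha : ∀ m, AnalyticAt ℂ (fun t => (P t).coeff m) t) (x : Fin n → ℂ) (i : Fin n) :
    ContinuousAt (fun p : (Fin n → ℂ) × ℂ => coordDeriv (sl (Gf P c d) p.2) i p.1) (x, t) := by
  simp only [gr_Gf]
  have h1 : ∀ t, (pderiv i (P t)).totalDegree ≤ d := fun t =>
    totalDegree_pderiv (by have := hP t; omega) i
  refine (analyticAt_eval h1 (analyticAt_pderiv_coeff ha i) x).continuousAt.add ?_
  fun_prop

/-- the critical points are bounded -/
lemma crit_bdd (hP : ∀ t, (P t).totalDegree < d) (hd : 2 ≤ d)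
    (ha : ∀ m, AnalyticAt ℂ (fun t => (P t).coeff m) 0) (hc : ∀ i, c i ≠ 0) :
    ∃ K : ℝ, ∀ᶠ t in 𝓝 (0 : ℂ), ∀ x : Fin n → ℂ,
      (∀ i, coordDeriv (sl (Gf P c d) t) i x = 0) → ‖x‖ ≤ K := by
  have hdeg : ∀ i t, (pderiv i (P t)).totalDegree ≤ d - 2 := fun i t =>
    totalDegree_pderiv (by have := hP t; omega) i
  -- bound of the coefficients
  set A : Fin n → ℝ := fun i => ∑ m ∈ TT n (d - 2), (‖coeff m (pderiv i (P 0))‖ + 1) with hA
  have h1 : ∀ᶠ t in 𝓝 (0 : ℂ), ∀ i, ∀ m ∈ TT n (d - 2),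
      ‖coeff m (pderiv i (P t))‖ < ‖coeff m (pderiv i (P 0))‖ + 1 := by
    rw [Filter.eventually_all]
    intro i
    rw [Filter.eventually_all_finset]
    intro m _
    have := (analyticAt_pderiv_coeff ha i m).continuousAt.norm
    exact this.eventually_lt continuousAt_const (by simp)
  have hAnn : ∀ i, 0 ≤ A i := fun i => Finset.sum_nonneg (fun m _ => by positivity)
  have hd0 : (0 : ℝ) < d := by
    have : 0 < d := by omega
    exact_mod_cast this
  have hcpos : ∀ i, 0 < (d : ℝ) * ‖c i‖ := fun i => mul_pos hd0 (norm_pos_iff.2 (hc i))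
  refine ⟨1 + ∑ i, A i / (d * ‖c i‖), ?_⟩
  filter_upwards [h1] with t ht x hx
  have hsum : ∀ i, A i / (d * ‖c i‖) ≤ ∑ i, A i / (d * ‖c i‖) := fun i =>
    Finset.single_le_sum (f := fun i => A i / (d * ‖c i‖))
      (fun j _ => div_nonneg (hAnn j) (hcpos j).le) (Finset.mem_univ i)
  have hsum0 : 0 ≤ ∑ i, A i / (d * ‖c i‖) :=
    Finset.sum_nonneg (fun j _ => div_nonneg (hAnn j) (hcpos j).le)
  by_cases hx1 : ‖x‖ ≤ 1
  · linarith
  push Not at hx1
  -- the largest coordinate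
  obtain ⟨i, hi⟩ : ∃ i, ‖x i‖ = ‖x‖ := by
    by_contra hcon
    push Not at hcon
    have h2 : ∀ i, ‖x i‖ < ‖x‖ := fun i => lt_of_le_of_ne (norm_le_pi_norm x i) (hcon i)
    have h3 := (pi_norm_lt_iff (by linarith : (0 : ℝ) < ‖x‖)).2 h2
    exact lt_irrefl _ h3
  have h4 := hx i
  rw [gr_Gf] at h4
  have h5 : ‖(d : ℂ) * c i * x i ^ (d - 1)‖ ≤ A i * ‖x‖ ^ (d - 2) := by
    have h6 : (d : ℂ) * c i * x i ^ (d - 1) = -eval x (pderiv i (P t)) := by
      linear_combination h4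
    rw [h6, norm_neg, eval_TT (hdeg i t), hA, Finset.sum_mul]
    refine (norm_sum_le _ _).trans (Finset.sum_le_sum (fun m hm => ?_))
    rw [norm_mul]
    refine mul_le_mul (ht i m hm).le ?_ (norm_nonneg _) (by positivity)
    rw [norm_prod]
    calc ∏ j, ‖x j ^ m j‖ ≤ ∏ j, ‖x‖ ^ m j := by
          refine Finset.prod_le_prod (fun j _ => norm_nonneg _) (fun j _ => ?_)
          rw [norm_pow]
          exact pow_le_pow_left₀ (norm_nonneg _) (norm_le_pi_norm x j) _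
      _ = ‖x‖ ^ (∑ j, m j) := Finset.prod_pow_eq_pow_sum _ _ _
      _ ≤ ‖x‖ ^ (d - 2) := pow_le_pow_right₀ hx1.le (mem_TT.1 hm)
  rw [norm_mul, norm_mul, norm_pow, hi, Complex.norm_natCast] at h5
  have h7 : ‖x‖ ^ (d - 1) = ‖x‖ * ‖x‖ ^ (d - 2) := by
    rw [← pow_succ', show d - 2 + 1 = d - 1 from by omega]
  rw [h7, ← mul_assoc] at h5
  have h8 : 0 < ‖x‖ ^ (d - 2) := by positivity
  have h9 : (d : ℝ) * ‖c i‖ * ‖x‖ ≤ A i := le_of_mul_le_mul_right h5 h8
  have h10 : ‖x‖ ≤ A i / (d * ‖c i‖) := by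
    rw [le_div_iff₀ (hcpos i)]
    linarith
  linarith [hsum i]

/-- **(G5)** -/
theorem g5 (hP : ∀ t, (P t).totalDegree < d) (hd : 2 ≤ d)
    (ha : ∀ᶠ t in 𝓝 (0 : ℂ), ∀ m, AnalyticAt ℂ (fun t => (P t).coeff m) t) (hc : ∀ i, c i ≠ 0)
    (h0 : ∀ᶠ t in 𝓝 (0 : ℂ), Gf P c d (0, t) = 0)
    (h3 : ∀ᶠ p in 𝓝 ((0 : Fin n → ℂ), (0 : ℂ)),
      (∀ i, coordDeriv (sl (Gf P c d) p.2) i p.1 = 0) → p.1 = 0)
    (h4 : ∀ x : Fin n → ℂ, x ≠ 0 → Gf P c d (x, 0) = 0 →
      ∃ i, coordDeriv (sl (Gf P c d) 0) i x ≠ 0) :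
    ∃ e : ℝ, 0 < e ∧ ∀ (x : Fin n → ℂ) (t : ℂ), ‖t‖ < e → Gf P c d (x, t) ≠ 0 →
      ‖Gf P c d (x, t)‖ < e → ∃ i, coordDeriv (sl (Gf P c d) t) i x ≠ 0 := by
  obtain ⟨K, hK⟩ := crit_bdd hP hd ha.self_of_nhds hc
  by_contra hcon
  push Not at hcon
  choose x t ht hne hlt hcrit using fun k : ℕ => hcon (1 / (k + 1 : ℝ)) (by positivity)
  have htl : Tendsto (fun k : ℕ => (1 / (k + 1 : ℝ))) atTop (𝓝 0) :=
    tendsto_one_div_add_atTop_nhds_zero_nat
  have ht0 : Tendsto t atTop (𝓝 0) := by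
    rw [tendsto_zero_iff_norm_tendsto_zero]
    exact squeeze_zero (fun k => norm_nonneg _) (fun k => (ht k).le) htl
  have hg0 : Tendsto (fun k => Gf P c d (x k, t k)) atTop (𝓝 0) := by
    rw [tendsto_zero_iff_norm_tendsto_zero]
    exact squeeze_zero (fun k => norm_nonneg _) (fun k => (hlt k).le) htl
  have hbd : ∀ᶠ k in atTop, x k ∈ Metric.closedBall (0 : Fin n → ℂ) K := by
    filter_upwards [ht0.eventually hK] with k hk
    rw [mem_closedBall_zero_iff]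
    exact hk _ (hcrit k)
  obtain ⟨x', -, φ, hφ, hx'⟩ := (isCompact_closedBall (0 : Fin n → ℂ) K).tendsto_subseq'
    hbd.frequently
  have hφt : Tendsto (t ∘ φ) atTop (𝓝 0) := ht0.comp hφ.tendsto_atTop
  have hpair : Tendsto (fun k => (x (φ k), t (φ k))) atTop (𝓝 (x', 0)) := by
    rw [nhds_prod_eq]
    exact hx'.prodMk hφt
  have hG : Gf P c d (x', 0) = 0 := by
    have h5 := (analyticAt_Gf (c := c) hP ha.self_of_nhds x').continuousAt.tendsto.comp hpair
    exact tendsto_nhds_unique h5 (hg0.comp hφ.tendsto_atTop)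
  have hgr : ∀ i, coordDeriv (sl (Gf P c d) 0) i x' = 0 := by
    intro i
    have h5 := (continuousAt_grad (c := c) hP ha.self_of_nhds x' i).tendsto.comp hpair
    refine tendsto_nhds_unique h5 ?_
    have : ((fun p : (Fin n → ℂ) × ℂ => coordDeriv (sl (Gf P c d) p.2) i p.1) ∘
        fun k => (x (φ k), t (φ k))) = fun _ => (0 : ℂ) := by
      funext k
      exact hcrit (φ k) i
    rw [this]
    exact tendsto_const_nhds
  have hx0 : x' = 0 := by
    by_contra hne'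
    obtain ⟨i, hi⟩ := h4 x' hne' hG
    exact hi (hgr i)
  subst hx0
  have h6 := hpair.eventually h3
  have h7 := hφt.eventually h0
  obtain ⟨k, h8, h9⟩ := (h6.and h7).exists
  have h10 : x (φ k) = 0 := h8 (hcrit (φ k))
  refine hne (φ k) ?_
  rw [h10]
  exact h9

end

end Crest.Agent.R257.Glob554
end
end

-- ▼ part R257/GD_554
section

/-!
Row 257 (S0395), leaf E-GLOB, part 3d (helper554): functions vanishing to order `k` in `x`,
the lower bound of the gradient, and the transport of the conclusion of S0395.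
-/

set_option autoImplicit false

open Set Filter Topology
open Crest.AlgGeometry.Germ

noncomputable section

namespace Crest.Agent.R257.Glob554

open Crest.Agent.R257.Defs_219 Crest.Agent.R257.Jac554
open MvPolynomial

variable {n : ℕ}

/-- order at least `k` in `x`, uniformly in `t` -/
def InM (k : ℕ) (f : (Fin n → ℂ) × ℂ → ℂ) : Prop :=
  ∃ q : (Fin k → Fin n) → (Fin n → ℂ) × ℂ → ℂ, (∀ w, AnalyticAt ℂ (q w) (0, 0)) ∧
    ∀ᶠ p in 𝓝 ((0 : Fin n → ℂ), (0 : ℂ)), f p = ∑ w, (∏ j, p.1 (w j)) * q w p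

lemma InM.sub {k : ℕ} {f g : (Fin n → ℂ) × ℂ → ℂ} (hf : InM k f) (hg : InM k g) :
    InM k (fun p => f p - g p) := by
  obtain ⟨q, hq, h⟩ := hf
  obtain ⟨q', hq', h'⟩ := hg
  refine ⟨fun w p => q w p - q' w p, fun w => (hq w).sub (hq' w), ?_⟩
  filter_upwards [h, h'] with p hp hp'
  rw [hp, hp', ← Finset.sum_sub_distrib]
  exact Finset.sum_congr rfl (fun w _ => by ring)

lemma InM.pred {k : ℕ} {f : (Fin n → ℂ) × ℂ → ℂ} (hf : InM (k + 1) f) : InM k f := by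
  obtain ⟨q, hq, h⟩ := hf
  refine ⟨fun w p => ∑ i, p.1 i * q (Fin.cons i w) p, fun w => ?_, ?_⟩
  · exact Finset.analyticAt_fun_sum _ (fun i _ => (Uni554.analyticAt_coord i _).mul (hq _))
  · filter_upwards [h] with p hp
    rw [hp, ← (Fin.consEquiv (fun _ : Fin (k + 1) => Fin n)).sum_comp,
      Fintype.sum_prod_type_right]
    refine Finset.sum_congr rfl (fun w _ => ?_)
    rw [Finset.mul_sum]
    refine Finset.sum_congr rfl (fun i _ => ?_)
    have hc : (Fin.consEquiv fun _ : Fin (k + 1) => Fin n) (i, w) = Fin.cons i w := rfl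
    rw [hc]
    simp only [Fin.prod_univ_succ, Fin.cons_zero, Fin.cons_succ]
    ring

lemma InM.mono {k l : ℕ} (hkl : k ≤ l) {f : (Fin n → ℂ) × ℂ → ℂ} (hf : InM l f) : InM k f := by
  induction l, hkl using Nat.le_induction with
  | base => exact hf
  | succ l _ ih => exact ih hf.pred

lemma inM_pure (c : Fin n → ℂ) (k : ℕ) : InM k (fun p => ∑ i, c i * p.1 i ^ k) := by
  refine ⟨fun w _ => ∑ i, if w = (fun _ => i) then c i else 0, fun w => analyticAt_const, ?_⟩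
  refine Eventually.of_forall (fun p => ?_)
  simp only [Finset.mul_sum]
  rw [Finset.sum_comm]
  refine Finset.sum_congr rfl (fun i _ => ?_)
  rw [Finset.sum_eq_single (fun _ => i)]
  · simp [mul_comm]
  · intro w _ hw
    rw [if_neg hw, mul_zero]
  · intro h; exact absurd (Finset.mem_univ _) h

/-- lower bound of the gradient -/
theorem lower_bound {F : (Fin n → ℂ) × ℂ → ℂ} {μ : ℕ} (hF : AnalyticAt ℂ F (0, 0)) (hn : 0 < n)
    (hμ : ∀ᶠ t in 𝓝 (0 : ℂ), Module.Finite ℂ (JacobianQuotient n (fun x => F (x, t))) ∧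
      milnorNumber n (fun x => F (x, t)) = μ) :
    ∃ c₀ : ℝ, 0 < c₀ ∧ ∀ᶠ p in 𝓝 ((0 : Fin n → ℂ), (0 : ℂ)),
      c₀ * ‖p.1‖ ^ μ ≤ ‖gr (sl F p.2) p.1‖ := by
  choose a ha h using fun w : Fin μ → Fin n => grad_uniform hF hμ w
  set A : ℝ := 1 + ∑ i, ∑ j, (‖a (fun _ => i) j (0, 0)‖ + 1) with hA
  have hA1 : 0 < A := by positivity
  have hb : ∀ᶠ p in 𝓝 ((0 : Fin n → ℂ), (0 : ℂ)), ∀ i j,
      ‖a (fun _ => i) j p‖ < ‖a (fun _ => i) j (0, 0)‖ + 1 := by
    rw [Filter.eventually_all]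
    intro i
    rw [Filter.eventually_all]
    intro j
    exact ((ha _ j).continuousAt.norm).eventually_lt continuousAt_const (by simp)
  have hw : ∀ᶠ p in 𝓝 ((0 : Fin n → ℂ), (0 : ℂ)), ∀ i : Fin n,
      ∏ _j : Fin μ, p.1 i = ∑ j, a (fun _ => i) j p * pd F j p :=
    Filter.eventually_all.2 (fun i => h (fun _ => i))
  refine ⟨A⁻¹, inv_pos.2 hA1, ?_⟩
  filter_upwards [hb, hw] with p hp1 hp2
  obtain ⟨i, hi⟩ : ∃ i, ‖p.1‖ = ‖p.1 i‖ := by
    by_contra hcon
    push Not at hcon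
    have h2 : ∀ i, ‖p.1 i‖ < ‖p.1‖ := fun i =>
      lt_of_le_of_ne (norm_le_pi_norm p.1 i) (fun h => hcon i h.symm)
    have h3 : 0 < ‖p.1‖ := lt_of_le_of_lt (norm_nonneg _) (h2 ⟨0, hn⟩)
    exact lt_irrefl _ ((pi_norm_lt_iff h3).2 h2)
  rw [inv_mul_le_iff₀ hA1, hi, ← norm_pow]
  have h3 := hp2 i
  rw [Finset.prod_const, Finset.card_univ, Fintype.card_fin] at h3
  rw [h3]
  refine (norm_sum_le _ _).trans ?_
  have h4 : ∀ j, ‖a (fun _ => i) j p * pd F j p‖ ≤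
      (‖a (fun _ => i) j (0, 0)‖ + 1) * ‖gr (sl F p.2) p.1‖ := by
    intro j
    rw [norm_mul]
    refine mul_le_mul (hp1 i j).le ?_ (norm_nonneg _) (by positivity)
    exact norm_le_pi_norm (gr (sl F p.2) p.1) j
  refine (Finset.sum_le_sum (fun j _ => h4 j)).trans ?_
  rw [← Finset.sum_mul]
  refine mul_le_mul_of_nonneg_right ?_ (norm_nonneg _)
  have h5 : ∑ j, (‖a (fun _ => i) j (0, 0)‖ + 1) ≤ ∑ i, ∑ j, (‖a (fun _ => i) j (0, 0)‖ + 1) :=
    Finset.single_le_sum (f := fun i => ∑ j, (‖a (fun _ => i) j (0, 0)‖ + 1))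
      (fun i _ => by positivity) (Finset.mem_univ i)
  linarith

section transport

variable {ψ : (Fin n → ℂ) × ℂ → (Fin n → ℂ)}

lemma fderiv_psi (hψ : AnalyticAt ℂ ψ 0) (h0 : ∀ᶠ t in 𝓝 (0 : ℂ), ψ (0, t) = 0)
    (hd : fderiv ℂ (fun x => ψ (x, 0)) 0 = ContinuousLinearMap.id ℂ _) :
    fderiv ℂ ψ 0 = ContinuousLinearMap.fst ℂ (Fin n → ℂ) ℂ := by
  have h1 : HasFDerivAt ψ (fderiv ℂ ψ 0) ((0 : Fin n → ℂ), (0 : ℂ)) :=
    hψ.differentiableAt.hasFDerivAt
  have h2 : HasFDerivAt (fun x : Fin n → ℂ => ψ (x, 0))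
      ((fderiv ℂ ψ 0).comp (ContinuousLinearMap.inl ℂ (Fin n → ℂ) ℂ)) 0 :=
    HasFDerivAt.comp (0 : Fin n → ℂ) (g := ψ) h1 (hasFDerivAt_prodMk_left _ _)
  have h3 : HasFDerivAt (fun t : ℂ => ψ (0, t))
      ((fderiv ℂ ψ 0).comp (ContinuousLinearMap.inr ℂ (Fin n → ℂ) ℂ)) 0 :=
    HasFDerivAt.comp (0 : ℂ) (g := ψ) h1 (hasFDerivAt_prodMk_right _ _)
  have h4 : HasFDerivAt (fun t : ℂ => ψ (0, t)) (0 : ℂ →L[ℂ] (Fin n → ℂ)) 0 :=
    (hasFDerivAt_const (0 : Fin n → ℂ) (0 : ℂ)).congr_of_eventuallyEq h0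
  have h5 := h3.unique h4
  have h6 := h2.fderiv.symm.trans hd
  refine ContinuousLinearMap.ext (fun v => ?_)
  obtain ⟨x, t⟩ := v
  have h7 : ((x, t) : (Fin n → ℂ) × ℂ) = (x, 0) + (0, t) := by simp
  rw [h7, map_add]
  have h8 : fderiv ℂ ψ 0 (x, 0) = x := by
    have := DFunLike.congr_fun h6 x
    simpa using this
  have h9 : fderiv ℂ ψ 0 (0, t) = 0 := by
    have := DFunLike.congr_fun h5 t
    simpa using this
  rw [h8, h9]
  simp

lemma strict_one (hψ : AnalyticAt ℂ ψ 0) (h0 : ∀ᶠ t in 𝓝 (0 : ℂ), ψ (0, t) = 0)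
    (hd : fderiv ℂ (fun x => ψ (x, 0)) 0 = ContinuousLinearMap.id ℂ _) :
    HasStrictFDerivAt (fun p : (Fin n → ℂ) × ℂ => (ψ p, p.2))
      ((ContinuousLinearEquiv.refl ℂ ((Fin n → ℂ) × ℂ) :
        ((Fin n → ℂ) × ℂ) ≃L[ℂ] ((Fin n → ℂ) × ℂ)) : ((Fin n → ℂ) × ℂ) →L[ℂ] ((Fin n → ℂ) × ℂ))
      0 := by
  have h1 : HasStrictFDerivAt ψ (ContinuousLinearMap.fst ℂ (Fin n → ℂ) ℂ) 0 := by
    rw [← fderiv_psi hψ h0 hd]
    exact hψ.hasStrictFDerivAt
  refine (h1.prodMk hasStrictFDerivAt_snd).congr_fderiv ?_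
  exact ContinuousLinearMap.ext (fun v => rfl)

lemma strict_zero (hψ : AnalyticAt ℂ ψ 0) (h0 : ∀ᶠ t in 𝓝 (0 : ℂ), ψ (0, t) = 0)
    (hd : fderiv ℂ (fun x => ψ (x, 0)) 0 = ContinuousLinearMap.id ℂ _) :
    HasStrictFDerivAt (fun p : (Fin n → ℂ) × ℂ => (ψ (p.1, 0), p.2))
      ((ContinuousLinearEquiv.refl ℂ ((Fin n → ℂ) × ℂ) :
        ((Fin n → ℂ) × ℂ) ≃L[ℂ] ((Fin n → ℂ) × ℂ)) : ((Fin n → ℂ) × ℂ) →L[ℂ] ((Fin n → ℂ) × ℂ))
      0 := by
  have h1 : HasStrictFDerivAt ψ (ContinuousLinearMap.fst ℂ (Fin n → ℂ) ℂ)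
      ((((0 : (Fin n → ℂ) × ℂ)).1, (0 : ℂ)) : (Fin n → ℂ) × ℂ) := by
    rw [← fderiv_psi hψ h0 hd]
    exact hψ.hasStrictFDerivAt
  have h2 : HasStrictFDerivAt (fun p : (Fin n → ℂ) × ℂ => ((p.1, (0 : ℂ)) : (Fin n → ℂ) × ℂ))
      ((ContinuousLinearMap.fst ℂ (Fin n → ℂ) ℂ).prod 0) 0 :=
    hasStrictFDerivAt_fst.prodMk (hasStrictFDerivAt_const _ _)
  have h3 : HasStrictFDerivAt (fun p : (Fin n → ℂ) × ℂ => ψ (p.1, 0))
      ((ContinuousLinearMap.fst ℂ (Fin n → ℂ) ℂ).comp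
        ((ContinuousLinearMap.fst ℂ (Fin n → ℂ) ℂ).prod 0)) 0 :=
    HasStrictFDerivAt.comp (0 : (Fin n → ℂ) × ℂ) (g := ψ) h1 h2
  refine (h3.prodMk hasStrictFDerivAt_snd).congr_fderiv ?_
  exact ContinuousLinearMap.ext (fun v => rfl)

/-- **transport of the conclusion of S0395** -/
theorem concl_transport {F G : E3 × ℂ → ℂ} {ψ : E3 × ℂ → E3} (hψ : AnalyticAt ℂ ψ 0)
    (h0 : ∀ᶠ t in 𝓝 (0 : ℂ), ψ (0, t) = 0)
    (hd : fderiv ℂ (fun x => ψ (x, 0)) 0 = ContinuousLinearMap.id ℂ _)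
    (hFG : ∀ᶠ p in 𝓝 (0 : E3 × ℂ), F (ψ p, p.2) = G p) (hG : Concl G) : Concl F := by
  obtain ⟨δ, hδ, Φ, hΦ0, hΦ1, hΦ2⟩ := hG
  obtain ⟨U, hUF, hUo, hU0⟩ := eventually_nhds_iff.1 hFG
  have hs1 := strict_one hψ h0 hd
  have hs0 := strict_zero hψ h0 hd
  set e := hs1.toOpenPartialHomeomorph with he
  set e0 := hs0.toOpenPartialHomeomorph with he0
  have hV : IsOpen {p : E3 × ℂ | ((p.1, (0 : ℂ)) : E3 × ℂ) ∈ U} :=
    hUo.preimage (continuous_fst.prodMk continuous_const)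
  set e1 := e.restrOpen U hUo with he1
  set e2 := e0.restrOpen {p : E3 × ℂ | ((p.1, (0 : ℂ)) : E3 × ℂ) ∈ U} hV with he2
  have he1c : ∀ p, e1 p = (ψ p, p.2) := fun p => rfl
  have he2c : ∀ p, e2 p = (ψ (p.1, 0), p.2) := fun p => rfl
  have h1s : e1.source ∈ 𝓝 (0 : E3 × ℂ) := by
    refine e1.open_source.mem_nhds ?_
    rw [he1, OpenPartialHomeomorph.restrOpen_source]
    exact ⟨hs1.mem_toOpenPartialHomeomorph_source, hU0⟩
  have h2s : e2.source ∈ 𝓝 (0 : E3 × ℂ) := by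
    refine e2.open_source.mem_nhds ?_
    rw [he2, OpenPartialHomeomorph.restrOpen_source]
    exact ⟨hs0.mem_toOpenPartialHomeomorph_source, hU0⟩
  have hU1 : ∀ p ∈ e1.source, p ∈ U := by
    intro p hp
    rw [he1, OpenPartialHomeomorph.restrOpen_source] at hp
    exact hp.2
  have hU2 : ∀ p ∈ e2.source, ((p.1, (0 : ℂ)) : E3 × ℂ) ∈ U := by
    intro p hp
    rw [he2, OpenPartialHomeomorph.restrOpen_source] at hp
    exact hp.2
  have htend : Tendsto (fun t : ℂ => ((0 : E3), t)) (𝓝 0) (𝓝 (0 : E3 × ℂ)) :=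
    (Continuous.prodMk_right (0 : E3)).tendsto 0
  have hψ0 : ψ (0, 0) = 0 := h0.self_of_nhds
  have hev : ∀ᶠ t in 𝓝 (0 : ℂ), ((0 : E3), t) ∈ e1.source ∧ ((0 : E3), t) ∈ e2.source ∧
      ψ (0, t) = 0 :=
    (htend.eventually (Filter.eventually_mem_set.2 h1s)).and
      ((htend.eventually (Filter.eventually_mem_set.2 h2s)).and h0)
  obtain ⟨ε, hε, hball⟩ := Metric.eventually_nhds_iff.1 hev
  refine ⟨min δ ε, lt_min hδ hε, e2.symm.trans (Φ.trans e1), ?_, ?_, ?_⟩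
  · intro t ht
    obtain ⟨a1, a2, a3⟩ := hball (y := t) (by
      rw [dist_zero_right]; exact ht.trans_le (min_le_right _ _))
    obtain ⟨b1, b2⟩ := hΦ0 t (ht.trans_le (min_le_left _ _))
    have c1 : e2 ((0 : E3), t) = (0, t) := by
      rw [he2c]
      simp [hψ0]
    have c2 : ((0 : E3), t) ∈ e2.target := by
      rw [← c1]; exact e2.map_source a2
    have c3 : e2.symm ((0 : E3), t) = (0, t) := by
      conv_lhs => rw [← c1]
      exact e2.left_inv a2
    constructor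
    · rw [OpenPartialHomeomorph.trans_source, OpenPartialHomeomorph.trans_source]
      refine ⟨c2, ?_⟩
      rw [mem_preimage, c3]
      refine ⟨b1, ?_⟩
      rw [mem_preimage, b2]
      exact a1
    · rw [OpenPartialHomeomorph.coe_trans, Function.comp_apply, c3,
        OpenPartialHomeomorph.coe_trans, Function.comp_apply, b2, he1c, a3]
  · intro p hp
    rw [OpenPartialHomeomorph.trans_source, OpenPartialHomeomorph.trans_source] at hp
    obtain ⟨hp1, hp2, hp3⟩ := hp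
    rw [OpenPartialHomeomorph.coe_trans, Function.comp_apply,
        OpenPartialHomeomorph.coe_trans, Function.comp_apply, he1c]
    set q := e2.symm p with hq
    have hqs : q ∈ e2.source := e2.map_target hp1
    have hqp : e2 q = p := e2.right_inv hp1
    rw [he2c] at hqp
    obtain ⟨d1, d2⟩ := hΦ1 q hp2
    constructor
    · rw [← hqp]; exact d1
    · have e3 : F (ψ (Φ q), (Φ q).2) = G (Φ q) := hUF _ (hU1 _ hp3)
      have e4 : F (ψ (q.1, 0), 0) = G (q.1, 0) := hUF _ (hU2 _ hqs)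
      rw [e3, d2, ← e4, ← hqp]
  · intro x hx
    rw [OpenPartialHomeomorph.trans_source, OpenPartialHomeomorph.trans_source] at hx
    obtain ⟨hp1, hp2, hp3⟩ := hx
    rw [OpenPartialHomeomorph.coe_trans, Function.comp_apply,
        OpenPartialHomeomorph.coe_trans, Function.comp_apply, he1c]
    have hqp : e2 (e2.symm (x, 0)) = (x, 0) := e2.right_inv hp1
    obtain ⟨⟨y, s⟩, h⟩ : ∃ q, e2.symm (x, 0) = q := ⟨_, rfl⟩
    rw [h, he2c, Prod.mk.injEq] at hqp
    obtain ⟨f1, f2⟩ := hqp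
    simp only at f1 f2
    subst f2
    have hp2' : ((y, (0 : ℂ)) : E3 × ℂ) ∈ Φ.source := by
      rw [← h]; exact hp2
    rw [h, hΦ2 y hp2']
    simp only [f1]

end transport

end Crest.Agent.R257.Glob554
end
end

-- ▼ part R257/GE_554
section

/-!
Row 257 (S0395), leaf E-GLOB, part 3e (helper554): assembly of `GlobStmt` from Tougeron's theorem
in families (TOU) and the invariance of the Milnor number (INV).
-/

set_option autoImplicit false

open Set Filter Topology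
open Crest.AlgGeometry.Germ

noncomputable section

namespace Crest.Agent.R257.Glob554

open Crest.Agent.R257.Defs_219 Crest.Agent.R257.Jac554 Crest.Agent.R257.Uni554
open MvPolynomial

/-- Tougeron in families, for `n = 3` -/
def TouStmt : Prop := ∀ (μ : ℕ) (F G : E3 × ℂ → ℂ), AnalyticAt ℂ F 0 → AnalyticAt ℂ G 0 →
  (∀ᶠ t in 𝓝 (0 : ℂ), Module.Finite ℂ (JacobianQuotient 3 (fun x => F (x, t))) ∧
    milnorNumber 3 (fun x => F (x, t)) = μ) →
  (∀ᶠ t in 𝓝 (0 : ℂ), fderiv ℂ (fun x => F (x, t)) 0 = 0) →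
  ∀ (q : (Fin (2 * μ + 1) → Fin 3) → E3 × ℂ → ℂ), (∀ w, AnalyticAt ℂ (q w) 0) →
  (∀ᶠ p in 𝓝 (0 : E3 × ℂ), G p - F p = ∑ w, (∏ j, p.1 (w j)) * q w p) →
  ∃ ψ : E3 × ℂ → E3, AnalyticAt ℂ ψ 0 ∧ (∀ᶠ t in 𝓝 (0 : ℂ), ψ (0, t) = 0) ∧
    (∀ᶠ t in 𝓝 (0 : ℂ), fderiv ℂ (fun x => ψ (x, t)) 0 = ContinuousLinearMap.id ℂ _) ∧
    ∀ᶠ p in 𝓝 (0 : E3 × ℂ), F (ψ p, p.2) = G p

/-- invariance of the Milnor number, for `n = 3` -/
def InvStmt : Prop := ∀ (f g : E3 → ℂ) (Φ : E3 → E3), AnalyticAt ℂ f 0 → AnalyticAt ℂ Φ 0 →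
  Φ 0 = 0 → fderiv ℂ Φ 0 = ContinuousLinearMap.id ℂ _ → g =ᶠ[𝓝 0] f ∘ Φ →
  (Module.Finite ℂ (JacobianQuotient 3 f) → Module.Finite ℂ (JacobianQuotient 3 g)) ∧
    milnorNumber 3 g = milnorNumber 3 f

lemma eventually_slices {p : (E3 × ℂ) → Prop} (h : ∀ᶠ q in 𝓝 (0 : E3 × ℂ), p q) :
    ∀ᶠ t in 𝓝 (0 : ℂ), ∀ᶠ x in 𝓝 (0 : E3), p (x, t) := by
  obtain ⟨U, hU, hUo, hU0⟩ := eventually_nhds_iff.1 h
  have h3 : Tendsto (fun t : ℂ => ((0 : E3), t)) (𝓝 0) (𝓝 (0 : E3 × ℂ)) :=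
    (Continuous.prodMk_right (0 : E3)).tendsto 0
  filter_upwards [h3.eventually (hUo.mem_nhds hU0)] with t ht
  have h4 : Tendsto (fun x : E3 => (x, t)) (𝓝 0) (𝓝 ((0 : E3), t)) :=
    (Continuous.prodMk_left t).tendsto 0
  filter_upwards [h4.eventually (hUo.mem_nhds ht)] with x hx
  exact hU _ hx

theorem glob_of (tou : TouStmt) (inv : InvStmt) : GlobStmt := by
  intro R F hR hyp
  obtain ⟨hF, hcrit, hμ⟩ := hyp
  set μ := milnorNumber 3 (fun x => F (x, 0)) with hμdef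
  have hball : ∀ᶠ t in 𝓝 (0 : ℂ), ‖t‖ < R := by
    have := Metric.ball_mem_nhds (0 : ℂ) hR
    filter_upwards [this] with t ht
    rwa [mem_ball_zero_iff] at ht
  have hFa : AnalyticAt ℂ F (0, 0) := (hF 0 (by simpa using hR)).1
  have hF0 : ∀ᶠ t in 𝓝 (0 : ℂ), F (0, t) = 0 := hball.mono (fun t ht => (hF t ht).2)
  have hFc : ∀ᶠ t in 𝓝 (0 : ℂ), fderiv ℂ (fun x => F (x, t)) 0 = 0 :=
    hball.mono (fun t ht => (hcrit t ht).1)
  have hFμ : ∀ᶠ t in 𝓝 (0 : ℂ), Module.Finite ℂ (JacobianQuotient 3 (fun x => F (x, t))) ∧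
      milnorNumber 3 (fun x => F (x, t)) = μ := hball.mono (fun t ht => hμ t ht)
  set d : ℕ := 4 * μ + 21 with hd
  -- Taylor
  obtain ⟨P, q, hPdeg, hPa, hq, hPF⟩ := taylor_family F hFa d
  have hPdeg' : ∀ t, (P t).totalDegree < d := fun t => by have := hPdeg t; omega
  -- Bertini
  obtain ⟨c, hc, hbert⟩ := Bert554.bertini (hPdeg' 0)
  set G : E3 × ℂ → ℂ := Gf P c d with hG
  have hGa : AnalyticAt ℂ G (0, 0) := analyticAt_Gf hPdeg' hPa.self_of_nhds 0
  -- order of G - F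
  have hGF : InM (2 * μ + 1) (fun p => G p - F p) := by
    refine InM.mono (l := d) (by omega) ?_
    have h1 : InM d (fun p => F p - eval p.1 (P p.2)) := by
      refine ⟨q, hq, ?_⟩
      filter_upwards [hPF] with p hp
      rw [hp]; ring
    obtain ⟨q', hq', h'⟩ := (inM_pure c d).sub h1
    refine ⟨q', hq', ?_⟩
    filter_upwards [h'] with p hp
    rw [← hp, hG, Gf]
    ring
  obtain ⟨q', hq', hGF'⟩ := hGF
  obtain ⟨ψ, hψ, hψ0, hψd, hFG⟩ := tou μ F G hFa hGa hFμ hFc q' hq' hGF'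
  -- zero
  have hG0 : ∀ᶠ t in 𝓝 (0 : ℂ), G (0, t) = 0 := by
    have h3 : Tendsto (fun t : ℂ => ((0 : E3), t)) (𝓝 0) (𝓝 (0 : E3 × ℂ)) :=
      (Continuous.prodMk_right (0 : E3)).tendsto 0
    filter_upwards [h3.eventually hFG, hψ0, hF0] with t h1 h2 h4
    rw [← h1]
    simp only [h2, h4]
  -- slices
  have hFs : ∀ᶠ t in 𝓝 (0 : ℂ), AnalyticAt ℂ (fun x => F (x, t)) 0 := eventually_slice hFa
  have hGs : ∀ᶠ t in 𝓝 (0 : ℂ), AnalyticAt ℂ (fun x => G (x, t)) 0 := eventually_slice hGa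
  have hψs : ∀ᶠ t in 𝓝 (0 : ℂ), AnalyticAt ℂ (fun x => ψ (x, t)) 0 := by
    have h1 := hψ.eventually_analyticAt
    have h3 : Tendsto (fun t : ℂ => ((0 : E3), t)) (𝓝 0) (𝓝 (0 : E3 × ℂ)) :=
      (Continuous.prodMk_right (0 : E3)).tendsto 0
    filter_upwards [h3.eventually h1] with t ht
    exact AnalyticAt.comp (g := ψ) (f := fun x : E3 => (x, t)) ht
      (analyticAt_id.prod analyticAt_const)
  have hFGs := eventually_slices hFG
  -- critical point
  have hGc : ∀ᶠ t in 𝓝 (0 : ℂ), fderiv ℂ (fun x => G (x, t)) 0 = 0 := by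
    filter_upwards [hFs, hψs, hFGs, hFc, hψ0] with t h1 h2 h3 h4 h5
    have h6 : HasFDerivAt (fun x => F (x, t)) (0 : E3 →L[ℂ] ℂ) (ψ (0, t)) := by
      rw [h5, ← h4]
      exact h1.differentiableAt.hasFDerivAt
    have h7 : HasFDerivAt (fun x => F (ψ (x, t), t))
        ((0 : E3 →L[ℂ] ℂ).comp (fderiv ℂ (fun x => ψ (x, t)) 0)) 0 :=
      HasFDerivAt.comp (0 : E3) (g := fun x => F (x, t)) h6 h2.differentiableAt.hasFDerivAt
    have h8 : HasFDerivAt (fun x => G (x, t))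
        ((0 : E3 →L[ℂ] ℂ).comp (fderiv ℂ (fun x => ψ (x, t)) 0)) 0 :=
      h7.congr_of_eventuallyEq (h3.mono (fun x hx => hx.symm))
    rw [h8.fderiv, ContinuousLinearMap.zero_comp]
  -- Milnor number
  have hGμ : ∀ᶠ t in 𝓝 (0 : ℂ), Module.Finite ℂ (JacobianQuotient 3 (fun x => G (x, t))) ∧
      milnorNumber 3 (fun x => G (x, t)) = μ := by
    filter_upwards [hFs, hψs, hFGs, hFμ, hψ0, hψd] with t h1 h2 h3 h4 h5 h6
    obtain ⟨a, b⟩ := inv (fun x => F (x, t)) (fun x => G (x, t)) (fun x => ψ (x, t)) h1 h2 h5 h6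
      (h3.mono (fun x hx => hx.symm))
    exact ⟨a h4.1, b.trans h4.2⟩
  -- lower bound
  obtain ⟨c₀, hc₀, hlow⟩ := lower_bound hGa (by norm_num) hGμ
  -- (G4)
  have hG4 : ∀ x : E3, x ≠ 0 → G (x, 0) = 0 → ∃ i, coordDeriv (sl G 0) i x ≠ 0 := by
    intro x hx h0
    obtain ⟨i, hi⟩ := hbert x hx h0
    refine ⟨i, ?_⟩
    rw [hG, gr_Gf]
    exact hi
  -- (G5)
  obtain ⟨e, he, hG5⟩ := g5 (c := c) hPdeg' (by omega) hPa hc hG0 (by
    filter_upwards [hlow] with p hp hcr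
    by_contra hne
    have h1 : gr (sl (Gf P c d) p.2) p.1 = 0 := funext hcr
    have h2 : c₀ * ‖p.1‖ ^ μ ≤ 0 := by
      rw [← norm_zero (E := E3), ← h1]
      exact hp
    have h3 : 0 < c₀ * ‖p.1‖ ^ μ := mul_pos hc₀ (pow_pos (norm_pos_iff.2 hne) _)
    linarith) hG4
  -- radii
  obtain ⟨r₁, hr₁, hlow'⟩ := Metric.eventually_nhds_iff.1 hlow
  obtain ⟨r₂, hr₂, hall⟩ := Metric.eventually_nhds_iff.1 (hG0.and (hGc.and (hGμ.and (hGs.and hPa))))
  have hall' : ∀ t : ℂ, ‖t‖ < min r₁ r₂ → _ := fun t ht =>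
    hall (y := t) (by rw [dist_zero_right]; exact ht.trans_le (min_le_right _ _))
  refine ⟨G, μ, d, min r₁ r₂, r₁, c₀, e, P, c, ⟨lt_min hr₁ hr₂, by omega, fun x t => rfl, hPdeg',
    ?_, hc, fun t ht => (hall' t ht).1, ?_, ?_, ?_, hr₁, hc₀, ?_, ?_, he, ?_⟩, ?_⟩
  · intro m t ht
    rw [mem_ball_zero_iff] at ht
    exact (hall' t ht).2.2.2.2 m
  · intro t ht i
    have h1 := (hall' t ht).2.1
    change fderiv ℂ (fun x => G (x, t)) 0 (Pi.single i 1) = 0
    rw [h1]; rfl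
  · intro t ht
    exact (hall' t ht).2.2.1.1
  · intro t ht
    exact (hall' t ht).2.2.1.2
  · intro x t hx ht
    refine hlow' (y := (x, t)) ?_
    rw [Prod.dist_eq, max_lt_iff]
    simp only [dist_zero_right]
    exact ⟨hx, ht.trans_le (min_le_left _ _)⟩
  · intro x hx h0 hgr
    obtain ⟨i, hi⟩ := hG4 x hx h0
    exact hi (congrFun hgr i)
  · intro x t ht hne hlt hgr
    obtain ⟨i, hi⟩ := hG5 x t ht hne hlt
    exact hi (congrFun hgr i)
  · exact concl_transport hψ hψ0 hψd.self_of_nhds hFG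

end Crest.Agent.R257.Glob554
end
end

-- ▼ part R257/Inv_554
section

/-!
Row 257 (S0395), leaf E-GLOB, INV (helper554): the Jacobian quotient is invariant under local
biholomorphisms.
-/

set_option autoImplicit false

open Set Filter Topology
open Crest.Agent.R275.Loc2879
open Crest.AlgGeometry.Germ

noncomputable section

namespace Crest.Agent.R257.Inv554

open Crest.Agent.R257.Jac554 Crest.Agent.R257.Uni554

variable {n : ℕ}

lemma sum_coordDeriv {f : (Fin n → ℂ) → ℂ} {x : Fin n → ℂ} (v : Fin n → ℂ) :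
    fderiv ℂ f x v = ∑ i, coordDeriv f i x * v i := by
  conv_lhs => rw [← Finset.univ_sum_single v, map_sum]
  refine Finset.sum_congr rfl (fun i _ => ?_)
  have : Pi.single i (v i) = v i • (Pi.single i 1 : Fin n → ℂ) := by
    rw [← Pi.single_smul, smul_eq_mul, mul_one]
  rw [this, map_smul, smul_eq_mul, coordDeriv, mul_comm]

/-- chain rule: the partials of `f ∘ Φ` lie in the pulled back ideal -/
lemma JF_le {f g : (Fin n → ℂ) → ℂ} {Φ : (Fin n → ℂ) → (Fin n → ℂ)} (hf : AnalyticAt ℂ f 0)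
    (hΦ : AnalyticAt ℂ Φ 0) (h0 : Φ 0 = 0) (hg : g =ᶠ[𝓝 0] f ∘ Φ) :
    JF g ≤ (JF f).map (pull Φ hΦ h0) := by
  have hga : AnalyticAt ℂ g 0 :=
    (AnalyticAt.comp (g := f) (f := Φ) (by rw [h0]; exact hf) hΦ).congr hg.symm
  rw [JF, JI_eq_span (fun i => analyticAt_coordDeriv hga i), Ideal.span_le]
  rintro _ ⟨j, rfl⟩
  have hΦj : ∀ i, AnalyticAt ℂ (fun x => fderiv ℂ Φ x (Pi.single j 1) i) 0 := by
    intro i
    have h1 : AnalyticAt ℂ (fderiv ℂ Φ) 0 := hΦ.fderiv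
    have h2 : AnalyticAt ℂ (fun x => fderiv ℂ Φ x (Pi.single j 1)) 0 :=
      ((ContinuousLinearMap.apply ℂ (Fin n → ℂ) (Pi.single j 1 : Fin n → ℂ)).analyticAt _).comp h1
    exact ((ContinuousLinearMap.proj (R := ℂ) (φ := fun _ : Fin n => ℂ) i).analyticAt _).comp h2
  have hfi : ∀ i, AnalyticAt ℂ (coordDeriv f i) 0 := analyticAt_coordDeriv hf
  have hfi' : ∀ i, AnalyticAt ℂ (coordDeriv f i ∘ Φ) 0 := fun i =>
    AnalyticAt.comp (by rw [h0]; exact hfi i) hΦ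
  have key : gm (coordDeriv g j) (analyticAt_coordDeriv hga j) =
      ∑ i, gm (coordDeriv f i ∘ Φ) (hfi' i) * gm _ (hΦj i) := by
    simp only [gm_mul]
    obtain ⟨h2, e2⟩ := gm_sum Finset.univ
      (fun i => (coordDeriv f i ∘ Φ) * fun x => fderiv ℂ Φ x (Pi.single j 1) i)
      (fun i => (hfi' i).mul (hΦj i))
    rw [e2, gm_eq_gm]
    have e3 : ∀ᶠ x in 𝓝 (0 : Fin n → ℂ), g =ᶠ[𝓝 x] f ∘ Φ := hg.eventually_nhds
    have e4 : ∀ᶠ x in 𝓝 (0 : Fin n → ℂ), AnalyticAt ℂ Φ x := hΦ.eventually_analyticAt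
    have e5 : ∀ᶠ x in 𝓝 (0 : Fin n → ℂ), AnalyticAt ℂ f (Φ x) := by
      have := hΦ.continuousAt
      rw [ContinuousAt, h0] at this
      exact this.eventually hf.eventually_analyticAt
    filter_upwards [e3, e4, e5] with x h3 h4 h5
    rw [coordDeriv, h3.fderiv_eq, fderiv_comp x h5.differentiableAt h4.differentiableAt,
      ContinuousLinearMap.comp_apply, sum_coordDeriv]
    rfl
  change gm (coordDeriv g j) (analyticAt_coordDeriv hga j) ∈ (JF f).map (pull Φ hΦ h0)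
  rw [key]
  refine Ideal.sum_mem _ (fun i _ => Ideal.mul_mem_right _ _ ?_)
  have : gm (coordDeriv f i ∘ Φ) (hfi' i) = pull Φ hΦ h0 (gm (coordDeriv f i) (hfi i)) := rfl
  rw [this]
  exact Ideal.mem_map_of_mem _ (Ideal.subset_span ⟨i, hfi i, rfl⟩)

/-- **invariance of the Jacobian quotient** -/
theorem inv {f g : (Fin n → ℂ) → ℂ} {Φ : (Fin n → ℂ) → (Fin n → ℂ)} (hf : AnalyticAt ℂ f 0)
    (hΦ : AnalyticAt ℂ Φ 0) (h0 : Φ 0 = 0) (hinj : ∀ v, fderiv ℂ Φ 0 v = 0 → v = 0)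
    (hg : g =ᶠ[𝓝 0] f ∘ Φ) :
    Nonempty (JacobianQuotient n f ≃ₗ[ℂ] JacobianQuotient n g) := by
  have hga : AnalyticAt ℂ g 0 :=
    (AnalyticAt.comp (g := f) (f := Φ) (by rw [h0]; exact hf) hΦ).congr hg.symm
  obtain ⟨R, hR, haR, -, hRa, hRs⟩ := exists_bihol rfl hΦ hinj univ_mem
  have hR0 : R 0 = 0 := by rw [hR, h0]
  have hmem : (0 : Fin n → ℂ) ∈ R.target := by rw [← hR0]; exact R.map_source haR
  have hs0 : R.symm 0 = 0 := by
    conv_lhs => rw [← hR0]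
    exact R.left_inv haR
  have hsa : AnalyticAt ℂ R.symm 0 := hRs _ hmem
  have h1 : ∀ᶠ x in 𝓝 (0 : Fin n → ℂ), R.symm (Φ x) = x := by
    filter_upwards [R.open_source.mem_nhds haR] with x hx
    rw [← hR]; exact R.left_inv hx
  have h2 : ∀ᶠ y in 𝓝 (0 : Fin n → ℂ), Φ (R.symm y) = y := by
    filter_upwards [R.open_target.mem_nhds hmem] with y hy
    rw [← hR]; exact R.right_inv hy
  have hf' : f =ᶠ[𝓝 0] g ∘ R.symm := by
    have h3 : Tendsto R.symm (𝓝 0) (𝓝 0) := by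
      have := hsa.continuousAt
      rwa [ContinuousAt, hs0] at this
    filter_upwards [h3.eventually hg, h2] with y hy hy2
    rw [Function.comp_apply, hy, Function.comp_apply, hy2]
  have le1 := JF_le hf hΦ h0 hg
  have le2 := JF_le hga hsa hs0 hf'
  set e := pullEquiv Φ hΦ h0 R.symm hsa hs0 h1 h2 with he
  have hmap : JF g = (JF f).map (e : On n →+* On n) := by
    refine le_antisymm le1 ?_
    have h5 : (JF f).map (pull Φ hΦ h0) ≤ ((JF g).map (pull R.symm hsa hs0)).map (pull Φ hΦ h0) :=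
      Ideal.map_mono le2
    refine h5.trans ?_
    rw [Ideal.map_map]
    have h6 : (pull Φ hΦ h0).comp (pull R.symm hsa hs0) = RingHom.id (On n) := by
      ext x
      exact congrArg Subtype.val (e.apply_symm_apply x)
    rw [h6, Ideal.map_id]
  let θ : On n ≃ₐ[ℂ] On n := AlgEquiv.ofRingEquiv (f := e) (fun _ => rfl)
  have e2 := (Ideal.quotientEquivAlg (JF f) (JF g) θ hmap).toLinearEquiv
  exact ⟨(jacEquiv hf).trans (e2.trans (jacEquiv hga).symm)⟩

theorem invStmt : Crest.Agent.R257.Glob554.InvStmt := by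
  intro f g Φ hf hΦ h0 hd hg
  obtain ⟨e⟩ := inv hf hΦ h0 (fun v hv => by rw [hd] at hv; exact hv) hg
  refine ⟨fun h => ?_, ?_⟩
  · exact (Module.Finite.equiv_iff e).1 h
  · exact e.symm.finrank_eq

end Crest.Agent.R257.Inv554
end
end

-- ▼ part R257/Glob_939
section

/-!
Row 257 (S0395): `GlobStmt` of `Defs_219` (assembly of GE_554, Tou2_939, Inv_554).
-/

set_option autoImplicit false

open Crest.Agent.R257.Defs_219

namespace Crest.Agent.R257.UI939

theorem touStmt : Crest.Agent.R257.Glob554.TouStmt :=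
  fun _ F G hF hG hmu hcrit q hq hGF => tou F G hF hG hmu hcrit q hq hGF

theorem globStmt : GlobStmt :=
  Crest.Agent.R257.Glob554.glob_of touStmt Crest.Agent.R257.Inv554.invStmt

end Crest.Agent.R257.UI939
end

-- ▼ part R257/Top2_219

/-!
R257 / Top2_219: `S0395` from the Props that are still open (kept in sync with the landings).
-/

set_option autoImplicit false

open Topology Filter MeasureTheory Set
open scoped ENNReal
open Crest.AlgGeometry.Germ

noncomputable section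

namespace Crest.Agent.R257.Top2_219

open Crest.Agent.R257.Defs_219 Crest.Agent.R257.Skel_219 Crest.Agent.R257.LCDefs_472
open Crest.Agent.R257.LCTop_472 Crest.Agent.R257.Skel2_219
open Crest.Agent.R257.KED_952 Crest.Agent.R257.KEG_952

/-- S0395 from the remaining Props, first level -/
theorem top2 (lg : LGStmt) (ep : XF_157.EPStmt) (cne : XF_157.CNEStmt) (vs : VStmt3)
    (p8 : P8Stmt)
    (R : ℝ) (hR : 0 < R) (F : (Fin 3 → ℂ) × ℂ → ℂ)
    (hF : ∀ t : ℂ, ‖t‖ < R → AnalyticAt ℂ F (0, t) ∧ F (0, t) = 0)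
    (hcrit : ∀ t : ℂ, ‖t‖ < R → fderiv ℂ (fun x => F (x, t)) 0 = 0 ∧
      ∀ᶠ x in 𝓝[≠] (0 : Fin 3 → ℂ), fderiv ℂ (fun x => F (x, t)) x ≠ 0)
    (hμ : ∀ t : ℂ, ‖t‖ < R →
      Module.Finite ℂ (Crest.AlgGeometry.Germ.JacobianQuotient 3 (fun x => F (x, t))) ∧
      Crest.AlgGeometry.Germ.milnorNumber 3 (fun x => F (x, t)) =
        Crest.AlgGeometry.Germ.milnorNumber 3 (fun x => F (x, 0))) :
    ∃ δ : ℝ, 0 < δ ∧ ∃ Φ : OpenPartialHomeomorph ((Fin 3 → ℂ) × ℂ) ((Fin 3 → ℂ) × ℂ),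
      (∀ t : ℂ, ‖t‖ < δ → ((0 : Fin 3 → ℂ), t) ∈ Φ.source ∧ Φ (0, t) = (0, t)) ∧
      (∀ p ∈ Φ.source, (Φ p).2 = p.2 ∧ F (Φ p) = F (p.1, 0)) ∧
      (∀ x : Fin 3 → ℂ, (x, (0 : ℂ)) ∈ Φ.source → Φ (x, 0) = (x, 0)) :=
  S0395_of2 UI939.uscStmt UI939.cnStmt lg Fto_889.detStmt Sh_297.otStmt
    (Cmp_157.xStmt_of ep cne NS0554.isoFinStmt Fto_889.detStmt) vs LcTop_980.pos Rig20.ra_stmt
    (m3_of Node_547.node Line_648.lineStmt p8) Flag3_799.flag3Stmt N2_328.n2Stmt LCf_472.splitStmt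
    UI939.globStmt R hR F hF hcrit hμ




end Crest.Agent.R257.Top2_219
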