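import Mathlib
import Crest.Agent.R257.P8c_472
import Crest.Agent.R257.CNS_939
import Crest.Agent.R257.LCa_472

-- ▼ part R257/P8a_472
section

/-!
R257 / P8a_472: a local algebra with few generators: the Milnor algebra of `x²/2 + C`, `C` a smooth
cubic, has dimension at most `7`.
-/

set_option autoImplicit false
set_option linter.unusedVariables false
set_option linter.unusedSectionVars false

open IsLocalRing
open scoped Pointwise

noncomputable section

namespace Crest.Agent.R257.P8a_472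

variable {A : Type*} [CommRing A] [IsLocalRing A] [Algebra ℂ A]

local notation "M" => maximalIdeal A

/-- one layer -/
theorem layer (hres : ∀ a : A, ∃ c : ℂ, a - algebraMap ℂ A c ∈ M) (S : Set A) (W : Submodule ℂ A)
    (hS : ∀ s ∈ S, s ∈ W) (hM : ∀ a ∈ M * Ideal.span S, a ∈ W) :
    ∀ a ∈ Ideal.span S, a ∈ W := by
  intro a ha
  induction ha using Submodule.span_induction with
  | mem a ha => exact hS a ha
  | zero => exact W.zero_mem
  | add a b _ _ ha hb => exact W.add_mem ha hb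
  | smul r a ha' ha =>
    obtain ⟨c, hc⟩ := hres r
    have e : r • a = c • a + (r - algebraMap ℂ A c) * a := by
      rw [smul_eq_mul, Algebra.smul_def]
      ring
    rw [e]
    exact W.add_mem (W.smul_mem c ha) (hM _ (Ideal.mul_mem_mul hc ha'))

/-- **spanning**: two generators and one relation of order two -/
theorem span7 (hres : ∀ a : A, ∃ c : ℂ, a - algebraMap ℂ A c ∈ M) {y z : A}
    (hM : M = Ideal.span {y, z}) (l : ℂ) (hy : y * y - algebraMap ℂ A l * (y * z) ∈ M ^ 3)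
    (h4 : M ^ 4 = ⊥) : Module.Finite ℂ A ∧ Module.finrank ℂ A ≤ 7 := by
  classical
  have hyM : y ∈ M := by rw [hM]; exact Ideal.subset_span (by simp)
  have hzM : z ∈ M := by rw [hM]; exact Ideal.subset_span (by simp)
  let B : Fin 7 → A := ![1, y, z, y * z, z * z, y * (z * z), z * (z * z)]
  let W : Submodule ℂ A := Submodule.span ℂ (Set.range B)
  have hB : ∀ i, B i ∈ W := fun i => Submodule.subset_span ⟨i, rfl⟩
  have hM2 : M * M = Ideal.span {y * y, y * z, z * y, z * z} := by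
    conv_lhs => rw [hM]
    rw [Ideal.span_pair_mul_span_pair]
  have z4 : ∀ a ∈ M ^ 4, a = 0 := fun a ha => by rw [h4] at ha; exact ha
  have hpow3 : M ^ 3 = M * (M * M) := by rw [pow_succ, pow_two, mul_comm]
  have hpow4 : M ^ 4 = M * M ^ 3 := by rw [pow_succ, mul_comm]
  -- the relation in degree 3
  have r1 : y * (y * z) = algebraMap ℂ A l * (y * (z * z)) := by
    have : (y * y - algebraMap ℂ A l * (y * z)) * z ∈ M ^ 4 := by
      rw [hpow4, mul_comm M]
      exact Ideal.mul_mem_mul hy hzM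
    have := z4 _ this
    linear_combination this
  have r2 : y * (y * y) = algebraMap ℂ A l * (algebraMap ℂ A l * (y * (z * z))) := by
    have : (y * y - algebraMap ℂ A l * (y * z)) * y ∈ M ^ 4 := by
      rw [hpow4, mul_comm M]
      exact Ideal.mul_mem_mul hy hyM
    have := z4 _ this
    linear_combination this + algebraMap ℂ A l * r1
  have smulW : ∀ (c : ℂ) (a : A), a ∈ W → algebraMap ℂ A c * a ∈ W := fun c a ha => by
    rw [← Algebra.smul_def]
    exact W.smul_mem c ha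
  have w5 : y * (z * z) ∈ W := hB 5
  have w6 : z * (z * z) ∈ W := hB 6
  have w3 : y * z ∈ W := hB 3
  have w4 : z * z ∈ W := hB 4
  have w1 : y ∈ W := hB 1
  have w2 : z ∈ W := hB 2
  have w0 : (1 : A) ∈ W := hB 0
  have hM3 : M ^ 3 = Ideal.span (({y, z} : Set A) * ({y * y, y * z, z * y, z * z} : Set A)) := by
    rw [hpow3, hM2]
    conv_lhs => rw [hM]
    rw [Ideal.span_mul_span']
  have c3 : ∀ a ∈ M ^ 3, a ∈ W := by
    rw [hM3]
    refine layer hres _ W ?_ ?_
    · rintro s ⟨a, ha, b, hb, rfl⟩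
      simp only [Set.mem_insert_iff, Set.mem_singleton_iff] at ha hb
      rcases ha with rfl | rfl <;> rcases hb with rfl | rfl | rfl | rfl
      · change a * (a * a) ∈ W
        rw [r2]
        exact smulW _ _ (smulW _ _ w5)
      · change a * (a * z) ∈ W
        rw [r1]
        exact smulW _ _ w5
      · change a * (z * a) ∈ W
        rw [mul_comm z a, r1]
        exact smulW _ _ w5
      · exact w5
      · change a * (y * y) ∈ W
        rw [show a * (y * y) = y * (y * a) by ring, r1]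
        exact smulW _ _ w5
      · change a * (y * a) ∈ W
        rw [show a * (y * a) = y * (a * a) by ring]
        exact w5
      · change a * (a * y) ∈ W
        rw [show a * (a * y) = y * (a * a) by ring]
        exact w5
      · exact w6
    · intro a ha
      rw [← hM3, ← hpow4] at ha
      rw [z4 a ha]
      exact W.zero_mem
  have c2 : ∀ a ∈ M * M, a ∈ W := by
    rw [hM2]
    refine layer hres _ W ?_ ?_
    · intro s hs
      simp only [Set.mem_insert_iff, Set.mem_singleton_iff] at hs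
      rcases hs with rfl | rfl | rfl | rfl
      · have : y * y = (y * y - algebraMap ℂ A l * (y * z)) + algebraMap ℂ A l * (y * z) := by ring
        rw [this]
        exact W.add_mem (c3 _ hy) (smulW _ _ w3)
      · exact w3
      · rw [mul_comm]
        exact w3
      · exact w4
    · intro a ha
      rw [← hM2, ← hpow3] at ha
      exact c3 a ha
  have c1 : ∀ a ∈ M, a ∈ W := by
    intro a ha
    rw [hM] at ha
    refine layer hres _ W ?_ ?_ a ha
    · intro s hs
      simp only [Set.mem_insert_iff, Set.mem_singleton_iff] at hs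
      rcases hs with rfl | rfl
      · exact w1
      · exact w2
    · intro b hb
      rw [← hM] at hb
      exact c2 b hb
  have htop : W = ⊤ := by
    rw [eq_top_iff]
    rintro a -
    obtain ⟨c, hc⟩ := hres a
    have : a = algebraMap ℂ A c * 1 + (a - algebraMap ℂ A c) := by ring
    rw [this]
    exact W.add_mem (smulW _ _ w0) (c1 _ hc)
  refine ⟨⟨⟨Finset.univ.image B, by rw [Finset.coe_image, Finset.coe_univ, Set.image_univ]; exact htop⟩⟩, ?_⟩
  have h7 := finrank_range_le_card (R := ℂ) B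
  rw [show Set.finrank ℂ (Set.range B) = Module.finrank ℂ W from rfl, htop, finrank_top] at h7
  simpa using h7

end Crest.Agent.R257.P8a_472
end
end

-- ▼ part R257/P8b_472
section

/-!
R257 / P8b_472: the relations of the Milnor algebra of `x²/2 + C`.
-/

set_option autoImplicit false
set_option linter.unusedVariables false
set_option linter.unusedSectionVars false

open IsLocalRing
open scoped Pointwise

noncomputable section

namespace Crest.Agent.R257.P8b_472

open Crest.Agent.R257.P8a_472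

variable {A : Type*} [CommRing A] [IsLocalRing A] [Algebra ℂ A]

local notation "M" => maximalIdeal A

/-- scalars -/
local notation "κ" => algebraMap ℂ A

theorem pow_add' (i j : ℕ) : M ^ i * M ^ j = M ^ (i + j) := (pow_add _ _ _).symm

theorem mul_mem_pow {a b : A} {i j k : ℕ} (ha : a ∈ M ^ i) (hb : b ∈ M ^ j) (hk : i + j = k) :
    a * b ∈ M ^ k := by
  rw [← hk, ← pow_add']
  exact Ideal.mul_mem_mul ha hb

theorem unscale {c : ℂ} (hc : c ≠ 0) {a : A} {I : Ideal A} (h : κ c * a ∈ I) : a ∈ I := by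
  have : a = κ c⁻¹ * (κ c * a) := by
    rw [← mul_assoc, ← map_mul, inv_mul_cancel₀ hc, map_one, one_mul]
  rw [this]
  exact I.mul_mem_left _ h

theorem nak {I : Ideal A} (hfg : I.FG) (h : I ≤ M * I) : I = ⊥ := by
  refine Submodule.eq_bot_of_le_smul_of_le_jacobson_bot M I hfg h ?_
  rw [IsLocalRing.jacobson_eq_maximalIdeal ⊥ bot_ne_top]

/-- `M = (y,z)` as soon as `x ∈ M²` -/
theorem two_gens {x y z : A} (hM : M = Ideal.span {x, y, z}) (hx : x ∈ M ^ 2) :
    M = Ideal.span {y, z} := by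
  have hy : y ∈ M := by rw [hM]; exact Ideal.subset_span (by simp)
  have hz : z ∈ M := by rw [hM]; exact Ideal.subset_span (by simp)
  refine le_antisymm ?_ ?_
  · refine Submodule.le_of_le_smul_of_le_jacobson_bot (I := M) ?_ ?_ ?_
    · rw [hM]
      exact Submodule.fg_span (Set.toFinite _)
    · rw [IsLocalRing.jacobson_eq_maximalIdeal ⊥ bot_ne_top]
    · conv_lhs => rw [hM]
      refine Ideal.span_le.2 ?_
      rintro s hs
      simp only [Set.mem_insert_iff, Set.mem_singleton_iff] at hs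
      rcases hs with rfl | rfl | rfl
      · refine Submodule.mem_sup_right ?_
        rw [pow_two] at hx
        exact hx
      · exact Submodule.mem_sup_left (Ideal.subset_span (by simp))
      · exact Submodule.mem_sup_left (Ideal.subset_span (by simp))
  · refine Ideal.span_le.2 ?_
    rintro s hs
    simp only [Set.mem_insert_iff, Set.mem_singleton_iff] at hs
    rcases hs with rfl | rfl
    · exact hy
    · exact hz

/-- criterion for `M⁴ = 0` -/
theorem pow4 {y z : A} (hM : M = Ideal.span {y, z}) (h1 : y * y * (y * y) ∈ M ^ 5)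
    (h2 : y * y * (y * z) ∈ M ^ 5) (h3 : y * y * (z * z) ∈ M ^ 5) (h4 : y * z * (z * z) ∈ M ^ 5)
    (h5 : z * z * (z * z) ∈ M ^ 5) : M ^ 4 = ⊥ := by
  have hM2 : M ^ 2 = Ideal.span {y * y, y * z, z * y, z * z} := by
    rw [pow_two]
    conv_lhs => rw [hM]
    rw [Ideal.span_pair_mul_span_pair]
  have hM4 : M ^ 4 = Ideal.span ((({y * y, y * z, z * y, z * z} : Set A)) *
      (({y * y, y * z, z * y, z * z} : Set A))) := by
    rw [show (4 : ℕ) = 2 + 2 from rfl, pow_add]
    conv_lhs => rw [hM2]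
    rw [Ideal.span_mul_span']
  refine nak ?_ ?_
  · have : (M).FG := by
      rw [hM]
      exact Submodule.fg_span (Set.toFinite _)
    exact this.pow
  · have h6 : M * M ^ 4 = M ^ 5 := by rw [pow_succ (M) 4, mul_comm]
    rw [h6]
    conv_lhs => rw [hM4]
    refine Ideal.span_le.2 ?_
    rintro s ⟨a, ha, b, hb, rfl⟩
    simp only [Set.mem_insert_iff, Set.mem_singleton_iff] at ha hb
    rcases ha with rfl | rfl | rfl | rfl <;> rcases hb with rfl | rfl | rfl | rfl <;>
      (simp only [SetLike.mem_coe]) <;>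
      first
        | exact h1
        | exact h2
        | exact h3
        | exact h4
        | exact h5
        | (convert h1 using 1; ring1)
        | (convert h2 using 1; ring1)
        | (convert h3 using 1; ring1)
        | (convert h4 using 1; ring1)
        | (convert h5 using 1; ring1)

section Rel

theorem x_mem {x y z : A} (hM : M = Ideal.span {x, y, z}) (c : Fin 3 → Fin 3 → Fin 3 → ℂ)
    (E0 : κ 2 * x + (κ (c 0 1 1) * (y * y) + κ (2 * c 0 1 2) * (y * z) +
      κ (c 0 2 2) * (z * z)) + x * (κ (c 0 0 0) * x + κ (2 * c 0 0 1) * y +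
        κ (2 * c 0 0 2) * z) = 0) : x ∈ M ^ 2 := by
  have hx : x ∈ M := by rw [hM]; exact Ideal.subset_span (by simp)
  have hy : y ∈ M := by rw [hM]; exact Ideal.subset_span (by simp)
  have hz : z ∈ M := by rw [hM]; exact Ideal.subset_span (by simp)
  have m2 : ∀ {a b : A}, a ∈ M → b ∈ M → a * b ∈ M ^ 2 := fun ha hb => by
    rw [pow_two]
    exact Ideal.mul_mem_mul ha hb
  refine unscale (c := 2) two_ne_zero ?_
  have e : κ 2 * x = -(κ (c 0 1 1) * (y * y) + κ (2 * c 0 1 2) * (y * z) + κ (c 0 2 2) * (z * z) +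
      x * (κ (c 0 0 0) * x + κ (2 * c 0 0 1) * y + κ (2 * c 0 0 2) * z)) := by
    linear_combination E0
  rw [e]
  refine (M ^ 2).neg_mem ?_
  refine (M ^ 2).add_mem ((M ^ 2).add_mem ((M ^ 2).add_mem ?_ ?_) ?_) ?_
  · exact (M ^ 2).mul_mem_left _ (m2 hy hy)
  · exact (M ^ 2).mul_mem_left _ (m2 hy hz)
  · exact (M ^ 2).mul_mem_left _ (m2 hz hz)
  · refine m2 hx ?_
    exact (M).add_mem ((M).add_mem ((M).mul_mem_left _ hx) ((M).mul_mem_left _ hy))
      ((M).mul_mem_left _ hz)

/-- the three cases -/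
theorem le7 {x y z : A} (hres : ∀ a : A, ∃ c : ℂ, a - κ c ∈ M) (hM : M = Ideal.span {x, y, z})
    (c : Fin 3 → Fin 3 → Fin 3 → ℂ)
    (E0 : κ 2 * x + (κ (c 0 1 1) * (y * y) + κ (2 * c 0 1 2) * (y * z) +
      κ (c 0 2 2) * (z * z)) + x * (κ (c 0 0 0) * x + κ (2 * c 0 0 1) * y +
        κ (2 * c 0 0 2) * z) = 0)
    (E1 : κ (c 1 1 1) * (y * y) + κ (2 * c 1 1 2) * (y * z) + κ (c 1 2 2) * (z * z) +
      x * (κ (c 0 0 1) * x + κ (2 * c 0 1 1) * y + κ (2 * c 0 1 2) * z) = 0)
    (E2 : κ (c 1 1 2) * (y * y) + κ (2 * c 1 2 2) * (y * z) + κ (c 2 2 2) * (z * z) +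
      x * (κ (c 0 0 2) * x + κ (2 * c 0 1 2) * y + κ (2 * c 0 2 2) * z) = 0)
    (hcase : (c 1 1 2 ≠ 0 ∧ c 1 2 2 = 0 ∧ c 2 2 2 = 0 ∧ c 0 2 2 ≠ 0) ∨
      (c 1 1 1 ≠ 0 ∧ c 1 1 2 = 0 ∧ c 1 2 2 = 0 ∧ c 2 2 2 = 0 ∧ c 0 2 2 ≠ 0) ∨
      (c 1 1 1 = 0 ∧ c 1 1 2 ≠ 0 ∧ c 1 2 2 ≠ 0 ∧ c 2 2 2 = 0)) :
    Module.Finite ℂ A ∧ Module.finrank ℂ A ≤ 7 := by
  have hx2 := x_mem hM c E0
  have hM' := two_gens hM hx2
  have hx : x ∈ M := by rw [hM]; exact Ideal.subset_span (by simp)
  have hy : y ∈ M := by rw [hM]; exact Ideal.subset_span (by simp)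
  have hz : z ∈ M := by rw [hM]; exact Ideal.subset_span (by simp)
  have hy1 : y ∈ M ^ 1 := by rwa [pow_one]
  have hz1 : z ∈ M ^ 1 := by rwa [pow_one]
  have hx1 : x ∈ M ^ 1 := by rwa [pow_one]
  have hyy : y * y ∈ M ^ 2 := mul_mem_pow hy1 hy1 rfl
  have hyz : y * z ∈ M ^ 2 := mul_mem_pow hy1 hz1 rfl
  have hzz : z * z ∈ M ^ 2 := mul_mem_pow hz1 hz1 rfl
  set p := κ (c 0 0 1) * x + κ (2 * c 0 1 1) * y + κ (2 * c 0 1 2) * z with hp
  set q := κ (c 0 0 2) * x + κ (2 * c 0 1 2) * y + κ (2 * c 0 2 2) * z with hq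
  set r := κ (c 0 0 0) * x + κ (2 * c 0 0 1) * y + κ (2 * c 0 0 2) * z with hr
  have lin : ∀ a b d : ℂ, κ a * x + κ b * y + κ d * z ∈ M ^ 1 := fun a b d => by
    rw [pow_one]
    exact (M).add_mem ((M).add_mem ((M).mul_mem_left _ hx) ((M).mul_mem_left _ hy))
      ((M).mul_mem_left _ hz)
  have hp1 : p ∈ M ^ 1 := lin _ _ _
  have hq1 : q ∈ M ^ 1 := lin _ _ _
  have hr1 : r ∈ M ^ 1 := lin _ _ _
  have hxp : x * p ∈ M ^ 3 := mul_mem_pow hx2 hp1 rfl
  have hxq : x * q ∈ M ^ 3 := mul_mem_pow hx2 hq1 rfl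
  have hxr : x * r ∈ M ^ 3 := mul_mem_pow hx2 hr1 rfl
  have hxy : x * y ∈ M ^ 3 := mul_mem_pow hx2 hy1 rfl
  have hxz : x * z ∈ M ^ 3 := mul_mem_pow hx2 hz1 rfl
  have hxx : x * x ∈ M ^ 3 := mul_mem_pow hx2 hx1 rfl
  rcases hcase with ⟨h112, h122, h222, h022⟩ | ⟨h111, h112, h122, h222, h022⟩ |
    ⟨h111, h112, h122, h222⟩
  · -- `b = y² (…)`, two different roots
    rw [h122] at E1 E2
    rw [h222] at E2
    simp only [map_zero, zero_mul, mul_zero, add_zero] at E1 E2
    have hyy3 : y * y ∈ M ^ 3 := by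
      refine unscale h112 ?_
      have : κ (c 1 1 2) * (y * y) = -(x * q) := by linear_combination E2
      rw [this]
      exact (M ^ 3).neg_mem hxq
    have hyz3 : y * z ∈ M ^ 3 := by
      refine unscale (mul_ne_zero two_ne_zero h112) ?_
      have : κ (2 * c 1 1 2) * (y * z) = -(κ (c 1 1 1) * (y * y) + x * p) := by
        linear_combination E1
      rw [this]
      exact (M ^ 3).neg_mem ((M ^ 3).add_mem ((M ^ 3).mul_mem_left _ hyy3) hxp)
    -- the relation in degree four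
    have hrel : x * (2 * q * z * κ (c 1 1 2) - p * y * κ (c 1 1 2) + κ (c 1 1 1) * (q * y)) = 0 := by
      have e1 := congrArg (fun a => a * y * κ (c 1 1 2)) E1
      have e2 := congrArg (fun a => a * z * κ 2 * κ (c 1 1 2)) E2
      have e3 := congrArg (fun a => a * y * κ (c 1 1 1)) E2
      simp only [zero_mul, map_mul, map_ofNat] at e1 e2 e3
      linear_combination (-1 : A) * e1 + e2 + e3
    have hz4 : z * z * (z * z) ∈ M ^ 5 := by
      -- `u = 2qz κ - … = 4 c022 κ z² + M³`, `(2 + r) x = - c022 z² + M³`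
      have hu : (2 * q * z * κ (c 1 1 2) - p * y * κ (c 1 1 2) + κ (c 1 1 1) * (q * y)) -
          κ (4 * c 0 2 2 * c 1 1 2) * (z * z) ∈ M ^ 3 := by
        have hpy : p * y ∈ M ^ 3 := by
          have : p * y = κ (c 0 0 1) * (x * y) + κ (2 * c 0 1 1) * (y * y) +
              κ (2 * c 0 1 2) * (y * z) := by rw [hp]; ring
          rw [this]
          exact (M ^ 3).add_mem ((M ^ 3).add_mem ((M ^ 3).mul_mem_left _ hxy)
            ((M ^ 3).mul_mem_left _ hyy3)) ((M ^ 3).mul_mem_left _ hyz3)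
        have hqy : q * y ∈ M ^ 3 := by
          have : q * y = κ (c 0 0 2) * (x * y) + κ (2 * c 0 1 2) * (y * y) +
              κ (2 * c 0 2 2) * (y * z) := by rw [hq]; ring
          rw [this]
          exact (M ^ 3).add_mem ((M ^ 3).add_mem ((M ^ 3).mul_mem_left _ hxy)
            ((M ^ 3).mul_mem_left _ hyy3)) ((M ^ 3).mul_mem_left _ hyz3)
        have hqz : 2 * q * z * κ (c 1 1 2) - κ (4 * c 0 2 2 * c 1 1 2) * (z * z) ∈ M ^ 3 := by
          have : 2 * q * z * κ (c 1 1 2) - κ (4 * c 0 2 2 * c 1 1 2) * (z * z) =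
              2 * κ (c 1 1 2) * (κ (c 0 0 2) * (x * z) + κ (2 * c 0 1 2) * (y * z)) := by
            rw [hq]
            simp only [map_mul, map_ofNat]
            ring
          rw [this]
          exact (M ^ 3).mul_mem_left _ ((M ^ 3).add_mem ((M ^ 3).mul_mem_left _ hxz)
            ((M ^ 3).mul_mem_left _ hyz3))
        have : (2 * q * z * κ (c 1 1 2) - p * y * κ (c 1 1 2) + κ (c 1 1 1) * (q * y)) -
            κ (4 * c 0 2 2 * c 1 1 2) * (z * z) =
            (2 * q * z * κ (c 1 1 2) - κ (4 * c 0 2 2 * c 1 1 2) * (z * z)) -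
            κ (c 1 1 2) * (p * y) + κ (c 1 1 1) * (q * y) := by ring
        rw [this]
        exact (M ^ 3).add_mem ((M ^ 3).sub_mem hqz ((M ^ 3).mul_mem_left _ hpy))
          ((M ^ 3).mul_mem_left _ hqy)
      have hv : (κ 2 + r) * x + κ (c 0 2 2) * (z * z) ∈ M ^ 3 := by
        have : (κ 2 + r) * x + κ (c 0 2 2) * (z * z) =
            -(κ (c 0 1 1) * (y * y) + κ (2 * c 0 1 2) * (y * z)) := by
          linear_combination E0
        rw [this]
        exact (M ^ 3).neg_mem ((M ^ 3).add_mem ((M ^ 3).mul_mem_left _ hyy3)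
          ((M ^ 3).mul_mem_left _ hyz3))
      set u := 2 * q * z * κ (c 1 1 2) - p * y * κ (c 1 1 2) + κ (c 1 1 1) * (q * y) with hu'
      set e := u - κ (4 * c 0 2 2 * c 1 1 2) * (z * z) with he
      set e' := (κ 2 + r) * x + κ (c 0 2 2) * (z * z) with he'
      have hu2 : u = κ (4 * c 0 2 2 * c 1 1 2) * (z * z) + e := by rw [he]; ring
      have hprod : (e' - κ (c 0 2 2) * (z * z)) * (κ (4 * c 0 2 2 * c 1 1 2) * (z * z) + e) = 0 := by
        rw [← hu2, he']
        linear_combination (κ 2 + r) * hrel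
      refine unscale (c := c 0 2 2 * (4 * c 0 2 2 * c 1 1 2))
        (mul_ne_zero h022 (mul_ne_zero (mul_ne_zero (by norm_num) h022) h112)) ?_
      have : κ (c 0 2 2 * (4 * c 0 2 2 * c 1 1 2)) * (z * z * (z * z)) =
          κ (4 * c 0 2 2 * c 1 1 2) * (e' * (z * z)) + e' * e - κ (c 0 2 2) * ((z * z) * e) := by
        rw [map_mul]
        have key : ∀ (K L e e' w : A), (e' - K * w) * (L * w + e) = 0 →
            K * L * (w * w) = L * (e' * w) + e' * e - K * (w * e) := by
          intro K L e e' w h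
          linear_combination (-1 : A) * h
        exact key _ _ _ _ _ hprod
      rw [this]
      refine (M ^ 5).sub_mem ((M ^ 5).add_mem ((M ^ 5).mul_mem_left _ (mul_mem_pow hv hzz rfl)) ?_)
        ((M ^ 5).mul_mem_left _ (mul_mem_pow hzz hu rfl))
      exact Ideal.pow_le_pow_right (by norm_num) (mul_mem_pow hv hu (k := 6) rfl)
    refine span7 hres hM' 0 (by simpa using hyy3) (pow4 hM' (mul_mem_pow hyy3 hyy rfl)
      (mul_mem_pow hyy3 hyz rfl) (mul_mem_pow hyy3 hzz rfl) (mul_mem_pow hyz3 hzz rfl) hz4)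
  · -- `b = y³`
    rw [h122, h112] at E1 E2
    rw [h222] at E2
    simp only [map_zero, zero_mul, mul_zero, add_zero, zero_add] at E1 E2
    have hyy3 : y * y ∈ M ^ 3 := by
      refine unscale h111 ?_
      have : κ (c 1 1 1) * (y * y) = -(x * p) := by linear_combination E1
      rw [this]
      exact (M ^ 3).neg_mem hxp
    -- `k q = 0`
    have hkq : (κ (c 0 1 1) * (y * y) + κ (2 * c 0 1 2) * (y * z) + κ (c 0 2 2) * (z * z)) * q =
        0 := by
      linear_combination q * E0 - (κ 2 + r) * E2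
    have hz3 : κ (2 * c 0 2 2 * c 0 2 2) * (z * (z * z)) +
        κ (6 * c 0 1 2 * c 0 2 2) * (y * (z * z)) ∈ M ^ 4 := by
      have e : κ (2 * c 0 2 2 * c 0 2 2) * (z * (z * z)) + κ (6 * c 0 1 2 * c 0 2 2) * (y * (z * z))
          = -(κ (c 0 1 1) * ((y * y) * q) + κ (2 * c 0 1 2) * (κ (2 * c 0 1 2) * ((y * y) * z) +
            κ (c 0 0 2) * ((x * y) * z)) + κ (c 0 2 2) * (κ (c 0 0 2) * ((x * z) * z))) := by
        have := hkq
        rw [hq] at this ⊢
        simp only [map_mul, map_ofNat] at this ⊢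
        linear_combination this
      rw [e]
      refine (M ^ 4).neg_mem ((M ^ 4).add_mem ((M ^ 4).add_mem ?_ ?_) ?_)
      · exact (M ^ 4).mul_mem_left _ (mul_mem_pow hyy3 hq1 rfl)
      · exact (M ^ 4).mul_mem_left _ ((M ^ 4).add_mem
          ((M ^ 4).mul_mem_left _ (mul_mem_pow hyy3 hz1 rfl))
          ((M ^ 4).mul_mem_left _ (mul_mem_pow hxy hz1 rfl)))
      · exact (M ^ 4).mul_mem_left _ ((M ^ 4).mul_mem_left _ (mul_mem_pow hxz hz1 rfl))
    have h22 : (2 * c 0 2 2 * c 0 2 2 : ℂ) ≠ 0 :=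
      mul_ne_zero (mul_ne_zero two_ne_zero h022) h022
    have hyz3' : y * z * (z * z) ∈ M ^ 5 := by
      refine unscale h22 ?_
      have : κ (2 * c 0 2 2 * c 0 2 2) * (y * z * (z * z)) =
          y * (κ (2 * c 0 2 2 * c 0 2 2) * (z * (z * z)) +
            κ (6 * c 0 1 2 * c 0 2 2) * (y * (z * z))) -
          κ (6 * c 0 1 2 * c 0 2 2) * ((y * y) * (z * z)) := by ring
      rw [this]
      exact (M ^ 5).sub_mem (mul_mem_pow hy1 hz3 rfl)
        ((M ^ 5).mul_mem_left _ (mul_mem_pow hyy3 hzz rfl))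
    have hz4 : z * z * (z * z) ∈ M ^ 5 := by
      refine unscale h22 ?_
      have : κ (2 * c 0 2 2 * c 0 2 2) * (z * z * (z * z)) =
          z * (κ (2 * c 0 2 2 * c 0 2 2) * (z * (z * z)) +
            κ (6 * c 0 1 2 * c 0 2 2) * (y * (z * z))) -
          κ (6 * c 0 1 2 * c 0 2 2) * (y * z * (z * z)) := by ring
      rw [this]
      exact (M ^ 5).sub_mem (mul_mem_pow hz1 hz3 rfl) ((M ^ 5).mul_mem_left _ hyz3')
    exact span7 hres hM' 0 (by simpa using hyy3) (pow4 hM' (mul_mem_pow hyy3 hyy rfl)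
      (mul_mem_pow hyy3 hyz rfl) (mul_mem_pow hyy3 hzz rfl) hyz3' hz4)
  · -- three different roots
    rw [h111] at E1
    rw [h222] at E2
    simp only [map_zero, zero_mul, mul_zero, add_zero, zero_add] at E1 E2
    -- `2 c112 yz + c122 z² ∈ M³`, `c112 y² + 2 c122 yz ∈ M³`
    have g1 : κ (2 * c 1 1 2) * (y * z) + κ (c 1 2 2) * (z * z) ∈ M ^ 3 := by
      have : κ (2 * c 1 1 2) * (y * z) + κ (c 1 2 2) * (z * z) = -(x * p) := by
        linear_combination E1
      rw [this]
      exact (M ^ 3).neg_mem hxp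
    have g2 : κ (c 1 1 2) * (y * y) + κ (2 * c 1 2 2) * (y * z) ∈ M ^ 3 := by
      have : κ (c 1 1 2) * (y * y) + κ (2 * c 1 2 2) * (y * z) = -(x * q) := by
        linear_combination E2
      rw [this]
      exact (M ^ 3).neg_mem hxq
    have g1y := mul_mem_pow g1 hy1 (k := 4) rfl
    have g1z := mul_mem_pow g1 hz1 (k := 4) rfl
    have g2y := mul_mem_pow g2 hy1 (k := 4) rfl
    have g2z := mul_mem_pow g2 hz1 (k := 4) rfl
    have k1 : y * (z * z) ∈ M ^ 4 := by
      refine unscale (c := 3 * c 1 2 2) (mul_ne_zero (by norm_num) h122) ?_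
      have : κ (3 * c 1 2 2) * (y * (z * z)) =
          κ 2 * ((κ (c 1 1 2) * (y * y) + κ (2 * c 1 2 2) * (y * z)) * z) -
          (κ (2 * c 1 1 2) * (y * z) + κ (c 1 2 2) * (z * z)) * y := by
        simp only [map_mul, map_ofNat]
        ring
      rw [this]
      exact (M ^ 4).sub_mem ((M ^ 4).mul_mem_left _ g2z) g1y
    have k2 : z * (z * z) ∈ M ^ 4 := by
      refine unscale h122 ?_
      have : κ (c 1 2 2) * (z * (z * z)) =
          (κ (2 * c 1 1 2) * (y * z) + κ (c 1 2 2) * (z * z)) * z -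
          κ (2 * c 1 1 2) * (y * (z * z)) := by ring
      rw [this]
      exact (M ^ 4).sub_mem g1z ((M ^ 4).mul_mem_left _ k1)
    have k3 : y * (y * z) ∈ M ^ 4 := by
      refine unscale h112 ?_
      have : κ (c 1 1 2) * (y * (y * z)) =
          (κ (c 1 1 2) * (y * y) + κ (2 * c 1 2 2) * (y * z)) * z -
          κ (2 * c 1 2 2) * (y * (z * z)) := by ring
      rw [this]
      exact (M ^ 4).sub_mem g2z ((M ^ 4).mul_mem_left _ k1)
    have k4 : y * (y * y) ∈ M ^ 4 := by
      refine unscale h112 ?_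
      have : κ (c 1 1 2) * (y * (y * y)) =
          (κ (c 1 1 2) * (y * y) + κ (2 * c 1 2 2) * (y * z)) * y -
          κ (2 * c 1 2 2) * (y * (y * z)) := by ring
      rw [this]
      exact (M ^ 4).sub_mem g2y ((M ^ 4).mul_mem_left _ k3)
    refine span7 hres hM' (-(2 * c 1 2 2) / c 1 1 2) ?_ (pow4 hM' ?_ ?_ ?_ ?_ ?_)
    · refine unscale h112 ?_
      have : κ (c 1 1 2) * (y * y - κ (-(2 * c 1 2 2) / c 1 1 2) * (y * z)) =
          κ (c 1 1 2) * (y * y) + κ (2 * c 1 2 2) * (y * z) := by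
        have e : κ (c 1 1 2) * κ (-(2 * c 1 2 2) / c 1 1 2) = -κ (2 * c 1 2 2) := by
          rw [← map_mul, mul_div_cancel₀ _ h112, map_neg]
        linear_combination (-(y * z)) * e
      rw [this]
      exact g2
    · convert mul_mem_pow k4 hy1 (k := 5) rfl using 1; ring
    · convert mul_mem_pow k4 hz1 (k := 5) rfl using 1; ring
    · convert mul_mem_pow k3 hz1 (k := 5) rfl using 1; ring
    · convert mul_mem_pow k1 hz1 (k := 5) rfl using 1; ring
    · convert mul_mem_pow k2 hz1 (k := 5) rfl using 1; ring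

end Rel

end Crest.Agent.R257.P8b_472
end
end

-- ▼ part R257/P8d_472

/-!
R257 / P8d_472: `dim O/(2 δ_{i0} y_0 + ∑ c_{ijk} y_j y_k) ≤ 7`.
-/

set_option autoImplicit false
set_option linter.unusedVariables false
set_option linter.unusedSectionVars false

open Set Filter Topology IsLocalRing
open Crest.Agent.R275.Loc2879
open Crest.Agent.R257.Defs_219 Crest.Agent.R257.UI939
open Crest.Agent.R257.P8b_472 Crest.Agent.R257.P8c_472

noncomputable section

namespace Crest.Agent.R257.P8d_472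

/-- the generators -/
def gq (c : Fin 3 → Fin 3 → Fin 3 → ℂ) (i : Fin 3) (y : E3) : ℂ :=
  2 * (if i = 0 then y 0 else 0) + ∑ j, ∑ k, c i j k * y j * y k

theorem an_gq (c : Fin 3 → Fin 3 → Fin 3 → ℂ) (i : Fin 3) (p : E3) : AnalyticAt ℂ (gq c i) p := by
  have hx : ∀ j : Fin 3, AnalyticAt ℂ (fun y : E3 => y j) p := fun j => an_coord j p
  have h2 : AnalyticAt ℂ (fun y : E3 => ∑ j, ∑ k, c i j k * y j * y k) p :=
    Finset.analyticAt_fun_sum _ fun j _ => Finset.analyticAt_fun_sum _ fun k _ =>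
      (analyticAt_const.mul (hx j)).mul (hx k)
  by_cases h : i = 0
  · subst h
    have : gq c 0 = fun y => 2 * y 0 + ∑ j, ∑ k, c 0 j k * y j * y k := by
      ext y
      simp [gq]
    rw [this]
    exact (analyticAt_const.mul (hx 0)).add h2
  · have : gq c i = fun y => 2 * 0 + ∑ j, ∑ k, c i j k * y j * y k := by
      ext y
      simp [gq, h]
    rw [this]
    exact analyticAt_const.add h2

variable {c : Fin 3 → Fin 3 → Fin 3 → ℂ}

theorem max_eq : maximalIdeal (BB 3) = Ideal.span {xB 0, xB 1, xB 2} := by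
  refine le_antisymm (fun a ha => ?_) ?_
  · obtain ⟨k, y, hy⟩ := hadamard a
    have h1 : evp 0 a = 0 := by
      by_contra hne
      have : IsUnit a := isUnit_iff.2 hne
      exact (IsLocalRing.mem_maximalIdeal a).1 ha this
    have h2 : ∀ i, evp (0 : Fin 3 → ℂ) (xB i) = 0 := fun i => rfl
    have h3 : k = 0 := by
      have := congrArg (evp (0 : Fin 3 → ℂ)) hy
      rw [h1, map_add, map_sum] at this
      simp only [map_mul, h2, mul_zero, Finset.sum_const_zero, add_zero] at this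
      exact this.symm
    rw [hy, h3, map_zero, zero_add, Fin.sum_univ_three]
    refine Ideal.add_mem _ (Ideal.add_mem _ ?_ ?_) ?_
    · exact Ideal.mul_mem_left _ _ (Ideal.subset_span (by simp))
    · exact Ideal.mul_mem_left _ _ (Ideal.subset_span (by simp))
    · exact Ideal.mul_mem_left _ _ (Ideal.subset_span (by simp))
  · refine Ideal.span_le.2 ?_
    intro s hs
    have h2 : ∀ i, (xB i : BB 3) ∈ maximalIdeal (BB 3) := fun i => by
      rw [IsLocalRing.mem_maximalIdeal]
      intro hu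
      have := isUnit_iff.1 hu
      exact this rfl
    simp only [Set.mem_insert_iff, Set.mem_singleton_iff] at hs
    rcases hs with rfl | rfl | rfl
    · exact h2 0
    · exact h2 1
    · exact h2 2

theorem idl_le (c : Fin 3 → Fin 3 → Fin 3 → ℂ) :
    Idl (0 : Fin 3 → ℂ) (gq c) ≤ maximalIdeal (BB 3) := by
  intro a ha
  obtain ⟨k, rfl⟩ := (mem_Idl (fun j => an_gq c j 0)).1 ha
  refine Ideal.sum_mem _ fun j _ => Ideal.mul_mem_left _ _ ?_
  rw [IsLocalRing.mem_maximalIdeal]
  intro hu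
  have h1 := isUnit_iff.1 hu
  apply h1
  change gq c j 0 = 0
  simp [gq]

theorem col_gq (h12 : ∀ i j k, c i j k = c j i k) (h23 : ∀ i j k, c i j k = c i k j)
    (hc : Case c) : ColFin (gq c) ∧ col (gq c) ≤ 7 := by
  have hg : ∀ i, AnalyticAt ℂ (gq c i) 0 := fun i => an_gq c i 0
  set I : Ideal (BB 3) := Idl (0 : Fin 3 → ℂ) (gq c) with hI
  have hIle : I ≤ maximalIdeal (BB 3) := idl_le c
  have hIne : I ≠ ⊤ := fun h => (Ideal.IsPrime.ne_top'
    (I := maximalIdeal (BB 3))) (top_le_iff.1 (h ▸ hIle))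
  have : Nontrivial (BB 3 ⧸ I) := Ideal.Quotient.nontrivial_iff.2 hIne
  have : IsLocalRing (BB 3 ⧸ I) :=
    IsLocalRing.of_surjective' (Ideal.Quotient.mk I) Ideal.Quotient.mk_surjective
  have hmk : ∀ a : BB 3, a ∈ maximalIdeal (BB 3) →
      Ideal.Quotient.mk I a ∈ maximalIdeal (BB 3 ⧸ I) := by
    intro a ha
    rw [IsLocalRing.mem_maximalIdeal]
    intro hu
    obtain ⟨b, hb⟩ := hu.exists_right_inv
    obtain ⟨b, rfl⟩ := Ideal.Quotient.mk_surjective b
    rw [← map_mul, ← map_one (Ideal.Quotient.mk I), Ideal.Quotient.eq] at hb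
    have h1 := hIle hb
    have h2 : a * b ∈ maximalIdeal (BB 3) := Ideal.mul_mem_right _ _ ha
    have h3 : (1 : BB 3) ∈ maximalIdeal (BB 3) := by
      have := Ideal.sub_mem _ h2 h1
      simpa using this
    exact (Ideal.ne_top_iff_one _).1 (maximalIdeal.isMaximal (BB 3)).ne_top h3
  have hmk' : ∀ a : BB 3, Ideal.Quotient.mk I a ∈ maximalIdeal (BB 3 ⧸ I) →
      a ∈ maximalIdeal (BB 3) := by
    intro a ha
    rw [IsLocalRing.mem_maximalIdeal] at ha ⊢
    intro hu
    exact ha (hu.map (Ideal.Quotient.mk I))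
  set x : BB 3 ⧸ I := Ideal.Quotient.mk I (xB 0) with hx
  set y : BB 3 ⧸ I := Ideal.Quotient.mk I (xB 1) with hy
  set z : BB 3 ⧸ I := Ideal.Quotient.mk I (xB 2) with hz
  have hM : maximalIdeal (BB 3 ⧸ I) = Ideal.span {x, y, z} := by
    refine le_antisymm ?_ ?_
    · intro b hb
      obtain ⟨a, rfl⟩ := Ideal.Quotient.mk_surjective b
      have h1 := hmk' a hb
      rw [max_eq] at h1
      have h2 := Ideal.mem_map_of_mem (Ideal.Quotient.mk I) h1
      rw [Ideal.map_span] at h2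
      rw [Set.image_insert_eq, Set.image_insert_eq, Set.image_singleton] at h2
      exact h2
    · refine Ideal.span_le.2 ?_
      intro s hs
      have h2 : ∀ i, (xB i : BB 3) ∈ maximalIdeal (BB 3) := fun i => by
        rw [IsLocalRing.mem_maximalIdeal]
        intro hu
        exact (isUnit_iff.1 hu) rfl
      simp only [Set.mem_insert_iff, Set.mem_singleton_iff] at hs
      rcases hs with rfl | rfl | rfl
      · exact hmk _ (h2 0)
      · exact hmk _ (h2 1)
      · exact hmk _ (h2 2)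
  have hres : ∀ b : BB 3 ⧸ I, ∃ k : ℂ, b - algebraMap ℂ (BB 3 ⧸ I) k ∈
      maximalIdeal (BB 3 ⧸ I) := by
    intro b
    obtain ⟨a, rfl⟩ := Ideal.Quotient.mk_surjective b
    refine ⟨evp 0 a, ?_⟩
    have h1 : algebraMap ℂ (BB 3 ⧸ I) (evp 0 a) =
        Ideal.Quotient.mk I (algebraMap ℂ (BB 3) (evp 0 a)) := rfl
    rw [h1, ← map_sub]
    refine hmk _ ?_
    rw [IsLocalRing.mem_maximalIdeal]
    intro hu
    refine (isUnit_iff.1 hu) ?_
    rw [map_sub]
    have : evp (0 : Fin 3 → ℂ) (algebraMap ℂ (BB 3) (evp 0 a)) = evp 0 a := rfl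
    rw [this, sub_self]
  have hzero : ∀ i, Ideal.Quotient.mk I (gm (gq c i) (hg i)) = 0 := fun i => by
    rw [Ideal.Quotient.eq_zero_iff_mem]
    refine (mem_Idl hg).2 ⟨Pi.single i 1, ?_⟩
    rw [Finset.sum_eq_single i]
    · simp
    · intro j _ hj
      simp [hj]
    · simp
  -- the three relations
  have F0 : (algebraMap ℂ (BB 3) 2 * xB 0 + (algebraMap ℂ (BB 3) (c 0 1 1) * (xB 1 * xB 1) +
      algebraMap ℂ (BB 3) (2 * c 0 1 2) * (xB 1 * xB 2) +
      algebraMap ℂ (BB 3) (c 0 2 2) * (xB 2 * xB 2)) + xB 0 * (algebraMap ℂ (BB 3) (c 0 0 0) * xB 0 +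
        algebraMap ℂ (BB 3) (2 * c 0 0 1) * xB 1 + algebraMap ℂ (BB 3) (2 * c 0 0 2) * xB 2)) =
      gm (gq c 0) (hg 0) := by
    have p0 : ∀ v : E3, 2 * v 0 + (c 0 1 1 * (v 1 * v 1) + 2 * c 0 1 2 * (v 1 * v 2) +
        c 0 2 2 * (v 2 * v 2)) + v 0 * (c 0 0 0 * v 0 + 2 * c 0 0 1 * v 1 + 2 * c 0 0 2 * v 2) =
        gq c 0 v := by
      intro v
      simp only [gq, Fin.sum_univ_three, if_true]
      rw [h23 0 1 0, h23 0 2 0, h23 0 2 1]
      ring
    exact (gm_eq_gm (hf := (hg 0).congr (Eventually.of_forall fun v => (p0 v).symm))).2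
      (Eventually.of_forall p0)
  have F1 : (algebraMap ℂ (BB 3) (c 1 1 1) * (xB 1 * xB 1) +
      algebraMap ℂ (BB 3) (2 * c 1 1 2) * (xB 1 * xB 2) +
      algebraMap ℂ (BB 3) (c 1 2 2) * (xB 2 * xB 2) + xB 0 * (algebraMap ℂ (BB 3) (c 0 0 1) * xB 0 +
        algebraMap ℂ (BB 3) (2 * c 0 1 1) * xB 1 + algebraMap ℂ (BB 3) (2 * c 0 1 2) * xB 2)) =
      gm (gq c 1) (hg 1) := by
    have p1 : ∀ v : E3, c 1 1 1 * (v 1 * v 1) + 2 * c 1 1 2 * (v 1 * v 2) +
        c 1 2 2 * (v 2 * v 2) + v 0 * (c 0 0 1 * v 0 + 2 * c 0 1 1 * v 1 + 2 * c 0 1 2 * v 2) =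
        gq c 1 v := by
      intro v
      simp only [gq, Fin.sum_univ_three]
      rw [h23 1 1 0, h23 1 2 0, h23 1 2 1, h12 1 0 0, h12 1 0 1, h12 1 0 2, h23 0 1 0]
      simp
      ring
    exact (gm_eq_gm (hf := (hg 1).congr (Eventually.of_forall fun v => (p1 v).symm))).2
      (Eventually.of_forall p1)
  have F2 : (algebraMap ℂ (BB 3) (c 1 1 2) * (xB 1 * xB 1) +
      algebraMap ℂ (BB 3) (2 * c 1 2 2) * (xB 1 * xB 2) +
      algebraMap ℂ (BB 3) (c 2 2 2) * (xB 2 * xB 2) + xB 0 * (algebraMap ℂ (BB 3) (c 0 0 2) * xB 0 +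
        algebraMap ℂ (BB 3) (2 * c 0 1 2) * xB 1 + algebraMap ℂ (BB 3) (2 * c 0 2 2) * xB 2)) =
      gm (gq c 2) (hg 2) := by
    have p2 : ∀ v : E3, c 1 1 2 * (v 1 * v 1) + 2 * c 1 2 2 * (v 1 * v 2) +
        c 2 2 2 * (v 2 * v 2) + v 0 * (c 0 0 2 * v 0 + 2 * c 0 1 2 * v 1 + 2 * c 0 2 2 * v 2) =
        gq c 2 v := by
      intro v
      simp only [gq, Fin.sum_univ_three]
      rw [h23 2 1 0, h23 2 2 0, h23 2 2 1, h12 2 0 0, h12 2 0 1, h12 2 0 2, h23 0 2 0, h23 0 2 1,
        h12 2 1 1, h12 2 1 2, h23 1 2 1]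
      simp
      ring
    exact (gm_eq_gm (hf := (hg 2).congr (Eventually.of_forall fun v => (p2 v).symm))).2
      (Eventually.of_forall p2)
  have E0 := congrArg (Ideal.Quotient.mk I) F0
  have E1 := congrArg (Ideal.Quotient.mk I) F1
  have E2 := congrArg (Ideal.Quotient.mk I) F2
  rw [hzero] at E0 E1 E2
  simp only [map_add, map_mul] at E0 E1 E2
  have key := le7 (A := BB 3 ⧸ I) (x := x) (y := y) (z := z) hres hM c
    (by simp only [map_mul]; exact E0) (by simp only [map_mul]; exact E1)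
    (by simp only [map_mul]; exact E2) hc
  exact ⟨(colFin_iff hg).2 key.1, by rw [col_eq hg]; exact key.2⟩

end Crest.Agent.R257.P8d_472
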