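import Crest.Agent.R257.Ub3_472
import Crest.Agent.R257.P8d_472
import Crest.Agent.R257.Inv_939
import Crest.Agent.R257.LcxA_759

-- ▼ part R257/Ub4_472
section

/-!
R257 / Ub4_472: the local algebra `O_3 / (G_0, G_1, G_2)` and the classes of analytic germs.
-/

set_option autoImplicit false
set_option linter.unusedVariables false
set_option linter.unusedSectionVars false
set_option linter.unusedSimpArgs false

open Set Filter Topology IsLocalRing
open Crest.Agent.R275.Loc2879
open Crest.Agent.R257.Defs_219 Crest.Agent.R257.UI939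

noncomputable section

namespace Crest.Agent.R257.Ub4_472

/-- the quotient algebra -/
abbrev QG (G : Fin 3 → E3 → ℂ) : Type := BB 3 ⧸ Idl (0 : Fin 3 → ℂ) G

/-- the class of a germ -/
def cl (G : Fin 3 → E3 → ℂ) (g : E3 → ℂ) : QG G :=
  Ideal.Quotient.mk (Idl (0 : Fin 3 → ℂ) G) (gz g)

variable {G : Fin 3 → E3 → ℂ} {g h : E3 → ℂ}

theorem cl_congr (e : g =ᶠ[𝓝 0] h) : cl G g = cl G h := by
  unfold cl
  rw [gz_congr e]

theorem cl_add (hg : AnalyticAt ℂ g 0) (hh : AnalyticAt ℂ h 0) :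
    cl G (fun x => g x + h x) = cl G g + cl G h := by
  unfold cl
  rw [← map_add, gz_eq hg, gz_eq hh, gm_add, gz_eq (hg.fun_add hh)]
  rfl

theorem cl_mul (hg : AnalyticAt ℂ g 0) (hh : AnalyticAt ℂ h 0) :
    cl G (fun x => g x * h x) = cl G g * cl G h := by
  unfold cl
  rw [← map_mul, gz_eq hg, gz_eq hh, gm_mul, gz_eq (hg.fun_mul hh)]
  rfl

theorem cl_const (c : ℂ) : cl G (fun _ => c) = algebraMap ℂ (QG G) c := by
  unfold cl
  rw [gz_eq analyticAt_const]
  rfl

theorem cl_pow (hg : AnalyticAt ℂ g 0) (k : ℕ) : cl G (fun x => g x ^ k) = cl G g ^ k := by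
  induction k with
  | zero =>
    simp only [pow_zero]
    rw [cl_const, map_one]
  | succ k ih =>
    rw [pow_succ, ← ih, ← cl_mul (hg.fun_pow k) hg]
    exact cl_congr (Eventually.of_forall fun x => pow_succ (g x) k)

theorem cl_const_mul (hg : AnalyticAt ℂ g 0) (c : ℂ) :
    cl G (fun x => c * g x) = algebraMap ℂ (QG G) c * cl G g := by
  rw [← cl_const]
  exact cl_mul analyticAt_const hg

theorem cl_sub (hg : AnalyticAt ℂ g 0) (hh : AnalyticAt ℂ h 0) :
    cl G (fun x => g x - h x) = cl G g - cl G h := by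
  have h1 : (fun x => g x - h x) = fun x => g x + (-1 : ℂ) * h x := by funext x; ring
  rw [h1, cl_add hg (h := fun x => (-1 : ℂ) * h x) (analyticAt_const.mul hh), cl_const_mul hh]
  simp [sub_eq_add_neg]

theorem cl_gen (hG : ∀ i, AnalyticAt ℂ (G i) 0) (i : Fin 3) : cl G (G i) = 0 := by
  unfold cl
  rw [Ideal.Quotient.eq_zero_iff_mem]
  exact Ideal.subset_span ⟨i, rfl⟩

/-- coordinates -/
def co (i : Fin 3) (x : E3) : ℂ := x i

theorem an_co (i : Fin 3) : AnalyticAt ℂ (co i) 0 := an_coord i 0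

theorem mem_max_iff {a : BB 3} : a ∈ maximalIdeal (BB 3) ↔ evp 0 a = 0 := by
  rw [IsLocalRing.mem_maximalIdeal, mem_nonunits_iff, Crest.Agent.R275.Loc2879.isUnit_iff, not_not]

theorem idl_le (hG : ∀ i, AnalyticAt ℂ (G i) 0) (h0 : ∀ i, G i 0 = 0) :
    Idl (0 : Fin 3 → ℂ) G ≤ maximalIdeal (BB 3) := by
  refine Ideal.span_le.2 ?_
  rintro a ⟨i, rfl⟩
  change gz (G i) ∈ maximalIdeal (BB 3)
  rw [mem_max_iff, gz_eq (hG i)]
  exact h0 i

/-- **the quotient is a local algebra** with residue field `ℂ` and maximal ideal `(x,y,z)` -/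
theorem setup (hG : ∀ i, AnalyticAt ℂ (G i) 0) (h0 : ∀ i, G i 0 = 0) :
    ∃ _ : IsLocalRing (QG G), (∀ a : QG G, ∃ c : ℂ, a - algebraMap ℂ (QG G) c ∈
      maximalIdeal (QG G)) ∧ maximalIdeal (QG G) = Ideal.span {cl G (co 0), cl G (co 1),
        cl G (co 2)} ∧ (∀ g : E3 → ℂ, AnalyticAt ℂ g 0 → g 0 = 0 → cl G g ∈ maximalIdeal (QG G)) ∧
      (∀ g : E3 → ℂ, AnalyticAt ℂ g 0 → g 0 ≠ 0 → IsUnit (cl G g)) := by
  set I : Ideal (BB 3) := Idl (0 : Fin 3 → ℂ) G with hI
  have hIle : I ≤ maximalIdeal (BB 3) := idl_le hG h0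
  have hIne : I ≠ ⊤ := fun h => (Ideal.IsPrime.ne_top'
    (I := maximalIdeal (BB 3))) (top_le_iff.1 (h ▸ hIle))
  have : Nontrivial (BB 3 ⧸ I) := Ideal.Quotient.nontrivial_iff.2 hIne
  have inst : IsLocalRing (BB 3 ⧸ I) :=
    IsLocalRing.of_surjective' (Ideal.Quotient.mk I) Ideal.Quotient.mk_surjective
  have hmk : ∀ a : BB 3, a ∈ maximalIdeal (BB 3) →
      Ideal.Quotient.mk I a ∈ maximalIdeal (BB 3 ⧸ I) := by
    intro a ha
    rw [IsLocalRing.mem_maximalIdeal]
    intro hu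
    obtain ⟨b, hb⟩ := hu.exists_right_inv
    obtain ⟨b, rfl⟩ := Ideal.Quotient.mk_surjective b
    rw [← map_mul, ← map_one (Ideal.Quotient.mk I), Ideal.Quotient.eq] at hb
    have h1 := hIle hb
    have h2 : a * b ∈ maximalIdeal (BB 3) := Ideal.mul_mem_right _ _ ha
    have h3 : (1 : BB 3) ∈ maximalIdeal (BB 3) := by
      have := Ideal.sub_mem _ h2 h1
      simpa using this
    exact (Ideal.ne_top_iff_one _).1 (maximalIdeal.isMaximal (BB 3)).ne_top h3
  have hmk' : ∀ a : BB 3, Ideal.Quotient.mk I a ∈ maximalIdeal (BB 3 ⧸ I) →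
      a ∈ maximalIdeal (BB 3) := by
    intro a ha
    rw [IsLocalRing.mem_maximalIdeal] at ha ⊢
    intro hu
    exact ha (hu.map (Ideal.Quotient.mk I))
  have hco : ∀ i, cl G (co i) = Ideal.Quotient.mk I (xB i) := fun i => by
    unfold cl
    rw [gz_eq (an_co i)]
    rfl
  have hcm : ∀ g : E3 → ℂ, AnalyticAt ℂ g 0 → g 0 = 0 → cl G g ∈ maximalIdeal (BB 3 ⧸ I) := by
    intro g hg hg0
    refine hmk _ ?_
    rw [mem_max_iff, gz_eq hg]
    exact hg0
  refine ⟨inst, ?_, ?_, hcm, ?_⟩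
  · intro b
    obtain ⟨a, rfl⟩ := Ideal.Quotient.mk_surjective b
    refine ⟨evp 0 a, ?_⟩
    have h1 : algebraMap ℂ (BB 3 ⧸ I) (evp 0 a) =
        Ideal.Quotient.mk I (algebraMap ℂ (BB 3) (evp 0 a)) := rfl
    change Ideal.Quotient.mk I a - algebraMap ℂ (BB 3 ⧸ I) (evp 0 a) ∈ maximalIdeal (BB 3 ⧸ I)
    rw [h1, ← map_sub]
    refine hmk _ ?_
    rw [mem_max_iff, map_sub]
    have : evp (0 : Fin 3 → ℂ) (algebraMap ℂ (BB 3) (evp 0 a)) = evp 0 a := rfl
    rw [this, sub_self]
  · refine le_antisymm ?_ ?_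
    · intro b hb
      obtain ⟨a, rfl⟩ := Ideal.Quotient.mk_surjective b
      have h1 := hmk' a hb
      rw [P8d_472.max_eq] at h1
      have h2 := Ideal.mem_map_of_mem (Ideal.Quotient.mk I) h1
      rw [Ideal.map_span] at h2
      rw [Set.image_insert_eq, Set.image_insert_eq, Set.image_singleton, ← hco, ← hco, ← hco] at h2
      exact h2
    · refine Ideal.span_le.2 ?_
      intro s hs
      simp only [Set.mem_insert_iff, Set.mem_singleton_iff] at hs
      rcases hs with rfl | rfl | rfl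
      · exact hcm _ (an_co 0) rfl
      · exact hcm _ (an_co 1) rfl
      · exact hcm _ (an_co 2) rfl
  · intro g hg hg0
    have h1 : IsUnit (gz g : BB 3) := by
      rw [Crest.Agent.R275.Loc2879.isUnit_iff, gz_eq hg]
      exact hg0
    exact h1.map (Ideal.Quotient.mk I)

end Crest.Agent.R257.Ub4_472
end
end

-- ▼ part R257/Ub5_472
section

/-!
R257 / Ub5_472: Taylor expansion of plane germs with remainder in `m^n`, and its image in the local
algebra.
-/

set_option autoImplicit false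
set_option linter.unusedVariables false
set_option linter.unusedSectionVars false
set_option linter.unusedSimpArgs false

open Set Filter Topology IsLocalRing
open Crest.AlgGeometry.Germ
open Crest.Agent.R275.Loc2879
open Crest.Agent.R257.Defs_219 Crest.Agent.R257.UI939 Crest.Agent.R257.Ub4_472
open Crest.Agent.R257.LcxDefs_759 Crest.Agent.R257.LcxA_759

noncomputable section

namespace Crest.Agent.R257.Ub5_472

abbrev E2 : Type := Fin 2 → ℂ

theorem cd_const (c : ℂ) (i : Fin 2) : coordDeriv (fun _ : E2 => c) i = fun _ => 0 := by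
  funext x
  unfold coordDeriv
  simp

theorem nd_const (i : Fin 2) (k : ℕ) (c : ℂ) : nd i (k + 1) (fun _ : E2 => c) = fun _ => 0 := by
  induction k with
  | zero =>
    funext x
    simp only [nd, cd_const]
    simp
  | succ k ih =>
    funext x
    rw [nd]
    simp only [ih, cd_const]
    simp

theorem nd_zero (i : Fin 2) (k : ℕ) : nd i k (fun _ : E2 => (0 : ℂ)) = fun _ => 0 := by
  cases k with
  | zero => rfl
  | succ k => exact nd_const i k 0

theorem cd_co (i j : Fin 2) : coordDeriv (fun x : E2 => x i) j = fun _ => if i = j then 1 else 0 := by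
  funext x
  unfold coordDeriv
  have h : HasFDerivAt (fun x : E2 => x i) (ContinuousLinearMap.proj (R := ℂ)
      (φ := fun _ : Fin 2 => ℂ) i) x := (ContinuousLinearMap.proj (R := ℂ)
      (φ := fun _ : Fin 2 => ℂ) i).hasFDerivAt
  rw [h.fderiv, ContinuousLinearMap.proj_apply, Pi.single_apply]

/-- Taylor coefficients of the coordinates -/
theorem cf_x0 (i j : ℕ) : cf (fun x : E2 => x 0) i j = if i = 1 ∧ j = 0 then 1 else 0 := by
  unfold cf
  rcases i with _ | _ | i
  · rcases j with _ | j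
    · simp [nd]
    · have h1 : nd 1 (j + 1) (fun x : E2 => x 0) = fun _ => 0 := by
        induction j with
        | zero =>
          funext x
          simp only [nd, cd_co]
          simp
        | succ j ih =>
          funext x
          rw [nd]
          simp only [ih, cd_const]
          simp
      change nd 1 (j + 1) (fun x : E2 => x 0) 0 = _
      rw [h1]
      simp
  · have h1 : nd 0 (0 + 1) (fun x : E2 => x 0) = fun _ => 1 := by
      funext x
      simp only [nd, cd_co]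
      simp
    rw [h1]
    rcases j with _ | j
    · simp [nd]
    · rw [nd_const]
      simp
  · have h1 : nd 0 (i + 1 + 1) (fun x : E2 => x 0) = fun _ => 0 := by
      induction i with
      | zero =>
        funext x
        simp only [nd, cd_co]
        simp [cd_const]
      | succ i ih =>
        funext x
        rw [nd]
        simp only [ih, cd_const]
        simp
    rw [h1, nd_zero]
    simp

theorem cf_x1 (i j : ℕ) : cf (fun x : E2 => x 1) i j = if i = 0 ∧ j = 1 then 1 else 0 := by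
  unfold cf
  rcases i with _ | i
  · rcases j with _ | _ | j
    · simp [nd]
    · simp only [nd, cd_co]
      simp
    · have h1 : nd 1 (j + 1 + 1) (fun x : E2 => x 1) = fun _ => 0 := by
        induction j with
        | zero =>
          funext x
          simp only [nd, cd_co]
          simp [cd_const]
        | succ j ih =>
          funext x
          rw [nd]
          simp only [ih, cd_const]
          simp
      change nd 1 (j + 1 + 1) (fun x : E2 => x 1) 0 = _
      rw [h1]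
      simp
  · have h1 : nd 0 (i + 1) (fun x : E2 => x 1) = fun _ => 0 := by
      induction i with
      | zero =>
        funext x
        simp only [nd, cd_co]
        simp
      | succ i ih =>
        funext x
        rw [nd]
        simp only [ih, cd_const]
        simp
    rw [h1, nd_zero]
    simp

theorem an_x (i : Fin 2) : AnalyticAt ℂ (fun x : E2 => x i) 0 := an_coord i 0

theorem cf_x0_mul {a : E2 → ℂ} (ha : AnalyticAt ℂ a 0) (i j : ℕ) :
    cf (fun x => x 0 * a x) (i + 1) j = cf a i j ∧ cf (fun x => x 0 * a x) 0 j = 0 := by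
  constructor
  · rw [cf_mul (an_x 0) ha, Finset.sum_eq_single (1, i), Finset.sum_eq_single (0, j)]
    · simp [cf_x0]
    · intro b hb hne
      rw [cf_x0, if_neg, zero_mul]
      rintro ⟨-, h0⟩
      apply hne
      rw [Finset.HasAntidiagonal.mem_antidiagonal] at hb
      ext
      · exact h0
      · simp only at h0 ⊢
        omega
    · intro h
      exfalso
      apply h
      rw [Finset.HasAntidiagonal.mem_antidiagonal]
      simp
    · intro b hb hne
      refine Finset.sum_eq_zero fun c _ => ?_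
      rw [cf_x0, if_neg, zero_mul]
      rintro ⟨h0, -⟩
      apply hne
      rw [Finset.HasAntidiagonal.mem_antidiagonal] at hb
      ext
      · exact h0
      · simp only at h0 ⊢
        omega
    · intro h
      exfalso
      apply h
      rw [Finset.HasAntidiagonal.mem_antidiagonal]
      simp only
      omega
  · rw [cf_mul (an_x 0) ha]
    refine Finset.sum_eq_zero fun b hb => Finset.sum_eq_zero fun c _ => ?_
    rw [cf_x0, if_neg, zero_mul]
    rintro ⟨h0, -⟩
    rw [Finset.HasAntidiagonal.mem_antidiagonal] at hb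
    omega

theorem cf_x1_mul {a : E2 → ℂ} (ha : AnalyticAt ℂ a 0) (i j : ℕ) :
    cf (fun x => x 1 * a x) i (j + 1) = cf a i j ∧ cf (fun x => x 1 * a x) i 0 = 0 := by
  constructor
  · rw [cf_mul (an_x 1) ha, Finset.sum_eq_single (0, i), Finset.sum_eq_single (1, j)]
    · simp [cf_x1]
    · intro b hb hne
      rw [cf_x1, if_neg, zero_mul]
      rintro ⟨-, h0⟩
      apply hne
      rw [Finset.HasAntidiagonal.mem_antidiagonal] at hb
      ext
      · exact h0
      · simp only at h0 ⊢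
        omega
    · intro h
      exfalso
      apply h
      rw [Finset.HasAntidiagonal.mem_antidiagonal]
      simp only
      omega
    · intro b hb hne
      refine Finset.sum_eq_zero fun c _ => ?_
      rw [cf_x1, if_neg, zero_mul]
      rintro ⟨h0, -⟩
      apply hne
      rw [Finset.HasAntidiagonal.mem_antidiagonal] at hb
      ext
      · exact h0
      · simp only at h0 ⊢
        omega
    · intro h
      exfalso
      apply h
      rw [Finset.HasAntidiagonal.mem_antidiagonal]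
      simp
  · rw [cf_mul (an_x 1) ha]
    refine Finset.sum_eq_zero fun b hb => Finset.sum_eq_zero fun c hc => ?_
    rw [cf_x1, if_neg, zero_mul]
    rintro ⟨-, h0⟩
    rw [Finset.HasAntidiagonal.mem_antidiagonal] at hc
    omega

/-- the homogeneous part of degree `k` -/
def Hk (f : E2 → ℂ) (k : ℕ) : BB 2 :=
  ∑ a ∈ Finset.HasAntidiagonal.antidiagonal k, algebraMap ℂ (BB 2) (cf f a.1 a.2) *
    (xB 0 ^ a.1 * xB 1 ^ a.2)

theorem Hk_zero (f : E2 → ℂ) : Hk f 0 = algebraMap ℂ (BB 2) (f 0) := by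
  unfold Hk
  simp [cf_zero_zero]

theorem Hk_succ {c : ℂ} {f a b : E2 → ℂ} (ha : AnalyticAt ℂ a 0) (hb : AnalyticAt ℂ b 0)
    (he : ∀ᶠ x in 𝓝 0, f x = c + (x 0 * a x + x 1 * b x)) (k : ℕ) :
    Hk f (k + 1) = xB 0 * Hk a k + xB 1 * Hk b k := by
  have ha' : AnalyticAt ℂ (fun x : E2 => x 0 * a x) 0 := (an_x 0).fun_mul ha
  have hb' : AnalyticAt ℂ (fun x : E2 => x 1 * b x) 0 := (an_x 1).fun_mul hb
  have e1 : ∀ i j, i + j = k + 1 → cf f i j = cf (fun x => x 0 * a x) i j +
      cf (fun x => x 1 * b x) i j := by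
    intro i j hij
    rw [cf_congr he, cf_add analyticAt_const (ha'.fun_add hb'), cf_add ha' hb']
    have : cf (fun _ : E2 => c) i j = 0 := by
      unfold cf
      rcases i with _ | i
      · obtain ⟨j, rfl⟩ : ∃ j', j = j' + 1 := ⟨k, by omega⟩
        change nd 1 (j + 1) (fun _ : E2 => c) 0 = 0
        rw [nd_const]
      · rw [nd_const, nd_zero]
    rw [this, zero_add]
  have e2 : Hk f (k + 1) = (∑ p ∈ Finset.HasAntidiagonal.antidiagonal (k + 1),
      algebraMap ℂ (BB 2) (cf (fun x => x 0 * a x) p.1 p.2) * (xB 0 ^ p.1 * xB 1 ^ p.2)) +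
      ∑ p ∈ Finset.HasAntidiagonal.antidiagonal (k + 1),
      algebraMap ℂ (BB 2) (cf (fun x => x 1 * b x) p.1 p.2) * (xB 0 ^ p.1 * xB 1 ^ p.2) := by
    unfold Hk
    rw [← Finset.sum_add_distrib]
    refine Finset.sum_congr rfl fun p hp => ?_
    rw [e1 p.1 p.2 (Finset.HasAntidiagonal.mem_antidiagonal.1 hp), map_add]
    ring
  rw [e2, Finset.Nat.sum_antidiagonal_succ, Finset.Nat.sum_antidiagonal_succ']
  rw [(cf_x0_mul ha 0 (k + 1)).2, (cf_x1_mul hb (k + 1) 0).2, map_zero, zero_mul, zero_add,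
    zero_mul, zero_add]
  unfold Hk
  rw [Finset.mul_sum, Finset.mul_sum]
  congr 1
  · refine Finset.sum_congr rfl fun p _ => ?_
    rw [(cf_x0_mul ha p.1 p.2).1]
    ring
  · refine Finset.sum_congr rfl fun p _ => ?_
    rw [(cf_x1_mul hb p.1 p.2).1]
    ring

theorem x_mem_max (i : Fin 2) : (xB i : BB 2) ∈ maximalIdeal (BB 2) := by
  rw [IsLocalRing.mem_maximalIdeal]
  intro hu
  exact (Crest.Agent.R275.Loc2879.isUnit_iff.1 hu) rfl

/-- **Taylor expansion** -/
theorem taylor (n : ℕ) : ∀ {f : E2 → ℂ} (hf : AnalyticAt ℂ f 0),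
    gm f hf - ∑ k ∈ Finset.range n, Hk f k ∈ maximalIdeal (BB 2) ^ n := by
  induction n with
  | zero =>
    intro f hf
    simp
  | succ n ih =>
    intro f hf
    obtain ⟨c, y, hy⟩ := hadamard (gm f hf)
    obtain ⟨a, ha, ha'⟩ := exists_gm (y 0)
    obtain ⟨b, hb, hb'⟩ := exists_gm (y 1)
    rw [Fin.sum_univ_two, ← ha', ← hb'] at hy
    have he : ∀ᶠ x in 𝓝 0, f x = c + (x 0 * a x + x 1 * b x) := by
      have h1 : gm f hf = gm (fun x : E2 => c + (x 0 * a x + x 1 * b x))
          (analyticAt_const.fun_add (((an_x 0).fun_mul ha).fun_add ((an_x 1).fun_mul hb))) := by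
        rw [hy]
        have h2 : ∀ i : Fin 2, (xB i : BB 2) = gm (fun x : E2 => x i) (an_x i) := fun i => rfl
        rw [h2, h2, mul_comm (gm a ha), mul_comm (gm b hb), gm_mul, gm_mul]
        rfl
      exact gm_eq_gm.1 h1
    have hc : f 0 = c := by
      have := he.self_of_nhds
      simpa using this
    rw [Finset.sum_range_succ', Hk_zero, hc]
    have h3 : ∀ k ∈ Finset.range n, Hk f (k + 1) = xB 0 * Hk a k + xB 1 * Hk b k :=
      fun k _ => Hk_succ ha hb he k
    rw [Finset.sum_congr rfl h3, Finset.sum_add_distrib, ← Finset.mul_sum, ← Finset.mul_sum]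
    have h4 : gm f hf - (xB 0 * ∑ k ∈ Finset.range n, Hk a k + xB 1 * ∑ k ∈ Finset.range n, Hk b k +
        algebraMap ℂ (BB 2) c) = xB 0 * (gm a ha - ∑ k ∈ Finset.range n, Hk a k) +
        xB 1 * (gm b hb - ∑ k ∈ Finset.range n, Hk b k) := by
      rw [hy]
      ring
    rw [h4, pow_succ, mul_comm]
    exact Ideal.add_mem _ (Ideal.mul_mem_mul (x_mem_max 0) (ih ha))
      (Ideal.mul_mem_mul (x_mem_max 1) (ih hb))

end Crest.Agent.R257.Ub5_472
end
end

-- ▼ part R257/Ub6_472
section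

/-!
R257 / Ub6_472: `col ≤ 9` for germs `x² u + x v(y,z) + w(y,z)` with `w ∈ m⁴` and discriminant
quartic without multiple root (`X_9`).
-/

set_option autoImplicit false
set_option linter.unusedVariables false
set_option linter.unusedSectionVars false
set_option linter.unusedSimpArgs false

open Set Filter Topology IsLocalRing
open Crest.AlgGeometry.Germ
open Crest.Agent.R275.Loc2879
open Crest.Agent.R257.Defs_219 Crest.Agent.R257.UI939 Crest.Agent.R257.Ub4_472
open Crest.Agent.R257.LcxDefs_759 Crest.Agent.R257.LcxA_759 Crest.Agent.R257.Ub5_472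

noncomputable section

namespace Crest.Agent.R257.Ub6_472

/-- the projection `(x,y,z) ↦ (y,z)` -/
def tl : E3 →L[ℂ] E2 := ContinuousLinearMap.pi fun i => ContinuousLinearMap.proj i.succ


theorem an_tl {a : E2 → ℂ} (ha : AnalyticAt ℂ a 0) : AnalyticAt ℂ (fun x : E3 => a (Fin.tail x)) 0 := by
  have h : AnalyticAt ℂ a (tl 0) := by rw [map_zero]; exact ha
  exact AnalyticAt.fun_comp (g := a) (f := tl) h (tl.analyticAt 0)

theorem cd_tl0 {a : E2 → ℂ} {x : E3} (ha : AnalyticAt ℂ a (Fin.tail x)) :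
    coordDeriv (fun x : E3 => a (Fin.tail x)) 0 x = 0 := by
  unfold coordDeriv
  have h : HasFDerivAt (fun x : E3 => a (Fin.tail x)) ((fderiv ℂ a (Fin.tail x)).comp tl) x :=
    HasFDerivAt.comp (g := a) (f := tl) x ha.differentiableAt.hasFDerivAt tl.hasFDerivAt
  rw [h.fderiv, ContinuousLinearMap.comp_apply]
  have : tl (Pi.single 0 1) = 0 := by
    ext i
    simp [tl, Pi.single_apply]
  rw [this, map_zero]

theorem cd_tl {a : E2 → ℂ} {x : E3} (ha : AnalyticAt ℂ a (Fin.tail x)) (i : Fin 2) :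
    coordDeriv (fun x : E3 => a (Fin.tail x)) i.succ x = coordDeriv a i (Fin.tail x) := by
  unfold coordDeriv
  have h : HasFDerivAt (fun x : E3 => a (Fin.tail x)) ((fderiv ℂ a (Fin.tail x)).comp tl) x :=
    HasFDerivAt.comp (g := a) (f := tl) x ha.differentiableAt.hasFDerivAt tl.hasFDerivAt
  rw [h.fderiv, ContinuousLinearMap.comp_apply]
  have : tl (Pi.single i.succ 1) = Pi.single i 1 := by
    ext j
    simp [tl, Pi.single_apply]
  rw [this]

section Ring

variable {G : Fin 3 → E3 → ℂ}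

/-- the ring homomorphism from plane germs to the local algebra -/
def Pm (G : Fin 3 → E3 → ℂ) : BB 2 →+* QG G :=
  (Ideal.Quotient.mk (Idl (0 : Fin 3 → ℂ) G)).comp (pull tl (tl.analyticAt 0) (map_zero tl))

theorem Pm_gm {a : E2 → ℂ} (ha : AnalyticAt ℂ a 0) :
    Pm G (gm a ha) = cl G (fun x => a (Fin.tail x)) := by
  unfold Pm cl
  rw [gz_eq (an_tl ha)]
  rfl

theorem Pm_x0 : Pm G (xB 0) = cl G (co 1) := by
  unfold Pm cl
  rw [gz_eq (an_co 1)]
  rfl

theorem Pm_x1 : Pm G (xB 1) = cl G (co 2) := by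
  unfold Pm cl
  rw [gz_eq (an_co 2)]
  rfl

theorem Pm_c (c : ℂ) : Pm G (algebraMap ℂ (BB 2) c) = algebraMap ℂ (QG G) c := rfl

/-- the ideal of the origin -/
def MM (G : Fin 3 → E3 → ℂ) : Ideal (QG G) := Ideal.span {cl G (co 0), cl G (co 1), cl G (co 2)}


theorem y_mem : cl G (co 1) ∈ MM G := Ideal.subset_span (by simp)

theorem z_mem : cl G (co 2) ∈ MM G := Ideal.subset_span (by simp)

theorem max_le : (maximalIdeal (BB 2)).map (Pm G) ≤ MM G := by
  rw [Ideal.map_le_iff_le_comap]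
  intro a ha
  obtain ⟨c, y, hy⟩ := hadamard a
  have h1 : evp 0 a = 0 := by
    by_contra hne
    have : IsUnit a := Crest.Agent.R275.Loc2879.isUnit_iff.2 hne
    exact (IsLocalRing.mem_maximalIdeal a).1 ha this
  have h2 : ∀ i, evp (0 : E2) (xB i) = 0 := fun i => rfl
  have h3 : c = 0 := by
    have := congrArg (evp (0 : E2)) hy
    rw [h1, map_add, map_sum] at this
    simp only [map_mul, h2, mul_zero, Finset.sum_const_zero, add_zero] at this
    exact this.symm
  rw [Ideal.mem_comap, hy, h3, map_zero, zero_add, Fin.sum_univ_two, map_add, map_mul, map_mul,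
    Pm_x0, Pm_x1]
  exact Ideal.add_mem _ (Ideal.mul_mem_left _ _ y_mem) (Ideal.mul_mem_left _ _ z_mem)

/-- Taylor expansion in the local algebra -/
theorem taylorQ {a : E2 → ℂ} (ha : AnalyticAt ℂ a 0) (n : ℕ) :
    cl G (fun x => a (Fin.tail x)) - ∑ k ∈ Finset.range n,
      ∑ p ∈ Finset.HasAntidiagonal.antidiagonal k, algebraMap ℂ (QG G) (cf a p.1 p.2) *
        (cl G (co 1) ^ p.1 * cl G (co 2) ^ p.2) ∈ MM G ^ n := by
  have h1 := Ideal.mem_map_of_mem (Pm G) (taylor n ha)
  rw [Ideal.map_pow, map_sub, Pm_gm, map_sum] at h1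
  have h2 := Ideal.pow_right_mono (max_le (G := G)) n h1
  have h3 : ∀ k, Pm G (Hk a k) = ∑ p ∈ Finset.HasAntidiagonal.antidiagonal k,
      algebraMap ℂ (QG G) (cf a p.1 p.2) * (cl G (co 1) ^ p.1 * cl G (co 2) ^ p.2) := fun k => by
    unfold Hk
    rw [map_sum]
    refine Finset.sum_congr rfl fun p _ => ?_
    rw [map_mul, map_mul, map_pow, map_pow, Pm_x0, Pm_x1, Pm_c]
  simp only [h3] at h2
  exact h2

end Ring

end Crest.Agent.R257.Ub6_472
end
end

-- ▼ part R257/Ub7_472
section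

/-!
R257 / Ub7_472: `col ≤ 9` for germs `x² u + x v(y,z) + w(y,z)` with `w ∈ m⁴` and discriminant
quartic without multiple root (`X_9`).
-/

set_option autoImplicit false
set_option linter.unusedVariables false
set_option linter.unusedSectionVars false
set_option linter.unusedSimpArgs false

open Set Filter Topology IsLocalRing
open Crest.AlgGeometry.Germ
open Crest.Agent.R275.Loc2879
open Crest.Agent.R257.Defs_219 Crest.Agent.R257.UI939 Crest.Agent.R257.Ub4_472
open Crest.Agent.R257.LcxDefs_759 Crest.Agent.R257.LcxA_759 Crest.Agent.R257.Ub5_472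
open Crest.Agent.R257.Ub6_472

noncomputable section

namespace Crest.Agent.R257.Ub7_472

/-! ### Taylor coefficients -/

theorem cf_mul_lead {a w : E2 → ℂ} (ha : AnalyticAt ℂ a 0) (hw : AnalyticAt ℂ w 0) {n : ℕ}
    (h : ∀ i j, i + j < n → cf w i j = 0) {i j : ℕ} (hij : i + j = n) :
    cf (fun x => a x * w x) i j = a 0 * cf w i j := by
  rw [cf_mul ha hw, Finset.sum_eq_single (0, i), Finset.sum_eq_single (0, j)]
  · simp [cf_zero_zero]
  · intro b hb hne
    rw [Finset.HasAntidiagonal.mem_antidiagonal] at hb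
    rw [h i b.2, mul_zero]
    by_contra hcon
    apply hne
    ext
    · simp only
      omega
    · simp only
      omega
  · intro hb
    exfalso
    apply hb
    rw [Finset.HasAntidiagonal.mem_antidiagonal]
    simp
  · intro b hb hne
    rw [Finset.HasAntidiagonal.mem_antidiagonal] at hb
    refine Finset.sum_eq_zero fun c hc => ?_
    rw [Finset.HasAntidiagonal.mem_antidiagonal] at hc
    rw [h b.2 c.2, mul_zero]
    by_contra hcon
    apply hne
    ext
    · simp only
      omega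
    · simp only
      omega
  · intro hb
    exfalso
    apply hb
    rw [Finset.HasAntidiagonal.mem_antidiagonal]
    simp

theorem an_cons {u : E3 → ℂ} (hu : AnalyticAt ℂ u 0) :
    AnalyticAt ℂ (fun p : E2 => u (Fin.cons 0 p)) 0 := by
  have h0 : (Fin.cons 0 (0 : E2) : E3) = 0 := by
    ext i
    refine Fin.cases ?_ (fun j => ?_) i <;> simp
  have h1 : AnalyticAt ℂ (fun p : E2 => (Fin.cons 0 p : E3)) 0 := by
    rw [analyticAt_pi_iff]
    intro i
    refine Fin.cases ?_ (fun j => ?_) i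
    · simpa using analyticAt_const
    · simpa using an_coord j (0 : E2)
  have h2 : AnalyticAt ℂ u ((fun p : E2 => (Fin.cons 0 p : E3)) 0) := by
    change AnalyticAt ℂ u (Fin.cons 0 (0 : E2))
    rw [h0]
    exact hu
  exact AnalyticAt.fun_comp (g := u) (f := fun p : E2 => (Fin.cons 0 p : E3)) h2 h1

theorem cons_zero : (Fin.cons 0 (0 : E2) : E3) = 0 := by
  ext i
  refine Fin.cases ?_ (fun j => ?_) i <;> simp

theorem cf_Dsc {u : E3 → ℂ} {v w : E2 → ℂ} (hu : AnalyticAt ℂ u 0) (hv : AnalyticAt ℂ v 0)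
    (hw : AnalyticAt ℂ w 0) (h : ∀ i j, i + j < 4 → cf w i j = 0) {i j : ℕ} (hij : i + j = 4) :
    cf (Dsc u v w) i j = 4 * u 0 * cf w i j - cf (fun p => v p * v p) i j := by
  have ha : AnalyticAt ℂ (fun p : E2 => 4 * u (Fin.cons 0 p)) 0 :=
    analyticAt_const.fun_mul (an_cons hu)
  have e : Dsc u v w = fun p => (4 * u (Fin.cons 0 p)) * w p - v p * v p := by
    funext p
    simp only [Dsc]
    ring
  rw [e, cf_sub (ha.fun_mul hw) (hv.fun_mul hv), cf_mul_lead ha hw h hij, cons_zero]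

/-- the coefficients of the square -/
theorem cf_sq {v : E2 → ℂ} (hv : AnalyticAt ℂ v 0) (h : ∀ i j, i + j ≤ 1 → cf v i j = 0) :
    cf (fun p => v p * v p) 4 0 = cf v 2 0 ^ 2 ∧
    cf (fun p => v p * v p) 3 1 = 2 * cf v 2 0 * cf v 1 1 ∧
    cf (fun p => v p * v p) 2 2 = cf v 1 1 ^ 2 + 2 * cf v 2 0 * cf v 0 2 ∧
    cf (fun p => v p * v p) 1 3 = 2 * cf v 1 1 * cf v 0 2 ∧
    cf (fun p => v p * v p) 0 4 = cf v 0 2 ^ 2 := by
  have h00 := h 0 0 (by norm_num)
  have h10 := h 1 0 (by norm_num)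
  have h01 := h 0 1 (by norm_num)
  refine ⟨?_, ?_, ?_, ?_, ?_⟩ <;> rw [cf_mul hv hv] <;>
    simp [Finset.Nat.antidiagonal_succ, h00, h10, h01] <;> ring

/-! ### the germ -/

/-- the germ `x² u + x v + w` -/
def gf (u : E3 → ℂ) (v w : E2 → ℂ) (x : E3) : ℂ :=
  x 0 ^ 2 * u x + x 0 * v (Fin.tail x) + w (Fin.tail x)

theorem an_gf {u : E3 → ℂ} {v w : E2 → ℂ} (hu : AnalyticAt ℂ u 0) (hv : AnalyticAt ℂ v 0)
    (hw : AnalyticAt ℂ w 0) : AnalyticAt ℂ (gf u v w) 0 :=
  ((((an_co 0).fun_pow 2).fun_mul hu).fun_add ((an_co 0).fun_mul (an_tl hv))).fun_add (an_tl hw)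

theorem cd_co3 (i j : Fin 3) (x : E3) : coordDeriv (co i) j x = if i = j then 1 else 0 := by
  unfold coordDeriv
  have h : HasFDerivAt (co i) (ContinuousLinearMap.proj (R := ℂ)
      (φ := fun _ : Fin 3 => ℂ) i) x := (ContinuousLinearMap.proj (R := ℂ)
      (φ := fun _ : Fin 3 => ℂ) i).hasFDerivAt
  rw [h.fderiv, ContinuousLinearMap.proj_apply, Pi.single_apply]

theorem tail_tendsto : Tendsto (fun x : E3 => Fin.tail x) (𝓝 0) (𝓝 (0 : E2)) := by
  have := tl.continuous.tendsto 0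
  rw [map_zero] at this
  exact this

theorem cd_gf {u : E3 → ℂ} {v w : E2 → ℂ} (hu : AnalyticAt ℂ u 0) (hv : AnalyticAt ℂ v 0)
    (hw : AnalyticAt ℂ w 0) (i : Fin 3) :
    coordDeriv (gf u v w) i =ᶠ[𝓝 0] fun x => 2 * (if i = 0 then 1 else 0) * x 0 * u x +
      x 0 ^ 2 * coordDeriv u i x + (if i = 0 then 1 else 0) * v (Fin.tail x) +
      x 0 * coordDeriv (fun x : E3 => v (Fin.tail x)) i x +
      coordDeriv (fun x : E3 => w (Fin.tail x)) i x := by
  filter_upwards [hu.eventually_analyticAt, (an_tl hv).eventually_analyticAt,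
    (an_tl hw).eventually_analyticAt] with x h1 h2 h3
  have hc : AnalyticAt ℂ (fun x : E3 => x 0) x := an_coord 0 x
  have hd : coordDeriv (fun x : E3 => x 0) i x = if i = 0 then 1 else 0 := by
    have h0 := cd_co3 0 i x
    by_cases hi : i = 0
    · rw [if_pos hi]
      rw [if_pos hi.symm] at h0
      exact h0
    · rw [if_neg hi]
      rw [if_neg (Ne.symm hi)] at h0
      exact h0
  have e1 : coordDeriv (fun x : E3 => x 0 ^ 2 * u x) i x =
      2 * (if i = 0 then 1 else 0) * x 0 * u x + x 0 ^ 2 * coordDeriv u i x := by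
    have e2 : (fun x : E3 => x 0 ^ 2 * u x) = fun x => x 0 * (x 0 * u x) := by
      funext x; ring
    rw [e2, cd_mul hc (hc.fun_mul h1), cd_mul hc h1, hd]
    ring
  have e3 : coordDeriv (fun x : E3 => x 0 * v (Fin.tail x)) i x =
      (if i = 0 then 1 else 0) * v (Fin.tail x) +
        x 0 * coordDeriv (fun x : E3 => v (Fin.tail x)) i x := by
    rw [cd_mul hc h2, hd]
  have e4 : gf u v w = fun x => (x 0 ^ 2 * u x + x 0 * v (Fin.tail x)) + w (Fin.tail x) := rfl
  rw [e4, cd_add (((hc.fun_pow 2).fun_mul h1).fun_add (hc.fun_mul h2)) h3,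
    cd_add ((hc.fun_pow 2).fun_mul h1) (hc.fun_mul h2), e1, e3]
  ring

theorem cd_gf0 {u : E3 → ℂ} {v w : E2 → ℂ} (hu : AnalyticAt ℂ u 0) (hv : AnalyticAt ℂ v 0)
    (hw : AnalyticAt ℂ w 0) : coordDeriv (gf u v w) 0 =ᶠ[𝓝 0] fun x =>
      x 0 * (2 * u x + x 0 * coordDeriv u 0 x) + v (Fin.tail x) := by
  filter_upwards [cd_gf hu hv hw 0, tail_tendsto.eventually hv.eventually_analyticAt,
    tail_tendsto.eventually hw.eventually_analyticAt] with x h1 h2 h3
  rw [h1, cd_tl0 h2, cd_tl0 h3]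
  simp only [if_true]
  ring

theorem cd_gfs {u : E3 → ℂ} {v w : E2 → ℂ} (hu : AnalyticAt ℂ u 0) (hv : AnalyticAt ℂ v 0)
    (hw : AnalyticAt ℂ w 0) (i : Fin 2) : coordDeriv (gf u v w) i.succ =ᶠ[𝓝 0] fun x =>
      x 0 ^ 2 * coordDeriv u i.succ x + x 0 * coordDeriv v i (Fin.tail x) +
        coordDeriv w i (Fin.tail x) := by
  filter_upwards [cd_gf hu hv hw i.succ, tail_tendsto.eventually hv.eventually_analyticAt,
    tail_tendsto.eventually hw.eventually_analyticAt] with x h1 h2 h3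
  rw [h1, cd_tl h2, cd_tl h3, if_neg (Fin.succ_ne_zero i)]
  ring

/-! ### the local algebra -/

section Ring

variable {A : Type*} [CommRing A] [IsLocalRing A] [Algebra ℂ A]

local notation "M" => maximalIdeal A

local notation "κ" => algebraMap ℂ A

theorem ring9 (hres : ∀ a : A, ∃ c : ℂ, a - κ c ∈ M) {x y z : A} (hM : M = Ideal.span {x, y, z})
    {U V U0 U1 U2 V0 V1 W0 W1 : A} {u0 c20 c11 c02 w40 w31 w22 w13 w04 : ℂ} (hu0 : u0 ≠ 0)
    (E0 : x * (2 * U + x * U0) + V = 0) (E1 : x ^ 2 * U1 + x * V0 + W0 = 0)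
    (E2 : x ^ 2 * U2 + x * V1 + W1 = 0) (mU : U - κ u0 ∈ M)
    (TV : V - (κ c20 * y ^ 2 + κ c11 * (y * z) + κ c02 * z ^ 2) ∈ M ^ 3)
    (TV0 : V0 - (2 * κ c20 * y + κ c11 * z) ∈ M ^ 2)
    (TV1 : V1 - (κ c11 * y + 2 * κ c02 * z) ∈ M ^ 2)
    (TW0 : W0 - (4 * κ w40 * y ^ 3 + 3 * κ w31 * (y ^ 2 * z) + 2 * κ w22 * (y * z ^ 2) +
      κ w13 * z ^ 3) ∈ M ^ 4)
    (TW1 : W1 - (κ w31 * y ^ 3 + 2 * κ w22 * (y ^ 2 * z) + 3 * κ w13 * (y * z ^ 2) +
      4 * κ w04 * z ^ 3) ∈ M ^ 4)
    {q : Fin 5 → ℂ} (hq : Ub3_472.NoMult q) (q0 : q 0 = 4 * u0 * w40 - c20 ^ 2)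
    (q1 : q 1 = 4 * u0 * w31 - 2 * c20 * c11) (q2 : q 2 = 4 * u0 * w22 - (c11 ^ 2 + 2 * c20 * c02))
    (q3 : q 3 = 4 * u0 * w13 - 2 * c11 * c02) (q4 : q 4 = 4 * u0 * w04 - c02 ^ 2) :
    Module.Finite ℂ A ∧ Module.finrank ℂ A ≤ 9 := by
  have mx : x ∈ M := by rw [hM]; exact Ideal.subset_span (by simp)
  have my : y ∈ M := by rw [hM]; exact Ideal.subset_span (by simp)
  have mz : z ∈ M := by rw [hM]; exact Ideal.subset_span (by simp)
  have mpow : ∀ {a b : A} {i j k : ℕ}, a ∈ M ^ i → b ∈ M ^ j → i + j = k → a * b ∈ M ^ k := by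
    intro a b i j k ha hb h
    rw [← h, pow_add]
    exact Ideal.mul_mem_mul ha hb
  have one : ∀ {a : A}, a ∈ M → a ∈ M ^ 1 := fun h => by rwa [pow_one]
  have my2 : y ^ 2 ∈ M ^ 2 := Ideal.pow_mem_pow my 2
  have mz2 : z ^ 2 ∈ M ^ 2 := Ideal.pow_mem_pow mz 2
  have myz : y * z ∈ M ^ 2 := mpow (one my) (one mz) rfl
  have le32 : M ^ 3 ≤ M ^ 2 := Ideal.pow_le_pow_right (by norm_num)
  have le43 : M ^ 4 ≤ M ^ 3 := Ideal.pow_le_pow_right (by norm_num)
  have V2 : V ∈ M ^ 2 := by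
    have h := (M ^ 2).add_mem (le32 TV) ((M ^ 2).add_mem ((M ^ 2).add_mem
      ((M ^ 2).mul_mem_left (κ c20) my2) ((M ^ 2).mul_mem_left (κ c11) myz))
      ((M ^ 2).mul_mem_left (κ c02) mz2))
    convert h using 1
    ring
  -- `x ∈ M²`
  have hux : IsUnit (2 * U + x * U0) := by
    by_contra hcon
    have h1 : 2 * U + x * U0 ∈ M := (IsLocalRing.mem_maximalIdeal _).2 hcon
    have h2 : κ (2 * u0) ∈ M := by
      have h := Ideal.sub_mem _ (Ideal.sub_mem _ h1 (Ideal.mul_mem_right U0 _ mx))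
        (Ideal.mul_mem_left _ 2 mU)
      convert h using 1
      rw [map_mul, map_ofNat]
      ring
    have h3 : IsUnit (κ (2 * u0)) := (IsUnit.mk0 (2 * u0) (by simpa using hu0)).map κ
    exact (IsLocalRing.mem_maximalIdeal _).1 h2 h3
  have x2 : x ∈ M ^ 2 := by
    obtain ⟨e, he⟩ := hux.exists_right_inv
    have h1 : x = -(V * e) := by linear_combination (-x) * he + e * E0
    rw [h1]
    exact (M ^ 2).neg_mem ((M ^ 2).mul_mem_right e V2)
  have hM2 : M = Ideal.span {y, z} := P8b_472.two_gens hM x2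
  -- `2 u₀ x ≡ - v₂`
  have D0 : 2 * κ u0 * x + (κ c20 * y ^ 2 + κ c11 * (y * z) + κ c02 * z ^ 2) ∈ M ^ 3 := by
    have h1 : x * (U - κ u0) ∈ M ^ 3 := mpow x2 (one mU) rfl
    have h2 : x * x ∈ M ^ 3 := le43 (mpow x2 x2 rfl)
    have h := (M ^ 3).sub_mem ((M ^ 3).sub_mem ((M ^ 3).mul_mem_left (-2) h1)
      ((M ^ 3).mul_mem_right U0 h2)) TV
    convert h using 1
    linear_combination E0
  have x4 : x * x ∈ M ^ 4 := mpow x2 x2 rfl
  have mV0 : 2 * κ c20 * y + κ c11 * z ∈ M ^ 1 :=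
    one (Ideal.add_mem _ (Ideal.mul_mem_left _ _ my) (Ideal.mul_mem_left _ _ mz))
  have mV1 : κ c11 * y + 2 * κ c02 * z ∈ M ^ 1 :=
    one (Ideal.add_mem _ (Ideal.mul_mem_left _ _ my) (Ideal.mul_mem_left _ _ mz))
  refine Ub3_472.le9 hres hM2 hq ?_ ?_
  · have h := (M ^ 4).sub_mem ((M ^ 4).sub_mem ((M ^ 4).mul_mem_left (-4 * κ u0) TW0)
      ((M ^ 4).add_mem ((M ^ 4).mul_mem_left (4 * κ u0 * U1) x4)
      ((M ^ 4).mul_mem_left (4 * κ u0) (mpow x2 TV0 rfl))))
      ((M ^ 4).mul_mem_left 2 (mpow D0 mV0 rfl))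
    convert h using 1
    simp only [Ub3_472.Qy, q0, q1, q2, q3, map_sub, map_mul, map_pow, map_add, map_ofNat]
    linear_combination (4 * κ u0) * E1
  · have h := (M ^ 4).sub_mem ((M ^ 4).sub_mem ((M ^ 4).mul_mem_left (-4 * κ u0) TW1)
      ((M ^ 4).add_mem ((M ^ 4).mul_mem_left (4 * κ u0 * U2) x4)
      ((M ^ 4).mul_mem_left (4 * κ u0) (mpow x2 TV1 rfl))))
      ((M ^ 4).mul_mem_left 2 (mpow D0 mV1 rfl))
    convert h using 1
    simp only [Ub3_472.Qz, q1, q2, q3, q4, map_sub, map_mul, map_pow, map_add, map_ofNat]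
    linear_combination (4 * κ u0) * E2

end Ring

end Crest.Agent.R257.Ub7_472
end
end

-- ▼ part R257/Ub8_472

/-!
R257 / Ub8_472: **`X_9`**: `col (par f) ≤ 9` for a germ `f` with `f ∘ A = x² u + x v + w`, `w ∈ m⁴`,
discriminant quartic without multiple root (leaf MU of LcxDefs_759).
-/

set_option autoImplicit false
set_option linter.unusedVariables false
set_option linter.unusedSectionVars false
set_option linter.unusedSimpArgs false

open Set Filter Topology IsLocalRing
open Crest.AlgGeometry.Germ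
open Crest.Agent.R275.Loc2879
open Crest.Agent.R257.Defs_219 Crest.Agent.R257.UI939 Crest.Agent.R257.Ub4_472
open Crest.Agent.R257.LcxDefs_759 Crest.Agent.R257.LcxA_759 Crest.Agent.R257.Ub5_472
open Crest.Agent.R257.Ub6_472 Crest.Agent.R257.Ub7_472

noncomputable section

namespace Crest.Agent.R257.Ub8_472

variable {G : Fin 3 → E3 → ℂ} {u : E3 → ℂ} {v w : E2 → ℂ}

theorem germ9 (hG : ∀ i, AnalyticAt ℂ (G i) 0) (hu : AnalyticAt ℂ u 0) (hv : AnalyticAt ℂ v 0)
    (hw : AnalyticAt ℂ w 0) (hu0 : u 0 ≠ 0) (hv0 : ∀ i j, i + j ≤ 1 → cf v i j = 0)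
    (hw0 : ∀ i j, i + j < 4 → cf w i j = 0)
    (e0 : G 0 =ᶠ[𝓝 0] fun x => x 0 * (2 * u x + x 0 * coordDeriv u 0 x) + v (Fin.tail x))
    (es : ∀ i : Fin 2, G i.succ =ᶠ[𝓝 0] fun x => x 0 ^ 2 * coordDeriv u i.succ x +
      x 0 * coordDeriv v i (Fin.tail x) + coordDeriv w i (Fin.tail x))
    (hq : Ub3_472.NoMult ![cf (Dsc u v w) 4 0, cf (Dsc u v w) 3 1, cf (Dsc u v w) 2 2,
      cf (Dsc u v w) 1 3, cf (Dsc u v w) 0 4]) : ColFin G ∧ col G ≤ 9 := by
  have v00 : v 0 = 0 := by rw [← cf_zero_zero v]; exact hv0 0 0 (by norm_num)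
  have hvd : ∀ i : Fin 2, AnalyticAt ℂ (coordDeriv v i) 0 := fun i => an_cd hv i
  have hwd : ∀ i : Fin 2, AnalyticAt ℂ (coordDeriv w i) 0 := fun i => an_cd hw i
  have hud : ∀ i : Fin 3, AnalyticAt ℂ (coordDeriv u i) 0 := fun i => an_cd hu i
  have tail0 : Fin.tail (0 : E3) = (0 : E2) := rfl
  have wd0 : ∀ i : Fin 2, coordDeriv w i 0 = 0 := fun i => by
    rw [← cf_zero_zero (coordDeriv w i)]
    fin_cases i
    · change cf (coordDeriv w 0) 0 0 = 0
      rw [cf_cd0 hw, hw0 _ _ (by norm_num), mul_zero]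
    · change cf (coordDeriv w 1) 0 0 = 0
      rw [cf_cd1 hw, hw0 _ _ (by norm_num), mul_zero]
  have hG0 : ∀ i, G i 0 = 0 := fun i => by
    refine Fin.cases ?_ (fun i => ?_) i
    · rw [e0.self_of_nhds]
      simp only [Pi.zero_apply, tail0, v00]
      ring
    · rw [(es i).self_of_nhds]
      simp only [Pi.zero_apply, tail0, wd0]
      ring
  obtain ⟨inst, hres, hM, hmem, hunit⟩ := setup hG hG0
  have hMM : maximalIdeal (QG G) = MM G := hM
  -- the three relations
  have a2U : AnalyticAt ℂ (fun x : E3 => 2 * u x + x 0 * coordDeriv u 0 x) 0 :=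
    (analyticAt_const.fun_mul hu).fun_add ((an_co 0).fun_mul (hud 0))
  have E0 : cl G (co 0) * (2 * cl G u + cl G (co 0) * cl G (coordDeriv u 0)) +
      cl G (fun x => v (Fin.tail x)) = 0 := by
    have h1 : cl G (G 0) = 0 := cl_gen hG 0
    rw [cl_congr e0] at h1
    have h2 : cl G (fun x : E3 => x 0 * (2 * u x + x 0 * coordDeriv u 0 x) + v (Fin.tail x)) =
        cl G (fun x : E3 => x 0 * (2 * u x + x 0 * coordDeriv u 0 x)) +
          cl G (fun x => v (Fin.tail x)) := cl_add ((an_co 0).fun_mul a2U) (an_tl hv)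
    have h3 : cl G (fun x : E3 => x 0 * (2 * u x + x 0 * coordDeriv u 0 x)) =
        cl G (co 0) * cl G (fun x : E3 => 2 * u x + x 0 * coordDeriv u 0 x) :=
      cl_mul (an_co 0) a2U
    have h4 : cl G (fun x : E3 => 2 * u x + x 0 * coordDeriv u 0 x) =
        cl G (fun x => 2 * u x) + cl G (fun x : E3 => x 0 * coordDeriv u 0 x) :=
      cl_add (analyticAt_const.fun_mul hu) ((an_co 0).fun_mul (hud 0))
    have h5 : cl G (fun x : E3 => x 0 * coordDeriv u 0 x) = cl G (co 0) * cl G (coordDeriv u 0) :=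
      cl_mul (an_co 0) (hud 0)
    rw [h2, h3, h4, h5, cl_const_mul hu, map_ofNat] at h1
    exact h1
  have Es : ∀ i : Fin 2, cl G (co 0) ^ 2 * cl G (coordDeriv u i.succ) +
      cl G (co 0) * cl G (fun x => coordDeriv v i (Fin.tail x)) +
      cl G (fun x => coordDeriv w i (Fin.tail x)) = 0 := fun i => by
    have h1 : cl G (G i.succ) = 0 := cl_gen hG i.succ
    have a1 : AnalyticAt ℂ (fun x : E3 => x 0 ^ 2 * coordDeriv u i.succ x) 0 :=
      ((an_co 0).fun_pow 2).fun_mul (hud i.succ)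
    have a2 : AnalyticAt ℂ (fun x : E3 => x 0 * coordDeriv v i (Fin.tail x)) 0 :=
      (an_co 0).fun_mul (an_tl (hvd i))
    rw [cl_congr (es i)] at h1
    have h2 : cl G (fun x : E3 => x 0 ^ 2 * coordDeriv u i.succ x +
        x 0 * coordDeriv v i (Fin.tail x) + coordDeriv w i (Fin.tail x)) =
        cl G (fun x : E3 => x 0 ^ 2 * coordDeriv u i.succ x +
        x 0 * coordDeriv v i (Fin.tail x)) + cl G (fun x => coordDeriv w i (Fin.tail x)) :=
      cl_add (a1.fun_add a2) (an_tl (hwd i))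
    have h3 : cl G (fun x : E3 => x 0 ^ 2 * coordDeriv u i.succ x) =
        cl G (co 0) ^ 2 * cl G (coordDeriv u i.succ) := by
      rw [← cl_pow (an_co 0)]
      exact cl_mul ((an_co 0).fun_pow 2) (hud i.succ)
    have h4 : cl G (fun x : E3 => x 0 * coordDeriv v i (Fin.tail x)) =
        cl G (co 0) * cl G (fun x => coordDeriv v i (Fin.tail x)) :=
      cl_mul (an_co 0) (an_tl (hvd i))
    rw [h2, cl_add a1 a2, h3, h4] at h1
    exact h1
  have mU : cl G u - algebraMap ℂ (QG G) (u 0) ∈ maximalIdeal (QG G) := by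
    have h1 : cl G (fun x => u x - u 0) ∈ maximalIdeal (QG G) :=
      hmem _ (hu.fun_sub analyticAt_const) (sub_self _)
    rw [cl_sub hu (h := fun _ => u 0) analyticAt_const, cl_const] at h1
    exact h1
  -- Taylor expansions
  have v1' := hv0 0 0 (by norm_num)
  have v2' := hv0 1 0 (by norm_num)
  have v3' := hv0 0 1 (by norm_num)
  have TV : cl G (fun x => v (Fin.tail x)) - (algebraMap ℂ (QG G) (cf v 2 0) * cl G (co 1) ^ 2 +
      algebraMap ℂ (QG G) (cf v 1 1) * (cl G (co 1) * cl G (co 2)) +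
      algebraMap ℂ (QG G) (cf v 0 2) * cl G (co 2) ^ 2) ∈ maximalIdeal (QG G) ^ 3 := by
    have h1 := taylorQ (G := G) hv 3
    rw [hMM]
    simp only [Finset.sum_range_succ, Finset.sum_range_zero, Finset.Nat.antidiagonal_succ,
      Finset.Nat.antidiagonal_zero, Finset.map_singleton, Finset.map_cons, Finset.sum_cons,
      Finset.sum_singleton, Function.Embedding.prodMap, Function.Embedding.coeFn_mk, Prod.map,
      Nat.succ_eq_add_one, Function.Embedding.refl_apply, zero_add, v1', v2', v3', map_zero,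
      zero_mul, pow_zero, mul_one, one_mul, pow_one, Nat.reduceAdd] at h1
    convert h1 using 1
    ring
  have TV0 : cl G (fun x => coordDeriv v 0 (Fin.tail x)) -
      (2 * algebraMap ℂ (QG G) (cf v 2 0) * cl G (co 1) +
      algebraMap ℂ (QG G) (cf v 1 1) * cl G (co 2)) ∈ maximalIdeal (QG G) ^ 2 := by
    have h1 := taylorQ (G := G) (hvd 0) 2
    rw [hMM]
    simp only [Finset.sum_range_succ, Finset.sum_range_zero, Finset.Nat.antidiagonal_succ,
      Finset.Nat.antidiagonal_zero, Finset.map_singleton, Finset.map_cons, Finset.sum_cons,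
      Finset.sum_singleton, Function.Embedding.prodMap, Function.Embedding.coeFn_mk, Prod.map,
      Nat.succ_eq_add_one, Function.Embedding.refl_apply, zero_add, v1', v2', v3', map_zero,
      zero_mul, pow_zero, mul_one, one_mul, pow_one, Nat.reduceAdd, cf_cd0 hv] at h1
    convert h1 using 1
    simp
    ring
  have TV1 : cl G (fun x => coordDeriv v 1 (Fin.tail x)) -
      (algebraMap ℂ (QG G) (cf v 1 1) * cl G (co 1) +
      2 * algebraMap ℂ (QG G) (cf v 0 2) * cl G (co 2)) ∈ maximalIdeal (QG G) ^ 2 := by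
    have h1 := taylorQ (G := G) (hvd 1) 2
    rw [hMM]
    simp only [Finset.sum_range_succ, Finset.sum_range_zero, Finset.Nat.antidiagonal_succ,
      Finset.Nat.antidiagonal_zero, Finset.map_singleton, Finset.map_cons, Finset.sum_cons,
      Finset.sum_singleton, Function.Embedding.prodMap, Function.Embedding.coeFn_mk, Prod.map,
      Nat.succ_eq_add_one, Function.Embedding.refl_apply, zero_add, v1', v2', v3', map_zero,
      zero_mul, pow_zero, mul_one, one_mul, pow_one, Nat.reduceAdd, mul_zero, add_zero, cf_cd1 hv] at h1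
    convert h1 using 1
    simp
    ring
  have k2 : algebraMap ℂ (QG G) 2 = 2 := map_ofNat _ 2
  have k3 : algebraMap ℂ (QG G) 3 = 3 := map_ofNat _ 3
  have w00 := hw0 0 0 (by norm_num)
  have w10 := hw0 1 0 (by norm_num)
  have w01 := hw0 0 1 (by norm_num)
  have w20 := hw0 2 0 (by norm_num)
  have w11 := hw0 1 1 (by norm_num)
  have w02 := hw0 0 2 (by norm_num)
  have w30 := hw0 3 0 (by norm_num)
  have w21 := hw0 2 1 (by norm_num)
  have w12 := hw0 1 2 (by norm_num)
  have w03 := hw0 0 3 (by norm_num)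
  have TW0 : cl G (fun x => coordDeriv w 0 (Fin.tail x)) -
      (4 * algebraMap ℂ (QG G) (cf w 4 0) * cl G (co 1) ^ 3 +
      3 * algebraMap ℂ (QG G) (cf w 3 1) * (cl G (co 1) ^ 2 * cl G (co 2)) +
      2 * algebraMap ℂ (QG G) (cf w 2 2) * (cl G (co 1) * cl G (co 2) ^ 2) +
      algebraMap ℂ (QG G) (cf w 1 3) * cl G (co 2) ^ 3) ∈ maximalIdeal (QG G) ^ 4 := by
    have h1 := taylorQ (G := G) (hwd 0) 4
    rw [hMM]
    simp only [Finset.sum_range_succ, Finset.sum_range_zero, Finset.Nat.antidiagonal_succ,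
      Finset.Nat.antidiagonal_zero, Finset.map_singleton, Finset.map_cons, Finset.sum_cons,
      Finset.sum_singleton, Function.Embedding.prodMap, Function.Embedding.coeFn_mk, Prod.map,
      Nat.succ_eq_add_one, Function.Embedding.refl_apply, zero_add, w00, w10, w01, w20, w11, w02, w30,
      w21, w12, w03, map_zero,
      zero_mul, pow_zero, mul_one, one_mul, pow_one, Nat.reduceAdd, mul_zero, add_zero, cf_cd0 hw] at h1
    convert h1 using 1
    simp
    rw [k2, k3]
    ring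
  have TW1 : cl G (fun x => coordDeriv w 1 (Fin.tail x)) -
      (algebraMap ℂ (QG G) (cf w 3 1) * cl G (co 1) ^ 3 +
      2 * algebraMap ℂ (QG G) (cf w 2 2) * (cl G (co 1) ^ 2 * cl G (co 2)) +
      3 * algebraMap ℂ (QG G) (cf w 1 3) * (cl G (co 1) * cl G (co 2) ^ 2) +
      4 * algebraMap ℂ (QG G) (cf w 0 4) * cl G (co 2) ^ 3) ∈ maximalIdeal (QG G) ^ 4 := by
    have h1 := taylorQ (G := G) (hwd 1) 4
    rw [hMM]
    simp only [Finset.sum_range_succ, Finset.sum_range_zero, Finset.Nat.antidiagonal_succ,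
      Finset.Nat.antidiagonal_zero, Finset.map_singleton, Finset.map_cons, Finset.sum_cons,
      Finset.sum_singleton, Function.Embedding.prodMap, Function.Embedding.coeFn_mk, Prod.map,
      Nat.succ_eq_add_one, Function.Embedding.refl_apply, zero_add, w00, w10, w01, w20, w11, w02, w30,
      w21, w12, w03, map_zero,
      zero_mul, pow_zero, mul_one, one_mul, pow_one, Nat.reduceAdd, mul_zero, add_zero, cf_cd1 hw] at h1
    convert h1 using 1
    simp
    rw [k2, k3]
    ring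
  obtain ⟨s0, s1, s2, s3, s4⟩ := cf_sq hv hv0
  have key := ring9 hres hM hu0 E0 (Es 0) (Es 1) mU TV TV0 TV1 TW0 TW1 hq
    (by simp [cf_Dsc hu hv hw hw0 (i := 4) (j := 0) rfl, s0])
    (by simp [cf_Dsc hu hv hw hw0 (i := 3) (j := 1) rfl, s1])
    (by simp [cf_Dsc hu hv hw hw0 (i := 2) (j := 2) rfl, s2])
    (by simp [cf_Dsc hu hv hw hw0 (i := 1) (j := 3) rfl, s3])
    (by simp [cf_Dsc hu hv hw hw0 (i := 0) (j := 4) rfl, s4])
  exact ⟨(colFin_iff hG).2 key.1, by rw [col_eq hG]; exact key.2⟩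

/-- **`X_9`** -/
theorem quart_mu' {f : E3 → ℂ} (hf : AnalyticAt ℂ f 0) (A : E3 ≃L[ℂ] E3)
    (hD : Dcp (fun x => f (A x)) u v w) (h3 : ∀ i j, i + j = 3 → cf w i j = 0)
    (hq : Ub3_472.NoMult ![cf (Dsc u v w) 4 0, cf (Dsc u v w) 3 1, cf (Dsc u v w) 2 2,
      cf (Dsc u v w) 1 3, cf (Dsc u v w) 0 4]) : ColFin (par f) ∧ col (par f) ≤ 9 := by
  have hw0 : ∀ i j, i + j < 4 → cf w i j = 0 := by
    intro i j hij
    rcases Nat.lt_or_ge (i + j) 3 with h | h
    · exact hD.w0 i j (by omega)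
    · exact h3 i j (by omega)
  have hfA : AnalyticAt ℂ (fun x => f (A x)) 0 :=
    (an_gf hD.au hD.av hD.aw).congr (hD.eq.mono fun x hx => hx.symm)
  have hc := LCa_472.par_comp (f := fun x => f (A x)) (g := f) (θ := A) hf
    (A.toContinuousLinearMap.analyticAt 0) (map_zero A) (by
      rw [A.fderiv]
      exact A.injective) hfA (Eventually.of_forall fun x => rfl)
  have hcd : ∀ i, par (fun x => f (A x)) i =ᶠ[𝓝 0] coordDeriv (gf u v w) i := fun i =>
    cd_congr (hD.eq.mono fun x hx => hx) i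
  have hG : ∀ i, AnalyticAt ℂ (par (fun x => f (A x)) i) 0 := fun i => an_cd hfA i
  have key := germ9 hG hD.au hD.av hD.aw hD.u0 hD.v0 hw0
    ((hcd 0).trans (cd_gf0 hD.au hD.av hD.aw))
    (fun i => (hcd i.succ).trans (cd_gfs hD.au hD.av hD.aw i)) hq
  exact ⟨hc.1.2 key.1, by rw [hc.2]; exact key.2⟩

theorem quart_mu {f : E3 → ℂ} (hf : Iso f) (A : E3 ≃L[ℂ] E3)
    (hD : Dcp (fun x => f (A x)) u v w) (h3 : ∀ i j, i + j = 3 → cf w i j = 0)
    (hq : Ub3_472.NoMult ![cf (Dsc u v w) 4 0, cf (Dsc u v w) 3 1, cf (Dsc u v w) 2 2,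
      cf (Dsc u v w) 1 3, cf (Dsc u v w) 0 4]) : col (par f) ≤ 9 :=
  (quart_mu' hf.an A hD h3 hq).2

end Crest.Agent.R257.Ub8_472
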