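import Crest.Agent.R257.Cl2G_475
import Crest.Agent.R257.EVi_929
import Crest.Agent.R257.Ub8_472
import Crest.Agent.R257.Cl2C_475

-- ▼ part R257/Cl2H_475
section

/-!
R257 / Cl2H_475: in the situation of `SextStmt` (normal form `sext_nf`), the weighted (2,1)
coefficients of order `6` of the discriminant.
-/

set_option autoImplicit false
set_option linter.deprecated false

open Topology Filter Set Asymptotics
open Crest.AlgGeometry.Germ

noncomputable section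

namespace Crest.Agent.R257.Cl2H_475

open Crest.Agent.R257.Defs_219 Crest.Agent.R257.LcxDefs_759 Crest.Agent.R257.Kp_405
open Crest.Agent.R257.Cl2_475 Crest.Agent.R257.Cl2D_475 Crest.Agent.R257.Cl2E_475
open Crest.Agent.R257.Cl2F_475 Crest.Agent.R257.Cl2G_475

/-- one-variable analytic function minus its 2-jet -/
lemma sub_two_jet {θ : ℂ → ℂ} (hθ : AnalyticAt ℂ θ 0) (h0 : θ 0 = 0) (h1 : deriv θ 0 = 0) :
    ∃ θ₂ : ℂ, (fun z : ℂ => θ z - θ₂ * z ^ 2) =O[𝓝 0] fun z : ℂ => z ^ 3 := by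
  obtain ⟨C, hC⟩ := (sub_one_jet hθ h0).bound
  have hC' : ∀ᶠ z in 𝓝 (0 : ℂ), ‖θ z‖ ≤ C * ‖z‖ ^ 2 := by
    filter_upwards [hC] with z hz
    rw [h1, zero_mul, sub_zero, norm_pow] at hz
    exact hz
  obtain ⟨g, hg, he⟩ := exists_pow_mul_of_bound hθ hC'
  refine ⟨g 0, ?_⟩
  have h2 := hg.differentiableAt.isBigO_sub
  have h3 : (fun z : ℂ => z ^ 2 * (g z - g 0)) =O[𝓝 0] fun z : ℂ => z ^ 2 * (z - 0) :=
    (isBigO_refl _ _).mul h2
  refine IsBigO.congr' h3 ?_ ?_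
  · filter_upwards [he] with z hz
    rw [hz]
    ring
  · exact Eventually.of_forall fun z => by ring


/-- an analytic germ `O(|p|^6)` has vanishing coefficients of degree `≤ 5` -/
lemma cf_of_bigO {g : E2 → ℂ} (hg : AnalyticAt ℂ g 0) {n : ℕ}
    (h : (fun q : ℂ × ℂ => g (pt q)) =O[𝓝 0] fun q => ‖q‖ ^ (n + 1)) {i j : ℕ} (hij : i + j ≤ n) :
    cf g i j = 0 := by
  -- the polynomial is `O`
  have h1 := (pol_cf hg n).comp_tendsto tendsto_pt
  have h2 : (fun q : ℂ × ℂ => Pol (cf g) n (pt q)) =O[𝓝 0] fun q => ‖q‖ ^ (n + 1) := by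
    have h3 : (fun q : ℂ × ℂ => g (pt q) - Pol (cf g) n (pt q)) =O[𝓝 0] fun q => ‖q‖ ^ (n + 1) := by
      refine h1.congr (fun q => rfl) fun q => ?_
      simp only [Function.comp, norm_pt]
    refine (h.sub h3).congr_left fun q => ?_
    ring
  -- one variable: `p = s (a, b)`
  have h3 : ∀ a b : ℂ, ∀ k ≤ n, ∑ i ∈ Finset.range (n + 1), ∑ j ∈ Finset.range (n + 1 - i),
      (if i + j = k then cf g i j * a ^ i * b ^ j else 0) = 0 := by
    intro a b k hk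
    have ts : Tendsto (fun s : ℂ => s • ((a, b) : ℂ × ℂ)) (𝓝 0) (𝓝 0) :=
      (by fun_prop : Continuous (fun s : ℂ => s • ((a, b) : ℂ × ℂ))).tendsto' _ _ (zero_smul _ _)
    have h4 := h2.comp_tendsto ts
    have h5 : (fun s : ℂ => ∑ k ∈ Finset.range (n + 1),
        (∑ i ∈ Finset.range (n + 1), ∑ j ∈ Finset.range (n + 1 - i),
          (if i + j = k then cf g i j * a ^ i * b ^ j else 0)) * s ^ k) =O[𝓝 0]
        fun s : ℂ => s ^ (n + 1) := by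
      have h6 : ((fun q : ℂ × ℂ => ‖q‖ ^ (n + 1)) ∘ fun s : ℂ => s • ((a, b) : ℂ × ℂ)) =O[𝓝 0]
          fun s : ℂ => s ^ (n + 1) := by
        refine IsBigO.of_bound (‖((a, b) : ℂ × ℂ)‖ ^ (n + 1)) (Eventually.of_forall fun s => ?_)
        simp only [Function.comp, norm_smul, mul_pow]
        rw [norm_mul, norm_pow, norm_pow, norm_norm, norm_norm, norm_pow, mul_comm]
      refine (h4.trans h6).congr_left fun s => ?_
      · simp only [Function.comp, Pol, pt_0, pt_1, Prod.smul_mk, smul_eq_mul]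
        symm
        simp only [Finset.sum_mul]
        rw [Finset.sum_comm]
        refine Finset.sum_congr rfl fun i hi => ?_
        rw [Finset.sum_comm]
        refine Finset.sum_congr rfl fun j hj => ?_
        rw [Finset.mem_range] at hi hj
        simp only [ite_mul, zero_mul]
        rw [Finset.sum_ite_eq, if_pos (by rw [Finset.mem_range]; omega), pow_add, mul_pow, mul_pow]
        ring
    exact coeff_zero h5 (by omega) (by omega)
  -- polynomial in `a` with `b = 1`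
  have h4 : ∀ a : ℂ, ∑ l ∈ Finset.range (i + j + 1), cf g l (i + j - l) * a ^ l = 0 := by
    intro a
    rw [← h3 a 1 (i + j) hij]
    have : ∀ l ∈ Finset.range (n + 1), ∑ m ∈ Finset.range (n + 1 - l),
        (if l + m = i + j then cf g l m * a ^ l * 1 ^ m else 0) =
        if l < i + j + 1 then cf g l (i + j - l) * a ^ l else 0 := by
      intro l hl
      rw [Finset.mem_range] at hl
      by_cases hl' : l < i + j + 1
      · rw [if_pos hl', Finset.sum_eq_single (i + j - l)]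
        · rw [if_pos (by omega), one_pow, mul_one]
        · intro m _ hm
          rw [if_neg (by omega)]
        · intro hm
          rw [Finset.mem_range] at hm
          omega
      · rw [if_neg hl']
        refine Finset.sum_eq_zero fun m _ => ?_
        rw [if_neg (by omega)]
    rw [Finset.sum_congr rfl this, ← Finset.sum_filter]
    refine Finset.sum_congr ?_ fun _ _ => rfl
    ext l
    simp only [Finset.mem_range, Finset.mem_filter]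
    omega
  have h5 := coeff_zero (N := i + j + 1) (n := i + j + 1) (c := fun l => cf g l (i + j - l))
    (by
      simp only [h4]
      exact isBigO_zero _ _) (show i < i + j + 1 by omega) (by omega)
  rwa [show i + j - i = j by omega] at h5

/-- an analytic function of a bounded quantity differs from its value at `0` by `O(s)` -/
lemma sub_value {E : Type*} [NormedAddCommGroup E] [NormedSpace ℂ E] {G : E → ℂ}
    (hG : AnalyticAt ℂ G 0) {c : ℂ → E} (hc : c =O[𝓝 0] fun s : ℂ => s)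
    (tc : Tendsto c (𝓝 0) (𝓝 0)) : (fun s : ℂ => G (c s) - G 0) =O[𝓝 0] fun s : ℂ => s := by
  have h1 := hG.differentiableAt.isBigO_sub.comp_tendsto tc
  refine h1.trans ?_
  refine hc.congr_left fun s => ?_
  simp

/-- **the weighted 6-part of the discriminant** in the situation of `SextStmt` -/
theorem sext_six {u : E3 → ℂ} {v w : E2 → ℂ} (hu : AnalyticAt ℂ u 0) (hv : AnalyticAt ℂ v 0)
    (hw : AnalyticAt ℂ w 0) {φ U : ℂ × ℂ → ℂ} {θ b₄ c₆ : ℂ → ℂ} (hφ : AnalyticAt ℂ φ 0)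
    (hU : AnalyticAt ℂ U 0) (hθ : AnalyticAt ℂ θ 0) (hθ0 : θ 0 = 0) (hθ1 : deriv θ 0 = 0)
    (hb : AnalyticAt ℂ b₄ 0) (hc : AnalyticAt ℂ c₆ 0)
    (he : ∀ᶠ q in 𝓝 (0 : ℂ × ℂ), φ (q.2, q.1) =
        U q * ((q.2 + θ q.1) ^ 3 + q.1 ^ 4 * b₄ q.1 * (q.2 + θ q.1) + q.1 ^ 6 * c₆ q.1))
    (h2 : (fun q : ℂ × ℂ => Dsc u v w (pt q) - 4 * u (Fin.cons 0 (pt q)) * φ q) =O[𝓝 0]
        fun q => ‖q‖ ^ 6) :
    ∃ θ₂ : ℂ, ((fun z : ℂ => θ z - θ₂ * z ^ 2) =O[𝓝 0] fun z : ℂ => z ^ 3) ∧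
      cf (Dsc u v w) 3 0 = 4 * u 0 * U 0 ∧
      cf (Dsc u v w) 2 2 = 4 * u 0 * U 0 * (3 * θ₂) ∧
      cf (Dsc u v w) 1 4 = 4 * u 0 * U 0 * (3 * θ₂ ^ 2 + b₄ 0) := by
  obtain ⟨θ₂, hθ₂⟩ := sub_two_jet hθ hθ0 hθ1
  have hδ := an_Dsc hu hv hw
  refine ⟨θ₂, hθ₂, ?_⟩
  -- the error term `E`
  have hcons : AnalyticAt ℂ (fun p : E2 => u (Fin.cons 0 p)) 0 := by
    have h1 : AnalyticAt ℂ (fun p : E2 => (Fin.cons 0 p : E3)) 0 := by
      rw [analyticAt_pi_iff]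
      intro i
      refine Fin.cases ?_ (fun j => ?_) i
      · simp only [Fin.cons_zero]
        exact analyticAt_const
      · simp only [Fin.cons_succ]
        exact (ContinuousLinearMap.proj (R := ℂ) (φ := fun _ : Fin 2 => ℂ) j).analyticAt 0
    refine AnalyticAt.comp (g := u) (f := fun p : E2 => (Fin.cons 0 p : E3)) ?_ h1
    have : (Fin.cons 0 (0 : E2) : E3) = 0 := by
      ext i
      fin_cases i <;> rfl
    rw [this]
    exact hu
  set Er : E2 → ℂ := fun p => Dsc u v w p - 4 * u (Fin.cons 0 p) * φ (pt.symm p) with hEr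
  have hφs : AnalyticAt ℂ (fun p : E2 => φ (pt.symm p)) 0 :=
    AnalyticAt.comp (g := φ) (f := pt.symm) (by rw [map_zero]; exact hφ) (pt.symm.analyticAt 0)
  have hEra : AnalyticAt ℂ Er 0 := hδ.sub ((analyticAt_const.mul hcons).mul hφs)
  have hErO : (fun q : ℂ × ℂ => Er (pt q)) =O[𝓝 0] fun q => ‖q‖ ^ (5 + 1) := by
    refine h2.congr_left fun q => ?_
    simp only [hEr, ContinuousLinearEquiv.symm_apply_apply]
  have hEr0 : ∀ i j, i + j ≤ 5 → cf Er i j = 0 := fun i j hij => cf_of_bigO hEra hErO hij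
  have V := 4 * u 0 * U 0
  have key : ∀ a b : ℂ, (fun s : ℂ => Dsc u v w (pt (s ^ 2 * a, s * b)) -
      ∑ k ∈ Finset.range (6 + 1), (if k = 6 then
        4 * u 0 * U 0 * ((a + θ₂ * b ^ 2) ^ 3 + b ^ 4 * b₄ 0 * (a + θ₂ * b ^ 2) + b ^ 6 * c₆ 0) +
          cf Er 0 6 * b ^ 6 else 0) * s ^ k) =O[𝓝 0] fun s : ℂ => s ^ (6 + 1) := by
    intro a b
    have e0 : ∀ s : ℂ, ∑ k ∈ Finset.range (6 + 1), (if k = 6 then
        4 * u 0 * U 0 * ((a + θ₂ * b ^ 2) ^ 3 + b ^ 4 * b₄ 0 * (a + θ₂ * b ^ 2) + b ^ 6 * c₆ 0) +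
          cf Er 0 6 * b ^ 6 else 0) * s ^ k =
        (4 * u 0 * U 0 * ((a + θ₂ * b ^ 2) ^ 3 + b ^ 4 * b₄ 0 * (a + θ₂ * b ^ 2) + b ^ 6 * c₆ 0) +
          cf Er 0 6 * b ^ 6) * s ^ 6 := by
      intro s
      rw [Finset.sum_eq_single 6]
      · simp
      · intro k _ hk
        rw [if_neg hk, zero_mul]
      · intro h
        simp at h
    have tw := tendsto_w a b
    have tw' : Tendsto (fun s : ℂ => ((s * b, s ^ 2 * a) : ℂ × ℂ)) (𝓝 0) (𝓝 0) :=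
      (by fun_prop : Continuous (fun s : ℂ => ((s * b, s ^ 2 * a) : ℂ × ℂ))).tendsto' _ _ (by simp)
    have tb : Tendsto (fun s : ℂ => s * b) (𝓝 0) (𝓝 0) :=
      (by fun_prop : Continuous (fun s : ℂ => s * b)).tendsto' _ _ (by simp)
    have sb : (fun s : ℂ => s * b) =O[𝓝 0] fun s : ℂ => s := by
      refine IsBigO.of_bound ‖b‖ (Eventually.of_forall fun s => ?_)
      rw [norm_mul, mul_comm]
    have sw' : (fun s : ℂ => ((s * b, s ^ 2 * a) : ℂ × ℂ)) =O[𝓝 0] fun s : ℂ => s := by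
      refine (norm_w_bigO a b).norm_left.congr' ?_ EventuallyEq.rfl |>.of_norm_left
      exact Eventually.of_forall fun s => by
        simp only [Prod.norm_def, max_comm]
    -- (i) the error term
    have e1 : (fun s : ℂ => Er (pt (s ^ 2 * a, s * b)) - cf Er 0 6 * b ^ 6 * s ^ 6) =O[𝓝 0]
        fun s : ℂ => s ^ 7 := by
      have tp : Tendsto (fun s : ℂ => pt (s ^ 2 * a, s * b)) (𝓝 0) (𝓝 0) := tendsto_pt.comp tw
      have h3 := (pol_cf hEra 6).comp_tendsto tp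
      have h4 : (fun s : ℂ => ‖pt (s ^ 2 * a, s * b)‖ ^ (6 + 1)) =O[𝓝 0] fun s : ℂ => s ^ 7 := by
        refine ((norm_w_bigO a b).norm_left.pow 7).congr_left fun s => ?_
        rw [norm_pt]
      have h5 : (fun s : ℂ => Pol (cf Er) 6 (pt (s ^ 2 * a, s * b)) - cf Er 0 6 * b ^ 6 * s ^ 6)
          =O[𝓝 0] fun s : ℂ => s ^ 7 := by
        have h6 : ∀ s : ℂ, Pol (cf Er) 6 (pt (s ^ 2 * a, s * b)) - cf Er 0 6 * b ^ 6 * s ^ 6 =
            s ^ 7 * (cf Er 1 5 * a * b ^ 5 + cf Er 2 4 * a ^ 2 * b ^ 4 * s +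
              cf Er 3 3 * a ^ 3 * b ^ 3 * s ^ 2 + cf Er 4 2 * a ^ 4 * b ^ 2 * s ^ 3 +
              cf Er 5 1 * a ^ 5 * b * s ^ 4 + cf Er 6 0 * a ^ 6 * s ^ 5) := by
          intro s
          rw [← wc_sum]
          simp only [wc, Finset.sum_range_succ, Finset.sum_range_zero]
          simp only [Nat.reduceAdd, Nat.reduceMul, Nat.reduceEqDiff, Nat.reduceSub,
            Finset.sum_range_succ, Finset.sum_range_zero, hEr0 0 0 (by norm_num),
            hEr0 0 1 (by norm_num), hEr0 0 2 (by norm_num),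
            hEr0 0 3 (by norm_num), hEr0 0 4 (by norm_num), hEr0 0 5 (by norm_num),
            hEr0 1 0 (by norm_num), hEr0 1 1 (by norm_num), hEr0 1 2 (by norm_num),
            hEr0 1 3 (by norm_num), hEr0 1 4 (by norm_num), hEr0 2 0 (by norm_num),
            hEr0 2 1 (by norm_num), hEr0 2 2 (by norm_num), hEr0 2 3 (by norm_num),
            hEr0 3 0 (by norm_num), hEr0 3 1 (by norm_num), hEr0 3 2 (by norm_num),
            hEr0 4 0 (by norm_num), hEr0 4 1 (by norm_num), hEr0 5 0 (by norm_num)]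
          simp
          ring
        simp only [h6]
        have h7 : (fun s : ℂ => cf Er 1 5 * a * b ^ 5 + cf Er 2 4 * a ^ 2 * b ^ 4 * s +
              cf Er 3 3 * a ^ 3 * b ^ 3 * s ^ 2 + cf Er 4 2 * a ^ 4 * b ^ 2 * s ^ 3 +
              cf Er 5 1 * a ^ 5 * b * s ^ 4 + cf Er 6 0 * a ^ 6 * s ^ 5) =O[𝓝 0]
              fun _ => (1 : ℝ) := by
          have : ContinuousAt (fun s : ℂ => cf Er 1 5 * a * b ^ 5 + cf Er 2 4 * a ^ 2 * b ^ 4 * s +
              cf Er 3 3 * a ^ 3 * b ^ 3 * s ^ 2 + cf Er 4 2 * a ^ 4 * b ^ 2 * s ^ 3 +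
              cf Er 5 1 * a ^ 5 * b * s ^ 4 + cf Er 6 0 * a ^ 6 * s ^ 5) 0 := by fun_prop
          exact this.tendsto.isBigO_one ℝ
        have h8 := (isBigO_refl (fun s : ℂ => s ^ 7) (𝓝 0)).norm_right.mul h7
        refine h8.trans (IsBigO.of_bound 1 (Eventually.of_forall fun s => ?_))
        simp
      refine ((h3.trans h4).add h5).congr_left fun s => ?_
      simp only [Function.comp]
      ring
    -- (ii) the main term
    have tc : Tendsto (fun s : ℂ => pt (s ^ 2 * a, s * b)) (𝓝 0) (𝓝 0) := tendsto_pt.comp tw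
    have scp : (fun s : ℂ => pt (s ^ 2 * a, s * b)) =O[𝓝 0] fun s : ℂ => s := by
      refine IsBigO.of_norm_left ?_
      refine (norm_w_bigO a b).norm_left.congr_left fun s => ?_
      rw [norm_pt]
    have u1 : (fun s : ℂ => u (Fin.cons 0 (pt (s ^ 2 * a, s * b))) - u 0) =O[𝓝 0]
        fun s : ℂ => s := by
      have h3 := sub_value hcons scp tc
      refine h3.congr_left fun s => ?_
      congr 2
      ext i
      fin_cases i <;> rfl
    have U1 : (fun s : ℂ => U (s * b, s ^ 2 * a) - U 0) =O[𝓝 0] fun s : ℂ => s :=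
      sub_value hU sw' tw'
    have b1 : (fun s : ℂ => b₄ (s * b) - b₄ 0) =O[𝓝 0] fun s : ℂ => s := sub_value hb sb tb
    have c1 : (fun s : ℂ => c₆ (s * b) - c₆ 0) =O[𝓝 0] fun s : ℂ => s := sub_value hc sb tb
    have one_of : ∀ {G : ℂ → ℂ} {d : ℂ}, ((fun s : ℂ => G s - d) =O[𝓝 0] fun s : ℂ => s) →
        G =O[𝓝 0] fun _ => (1 : ℂ) := by
      intro G d hG
      have h3 : (fun s : ℂ => s) =O[𝓝 (0 : ℂ)] fun _ => (1 : ℂ) := by
        have : ContinuousAt (fun s : ℂ => s) 0 := by fun_prop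
        exact this.tendsto.isBigO_one ℂ
      have h4 : (fun _ : ℂ => d) =O[𝓝 (0 : ℂ)] fun _ => (1 : ℂ) := isBigO_const_const _ one_ne_zero _
      exact ((hG.trans h3).add h4).congr_left fun s => by ring
    -- `Y = s² a + θ(s b) = s² (a + θ₂ b²) + O(s³)`
    have Y1 : (fun s : ℂ => (s ^ 2 * a + θ (s * b)) - s ^ 2 * (a + θ₂ * b ^ 2)) =O[𝓝 0]
        fun s : ℂ => s ^ 3 := by
      have h3 := (hθ₂.comp_tendsto tb).trans (sb.pow 3)
      refine h3.congr_left fun s => ?_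
      simp only [Function.comp]
      ring
    -- `Y = s² y`, `y = a + θ₂ b² + O(s)`
    set Y0 : ℂ := a + θ₂ * b ^ 2 with hY0
    have Yb : (fun s : ℂ => s ^ 2 * a + θ (s * b)) =O[𝓝 0] fun s : ℂ => s ^ 2 := by
      have h3 : (fun s : ℂ => s ^ 3) =O[𝓝 (0 : ℂ)] fun s : ℂ => s ^ 2 := by
        refine IsBigO.of_bound 1 ?_
        filter_upwards [Metric.ball_mem_nhds (0 : ℂ) one_pos] with s hs
        have hs' : ‖s‖ ≤ 1 := by
          have : ‖s‖ < 1 := by simpa using hs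
          exact this.le
        rw [one_mul, norm_pow, norm_pow]
        exact pow_le_pow_of_le_one (norm_nonneg _) hs' (by norm_num)
      have h4 : (fun s : ℂ => s ^ 2 * Y0) =O[𝓝 (0 : ℂ)] fun s : ℂ => s ^ 2 := by
        refine IsBigO.of_bound ‖Y0‖ (Eventually.of_forall fun s => ?_)
        rw [norm_mul, mul_comm]
      exact ((Y1.trans h3).add h4).congr_left fun s => by ring
    have Y0b : (fun s : ℂ => s ^ 2 * Y0) =O[𝓝 (0 : ℂ)] fun s : ℂ => s ^ 2 := by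
      refine IsBigO.of_bound ‖Y0‖ (Eventually.of_forall fun s => ?_)
      rw [norm_mul, mul_comm]
    have B1 : (fun s : ℂ => ((s ^ 2 * a + θ (s * b)) ^ 3 +
          (s * b) ^ 4 * b₄ (s * b) * (s ^ 2 * a + θ (s * b)) + (s * b) ^ 6 * c₆ (s * b)) -
        s ^ 6 * (Y0 ^ 3 + b ^ 4 * b₄ 0 * Y0 + b ^ 6 * c₆ 0)) =O[𝓝 0] fun s : ℂ => s ^ 7 := by
      have h3 : ∀ s : ℂ, ((s ^ 2 * a + θ (s * b)) ^ 3 +
          (s * b) ^ 4 * b₄ (s * b) * (s ^ 2 * a + θ (s * b)) + (s * b) ^ 6 * c₆ (s * b)) -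
          s ^ 6 * (Y0 ^ 3 + b ^ 4 * b₄ 0 * Y0 + b ^ 6 * c₆ 0) =
          ((s ^ 2 * a + θ (s * b)) - s ^ 2 * Y0) * ((s ^ 2 * a + θ (s * b)) ^ 2 +
            (s ^ 2 * a + θ (s * b)) * (s ^ 2 * Y0) + (s ^ 2 * Y0) ^ 2) +
          ((s * b) ^ 4 * ((b₄ (s * b) - b₄ 0) * (s ^ 2 * a + θ (s * b))) +
            (s * b) ^ 4 * b₄ 0 * ((s ^ 2 * a + θ (s * b)) - s ^ 2 * Y0)) +
          (s * b) ^ 6 * (c₆ (s * b) - c₆ 0) := by
        intro s
        ring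
      simp only [h3]
      refine IsBigO.add (IsBigO.add ?_ (IsBigO.add ?_ ?_)) ?_
      · have h4 : (fun s : ℂ => (s ^ 2 * a + θ (s * b)) ^ 2 +
            (s ^ 2 * a + θ (s * b)) * (s ^ 2 * Y0) + (s ^ 2 * Y0) ^ 2) =O[𝓝 0]
            fun s : ℂ => s ^ 4 := by
          refine IsBigO.add (IsBigO.add ?_ ?_) ?_
          · exact (Yb.pow 2).congr_right fun s => by ring
          · exact (Yb.mul Y0b).congr_right fun s => by ring
          · exact (Y0b.pow 2).congr_right fun s => by ring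
        exact (Y1.mul h4).congr_right fun s => by ring
      · exact ((sb.pow 4).mul (b1.mul Yb)).congr_right fun s => by ring
      · refine (((sb.pow 4).mul (isBigO_refl (fun _ : ℂ => b₄ 0) _)).mul Y1).trans ?_
        refine IsBigO.of_bound ‖b₄ 0‖ (Eventually.of_forall fun s => ?_)
        simp only [norm_mul, norm_pow]
        apply le_of_eq
        ring
      · exact ((sb.pow 6).mul c1).congr_right fun s => by ring
    have e2 : (fun s : ℂ => φ (s ^ 2 * a, s * b) -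
        U 0 * (s ^ 6 * (Y0 ^ 3 + b ^ 4 * b₄ 0 * Y0 + b ^ 6 * c₆ 0))) =O[𝓝 0]
        fun s : ℂ => s ^ 7 := by
      have h3 : (fun s : ℂ => φ (s ^ 2 * a, s * b) -
          U 0 * (s ^ 6 * (Y0 ^ 3 + b ^ 4 * b₄ 0 * Y0 + b ^ 6 * c₆ 0))) =ᶠ[𝓝 0] fun s =>
          U (s * b, s ^ 2 * a) * (((s ^ 2 * a + θ (s * b)) ^ 3 +
          (s * b) ^ 4 * b₄ (s * b) * (s ^ 2 * a + θ (s * b)) + (s * b) ^ 6 * c₆ (s * b)) -
            s ^ 6 * (Y0 ^ 3 + b ^ 4 * b₄ 0 * Y0 + b ^ 6 * c₆ 0)) +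
          (U (s * b, s ^ 2 * a) - U 0) * (s ^ 6 * (Y0 ^ 3 + b ^ 4 * b₄ 0 * Y0 + b ^ 6 * c₆ 0)) := by
        filter_upwards [tw'.eventually he] with s hs
        rw [hs]
        ring
      refine IsBigO.congr' ?_ h3.symm EventuallyEq.rfl
      refine IsBigO.add ?_ ?_
      · exact ((one_of U1).mul B1).congr_right fun s => by ring
      · refine (U1.mul ((isBigO_refl (fun s : ℂ => s ^ 6) _).mul
          (isBigO_const_const (Y0 ^ 3 + b ^ 4 * b₄ 0 * Y0 + b ^ 6 * c₆ 0) (one_ne_zero (α := ℂ)) _))).congr_right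
          fun s => by ring
    have e3 : (fun s : ℂ => 4 * u (Fin.cons 0 (pt (s ^ 2 * a, s * b))) * φ (s ^ 2 * a, s * b) -
        4 * u 0 * (U 0 * (s ^ 6 * (Y0 ^ 3 + b ^ 4 * b₄ 0 * Y0 + b ^ 6 * c₆ 0)))) =O[𝓝 0]
        fun s : ℂ => s ^ 7 := by
      have h3 : ∀ s : ℂ, 4 * u (Fin.cons 0 (pt (s ^ 2 * a, s * b))) * φ (s ^ 2 * a, s * b) -
          4 * u 0 * (U 0 * (s ^ 6 * (Y0 ^ 3 + b ^ 4 * b₄ 0 * Y0 + b ^ 6 * c₆ 0))) =
          4 * (u (Fin.cons 0 (pt (s ^ 2 * a, s * b))) * (φ (s ^ 2 * a, s * b) -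
            U 0 * (s ^ 6 * (Y0 ^ 3 + b ^ 4 * b₄ 0 * Y0 + b ^ 6 * c₆ 0)))) +
          4 * ((u (Fin.cons 0 (pt (s ^ 2 * a, s * b))) - u 0) *
            (U 0 * (s ^ 6 * (Y0 ^ 3 + b ^ 4 * b₄ 0 * Y0 + b ^ 6 * c₆ 0)))) := by
        intro s
        ring
      simp only [h3]
      refine IsBigO.add (IsBigO.const_mul_left ?_ 4) (IsBigO.const_mul_left ?_ 4)
      · exact ((one_of u1).mul e2).congr_right fun s => by ring
      · refine (u1.mul ((isBigO_const_const (U 0) (one_ne_zero (α := ℂ)) _).mul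
          ((isBigO_refl (fun s : ℂ => s ^ 6) _).mul
          (isBigO_const_const (Y0 ^ 3 + b ^ 4 * b₄ 0 * Y0 + b ^ 6 * c₆ 0) (one_ne_zero (α := ℂ)) _)))).congr_right
          fun s => by ring
    simp only [e0]
    refine (e1.add e3).congr_left fun s => ?_
    simp only [hEr, ContinuousLinearEquiv.symm_apply_apply]
    ring
  have k6 : ∀ a b : ℂ, wc (cf (Dsc u v w)) a b 6 =
      4 * u 0 * U 0 * ((a + θ₂ * b ^ 2) ^ 3 + b ^ 4 * b₄ 0 * (a + θ₂ * b ^ 2) + b ^ 6 * c₆ 0) +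
          cf Er 0 6 * b ^ 6 := by
    intro a b
    have := wc_of_bigO hδ (m := 6) (by norm_num) (key a b) (k := 6) le_rfl
    rw [this, if_pos rfl]
  simp only [wc6] at k6
  have a0 := k6 0 1
  have a1 := k6 1 1
  have a2 := k6 (-1) 1
  have a3 := k6 2 1
  refine ⟨?_, ?_, ?_⟩
  · linear_combination (a3 - 3 * a1 + 3 * a0 - a2) / 6
  · linear_combination (a1 + a2 - 2 * a0) / 2
  · linear_combination (-a3 + 6 * a1 - 3 * a0 - 2 * a2) / 6

end Crest.Agent.R257.Cl2H_475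
end
end

-- ▼ part R257/EVk_929
section

/-!
R257 / EVk_929 (helper929): the case of a cubic part `κ y³`: `SextStmt` of `LcxDefs_759` from the
`μ` bound.
-/

set_option autoImplicit false
set_option linter.deprecated false

open Topology Filter Set Asymptotics
open Crest.AlgGeometry.Germ

noncomputable section

namespace Crest.Agent.R257.EVk_929

open Crest.Agent.R257.Defs_219 Crest.Agent.R257.LcxDefs_759 Crest.Agent.R257.Kp_405
open Crest.Agent.R257.Cl2_475 Crest.Agent.R257.Cl2D_475 Crest.Agent.R257.Cl2E_475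
open Crest.Agent.R257.Cl2F_475 Crest.Agent.R257.Cl2G_475 Crest.Agent.R257.Cl2H_475
open Crest.Agent.R257.EVa_929 (TB)
open Crest.Agent.R257.EVb_929 (Bd cm)
open Crest.Agent.R257.EVc_929 (gp Pl)
open Crest.Agent.R257.EVe_929 (ev_cubic)
open Crest.Agent.R257.EVg_929 Crest.Agent.R257.EVi_929

/-- the normal form from the 3-jet (475's `sext_nf`) -/
theorem nf_of {f : E3 → ℂ} {w : E2 → ℂ} (hf : LC0 f) {φ : ℂ × ℂ → ℂ} (hR : Red f φ)
    (hw : AnalyticAt ℂ w 0) (hw0 : ∀ i j, i + j ≤ 2 → cf w i j = 0)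
    (h1 : (fun q : ℂ × ℂ => φ q - w (pt q)) =O[𝓝 0] fun q => ‖q‖ ^ 4)
    (h30 : cf w 3 0 ≠ 0) (h21 : cf w 2 1 = 0) (h12 : cf w 1 2 = 0) (h03 : cf w 0 3 = 0) :
    ∃ (U : ℂ × ℂ → ℂ) (θ b₄ c₆ : ℂ → ℂ), AnalyticAt ℂ U 0 ∧ U 0 ≠ 0 ∧
      AnalyticAt ℂ θ 0 ∧ θ 0 = 0 ∧ deriv θ 0 = 0 ∧ AnalyticAt ℂ b₄ 0 ∧ AnalyticAt ℂ c₆ 0 ∧
      (b₄ 0 ≠ 0 ∨ c₆ 0 ≠ 0) ∧
      (∀ᶠ q in 𝓝 (0 : ℂ × ℂ), φ (q.2, q.1) =
        U q * ((q.2 + θ q.1) ^ 3 + q.1 ^ 4 * b₄ q.1 * (q.2 + θ q.1) + q.1 ^ 6 * c₆ q.1)) := by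
  have hj := jet_crit hw hw0 h1
  rcases cube_or hf hR hj with ⟨h, -⟩ | ⟨-, h3⟩
  · exact absurd h h30
  · obtain ⟨U, θ, b₄, c₆, hU, hU0, hθ, hθ0, hb, hc, hbc, he, hk⟩ :=
      h3 (ContinuousLinearEquiv.prodComm ℂ ℂ ℂ) (by simpa [kf] using h30)
    refine ⟨U, θ, b₄, c₆, hU, hU0, hθ, hθ0, ?_, hb, hc, hbc, ?_⟩
    · have h4 := hk (1, 0)
      simp [kf, h21, h12, h03] at h4
      exact h4.resolve_left hU0
    · filter_upwards [he] with q hq
      exact hq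

/-- `θ = z² t` -/
theorem exists_t {θ : ℂ → ℂ} (hθ : AnalyticAt ℂ θ 0) (θ0 : θ 0 = 0) (θ1 : deriv θ 0 = 0) {θ₂ : ℂ}
    (h : (fun z : ℂ => θ z - θ₂ * z ^ 2) =O[𝓝 0] fun z : ℂ => z ^ 3) :
    ∃ t : ℂ → ℂ, AnalyticAt ℂ t 0 ∧ (∀ᶠ z in 𝓝 (0 : ℂ), θ z = z ^ 2 * t z) ∧ t 0 = θ₂ := by
  obtain ⟨C, hC⟩ := (sub_one_jet hθ θ0).bound
  obtain ⟨t, ht, hte⟩ := exists_pow_mul_of_bound (a := θ) hθ (n := 2) (C := C) (by
    filter_upwards [hC] with z hz
    rw [θ1, zero_mul, sub_zero, norm_pow] at hz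
    exact hz)
  refine ⟨t, ht, hte, ?_⟩
  obtain ⟨K, hK⟩ := h.bound
  have h1 : ∀ᶠ z in 𝓝[≠] (0 : ℂ), ‖t z - θ₂‖ ≤ K * ‖z‖ := by
    filter_upwards [nhdsWithin_le_nhds hK, nhdsWithin_le_nhds hte, self_mem_nhdsWithin]
      with z a b hz
    have hz' : 0 < ‖z‖ := norm_pos_iff.2 hz
    rw [b, show z ^ 2 * t z - θ₂ * z ^ 2 = z ^ 2 * (t z - θ₂) by ring, norm_mul, norm_pow,
      norm_pow] at a
    have h2 : ‖z‖ ^ 2 * ‖t z - θ₂‖ ≤ ‖z‖ ^ 2 * (K * ‖z‖) := a.trans (le_of_eq (by ring))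
    exact le_of_mul_le_mul_left h2 (by positivity)
  have h2 : Tendsto (fun z => ‖t z - θ₂‖) (𝓝[≠] (0 : ℂ)) (𝓝 ‖t 0 - θ₂‖) :=
    ((ht.continuousAt.sub continuousAt_const).norm.tendsto).mono_left nhdsWithin_le_nhds
  have h3 : Tendsto (fun z : ℂ => K * ‖z‖) (𝓝[≠] (0 : ℂ)) (𝓝 0) := by
    have : Tendsto (fun z : ℂ => K * ‖z‖) (𝓝 0) (𝓝 0) :=
      (by fun_prop : Continuous (fun z : ℂ => K * ‖z‖)).tendsto' _ _ (by simp)
    exact this.mono_left nhdsWithin_le_nhds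
  have h4 := le_of_tendsto_of_tendsto h2 h3 h1
  have h5 : ‖t 0 - θ₂‖ = 0 := le_antisymm h4 (norm_nonneg _)
  exact sub_eq_zero.1 (norm_eq_zero.1 h5)

/-- `μ ≤ 10` (472) -/
def SextMu : Prop := ∀ (f : E3 → ℂ) (φ : ℂ × ℂ → ℂ) (e : (ℂ × ℂ) ≃L[ℂ] (ℂ × ℂ)) (u : ℂ × ℂ → ℂ)
  (θ b₄ c₆ : ℂ → ℂ), Iso f → Red f φ → AnalyticAt ℂ u 0 → u 0 ≠ 0 → AnalyticAt ℂ θ 0 → θ 0 = 0 →
  AnalyticAt ℂ b₄ 0 → AnalyticAt ℂ c₆ 0 →
  (∀ᶠ w in 𝓝 (0 : ℂ × ℂ), φ (e w) =
    u w * ((w.2 + θ w.1) ^ 3 + w.1 ^ 4 * b₄ w.1 * (w.2 + θ w.1) + w.1 ^ 6 * c₆ w.1)) →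
  4 * b₄ 0 ^ 3 + 27 * c₆ 0 ^ 2 ≠ 0 → col (par f) ≤ 10

/-- **the trace bound in the case of discriminant zero** -/
theorem trace_sext {g : E3 → ℂ} {C : ℝ} {X : E2 → ℂ} (hSt : St g C X) {U : ℂ × ℂ → ℂ}
    {θ b₄ c₆ : ℂ → ℂ} (hU : AnalyticAt ℂ U 0) (hU0 : U 0 ≠ 0) (hθ : AnalyticAt ℂ θ 0)
    (θ0 : θ 0 = 0) (θ1 : deriv θ 0 = 0) {θ₂ : ℂ}
    (h : (fun z : ℂ => θ z - θ₂ * z ^ 2) =O[𝓝 0] fun z : ℂ => z ^ 3)
    (hb : AnalyticAt ℂ b₄ 0) (hc : AnalyticAt ℂ c₆ 0) (hbc : b₄ 0 ≠ 0 ∨ c₆ 0 ≠ 0)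
    (hd : 4 * b₄ 0 ^ 3 + 27 * c₆ 0 ^ 2 = 0)
    (he : ∀ᶠ q in 𝓝 (0 : ℂ × ℂ), g (Fin.cons (X (pt (q.2, q.1))) (pt (q.2, q.1))) =
      U q * ((q.2 + θ q.1) ^ 3 + q.1 ^ 4 * b₄ q.1 * (q.2 + θ q.1) + q.1 ^ 6 * c₆ q.1)) :
    1 ≤ 1764 * C ^ 2 * ‖coordDeriv (coordDeriv g 0) 0 0‖ ^ 2 * (12 * ‖U 0‖ ^ 2 * ‖b₄ 0‖) := by
  have b0 : b₄ 0 ≠ 0 := by
    intro hb0
    rw [hb0] at hd
    have h1 : c₆ 0 ^ 2 = 0 := by linear_combination hd / 27
    rcases hbc with h2 | h2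
    · exact h2 hb0
    · exact h2 (pow_eq_zero_iff two_ne_zero |>.1 h1)
  have c0 : c₆ 0 ≠ 0 := by
    intro hc0
    rw [hc0] at hd
    have h1 : b₄ 0 ^ 3 = 0 := by linear_combination hd / 4
    exact b0 (pow_eq_zero_iff three_ne_zero |>.1 h1)
  obtain ⟨t, ht, hte, ht0⟩ := exists_t hθ θ0 θ1 h
  set b := b₄ 0 with hbd
  set c := c₆ 0 with hcd
  set ρ := -(3 * c) / (2 * b) with hρ
  have hρ2 : 3 * ρ ^ 2 + b = 0 := by
    rw [hρ]
    field_simp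
    linear_combination hd
  have hρ3 : ρ ^ 3 + b * ρ + c = 0 := by
    have h1 : ρ * (2 * b) = -(3 * c) := by
      rw [hρ]
      field_simp
    linear_combination ρ / 3 * hρ2 + h1 / 3
  have hρ0 : ρ ≠ 0 := by
    intro h0
    rw [h0] at hρ3
    apply c0
    linear_combination hρ3
  -- the pieces
  have hp : ∀ i : Fin 2, AnalyticAt ℂ (fun q : E2 => q i) 0 := fun i =>
    (ContinuousLinearMap.proj (R := ℂ) (φ := fun _ : Fin 2 => ℂ) i).analyticAt 0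
  have hUa : AnalyticAt ℂ (fun q : E2 => U (q 0, q 1)) 0 :=
    AnalyticAt.fun_comp (g := U) (f := fun q : E2 => (q 0, q 1)) hU ((hp 0).prod (hp 1))
  have hta : AnalyticAt ℂ (fun q : E2 => t (q 0)) 0 :=
    AnalyticAt.fun_comp (g := t) (f := fun q : E2 => q 0) ht (hp 0)
  have hba : AnalyticAt ℂ (fun q : E2 => b₄ (q 0)) 0 :=
    AnalyticAt.fun_comp (g := b₄) (f := fun q : E2 => q 0) hb (hp 0)
  have hca : AnalyticAt ℂ (fun q : E2 => c₆ (q 0)) 0 :=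
    AnalyticAt.fun_comp (g := c₆) (f := fun q : E2 => q 0) hc (hp 0)
  set cc : Fin (3 + 1) → E2 → ℂ := ![
    fun q => U (q 0, q 1) * (t (q 0) ^ 3 + b₄ (q 0) * t (q 0) + c₆ (q 0)),
    fun q => U (q 0, q 1) * (3 * t (q 0) ^ 2 + b₄ (q 0)),
    fun q => U (q 0, q 1) * (3 * t (q 0)),
    fun q => U (q 0, q 1)] with hcc
  set v : E2 := ![0, 1] with hv
  set u : E2 := ![1, 0] with hu
  have hmq : ∀ q : E2, mq v u q = pt (q 1, q 0) := by
    intro q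
    funext i
    fin_cases i <;> simp [mq, hv, hu]
  have hPl : Pl (fun q => cm g (AM v u) (gp (fun q => X (mq v u q)) q)) 2 3 cc := by
    refine ⟨?_, ?_, ?_⟩
    · intro j
      fin_cases j
      · exact hUa.mul (((hta.pow 3).add (hba.mul hta)).add hca)
      · exact hUa.mul ((analyticAt_const.mul (hta.pow 2)).add hba)
      · exact hUa.mul (analyticAt_const.mul hta)
      · exact hUa
    · have t1 : Tendsto (fun q : E2 => (q 0, q 1)) (𝓝 0) (𝓝 (0 : ℂ × ℂ)) :=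
        (by fun_prop : Continuous (fun q : E2 => (q 0, q 1))).tendsto' _ _ rfl
      have t2 : Tendsto (fun q : E2 => q 0) (𝓝 0) (𝓝 (0 : ℂ)) :=
        (by fun_prop : Continuous (fun q : E2 => q 0)).tendsto' _ _ rfl
      filter_upwards [t1.eventually he, t2.eventually hte] with q a1 a2
      rw [cm_gp, hmq]
      rw [a1, a2]
      simp only [Fin.sum_univ_succ, Fin.sum_univ_zero]
      change _ = q 1 ^ 0 * q 0 ^ (2 * (3 - 0)) *
          (U (q 0, q 1) * (t (q 0) ^ 3 + b₄ (q 0) * t (q 0) + c₆ (q 0))) +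
        (q 1 ^ 1 * q 0 ^ (2 * (3 - 1)) * (U (q 0, q 1) * (3 * t (q 0) ^ 2 + b₄ (q 0))) +
        (q 1 ^ 2 * q 0 ^ (2 * (3 - 2)) * (U (q 0, q 1) * (3 * t (q 0))) +
        (q 1 ^ 3 * q 0 ^ (2 * (3 - 3)) * U (q 0, q 1) + 0)))
      norm_num
      ring
    · exact hU0
  have hdet : (AM v u).det = -1 := by
    rw [det_AM]
    simp [hv, hu]
  have hB := hSt.bd.cm (A := AM v u) (by rw [hdet]; norm_num)
  rw [hdet, norm_neg, norm_one, one_pow, div_one] at hB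
  have hxx : coordDeriv (coordDeriv (cm g (AM v u)) 2) 2 0 ≠ 0 := by
    rw [hSt.e']
    exact hSt.e0
  have z0 : ((0 : E2) 0, (0 : E2) 1) = (0 : ℂ × ℂ) := rfl
  have key := ev_cubic hB (hSt.zero' v u) (hSt.crit' v u) (hSt.aX' v u) (hSt.X0' v u)
    (hSt.X1' v u) hxx hPl (c0 := U 0 * (θ₂ ^ 3 + b * θ₂ + c)) (c1 := U 0 * (3 * θ₂ ^ 2 + b))
    (c2 := U 0 * (3 * θ₂)) (c3 := U 0) (w₀ := ρ - θ₂)
    (by rw [← ht0]; rfl)
    (by rw [← ht0]; rfl)
    (by rw [← ht0]; rfl)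
    rfl
    (by linear_combination U 0 * hρ3)
    (by linear_combination U 0 * hρ2)
    (by
      have e1 : 6 * U 0 * (ρ - θ₂) + 2 * (U 0 * (3 * θ₂)) = 6 * U 0 * ρ := by ring
      rw [e1]
      exact mul_ne_zero (mul_ne_zero (by norm_num) hU0) hρ0)
  rw [hSt.e'] at key
  have e1 : 6 * U 0 * (ρ - θ₂) + 2 * (U 0 * (3 * θ₂)) = 6 * U 0 * ρ := by ring
  rw [e1] at key
  have key2 := pow_le_pow_left₀ zero_le_one key 2
  rw [one_pow] at key2
  have e2 : ‖ρ‖ ^ 2 = ‖b‖ / 3 := by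
    have h1 : ρ ^ 2 = -b / 3 := by linear_combination hρ2 / 3
    rw [← norm_pow, h1, norm_div, norm_neg]
    simp
  refine key2.trans (le_of_eq ?_)
  rw [norm_mul, norm_mul, norm_mul, mul_pow, mul_pow, mul_pow, mul_pow, mul_pow, e2]
  have e6 : ‖(6 : ℂ)‖ = 6 := by simp
  rw [e6]
  ring

/-- **(B2)** of `LcxDefs_759` -/
theorem sext_of (hmu : SextMu) : SextStmt := by
  refine ⟨1764, by norm_num, fun f A u v w r C hf hD hG h30 h21 h12 h03 => ?_⟩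
  refine ⟨sext_first A hf hD h30 h21 h12 h03, ?_⟩
  obtain ⟨X, hSt, hR, h1, h2⟩ := st_of A hf hD hG
  obtain ⟨U, θ, b₄, c₆, hU, hU0, hθ, hθ0, hθ1, hb, hc, hbc, he⟩ :=
    nf_of hf hR hD.aw hD.w0 h1 h30 h21 h12 h03
  by_cases hd : 4 * b₄ 0 ^ 3 + 27 * c₆ 0 ^ 2 = 0
  · right
    have hφ : AnalyticAt ℂ (fun q : ℂ × ℂ => f (A (Fin.cons (X (pt q)) (pt q)))) 0 := by
      have h3 : AnalyticAt ℂ (fun x => f (A x)) 0 := an_of_bd hSt.bd
      have h4 : AnalyticAt ℂ (fun q : ℂ × ℂ => (Fin.cons (X (pt q)) (pt q) : E3)) 0 := by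
        have h5 : AnalyticAt ℂ (fun q : ℂ × ℂ => X (pt q)) 0 := an_pt hSt.aX
        have h6 : (fun q : ℂ × ℂ => (Fin.cons (X (pt q)) (pt q) : E3)) =
            fun q => kap (q, X (pt q)) := rfl
        rw [h6]
        exact AnalyticAt.fun_comp (g := kap) (f := fun q : ℂ × ℂ => (q, X (pt q)))
          (kap.analyticAt _) (analyticAt_id.prod h5)
      refine AnalyticAt.fun_comp (g := fun x => f (A x))
        (f := fun q : ℂ × ℂ => (Fin.cons (X (pt q)) (pt q) : E3)) ?_ h4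
      have h7 : (Fin.cons (X (pt 0)) (pt 0) : E3) = 0 := by
        rw [map_zero, hSt.X0]
        funext i
        fin_cases i <;> rfl
      rw [h7]
      exact h3
    obtain ⟨θ₂, hθ₂, k30, k22, k14⟩ := sext_six hD.au hD.av hD.aw hφ hU hθ hθ0 hθ1 hb hc he h2
    have key := trace_sext hSt hU hU0 hθ hθ0 hθ1 hθ₂ hb hc hbc hd he
    rw [g00 hD] at key
    refine key.trans (le_of_eq ?_)
    have e1 : cf (Dsc u v w) 2 2 ^ 2 - 3 * cf (Dsc u v w) 3 0 * cf (Dsc u v w) 1 4 =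
        -(48 * u 0 ^ 2 * U 0 ^ 2 * b₄ 0) := by
      rw [k30, k22, k14]
      ring
    rw [e1, norm_neg, norm_mul, norm_mul, norm_mul, norm_mul, norm_pow, norm_pow]
    have e2 : ‖(2 : ℂ)‖ = 2 := by simp
    have e48 : ‖(48 : ℂ)‖ = 48 := by simp
    rw [e2, e48]
    ring
  · left
    exact hmu f _ (ContinuousLinearEquiv.prodComm ℂ ℂ ℂ) U θ b₄ c₆ hf.iso hR hU hU0 hθ hθ0 hb hc
      he hd

end Crest.Agent.R257.EVk_929
end
end

-- ▼ part R257/Ub9_472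
section

/-!
R257 / Ub9_472: `col ≤ 10` for `U(y³ + z⁴ b(z) y + z⁶ c(z)) + x² Q`, `4 b(0)³ + 27 c(0)² ≠ 0`
(`J_10`), in the coordinates `(x,y,z) = (x 0, x 1, x 2)`.
-/

set_option autoImplicit false
set_option linter.unusedVariables false
set_option linter.unusedSectionVars false
set_option linter.unusedSimpArgs false

open Set Filter Topology IsLocalRing
open Crest.AlgGeometry.Germ
open Crest.Agent.R275.Loc2879
open Crest.Agent.R257.Defs_219 Crest.Agent.R257.UI939 Crest.Agent.R257.Ub4_472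
open Crest.Agent.R257.LcxDefs_759 Crest.Agent.R257.LcxA_759 Crest.Agent.R257.Ub5_472
open Crest.Agent.R257.Ub6_472 Crest.Agent.R257.Ub7_472
open Crest.Agent.R257.Ub1_472 (WI mono_mem)

noncomputable section

namespace Crest.Agent.R257.Ub9_472

section Ring

variable {A : Type*} [CommRing A] [IsLocalRing A] [Algebra ℂ A]

local notation "M" => maximalIdeal A

local notation "κ" => algebraMap ℂ A

theorem unit_cancel {I : Ideal A} {u a : A} (hu : IsUnit u) (h : u * a ∈ I) : a ∈ I := by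
  obtain ⟨e, he⟩ := hu.exists_left_inv
  have : a = e * (u * a) := by rw [← mul_assoc, he, one_mul]
  rw [this]
  exact I.mul_mem_left _ h

theorem ring10 (hres : ∀ a : A, ∃ c : ℂ, a - κ c ∈ M) {x y z : A} (hM : M = Ideal.span {x, y, z})
    {P Uu D1 D2 Q1 Q2 B B' B1 C C' C1 : A} {b0 c0 : ℂ} (hd : 4 * b0 ^ 3 + 27 * c0 ^ 2 ≠ 0)
    (hP : IsUnit P) (hU : IsUnit Uu) (E0 : x * P = 0)
    (E1 : D1 * (y ^ 3 + z ^ 4 * B * y + z ^ 6 * C) + Uu * (3 * y ^ 2 + z ^ 4 * B) + x ^ 2 * Q1 = 0)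
    (E2 : D2 * (y ^ 3 + z ^ 4 * B * y + z ^ 6 * C) + Uu * (4 * z ^ 3 * B * y + z ^ 4 * B' * y +
      6 * z ^ 5 * C + z ^ 6 * C') + x ^ 2 * Q2 = 0) (hB : B = κ b0 + z * B1)
    (hC : C = κ c0 + z * C1) : Module.Finite ℂ A ∧ Module.finrank ℂ A ≤ 10 := by
  have x0 : x = 0 := by
    obtain ⟨e, he⟩ := hP.exists_right_inv
    linear_combination (-x) * he + e * E0
  have hM2 : M = Ideal.span {y, z} := by
    rw [hM, x0, Ideal.span_insert_zero]
  have w6 : ∀ {i j : ℕ}, 6 ≤ 2 * i + 1 * j → y ^ i * z ^ j ∈ WI 2 1 y z 6 := fun h => mono_mem h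
  have hN : y ^ 3 + z ^ 4 * B * y + z ^ 6 * C ∈ WI 2 1 y z 6 := by
    have h := (WI 2 1 y z 6).add_mem ((WI 2 1 y z 6).add_mem (w6 (i := 3) (j := 0) (by norm_num))
      ((WI 2 1 y z 6).mul_mem_left B (w6 (i := 1) (j := 4) (by norm_num))))
      ((WI 2 1 y z 6).mul_mem_left C (w6 (i := 0) (j := 6) (by norm_num)))
    convert h using 1
    ring
  have F1 : 3 * y ^ 2 + z ^ 4 * B ∈ WI 2 1 y z 6 := by
    refine unit_cancel hU ?_
    have h := (WI 2 1 y z 6).mul_mem_left (-D1) hN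
    convert h using 1
    rw [x0] at E1
    linear_combination E1
  have F2 : 4 * z ^ 3 * B * y + z ^ 4 * B' * y + 6 * z ^ 5 * C + z ^ 6 * C' ∈ WI 2 1 y z 6 := by
    refine unit_cancel hU ?_
    have h := (WI 2 1 y z 6).mul_mem_left (-D2) hN
    convert h using 1
    rw [x0] at E2
    linear_combination E2
  refine Ub2_472.le10 hres hM2 1 0 b0 c0 one_ne_zero ?_ ?_ ?_
  · intro h
    apply hd
    linear_combination (1 / 9) * h
  · have h := (WI 2 1 y z 5).sub_mem (Ub1_472.anti (by norm_num : 5 ≤ 6) F1)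
      ((WI 2 1 y z 5).mul_mem_left B1 (mono_mem (i := 0) (j := 5) (by norm_num)))
    convert h using 1
    rw [hB]
    simp only [map_one, map_zero]
    ring
  · refine Ub2_472.unscaleI (c := 2) two_ne_zero ?_
    have h := (WI 2 1 y z 6).sub_mem F2 ((WI 2 1 y z 6).add_mem ((WI 2 1 y z 6).add_mem
      ((WI 2 1 y z 6).mul_mem_left (4 * B1 + B') (w6 (i := 1) (j := 4) (by norm_num)))
      ((WI 2 1 y z 6).mul_mem_left (6 * C1) (w6 (i := 0) (j := 6) (by norm_num))))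
      ((WI 2 1 y z 6).mul_mem_left C' (w6 (i := 0) (j := 6) (by norm_num))))
    convert h using 1
    rw [hB, hC]
    simp only [map_zero, map_ofNat]
    ring

end Ring

/-! ### the germ -/

/-- `y³ + z⁴ b(z) y + z⁶ c(z)` -/
def Nf (b c : ℂ → ℂ) (x : E3) : ℂ := x 1 ^ 3 + x 2 ^ 4 * b (x 2) * x 1 + x 2 ^ 6 * c (x 2)

/-- the germ -/
def gj (U Q : E3 → ℂ) (b c : ℂ → ℂ) (x : E3) : ℂ := U x * Nf b c x + x 0 ^ 2 * Q x

theorem an_c {b : ℂ → ℂ} (hb : AnalyticAt ℂ b 0) : AnalyticAt ℂ (fun x : E3 => b (x 2)) 0 :=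
  AnalyticAt.fun_comp (g := b) (f := fun x : E3 => x 2) hb (an_co 2)

theorem an_Nf {b c : ℂ → ℂ} (hb : AnalyticAt ℂ b 0) (hc : AnalyticAt ℂ c 0) :
    AnalyticAt ℂ (Nf b c) 0 :=
  (((an_co 1).fun_pow 3).fun_add ((((an_co 2).fun_pow 4).fun_mul (an_c hb)).fun_mul
    (an_co 1))).fun_add (((an_co 2).fun_pow 6).fun_mul (an_c hc))

theorem an_gj {U Q : E3 → ℂ} {b c : ℂ → ℂ} (hU : AnalyticAt ℂ U 0) (hQ : AnalyticAt ℂ Q 0)
    (hb : AnalyticAt ℂ b 0) (hc : AnalyticAt ℂ c 0) : AnalyticAt ℂ (gj U Q b c) 0 :=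
  (hU.fun_mul (an_Nf hb hc)).fun_add (((an_co 0).fun_pow 2).fun_mul hQ)

theorem hasF_co (i : Fin 3) (x : E3) : HasFDerivAt (fun x : E3 => x i)
    (ContinuousLinearMap.proj (R := ℂ) (φ := fun _ : Fin 3 => ℂ) i) x :=
  (ContinuousLinearMap.proj (R := ℂ) (φ := fun _ : Fin 3 => ℂ) i).hasFDerivAt

theorem cd_c {b : ℂ → ℂ} {x : E3} (hb : AnalyticAt ℂ b (x 2)) (i : Fin 3) :
    coordDeriv (fun x : E3 => b (x 2)) i x = if i = 2 then deriv b (x 2) else 0 := by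
  unfold coordDeriv
  have h : HasFDerivAt (fun x : E3 => b (x 2)) ((deriv b (x 2)) •
      (ContinuousLinearMap.proj (R := ℂ) (φ := fun _ : Fin 3 => ℂ) 2)) x :=
    (hb.differentiableAt.hasDerivAt).comp_hasFDerivAt x (hasF_co 2 x)
  rw [h.fderiv]
  fin_cases i <;> simp [Pi.single_apply]

theorem cd_pow (j i : Fin 3) (k : ℕ) (x : E3) :
    coordDeriv (fun x : E3 => x j ^ k) i x = if i = j then k * x j ^ (k - 1) else 0 := by
  unfold coordDeriv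
  have h : HasFDerivAt (fun x : E3 => x j ^ k) ((k * x j ^ (k - 1)) •
      (ContinuousLinearMap.proj (R := ℂ) (φ := fun _ : Fin 3 => ℂ) j)) x :=
    (hasDerivAt_pow k (x j)).comp_hasFDerivAt x (hasF_co j x)
  rw [h.fderiv]
  simp only [smul_apply, ContinuousLinearMap.proj_apply, Pi.single_apply,
    smul_eq_mul]
  by_cases hij : i = j
  · rw [if_pos hij, if_pos hij.symm, mul_one]
  · rw [if_neg hij, if_neg (Ne.symm hij), mul_zero]

theorem cd_Nf {b c : ℂ → ℂ} (hb : AnalyticAt ℂ b 0) (hc : AnalyticAt ℂ c 0) (i : Fin 3) :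
    ∀ᶠ x : E3 in 𝓝 0, coordDeriv (Nf b c) i x =
      (if i = 1 then 3 * x 1 ^ 2 + x 2 ^ 4 * b (x 2) else 0) +
      (if i = 2 then 4 * x 2 ^ 3 * b (x 2) * x 1 + x 2 ^ 4 * deriv b (x 2) * x 1 +
        6 * x 2 ^ 5 * c (x 2) + x 2 ^ 6 * deriv c (x 2) else 0) := by
  have t2 : Tendsto (fun x : E3 => x 2) (𝓝 0) (𝓝 0) := (an_co 2).continuousAt
  filter_upwards [t2.eventually hb.eventually_analyticAt,
    t2.eventually hc.eventually_analyticAt] with x h1 h2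
  have a0 : ∀ j, AnalyticAt ℂ (fun x : E3 => x j) x := fun j => an_coord j x
  have ab : AnalyticAt ℂ (fun x : E3 => b (x 2)) x :=
    AnalyticAt.fun_comp (g := b) (f := fun x : E3 => x 2) h1 (a0 2)
  have ac : AnalyticAt ℂ (fun x : E3 => c (x 2)) x :=
    AnalyticAt.fun_comp (g := c) (f := fun x : E3 => x 2) h2 (a0 2)
  have e : Nf b c = fun x => (x 1 ^ 3 + (x 2 ^ 4 * b (x 2)) * x 1) + x 2 ^ 6 * c (x 2) := rfl
  have hx1 : coordDeriv (fun x : E3 => x 1) i x = if i = 1 then 1 else 0 := by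
    have := cd_pow 1 i 1 x
    simpa using this
  rw [e, cd_add (((a0 1).fun_pow 3).fun_add ((((a0 2).fun_pow 4).fun_mul ab).fun_mul (a0 1)))
    (((a0 2).fun_pow 6).fun_mul ac), cd_add ((a0 1).fun_pow 3)
    ((((a0 2).fun_pow 4).fun_mul ab).fun_mul (a0 1)),
    cd_mul (((a0 2).fun_pow 4).fun_mul ab) (a0 1), cd_mul ((a0 2).fun_pow 4) ab,
    cd_mul ((a0 2).fun_pow 6) ac, cd_pow, cd_pow, cd_pow, cd_c h1, cd_c h2, hx1]
  fin_cases i
  · simp
  · simp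
  · simp
    ring

theorem cd_gj {U Q : E3 → ℂ} {b c : ℂ → ℂ} (hU : AnalyticAt ℂ U 0) (hQ : AnalyticAt ℂ Q 0)
    (hb : AnalyticAt ℂ b 0) (hc : AnalyticAt ℂ c 0) (i : Fin 3) :
    ∀ᶠ x : E3 in 𝓝 0, coordDeriv (gj U Q b c) i x = coordDeriv U i x * Nf b c x +
      U x * coordDeriv (Nf b c) i x + (if i = 0 then 2 * x 0 * Q x else 0) +
        x 0 ^ 2 * coordDeriv Q i x := by
  filter_upwards [hU.eventually_analyticAt, hQ.eventually_analyticAt,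
    (an_Nf hb hc).eventually_analyticAt] with x h1 h2 h3
  have a0 : ∀ j, AnalyticAt ℂ (fun x : E3 => x j) x := fun j => an_coord j x
  have e : gj U Q b c = fun x => U x * Nf b c x + x 0 ^ 2 * Q x := rfl
  rw [e, cd_add (h1.fun_mul h3) (((a0 0).fun_pow 2).fun_mul h2), cd_mul h1 h3,
    cd_mul ((a0 0).fun_pow 2) h2, cd_pow]
  by_cases hi : i = 0
  · subst hi
    simp
    ring
  · simp [hi]

end Crest.Agent.R257.Ub9_472
end
end

-- ▼ part R257/Ub10_472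

/-!
R257 / Ub10_472: **`J_10`**: `col (par f) ≤ 10` for a germ `f` with reduced plane germ
`φ = u ((y + θ(z))³ + z⁴ b₄ (y + θ(z)) + z⁶ c₆)`, `4 b₄(0)³ + 27 c₆(0)² ≠ 0`
(leaf MU of LcxDefs_759).
-/

set_option autoImplicit false
set_option linter.unusedVariables false
set_option linter.unusedSectionVars false
set_option linter.unusedSimpArgs false

open Set Filter Topology IsLocalRing
open Crest.AlgGeometry.Germ
open Crest.Agent.R275.Loc2879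
open Crest.Agent.R257.Defs_219 Crest.Agent.R257.UI939 Crest.Agent.R257.Ub4_472
open Crest.Agent.R257.LcxDefs_759 Crest.Agent.R257.LcxA_759 Crest.Agent.R257.Ub5_472
open Crest.Agent.R257.Ub6_472 Crest.Agent.R257.Ub7_472 Crest.Agent.R257.Ub9_472

noncomputable section

namespace Crest.Agent.R257.Ub10_472

variable {G : Fin 3 → E3 → ℂ} {U Q : E3 → ℂ} {b c : ℂ → ℂ}

/-- Hadamard in one variable, in the local algebra -/
theorem exists_quot {b : ℂ → ℂ} (hb : AnalyticAt ℂ b 0) : ∃ B1 : QG G,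
    cl G (fun x : E3 => b (x 2)) = algebraMap ℂ (QG G) (b 0) + cl G (co 2) * B1 := by
  have hd : AnalyticAt ℂ (dslope b 0) 0 := by
    obtain ⟨p, hp⟩ := hb
    exact hp.has_fpower_series_dslope_fslope.analyticAt
  refine ⟨cl G (fun x : E3 => dslope b 0 (x 2)), ?_⟩
  have e : (fun x : E3 => b (x 2)) = fun x => b 0 + x 2 * dslope b 0 (x 2) := by
    funext x
    have := sub_smul_dslope b 0 (x 2)
    rw [sub_zero, smul_eq_mul] at this
    rw [this]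
    ring
  have h1 : cl G (fun x : E3 => b 0 + x 2 * dslope b 0 (x 2)) = cl G (fun _ => b 0) +
      cl G (fun x : E3 => x 2 * dslope b 0 (x 2)) :=
    cl_add analyticAt_const ((an_co 2).fun_mul (an_c hd))
  rw [e, h1, cl_const]
  congr 1
  exact cl_mul (an_co 2) (an_c hd)

theorem cl_Nf (hb : AnalyticAt ℂ b 0) (hc : AnalyticAt ℂ c 0) : cl G (Nf b c) =
    cl G (co 1) ^ 3 + cl G (co 2) ^ 4 * cl G (fun x => b (x 2)) * cl G (co 1) +
      cl G (co 2) ^ 6 * cl G (fun x => c (x 2)) := by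
  have a1 := (an_co 1).fun_pow 3
  have a2 := ((an_co 2).fun_pow 4).fun_mul (an_c hb)
  have a3 := ((an_co 2).fun_pow 6).fun_mul (an_c hc)
  have h1 : cl G (Nf b c) = cl G (fun x => co 1 x ^ 3 + (co 2 x ^ 4 * b (x 2)) * co 1 x) +
      cl G (fun x => co 2 x ^ 6 * c (x 2)) := cl_add (a1.fun_add (a2.fun_mul (an_co 1))) a3
  rw [h1, cl_add a1 (a2.fun_mul (an_co 1)), cl_mul a2 (an_co 1), cl_mul ((an_co 2).fun_pow 4)
    (an_c hb), cl_mul ((an_co 2).fun_pow 6) (an_c hc), cl_pow (an_co 1), cl_pow (an_co 2),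
    cl_pow (an_co 2)]

theorem germ10 (hG : ∀ i, AnalyticAt ℂ (G i) 0) (hU : AnalyticAt ℂ U 0) (hQ : AnalyticAt ℂ Q 0)
    (hb : AnalyticAt ℂ b 0) (hc : AnalyticAt ℂ c 0) (hU0 : U 0 ≠ 0) (hQ0 : Q 0 ≠ 0)
    (hUx : ∀ᶠ x in 𝓝 0, coordDeriv U 0 x = 0)
    (he : ∀ i, G i =ᶠ[𝓝 0] coordDeriv (gj U Q b c) i)
    (hd : 4 * b 0 ^ 3 + 27 * c 0 ^ 2 ≠ 0) : ColFin G ∧ col G ≤ 10 := by
  have hUd : ∀ i, AnalyticAt ℂ (coordDeriv U i) 0 := fun i => an_cd hU i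
  have hQd : ∀ i, AnalyticAt ℂ (coordDeriv Q i) 0 := fun i => an_cd hQ i
  have hN := an_Nf hb hc
  have hbd : AnalyticAt ℂ (deriv b) 0 := hb.deriv
  have hcd : AnalyticAt ℂ (deriv c) 0 := hc.deriv
  have e0 : G 0 =ᶠ[𝓝 0] fun x => co 0 x * (2 * Q x + co 0 x * coordDeriv Q 0 x) := by
    filter_upwards [he 0, cd_gj hU hQ hb hc 0, cd_Nf hb hc 0, hUx] with x h1 h2 h3 h4
    rw [h1, h2, h3, h4]
    simp [co]
    ring
  have e1 : G 1 =ᶠ[𝓝 0] fun x => coordDeriv U 1 x * Nf b c x +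
      U x * (3 * co 1 x ^ 2 + co 2 x ^ 4 * b (x 2)) + co 0 x ^ 2 * coordDeriv Q 1 x := by
    filter_upwards [he 1, cd_gj hU hQ hb hc 1, cd_Nf hb hc 1] with x h1 h2 h3
    rw [h1, h2, h3]
    simp [co]
  have e2 : G 2 =ᶠ[𝓝 0] fun x => coordDeriv U 2 x * Nf b c x +
      U x * (4 * co 2 x ^ 3 * b (x 2) * co 1 x + co 2 x ^ 4 * deriv b (x 2) * co 1 x +
        6 * co 2 x ^ 5 * c (x 2) + co 2 x ^ 6 * deriv c (x 2)) +
        co 0 x ^ 2 * coordDeriv Q 2 x := by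
    filter_upwards [he 2, cd_gj hU hQ hb hc 2, cd_Nf hb hc 2] with x h1 h2 h3
    rw [h1, h2, h3]
    simp [co]
  have hN0 : Nf b c 0 = 0 := by simp [Nf]
  have hG0 : ∀ i, G i 0 = 0 := by
    intro i
    fin_cases i
    · change G 0 0 = 0
      rw [e0.self_of_nhds]
      simp [co]
    · change G 1 0 = 0
      rw [e1.self_of_nhds]
      simp [co, hN0]
    · change G 2 0 = 0
      rw [e2.self_of_nhds]
      simp [co, hN0]
  obtain ⟨inst, hres, hM, hmem, hunit⟩ := setup hG hG0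
  obtain ⟨B1, hB1⟩ := exists_quot (G := G) hb
  obtain ⟨C1, hC1⟩ := exists_quot (G := G) hc
  have aP : AnalyticAt ℂ (fun x : E3 => 2 * Q x + co 0 x * coordDeriv Q 0 x) 0 :=
    (analyticAt_const.fun_mul hQ).fun_add ((an_co 0).fun_mul (hQd 0))
  have E0 : cl G (co 0) * cl G (fun x : E3 => 2 * Q x + co 0 x * coordDeriv Q 0 x) = 0 := by
    have h1 : cl G (G 0) = 0 := cl_gen hG 0
    rw [cl_congr e0, cl_mul (an_co 0) aP] at h1
    exact h1
  have hP : IsUnit (cl G (fun x : E3 => 2 * Q x + co 0 x * coordDeriv Q 0 x)) := by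
    refine hunit _ aP ?_
    simp [co, hQ0]
  -- the pieces
  have p2 : AnalyticAt ℂ (fun x : E3 => 3 * co 1 x ^ 2) 0 :=
    analyticAt_const.fun_mul ((an_co 1).fun_pow 2)
  have p4 : AnalyticAt ℂ (fun x : E3 => co 2 x ^ 4 * b (x 2)) 0 :=
    ((an_co 2).fun_pow 4).fun_mul (an_c hb)
  have q1 : AnalyticAt ℂ (fun x : E3 => 4 * co 2 x ^ 3 * b (x 2)) 0 :=
    (analyticAt_const.fun_mul ((an_co 2).fun_pow 3)).fun_mul (an_c hb)
  have q2 : AnalyticAt ℂ (fun x : E3 => co 2 x ^ 4 * deriv b (x 2)) 0 :=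
    ((an_co 2).fun_pow 4).fun_mul (an_c hbd)
  have q3 : AnalyticAt ℂ (fun x : E3 => 6 * co 2 x ^ 5 * c (x 2)) 0 :=
    (analyticAt_const.fun_mul ((an_co 2).fun_pow 5)).fun_mul (an_c hc)
  have q4 : AnalyticAt ℂ (fun x : E3 => co 2 x ^ 6 * deriv c (x 2)) 0 :=
    ((an_co 2).fun_pow 6).fun_mul (an_c hcd)
  have E1 : cl G (coordDeriv U 1) * (cl G (co 1) ^ 3 + cl G (co 2) ^ 4 *
      cl G (fun x => b (x 2)) * cl G (co 1) + cl G (co 2) ^ 6 * cl G (fun x => c (x 2))) +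
      cl G U * (3 * cl G (co 1) ^ 2 + cl G (co 2) ^ 4 * cl G (fun x => b (x 2))) +
      cl G (co 0) ^ 2 * cl G (coordDeriv Q 1) = 0 := by
    have h1 : cl G (G 1) = 0 := cl_gen hG 1
    have a1 := (hUd 1).fun_mul hN
    have a2 := hU.fun_mul (p2.fun_add p4)
    have a3 := ((an_co 0).fun_pow 2).fun_mul (hQd 1)
    rw [cl_congr e1, cl_add (a1.fun_add a2) a3, cl_add a1 a2, cl_mul (hUd 1) hN,
      cl_mul hU (p2.fun_add p4), cl_add p2 p4, cl_mul ((an_co 0).fun_pow 2) (hQd 1),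
      cl_pow (an_co 0), cl_Nf hb hc, cl_const_mul ((an_co 1).fun_pow 2), cl_pow (an_co 1),
      cl_mul ((an_co 2).fun_pow 4) (an_c hb), cl_pow (an_co 2), map_ofNat] at h1
    exact h1
  have E2 : cl G (coordDeriv U 2) * (cl G (co 1) ^ 3 + cl G (co 2) ^ 4 *
      cl G (fun x => b (x 2)) * cl G (co 1) + cl G (co 2) ^ 6 * cl G (fun x => c (x 2))) +
      cl G U * (4 * cl G (co 2) ^ 3 * cl G (fun x => b (x 2)) * cl G (co 1) +
        cl G (co 2) ^ 4 * cl G (fun x => deriv b (x 2)) * cl G (co 1) +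
        6 * cl G (co 2) ^ 5 * cl G (fun x => c (x 2)) +
        cl G (co 2) ^ 6 * cl G (fun x => deriv c (x 2))) +
      cl G (co 0) ^ 2 * cl G (coordDeriv Q 2) = 0 := by
    have h1 : cl G (G 2) = 0 := cl_gen hG 2
    have a1 := (hUd 2).fun_mul hN
    have r1 := q1.fun_mul (an_co 1)
    have r2 := q2.fun_mul (an_co 1)
    have a2 := hU.fun_mul (((r1.fun_add r2).fun_add q3).fun_add q4)
    have a3 := ((an_co 0).fun_pow 2).fun_mul (hQd 2)
    rw [cl_congr e2, cl_add (a1.fun_add a2) a3, cl_add a1 a2, cl_mul (hUd 2) hN,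
      cl_mul hU (((r1.fun_add r2).fun_add q3).fun_add q4),
      cl_add ((r1.fun_add r2).fun_add q3) q4, cl_add (r1.fun_add r2) q3, cl_add r1 r2,
      cl_mul q1 (an_co 1), cl_mul q2 (an_co 1), cl_mul ((an_co 0).fun_pow 2) (hQd 2),
      cl_pow (an_co 0), cl_Nf hb hc,
      cl_mul (analyticAt_const.fun_mul ((an_co 2).fun_pow 3)) (an_c hb),
      cl_const_mul ((an_co 2).fun_pow 3), cl_pow (an_co 2),
      cl_mul ((an_co 2).fun_pow 4) (an_c hbd), cl_pow (an_co 2),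
      cl_mul (analyticAt_const.fun_mul ((an_co 2).fun_pow 5)) (an_c hc),
      cl_const_mul ((an_co 2).fun_pow 5), cl_pow (an_co 2),
      cl_mul ((an_co 2).fun_pow 6) (an_c hcd), cl_pow (an_co 2), map_ofNat, map_ofNat] at h1
    exact h1
  have key := ring10 hres hM hd hP (hunit U hU hU0) E0 E1 E2 hB1 hC1
  exact ⟨(colFin_iff hG).2 key.1, by rw [col_eq hG]; exact key.2⟩

open Crest.Agent.R257.Kp_405 Crest.Agent.R257.Cl2_475

/-- the coordinates `x ↦ ((z, y - θ(z)), x)` -/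
def S1 (θ : ℂ → ℂ) (x : E3) : (ℂ × ℂ) × ℂ := ((x 2, x 1 - θ (x 2)), x 0)

def S2 (θ : ℂ → ℂ) (q : (ℂ × ℂ) × ℂ) : E3 := ![q.2, q.1.2 + θ q.1.1, q.1.1]

theorem LB_S {θ : ℂ → ℂ} (hθ : AnalyticAt ℂ θ 0) (h0 : θ 0 = 0) : LB (S1 θ) (S2 θ) := by
  refine ⟨?_, ?_, ?_, ?_, ?_, ?_⟩
  · exact ((an_co 2).prod ((an_co 1).fun_sub (an_c hθ))).prod (an_co 0)
  · refine AnalyticAt.pi fun i => ?_
    have h1 : AnalyticAt ℂ (fun q : (ℂ × ℂ) × ℂ => θ q.1.1) 0 :=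
      AnalyticAt.fun_comp (g := θ) (f := fun q : (ℂ × ℂ) × ℂ => q.1.1) hθ
        (analyticAt_fst.fun_comp analyticAt_fst)
    fin_cases i
    · exact analyticAt_snd
    · exact (analyticAt_snd.fun_comp analyticAt_fst).fun_add h1
    · exact analyticAt_fst.fun_comp analyticAt_fst
  · simp [S1, h0]
  · ext i
    fin_cases i <;> simp [S2, h0]
  · refine Eventually.of_forall fun x => ?_
    ext i
    fin_cases i <;> simp [S1, S2]
  · refine Eventually.of_forall fun q => ?_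
    simp [S1, S2]

/-- **`J_10`** -/
theorem sext_mu' {f : E3 → ℂ} {φ : ℂ × ℂ → ℂ} (hf : AnalyticAt ℂ f 0) (h : Red f φ)
    (e : (ℂ × ℂ) ≃L[ℂ] (ℂ × ℂ)) {u : ℂ × ℂ → ℂ} {θ b₄ c₆ : ℂ → ℂ} (hu : AnalyticAt ℂ u 0)
    (hu0 : u 0 ≠ 0) (hθ : AnalyticAt ℂ θ 0) (hθ0 : θ 0 = 0) (hb : AnalyticAt ℂ b₄ 0)
    (hc : AnalyticAt ℂ c₆ 0)
    (he : ∀ᶠ w in 𝓝 (0 : ℂ × ℂ), φ (e w) =
      u w * ((w.2 + θ w.1) ^ 3 + w.1 ^ 4 * b₄ w.1 * (w.2 + θ w.1) + w.1 ^ 6 * c₆ w.1))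
    (hd : 4 * b₄ 0 ^ 3 + 27 * c₆ 0 ^ 2 ≠ 0) : ColFin (par f) ∧ col (par f) ≤ 10 := by
  obtain ⟨hφ, Ψ, Ψ', Q0, hL, hQ, hQ0, hfe⟩ := h
  have hS := LB_S hθ hθ0
  have hE : LB (e.prodCongr (ContinuousLinearEquiv.refl ℂ ℂ))
      (e.prodCongr (ContinuousLinearEquiv.refl ℂ ℂ)).symm := LB.of_equiv _
  set E := e.prodCongr (ContinuousLinearEquiv.refl ℂ ℂ) with hEdef
  have hE' : LB (fun x => E (S1 θ x)) (fun q => S2 θ (E.symm q)) := hE.comp hS
  have hΘ : LB (fun x => Ψ (E (S1 θ x))) (fun p => S2 θ (E.symm (Ψ' p))) := hL.comp hE'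
  set Θ : E3 → E3 := fun x => Ψ (E (S1 θ x)) with hΘdef
  -- the unit factors
  set U : E3 → ℂ := fun x => u (x 2, x 1 - θ (x 2)) with hUdef
  set Q : E3 → ℂ := fun x => Q0 (E (S1 θ x)) with hQdef
  have a21 : AnalyticAt ℂ (fun x : E3 => ((x 2, x 1 - θ (x 2)) : ℂ × ℂ)) 0 :=
    (an_co 2).prod ((an_co 1).fun_sub (an_c hθ))
  have a21' : (fun x : E3 => ((x 2, x 1 - θ (x 2)) : ℂ × ℂ)) 0 = 0 := by simp [hθ0]
  have t21 : Tendsto (fun x : E3 => ((x 2, x 1 - θ (x 2)) : ℂ × ℂ)) (𝓝 0) (𝓝 0) := by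
    have := a21.continuousAt.tendsto
    simp only [Pi.zero_apply, hθ0, sub_zero] at this
    exact this
  have hU : AnalyticAt ℂ U 0 :=
    AnalyticAt.fun_comp (g := u) (f := fun x : E3 => ((x 2, x 1 - θ (x 2)) : ℂ × ℂ))
      (by simp only [Pi.zero_apply, hθ0, sub_zero]; exact hu) a21
  have hU0 : U 0 ≠ 0 := by
    have : U 0 = u 0 := congrArg u a21'
    rw [this]
    exact hu0
  have hQa : AnalyticAt ℂ Q 0 :=
    AnalyticAt.fun_comp (g := Q0) (f := fun x => E (S1 θ x)) (by rw [hE'.map0]; exact hQ) hE'.an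
  have hQa0 : Q 0 ≠ 0 := by
    have : Q 0 = Q0 0 := congrArg Q0 hE'.map0
    rw [this]
    exact hQ0
  have hUx : ∀ᶠ x in 𝓝 0, coordDeriv U 0 x = 0 := by
    have t2 : Tendsto (fun x : E3 => x 2) (𝓝 0) (𝓝 0) := (an_co 2).continuousAt
    filter_upwards [t21.eventually hu.eventually_analyticAt,
      t2.eventually hθ.eventually_analyticAt] with x h1 h2
    have h3 : HasFDerivAt (fun x : E3 => θ (x 2)) ((deriv θ (x 2)) •
        (ContinuousLinearMap.proj (R := ℂ) (φ := fun _ : Fin 3 => ℂ) 2)) x :=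
      (h2.differentiableAt.hasDerivAt).comp_hasFDerivAt x (hasF_co 2 x)
    have h4 := (hasF_co 2 x).prodMk ((hasF_co 1 x).sub h3)
    have h5 := HasFDerivAt.comp (g := u)
      (f := fun x : E3 => ((x 2, x 1 - θ (x 2)) : ℂ × ℂ)) x h1.differentiableAt.hasFDerivAt h4
    have h6 : fderiv ℂ U x = _ := h5.fderiv
    unfold coordDeriv
    rw [h6, ContinuousLinearMap.comp_apply]
    have : (((ContinuousLinearMap.proj (R := ℂ) (φ := fun _ : Fin 3 => ℂ) 2).prod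
        ((ContinuousLinearMap.proj (R := ℂ) (φ := fun _ : Fin 3 => ℂ) 1) - (deriv θ (x 2)) •
        (ContinuousLinearMap.proj (R := ℂ) (φ := fun _ : Fin 3 => ℂ) 2))) :
        E3 →L[ℂ] ℂ × ℂ) (Pi.single 0 1) = 0 := by
      simp [Pi.single_apply]
    rw [this, map_zero]
  -- `f ∘ Θ`
  have hfΘ : ∀ᶠ x in 𝓝 0, f (Θ x) = gj U Q b₄ c₆ x := by
    filter_upwards [hE'.tendsto.eventually hfe, t21.eventually he] with x h1 h2
    rw [hΘdef]
    simp only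
    rw [h1]
    have h3 : (E (S1 θ x)).1 = e (x 2, x 1 - θ (x 2)) := rfl
    have h4 : (E (S1 θ x)).2 = x 0 := rfl
    rw [h3, h4, h2]
    simp only [gj, Nf, hUdef, hQdef]
    ring
  have hga := an_gj hU hQa hb hc
  have hfa : AnalyticAt ℂ (fun x => f (Θ x)) 0 := hga.congr (hfΘ.mono fun x hx => hx.symm)
  have hc1 := LCa_472.par_comp (f := fun x => f (Θ x)) (g := f) (θ := Θ) hf hΘ.an hΘ.map0 (by
      have h1 := hΘ.symm.fderiv_comp_zero
      intro v w hvw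
      have h2 := congrArg (fun T : E3 →L[ℂ] E3 => T v) h1
      have h3 := congrArg (fun T : E3 →L[ℂ] E3 => T w) h1
      simp only [ContinuousLinearMap.comp_apply, ContinuousLinearMap.id_apply] at h2 h3
      rw [← h2, ← h3, hvw]) hfa (Eventually.of_forall fun x => rfl)
  have hG : ∀ i, AnalyticAt ℂ (par (fun x => f (Θ x)) i) 0 := fun i => an_cd hfa i
  have key := germ10 hG hU hQa hb hc hU0 hQa0 hUx
    (fun i => cd_congr (hfΘ.mono fun x hx => hx) i) hd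
  exact ⟨hc1.1.2 key.1, by rw [hc1.2]; exact key.2⟩

theorem sext_mu {f : E3 → ℂ} {φ : ℂ × ℂ → ℂ} (hf : Iso f) (h : Red f φ)
    (e : (ℂ × ℂ) ≃L[ℂ] (ℂ × ℂ)) {u : ℂ × ℂ → ℂ} {θ b₄ c₆ : ℂ → ℂ} (hu : AnalyticAt ℂ u 0)
    (hu0 : u 0 ≠ 0) (hθ : AnalyticAt ℂ θ 0) (hθ0 : θ 0 = 0) (hb : AnalyticAt ℂ b₄ 0)
    (hc : AnalyticAt ℂ c₆ 0)
    (he : ∀ᶠ w in 𝓝 (0 : ℂ × ℂ), φ (e w) =
      u w * ((w.2 + θ w.1) ^ 3 + w.1 ^ 4 * b₄ w.1 * (w.2 + θ w.1) + w.1 ^ 6 * c₆ w.1))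
    (hd : 4 * b₄ 0 ^ 3 + 27 * c₆ 0 ^ 2 ≠ 0) : col (par f) ≤ 10 :=
  (sext_mu' hf.an h e hu hu0 hθ hθ0 hb hc he hd).2

end Crest.Agent.R257.Ub10_472
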