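import Crest.Agent.R257.UpA1_952
import Crest.Agent.R257.SkelG5_952
import Crest.Agent.R257.GBL4_625
import Crest.Agent.R257.OutD_309
import Crest.Agent.R257.KUP_952
import Crest.Agent.R257.OutE_309
import Crest.Agent.R257.KedM3_941
import Crest.Agent.R257.Ked4_397
import Crest.Agent.R257.SkelG6_952

-- ▼ part R257/UpA2_952
section

/-!
R257 / UpA2_952: assembly of `UppStmt`, part 2: Levi form of the cut-off, the form `Γ` of the trial
metric, the part near the puncture.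
-/

set_option autoImplicit false
set_option linter.unusedSectionVars false

open Topology Filter MeasureTheory Set
open scoped ENNReal ContDiff Matrix ComplexOrder

noncomputable section

namespace Crest.Agent.R257.UpA_952

open Crest.Agent.R275.Geo
open Crest.Agent.R257.Defs_219
open Crest.Agent.R257.KED_952 Crest.Agent.R257.KEG_952 Crest.Agent.R257.KEU_952
open Crest.Agent.R257.KUP_952
open Crest.Agent.R257.V1Defs_822 (SmL LvlOK lgh)
open Crest.Agent.R257.V1Pe_822
open Crest.Agent.R273.Defs_333 (lev)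
open Crest.Agent.R273.YauDefs_635 (cH lev333_eq_lev145)
open Crest.Agent.R273.YauMax_635 (cH_eq_hess)
open Crest.Agent.R273.Hess_333 (hess)
open Crest.Agent.R273.HessB_333 (hess_congr hess_add hess_neg hess_const_mul hess_log_norm)
open Crest.Agent.R257.PN_835 (nsq)
open Crest.Agent.R257.Aff_835 (eta2a nga)
open Crest.Agent.R257.C2F1_625 (pd c2)
open Crest.Agent.R257.C2F2_625 (hV bb)
open Crest.Agent.R257.OutB_309 (Gm)
open Crest.Agent.R257.LossA_625 (fx hS Psd Lv pe_lv dns_cases fx_add fx_sub fx_mul fx_congr fx_const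
  ev_pe fx_nonneg fx_abs_le cv cv_sm cv_nonneg cv_zero cv_anti cv_aff cv_le_one sc sc_pos
  mxd_eq_fx gg gg_sm gg_nonneg gg_one gg_zero hasDerivAt_cv hasDerivAt_gg dgg_nonpos psd_cH)
open Crest.Agent.R257.LossB_625 (Cs Sh exists_sh exists_xi smL_mul smL_add smL_const smL_smul
  smL_comp smL_amb ae_lv off_ev stk3 comm_lv)
open Crest.Agent.R257.LossD_309 (HO dV oxd)

/-! ### bound of the second derivative of the cut-off function -/

theorem exists_K : ∃ K : ℝ, 0 < K ∧ ∀ t, -deriv gg t ≤ K := by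
  have hc : Continuous (deriv gg) := gg_sm.continuous_deriv (by simp)
  obtain ⟨M, hM⟩ := isCompact_Icc.exists_bound_of_continuousOn (s := Icc (0 : ℝ) 2)
    hc.continuousOn
  have hM0 : 0 ≤ M := (norm_nonneg _).trans (hM 0 (by simp))
  refine ⟨M + 1, by linarith, fun t => ?_⟩
  by_cases h : t ∈ Icc (0 : ℝ) 2
  · have h1 := hM t h
    rw [Real.norm_eq_abs] at h1
    have := neg_abs_le (deriv gg t)
    linarith
  · have h0 : deriv gg t = 0 := by
      have h2 : t < 0 ∨ 2 < t := by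
        by_contra hcon
        push Not at hcon
        exact h ⟨hcon.1, hcon.2⟩
      rcases h2 with h2 | h2
      · have : gg =ᶠ[𝓝 t] fun _ => 1 := by
          filter_upwards [gt_mem_nhds h2] with y hy
          exact gg_one (by linarith)
        rw [this.deriv_eq, deriv_const]
      · have : gg =ᶠ[𝓝 t] fun _ => 0 := by
          filter_upwards [lt_mem_nhds h2] with y hy
          exact gg_zero (by linarith)
        rw [this.deriv_eq, deriv_const]
    rw [h0]
    linarith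

/-- the bound -/
def KK : ℝ := exists_K.choose

theorem KK_pos : 0 < KK := exists_K.choose_spec.1

theorem KK_le (t : ℝ) : -deriv gg t ≤ KK := exists_K.choose_spec.2 t

/-- `gg' = 0` off `[1/2, 1]` -/
theorem dgg_zero {t : ℝ} (h : t < 1 / 2 ∨ 1 < t) : deriv gg t = 0 := by
  rcases h with h2 | h2
  · have : gg =ᶠ[𝓝 t] fun _ => 1 := by
      filter_upwards [gt_mem_nhds h2] with y hy
      exact gg_one hy.le
    rw [this.deriv_eq, deriv_const]
  · have : gg =ᶠ[𝓝 t] fun _ => 0 := by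
      filter_upwards [lt_mem_nhds h2] with y hy
      exact gg_zero hy.le
    rw [this.deriv_eq, deriv_const]

open Classical in
/-- bound of the Levi form of `cR` -/
def qR (A : ℝ) (u : E3 → ℝ) (R : ℝ) (x : E3) : ℝ :=
  if A - u x ≤ R then sc / R + (if R / 2 ≤ A - u x then 2 * sc * KK * A else 0) else 0

theorem qR_nonneg {A : ℝ} {u : E3 → ℝ} {R : ℝ} (hR : 0 < R) (hA : 0 < A) (x : E3) :
    0 ≤ qR A u R x := by
  have := sc_pos
  have := KK_pos
  unfold qR
  split_ifs <;> positivity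

section lev

variable {w : Cn 2 → ℝ} {z : Cn 2} {A R : ℝ}

theorem lev_cR (hR : 0 < R) (hw : ContDiffAt ℝ ∞ w z) (v : Cn 2) :
    Crest.Agent.R273.Levi_145.lev (fun y => cv ((A - w y) / R)) z v =
      (sc * gg ((A - w z) / R) / R) * Crest.Agent.R273.Levi_145.lev w z v +
      (-(sc * deriv gg ((A - w z) / R) / R ^ 2)) *
        ‖Crest.Agent.R273.Levi_145.gr w z v‖ ^ 2 := by
  have h1 : ∀ t, HasDerivAt (fun t => cv ((A - t) / R)) (sc * gg ((A - t) / R) / R) t := by
    intro t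
    have h2 : HasDerivAt (fun t => (A - t) / R) (-1 / R) t := by
      simpa using ((hasDerivAt_id t).const_sub A).div_const R
    have h3 := (hasDerivAt_cv ((A - t) / R)).comp t h2
    refine h3.congr_deriv ?_
    ring
  have h2 : HasDerivAt (fun t => sc * gg ((A - t) / R) / R)
      (-(sc * deriv gg ((A - w z) / R) / R ^ 2)) (w z) := by
    have h2 : HasDerivAt (fun t => (A - t) / R) (-1 / R) (w z) := by
      simpa using ((hasDerivAt_id (w z)).const_sub A).div_const R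
    have h3 := (((hasDerivAt_gg ((A - w z) / R)).comp (w z) h2).const_mul sc).div_const R
    refine h3.congr_deriv ?_
    field_simp
  have h3 := Crest.Agent.R273.Levi_145.lev_comp_real (χ := fun t => cv ((A - t) / R))
    (χ' := fun t => sc * gg ((A - t) / R) / R) (hw.of_le two_le_inf)
    (Eventually.of_forall h1) h2 v
  rw [h3]
  ring

/-- the bound -/
theorem lev_cR_le (hR : 0 < R) (hA0 : 0 < A) (hw : ContDiffAt ℝ ∞ w z) (hA : w z + 1 ≤ A)
    (h0 : ∀ v, 0 ≤ lev w z v)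
    (hC : ∀ v, (fderiv ℝ w z v) ^ 2 ≤ A * (A - w z) ^ 2 * lev w z v) (v : Cn 2) :
    0 ≤ lev (fun y => cv ((A - w y) / R)) z v ∧
    lev (fun y => cv ((A - w y) / R)) z v ≤
      (if A - w z ≤ R then sc / R + (if R / 2 ≤ A - w z then 2 * sc * KK * A else 0) else 0) *
        lev w z v := by
  have hsc := sc_pos
  have hK := KK_pos
  have hl : ∀ v, 0 ≤ Crest.Agent.R273.Levi_145.lev w z v := fun v => by
    have := h0 v
    rw [lev333_eq_lev145] at this
    linarith
  have hI : lev w z (Complex.I • v) = lev w z v := by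
    rw [lev333_eq_lev145, lev333_eq_lev145,
      Crest.Agent.R273.Levi_145.lev_smul (hw.of_le two_le_inf)]
    simp
  have hg : ‖Crest.Agent.R273.Levi_145.gr w z v‖ ^ 2 ≤
      (2 * A) * ((A - w z) ^ 2 * Crest.Agent.R273.Levi_145.lev w z v) := by
    rw [Crest.Agent.R273.Levi_145.norm_gr_sq
      (Crest.Agent.R273.Levi_145.c2_diff (hw.of_le two_le_inf))]
    have h1 := hC v
    have h2 := hC (Complex.I • v)
    rw [hI] at h2
    rw [lev333_eq_lev145] at h1 h2
    linarith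
  set L := Crest.Agent.R273.Levi_145.lev w z v with hL
  have hL0 : 0 ≤ L := hl v
  have hW : 1 ≤ A - w z := by linarith
  set t := (A - w z) / R with ht
  have hd : 0 ≤ -(sc * deriv gg t / R ^ 2) := by
    have := dgg_nonpos t
    have h6 : 0 ≤ sc * (-deriv gg t) / R ^ 2 :=
      div_nonneg (mul_nonneg hsc.le (by linarith)) (by positivity)
    have h7 : sc * (-deriv gg t) / R ^ 2 = -(sc * deriv gg t / R ^ 2) := by ring
    rwa [h7] at h6
  have hg0 : 0 ≤ sc * gg t / R := div_nonneg (mul_nonneg hsc.le (gg_nonneg _)) hR.le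
  have hgg1 : gg t ≤ 1 := Real.smoothTransition.le_one _
  rw [lev333_eq_lev145, lev333_eq_lev145, lev_cR hR hw v, ← ht, ← hL]
  have hgr0 : 0 ≤ ‖Crest.Agent.R273.Levi_145.gr w z v‖ ^ 2 := by positivity
  refine ⟨by positivity, ?_⟩
  by_cases h1 : A - w z ≤ R
  · rw [if_pos h1]
    have a1 : sc * gg t / R * L ≤ sc / R * L := by
      have : sc * gg t / R ≤ sc / R := by
        apply div_le_div_of_nonneg_right _ hR.le
        nlinarith
      gcongr
    by_cases h2 : R / 2 ≤ A - w z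
    · rw [if_pos h2]
      have a2 : -(sc * deriv gg t / R ^ 2) * ‖Crest.Agent.R273.Levi_145.gr w z v‖ ^ 2 ≤
          2 * sc * KK * A * L := by
        have b1 : -(sc * deriv gg t / R ^ 2) ≤ sc * KK / R ^ 2 := by
          have h7 : sc * (-deriv gg t) / R ^ 2 = -(sc * deriv gg t / R ^ 2) := by ring
          rw [← h7]
          have := KK_le t
          gcongr
        calc -(sc * deriv gg t / R ^ 2) * ‖Crest.Agent.R273.Levi_145.gr w z v‖ ^ 2
            ≤ (sc * KK / R ^ 2) * ((2 * A) * ((A - w z) ^ 2 * L)) := by gcongr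
          _ ≤ (sc * KK / R ^ 2) * ((2 * A) * (R ^ 2 * L)) := by gcongr
          _ = 2 * sc * KK * A * L := by field_simp
      linarith
    · rw [if_neg h2, add_zero]
      have e : deriv gg t = 0 := dgg_zero (Or.inl (by
        rw [ht, div_lt_iff₀ hR]; linarith))
      rw [e, mul_zero, zero_div, neg_zero, zero_mul, add_zero]
      linarith
  · rw [if_neg h1]
    have ht1 : 1 < t := by rw [ht, lt_div_iff₀ hR]; linarith
    have e : deriv gg t = 0 := dgg_zero (Or.inr ht1)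
    rw [e, gg_zero ht1.le]
    simp

end lev

variable {f : E3 → ℂ} {r A : ℝ} {u : E3 → ℝ} {ν : Measure E3} {χ : E3 → ℝ}

/-- on the level -/
theorem lev_cR_pe (hK : KEon f 0 r u) (hE : Esc f r u A) {R : ℝ} (hR : 0 < R)
    {θ : Cn 2 → E3} {O : Set (Cn 2)} (hθ : PE f 0 r θ O) {z : Cn 2} (hz : z ∈ O) (v : Cn 2) :
    0 ≤ lev (fun y => cR A u R (θ y)) z v ∧
    lev (fun y => cR A u R (θ y)) z v ≤ qR A u R (θ z) * lev (fun y => u (θ y)) z v := by
  have hx := pe_lv hθ hz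
  exact lev_cR_le (w := fun y => u (θ y)) hR hE.pos (smAt (a := u) hK.sm hθ hz)
    (by have := hE.one _ hx.1 hx.2.1 hx.2.2; linarith)
    (fun v => SkelG_952.lev_nn hK hθ hz v) (fun v => hE.grad θ O hθ z hz v) v

/-! ### forms -/

theorem fx_smul_form (hf : LvlOK f 0 r) {b : E3 → ℝ} {S : Form} {a : E3 → ℝ} {x : E3}
    (hx : x ∈ Lv f r) : fx f (fun θ z => ((b (θ z) : ℝ) : ℂ) • S θ z) a x = b x * fx f S a x := by
  obtain ⟨θ, O, z, h1, h2, h3, -, h4⟩ := dns_cases hf hx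
  unfold fx
  rw [h4, h4, C2F1_625.pd_smul, Complex.re_ofReal_mul, h3, mul_div_assoc]

/-- `b ∂∂̄c` as a form -/
def bS (b c : E3 → ℝ) : Form := fun θ z => ((b (θ z) : ℝ) : ℂ) • hS c θ z

theorem fx_bS (hf : LvlOK f 0 r) {b c a : E3 → ℝ} {x : E3} (hx : x ∈ Lv f r) :
    fx f (bS b c) a x = b x * mxd f c a x := by
  unfold bS
  rw [fx_smul_form hf hx, ← mxd_eq_fx, comm_lv hf hx]

theorem int_bS (hf : LvlOK f 0 r) (hν : IsNu f 0 r ν) {b c : E3 → ℝ} (hb : SmL f 0 r b)
    (hc : SmL f 0 r c) (a : E3 → ℝ) (ha : KUP_952.Tst f r a) : Integrable (fx f (bS b c) a) ν := by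
  refine ((stk3 hf hν hb hc ha.sm (cs_of_tst ha)).1).congr (ae_lv hν fun x hx => ?_)
  exact (fx_bS hf hx).symm

end Crest.Agent.R257.UpA_952
end
end

-- ▼ part R257/UpA3_952
section

/-!
R257 / UpA3_952: assembly of `UppStmt`, part 3: the form `Γ` of the trial metric; limits near the
puncture.
-/

set_option autoImplicit false
set_option linter.unusedSectionVars false

open Topology Filter MeasureTheory Set
open scoped ENNReal ContDiff Matrix ComplexOrder

noncomputable section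

namespace Crest.Agent.R257.UpA_952

open Crest.Agent.R275.Geo
open Crest.Agent.R257.Defs_219
open Crest.Agent.R257.KED_952 Crest.Agent.R257.KEG_952 Crest.Agent.R257.KEU_952
open Crest.Agent.R257.KUP_952
open Crest.Agent.R257.V1Defs_822 (SmL LvlOK lgh)
open Crest.Agent.R257.V1Pe_822
open Crest.Agent.R273.Defs_333 (lev)
open Crest.Agent.R273.YauDefs_635 (cH lev333_eq_lev145)
open Crest.Agent.R273.YauMax_635 (cH_eq_hess)
open Crest.Agent.R273.Hess_333 (hess)
open Crest.Agent.R273.HessB_333 (hess_congr hess_add hess_neg hess_const_mul hess_log_norm)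
open Crest.Agent.R257.PN_835 (nsq)
open Crest.Agent.R257.Aff_835 (eta2a nga)
open Crest.Agent.R257.C2F1_625 (pd c2)
open Crest.Agent.R257.C2F2_625 (hV bb)
open Crest.Agent.R257.OutB_309 (Gm)
open Crest.Agent.R257.LossA_625 (fx hS Psd Lv pe_lv dns_cases fx_add fx_sub fx_mul fx_congr fx_const
  ev_pe fx_nonneg fx_abs_le cv cv_sm cv_nonneg cv_zero cv_anti cv_aff cv_le_one sc sc_pos
  mxd_eq_fx psd_cH)
open Crest.Agent.R257.LossB_625 (Cs Sh exists_sh exists_xi smL_mul smL_add smL_const smL_smul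
  smL_comp smL_amb ae_lv off_ev stk3 comm_lv)
open Crest.Agent.R257.LossD_309 (HO dV oxd)

variable {f : E3 → ℂ} {r A : ℝ} {u : E3 → ℝ} {ν : Measure E3} {χ : E3 → ℝ} {k : ℕ}
  {g h : E3 → ℂ} {B : ℝ} {H : Form} {φ V : E3 → ℝ}

/-- `ψ` -/
theorem smL_psi (hT : Trl f r A u ν k g h B H φ V) : SmL f 0 r (lgh g h) := by
  have h1 := (V1W_822.wt (f := f) (s := 0) (r := r) (g := g) (h := h) hT.g_an hT.h_an
    (fun x h1 h2 h3 => hT.nz x ⟨h1, h2, h3⟩) (c := 1) zero_le_one).1
  simpa using h1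

theorem mxd_psi (hf : LvlOK f 0 r) (hT : Trl f r A u ν k g h B H φ V) {x : E3} (hx : x ∈ Lv f r) :
    mxd f (lgh g h) (lgh g h) x = 0 := by
  have h1 := (V1W_822.wt (f := f) (s := 0) (r := r) (g := g) (h := h) hT.g_an hT.h_an
    (fun x h1 h2 h3 => hT.nz x ⟨h1, h2, h3⟩) (c := 1) zero_le_one).2.2
  refine SkelG_952.mxd_self_zero hf (smL_psi hT) (fun θ O hθ z hz => ?_) hx.2.1 hx.2.2 hx.1
  have := h1 θ O hθ z hz
  simpa using this

/-- the second fundamental form of the trial metric -/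
def Sb (H : Form) (g : E3 → ℂ) : Form := fun θ z => bb (H θ) (dV g θ) z

/-- `hess log |η|² = 0` -/
theorem hess_eta (hf : LvlOK f 0 r) {θ : Cn 2 → E3} {O : Set (Cn 2)} (hθ : PE f 0 r θ O)
    {z : Cn 2} (hz : z ∈ O) : hess (fun y => Real.log (eta2a (n := 2) f θ y)) z = 0 ∧
      ContDiffAt ℝ ∞ (fun y => Real.log (eta2a (n := 2) f θ y)) z := by
  obtain ⟨q, hq, hq0, hqe⟩ := Ked2_397.eta2a_norm (n := 2) hθ.par hz (hf.an _ (hθ.lt z hz))
    (hf.sm _ (hθ.ne z hz) (hθ.lt z hz) (hθ.par.lvl z hz))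
  have hqd : ∀ᶠ w in 𝓝 z, DifferentiableAt ℂ q w :=
    hq.eventually_analyticAt.mono fun w hw => hw.differentiableAt
  have e : (fun y => Real.log (eta2a (n := 2) f θ y)) =ᶠ[𝓝 z] fun w => Real.log (‖q w‖ ^ 2) := by
    filter_upwards [hqe] with y hy
    have h1 : eta2a (n := 2) f θ y = ‖q y‖ ^ 2 := hy
    rw [h1]
  refine ⟨by rw [hess_congr e, hess_log_norm hqd hq0], ?_⟩
  exact (KEl_835.c2_log hq hq0 ∞).congr_of_eventuallyEq e

/-- **`Γ` of the trial metric** -/
theorem gm_trial (hf : LvlOK f 0 r) (hT : Trl f r A u ν k g h B H φ V) {θ : Cn 2 → E3}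
    {O : Set (Cn 2)} (hθ : PE f 0 r θ O) {z : Cn 2} (hz : z ∈ O) :
    Gm (H θ) (dV g θ) z = ((-(1 + 1 / k) * lgh g h (θ z) : ℝ) : ℂ) •
      cH (fun y => lgh g h (θ y)) z + bb (H θ) (dV g θ) z := by
  have hO := hθ.par.isOpen.mem_nhds hz
  have hψ : ContDiffAt ℝ ∞ (fun y => lgh g h (θ y)) z := smAt (smL_psi hT) hθ hz
  obtain ⟨e0, s0⟩ := hess_eta hf hθ hz
  have e1 : (fun y => Real.log (hV (H θ) (dV g θ) y)) =ᶠ[𝓝 z] fun y => lgh g h (θ y) := by
    filter_upwards [hO] with y hy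
    rw [hT.dg θ O hθ y hy, Real.log_exp]
  have e2 : (fun y => Real.log (H θ y).det.re) =ᶠ[𝓝 z] fun y =>
      -((1 / (k : ℝ)) * lgh g h (θ y) + Real.log (eta2a (n := 2) f θ y)) := by
    filter_upwards [hO] with y hy
    have h1 := hT.det θ O hθ y hy
    have h2 : 0 < eta2a (n := 2) f θ y := Loc_835.eta2a_pos hθ.par hy
      (hf.sm _ (hθ.ne y hy) (hθ.lt y hy) (hθ.par.lvl y hy))
    have h3 : (H θ y).det.re = Real.exp (-(lgh g h (θ y) / k)) / eta2a (n := 2) f θ y := by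
      rw [eq_div_iff h2.ne', h1]
    rw [h3, Real.log_div (Real.exp_pos _).ne' h2.ne', Real.log_exp]
    ring
  unfold Gm
  rw [hess_congr e1, hess_congr e2, hess_neg ((contDiffAt_const.mul hψ).add s0),
    hess_add (contDiffAt_const.mul hψ) s0, hess_const_mul _ hψ, e0, ← cH_eq_hess hψ,
    hT.dg θ O hθ z hz, Real.log_exp]
  congr 1
  ext i j
  simp only [Matrix.smul_apply, Matrix.sub_apply, Matrix.neg_apply, Matrix.add_apply,
    Matrix.zero_apply, smul_eq_mul]
  push_cast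
  ring

/-- the density of `∂∂̄a ∧ Γ` for the trial metric -/
theorem gd_trial (hf : LvlOK f 0 r) (hT : Trl f r A u ν k g h B H φ V) {a : E3 → ℝ} {x : E3}
    (hx : x ∈ Lv f r) : Gd f H g a x =
      -(1 + 1 / k) * (lgh g h x * mxd f (lgh g h) a x) + fx f (Sb H g) a x := by
  have h2 : mxd f (lgh g h) a x = fx f (hS (lgh g h)) a x := by
    rw [comm_lv hf hx, mxd_eq_fx]
  obtain ⟨θ, O, z, h1, hz, h3, -, h4⟩ := dns_cases hf hx
  rw [h2]
  unfold Gd fx Sb hS
  rw [h4, h4, h4]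
  beta_reduce
  rw [gm_trial hf hT h1 hz, C2F1_625.pd_add, C2F1_625.pd_smul, Complex.add_re,
    Complex.re_ofReal_mul, h3, add_div]
  ring

/-- the second fundamental form is `≥ 0` and `≤ B ∂∂̄φ` -/
theorem fx_Sb (hf : LvlOK f 0 r) (hK : KEon f 0 r u) (hE : Esc f r u A)
    (hT : Trl f r A u ν k g h B H φ V) (hb : Psd f r (Sb H g)) {R : ℝ} (hR : 0 < R) {x : E3}
    (hx : x ∈ Lv f r) : 0 ≤ fx f (Sb H g) (cR A u R) x ∧
      fx f (Sb H g) (cR A u R) x ≤ qR A u R x * (B * mxd f u φ x) := by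
  have hus : SmL f 0 r u := hK.sm
  have h0 : 0 ≤ fx f (Sb H g) (cR A u R) x := fx_nonneg hf hb (smL_cR hus R) hx
    fun θ O hP z hz _ v => (lev_cR_pe hK hE hR hP hz v).1
  refine ⟨h0, ?_⟩
  have hq := qR_nonneg (A := A) (u := u) hR hE.pos x
  have h1 : fx f (Sb H g) (cR A u R) x ≤ qR A u R x * fx f (Sb H g) u x := by
    have := fx_abs_le hf hb (smL_cR hus R) hus hx (c := qR A u R x) fun θ O hP z hz hzx v => by
      have h2 := lev_cR_pe hK hE hR hP hz v
      rw [hzx] at h2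
      rw [abs_of_nonneg h2.1]
      exact h2.2
    exact (le_abs_self _).trans this
  have h2 : fx f (Sb H g) u x ≤ B * mxd f u φ x := by
    have h5 : B * mxd f u φ x = B * fx f (hS φ) u x := by rw [mxd_eq_fx]
    rw [h5]
    obtain ⟨θ, O, z, h1, hz, h3, he, h4⟩ := dns_cases hf hx
    unfold fx Sb hS
    rw [h4, h4, ← mul_div_assoc]
    refine div_le_div_of_nonneg_right ?_ he.le
    have a1 := hT.bb θ O h1 z hz
    have a2 : (cH (fun y => u (θ y)) z).PosSemidef :=
      psd_cH (smAt hus h1 hz) fun v => SkelG_952.lev_nn hK h1 hz v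
    have a3 := GBLcut_844.pd_nonneg a2 a1
    rw [C2F1_625.pd_sub, C2F1_625.pd_smul, Complex.sub_re, Complex.re_ofReal_mul] at a3
    linarith
  exact h1.trans (mul_le_mul_of_nonneg_left h2 hq)

end Crest.Agent.R257.UpA_952
end
end

-- ▼ part R257/UpA4_952
section

/-!
R257 / UpA4_952: assembly of `UppStmt`, part 4: limits of the integrals near the puncture.
-/

set_option autoImplicit false
set_option linter.unusedSectionVars false

open Topology Filter MeasureTheory Set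
open scoped ENNReal ContDiff Matrix ComplexOrder

noncomputable section

namespace Crest.Agent.R257.UpA_952

open Crest.Agent.R275.Geo
open Crest.Agent.R257.Defs_219
open Crest.Agent.R257.KED_952 Crest.Agent.R257.KEG_952 Crest.Agent.R257.KEU_952
open Crest.Agent.R257.KUP_952
open Crest.Agent.R257.V1Defs_822 (SmL LvlOK lgh)
open Crest.Agent.R257.V1Pe_822
open Crest.Agent.R273.Defs_333 (lev)
open Crest.Agent.R273.YauDefs_635 (cH lev333_eq_lev145)
open Crest.Agent.R273.YauMax_635 (cH_eq_hess)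
open Crest.Agent.R273.Hess_333 (hess)
open Crest.Agent.R257.PN_835 (nsq)
open Crest.Agent.R257.Aff_835 (eta2a nga)
open Crest.Agent.R257.C2F1_625 (pd c2)
open Crest.Agent.R257.C2F2_625 (hV bb)
open Crest.Agent.R257.OutB_309 (Gm)
open Crest.Agent.R257.LossA_625 (fx hS Psd Lv pe_lv dns_cases fx_add fx_sub fx_mul fx_congr fx_const
  ev_pe fx_nonneg fx_abs_le cv cv_sm cv_nonneg cv_zero cv_anti cv_aff cv_le_one sc sc_pos
  mxd_eq_fx psd_cH)
open Crest.Agent.R257.LossB_625 (Cs Sh exists_sh exists_xi smL_mul smL_add smL_const smL_smul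
  smL_comp smL_amb ae_lv off_ev stk3 comm_lv)
open Crest.Agent.R257.LossD_309 (HO dV oxd)

variable {f : E3 → ℂ} {r A : ℝ} {u : E3 → ℝ} {ν : Measure E3} {χ : E3 → ℝ} {k : ℕ}
  {g h : E3 → ℂ} {B : ℝ} {H : Form} {φ V : E3 → ℝ}

/-- the closed outer region -/
def Ou (d : ℝ) : Set E3 := {x | d ^ 2 ≤ nsq x}

/-- the open inner region -/
def In (d : ℝ) : Set E3 := {x | nsq x < d ^ 2}

theorem meas_Ou (d : ℝ) : MeasurableSet (Ou d) :=
  (isClosed_le continuous_const continuous_nsq3).measurableSet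

theorem meas_In (d : ℝ) : MeasurableSet (In d) :=
  (isOpen_lt continuous_nsq3 continuous_const).measurableSet

theorem compl_Ou (d : ℝ) : (Ou d)ᶜ = In d := by
  ext x
  simp [Ou, In]

theorem split_int {F : E3 → ℝ} (hF : Integrable F ν) (d : ℝ) :
    ∫ x, F x ∂ν = ∫ x in In d, F x ∂ν + ∫ x in Ou d, F x ∂ν := by
  rw [← integral_add_compl (meas_Ou d) hF, compl_Ou, add_comm]

/-- densities of `χ cR` in the inner region -/
theorem fx_tR_in (hf : LvlOK f 0 r) {S : Form} {R d : ℝ}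
    (hχ : ∀ x, nsq x < d ^ 2 → ∀ᶠ y in 𝓝 x, χ y = 1) {x : E3} (hx : x ∈ Lv f r) (hd : x ∈ In d) :
    fx f S (tR A u χ R) x = fx f S (cR A u R) x :=
  fx_congr hf hx fun θ O hP z hz hzx => by
    filter_upwards [ev_pe (hχ x hd) hP hz hzx] with y hy
    show χ (θ y) * _ = _
    rw [hy, one_mul]

theorem fx_chi_in (hf : LvlOK f 0 r) {S : Form} {d : ℝ}
    (hχ : ∀ x, nsq x < d ^ 2 → ∀ᶠ y in 𝓝 x, χ y = 1) {x : E3} (hx : x ∈ Lv f r) (hd : x ∈ In d) :
    fx f S χ x = 0 := fx_const (c := 1) hf hx fun _ _ hP _ hz hzx => ev_pe (hχ x hd) hP hz hzx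

theorem int_Ou_chi (hf : LvlOK f 0 r) (hν : IsNu f 0 r ν) {S : Form} {d : ℝ}
    (hχ : ∀ x, nsq x < d ^ 2 → ∀ᶠ y in 𝓝 x, χ y = 1) :
    ∫ x in Ou d, fx f S χ x ∂ν = ∫ x, fx f S χ x ∂ν := by
  refine setIntegral_eq_integral_of_ae_compl_eq_zero (ae_lv hν fun x hx hxd => ?_)
  exact fx_chi_in hf hχ hx (by
    rw [← compl_Ou]
    exact hxd)

/-- **`∫_{In} ψ ∂∂̄ψ ∧ ∂∂̄cR → - TOT ψ χ`** -/
theorem lim_psi (hf : LvlOK f 0 r) (hν : IsNu f 0 r ν) (hK : KEon f 0 r u) (hE : Esc f r u A)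
    (hT : Trl f r A u ν k g h B H φ V) (hχ : Cut r χ) {d : ℝ} (hd : 0 < d)
    (hχd : ∀ x, nsq x < d ^ 2 → ∀ᶠ y in 𝓝 x, χ y = 1) :
    Tendsto (fun R : ℝ => ∫ x in In d, fx f (bS (lgh g h) (lgh g h)) (tR A u χ R) x ∂ν) atTop
      (𝓝 (-TOT ν f (lgh g h) χ)) := by
  have hψ := smL_psi hT
  have hus : SmL f 0 r u := hK.sm
  have hI := fun a ha => int_bS (f := f) (r := r) (ν := ν) hf hν hψ hψ a ha
  have h1 := lim_out (A := A) hf hν hus hχ hd hI
  have e1 : ∫ x in {x | d ^ 2 ≤ nsq x}, fx f (bS (lgh g h) (lgh g h)) χ x ∂ν =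
      TOT ν f (lgh g h) χ := by
    have h2 := int_Ou_chi (S := bS (lgh g h) (lgh g h)) hf hν hχd
    unfold Ou at h2
    rw [h2]
    unfold TOT
    exact integral_congr_ae (ae_lv hν fun x hx => fx_bS hf hx)
  rw [e1] at h1
  refine h1.neg.congr' ?_
  filter_upwards [eventually_gt_atTop 0] with R hR
  have ht := tst_tR (χ := χ) hE hus hχ hR
  have h2 := split_int (hI _ ht) d
  have h3 : ∫ x, fx f (bS (lgh g h) (lgh g h)) (tR A u χ R) x ∂ν = 0 := by
    have h4 := (stk3 hf hν hψ hψ ht.sm (cs_of_tst ht)).2.2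
    have h5 : ∫ x, fx f (bS (lgh g h) (lgh g h)) (tR A u χ R) x ∂ν =
        ∫ x, lgh g h x * mxd f (lgh g h) (tR A u χ R) x ∂ν :=
      integral_congr_ae (ae_lv hν fun x hx => fx_bS hf hx)
    rw [h5, h4, ← integral_zero E3 ℝ (μ := ν)]
    refine integral_congr_ae (ae_lv hν fun x hx => ?_)
    show _ * mxd f (lgh g h) (lgh g h) x = 0
    rw [mxd_psi hf hT hx, mul_zero]
  rw [h3] at h2
  unfold Ou at h2
  linarith

/-- pointwise limit of `qR` -/
theorem qR_lim {x : E3} : Tendsto (fun R : ℝ => qR A u R x) atTop (𝓝 0) := by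
  have h1 : Tendsto (fun R : ℝ => sc / R) atTop (𝓝 0) := tendsto_const_nhds.div_atTop tendsto_id
  refine h1.congr' ?_
  filter_upwards [eventually_gt_atTop (2 * (A - u x)), eventually_gt_atTop 0] with R h2 h3
  unfold qR
  rw [if_pos (by linarith), if_neg (by linarith), add_zero]

theorem qR_le {R : ℝ} (hR : 1 ≤ R) (hA : 0 < A) (x : E3) :
    qR A u R x ≤ sc + 2 * sc * KK * A := by
  have h1 := sc_pos
  have h2 := KK_pos
  have h3 : sc / R ≤ sc := div_le_self h1.le hR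
  have h4 : 0 ≤ 2 * sc * KK * A := by positivity
  unfold qR
  split_ifs <;> linarith

/-- **the second fundamental form does not contribute** -/
theorem lim_bb (hf : LvlOK f 0 r) (hν : IsNu f 0 r ν) (hK : KEon f 0 r u) (hE : Esc f r u A)
    (hT : Trl f r A u ν k g h B H φ V) (hb : Psd f r (Sb H g)) (hχ : Cut r χ) {d : ℝ}
    (hχd : ∀ x, nsq x < d ^ 2 → ∀ᶠ y in 𝓝 x, χ y = 1)
    (hme : ∀ R, 1 ≤ R → AEStronglyMeasurable
      (fun x => (In d).indicator (fx f (Sb H g) (cR A u R)) x) ν) :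
    Tendsto (fun R : ℝ => ∫ x in In d, fx f (Sb H g) (cR A u R) x ∂ν) atTop (𝓝 0) := by
  have e0 : ∀ R, ∫ x in In d, fx f (Sb H g) (cR A u R) x ∂ν =
      ∫ x, (In d).indicator (fx f (Sb H g) (cR A u R)) x ∂ν := fun R =>
    (integral_indicator (meas_In d)).symm
  simp only [e0]
  have e1 : (0 : ℝ) = ∫ x, (0 : ℝ) ∂ν := by simp
  rw [e1]
  have hA := hE.pos
  refine tendsto_integral_filter_of_dominated_convergence
    (fun x => (sc + 2 * sc * KK * A) * (|B| * (χ x * mxd f u φ x)))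
    ?_ ?_ (((hT.φ_int χ hχ).const_mul _).const_mul _) ?_
  · filter_upwards [eventually_ge_atTop 1] with R hR using hme R hR
  · filter_upwards [eventually_ge_atTop 1] with R hR
    refine ae_lv hν fun x hx => ?_
    have hsc := sc_pos
    have hKK := KK_pos
    have hC : 0 ≤ sc + 2 * sc * KK * A := by positivity
    have hm : 0 ≤ mxd f u φ x := by
      rw [comm_lv hf hx, mxd_eq_fx]
      refine fx_nonneg hf (fun θ O h1 z hz => psd_cH (smAt hK.sm h1 hz)
        fun v => SkelG_952.lev_nn hK h1 hz v) hT.φ_sm hx fun θ O h1 z hz _ v =>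
          hT.φ_psh θ O h1 z hz v
    by_cases hxd : x ∈ In d
    · rw [indicator_of_mem hxd]
      obtain ⟨a1, a2⟩ := fx_Sb hf hK hE hT hb (by linarith : 0 < R) hx
      rw [Real.norm_eq_abs, abs_of_nonneg a1, (hχd x hxd).self_of_nhds, one_mul]
      calc _ ≤ _ := a2
        _ ≤ qR A u R x * (|B| * mxd f u φ x) := by
            have := le_abs_self B
            have := qR_nonneg (A := A) (u := u) (by linarith : 0 < R) hA x
            gcongr
        _ ≤ _ := by
            have := qR_le (A := A) (u := u) hR hA x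
            gcongr
    · rw [indicator_of_notMem hxd, norm_zero]
      have := hχ.nn x
      positivity
  · refine ae_lv hν fun x hx => ?_
    by_cases hxd : x ∈ In d
    · have e2 : (fun R => (In d).indicator (fx f (Sb H g) (cR A u R)) x) =
          fun R => fx f (Sb H g) (cR A u R) x := by
        funext R
        rw [indicator_of_mem hxd]
      rw [e2]
      have h3 : Tendsto (fun R => qR A u R x * (B * mxd f u φ x)) atTop (𝓝 0) := by
        have := (qR_lim (A := A) (u := u) (x := x)).mul_const (B * mxd f u φ x)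
        rwa [zero_mul] at this
      refine tendsto_of_tendsto_of_tendsto_of_le_of_le' tendsto_const_nhds h3 ?_ ?_
      · filter_upwards [eventually_gt_atTop 0] with R hR
        exact (fx_Sb hf hK hE hT hb hR hx).1
      · filter_upwards [eventually_gt_atTop 0] with R hR
        exact (fx_Sb hf hK hE hT hb hR hx).2
    · have e2 : (fun R => (In d).indicator (fx f (Sb H g) (cR A u R)) x) = fun _ => 0 := by
        funext R
        rw [indicator_of_notMem hxd]
      rw [e2]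
      exact tendsto_const_nhds

end Crest.Agent.R257.UpA_952
end
end

-- ▼ part R257/UpA5_952
section

/-!
R257 / UpA5_952: assembly of `UppStmt`, part 5: the glued metric.
-/

set_option autoImplicit false
set_option linter.unusedSectionVars false

open Topology Filter MeasureTheory Set
open scoped ENNReal ContDiff Matrix ComplexOrder

noncomputable section

namespace Crest.Agent.R257.UpA_952

open Crest.Agent.R275.Geo
open Crest.Agent.R257.Defs_219
open Crest.Agent.R257.KED_952 Crest.Agent.R257.KEG_952 Crest.Agent.R257.KEU_952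
open Crest.Agent.R257.KUP_952
open Crest.Agent.R257.V1Defs_822 (SmL LvlOK lgh)
open Crest.Agent.R257.V1Pe_822
open Crest.Agent.R273.Defs_333 (lev)
open Crest.Agent.R273.YauDefs_635 (cH lev333_eq_lev145)
open Crest.Agent.R273.YauMax_635 (cH_eq_hess)
open Crest.Agent.R273.Hess_333 (hess)
open Crest.Agent.R257.PN_835 (nsq)
open Crest.Agent.R257.Aff_835 (eta2a nga)
open Crest.Agent.R257.C2F1_625 (pd c2)
open Crest.Agent.R257.C2F2_625 (hV bb)
open Crest.Agent.R257.OutB_309 (Gm)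
open Crest.Agent.R257.LossA_625 (fx hS Psd Lv pe_lv dns_cases fx_add fx_sub fx_mul fx_congr fx_const
  ev_pe fx_nonneg fx_abs_le cv cv_sm cv_nonneg cv_zero cv_anti cv_aff cv_le_one sc sc_pos
  mxd_eq_fx psd_cH)
open Crest.Agent.R257.LossB_625 (Cs Sh exists_sh exists_xi smL_mul smL_add smL_const smL_smul
  smL_comp smL_amb ae_lv off_ev stk3 comm_lv)
open Crest.Agent.R257.LossD_309 (HO dV oxd)

variable {f : E3 → ℂ} {r A : ℝ} {u : E3 → ℝ} {ν : Measure E3} {χ ζ : E3 → ℝ} {k : ℕ}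
  {g h : E3 → ℂ} {B : ℝ} {H H' : Form} {φ V : E3 → ℝ}

/-- the glued metric -/
def gl (ζ : E3 → ℝ) (H H' : Form) : Form := fun θ z =>
  ((ζ (θ z) : ℝ) : ℂ) • H θ z + ((1 - ζ (θ z) : ℝ) : ℂ) • H' θ z

theorem hV_gl {θ : Cn 2 → E3} {z : Cn 2} (W : Cn 2 → Fin 2 → ℂ) :
    hV (gl ζ H H' θ) W z = ζ (θ z) * hV (H θ) W z + (1 - ζ (θ z)) * hV (H' θ) W z := by
  unfold hV gl
  rw [Matrix.add_mulVec, Matrix.smul_mulVec, Matrix.smul_mulVec, dotProduct_add,
    dotProduct_smul, dotProduct_smul, Complex.add_re, smul_eq_mul, smul_eq_mul,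
    Complex.re_ofReal_mul, Complex.re_ofReal_mul]

/-- the glued metric is a metric -/
theorem mt_gl (hζ : ContDiff ℝ ∞ ζ) (h0 : ∀ x, 0 ≤ ζ x) (h1 : ∀ x, ζ x ≤ 1) (hH : Mt f r H)
    (hH' : Mt f r H') : Mt f r (gl ζ H H') := by
  refine ⟨fun θ O hP a b => ?_, fun θ O hP z hz => ?_, ?_⟩
  · have e : (fun z => gl ζ H H' θ z a b) = fun z =>
        ((ζ (θ z) : ℝ) : ℂ) * H θ z a b + ((1 - ζ (θ z) : ℝ) : ℂ) * H' θ z a b := by
      funext z
      simp [gl]
    rw [e]
    have hs : ContDiffOn ℝ ∞ (fun z => ζ (θ z)) O := smL_amb (f := f) (r := r) hζ θ O hP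
    have hc : ContDiffOn ℝ ∞ (fun z => ((ζ (θ z) : ℝ) : ℂ)) O :=
      Complex.ofRealCLM.contDiff.comp_contDiffOn hs
    have hc' : ContDiffOn ℝ ∞ (fun z => ((1 - ζ (θ z) : ℝ) : ℂ)) O :=
      Complex.ofRealCLM.contDiff.comp_contDiffOn (contDiffOn_const.sub hs)
    exact (hc.mul (hH.sm θ O hP a b)).add (hc'.mul (hH'.sm θ O hP a b))
  · have p1 := hH.pos θ O hP z hz
    have p2 := hH'.pos θ O hP z hz
    rcases (h0 (θ z)).lt_or_eq with h | h
    · have q1 : (((ζ (θ z) : ℝ) : ℂ) • H θ z).PosDef :=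
        p1.smul (by exact_mod_cast h)
      have q2 : (((1 - ζ (θ z) : ℝ) : ℂ) • H' θ z).PosSemidef :=
        p2.posSemidef.smul (by
          have := h1 (θ z)
          exact_mod_cast sub_nonneg.2 this)
      exact q1.add_posSemidef q2
    · have e : gl ζ H H' θ z = H' θ z := by
        unfold gl
        rw [← h]
        simp
      rw [e]
      exact p2
  · intro θ O θ' O' z z' h1 h2 hz hz' e a
    rw [hV_gl, hV_gl, e, hH.ind θ O θ' O' z z' h1 h2 hz hz' e a,
      hH'.ind θ O θ' O' z z' h1 h2 hz hz' e a]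

theorem gl_one {θ : Cn 2 → E3} {z : Cn 2} (h : ζ (θ z) = 1) : gl ζ H H' θ z = H θ z := by
  unfold gl
  rw [h]
  simp

theorem gl_zero {θ : Cn 2 → E3} {z : Cn 2} (h : ζ (θ z) = 0) : gl ζ H H' θ z = H' θ z := by
  unfold gl
  rw [h]
  simp

theorem eqn_gl {x : E3} (h : ∀ᶠ y in 𝓝 x, ζ y = 0) : EqN f r u (gl ζ H (HK u)) x := by
  filter_upwards [h] with y hy θ O hP z hz e
  exact gl_zero (by rw [e, hy])

/-- comparison of the glued metric -/
theorem cpr_gl (h0 : ∀ x, 0 ≤ ζ x) (h1 : ∀ x, ζ x ≤ 1) {θ : Cn 2 → E3} {z : Cn 2}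
    (hK : (HK u θ z).PosDef) (hV : 0 ≤ V (θ z)) (hc : Cpr u H V θ z) :
    Cpr u (gl ζ H (HK u)) V θ z := by
  have hz0 : (0 : ℂ) ≤ ((ζ (θ z) : ℝ) : ℂ) := by exact_mod_cast h0 (θ z)
  have he : (0 : ℂ) ≤ (((1 - ζ (θ z)) * (Real.exp (V (θ z)) - 1) : ℝ) : ℂ) := by
    have a1 : 0 ≤ 1 - ζ (θ z) := sub_nonneg.2 (h1 _)
    have a2 : 0 ≤ Real.exp (V (θ z)) - 1 := by
      have := Real.one_le_exp hV
      linarith
    exact_mod_cast mul_nonneg a1 a2
  constructor
  · have e : (((Real.exp (V (θ z)) : ℝ) : ℂ) • HK u θ z - gl ζ H (HK u) θ z) =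
        ((ζ (θ z) : ℝ) : ℂ) • (((Real.exp (V (θ z)) : ℝ) : ℂ) • HK u θ z - H θ z) +
        (((1 - ζ (θ z)) * (Real.exp (V (θ z)) - 1) : ℝ) : ℂ) • HK u θ z := by
      unfold gl
      ext i j
      simp only [Matrix.add_apply, Matrix.sub_apply, Matrix.smul_apply, smul_eq_mul]
      push_cast
      ring
    rw [e]
    exact (hc.1.smul hz0).add (hK.posSemidef.smul he)
  · have e : (((Real.exp (V (θ z)) : ℝ) : ℂ) • gl ζ H (HK u) θ z - HK u θ z) =
        ((ζ (θ z) : ℝ) : ℂ) • (((Real.exp (V (θ z)) : ℝ) : ℂ) • H θ z - HK u θ z) +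
        (((1 - ζ (θ z)) * (Real.exp (V (θ z)) - 1) : ℝ) : ℂ) • HK u θ z := by
      unfold gl
      ext i j
      simp only [Matrix.add_apply, Matrix.sub_apply, Matrix.smul_apply, smul_eq_mul]
      push_cast
      ring
    rw [e]
    exact (hc.2.smul hz0).add (hK.posSemidef.smul he)

/-- `dV g` is a nonvanishing holomorphic covector -/
theorem noz_of_trl (hT : Trl f r A u ν k g h B H φ V) : NoZ f r g := by
  intro θ O hP z hz h0
  have h1 := hT.dg θ O hP z hz
  have h2 : dV g θ z = 0 := by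
    funext i
    unfold dV
    rw [h0]
    rfl
  unfold hV at h1
  rw [h2] at h1
  simp at h1
  exact absurd h1.symm (Real.exp_pos _).ne'

theorem psd_Sb (hT : Trl f r A u ν k g h B H φ V) : Psd f r (Sb H g) := by
  intro θ O hP z hz
  have hO := hP.par.isOpen
  obtain ⟨w, hw⟩ := C2F2_625.bb_rank (H := H θ) (V := dV g θ) (z := z)
    (by
      filter_upwards [hO.mem_nhds hz] with y hy a b
      exact (hT.mt.sm θ O hP a b).contDiffAt (hO.mem_nhds hy))
    (by filter_upwards [hO.mem_nhds hz] with y hy using hT.mt.pos θ O hP y hy)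
    (fun i => by
      filter_upwards [hO.mem_nhds hz] with y hy
      exact (OutD_309.dV_hol hT.g_an hP i).differentiableAt (hO.mem_nhds hy))
    (by
      intro h0
      refine noz_of_trl hT θ O hP z hz ?_
      ext w
      rw [OutD_309.fderiv_eq_dV, h0]
      simp)
  exact GBL4_625.psd_rank hw

end Crest.Agent.R257.UpA_952
end
end

-- ▼ part R257/SQ_636
section

/-!
# R257 (S0395), leaf UPP-SQ (helper636): `SQStmt` of KUP_952

* `herm_ext`  : a Hermitian matrix is determined by its quadratic form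
* `exists_lin`: the covectors `dV (lin a) θ z`, `a : E3`, are all covectors
* `tr_of_mt`  : transition rule of a metric `Mt f r H`
* `bun_of_mt` : `Mt f r H → Bun f 0 r H (dV g)`
* `sqStmt`    : **`SQStmt`**
-/

set_option autoImplicit false
set_option linter.unusedSectionVars false

open Set Filter Topology Complex MeasureTheory
open scoped ContDiff Matrix ComplexConjugate ComplexOrder ENNReal

namespace Crest.Agent.R257.SQ_636

open Crest.Agent.R275.Geo Crest.Agent.R275.EDR890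
open Crest.Agent.R273.Fock_243 Crest.Agent.R273.Calc_243
open Crest.Agent.R273.Bkn_243 Crest.Agent.R273.Pos_243 Crest.Agent.R273.BochA_101
open Crest.Agent.R273.BochB_101
open Crest.Agent.R273.BochC_101 Crest.Agent.R273.BochD_101
open Crest.Agent.R273.Hess_333 Crest.Agent.R273.HessB_333
open Crest.Agent.R273.Defs_333 (lev)
open Crest.Agent.R273.YauDefs_635 (cH)
open Crest.Agent.R273.YauMax_635 (cH_eq_hess)
open Crest.Agent.R257.C2F1_625 Crest.Agent.R257.C2F2_625 Crest.Agent.R257.C2F3_625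
open Crest.Agent.R257.C2F4_335 Crest.Agent.R257.C2F5_335 Crest.Agent.R257.C2F6_335
open Crest.Agent.R257.Defs_219
open Crest.Agent.R257.PN_835 (nsq)
open Crest.Agent.R257.Aff_835 (eta2a)
open Crest.Agent.R257.KED_952 Crest.Agent.R257.KEG_952
open Crest.Agent.R257.Ked1_397 Crest.Agent.R257.Ked2_397
open Crest.Agent.R257.V1Defs_822 (SmL LvlOK)
open Crest.Agent.R257.LossA_625 (fx Lv pe_lv)
open Crest.Agent.R257.OutA_309 Crest.Agent.R257.OutB_309 Crest.Agent.R257.LossD_309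
open Crest.Agent.R257.OutC_309 Crest.Agent.R257.OutD_309 Crest.Agent.R257.OutE_309
open Crest.Agent.R257.KUP_952

noncomputable section

/-- a Hermitian matrix is determined by its quadratic form -/
theorem herm_ext {A B : Matrix (Fin 2) (Fin 2) ℂ} (hA : A.IsHermitian) (hB : B.IsHermitian)
    (h : ∀ v : Fin 2 → ℂ, (star v ⬝ᵥ (A *ᵥ v)).re = (star v ⬝ᵥ (B *ᵥ v)).re) : A = B := by
  have a00 := hA.apply 0 0
  have a11 := hA.apply 1 1
  have a10 := hA.apply 1 0
  have b00 := hB.apply 0 0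
  have b11 := hB.apply 1 1
  have b10 := hB.apply 1 0
  have h1 := h ![1, 0]
  have h2 := h ![0, 1]
  have h3 := h ![1, 1]
  have h4 := h ![1, I]
  simp [Matrix.mulVec, dotProduct, Fin.sum_univ_two] at h1 h2 h3 h4
  have ia := congrArg Complex.im a00
  have ib := congrArg Complex.im b00
  have ja := congrArg Complex.im a11
  have jb := congrArg Complex.im b11
  have ra := congrArg Complex.re a10
  have rb := congrArg Complex.re b10
  have sa := congrArg Complex.im a10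
  have sb := congrArg Complex.im b10
  simp at ia ib ja jb ra rb sa sb
  ext i j
  fin_cases i <;> fin_cases j
  all_goals
    apply Complex.ext
    all_goals
      simp
      try linarith

/-- quadratic form after a linear change -/
theorem quad_mul (A B : Matrix (Fin 2) (Fin 2) ℂ) (v : Fin 2 → ℂ) :
    star (A *ᵥ v) ⬝ᵥ (B *ᵥ (A *ᵥ v)) = star v ⬝ᵥ ((Aᴴ * B * A) *ᵥ v) := by
  rw [Matrix.mul_assoc, ← Matrix.mulVec_mulVec, ← Matrix.mulVec_mulVec, Matrix.star_mulVec,
    Matrix.dotProduct_mulVec (star v)]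

theorem lin_an (a x : E3) : AnalyticAt ℂ (lin a) x := by
  show AnalyticAt ℂ (fun x : E3 => ∑ i, a i * x i) x
  refine Finset.analyticAt_fun_sum _ fun i _ => analyticAt_const.mul ?_
  exact (ContinuousLinearMap.proj (R := ℂ) (φ := fun _ : Fin 3 => ℂ) i).analyticAt x

theorem dV_lin {θ : Cn 2 → E3} {z : Cn 2} (hθ : DifferentiableAt ℂ θ z) (a : E3) (i : Fin 2) :
    dV (lin a) θ z i = ∑ j, a j * (fderiv ℂ θ z (EuclideanSpace.single i 1)) j := by
  set L : E3 →L[ℂ] ℂ := ∑ j, a j • ContinuousLinearMap.proj (R := ℂ) (φ := fun _ : Fin 3 => ℂ) j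
    with hL
  have e : (fun z => lin a (θ z)) = fun z => L (θ z) := by
    funext z
    simp [lin, hL]
  have h1 : fderiv ℂ (fun z => lin a (θ z)) z = L.comp (fderiv ℂ θ z) := by
    rw [e]
    exact (L.hasFDerivAt.comp z hθ.hasFDerivAt).fderiv
  show fderiv ℂ (fun z => lin a (θ z)) z (EuclideanSpace.single i 1) = _
  rw [h1]
  simp [hL]

variable {f : E3 → ℂ} {s : ℂ} {r : ℝ}

/-- the covectors `dV (lin a) θ z` are all covectors -/
theorem exists_lin {O : Set (Cn 2)} {θ : Cn 2 → E3} {z : Cn 2} (hP : PE f s r θ O) (hz : z ∈ O)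
    (ξ : Fin 2 → ℂ) : ∃ a : E3, dV (lin a) θ z = ξ := by
  have hθ : DifferentiableAt ℂ θ z := hP.par.hol.differentiableAt (hP.par.isOpen.mem_nhds hz)
  set M : Matrix (Fin 2) (Fin 3) ℂ :=
    Matrix.of fun i j => (fderiv ℂ θ z (EuclideanSpace.single i 1)) j with hM
  have hli : LinearIndependent ℂ M.row := by
    rw [Fintype.linearIndependent_iff]
    intro c hc
    have h1 : fderiv ℂ θ z (∑ i, c i • (EuclideanSpace.single i (1 : ℂ) : Cn 2)) = 0 := by
      rw [map_sum, ← hc]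
      refine Finset.sum_congr rfl fun i _ => ?_
      rw [map_smul]
      rfl
    have h2 := hP.par.imm z hz _ h1
    intro i
    have h3 := congrArg (fun v : Cn 2 => v i) h2
    fin_cases i <;> simpa [Fin.sum_univ_two] using h3
  have hr : M.rank = 2 := by simpa using hli.rank_matrix
  have hsurj : Function.Surjective M.mulVecLin := by
    rw [← LinearMap.range_eq_top]
    apply Submodule.eq_top_of_finrank_eq
    rw [Matrix.rank] at hr
    rw [hr]
    simp
  obtain ⟨a, ha⟩ := hsurj ξ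
  refine ⟨a, ?_⟩
  funext i
  rw [dV_lin hθ, ← ha]
  simp only [Matrix.mulVecLin_apply, Matrix.mulVec, dotProduct, hM, Matrix.of_apply]
  exact Finset.sum_congr rfl fun j _ => mul_comm _ _

/-- reparametrisation -/
theorem pe_trans {O U : Set (Cn 2)} {θ θ' : Cn 2 → E3} {T : Cn 2 → Cn 2} (hP : PE f s r θ O)
    (hU : IsOpen U) (hT : ∀ y ∈ U, DifferentiableAt ℂ T y)
    (hTe : ∀ y ∈ U, T y ∈ O ∧ θ' y = θ (T y)) (hd : ∀ y ∈ U, (Jac T y).det ≠ 0) :
    PE f s r θ' U := by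
  have hev : ∀ y ∈ U, θ' =ᶠ[𝓝 y] fun w => θ (T w) := fun y hy => by
    filter_upwards [hU.mem_nhds hy] with w hw using (hTe w hw).2
  have hdt : ∀ y ∈ U, DifferentiableAt ℂ θ (T y) := fun y hy =>
    hP.par.hol.differentiableAt (hP.par.isOpen.mem_nhds (hTe y hy).1)
  refine ⟨⟨hU, fun y hy => ?_, fun y hy => ?_, fun y hy v hv => ?_⟩, fun y hy => ?_,
    fun y hy => ?_⟩
  · exact (((hdt y hy).comp y (hT y hy)).congr_of_eventuallyEq (hev y hy)).differentiableWithinAt
  · rw [(hTe y hy).2]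
    exact hP.par.lvl _ (hTe y hy).1
  · have h1 : fderiv ℂ θ' y = (fderiv ℂ θ (T y)).comp (fderiv ℂ T y) := by
      rw [(hev y hy).fderiv_eq]
      exact fderiv_fun_comp y (hdt y hy) (hT y hy)
    rw [h1] at hv
    have h2 := hP.par.imm _ (hTe y hy).1 _ hv
    have h3 : (Jac T y) *ᵥ (fun a => v a) = 0 := by
      funext a
      have h4 : v = ∑ c, v c • (EuclideanSpace.single c (1 : ℂ) : Cn 2) := by
        ext b
        simp [Fin.sum_univ_two, PiLp.single_apply]
        fin_cases b <;> simp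
      have h5 := congrArg (fun v : Cn 2 => v a) h2
      rw [h4, map_sum] at h5
      simp only [map_smul] at h5
      simp only [Matrix.mulVec, dotProduct, Jac, Matrix.of_apply]
      simp only [Fin.sum_univ_two, PiLp.add_apply, PiLp.smul_apply, smul_eq_mul] at h5 ⊢
      rw [mul_comm, mul_comm ((fderiv ℂ T y _).ofLp a)]
      simpa using h5
    have h6 := Matrix.eq_zero_of_mulVec_eq_zero (hd y hy) h3
    ext a
    exact congrFun h6 a
  · rw [(hTe y hy).2]
    exact hP.ne _ (hTe y hy).1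
  · rw [(hTe y hy).2]
    exact hP.lt _ (hTe y hy).1

variable {H : Form}

theorem jac_ev {T : Cn 2 → Cn 2} {z' : Cn 2} (hT : ∀ᶠ w in 𝓝 z', DifferentiableAt ℂ T w)
    (hdet : (Jac T z').det ≠ 0) : ∀ᶠ y in 𝓝 z', (Jac T y).det ≠ 0 := by
  have hJij : ∀ i j, ∀ᶠ y in 𝓝 z', DifferentiableAt ℂ (fun w => Jac T w i j) y :=
    fun i j => J_hol hT i j
  have h1 : ContinuousAt (fun y => (Jac T y).det) z' := by
    have : (fun y => (Jac T y).det) = fun y => Jac T y 0 0 * Jac T y 1 1 -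
        Jac T y 0 1 * Jac T y 1 0 := funext fun y => Matrix.det_fin_two _
    rw [this]
    exact ((hJij 0 0).self_of_nhds.continuousAt.mul
      (hJij 1 1).self_of_nhds.continuousAt).sub
      ((hJij 0 1).self_of_nhds.continuousAt.mul (hJij 1 0).self_of_nhds.continuousAt)
  exact h1.eventually_ne hdet

/-- pointwise transition rule -/
theorem tr_pt (m : Mt f r H) {O U : Set (Cn 2)} {θ θ' : Cn 2 → E3} {T : Cn 2 → Cn 2}
    (hP : PE f 0 r θ O) (hU : IsOpen U) (hT : ∀ y ∈ U, DifferentiableAt ℂ T y)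
    (hTe : ∀ y ∈ U, T y ∈ O ∧ θ' y = θ (T y)) (hd : ∀ y ∈ U, (Jac T y).det ≠ 0) {w : Cn 2}
    (hw : w ∈ U) : H θ (T w) = ((Jac T w)ᵀ)ᴴ * H θ' w * (Jac T w)ᵀ := by
  have hP' := pe_trans hP hU hT hTe hd
  have hTw := (hTe w hw).1
  have hH' := (m.pos θ' U hP' w hw).isHermitian
  refine herm_ext (m.pos θ O hP _ hTw).isHermitian ?_ fun ξ => ?_
  · show (((Jac T w)ᵀ)ᴴ * H θ' w * (Jac T w)ᵀ)ᴴ = _
    rw [Matrix.conjTranspose_mul, Matrix.conjTranspose_mul, Matrix.conjTranspose_conjTranspose,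
      hH'.eq, Matrix.mul_assoc]
  · obtain ⟨a, rfl⟩ := exists_lin hP hTw ξ
    rw [← quad_mul]
    have h1 : dV (lin a) θ' w = (Jac T w)ᵀ *ᵥ dV (lin a) θ (T w) :=
      dV_trans (fun x _ => lin_an a x) hP (hT w hw)
        (by filter_upwards [hU.mem_nhds hw] with y hy using hTe y hy)
    rw [← h1]
    exact m.ind θ O θ' U (T w) w hP hP' hTw hw (hTe w hw).2.symm a

/-- **transition rule** -/
theorem tr_of_mt (m : Mt f r H) {O : Set (Cn 2)} {θ θ' : Cn 2 → E3} {T : Cn 2 → Cn 2}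
    {z' : Cn 2} (hP : PE f 0 r θ O) (hT : ∀ᶠ w in 𝓝 z', DifferentiableAt ℂ T w)
    (hTe : ∀ᶠ w in 𝓝 z', T w ∈ O ∧ θ' w = θ (T w)) (hdet : (Jac T z').det ≠ 0) :
    ∀ᶠ w in 𝓝 z', H θ' w = ((Jac T w)ᵀ⁻¹)ᴴ * H θ (T w) * (Jac T w)ᵀ⁻¹ := by
  have hdc := jac_ev hT hdet
  obtain ⟨U, hU, hUo, hUz⟩ := eventually_nhds_iff.1 (hT.and (hTe.and hdc))
  filter_upwards [hUo.mem_nhds hUz] with w hw
  have h1 := tr_pt m hP hUo (fun y hy => (hU y hy).1) (fun y hy => (hU y hy).2.1)
    (fun y hy => (hU y hy).2.2) hw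
  have hu : IsUnit ((Jac T w)ᵀ).det := by
    rw [Matrix.det_transpose]; exact isUnit_iff_ne_zero.2 (hU w hw).2.2
  have h2 : (Jac T w)ᵀ * (Jac T w)ᵀ⁻¹ = 1 := Matrix.mul_nonsing_inv _ hu
  have h3 : ((Jac T w)ᵀ⁻¹)ᴴ * ((Jac T w)ᵀ)ᴴ = 1 := by
    rw [← Matrix.conjTranspose_mul, h2, Matrix.conjTranspose_one]
  rw [h1]
  calc H θ' w = (1 : Matrix (Fin 2) (Fin 2) ℂ) * H θ' w * 1 := by
        rw [Matrix.one_mul, Matrix.mul_one]
    _ = (((Jac T w)ᵀ⁻¹)ᴴ * ((Jac T w)ᵀ)ᴴ) * H θ' w * ((Jac T w)ᵀ * (Jac T w)ᵀ⁻¹) := by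
        rw [h2, h3]
    _ = _ := by simp only [Matrix.mul_assoc]

/-- the inverse transposed Jacobian matrix is holomorphic -/
theorem jinv_hol {T : Cn 2 → Cn 2} {z' : Cn 2} (hT : ∀ᶠ w in 𝓝 z', DifferentiableAt ℂ T w)
    (hdet : (Jac T z').det ≠ 0) : HolM z' fun w => ((Jac T w)ᵀ)⁻¹ := by
  have hJij : ∀ i j, ∀ᶠ y in 𝓝 z', DifferentiableAt ℂ (fun w => Jac T w i j) y :=
    fun i j => J_hol hT i j
  have hdc := jac_ev hT hdet
  intro i j
  have e : ∀ y, ((Jac T y)ᵀ)⁻¹ i j = ((Jac T y).det)⁻¹ * (Jac T y)ᵀ.adjugate i j := by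
    intro y
    rw [Matrix.inv_def, Ring.inverse_eq_inv', Matrix.det_transpose]
    rfl
  have ha : ∀ᶠ y in 𝓝 z', DifferentiableAt ℂ (fun w => (Jac T w)ᵀ.adjugate i j) y := by
    have e2 : ∀ w, (Jac T w)ᵀ.adjugate i j =
        !![Jac T w 1 1, -Jac T w 1 0; -Jac T w 0 1, Jac T w 0 0] i j := by
      intro w
      rw [Matrix.adjugate_fin_two]
      rfl
    simp only [e2]
    filter_upwards [hJij 0 0, hJij 0 1, hJij 1 0, hJij 1 1] with y a b c d
    fin_cases i <;> fin_cases j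
    · exact d
    · exact c.neg
    · exact b.neg
    · exact a
  have hdd : ∀ᶠ y in 𝓝 z', DifferentiableAt ℂ (fun w => (Jac T w).det) y := by
    have : (fun y => (Jac T y).det) = fun y => Jac T y 0 0 * Jac T y 1 1 -
        Jac T y 0 1 * Jac T y 1 0 := funext fun y => Matrix.det_fin_two _
    rw [this]
    filter_upwards [hJij 0 0, hJij 0 1, hJij 1 0, hJij 1 1] with y a b c d
    exact (a.fun_mul d).fun_sub (b.fun_mul c)
  simp only [e]
  filter_upwards [ha, hdd, hdc] with y h1 h2 h3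
  exact (h2.fun_inv h3).fun_mul h1

/-- **the bundle `Ω¹` with a metric `H` and the section `dg`** -/
theorem bun_of_mt (m : Mt f r H) {g : E3 → ℂ} (hg : ∀ x, nsq x < r ^ 2 → AnalyticAt ℂ g x) :
    Bun f 0 r H (dV g) where
  bv θ O hP z hz := by
    have hO := hP.par.isOpen
    refine ⟨?_, ?_, fun i => ?_⟩
    · filter_upwards [hO.mem_nhds hz] with y hy
      exact fun a b => (m.sm θ O hP a b).contDiffAt (hO.mem_nhds hy)
    · filter_upwards [hO.mem_nhds hz] with y hy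
      exact m.pos θ O hP y hy
    · filter_upwards [hO.mem_nhds hz] with y hy
      exact (dV_hol hg hP i).differentiableAt (hO.mem_nhds hy)
  tr θ O hP θ' z' T hT hTO hTe hdet := by
    have hTe' := eventually_eventually_nhds.2 hTe
    have hT' := eventually_eventually_nhds.2 hT
    have hdc := jac_ev hT hdet
    refine ⟨fun w => ((Jac T w)ᵀ)⁻¹, hT, jinv_hol hT hdet, ?_, tr_of_mt m hP hT hTe hdet, ?_⟩
    · rw [Matrix.det_nonsing_inv, Ring.inverse_eq_inv', Matrix.det_transpose]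
      exact inv_ne_zero hdet
    · filter_upwards [hTe', hT', hdc] with w h1 h2 h3
      rw [dV_trans hg hP h2.self_of_nhds h1, Matrix.mulVec_mulVec, Matrix.nonsing_inv_mul _
        (by rw [Matrix.det_transpose]; exact isUnit_iff_ne_zero.2 h3), Matrix.one_mulVec]

/-- `dV g ≠ 0` -/
theorem NoZ.dV_ne {g : E3 → ℂ} (hg : NoZ f r g) {O : Set (Cn 2)} {θ : Cn 2 → E3}
    (hP : PE f 0 r θ O) {z : Cn 2} (hz : z ∈ O) : dV g θ z ≠ 0 := by
  intro h0
  refine hg θ O hP z hz ?_
  ext w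
  rw [fderiv_eq_dV, h0]
  simp

open Classical in
/-- **`SQStmt`** -/
theorem sqStmt : SQStmt := by
  intro f r H L m ν hν g hg hz a ha
  obtain ⟨r₁, r₂, h1, h2, h3, h4⟩ := ha.supp
  have B := bun_of_mt m hg
  have hlv : ∀ᵐ x ∂ν, f x = 0 ∧ x ≠ 0 ∧ nsq x < r ^ 2 := by
    rw [ae_iff]; exact hν.null
  -- cut off outside the level
  set a' : E3 → ℝ := fun x => if x ∈ Lv f r then a x else 0 with ha'
  have e0 : ∀ x ∈ Lv f r, a' x = a x := fun x hx => if_pos hx
  have hs : SmL f 0 r a' := by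
    intro θ O hP
    refine (ha.sm θ O hP).congr fun z hz => ?_
    exact e0 _ (pe_lv hP hz)
  set K : Set E3 := {x | r₁ ^ 2 ≤ nsq x ∧ nsq x ≤ r₂ ^ 2} with hK
  have hKc : IsCompact K :=
    (isCompact_nsq_le (r₂ ^ 2)).of_isClosed_subset
      ((isClosed_le continuous_const continuous_nsq).inter
        (isClosed_le continuous_nsq continuous_const)) fun x hx => hx.2
  obtain ⟨k1, k2, k3⟩ := Bun.e1L B L hν hs hKc
    (fun x hx => hx.2.trans_lt (by nlinarith))
    (fun x hx _ h0 => by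
      have h5 := hx.1
      rw [h0] at h5
      have h6 : nsq (0 : E3) = 0 := by simp [nsq]
      rw [h6] at h5
      nlinarith)
    (fun x hx hxK => by
      by_cases hl : x ∈ Lv f r
      · rw [e0 x hl]
        refine h4 x hl ?_
        by_contra h5
        push Not at h5
        exact hxK ⟨h5.1.le, h5.2.le⟩
      · exact if_neg hl)
    (fun θ O hP z hz' h0 => absurd h0 (NoZ.dV_ne hz hP hz'))
    ∅ (by simp) (fun θ O hP z hz' => by simp [NoZ.dV_ne hz hP hz'])
  have e1 : (fun x => a' x * c2x f H x) =ᵐ[ν] fun x => a x * c2h f H x := by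
    filter_upwards [hlv] with x hx
    rw [e0 x hx]
    rfl
  have e2 : ox f H (dV g) a' =ᵐ[ν] Gd f H g a := by
    filter_upwards [hlv] with x hx
    refine ox_congr L hs ?_ hx.1 hx.2.1 hx.2.2
    have o1 : ∀ᶠ y : E3 in 𝓝 x, y ≠ 0 := isOpen_ne.mem_nhds hx.2.1
    have o2 : ∀ᶠ y : E3 in 𝓝 x, nsq y < r ^ 2 :=
      (isOpen_lt continuous_nsq continuous_const).mem_nhds hx.2.2
    filter_upwards [o1, o2] with y y1 y2 y3
    exact e0 y ⟨y3, y1, y2⟩
  refine ⟨k1.congr e1, k2.congr e2, ?_⟩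
  rw [← integral_congr_ae e1, ← integral_congr_ae e2, k3, Finset.sum_empty, mul_zero, add_zero]

end

end Crest.Agent.R257.SQ_636
end

-- ▼ part R257/UVl_351
section

/-!
# R257 (S0395), leaf UPP-VL (helper351)

* `vlStmt`  : every smooth Hermitian metric on `Ω¹` of the punctured level has a volume function
* `mtOStmt` : the Kaehler-Einstein metric is a metric on `Ω¹`, `c2h = c2d`
-/

set_option autoImplicit false
set_option linter.unusedSectionVars false

open Set Filter Topology Complex MeasureTheory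
open scoped ContDiff Matrix ComplexConjugate ComplexOrder ENNReal

namespace Crest.Agent.R257.UVl_351

open Crest.Agent.R275.Geo Crest.Agent.R275.EDR890
open Crest.Agent.R273.Fock_243 Crest.Agent.R273.Calc_243
open Crest.Agent.R273.Bkn_243 Crest.Agent.R273.Pos_243 Crest.Agent.R273.BochA_101
open Crest.Agent.R273.BochB_101
open Crest.Agent.R273.BochC_101 Crest.Agent.R273.BochD_101
open Crest.Agent.R273.Hess_333 Crest.Agent.R273.HessB_333
open Crest.Agent.R273.Defs_333 (lev)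
open Crest.Agent.R273.YauDefs_635 (cH)
open Crest.Agent.R273.YauMax_635 (cH_eq_hess)
open Crest.Agent.R257.C2F1_625 Crest.Agent.R257.C2F2_625 Crest.Agent.R257.C2F3_625
open Crest.Agent.R257.C2F4_335 Crest.Agent.R257.C2F5_335 Crest.Agent.R257.C2F6_335
open Crest.Agent.R257.Defs_219
open Crest.Agent.R257.PN_835 (nsq)
open Crest.Agent.R257.Aff_835 (eta2a)
open Crest.Agent.R257.KED_952 Crest.Agent.R257.Ked1_397 Crest.Agent.R257.Ked2_397
open Crest.Agent.R257.V1Defs_822 (SmL LvlOK)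
open Crest.Agent.R257.OutA_309 Crest.Agent.R257.OutB_309 Crest.Agent.R257.LossD_309
open Crest.Agent.R257.OutC_309 Crest.Agent.R257.OutD_309
open Crest.Agent.R257.LossA_625 (Lv)
open Crest.Agent.R257.KUP_952

noncomputable section

/-! ### linear algebra -/

/-- a Hermitian `2 × 2` matrix whose form vanishes is zero -/
theorem herm_zero {M : Matrix (Fin 2) (Fin 2) ℂ} (hM : M.IsHermitian)
    (h : ∀ x : Fin 2 → ℂ, (star x ⬝ᵥ (M *ᵥ x)).re = 0) : M = 0 := by
  have h00 := h ![1, 0]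
  have h11 := h ![0, 1]
  have h01 := h ![1, 1]
  have h0I := h ![1, I]
  have e1 : star (M 0 1) = M 1 0 := hM.apply 1 0
  have e2 : star (M 0 0) = M 0 0 := hM.apply 0 0
  have e3 : star (M 1 1) = M 1 1 := hM.apply 1 1
  have i0 : (M 0 0).im = 0 := by
    have := congrArg Complex.im e2
    simp only [Complex.star_def, Complex.conj_im] at this
    linarith
  have i1 : (M 1 1).im = 0 := by
    have := congrArg Complex.im e3
    simp only [Complex.star_def, Complex.conj_im] at this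
    linarith
  have r10 : (M 1 0).re = (M 0 1).re := by
    rw [← e1]; simp
  have i10 : (M 1 0).im = -(M 0 1).im := by
    rw [← e1]; simp
  simp [Matrix.mulVec, dotProduct, Fin.sum_univ_two] at h00 h11 h01 h0I
  have k1 : (M 0 1).re = 0 := by linarith
  have k2 : (M 0 1).im = 0 := by linarith
  ext i j
  fin_cases i <;> fin_cases j
  · exact Complex.ext h00 i0
  · exact Complex.ext k1 k2
  · exact Complex.ext (r10.trans k1) (i10.trans (by rw [k2, neg_zero]; rfl))
  · exact Complex.ext h11 i1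

/-- `|Ax|²_H` -/
theorem form_mul (A H : Matrix (Fin 2) (Fin 2) ℂ) (x : Fin 2 → ℂ) :
    star (A *ᵥ x) ⬝ᵥ (H *ᵥ (A *ᵥ x)) = star x ⬝ᵥ ((Aᴴ * H * A) *ᵥ x) := by
  rw [Matrix.star_mulVec, ← Matrix.dotProduct_mulVec, Matrix.mulVec_mulVec, Matrix.mulVec_mulVec,
    Matrix.mul_assoc]

/-- two Hermitian matrices with the same form -/
theorem herm_eq {A H H' : Matrix (Fin 2) (Fin 2) ℂ} (hH : H.IsHermitian) (hH' : H'.IsHermitian)
    (h : ∀ x : Fin 2 → ℂ,
      (star (A *ᵥ x) ⬝ᵥ (H *ᵥ (A *ᵥ x))).re = (star x ⬝ᵥ (H' *ᵥ x)).re) :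
    Aᴴ * H * A = H' := by
  refine sub_eq_zero.1 (herm_zero ?_ fun x => ?_)
  · refine Matrix.IsHermitian.sub ?_ hH'
    exact Matrix.isHermitian_conjTranspose_mul_mul A hH
  · rw [Matrix.sub_mulVec, dotProduct_sub, Complex.sub_re, ← form_mul, h x, sub_self]

/-! ### linear functions -/

/-- linear functions are analytic -/
theorem lin_an (a : E3) (x : E3) : AnalyticAt ℂ (lin a) x := by
  unfold lin
  exact Finset.analyticAt_fun_sum _ fun i _ => analyticAt_const.mul
    ((ContinuousLinearMap.proj (R := ℂ) (φ := fun _ : Fin 3 => ℂ) i).analyticAt x)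

variable {f : E3 → ℂ} {s : ℂ} {r : ℝ}

theorem dV_lin {θ : Cn 2 → E3} {O : Set (Cn 2)} (hP : Aff_835.Par (n := 2) f s θ O) {z : Cn 2}
    (hz : z ∈ O) (a : E3) (i : Fin 2) :
    dV (lin a) θ z i = ∑ j, a j * fderiv ℂ θ z (EuclideanSpace.single i 1) j := by
  have hd : DifferentiableAt ℂ θ z := hP.diffAt hz
  have h1 : HasFDerivAt (fun w => lin a (θ w))
      (∑ j, a j • (ContinuousLinearMap.proj (R := ℂ) (φ := fun _ : Fin 3 => ℂ) j).comp
        (fderiv ℂ θ z)) z := by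
    unfold lin
    refine HasFDerivAt.fun_sum fun j _ => ?_
    refine HasFDerivAt.const_mul ?_ (a j)
    exact ((ContinuousLinearMap.proj (R := ℂ) (φ := fun _ : Fin 3 => ℂ)
      j).hasFDerivAt (x := θ z)).comp z hd.hasFDerivAt
  show fderiv ℂ (fun w => lin a (θ w)) z (EuclideanSpace.single i 1) = _
  rw [h1.fderiv]
  simp

/-- all covectors at a point are differentials of linear functions -/
theorem dV_lin_surj {θ : Cn 2 → E3} {O : Set (Cn 2)} (hP : Aff_835.Par (n := 2) f s θ O)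
    {z : Cn 2} (hz : z ∈ O) (x : Fin 2 → ℂ) : ∃ a : E3, dV (lin a) θ z = x := by
  -- the matrix of `fderiv θ z`
  set D : Matrix (Fin 2) (Fin 3) ℂ := Matrix.of fun i j =>
    fderiv ℂ θ z (EuclideanSpace.single i 1) j with hD
  have hker : ∀ y : Fin 2 → ℂ, (D * Dᴴ) *ᵥ y = 0 → y = 0 := by
    intro y hy
    have h1 : Dᴴ *ᵥ y = 0 := by
      have h2 : star (Dᴴ *ᵥ y) ⬝ᵥ (Dᴴ *ᵥ y) = 0 := by
        rw [Matrix.star_mulVec, Matrix.conjTranspose_conjTranspose, ← Matrix.dotProduct_mulVec,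
          Matrix.mulVec_mulVec, hy, dotProduct_zero]
      exact dotProduct_star_self_eq_zero.1 h2
    have h3 : fderiv ℂ θ z (WithLp.toLp 2 (star y)) = 0 := by
      have h4 : (WithLp.toLp 2 (star y) : Cn 2) =
          ∑ i, star y i • (EuclideanSpace.single i (1 : ℂ) : Cn 2) := by
        ext b
        fin_cases b <;> simp [Fin.sum_univ_two]
      rw [h4, map_sum]
      funext j
      have h5 := congrFun h1 j
      simp only [Matrix.mulVec, dotProduct, Matrix.conjTranspose_apply, hD, Matrix.of_apply,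
        Pi.zero_apply] at h5
      have h6 := congrArg star h5
      rw [star_sum, star_zero] at h6
      rw [Finset.sum_apply]
      refine Eq.trans (Finset.sum_congr rfl fun i _ => ?_) h6
      rw [map_smul, Pi.smul_apply, smul_eq_mul, star_mul', star_star, mul_comm]
      rfl
    have h7 := hP.imm z hz _ h3
    have h8 : star y = 0 := by
      funext i
      exact congrArg (fun u : Cn 2 => u i) h7
    exact star_eq_zero.1 h8
  have hdet : IsUnit (D * Dᴴ).det := by
    refine isUnit_iff_ne_zero.2 fun h0 => ?_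
    obtain ⟨v, hv0, hv⟩ := Matrix.exists_mulVec_eq_zero_iff.2 h0
    exact hv0 (hker v hv)
  refine ⟨Dᴴ *ᵥ ((D * Dᴴ)⁻¹ *ᵥ x), ?_⟩
  have h1 : ∀ a : E3, dV (lin a) θ z = D *ᵥ a := by
    intro a
    funext i
    rw [dV_lin hP hz a i]
    simp only [Matrix.mulVec, dotProduct, hD, Matrix.of_apply]
    exact Finset.sum_congr rfl fun j _ => mul_comm _ _
  rw [h1, Matrix.mulVec_mulVec, Matrix.mulVec_mulVec, Matrix.mul_nonsing_inv _ hdet,
    Matrix.one_mulVec]

/-! ### the volume function -/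

/-- the metric in two parametrisations -/
theorem mt_trans {H : Form} (L : LvlOK f 0 r) (hH : Mt f r H) {θ θ' : Cn 2 → E3}
    {O O' : Set (Cn 2)} {z z' : Cn 2} (hP : PE f 0 r θ O) (hP' : PE f 0 r θ' O') (hz : z ∈ O)
    (hz' : z' ∈ O') (e : θ z = θ' z') :
    ∃ T : Cn 2 → Cn 2, (∀ᶠ w in 𝓝 z, DifferentiableAt ℂ T w) ∧ T z = z' ∧
      (∀ᶠ w in 𝓝 z, T w ∈ O' ∧ θ w = θ' (T w)) ∧ (Jac T z).det ≠ 0 ∧
      ((Jac T z)ᵀ)ᴴ * H θ z * (Jac T z)ᵀ = H θ' z' := by
  have hx := L.an _ (hP'.lt z' hz')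
  have h0 := L.sm _ (hP'.ne z' hz') (hP'.lt z' hz') (hP'.par.lvl z' hz')
  obtain ⟨T, hT, hTz, hTe⟩ := exists_trans hP.par hP'.par hz hz' e hx.hasStrictFDerivAt h0
  have hdet := det_trans hP.par hP'.par hz hT hTe
  refine ⟨T, hT, hTz, hTe, hdet, ?_⟩
  refine herm_eq (hH.pos θ O hP z hz).isHermitian (hH.pos θ' O' hP' z' hz').isHermitian fun x => ?_
  obtain ⟨a, ha⟩ := dV_lin_surj hP'.par hz' x
  have h1 : dV (lin a) θ z = (Jac T z)ᵀ *ᵥ dV (lin a) θ' (T z) :=
    dV_trans (r := r) (fun y _ => lin_an a y) hP' hT.self_of_nhds hTe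
  rw [hTz, ha] at h1
  have h2 := hH.ind θ O θ' O' z z' hP hP' hz hz' e a
  unfold hV at h2
  rw [h1, ha] at h2
  exact h2

/-- `det H |η|²` -/
def dv (f : E3 → ℂ) (H : Form) (θ : Cn 2 → E3) (z : Cn 2) : ℝ :=
  (H θ z).det.re * eta2a (n := 2) f θ z

theorem dv_pos {H : Form} (L : LvlOK f 0 r) (hH : Mt f r H) {θ : Cn 2 → E3} {O : Set (Cn 2)}
    (hP : PE f 0 r θ O) {z : Cn 2} (hz : z ∈ O) : 0 < dv f H θ z :=
  mul_pos (det_re_pos'' (hH.pos θ O hP z hz))
    (Loc_835.eta2a_pos hP.par hz (L.sm _ (hP.ne z hz) (hP.lt z hz) (hP.par.lvl z hz)))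

theorem dv_eq {H : Form} (L : LvlOK f 0 r) (hH : Mt f r H) {θ θ' : Cn 2 → E3}
    {O O' : Set (Cn 2)} {z z' : Cn 2} (hP : PE f 0 r θ O) (hP' : PE f 0 r θ' O') (hz : z ∈ O)
    (hz' : z' ∈ O') (e : θ z = θ' z') : dv f H θ z = dv f H θ' z' := by
  obtain ⟨T, hT, hTz, hTe, hdet, hM⟩ := mt_trans L hH hP hP' hz hz' e
  have e1 := eta2a_trans hP.par hP'.par hz hT hTe
  rw [hTz] at e1
  have e2 : (H θ' z').det = ((‖(Jac T z).det‖ ^ 2 : ℝ) : ℂ) * (H θ z).det := by
    rw [← hM, Matrix.det_mul, Matrix.det_mul, Matrix.det_conjTranspose, Matrix.det_transpose]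
    have h3 : (Jac T z).det * star (Jac T z).det = ((‖(Jac T z).det‖ ^ 2 : ℝ) : ℂ) := by
      rw [← starRingEnd_apply, Complex.mul_conj, Complex.normSq_eq_norm_sq]
    rw [← h3]
    ring
  unfold dv
  rw [e1, e2, Complex.re_ofReal_mul]
  ring

/-- `|η|²` is smooth -/
theorem eta2a_smooth (L : LvlOK f 0 r) {θ : Cn 2 → E3} {O : Set (Cn 2)} (hP : PE f 0 r θ O)
    {z : Cn 2} (hz : z ∈ O) : ContDiffAt ℝ ∞ (fun w => eta2a (n := 2) f θ w) z := by
  obtain ⟨q, hq, hq0, hqe⟩ := eta2a_norm (n := 2) hP.par hz (L.an _ (hP.lt z hz))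
    (L.sm _ (hP.ne z hz) (hP.lt z hz) (hP.par.lvl z hz))
  have h1 : ContDiffAt ℝ ∞ q z := (hq.contDiffAt (n := ∞)).restrict_scalars ℝ
  exact (h1.norm_sq ℝ).congr_of_eventuallyEq hqe

theorem dv_smooth {H : Form} (L : LvlOK f 0 r) (hH : Mt f r H) {θ : Cn 2 → E3}
    {O : Set (Cn 2)} (hP : PE f 0 r θ O) {z : Cn 2} (hz : z ∈ O) :
    ContDiffAt ℝ ∞ (fun w => dv f H θ w) z := by
  have hs : ∀ a b, ContDiffAt ℝ ∞ (fun w => H θ w a b) z := fun a b =>
    (hH.sm θ O hP a b).contDiffAt (hP.par.isOpen.mem_nhds hz)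
  have h1 : ContDiffAt ℝ ∞ (fun w => (H θ w).det) z := by
    simp only [Matrix.det_fin_two]
    exact ((hs 0 0).mul (hs 1 1)).sub ((hs 0 1).mul (hs 1 0))
  exact (Complex.reCLM.contDiff.contDiffAt.comp z h1).mul (eta2a_smooth L hP hz)

open Classical in
/-- the volume function -/
def vol (f : E3 → ℂ) (r : ℝ) (H : Form) (x : E3) : ℝ :=
  if h : ∃ p : (Cn 2 → E3) × Set (Cn 2) × Cn 2, PE f 0 r p.1 p.2.1 ∧ p.2.2 ∈ p.2.1 ∧
    p.1 p.2.2 = x then -Real.log (dv f H h.choose.1 h.choose.2.2) else 0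

theorem vol_eq {H : Form} (L : LvlOK f 0 r) (hH : Mt f r H) {θ : Cn 2 → E3}
    {O : Set (Cn 2)} (hP : PE f 0 r θ O) {z : Cn 2} (hz : z ∈ O) :
    vol f r H (θ z) = -Real.log (dv f H θ z) := by
  have hex : ∃ p : (Cn 2 → E3) × Set (Cn 2) × Cn 2, PE f 0 r p.1 p.2.1 ∧ p.2.2 ∈ p.2.1 ∧
    p.1 p.2.2 = θ z := ⟨(θ, O, z), hP, hz, rfl⟩
  unfold vol
  rw [dif_pos hex]
  obtain ⟨h1, h2, h3⟩ := hex.choose_spec
  rw [dv_eq L hH h1 hP h2 hz h3]

/-- **`VlStmt`** -/
theorem vlStmt : VlStmt := by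
  intro f r H L hH
  refine ⟨vol f r H, fun θ O hP => ?_, fun θ O hP z hz => ?_⟩
  · intro z hz
    have h1 : (fun w => vol f r H (θ w)) =ᶠ[𝓝 z] fun w => -Real.log (dv f H θ w) := by
      filter_upwards [hP.par.isOpen.mem_nhds hz] with w hw using vol_eq L hH hP hw
    have h2 : ContDiffAt ℝ ∞ (fun w => -Real.log (dv f H θ w)) z :=
      ((dv_smooth L hH hP hz).log (dv_pos L hH hP hz).ne').neg
    exact (h2.congr_of_eventuallyEq h1).contDiffWithinAt
  · rw [vol_eq L hH hP hz, neg_neg, Real.exp_log (dv_pos L hH hP hz)]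
    rfl

/-! ### the Kaehler-Einstein metric -/

theorem HK_det {u : E3 → ℝ} (hu : KEon f 0 r u) {θ : Cn 2 → E3} {O : Set (Cn 2)}
    (hP : PE f 0 r θ O) {z : Cn 2} (hz : z ∈ O) :
    (HK u θ z).det = (((Real.exp (u (θ z)) * eta2a (n := 2) f θ z)⁻¹ : ℝ) : ℂ) := by
  show (HO u (fun _ => 0) θ z).det = _
  unfold HO
  rw [neg_zero, Real.exp_zero, Complex.ofReal_one, one_smul, Matrix.det_nonsing_inv,
    Ring.inverse_eq_inv', hu.ma θ O hP z hz, Complex.ofReal_inv]

theorem HK_ind (L : LvlOK f 0 r) {u : E3 → ℝ} (hu : KEon f 0 r u) {θ θ' : Cn 2 → E3}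
    {O O' : Set (Cn 2)} {z z' : Cn 2} (hP : PE f 0 r θ O) (hP' : PE f 0 r θ' O') (hz : z ∈ O)
    (hz' : z' ∈ O') (e : θ z = θ' z') (a : E3) :
    hV (HK u θ) (dV (lin a) θ) z = hV (HK u θ') (dV (lin a) θ') z' := by
  have hx := L.an _ (hP'.lt z' hz')
  have h0 := L.sm _ (hP'.ne z' hz') (hP'.lt z' hz') (hP'.par.lvl z' hz')
  obtain ⟨T, hT, hTz, hTe⟩ := exists_trans hP.par hP'.par hz hz' e hx.hasStrictFDerivAt h0
  have hdet := det_trans hP.par hP'.par hz hT hTe
  have h1 : dV (lin a) θ z = (Jac T z)ᵀ *ᵥ dV (lin a) θ' (T z) :=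
    dV_trans (r := r) (fun y _ => lin_an a y) hP' hT.self_of_nhds hTe
  have hsm : ContDiffAt ℝ ∞ (fun z => u (θ' z)) (T z) :=
    (hu.sm θ' O' hP').contDiffAt (hP'.par.isOpen.mem_nhds hTe.self_of_nhds.1)
  obtain ⟨a1, a2⟩ := hess_trans hT hTe (a := u) hsm
  have e1 : cH (fun z => u (θ z)) z = (Jac T z)ᵀ * cH (fun z => u (θ' z)) (T z) *
      ((Jac T z)ᵀ)ᴴ := by
    rw [cH_eq_hess a1, a2, cH_eq_hess hsm]
    rfl
  have hA : IsUnit ((Jac T z)ᵀ).det := by
    rw [Matrix.det_transpose]; exact isUnit_iff_ne_zero.2 hdet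
  have hA' : IsUnit (((Jac T z)ᵀ)ᴴ).det := by
    rw [Matrix.det_conjTranspose]
    exact hA.star
  have e2 : ((Jac T z)ᵀ)ᴴ * HK u θ z * (Jac T z)ᵀ = HK u θ' (T z) := by
    show ((Jac T z)ᵀ)ᴴ * HO u (fun _ => 0) θ z * (Jac T z)ᵀ = HO u (fun _ => 0) θ' (T z)
    unfold HO
    rw [e1, Matrix.mul_inv_rev, Matrix.mul_inv_rev, Matrix.mul_smul, Matrix.smul_mul]
    congr 1
    rw [← Matrix.mul_assoc, Matrix.mul_nonsing_inv _ hA', Matrix.one_mul, Matrix.mul_assoc,
      Matrix.nonsing_inv_mul _ hA, Matrix.mul_one]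
  unfold hV
  rw [h1, form_mul, e2, hTz]

/-- **`MtOStmt`** -/
theorem mtOStmt : MtOStmt := by
  intro f r u L hu
  refine ⟨⟨fun θ O hP a b => ?_, fun θ O hP z hz => ?_, ?_⟩, ⟨hu.sm, ?_⟩, fun x hx => ?_⟩
  · intro z hz
    have h1 : SmM z (Hc (fun z => u (θ z)) (fun z => (fun _ : E3 => (0 : ℝ)) (θ z))) :=
      Hc_smM (ke_pot hu hP hz) (Eventually.of_forall fun _ => contDiffAt_const)
    exact (h1 a b).contDiffWithinAt
  · exact Hc_posDef (ke_pot hu hP hz) (fun z => (fun _ : E3 => (0 : ℝ)) (θ z))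
  · intro θ O θ' O' z z' hP hP' hz hz' e a
    exact HK_ind L hu hP hP' hz hz' e a
  · intro θ O hP z hz
    have h0 : 0 < eta2a (n := 2) f θ z :=
      Loc_835.eta2a_pos hP.par hz (L.sm _ (hP.ne z hz) (hP.lt z hz) (hP.par.lvl z hz))
    rw [HK_det hu hP hz, ofReal_re, mul_inv, mul_assoc, inv_mul_cancel₀ h0.ne', mul_one,
      Real.exp_neg]
  · exact c2x_HO_zero L hu hx.1 hx.2.1 hx.2.2

end

end Crest.Agent.R257.UVl_351
end

-- ▼ part R257/UpA6_952
section

/-!
R257 / UpA6_952: assembly of `UppStmt`, part 6: limits of the terms of the Bott-Chern inequality.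
-/

set_option autoImplicit false
set_option linter.unusedSectionVars false

open Topology Filter MeasureTheory Set
open scoped ENNReal ContDiff Matrix ComplexOrder

noncomputable section

namespace Crest.Agent.R257.UpA_952

open Crest.Agent.R275.Geo
open Crest.Agent.R257.Defs_219
open Crest.Agent.R257.KED_952 Crest.Agent.R257.KEG_952 Crest.Agent.R257.KEU_952
open Crest.Agent.R257.KUP_952
open Crest.Agent.R257.V1Defs_822 (SmL LvlOK lgh)
open Crest.Agent.R257.V1Pe_822
open Crest.Agent.R273.Defs_333 (lev)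
open Crest.Agent.R273.YauDefs_635 (cH lev333_eq_lev145)
open Crest.Agent.R273.YauMax_635 (cH_eq_hess)
open Crest.Agent.R273.Hess_333 (hess)
open Crest.Agent.R273.HessB_333 (hess_congr)
open Crest.Agent.R257.PN_835 (nsq)
open Crest.Agent.R257.Aff_835 (eta2a nga)
open Crest.Agent.R257.C2F1_625 (pd c2)
open Crest.Agent.R257.C2F2_625 (hV bb)
open Crest.Agent.R257.OutB_309 (Gm)
open Crest.Agent.R257.LossA_625 (fx hS Psd Lv pe_lv dns_cases fx_add fx_sub fx_mul fx_congr fx_const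
  ev_pe fx_nonneg fx_abs_le cv cv_sm cv_nonneg cv_zero cv_anti cv_aff cv_le_one sc sc_pos
  mxd_eq_fx psd_cH)
open Crest.Agent.R257.LossB_625 (Cs Sh exists_sh exists_xi smL_mul smL_add smL_const smL_smul
  smL_comp smL_amb ae_lv off_ev stk3 comm_lv)
open Crest.Agent.R257.LossD_309 (HO dV oxd)

/-- the situation -/
structure Sit (f : E3 → ℂ) (r A : ℝ) (u : E3 → ℝ) (ν : Measure E3) (k : ℕ) (g h : E3 → ℂ)
    (B : ℝ) (H : Form) (φ V χ ζ : E3 → ℝ) (d d₁ d₂ : ℝ) (U : E3 → ℝ) : Prop where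
  hf : LvlOK f 0 r
  hK : KEon f 0 r u
  hE : Esc f r u A
  hν : IsNu f 0 r ν
  hT : Trl f r A u ν k g h B H φ V
  hχ : Cut r χ
  ζs : ContDiff ℝ ∞ ζ
  ζ0 : ∀ x, 0 ≤ ζ x
  ζ1 : ∀ x, ζ x ≤ 1
  dp : 0 < d
  d1 : d ≤ d₁
  dr : d₁ ≤ r
  d2p : 0 ≤ d₂
  d2 : d₂ < d₁
  in1 : ∀ x, nsq x < d ^ 2 → ∀ᶠ y in 𝓝 x, ζ y = 1
  out1 : ∀ x, d₂ ^ 2 < nsq x → ∀ᶠ y in 𝓝 x, ζ y = 0
  chi : ∀ x, nsq x < d₁ ^ 2 → ∀ᶠ y in 𝓝 x, χ y = 1
  hU : Vl f r (gl ζ H (HK u)) U

/-- locality of `Γ` -/
theorem gm_congr {H H' : Cn 2 → Matrix (Fin 2) (Fin 2) ℂ} {V : Cn 2 → Fin 2 → ℂ} {z : Cn 2}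
    (h : H =ᶠ[𝓝 z] H') : Gm H V z = Gm H' V z := by
  have h1 : (fun y => Real.log (H y).det.re) =ᶠ[𝓝 z] fun y => Real.log (H' y).det.re := by
    filter_upwards [h] with y hy
    rw [hy]
  have h2 : (fun y => Real.log (hV H V y)) =ᶠ[𝓝 z] fun y => Real.log (hV H' V y) := by
    filter_upwards [h] with y hy
    unfold hV
    rw [hy]
  have h3 : hV H V z = hV H' V z := by
    unfold hV
    rw [h.self_of_nhds]
  have h4 : bb H V z = bb H' V z := by
    unfold bb
    ext c d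
    simp only [Matrix.of_apply]
    rw [hess_congr h2, C2F2_625.rm_congr h, h3]
  unfold Gm
  rw [h3, h4, hess_congr h1, hess_congr h2]

theorem bS_pt {f : E3 → ℂ} {r : ℝ} (hf : LvlOK f 0 r) {b c a : E3 → ℝ} {x : E3} (hx : x ∈ Lv f r)
    {m : ℝ} (h1 : ∀ᶠ y in 𝓝 x, y ∈ Lv f r → b y = m * c y) (hc : SmL f 0 r c) :
    fx f (bS b b) a x = m ^ 2 * fx f (bS c c) a x := by
  rw [fx_bS hf hx, fx_bS hf hx, h1.self_of_nhds hx]
  have e : mxd f b a x = mxd f (fun y => m * c y) a x := by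
    rw [comm_lv hf hx, comm_lv (a := fun y => m * c y) hf hx]
    obtain ⟨θ, O, z, p1, p2, p3, -, p4⟩ := dns_cases hf hx
    have e2 : ∀ c : E3 → ℝ, mxd f a c x = _ := fun c => p4 (fun θ z =>
      (pd (cH (fun y => a (θ y)) z) (cH (fun y => c (θ y)) z)).re)
    rw [e2, e2]
    have e3 : (fun y => b (θ y)) =ᶠ[𝓝 z] fun y => m * c (θ y) := by
      filter_upwards [ev_pe h1 p1 p2 p3, p1.par.isOpen.mem_nhds p2] with y h2 h3
      exact h2 (pe_lv p1 h3)
    rw [KEl_835.cH_congr e3]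
  rw [e, mxd_mul hf hc m hx.2.1 hx.2.2 hx.1]
  ring

variable {f : E3 → ℂ} {r A : ℝ} {u : E3 → ℝ} {ν : Measure E3} {χ ζ : E3 → ℝ} {k : ℕ}
  {g h : E3 → ℂ} {B : ℝ} {H : Form} {φ V U : E3 → ℝ} {d d₁ d₂ : ℝ}

namespace Sit

variable (S : Sit f r A u ν k g h B H φ V χ ζ d d₁ d₂ U)
include S

theorem mtK : Mt f r (HK u) := (UVl_351.mtOStmt f r u S.hf S.hK).1

theorem mt : Mt f r (gl ζ H (HK u)) := mt_gl S.ζs S.ζ0 S.ζ1 S.hT.mt S.mtK

theorem psi : SmL f 0 r (lgh g h) := smL_psi S.hT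

theorem us : SmL f 0 r u := S.hK.sm

/-- `U = ψ/k` inside -/
theorem U_in {x : E3} (hx : x ∈ Lv f r) (hd : nsq x < d ^ 2) : U x = 1 / k * lgh g h x := by
  obtain ⟨θ, O, z, h1, h2, h3, -⟩ := exists_pe S.hf hx.2.1 hx.2.2 hx.1
  have e1 := S.hU.eq θ O h1 z h2
  have e2 := S.hT.det θ O h1 z h2
  rw [gl_one (by rw [h3]; exact (S.in1 x hd).self_of_nhds), e2, h3] at e1
  have := Real.exp_injective e1
  have e3 : lgh g h x / k = 1 / k * lgh g h x := by ring
  linarith

/-- `U = u` outside -/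
theorem U_out {x : E3} (hx : x ∈ Lv f r) (hd : d₂ ^ 2 < nsq x) : U x = u x := by
  obtain ⟨θ, O, z, h1, h2, h3, -⟩ := exists_pe S.hf hx.2.1 hx.2.2 hx.1
  have e1 := S.hU.eq θ O h1 z h2
  have e2 := (UVl_351.mtOStmt f r u S.hf S.hK).2.1.eq θ O h1 z h2
  rw [gl_zero (by rw [h3]; exact (S.out1 x hd).self_of_nhds), e2, h3] at e1
  have := Real.exp_injective e1
  linarith

/-- `∂∂̄χ = 0` or `H₀ = HK`, `U = u` -/
theorem dich {x : E3} : (∀ᶠ y in 𝓝 x, χ y = 1) ∨ d₂ ^ 2 < nsq x := by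
  by_cases h1 : nsq x < d₁ ^ 2
  · exact Or.inl (S.chi x h1)
  · rw [not_lt] at h1
    exact Or.inr (lt_of_lt_of_le (pow_lt_pow_left₀ S.d2 S.d2p two_ne_zero) h1)

theorem nearIn {x : E3} (hd : nsq x < d ^ 2) : ∀ᶠ y in 𝓝 x, nsq y < d ^ 2 :=
  continuous_nsq3.continuousAt.eventually_lt continuousAt_const hd

theorem nearOut {x : E3} (hd : d₂ ^ 2 < nsq x) : ∀ᶠ y in 𝓝 x, d₂ ^ 2 < nsq y :=
  continuousAt_const.eventually_lt continuous_nsq3.continuousAt hd

theorem chid : ∀ x, nsq x < d ^ 2 → ∀ᶠ y in 𝓝 x, χ y = 1 := fun x hx =>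
  S.chi x (hx.trans_le (pow_le_pow_left₀ S.dp.le S.d1 2))

theorem sq_glued (a : E3 → ℝ) (ha : KUP_952.Tst f r a) :
    Integrable (fun x => a x * c2h f (gl ζ H (HK u)) x) ν ∧
    Integrable (Gd f (gl ζ H (HK u)) g a) ν ∧
    ∫ x, a x * c2h f (gl ζ H (HK u)) x ∂ν = ∫ x, Gd f (gl ζ H (HK u)) g a x ∂ν :=
  SQ_636.sqStmt f r _ S.hf S.mt ν S.hν g S.hT.g_an (noz_of_trl S.hT) a ha

theorem sq_trl (a : E3 → ℝ) (ha : KUP_952.Tst f r a) : Integrable (Gd f H g a) ν :=
  (SQ_636.sqStmt f r _ S.hf S.hT.mt ν S.hν g S.hT.g_an (noz_of_trl S.hT) a ha).2.1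

theorem gd_in {x : E3} (hx : x ∈ Lv f r) (hd : nsq x < d ^ 2) (a : E3 → ℝ) :
    Gd f (gl ζ H (HK u)) g a x = Gd f H g a x := by
  obtain ⟨θ, O, z, h1, h2, h3, -, h4⟩ := dns_cases S.hf hx
  unfold Gd fx
  rw [h4, h4]
  beta_reduce
  rw [gm_congr (H := gl ζ H (HK u) θ) (H' := H θ)]
  filter_upwards [ev_pe (S.in1 x hd) h1 h2 h3] with y hy
  exact gl_one hy

theorem gd_out {x : E3} (hx : x ∈ Lv f r) (hd : d₂ ^ 2 < nsq x) (a : E3 → ℝ) :
    Gd f (gl ζ H (HK u)) g a x = Gd f (HK u) g a x := by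
  obtain ⟨θ, O, z, h1, h2, h3, -, h4⟩ := dns_cases S.hf hx
  unfold Gd fx
  rw [h4, h4]
  beta_reduce
  rw [gm_congr (H := gl ζ H (HK u) θ) (H' := HK u θ)]
  filter_upwards [ev_pe (S.out1 x hd) h1 h2 h3] with y hy
  exact gl_zero hy

theorem gd_chi {x : E3} (hx : x ∈ Lv f r) :
    Gd f (gl ζ H (HK u)) g χ x = oxd f u (fun _ => 0) g χ x := by
  have e : oxd f u (fun _ => 0) g χ x = Gd f (HK u) g χ x := rfl
  rw [e]
  rcases S.dich (x := x) with h1 | h1
  · have e1 : ∀ H' : Form, Gd f H' g χ x = 0 := fun H' =>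
      fx_const (c := 1) S.hf hx fun _ _ hP _ hz hzx => ev_pe h1 hP hz hzx
    rw [e1, e1]
  · exact S.gd_out hx h1 χ

/-- measurability of the second fundamental form -/
theorem me_bb {R : ℝ} (hR : 0 < R) : AEStronglyMeasurable
    (fun x => (In d).indicator (fx f (Sb H g) (cR A u R)) x) ν := by
  have ht := tst_tR (χ := χ) S.hE S.us S.hχ hR
  have h1 := (S.sq_trl _ ht).aestronglyMeasurable
  have h2 := (int_bS (ν := ν) S.hf S.hν S.psi S.psi _ ht).aestronglyMeasurable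
  have h3 := (h1.add (h2.const_mul (1 + 1 / (k : ℝ)))).indicator (meas_In d)
  refine h3.congr (ae_lv S.hν fun x hx => ?_)
  show indicator _ _ x = indicator _ _ x
  by_cases hd : x ∈ In d
  · rw [indicator_of_mem hd, indicator_of_mem hd, Pi.add_apply]
    rw [gd_trial S.hf S.hT hx, fx_bS S.hf hx, ← fx_tR_in (χ := χ) S.hf S.chid hx hd]
    ring
  · rw [indicator_of_notMem hd, indicator_of_notMem hd]

/-- **limit of `∫ a c₂(H₀)`** -/
theorem lim_G : Tendsto (fun R : ℝ => ∫ x, tR A u χ R x * c2h f (gl ζ H (HK u)) x ∂ν) atTop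
    (𝓝 (∫ x, oxd f u (fun _ => 0) g χ x ∂ν + (1 + 1 / k) * TOT ν f (lgh g h) χ)) := by
  have h1 := lim_out (A := A) S.hf S.hν S.us S.hχ S.dp
    (S := fun θ z => Gm (gl ζ H (HK u) θ) (dV g θ) z) fun a ha => (S.sq_glued a ha).2.1
  have h2 := lim_psi S.hf S.hν S.hK S.hE S.hT S.hχ S.dp S.chid
  have h3 := lim_bb S.hf S.hν S.hK S.hE S.hT (psd_Sb S.hT) S.hχ S.chid
    (fun R hR => S.me_bb (by linarith))
  have e1 : ∫ x in {x | d ^ 2 ≤ nsq x}, fx f (fun θ z => Gm (gl ζ H (HK u) θ) (dV g θ) z) χ x ∂ν =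
      ∫ x, oxd f u (fun _ => 0) g χ x ∂ν := by
    have h4 := int_Ou_chi (S := fun θ z => Gm (gl ζ H (HK u) θ) (dV g θ) z) S.hf S.hν S.chid
    unfold Ou at h4
    rw [h4]
    exact integral_congr_ae (ae_lv S.hν fun x hx => S.gd_chi hx)
  rw [e1] at h1
  have h5 := h1.add ((h2.const_mul (-(1 + 1 / (k : ℝ)))).add h3)
  have e2 : -(1 + 1 / (k : ℝ)) * -TOT ν f (lgh g h) χ + 0 =
      (1 + 1 / k) * TOT ν f (lgh g h) χ := by ring
  rw [e2] at h5
  refine h5.congr' ?_
  filter_upwards [eventually_gt_atTop 0] with R hR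
  have ht := tst_tR (χ := χ) S.hE S.us S.hχ hR
  rw [(S.sq_glued _ ht).2.2, split_int (S.sq_glued _ ht).2.1 d, add_comm]
  congr 1
  have i1 := (int_bS (ν := ν) S.hf S.hν S.psi S.psi _ ht).integrableOn (s := In d)
  have i2 : IntegrableOn (fx f (Sb H g) (cR A u R)) (In d) ν := by
    have j1 := (S.sq_trl _ ht).integrableOn (s := In d)
    have j2 := j1.add (i1.const_mul (1 + 1 / (k : ℝ)))
    refine j2.congr ?_
    refine (ae_restrict_iff' (meas_In d)).2 (ae_lv S.hν fun x hx hd => ?_)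
    rw [Pi.add_apply, gd_trial S.hf S.hT hx, fx_bS S.hf hx,
      ← fx_tR_in (χ := χ) S.hf S.chid hx hd]
    ring
  rw [← integral_const_mul, ← integral_add (i1.const_mul _) i2]
  refine setIntegral_congr_ae (meas_In d) (ae_lv S.hν fun x hx hd => ?_)
  rw [S.gd_in hx hd, gd_trial S.hf S.hT hx, fx_bS S.hf hx, ← fx_tR_in (χ := χ) S.hf S.chid hx hd]

/-- **limit of `∫ a c₁²(H₀)`** -/
theorem lim_U : Tendsto (fun R : ℝ => ∫ x, tR A u χ R x * mxd f U U x ∂ν) atTop
    (𝓝 (TOT ν f u χ - TOT ν f (lgh g h) χ / k ^ 2)) := by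
  have hUs := S.hU.sm
  have h1 := lim_out (A := A) S.hf S.hν S.us S.hχ S.dp
    (S := bS U U) fun a ha => int_bS S.hf S.hν hUs hUs a ha
  have h2 := lim_psi S.hf S.hν S.hK S.hE S.hT S.hχ S.dp S.chid
  have e1 : ∫ x in {x | d ^ 2 ≤ nsq x}, fx f (bS U U) χ x ∂ν = TOT ν f u χ := by
    have h4 := int_Ou_chi (S := bS U U) S.hf S.hν S.chid
    unfold Ou at h4
    rw [h4]
    unfold TOT
    refine integral_congr_ae (ae_lv S.hν fun x hx => ?_)
    show fx f (bS U U) χ x = u x * mxd f u χ x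
    rw [← fx_bS (b := u) (c := u) S.hf hx]
    rcases S.dich (x := x) with h1 | h1
    · have e1 : ∀ H' : Form, fx f H' χ x = 0 := fun H' =>
        fx_const (c := 1) S.hf hx fun _ _ hP _ hz hzx => ev_pe h1 hP hz hzx
      rw [e1, e1]
    · have := bS_pt (a := χ) (m := 1) S.hf hx (b := U) (c := u) (by
        filter_upwards [S.nearOut h1] with y hy hyL
        rw [S.U_out hyL hy, one_mul]) S.us
      rw [this]
      ring
  rw [e1] at h1
  have h5 := h1.add (h2.const_mul ((1 / (k : ℝ)) ^ 2))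
  have e2 : TOT ν f u χ + (1 / (k : ℝ)) ^ 2 * -TOT ν f (lgh g h) χ =
      TOT ν f u χ - TOT ν f (lgh g h) χ / k ^ 2 := by ring
  rw [e2] at h5
  refine h5.congr' ?_
  filter_upwards [eventually_gt_atTop 0] with R hR
  have ht := tst_tR (χ := χ) S.hE S.us S.hχ hR
  have e3 : ∫ x, tR A u χ R x * mxd f U U x ∂ν = ∫ x, fx f (bS U U) (tR A u χ R) x ∂ν := by
    rw [← (stk3 S.hf S.hν hUs hUs ht.sm (cs_of_tst ht)).2.2]
    exact (integral_congr_ae (ae_lv S.hν fun x hx => fx_bS S.hf hx)).symm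
  rw [e3, split_int (int_bS (ν := ν) S.hf S.hν hUs hUs _ ht) d, add_comm]
  congr 1
  rw [← integral_const_mul]
  refine setIntegral_congr_ae (meas_In d) (ae_lv S.hν fun x hx hd => ?_)
  exact (bS_pt (m := 1 / (k : ℝ)) S.hf hx (b := U) (c := lgh g h) (by
    filter_upwards [S.nearIn hd] with y hy hyL
    exact S.U_in hyL hy) S.psi).symm

end Sit

end Crest.Agent.R257.UpA_952
end
end

-- ▼ part R257/UpA7_952
section

/-!
R257 / UpA7_952: assembly of `UppStmt`, part 7: the limit of the left side; the error term.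
-/

set_option autoImplicit false
set_option linter.unusedSectionVars false

open Topology Filter MeasureTheory Set
open scoped ENNReal ContDiff Matrix ComplexOrder

noncomputable section

namespace Crest.Agent.R257.UpA_952

open Crest.Agent.R275.Geo
open Crest.Agent.R257.Defs_219
open Crest.Agent.R257.KED_952 Crest.Agent.R257.KEG_952 Crest.Agent.R257.KEU_952
open Crest.Agent.R257.KUP_952
open Crest.Agent.R257.V1Defs_822 (SmL LvlOK lgh)
open Crest.Agent.R257.V1Pe_822
open Crest.Agent.R273.Defs_333 (lev)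
open Crest.Agent.R257.PN_835 (nsq)
open Crest.Agent.R257.LossA_625 (Lv sc sc_pos cv_sm)
open Crest.Agent.R257.LossB_625 (ae_lv)
open Crest.Agent.R257.SkelV_952 Crest.Agent.R257.SkelG_952

variable {f : E3 → ℂ} {r A : ℝ} {u : E3 → ℝ} {ν : Measure E3} {χ ζ : E3 → ℝ} {k : ℕ}
  {g h : E3 → ℂ} {B : ℝ} {H : Form} {φ V U : E3 → ℝ} {d d₁ d₂ : ℝ}

theorem me_u (hf : LvlOK f 0 r) (hν : IsNu f 0 r ν) (hK : KEon f 0 r u) : AEMeasurable u ν :=
  KedM_941.measStmt f 0 r hf.pos hf.an hf.sm ν hν _ (ctl_ke hK)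

theorem me_c (hf : LvlOK f 0 r) (hν : IsNu f 0 r ν) (hK : KEon f 0 r u) :
    AEMeasurable (c2d f u) ν :=
  KedM_941.measStmt f 0 r hf.pos hf.an hf.sm ν hν _
    (Ked4_397.ctDStmt f 0 r hf.pos hf.an hf.sm u hK).1

theorem c_nn (hf : LvlOK f 0 r) (hK : KEon f 0 r u) {x : E3} (hx : x ∈ Lv f r) :
    0 ≤ c2d f u x := by
  have h1 := Ked2_397.bmyStmt f 0 r u hf.pos hf.an hf.sm hK x hx.1 hx.2.1 hx.2.2
  have := Real.exp_pos (u x)
  linarith

/-! ### the left side -/

/-- pointwise limit of the cut-off -/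
theorem cR_lim {x : E3} : Tendsto (fun R : ℝ => cR A u R x) atTop (𝓝 1) := by
  have h1 : Tendsto (fun R : ℝ => 1 - sc / R * (A - u x)) atTop (𝓝 (1 - 0 * (A - u x))) :=
    tendsto_const_nhds.sub ((tendsto_const_nhds.div_atTop tendsto_id).mul_const _)
  rw [zero_mul, sub_zero] at h1
  refine h1.congr' ?_
  filter_upwards [eventually_gt_atTop (2 * (A - u x)), eventually_gt_atTop 0] with R h2 h3
  exact (cR_aff h3 (by linarith)).symm

theorem me_cR (hf : LvlOK f 0 r) (hν : IsNu f 0 r ν) (hK : KEon f 0 r u) (R : ℝ) :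
    AEMeasurable (cR A u R) ν := by
  have h1 := me_u hf hν hK
  exact cv_sm.continuous.measurable.comp_aemeasurable ((aemeasurable_const.sub h1).div_const R)

/-- dominated convergence for the cut-offs -/
theorem lim_dom (hf : LvlOK f 0 r) (hν : IsNu f 0 r ν) (hK : KEon f 0 r u) (hE : Esc f r u A)
    {F : E3 → ℝ} (hF : Integrable F ν) :
    Tendsto (fun R : ℝ => ∫ x, cR A u R x * F x ∂ν) atTop (𝓝 (∫ x, F x ∂ν)) := by
  refine tendsto_integral_filter_of_dominated_convergence (fun x => ‖F x‖) ?_ ?_ hF.norm ?_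
  · exact Eventually.of_forall fun R =>
      (me_cR hf hν hK R).aestronglyMeasurable.mul hF.aestronglyMeasurable
  · filter_upwards [eventually_gt_atTop 0] with R hR
    refine ae_lv hν fun x hx => ?_
    have h1 := cR_nonneg (A := A) (u := u) R x
    have h2 : cR A u R x ≤ 1 := cR_le hR (by
      have := hE.one x hx.1 hx.2.1 hx.2.2
      linarith)
    rw [norm_mul, Real.norm_eq_abs, abs_of_nonneg h1]
    have := norm_nonneg (F x)
    nlinarith
  · refine Eventually.of_forall fun x => ?_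
    have := (cR_lim (A := A) (u := u) (x := x)).mul_const (F x)
    rwa [one_mul] at this

namespace Sit

variable (S : Sit f r A u ν k g h B H φ V χ ζ d d₁ d₂ U)
include S

theorem lim_L (hfin : C2I ν f u χ ≠ ⊤) :
    Tendsto (fun R : ℝ => ∫ x, tR A u χ R x * (2 * c2d f u x - mxd f u u x) ∂ν) atTop
      (𝓝 (2 * (C2I ν f u χ).toReal - 2 * (VOL ν u χ).toReal)) := by
  obtain ⟨i1, e1⟩ := c2i_int KedM_941.measStmt Ked4_397.ctDStmt Ked2_397.bmyStmt S.hf S.hν S.hK
    S.hχ hfin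
  have i2 := int_vol KedM_941.measStmt S.hf S.hν S.hK S.hχ hfin
  have e2 : ∫ x, χ x * Real.exp (u x) ∂ν = (VOL ν u χ).toReal := by
    rw [integral_eq_lintegral_of_nonneg_ae
      (Eventually.of_forall fun x => mul_nonneg (S.hχ.nn x) (Real.exp_pos _).le)
      i2.aestronglyMeasurable]
    rfl
  have h1 := lim_dom S.hf S.hν S.hK S.hE ((i1.const_mul 2).sub (i2.const_mul 2))
  have e3 : ∫ x, 2 * (χ x * c2d f u x) - 2 * (χ x * Real.exp (u x)) ∂ν =
      2 * (C2I ν f u χ).toReal - 2 * (VOL ν u χ).toReal := by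
    rw [integral_sub (i1.const_mul 2) (i2.const_mul 2), integral_const_mul, integral_const_mul,
      e1, e2]
  have e4 : ∫ x, ((fun x => 2 * (χ x * c2d f u x)) - fun x => 2 * (χ x * Real.exp (u x))) x ∂ν =
      2 * (C2I ν f u χ).toReal - 2 * (VOL ν u χ).toReal := e3
  rw [e4] at h1
  refine h1.congr fun R => integral_congr_ae (ae_lv S.hν fun x hx => ?_)
  simp only [Pi.sub_apply]
  rw [mxd_ke S.hf S.hK hx.2.1 hx.2.2 hx.1]
  unfold tR
  ring

end Sit

/-! ### the error term -/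

/-- AM-GM -/
theorem amgm {l v c e : ℝ} (hl : 0 < l) (hc : 0 ≤ c) (he : 0 ≤ e) :
    v * Real.sqrt (c * e) ≤ (l * (v ^ 2 * e) + c / l) / 2 := by
  rw [Real.sqrt_mul hc]
  have h1 := Real.sq_sqrt hc
  have h2 := Real.sq_sqrt he
  set b := Real.sqrt c
  set a := Real.sqrt e
  rw [← h1, ← h2]
  have h3 : 0 ≤ (l * (v * a) - b) ^ 2 / (2 * l) := by positivity
  have h4 : (l * (v * a) - b) ^ 2 / (2 * l) = (l * (v ^ 2 * a ^ 2) + b ^ 2 / l) / 2 -
      v * (b * a) := by
    field_simp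
    ring
  linarith

/-- the sum of the weights -/
theorem sum_exp (j n : ℕ) (h : j ≤ n) :
    ∑ i ∈ Finset.Ico j n, Real.exp (-(i : ℝ)) ≤ 2 * (Real.exp (-(j : ℝ)) - Real.exp (-(n : ℝ))) := by
  induction n, h using Nat.le_induction with
  | base => simp
  | succ n hn ih =>
    rw [Finset.sum_Ico_succ_top hn]
    have h1 : 2 * Real.exp (-((n + 1 : ℕ) : ℝ)) ≤ Real.exp (-(n : ℝ)) := by
      have h2 : Real.exp (-(n : ℝ)) = Real.exp 1 * Real.exp (-((n + 1 : ℕ) : ℝ)) := by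
        rw [← Real.exp_add]
        congr 1
        push_cast
        ring
      rw [h2]
      have h3 : (2 : ℝ) ≤ Real.exp 1 := by
        have := Real.add_one_le_exp (1 : ℝ)
        linarith
      have := Real.exp_pos (-((n + 1 : ℕ) : ℝ))
      nlinarith
    linarith

open Classical in
/-- at most one scale is active -/
theorem sum_ind {W M : ℝ} (hM : 0 ≤ M) (j n : ℕ) :
    ∑ i ∈ Finset.Ico j n, (if W ≤ Real.exp (i : ℝ) then
      (if Real.exp (i : ℝ) / 2 ≤ W then M else 0) else 0) ≤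
      if Real.exp (j : ℝ) / 2 ≤ W then M else 0 := by
  by_cases hex : ∃ i ∈ Finset.Ico j n, W ≤ Real.exp (i : ℝ) ∧ Real.exp (i : ℝ) / 2 ≤ W
  · obtain ⟨i₀, h1, h2, h3⟩ := hex
    have hji : j ≤ i₀ := (Finset.mem_Ico.1 h1).1
    have h4 : Real.exp (j : ℝ) ≤ Real.exp (i₀ : ℝ) := by gcongr
    rw [if_pos (by linarith : Real.exp (j : ℝ) / 2 ≤ W)]
    rw [Finset.sum_eq_single i₀, if_pos h2, if_pos h3]
    · intro i _ hne
      by_cases a1 : W ≤ Real.exp (i : ℝ)
      · rw [if_pos a1]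
        by_cases a2 : Real.exp (i : ℝ) / 2 ≤ W
        · exfalso
          have hE : (2 : ℝ) < Real.exp 1 := by
            have := Real.exp_one_gt_d9
            linarith
          have key : ∀ a b : ℕ, a < b → Real.exp (b : ℝ) / 2 ≤ Real.exp (a : ℝ) → False := by
            intro a b hab hle
            have h5 : Real.exp ((a : ℝ) + 1) ≤ Real.exp (b : ℝ) := by
              apply Real.exp_le_exp.2
              exact_mod_cast hab
            rw [Real.exp_add] at h5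
            have := Real.exp_pos (a : ℝ)
            nlinarith
          rcases lt_or_gt_of_ne hne with h | h
          · exact key i i₀ h (h3.trans a1)
          · exact key i₀ i h (a2.trans h2)
        · rw [if_neg a2]
      · rw [if_neg a1]
    · intro h
      exact absurd h1 h
  · have h0 : ∑ i ∈ Finset.Ico j n, (if W ≤ Real.exp (i : ℝ) then
      (if Real.exp (i : ℝ) / 2 ≤ W then M else 0) else 0) = 0 := by
      refine Finset.sum_eq_zero fun i hi => ?_
      by_cases a1 : W ≤ Real.exp (i : ℝ)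
      · rw [if_pos a1]
        by_cases a2 : Real.exp (i : ℝ) / 2 ≤ W
        · exact absurd ⟨i, hi, a1, a2⟩ hex
        · rw [if_neg a2]
      · rw [if_neg a1]
    rw [h0]
    split_ifs
    · exact hM
    · exact le_rfl

/-- the constant -/
def MM (A : ℝ) : ℝ := 2 * sc * KK * A

theorem MM_nn (hA : 0 < A) : 0 ≤ MM A := by
  have := sc_pos
  have := KK_pos
  unfold MM
  positivity

open Classical in
/-- **sum of the Levi bounds** -/
theorem sum_qR (hA : 0 < A) (j : ℕ) (x : E3) :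
    ∑ i ∈ Finset.Ico j (2 * j), qR A u (Real.exp (i : ℝ)) x ≤
      2 * sc * Real.exp (-(j : ℝ)) * (if A - u x ≤ Real.exp ((2 * j : ℕ) : ℝ) then 1 else 0) +
      MM A * (if A - u x ≤ Real.exp ((2 * j : ℕ) : ℝ) then
        (if Real.exp (j : ℝ) / 2 ≤ A - u x then 1 else 0) else 0) := by
  have hsc := sc_pos
  by_cases hW : A - u x ≤ Real.exp ((2 * j : ℕ) : ℝ)
  · rw [if_pos hW, if_pos hW, mul_one]
    have h1 : ∀ i : ℕ, qR A u (Real.exp (i : ℝ)) x ≤ sc * Real.exp (-(i : ℝ)) +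
        (if A - u x ≤ Real.exp (i : ℝ) then
          (if Real.exp (i : ℝ) / 2 ≤ A - u x then MM A else 0) else 0) := by
      intro i
      unfold qR MM
      have h2 : sc / Real.exp (i : ℝ) = sc * Real.exp (-(i : ℝ)) := by
        rw [Real.exp_neg]
        rfl
      split_ifs
      · rw [h2]
      · rw [h2]
      · positivity
    calc ∑ i ∈ Finset.Ico j (2 * j), qR A u (Real.exp (i : ℝ)) x ≤
        ∑ i ∈ Finset.Ico j (2 * j), (sc * Real.exp (-(i : ℝ)) +
        (if A - u x ≤ Real.exp (i : ℝ) then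
          (if Real.exp (i : ℝ) / 2 ≤ A - u x then MM A else 0) else 0)) :=
          Finset.sum_le_sum fun i _ => h1 i
      _ ≤ 2 * sc * Real.exp (-(j : ℝ)) +
          (if Real.exp (j : ℝ) / 2 ≤ A - u x then MM A else 0) := by
          rw [Finset.sum_add_distrib, ← Finset.mul_sum]
          have h3 := sum_exp j (2 * j) (by omega)
          have h4 := sum_ind (W := A - u x) (MM_nn hA) j (2 * j)
          have h5 : sc * ∑ i ∈ Finset.Ico j (2 * j), Real.exp (-(i : ℝ)) ≤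
              sc * (2 * Real.exp (-(j : ℝ))) := by
            have := Real.exp_pos (-((2 * j : ℕ) : ℝ))
            have h6 : ∑ i ∈ Finset.Ico j (2 * j), Real.exp (-(i : ℝ)) ≤
              2 * Real.exp (-(j : ℝ)) := by linarith
            gcongr
          linarith
      _ ≤ _ := by
          split_ifs <;> simp
  · rw [if_neg hW, if_neg hW, mul_zero, mul_zero, add_zero]
    refine le_of_eq (Finset.sum_eq_zero fun i hi => ?_)
    unfold qR
    rw [if_neg]
    rw [not_le] at hW ⊢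
    refine lt_of_le_of_lt ?_ hW
    have : (i : ℝ) ≤ ((2 * j : ℕ) : ℝ) := by exact_mod_cast (Finset.mem_Ico.1 hi).2.le
    exact Real.exp_le_exp.2 this

end Crest.Agent.R257.UpA_952
end
end

-- ▼ part R257/UpA8_952

/-!
R257 / UpA8_952: assembly of `UppStmt`, part 8: the error term tends to `0` along a sequence of
scales.
-/

set_option autoImplicit false
set_option linter.unusedSectionVars false

open Topology Filter MeasureTheory Set
open scoped ENNReal ContDiff Matrix ComplexOrder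

noncomputable section

namespace Crest.Agent.R257.UpA_952

open Crest.Agent.R275.Geo
open Crest.Agent.R257.Defs_219
open Crest.Agent.R257.KED_952 Crest.Agent.R257.KEG_952 Crest.Agent.R257.KEU_952
open Crest.Agent.R257.KUP_952
open Crest.Agent.R257.V1Defs_822 (SmL LvlOK lgh)
open Crest.Agent.R257.V1Pe_822
open Crest.Agent.R257.PN_835 (nsq)
open Crest.Agent.R257.LossA_625 (Lv sc sc_pos cv_sm)
open Crest.Agent.R257.LossB_625 (ae_lv)
open Crest.Agent.R257.SkelV_952 Crest.Agent.R257.SkelG_952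

variable {f : E3 → ℂ} {r A : ℝ} {u : E3 → ℝ} {ν : Measure E3} {χ ζ : E3 → ℝ} {k : ℕ}
  {g h : E3 → ℂ} {B : ℝ} {H : Form} {φ V U : E3 → ℝ} {d d₁ d₂ : ℝ}

open Classical in
/-- truncated weight -/
def vv (A : ℝ) (u χ V : E3 → ℝ) (ρ : ℝ) (x : E3) : ℝ :=
  if Real.log (A - u x) ≤ ρ then χ x * V x ^ 2 * Real.exp (u x) else 0

open Classical in
/-- tail of the second Chern form -/
def tt (f : E3 → ℂ) (A : ℝ) (u χ : E3 → ℝ) (b : ℝ) (x : E3) : ℝ :=
  if b ≤ A - u x then χ x * c2d f u x else 0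

/-- the summands of the error -/
def er (f : E3 → ℂ) (A : ℝ) (u V : E3 → ℝ) (d₁ R : ℝ) (x : E3) : ℝ :=
  (In d₁).indicator (qR A u R) x * V x * Real.sqrt (c2d f u x * Real.exp (u x))

namespace Sit

variable (S : Sit f r A u ν k g h B H φ V χ ζ d d₁ d₂ U)
include S

theorem exists_C : ∃ C : ℝ, 0 ≤ C ∧ ∀ ρ : ℝ, 1 ≤ ρ → Integrable (vv A u χ V ρ) ν ∧
    ∫ x, vv A u χ V ρ x ∂ν ≤ C * ρ ^ 2 := by
  obtain ⟨C, hC⟩ := S.hT.V_int χ S.hχ
  refine ⟨max C 0, le_max_right _ _, fun ρ hρ => ?_⟩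
  have hnn : ∀ x, 0 ≤ χ x * V x ^ 2 * Real.exp (u x) := fun x => by
    have := S.hχ.nn x
    positivity
  have hnn' : ∀ x, 0 ≤ vv A u χ V ρ x := fun x => by
    unfold vv
    split_ifs
    · exact hnn x
    · exact le_rfl
  have mu := me_u S.hf S.hν S.hK
  have hme : AEMeasurable (vv A u χ V ρ) ν := by
    have h1 : AEMeasurable (fun x => χ x * V x ^ 2 * Real.exp (u x)) ν :=
      ((S.hχ.sm.continuous.measurable.aemeasurable).mul (S.hT.V_me.pow_const 2)).mul
        (Real.measurable_exp.comp_aemeasurable mu)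
    have h2 : AEMeasurable (fun x => (Iic ρ).indicator (fun _ => (1 : ℝ))
        (Real.log (A - u x))) ν :=
      (measurable_const.indicator measurableSet_Iic).comp_aemeasurable
        (Real.measurable_log.comp_aemeasurable (aemeasurable_const.sub mu))
    refine (h2.mul h1).congr (Eventually.of_forall fun x => ?_)
    show (Iic ρ).indicator (fun _ => (1 : ℝ)) (Real.log (A - u x)) *
      (χ x * V x ^ 2 * Real.exp (u x)) = vv A u χ V ρ x
    unfold vv
    by_cases h : Real.log (A - u x) ≤ ρ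
    · rw [if_pos h, indicator_of_mem (by exact h), one_mul]
    · rw [if_neg h, indicator_of_notMem (by exact h), zero_mul]
  have key : ∫⁻ x, ENNReal.ofReal (vv A u χ V ρ x) ∂ν ≤ ENNReal.ofReal (C * ρ ^ 2) := by
    refine le_trans ?_ (hC ρ hρ)
    refine le_trans ?_ (lintegral_indicator_le _ _)
    refine lintegral_mono fun x => ?_
    unfold vv
    by_cases h : Real.log (A - u x) ≤ ρ
    · rw [if_pos h, indicator_of_mem (by exact h)]
    · rw [if_neg h, indicator_of_notMem (by exact h)]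
      simp
  constructor
  · refine ⟨hme.aestronglyMeasurable, ?_⟩
    rw [hasFiniteIntegral_iff_ofReal (Eventually.of_forall hnn')]
    exact key.trans_lt ENNReal.ofReal_lt_top
  · rw [integral_eq_lintegral_of_nonneg_ae (Eventually.of_forall hnn') hme.aestronglyMeasurable]
    refine ENNReal.toReal_le_of_le_ofReal (by positivity) (key.trans ?_)
    apply ENNReal.ofReal_le_ofReal
    have := le_max_left C 0
    gcongr

theorem int_c (hfin : C2I ν f u χ ≠ ⊤) : Integrable (fun x => χ x * c2d f u x) ν :=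
  (c2i_int KedM_941.measStmt Ked4_397.ctDStmt Ked2_397.bmyStmt S.hf S.hν S.hK S.hχ hfin).1

theorem me_tt (b : ℝ) : AEMeasurable (tt f A u χ b) ν := by
  have mu := me_u S.hf S.hν S.hK
  have h1 : AEMeasurable (fun x => χ x * c2d f u x) ν :=
    (S.hχ.sm.continuous.measurable.aemeasurable).mul (me_c S.hf S.hν S.hK)
  have h2 : AEMeasurable (fun x => (Ici b).indicator (fun _ => (1 : ℝ)) (A - u x)) ν :=
    (measurable_const.indicator measurableSet_Ici).comp_aemeasurable (aemeasurable_const.sub mu)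
  refine (h2.mul h1).congr (Eventually.of_forall fun x => ?_)
  show (Ici b).indicator (fun _ => (1 : ℝ)) (A - u x) * (χ x * c2d f u x) = tt f A u χ b x
  unfold tt
  by_cases h : b ≤ A - u x
  · rw [if_pos h, indicator_of_mem (by exact h), one_mul]
  · rw [if_neg h, indicator_of_notMem (by exact h), zero_mul]

theorem tt_bd (b : ℝ) : ∀ᵐ x ∂ν, 0 ≤ tt f A u χ b x ∧ tt f A u χ b x ≤ χ x * c2d f u x := by
  refine ae_lv S.hν fun x hx => ?_
  have h1 := mul_nonneg (S.hχ.nn x) (c_nn S.hf S.hK hx)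
  unfold tt
  split_ifs
  · exact ⟨h1, le_rfl⟩
  · exact ⟨le_rfl, h1⟩

theorem int_tt (hfin : C2I ν f u χ ≠ ⊤) (b : ℝ) : Integrable (tt f A u χ b) ν := by
  refine (S.int_c hfin).mono' (S.me_tt b).aestronglyMeasurable ?_
  filter_upwards [S.tt_bd b] with x hx
  rw [Real.norm_eq_abs, abs_of_nonneg hx.1]
  exact hx.2

theorem lim_tt (hfin : C2I ν f u χ ≠ ⊤) :
    Tendsto (fun b : ℝ => ∫ x, tt f A u χ b x ∂ν) atTop (𝓝 0) := by
  have e1 : (0 : ℝ) = ∫ x, (0 : ℝ) ∂ν := by simp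
  rw [e1]
  refine tendsto_integral_filter_of_dominated_convergence (fun x => χ x * c2d f u x)
    ?_ ?_ (S.int_c hfin) ?_
  · exact Eventually.of_forall fun b => (S.me_tt b).aestronglyMeasurable
  · refine Eventually.of_forall fun b => ?_
    filter_upwards [S.tt_bd b] with x hx
    rw [Real.norm_eq_abs, abs_of_nonneg hx.1]
    exact hx.2
  · refine Eventually.of_forall fun x => ?_
    refine tendsto_const_nhds.congr' ?_
    filter_upwards [eventually_gt_atTop (A - u x)] with b hb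
    unfold tt
    rw [if_neg (by linarith)]

theorem me_er (R : ℝ) : AEMeasurable (er f A u V d₁ R) ν := by
  have mu := me_u S.hf S.hν S.hK
  have h1 : AEMeasurable (fun x => Real.sqrt (c2d f u x * Real.exp (u x))) ν :=
    Real.continuous_sqrt.measurable.comp_aemeasurable
      ((me_c S.hf S.hν S.hK).mul (Real.measurable_exp.comp_aemeasurable mu))
  have h2 : AEMeasurable (qR A u R) ν := by
    have hm : Measurable fun t : ℝ => (Iic R).indicator (fun t => sc / R +
        (Ici (R / 2)).indicator (fun _ => 2 * sc * KK * A) t) t :=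
      (measurable_const.add (measurable_const.indicator measurableSet_Ici)).indicator
        measurableSet_Iic
    have mW : AEMeasurable (fun x => A - u x) ν := aemeasurable_const.sub mu
    refine (hm.comp_aemeasurable mW).congr (Eventually.of_forall fun x => ?_)
    show (Iic R).indicator (fun t => sc / R +
        (Ici (R / 2)).indicator (fun _ => 2 * sc * KK * A) t) (A - u x) = qR A u R x
    unfold qR
    by_cases h : A - u x ≤ R
    · rw [if_pos h, indicator_of_mem (by exact h)]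
      by_cases h' : R / 2 ≤ A - u x
      · rw [if_pos h', indicator_of_mem (by exact h')]
      · rw [if_neg h', indicator_of_notMem (by exact h')]
    · rw [if_neg h, indicator_of_notMem (by exact h)]
  exact ((h2.indicator (meas_In d₁)).mul S.hT.V_me).mul h1

theorem er_nn {R : ℝ} (hR : 0 < R) (x : E3) : 0 ≤ er f A u V d₁ R x := by
  unfold er
  refine mul_nonneg (mul_nonneg ?_ (S.hT.V_nn x)) (Real.sqrt_nonneg _)
  refine indicator_nonneg (fun y _ => qR_nonneg hR S.hE.pos y) x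

open Classical in
/-- pointwise bound of the sum of the errors -/
theorem sum_er (j : ℕ) {l : ℝ} (hl : 0 < l) {x : E3} (hx : x ∈ Lv f r) :
    ∑ i ∈ Finset.Ico j (2 * j), er f A u V d₁ (Real.exp (i : ℝ)) x ≤
      sc * Real.exp (-(j : ℝ)) * (vv A u χ V ((2 * j : ℕ) : ℝ) x + χ x * c2d f u x) +
      MM A / 2 * (l * vv A u χ V ((2 * j : ℕ) : ℝ) x +
        tt f A u χ (Real.exp (j : ℝ) / 2) x / l) := by
  have hsc := sc_pos
  have hM := MM_nn S.hE.pos
  have hc := c_nn S.hf S.hK hx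
  have hχ := S.hχ.nn x
  have hWp : 0 < A - u x := by
    have := S.hE.one x hx.1 hx.2.1 hx.2.2
    linarith
  have hv0 : 0 ≤ vv A u χ V ((2 * j : ℕ) : ℝ) x := by
    unfold vv
    split_ifs
    · positivity
    · exact le_rfl
  have ht0 : 0 ≤ tt f A u χ (Real.exp (j : ℝ) / 2) x := by
    unfold tt
    split_ifs
    · positivity
    · exact le_rfl
  have hRHS : 0 ≤ sc * Real.exp (-(j : ℝ)) * (vv A u χ V ((2 * j : ℕ) : ℝ) x + χ x * c2d f u x) +
      MM A / 2 * (l * vv A u χ V ((2 * j : ℕ) : ℝ) x +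
        tt f A u χ (Real.exp (j : ℝ) / 2) x / l) := by
    have := mul_nonneg hχ hc
    positivity
  unfold er
  simp only [mul_assoc]
  rw [← Finset.sum_mul]
  by_cases hd : x ∈ In d₁
  · simp only [indicator_of_mem hd]
    have hχ1 : χ x = 1 := (S.chi x hd).self_of_nhds
    have h1 := sum_qR (u := u) S.hE.pos j x
    have h2 : 0 ≤ V x * Real.sqrt (c2d f u x * Real.exp (u x)) :=
      mul_nonneg (S.hT.V_nn x) (Real.sqrt_nonneg _)
    refine (mul_le_mul_of_nonneg_right h1 h2).trans ?_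
    by_cases hW : A - u x ≤ Real.exp ((2 * j : ℕ) : ℝ)
    · rw [if_pos hW, if_pos hW, mul_one]
      have hlog : Real.log (A - u x) ≤ ((2 * j : ℕ) : ℝ) := (Real.log_le_iff_le_exp hWp).2 hW
      have ev : vv A u χ V ((2 * j : ℕ) : ℝ) x = V x ^ 2 * Real.exp (u x) := by
        unfold vv
        rw [if_pos hlog, hχ1, one_mul]
      have b1 := amgm (v := V x) (c := c2d f u x) (e := Real.exp (u x)) (one_pos) hc
        (Real.exp_pos _).le
      have b2 := amgm (v := V x) (c := c2d f u x) (e := Real.exp (u x)) hl hc (Real.exp_pos _).le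
      rw [one_mul, div_one] at b1
      have c1 : 2 * sc * Real.exp (-(j : ℝ)) * (V x * Real.sqrt (c2d f u x * Real.exp (u x))) ≤
          sc * Real.exp (-(j : ℝ)) * (V x ^ 2 * Real.exp (u x) + c2d f u x) := by
        have : 2 * (V x * Real.sqrt (c2d f u x * Real.exp (u x))) ≤
          V x ^ 2 * Real.exp (u x) + c2d f u x := by linarith
        calc _ = sc * Real.exp (-(j : ℝ)) *
              (2 * (V x * Real.sqrt (c2d f u x * Real.exp (u x)))) := by ring
          _ ≤ _ := by gcongr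
      by_cases hW2 : Real.exp (j : ℝ) / 2 ≤ A - u x
      · rw [if_pos hW2, mul_one]
        have et : tt f A u χ (Real.exp (j : ℝ) / 2) x = c2d f u x := by
          unfold tt
          rw [if_pos hW2, hχ1, one_mul]
        rw [ev, et, hχ1, one_mul, add_mul]
        have c2 : MM A * (V x * Real.sqrt (c2d f u x * Real.exp (u x))) ≤
            MM A / 2 * (l * (V x ^ 2 * Real.exp (u x)) + c2d f u x / l) := by
          calc _ ≤ MM A * ((l * (V x ^ 2 * Real.exp (u x)) + c2d f u x / l) / 2) := by gcongr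
            _ = _ := by ring
        simp only [mul_assoc] at c1 c2 ⊢
        linarith
      · rw [if_neg hW2, mul_zero, add_zero, ev, hχ1, one_mul]
        have c3 : 0 ≤ MM A / 2 * (l * (V x ^ 2 * Real.exp (u x)) +
            tt f A u χ (Real.exp (j : ℝ) / 2) x / l) := by positivity
        simp only [mul_assoc] at c1 c3 ⊢
        linarith
    · rw [if_neg hW, if_neg hW, mul_zero, mul_zero, add_zero, zero_mul]
      simpa only [mul_assoc] using hRHS
  · simp only [indicator_of_notMem hd, Finset.sum_const_zero, zero_mul]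
    simpa only [mul_assoc] using hRHS

end Sit

end Crest.Agent.R257.UpA_952
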