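import Crest.Agent.R257.BrH_822
import Crest.Agent.R257.CmpL_822
import Crest.Agent.R257.MassLe_218
import Crest.Agent.R257.BCUP_532
import Crest.Agent.R273.FIlin_332
import Crest.Agent.R257.C2F3_625
import Crest.Agent.R257.OutD_309
import Crest.Agent.R257.GBLcut_844
import Crest.Agent.R257.UpA8_952
import Crest.Agent.R257.KE_835
import Crest.Agent.R257.Vol_397
import Crest.Agent.R257.M3Cnt_5
import Crest.Agent.R257.Bd_309
import Crest.Agent.R257.LgG_827
import Crest.Agent.R257.V3B_218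

-- ▼ part R257/BrI_822
section

/-!
# R257 (S0395) (helper822): `UpperStmt` (KUP_952) from the logarithm and the pointwise bound

* `exists_fun`, `re_bridge` : densities as functions, `∫ ψ dν = Re intD P D`
* `q2_re`                   : `tr F²` in terms of `mxd`, `c2h`
* `upperStmt_of (lg : LgStmt) (pt : PtwStmt) : UpperStmt`
-/

set_option autoImplicit false
set_option linter.unusedSectionVars false

open Set Filter Topology Complex MeasureTheory
open scoped ContDiff Matrix ComplexConjugate ComplexOrder ENNReal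

namespace Crest.Agent.R257.BrI_822

open Crest.Agent.R275.Geo Crest.Agent.R275.Core144 Crest.Agent.R275.EDR890
open Crest.Agent.R275.Pai323 Crest.Agent.R275.C1d194
open Crest.Agent.R275.SerG398 (lint dens)
open Crest.Agent.R273.StokesV_332
open Crest.Agent.R273.GreenM_5
open Crest.Agent.R273.Fock_243
open Crest.Agent.R273.Calc_243 hiding dV dj
open Crest.Agent.R273.Bkn_243 Crest.Agent.R273.Pos_243 Crest.Agent.R273.BochA_101
open Crest.Agent.R273.BochB_101
open Crest.Agent.R273.BochC_101 Crest.Agent.R273.BochD_101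
open Crest.Agent.R273.Defs_333 Crest.Agent.R273.Vm_333 Crest.Agent.R273.Kah_333
open Crest.Agent.R273.Hess_333 Crest.Agent.R273.HessB_333
open Crest.Agent.R273.YauDefs_635 (cH)
open Crest.Agent.R273.YauMax_635 (cH_eq_hess)
open Crest.Agent.R257.C2F1_625 Crest.Agent.R257.C2F2_625 Crest.Agent.R257.C2F3_625
open Crest.Agent.R257.C2F4_335 Crest.Agent.R257.C2F5_335
open Crest.Agent.R257.C2F6_335 hiding ddD
open Crest.Agent.R257.Defs_219
open Crest.Agent.R257.PN_835 (nsq)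
open Crest.Agent.R257.Aff_835 (eta2a)
open Crest.Agent.R257.KED_952 Crest.Agent.R257.KEG_952
open Crest.Agent.R257.Ked1_397 Crest.Agent.R257.Ked2_397
open Crest.Agent.R257.V1Defs_822 (SmL LvlOK)
open Crest.Agent.R257.V1Pe_822 (smAt)
open Crest.Agent.R257.UpK_938 Crest.Agent.R257.Bridge_822
open Crest.Agent.R257.OutA_309 (eta2a_nn)
open Crest.Agent.R257.OutC_309 (c2x Bun)
open Crest.Agent.R257.KUP_952
open Crest.Agent.R257.LossA_625 (Lv)
open Crest.Agent.R257.MtM_822 Crest.Agent.R257.BrH_822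
open Crest.Agent.R257.BCU4_532 Crest.Agent.R257.BCU7_532 Crest.Agent.R257.BCUP_532

noncomputable section

variable {f : E3 → ℂ} {r : ℝ} (hf : LvlOK f 0 r)

/-! ### densities as functions -/

theorem w_pos {i : ((LX hf).A 0).ι} {x : (LX hf).M 0} (hx : x ∈ (((LX hf).A 0).e i).source) :
    0 < ((LX hf).eta 0).w i x := ((LX hf).eta 0).pos i x hx

theorem w_eta {i : ((LX hf).A 0).ι} {x : (LX hf).M 0} (hx : x ∈ (((LX hf).A 0).e i).source) :
    ((LX hf).eta 0).w i x = eta2a (n := 2) f (thc hf i) (((LX hf).A 0).e i x) := by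
  have h := e2_eta hf ((((LX hf).A 0).e i).map_source hx)
  rwa [(((LX hf).A 0).e i).left_inv hx] at h

theorem w_tr {i j : ((LX hf).A 0).ι} {x : (LX hf).M 0}
    (hx : x ∈ (((LX hf).A 0).e i).source ∩ (((LX hf).A 0).e j).source) :
    ((LX hf).eta 0).w i x = (dens ((LX hf).A 0) i j x).re * ((LX hf).eta 0).w j x := by
  rw [w_eta hf hx.1, w_eta hf hx.2]
  have h := eta2a_trans (pe_chart hf i).par (pe_chart hf j).par
    ((((LX hf).A 0).e i).map_source hx.1) (Tr_hol hx) (tr_chart hf hx)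
  rw [h, Tr_at hx.1, dens_Jm, Jac_Tr, Complex.mul_conj, Complex.normSq_eq_norm_sq,
    Complex.ofReal_re]

theorem dens_im {i j : ((LX hf).A 0).ι} {x : (LX hf).M 0} :
    (dens ((LX hf).A 0) i j x).im = 0 := by
  rw [dens_Jm, Complex.mul_conj]
  exact Complex.ofReal_im _

/-- a density as a function on `E3` -/
theorem exists_fun {D : ((LX hf).A 0).ι → (LX hf).M 0 → ℂ} (hD : Dn ((LX hf).A 0) D) :
    ∃ ψ : E3 → ℝ, ∀ i, ∀ x ∈ (((LX hf).A 0).e i).source,
      (D i x).re = ((LX hf).eta 0).w i x * ψ x.1 := by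
  classical
  refine ⟨fun y => if h : ∃ x : (LX hf).M 0, x.1 = y then
    (D (ci ((LX hf).A 0) h.choose) h.choose).re /
      ((LX hf).eta 0).w (ci ((LX hf).A 0) h.choose) h.choose else 0, fun i x hx => ?_⟩
  have hex : ∃ x' : (LX hf).M 0, x'.1 = x.1 := ⟨x, rfl⟩
  have e : hex.choose = x := Subtype.ext hex.choose_spec
  simp only
  rw [dif_pos hex, e]
  have hx' : x ∈ (((LX hf).A 0).e i).source ∩ (((LX hf).A 0).e (ci ((LX hf).A 0) x)).source :=
    ⟨hx, mem_ci x⟩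
  have h1 := hD i _ x hx'
  have h2 := w_tr hf hx'
  have h3 := w_pos hf (mem_ci (A := (LX hf).A 0) x)
  rw [h1, h2, Complex.mul_re, dens_im, zero_mul, sub_zero]
  field_simp

/-- **the bridge for real parts of densities** -/
theorem re_bridge {ν : Measure E3} (hν : IsNu f 0 r ν) (P : Part ((LX hf).A 0))
    {D : ((LX hf).A 0).ι → (LX hf).M 0 → ℂ} (hD : Den ((LX hf).A 0) D)
    {K : Set ((LX hf).M 0)} (hK : IsCompact K) (h0 : OffK ((LX hf).A 0) D K) {ψ : E3 → ℝ}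
    (hψ : ∀ i, ∀ x ∈ (((LX hf).A 0).e i).source,
      (D i x).re = ((LX hf).eta 0).w i x * ψ x.1) :
    Integrable ψ ν ∧ ∫ x, ψ x ∂ν = (intD P D).re := by
  have hcI := (LX hf).countable 0
  have hct : Continuous fun x : (LX hf).M 0 => ψ x.1 := by
    rw [continuous_iff_continuousAt]
    intro x
    obtain ⟨i, hi⟩ := ((LX hf).A 0).cover x
    have hw : ContinuousOn (fun z => ((LX hf).eta 0).w i ((((LX hf).A 0).e i).symm z))
      (((LX hf).A 0).e i).target := (((LX hf).eta 0).sm i).continuousOn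
    have hd : ContinuousOn (fun z => (D i ((((LX hf).A 0).e i).symm z)).re)
      (((LX hf).A 0).e i).target :=
      Complex.continuous_re.comp_continuousOn (hD.sm i).continuousOn
    have h3 : ContinuousOn (fun z => (D i ((((LX hf).A 0).e i).symm z)).re /
        ((LX hf).eta 0).w i ((((LX hf).A 0).e i).symm z)) (((LX hf).A 0).e i).target :=
      hd.div hw fun z hz => (w_pos hf ((((LX hf).A 0).e i).map_target hz)).ne'
    have h4 : ContinuousOn (fun y => (D i ((((LX hf).A 0).e i).symm (((LX hf).A 0).e i y))).re /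
        ((LX hf).eta 0).w i ((((LX hf).A 0).e i).symm (((LX hf).A 0).e i y)))
        (((LX hf).A 0).e i).source :=
      h3.comp (((LX hf).A 0).e i).continuousOn fun y hy => (((LX hf).A 0).e i).map_source hy
    have h5 : ContinuousOn (fun y : (LX hf).M 0 => ψ y.1) (((LX hf).A 0).e i).source := by
      refine h4.congr fun y hy => ?_
      simp only
      rw [(((LX hf).A 0).e i).left_inv hy, hψ i y hy, mul_comm,
        mul_div_assoc, div_self (w_pos hf hy).ne', mul_one]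
    exact h5.continuousAt ((((LX hf).A 0).e i).open_source.mem_nhds hi)
  have hoff : ∀ x : (LX hf).M 0, x ∉ K → ψ x.1 = 0 := by
    intro x hx
    obtain ⟨i, hi⟩ := ((LX hf).A 0).cover x
    have h1 := hψ i x hi
    rw [h0 i x hi hx, Complex.zero_re] at h1
    rcases mul_eq_zero.1 h1.symm with h2 | h2
    · exact absurd h2 (w_pos hf hi).ne'
    · exact h2
  have hi := integrable_vol hf hct hK hoff
  refine ⟨integrable_nu hf hν hi, ?_⟩
  have h1 : ((∫ x, ψ x ∂ν : ℝ) : ℂ) =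
      ∫ x : (LX hf).M 0, ((ψ x.1 : ℝ) : ℂ) ∂((LX hf).vol 0) := by
    rw [int_nu hf hν]
    exact integral_ofReal.symm
  have h2 := integral_vm_intD ((LX hf).eta 0) P
    (f := fun x : (LX hf).M 0 => ((ψ x.1 : ℝ) : ℂ)) hi.ofReal hK
    (fun x hx => by rw [hoff x hx, Complex.ofReal_zero])
  have hc := hD.conjD
  have h0c : OffK ((LX hf).A 0) (fun i x => conj (D i x)) K := fun i x hx hxK => by
    show conj (D i x) = 0
    rw [h0 i x hx hxK, map_zero]
  have h3 : intD P (fun i x => (2 : ℂ) * (((((LX hf).eta 0).w i x : ℝ) : ℂ) * ((ψ x.1 : ℝ) : ℂ)))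
      = intD P (fun i x => D i x + conj (D i x)) := by
    refine intD_congr P fun i x hx => ?_
    rw [Complex.add_conj, hψ i x hx]
    push_cast
    ring
  have h4 : intD P (fun i x => (2 : ℂ) * (((((LX hf).eta 0).w i x : ℝ) : ℂ) *
      ((ψ x.1 : ℝ) : ℂ))) = 2 * intD P (fun i x => ((((LX hf).eta 0).w i x : ℝ) : ℂ) *
      ((ψ x.1 : ℝ) : ℂ)) := by
    refine intD_smul P 2 hK fun i x hx hxK => ?_
    show (((((LX hf).eta 0).w i x : ℝ) : ℂ) * ((ψ x.1 : ℝ) : ℂ)) = 0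
    rw [hoff x hxK]
    simp
  rw [intD_add P hD.sm hc.sm hK h0 h0c, intD_conj P hK h0, Complex.add_conj, h4] at h3
  have h5 : ((∫ x, ψ x ∂ν : ℝ) : ℂ) = intD P (fun i x => ((((LX hf).eta 0).w i x : ℝ) : ℂ) *
      ((ψ x.1 : ℝ) : ℂ)) := h1.trans h2
  rw [← h5] at h3
  have h6 : (2 : ℝ) * ∫ x, ψ x ∂ν = 2 * (intD P D).re := by exact_mod_cast h3
  linarith

/-! ### `tr F²` -/

variable {H : Form}

include hf in
theorem hess_U {U : E3 → ℝ} (hH : Mt f r H) (hU : Vl f r H U) {θ : Cn 2 → E3} {O : Set (Cn 2)}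
    (hP : PE f 0 r θ O) {z : Cn 2} (hz : z ∈ O) :
    Matrix.of (ric (H θ) z) = hess (fun y => U (θ y)) z := by
  have hO := hP.par.isOpen
  have hs : SmM z (H θ) := fun a b => (hH.sm θ O hP a b).contDiffAt (hO.mem_nhds hz)
  have hh : ∀ᶠ y in 𝓝 z, (H θ y).IsHermitian := by
    filter_upwards [hO.mem_nhds hz] with y hy using (hH.pos θ O hP y hy).isHermitian
  obtain ⟨q, hq, hq0, hqe⟩ := eta2a_norm (n := 2) hP.par hz (hf.an _ (hP.lt z hz))
    (hf.sm _ (hP.ne z hz) (hP.lt z hz) (hP.par.lvl z hz))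
  have hqd : ∀ᶠ w in 𝓝 z, DifferentiableAt ℂ q w :=
    hq.eventually_analyticAt.mono fun w hw => hw.differentiableAt
  have e1 : (fun y => - Real.log ((H θ y).det.re)) =ᶠ[𝓝 z]
      fun y => U (θ y) + Real.log (‖q y‖ ^ 2) := by
    filter_upwards [hO.mem_nhds hz, hqe, hq.continuousAt.eventually_ne hq0] with y hy hy' hy0
    have h1 : eta2a (n := 2) f θ y = ‖q y‖ ^ 2 := hy'
    have h2 := hU.eq θ O hP y hy
    have h3 := det_re_pos'' (hH.pos θ O hP y hy)
    have h4 : (0 : ℝ) < ‖q y‖ ^ 2 := by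
      have := norm_pos_iff.2 hy0
      positivity
    rw [h1] at h2
    have h5 := congrArg Real.log h2
    rw [Real.log_mul h3.ne' h4.ne', Real.log_exp] at h5
    linarith
  have hUz : ContDiffAt ℝ ∞ (fun y => U (θ y)) z := (hU.sm θ O hP).contDiffAt (hO.mem_nhds hz)
  ext a b
  rw [Matrix.of_apply, ← hess_neg_log_det hs hh (det_re_pos'' (hH.pos θ O hP z hz)) a b,
    hess_congr e1, hess_add (u := fun y => U (θ y)) (v := fun y => Real.log (‖q y‖ ^ 2)) hUz
      (KEl_835.c2_log hq hq0 ∞), hess_log_norm hqd hq0, add_zero]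

theorem q2_re {U : E3 → ℝ} (hH : Mt f r H) (hU : Vl f r H U) {i : ((LX hf).A 0).ι}
    {x : (LX hf).M 0} (hx : x ∈ (((LX hf).A 0).e i).source) :
    (q2D (hbE hf hH) i x).re =
      ((LX hf).eta 0).w i x * (mxd f U U x.1 / 2 - c2h f H x.1) := by
  have hz := (((LX hf).A 0).e i).map_source hx
  have hP := pe_chart hf i
  set z := ((LX hf).A 0).e i x with hzd
  have hd : (H (thc hf i) z).det ≠ 0 := (hH.pos _ _ hP z hz).det_pos.ne'
  have e0 : q2D (hbE hf hH) i x = q2 (H (thc hf i)) z := q2_congr (rdM_ev hf hH hx)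
  have e1 := q2_eq hd
  rw [hess_U hf hH hU hP hz] at e1
  have e2 : pd (hess (fun y => U (thc hf i y)) z) (hess (fun y => U (thc hf i y)) z) =
      ((((LX hf).eta 0).w i x * mxd f U U x.1 : ℝ) : ℂ) := dens_chart hf hU.sm hU.sm hx
  have e3 : (c2 (H (thc hf i)) z).re = c2h f H x.1 * ((LX hf).eta 0).w i x := by
    have := Bun.c2x_eq (Mt.bun hH (h := fun _ => 0) fun _ _ => analyticAt_const) hf hP hz
    rw [thc_eq hf hx, ← w_eta hf hx] at this
    exact this.symm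
  rw [e2] at e1
  have e4 : (q2 (H (thc hf i)) z).re = (((LX hf).eta 0).w i x * mxd f U U x.1) / 2 -
      (c2 (H (thc hf i)) z).re := by
    have h := congrArg Complex.re e1
    rw [Complex.sub_re] at h
    have h6 : ((((((LX hf).eta 0).w i x * mxd f U U x.1 : ℝ) : ℂ)) / 2).re =
      (((LX hf).eta 0).w i x * mxd f U U x.1) / 2 := by
      rw [show (2 : ℂ) = ((2 : ℝ) : ℂ) by norm_num, ← Complex.ofReal_div, Complex.ofReal_re]
    rw [h6] at h
    linarith
  rw [e0, e4, e3]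
  ring

/-! ### the signed Bott-Chern inequality on a level -/

theorem qK_psd {a u : E3 → ℝ} {θ : Cn 2 → E3} {z : Cn 2} {q : ℝ}
    (hsa : ContDiffAt ℝ ∞ (fun y => a (θ y)) z) (hsu : ContDiffAt ℝ ∞ (fun y => u (θ y)) z)
    (hl : ∀ v, 0 ≤ lev (fun y => a (θ y)) z v ∧
      lev (fun y => a (θ y)) z v ≤ q * lev (fun y => u (θ y)) z v) :
    ((q : ℂ) • cH (fun y => u (θ y)) z - cH (fun y => a (θ y)) z).PosSemidef := by
  have h6 := (GBLcut_844.psd_of_lev (c := q) hsa hsu fun v => by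
    obtain ⟨h7, h8⟩ := hl v
    rw [Crest.Agent.R273.YauDefs_635.lev333_eq_lev145] at h7
    rw [Crest.Agent.R273.YauDefs_635.lev333_eq_lev145,
      Crest.Agent.R273.YauDefs_635.lev333_eq_lev145] at h8
    rw [abs_of_nonneg (by linarith)]
    linarith).1
  rwa [← cH_eq_hess hsa, ← cH_eq_hess hsu] at h6

theorem bD_eq {lg : Matrix (Fin 2) (Fin 2) ℂ → Matrix (Fin 2) (Fin 2) ℂ} (hlg : Lgm lg)
    {G H : Form} (hG : Mt f r G) (hH : Mt f r H) {i : ((LX hf).A 0).ι} {x : (LX hf).M 0}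
    (hx : x ∈ (((LX hf).A 0).e i).source) :
    bD (lfE hf hlg hG hH) i x = bf (G (thc hf i))
      (fun z => lg ((G (thc hf i) z)⁻¹ * H (thc hf i) z)) (((LX hf).A 0).e i x) := by
  have hz := (((LX hf).A 0).e i).map_source hx
  have e1 : rm (rdM ((LX hf).A 0) i ((hbE hf hG).H i)) (((LX hf).A 0).e i x) =
      rm (G (thc hf i)) (((LX hf).A 0).e i x) := by
    funext c d
    exact rm_congr (rdM_ev hf hG hx) c d
  have e2 : rdM ((LX hf).A 0) i ((lfE hf hlg hG hH).L i) (((LX hf).A 0).e i x) =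
      lg ((G (thc hf i) (((LX hf).A 0).e i x))⁻¹ * H (thc hf i) (((LX hf).A 0).e i x)) := by
    rw [rdM_at hx]
    rfl
  unfold bD bf Th
  rw [e1, e2, (rdM_ev hf hG hx).self_of_nhds]

theorem bf_zero {G L : Cn 2 → Matrix (Fin 2) (Fin 2) ℂ} {z : Cn 2} (h : L z = 0) :
    bf G L z = 0 := by
  ext c d
  show (L z * Th G c d z).trace = 0
  rw [h, Matrix.zero_mul, Matrix.trace_zero]

/-- **`UpperStmt`** -/
theorem upperStmt_of (lgs : LgStmt) (pt : PtwStmt) : UpperStmt := by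
  obtain ⟨lg, hlg⟩ := lgs
  obtain ⟨C₀, hC₀, pt⟩ := pt
  refine ⟨2 * C₀, by positivity, ?_⟩
  intro f r u H U ν a q V L hu hH hU hν ha hq hV hint hcase
  have hG : Mt f r (HK u) := mt_HK L hu
  have hGv : Vl f r (HK u) u := vl_HK L hu
  obtain ⟨r₁, r₂, h1, h2, h3, h4⟩ := ha.supp
  have P : Part ((LX L).A 0) := (LX L).part 0
  set K : Set ((LX L).M 0) := {x | r₁ ^ 2 ≤ nsq x.1 ∧ nsq x.1 ≤ r₂ ^ 2} with hKd
  have hK : IsCompact K := ann_compact L h1 h2.le h3
  set χ : (LX L).M 0 → ℝ := fun x => a x.1 with hχd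
  have hχ : ((LX L).A 0).Sm χ := sm_val L ha.sm
  have h0 : ∀ x, x ∉ K → χ x = 0 := fun x hx => by
    refine h4 x.1 (mem_M L x) ?_
    by_contra hcon
    push Not at hcon
    exact hx ⟨hcon.1.le, hcon.2.le⟩
  have hoffW : ∀ i, ∀ x ∈ (((LX L).A 0).e i).source, x ∉ {x | ¬ EqN f r u H x.1} →
      (lfE L hlg hG hH).L i x = 0 := by
    intro i x hx hxW
    have hE : EqN f r u H x.1 := not_not.1 hxW
    have hz := (((LX L).A 0).e i).map_source hx
    have e1 : H (thc L i) (((LX L).A 0).e i x) = HK u (thc L i) (((LX L).A 0).e i x) :=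
      hE.self_of_nhds _ _ (pe_chart L i) _ hz (thc_eq L hx)
    have hd : (HK u (thc L i) (((LX L).A 0).e i x)).det ≠ 0 :=
      (hG.pos _ _ (pe_chart L i) _ hz).det_pos.ne'
    show lg ((HK u (thc L i) (((LX L).A 0).e i x))⁻¹ * H (thc L i) (((LX L).A 0).e i x)) = 0
    rw [e1, Matrix.nonsing_inv_mul _ (isUnit_iff_ne_zero.2 hd), hlg.one]
  have hWc : IsClosed {x : (LX L).M 0 | ¬ EqN f r u H x.1} := by
    have ho : IsOpen {x : E3 | EqN f r u H x} := isOpen_setOfPred_eventually_nhds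
    exact (ho.preimage continuous_subtype_val).isClosed_compl
  have hW2 : ∀ i, ∀ x ∈ (((LX L).A 0).e i).source, x ∈ {x : (LX L).M 0 | ¬ EqN f r u H x.1} →
      (∀ v, 0 ≤ lev (fun y => a (thc L i y)) (((LX L).A 0).e i x) v ∧
      lev (fun y => a (thc L i y)) (((LX L).A 0).e i x) v ≤
        q x.1 * lev (fun y => u (thc L i y)) (((LX L).A 0).e i x) v) ∧
        Cpr u H V (thc L i) (((LX L).A 0).e i x) := by
    intro i x hx hxW
    rcases hcase x.1 (mem_M L x) with h | h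
    · exact absurd h hxW
    · exact h _ _ (pe_chart L i) _ ((((LX L).A 0).e i).map_source hx) (thc_eq L hx)
  have hXe : ∀ i, ∀ x ∈ (((LX L).A 0).e i).source, hsf ((LX L).A 0) χ i x =
      cH (fun y => a (thc L i y)) (((LX L).A 0).e i x) := fun i x hx =>
    (cH_eq_hess (smAt ha.sm (pe_chart L i) ((((LX L).A 0).e i).map_source hx))).symm
  have hpsd : ∀ i, ∀ x ∈ (((LX L).A 0).e i).source, x ∈ {x : (LX L).M 0 | ¬ EqN f r u H x.1} →
      (hsf ((LX L).A 0) χ i x).PosSemidef := by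
    intro i x hx hxW
    rw [hXe i x hx]
    exact LossA_625.psd_cH (smAt ha.sm (pe_chart L i) ((((LX L).A 0).e i).map_source hx))
      fun v => ((hW2 i x hx hxW).1 v).1
  have hup := BCU9_532.upper P (lfE L hlg hG hH) hχ hK h0 hWc hoffW hpsd
  -- the three integrals
  have off : ∀ f : ((LX L).A 0).ι → (LX L).M 0 → ℂ,
      OffK ((LX L).A 0) (fun i x => (χ x : ℂ) * f i x) K := fun f i x _ hx => by
    show (χ x : ℂ) * _ = 0
    rw [h0 x hx]; simp
  have eH : intD P (fun i x => (χ x : ℂ) * q2D (gE (lfE L hlg hG hH) 1) i x) =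
      intD P (fun i x => (χ x : ℂ) * q2D (hbE L hH) i x) :=
    intD_congr P fun i x hx => by rw [q2D_gE L hlg hG hH hx]
  have key : ∀ {H' : Form} (hH' : Mt f r H') {U' : E3 → ℝ}, Vl f r H' U' →
      Integrable (fun x => a x * (mxd f U' U' x / 2 - c2h f H' x)) ν ∧
      ∫ x, a x * (mxd f U' U' x / 2 - c2h f H' x) ∂ν =
        (intD P (fun i x => (χ x : ℂ) * q2D (hbE L hH') i x)).re := by
    intro H' hH' U' hU'
    refine re_bridge L hν P (Crest.Agent.R257.MassLe218.den_mul hχ (q2_den _)) hK (off _)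
      fun i x hx => ?_
    rw [Complex.re_ofReal_mul, q2_re L hH' hU' hx]
    ring
  obtain ⟨iH, kH⟩ := key hH hU
  obtain ⟨iG, kG⟩ := key hG hGv
  have d3 : Den ((LX L).A 0) (fun i x => pd (hsf ((LX L).A 0) χ i x)
      (bD (lfE L hlg hG hH) i x)) :=
    GBL4_625.den_hsf hχ hK.isClosed (subset_univ K) h0 (bD_sm _ univ) (bD_tn _ univ)
  have o3 : OffK ((LX L).A 0) (fun i x => pd (hsf ((LX L).A 0) χ i x)
      (bD (lfE L hlg hG hH) i x)) K :=
    GBL4_625.off_hsf hK.isClosed h0 _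
  obtain ⟨ψ, hψ⟩ := exists_fun L d3.tr
  obtain ⟨iψ, kψ⟩ := re_bridge L hν P d3 hK o3 hψ
  -- pointwise bound
  have hbd : ∀ y ∈ Lv f r, - ψ y ≤
      C₀ * (q y * V y * Real.sqrt (c2d f u y * Real.exp (u y))) := by
    intro y hy
    obtain ⟨i, hi⟩ := ((LX L).A 0).cover (mkM L hy.1 hy.2.1 hy.2.2)
    have hz := (((LX L).A 0).e i).map_source hi
    have hw := w_pos L hi
    have hxy : thc L i (((LX L).A 0).e i (mkM L hy.1 hy.2.1 hy.2.2)) = y := thc_eq L hi
    have hnn : 0 ≤ C₀ * (q y * V y * Real.sqrt (c2d f u y * Real.exp (u y))) :=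
      mul_nonneg hC₀ (mul_nonneg (mul_nonneg (hq y) (hV y)) (Real.sqrt_nonneg _))
    have h5 : ‖pd (hsf ((LX L).A 0) χ i (mkM L hy.1 hy.2.1 hy.2.2))
        (bD (lfE L hlg hG hH) i (mkM L hy.1 hy.2.1 hy.2.2))‖ ≤
        C₀ * (q y * V y * Real.sqrt (c2d f u y * Real.exp (u y))) *
          ((LX L).eta 0).w i (mkM L hy.1 hy.2.1 hy.2.2) := by
      rw [hXe i _ hi, bD_eq L hlg hG hH hi, w_eta L hi]
      by_cases hxW : EqN f r u H y
      · have hL0 := hoffW i _ hi (not_not.2 hxW)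
        have h6 : bf (HK u (thc L i)) (fun z => lg ((HK u (thc L i) z)⁻¹ * H (thc L i) z))
            (((LX L).A 0).e i (mkM L hy.1 hy.2.1 hy.2.2)) = 0 := bf_zero hL0
        rw [h6]
        have h8 : ∀ X : Matrix (Fin 2) (Fin 2) ℂ, pd X 0 = 0 := fun X => by simp [pd]
        rw [h8, norm_zero]
        refine mul_nonneg hnn ?_
        rw [← w_eta L hi]
        exact hw.le
      · obtain ⟨hl, hc⟩ := hW2 i _ hi hxW
        have hsa := smAt ha.sm (pe_chart L i) hz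
        have hsu : ContDiffAt ℝ ∞ (fun y => u (thc L i y)) _ := smAt hu.sm (pe_chart L i) hz
        unfold Cpr at hc
        rw [hxy] at hc
        obtain ⟨b1, b2⟩ := hlg.bd _ _ (V y) (hG.pos _ _ (pe_chart L i) _ hz)
          (hH.pos _ _ (pe_chart L i) _ hz) hc.1 hc.2
        have h6 := pt f r u L hu _ _ (pe_chart L i) _ hz
          (fun z => lg ((HK u (thc L i) z)⁻¹ * H (thc L i) z)) _ (q y) (V y) (hq y) (hV y)
          (LossA_625.psd_cH hsa fun v => (hl v).1) (qK_psd hsa hsu hl) b1 b2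
        rw [hxy] at h6
        exact h6
    have h6 := hψ i _ hi
    have h7 := (abs_le.1 (Complex.abs_re_le_norm (pd (hsf ((LX L).A 0) χ i
      (mkM L hy.1 hy.2.1 hy.2.2)) (bD (lfE L hlg hG hH) i (mkM L hy.1 hy.2.1 hy.2.2))))).1
    have h8 : -(((LX L).eta 0).w i (mkM L hy.1 hy.2.1 hy.2.2) * ψ y) ≤
        C₀ * (q y * V y * Real.sqrt (c2d f u y * Real.exp (u y))) *
          ((LX L).eta 0).w i (mkM L hy.1 hy.2.1 hy.2.2) := by
      have h9 : (pd (hsf ((LX L).A 0) χ i (mkM L hy.1 hy.2.1 hy.2.2))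
        (bD (lfE L hlg hG hH) i (mkM L hy.1 hy.2.1 hy.2.2))).re =
        ((LX L).eta 0).w i (mkM L hy.1 hy.2.1 hy.2.2) * ψ y := h6
      rw [← h9]
      linarith
    have h9 : ((LX L).eta 0).w i (mkM L hy.1 hy.2.1 hy.2.2) * (- ψ y) ≤
        ((LX L).eta 0).w i (mkM L hy.1 hy.2.1 hy.2.2) *
        (C₀ * (q y * V y * Real.sqrt (c2d f u y * Real.exp (u y)))) := by linarith
    exact le_of_mul_le_mul_left h9 hw
  have hlast : - ∫ x, ψ x ∂ν ≤
      C₀ * ∫ x, q x * V x * Real.sqrt (c2d f u x * Real.exp (u x)) ∂ν := by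
    rw [← integral_neg, ← integral_const_mul]
    refine integral_mono_ae iψ.neg (hint.const_mul C₀) ?_
    filter_upwards [ae_lv hν] with x hx
    exact hbd x hx
  rw [eH, ← kH, ← kG, ← kψ] at hup
  have e1 : ∫ x, a x * (2 * c2h f H x - mxd f U U x) ∂ν =
      -2 * ∫ x, a x * (mxd f U U x / 2 - c2h f H x) ∂ν := by
    rw [← integral_const_mul]
    exact integral_congr_ae (Eventually.of_forall fun x => by ring)
  have e2 : ∫ x, a x * (2 * c2d f u x - mxd f u u x) ∂ν =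
      -2 * ∫ x, a x * (mxd f u u x / 2 - c2h f (HK u) x) ∂ν := by
    rw [← integral_const_mul]
    refine integral_congr_ae ?_
    filter_upwards [ae_lv hν] with x hx
    have : c2h f (HK u) x = c2d f u x := (mtOStmt f r u L hu).2.2 x hx
    rw [this]
    ring
  rw [e1, e2]
  linarith

end

end Crest.Agent.R257.BrI_822
end

-- ▼ part R257/BCUA_532
section

/-!
# R257 (S0395), part (GB), leaf GB-UPP (helper532): logarithm of `G⁻¹ K`

* `lg`       : explicit formula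
* `lg_diag`, `lg_conj`
* `lgStmt`   : `LgStmt` of BCUP_532, except for smoothness (BCUB_532)
-/

set_option autoImplicit false
set_option linter.unusedSectionVars false

open Finset Matrix Complex Filter Topology
open scoped ContDiff ComplexConjugate ComplexOrder

namespace Crest.Agent.R257.BCUA_532

open Crest.Agent.R275.Geo Crest.Agent.R275.EDR890
open Crest.Agent.R273.Fock_243 Crest.Agent.R273.Calc_243
open Crest.Agent.R273.Bkn_243 Crest.Agent.R273.Pos_243 Crest.Agent.R273.BochA_101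
open Crest.Agent.R273.BochB_101
open Crest.Agent.R273.BochC_101 Crest.Agent.R273.BochD_101
open Crest.Agent.R273.Hess_333 Crest.Agent.R273.HessB_333
open Crest.Agent.R257.C2F1_625 Crest.Agent.R257.BCU1_532 Crest.Agent.R257.BCU2_532
open Crest.Agent.R273.FIlin_332 (simd)

noncomputable section

/-- `arcosh c / √(c² - 1)` -/
def ta (c : ℝ) : ℝ :=
  if 1 < c then Real.log (c + Real.sqrt (c ^ 2 - 1)) / Real.sqrt (c ^ 2 - 1) else 1

theorem ta_cosh (t : ℝ) : ta (Real.cosh t) * (Real.exp t - Real.cosh t) = t := by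
  have h1 : Real.exp t - Real.cosh t = Real.sinh t := by
    rw [← Real.cosh_add_sinh]; ring
  rw [h1]
  by_cases h0 : t = 0
  · rw [h0]; simp
  have h2 : 1 < Real.cosh t := Real.one_lt_cosh.2 h0
  have h3 : Real.sqrt (Real.cosh t ^ 2 - 1) = |Real.sinh t| := by
    rw [Real.cosh_sq t, add_sub_cancel_right, Real.sqrt_sq_eq_abs]
  have h5 : Real.sinh t ≠ 0 := fun h => h0 (Real.sinh_eq_zero.1 h)
  rw [ta, if_pos h2, h3]
  rcases lt_or_gt_of_ne h0 with h | h
  · have h4 : Real.sinh t < 0 := Real.sinh_neg_iff.2 h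
    rw [abs_of_neg h4]
    have h6 : Real.cosh t + -Real.sinh t = Real.exp (-t) := by
      rw [← Real.cosh_add_sinh, Real.cosh_neg, Real.sinh_neg]
    rw [h6, Real.log_exp]
    field_simp
  · have h4 : 0 < Real.sinh t := Real.sinh_pos_iff.2 h
    rw [abs_of_pos h4, Real.cosh_add_sinh, Real.log_exp]
    field_simp

theorem ta_le (c : ℝ) : |ta c| ≤ 1 := by
  unfold ta
  split_ifs with h
  · set s := Real.sqrt (c ^ 2 - 1) with hs
    have h0 : 0 < c ^ 2 - 1 := by nlinarith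
    have hs0 : 0 < s := Real.sqrt_pos.2 h0
    have hs2 : s ^ 2 = c ^ 2 - 1 := Real.sq_sqrt h0.le
    have hcs : 0 < c + s := by linarith
    set t := Real.log (c + s) with ht
    have ht0 : 0 ≤ t := Real.log_nonneg (by linarith)
    have e1 : Real.exp t = c + s := Real.exp_log hcs
    have e2 : Real.exp (-t) = c - s := by
      rw [Real.exp_neg, e1]
      refine inv_eq_of_mul_eq_one_right ?_
      nlinarith
    have e3 : Real.sinh t = s := by
      rw [Real.sinh_eq, e1, e2]; ring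
    have e4 : t ≤ s := by rw [← e3]; exact Real.self_le_sinh_iff.2 ht0
    rw [abs_of_nonneg (div_nonneg ht0 hs0.le)]
    exact (div_le_one hs0).2 e4
  · simp

/-! ### the logarithm -/

/-- real part of the determinant -/
def dr (X : Matrix (Fin 2) (Fin 2) ℂ) : ℝ := X.det.re

/-- half of the normalized trace -/
def cr (X : Matrix (Fin 2) (Fin 2) ℂ) : ℝ := X.trace.re / (2 * Real.sqrt (dr X))

/-- the logarithm -/
def lg (X : Matrix (Fin 2) (Fin 2) ℂ) : Matrix (Fin 2) (Fin 2) ℂ :=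
  ((Real.log (dr X) / 2 : ℝ) : ℂ) • (1 : Matrix (Fin 2) (Fin 2) ℂ) +
    ((ta (cr X) : ℝ) : ℂ) • ((((Real.sqrt (dr X))⁻¹ : ℝ) : ℂ) • X -
      ((cr X : ℝ) : ℂ) • (1 : Matrix (Fin 2) (Fin 2) ℂ))

theorem lg_conj {F X Y : Matrix (Fin 2) (Fin 2) ℂ} (hF : F.det ≠ 0) (h : F * X = Y * F) :
    F * lg X = lg Y * F := by
  have hd : X.det = Y.det := by
    have h1 := congrArg Matrix.det h
    rw [Matrix.det_mul, Matrix.det_mul, mul_comm Y.det] at h1
    exact mul_left_cancel₀ hF h1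
  have i1 : F⁻¹ * F = 1 := Matrix.nonsing_inv_mul _ (isUnit_iff_ne_zero.2 hF)
  have i2 : F * F⁻¹ = 1 := Matrix.mul_nonsing_inv _ (isUnit_iff_ne_zero.2 hF)
  have ht : X.trace = Y.trace := by
    have h1 : Y = F * X * F⁻¹ := by rw [h, Matrix.mul_assoc, i2, Matrix.mul_one]
    rw [h1, Matrix.mul_assoc, Matrix.trace_mul_comm, Matrix.mul_assoc, i1, Matrix.mul_one]
  have e1 : dr X = dr Y := by rw [dr, dr, hd]
  have e2 : cr X = cr Y := by rw [cr, cr, e1, ht]
  unfold lg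
  rw [e1, e2, Matrix.mul_add, Matrix.add_mul, Matrix.mul_smul, Matrix.smul_mul, Matrix.mul_one,
    Matrix.one_mul, Matrix.mul_smul, Matrix.smul_mul, Matrix.mul_sub, Matrix.sub_mul,
    Matrix.mul_smul, Matrix.smul_mul, Matrix.mul_smul, Matrix.smul_mul, Matrix.mul_one,
    Matrix.one_mul, h]

/-- real diagonal matrices -/
def dg (d : Fin 2 → ℝ) : Matrix (Fin 2) (Fin 2) ℂ := Matrix.diagonal fun i => (d i : ℂ)

theorem dr_dg (d : Fin 2 → ℝ) : dr (dg d) = d 0 * d 1 := by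
  rw [dr, dg, Matrix.det_diagonal, Fin.prod_univ_two, ← Complex.ofReal_mul, Complex.ofReal_re]

theorem cr_dg {d : Fin 2 → ℝ} (h : ∀ i, 0 < d i) :
    cr (dg d) = Real.cosh ((Real.log (d 0) - Real.log (d 1)) / 2) := by
  have h0 := h 0
  have h1 := h 1
  have e1 : Real.sqrt (d 0 * d 1) = Real.exp ((Real.log (d 0) + Real.log (d 1)) / 2) := by
    rw [Real.sqrt_eq_iff_mul_self_eq (by positivity) (Real.exp_pos _).le, ← Real.exp_add,
      add_halves, Real.exp_add, Real.exp_log h0, Real.exp_log h1]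
  have e2 : (dg d).trace.re = d 0 + d 1 := by
    rw [dg, Matrix.trace_diagonal, Fin.sum_univ_two, ← Complex.ofReal_add, Complex.ofReal_re]
  have e3 : d 0 = Real.exp ((Real.log (d 0) + Real.log (d 1)) / 2) *
      Real.exp ((Real.log (d 0) - Real.log (d 1)) / 2) := by
    rw [← Real.exp_add]
    have : (Real.log (d 0) + Real.log (d 1)) / 2 + (Real.log (d 0) - Real.log (d 1)) / 2
      = Real.log (d 0) := by ring
    rw [this, Real.exp_log h0]
  have e4 : d 1 = Real.exp ((Real.log (d 0) + Real.log (d 1)) / 2) *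
      Real.exp (-((Real.log (d 0) - Real.log (d 1)) / 2)) := by
    rw [← Real.exp_add]
    have : (Real.log (d 0) + Real.log (d 1)) / 2 + -((Real.log (d 0) - Real.log (d 1)) / 2)
      = Real.log (d 1) := by ring
    rw [this, Real.exp_log h1]
  rw [cr, dr_dg, e1, e2, Real.cosh_eq, div_eq_div_iff (by positivity) two_ne_zero]
  nlinarith [e3, e4]

theorem lg_dg {d : Fin 2 → ℝ} (h : ∀ i, 0 < d i) : lg (dg d) = dg fun i => Real.log (d i) := by
  have h0 := h 0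
  have h1 := h 1
  set t := (Real.log (d 0) - Real.log (d 1)) / 2 with ht
  have e1 : Real.sqrt (d 0 * d 1) = Real.exp ((Real.log (d 0) + Real.log (d 1)) / 2) := by
    rw [Real.sqrt_eq_iff_mul_self_eq (by positivity) (Real.exp_pos _).le, ← Real.exp_add,
      add_halves, Real.exp_add, Real.exp_log h0, Real.exp_log h1]
  have e3 : (Real.sqrt (d 0 * d 1))⁻¹ * d 0 = Real.exp t := by
    rw [e1, ← Real.exp_neg]
    conv_lhs => rw [← Real.exp_log h0]
    rw [← Real.exp_add]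
    congr 1
    rw [ht]; ring_nf
    rw [Real.log_exp]; ring
  have e4 : (Real.sqrt (d 0 * d 1))⁻¹ * d 1 = Real.exp (-t) := by
    rw [e1, ← Real.exp_neg]
    conv_lhs => rw [← Real.exp_log h1]
    rw [← Real.exp_add]
    congr 1
    rw [ht]; ring_nf
    rw [Real.log_exp]; ring
  have a1 := ta_cosh t
  have a2 := ta_cosh (-t)
  rw [Real.cosh_neg] at a2
  have l1 : Real.log (d 0 * d 1) = Real.log (d 0) + Real.log (d 1) :=
    Real.log_mul h0.ne' h1.ne'
  unfold lg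
  rw [cr_dg h, dr_dg, ← ht]
  ext i j
  simp only [Matrix.add_apply, Matrix.smul_apply, Matrix.sub_apply, smul_eq_mul]
  by_cases hij : i = j
  · subst hij
    fin_cases i
    · simp only [dg, Fin.zero_eta, Fin.isValue, Matrix.one_apply_eq, Matrix.diagonal_apply_eq,
        mul_one]
      rw [← Complex.ofReal_mul, ← Complex.ofReal_sub, ← Complex.ofReal_mul, ← Complex.ofReal_add,
        e3, a1, l1, ht]
      congr 1
      ring
    · simp only [dg, Fin.mk_one, Fin.isValue, Matrix.one_apply_eq, Matrix.diagonal_apply_eq,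
        mul_one]
      rw [← Complex.ofReal_mul, ← Complex.ofReal_sub, ← Complex.ofReal_mul, ← Complex.ofReal_add,
        e4, a2, l1, ht]
      congr 1
      ring
  · simp [dg, Matrix.one_apply_ne hij, Matrix.diagonal_apply_ne _ hij]

theorem lg_one : lg 1 = 0 := by
  have e : (1 : Matrix (Fin 2) (Fin 2) ℂ) = dg fun _ => 1 := by
    rw [dg, ← Matrix.diagonal_one]; simp
  rw [e, lg_dg fun _ => one_pos]
  simp [dg]

/-- multiples -/
theorem lg_smul {X : Matrix (Fin 2) (Fin 2) ℂ} {l : ℝ} (hl : 0 < l) (hX : 0 < dr X) :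
    lg ((l : ℂ) • X) = lg X + ((Real.log l : ℝ) : ℂ) • (1 : Matrix (Fin 2) (Fin 2) ℂ) := by
  have e1 : dr ((l : ℂ) • X) = l ^ 2 * dr X := by
    rw [dr, Matrix.det_smul, Fintype.card_fin, ← Complex.ofReal_pow, Complex.re_ofReal_mul, dr]
  have e2 : Real.sqrt (l ^ 2 * dr X) = l * Real.sqrt (dr X) := by
    rw [Real.sqrt_mul (sq_nonneg l), Real.sqrt_sq hl.le]
  have hs : 0 < Real.sqrt (dr X) := Real.sqrt_pos.2 hX
  have e3 : cr ((l : ℂ) • X) = cr X := by
    rw [cr, cr, e1, e2, Matrix.trace_smul, smul_eq_mul, Complex.re_ofReal_mul]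
    field_simp
  have e4 : Real.log (l ^ 2 * dr X) / 2 = Real.log (dr X) / 2 + Real.log l := by
    rw [Real.log_mul (by positivity) hX.ne', Real.log_pow]
    push_cast
    ring
  have e5 : (((l * Real.sqrt (dr X))⁻¹ : ℝ) : ℂ) • ((l : ℂ) • X) =
      (((Real.sqrt (dr X))⁻¹ : ℝ) : ℂ) • X := by
    rw [smul_smul, ← Complex.ofReal_mul]
    congr 2
    field_simp
  unfold lg
  rw [e3, e1, e2, e4, e5]
  push_cast
  rw [add_smul]
  abel

/-! ### pairs of metrics -/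

/-- simultaneous diagonalisation -/
theorem pair {G K : Matrix (Fin 2) (Fin 2) ℂ} (hG : G.PosDef) (hK : K.PosDef) :
    ∃ (B : Matrix (Fin 2) (Fin 2) ℂ) (d : Fin 2 → ℝ), B.det ≠ 0 ∧ (∀ i, 0 < d i) ∧
      G = Bᴴ * B ∧ K = Bᴴ * dg d * B ∧ B * (G⁻¹ * K) = dg d * B := by
  obtain ⟨B, d, hB, hd, h1, h2⟩ := simd hG hK.posSemidef
  have hB0 : B.det ≠ 0 := hB.ne_zero
  have hBH : (Bᴴ).det ≠ 0 := by
    rw [Matrix.det_conjTranspose]; exact star_ne_zero.2 hB0
  have hBu : IsUnit (Bᴴ).det := isUnit_iff_ne_zero.2 hBH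
  have hdp : ∀ i, d i ≠ 0 := by
    intro i h0
    have h3 : (Matrix.diagonal fun i => (d i : ℂ)).det = 0 := by
      rw [Matrix.det_diagonal]
      exact Finset.prod_eq_zero (Finset.mem_univ i) (by rw [h0]; simp)
    have h4 := hK.det_pos
    rw [h2, Matrix.det_mul, Matrix.det_mul, h3] at h4
    simp at h4
  refine ⟨B, d, hB0, fun i => lt_of_le_of_ne (hd i) (hdp i).symm, h1, h2, ?_⟩
  have e1 : G⁻¹ = B⁻¹ * (Bᴴ)⁻¹ := by rw [h1, Matrix.mul_inv_rev]
  rw [e1, h2]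
  calc B * (B⁻¹ * (Bᴴ)⁻¹ * (Bᴴ * (Matrix.diagonal fun i => (d i : ℂ)) * B))
      = (B * B⁻¹) * ((Bᴴ)⁻¹ * Bᴴ) * ((Matrix.diagonal fun i => (d i : ℂ)) * B) := by
        simp only [Matrix.mul_assoc]
    _ = _ := by
        rw [Matrix.mul_nonsing_inv _ hB, Matrix.nonsing_inv_mul _ hBu, Matrix.one_mul,
          Matrix.one_mul]
        rfl

/-- the logarithm in a diagonalising frame -/
theorem pair_lg {G K B : Matrix (Fin 2) (Fin 2) ℂ} {d : Fin 2 → ℝ} (hB : B.det ≠ 0)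
    (hd : ∀ i, 0 < d i) (h : B * (G⁻¹ * K) = dg d * B) :
    B * lg (G⁻¹ * K) = dg (fun i => Real.log (d i)) * B := by
  rw [lg_conj hB h, lg_dg hd]

theorem dg_herm (d : Fin 2 → ℝ) : (dg d).IsHermitian := by
  rw [dg, Matrix.IsHermitian, Matrix.diagonal_conjTranspose]
  congr 1
  funext i
  simp

theorem lg_sa {G K : Matrix (Fin 2) (Fin 2) ℂ} (hG : G.PosDef) (hK : K.PosDef) :
    (G * lg (G⁻¹ * K)).IsHermitian := by
  obtain ⟨B, d, hB, hd, h1, h2, h3⟩ := pair hG hK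
  have e : G * lg (G⁻¹ * K) = Bᴴ * dg (fun i => Real.log (d i)) * B := by
    conv_lhs => rw [h1, Matrix.mul_assoc, ← h1, pair_lg hB hd h3]
    rw [Matrix.mul_assoc]
  rw [e, Matrix.IsHermitian, Matrix.conjTranspose_mul, Matrix.conjTranspose_mul,
    Matrix.conjTranspose_conjTranspose, (dg_herm _).eq, Matrix.mul_assoc]

theorem exp_dg (d : Fin 2 → ℝ) : NormedSpace.exp (dg d) = dg fun i => Real.exp (d i) := by
  unfold dg
  rw [Matrix.exp_diagonal]
  congr 1
  funext i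
  rw [Pi.coe_exp, ← Complex.exp_eq_exp_ℂ, Complex.ofReal_exp]

theorem lg_exp {G K : Matrix (Fin 2) (Fin 2) ℂ} (hG : G.PosDef) (hK : K.PosDef) :
    NormedSpace.exp (lg (G⁻¹ * K)) = G⁻¹ * K := by
  obtain ⟨B, d, hB, hd, h1, h2, h3⟩ := pair hG hK
  have i1 : B⁻¹ * B = 1 := Matrix.nonsing_inv_mul _ (isUnit_iff_ne_zero.2 hB)
  have e1 := ex_conj hB (pair_lg hB hd h3) 1
  have e2 : ∀ L : Matrix (Fin 2) (Fin 2) ℂ, ex L 1 = NormedSpace.exp L := fun L => by
    rw [ex, one_smul]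
  rw [e2, e2, exp_dg] at e1
  have e3 : (fun i => Real.exp (Real.log (d i))) = d := funext fun i => Real.exp_log (hd i)
  rw [e3, ← h3] at e1
  calc NormedSpace.exp (lg (G⁻¹ * K)) = B⁻¹ * B * NormedSpace.exp (lg (G⁻¹ * K)) := by
        rw [i1, Matrix.one_mul]
    _ = B⁻¹ * (B * (G⁻¹ * K)) := by rw [Matrix.mul_assoc, e1]
    _ = _ := by rw [← Matrix.mul_assoc, i1, Matrix.one_mul]

theorem dg_psd {d : Fin 2 → ℝ} (h : (dg d).PosSemidef) (i : Fin 2) : 0 ≤ d i := by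
  have h1 := Matrix.posSemidef_diagonal_iff.1 h i
  exact Complex.zero_le_real.1 h1

theorem psd_dg {d : Fin 2 → ℝ} (h : ∀ i, 0 ≤ d i) : (dg d).PosSemidef :=
  Matrix.PosSemidef.diagonal fun i => Complex.zero_le_real.2 (h i)

theorem lg_bd {G K : Matrix (Fin 2) (Fin 2) ℂ} {V : ℝ} (hG : G.PosDef) (hK : K.PosDef)
    (ha : (((Real.exp V : ℝ) : ℂ) • G - K).PosSemidef)
    (hb : (((Real.exp V : ℝ) : ℂ) • K - G).PosSemidef) :
    ((V : ℂ) • G - G * lg (G⁻¹ * K)).PosSemidef ∧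
      ((V : ℂ) • G + G * lg (G⁻¹ * K)).PosSemidef := by
  obtain ⟨B, d, hB, hd, h1, h2, h3⟩ := pair hG hK
  have hu : IsUnit B.det := isUnit_iff_ne_zero.2 hB
  have e1 : G = Bᴴ * dg (fun _ => 1) * B := by
    rw [h1]
    have : dg (fun _ => 1) = 1 := by rw [dg, ← Matrix.diagonal_one]; simp
    rw [this, Matrix.mul_one]
  have e0 : G * lg (G⁻¹ * K) = Bᴴ * dg (fun i => Real.log (d i)) * B := by
    conv_lhs => rw [h1, Matrix.mul_assoc, ← h1, pair_lg hB hd h3]
    rw [Matrix.mul_assoc]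
  have key : ∀ (s : ℝ) (x y : Fin 2 → ℝ), (s : ℂ) • (Bᴴ * dg x * B) - Bᴴ * dg y * B
      = Bᴴ * dg (fun i => s * x i - y i) * B := by
    intro s x y
    have : dg (fun i => s * x i - y i) = (s : ℂ) • dg x - dg y := by
      ext i j
      by_cases hij : i = j
      · subst hij
        simp [dg]
      · simp [dg, Matrix.diagonal_apply_ne _ hij]
    rw [this, Matrix.mul_sub, Matrix.sub_mul, Matrix.mul_smul, Matrix.smul_mul]
  have back : ∀ x : Fin 2 → ℝ, (Bᴴ * dg x * B).PosSemidef → ∀ i, 0 ≤ x i := by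
    intro x hx i
    refine dg_psd ?_ i
    have h4 := hx.conjTranspose_mul_mul_same B⁻¹
    have h5 : (B⁻¹)ᴴ * (Bᴴ * dg x * B) * B⁻¹ = dg x := by
      have i1 : B * B⁻¹ = 1 := Matrix.mul_nonsing_inv _ hu
      have i2 : (B⁻¹)ᴴ * Bᴴ = 1 := by
        rw [← Matrix.conjTranspose_mul, i1, Matrix.conjTranspose_one]
      calc (B⁻¹)ᴴ * (Bᴴ * dg x * B) * B⁻¹ = ((B⁻¹)ᴴ * Bᴴ) * dg x * (B * B⁻¹) := by
            simp only [Matrix.mul_assoc]
        _ = _ := by rw [i1, i2, Matrix.one_mul, Matrix.mul_one]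
    rwa [h5] at h4
  have forth : ∀ x : Fin 2 → ℝ, (∀ i, 0 ≤ x i) → (Bᴴ * dg x * B).PosSemidef := fun x hx =>
    (psd_dg hx).conjTranspose_mul_mul_same B
  have h4 : ∀ i, 0 ≤ Real.exp V * 1 - d i := by
    refine back _ ?_
    rw [← key, ← e1]
    show (_ - Bᴴ * dg d * B).PosSemidef
    rw [← h2]
    exact ha
  have h5 : ∀ i, 0 ≤ Real.exp V * d i - 1 := by
    refine back _ ?_
    have := key (Real.exp V) d (fun _ => 1)
    rw [← this, ← e1]
    show ((_ : ℂ) • (Bᴴ * dg d * B) - _).PosSemidef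
    rw [← h2]
    exact hb
  have h6 : ∀ i, Real.log (d i) ≤ V := fun i => by
    rw [Real.log_le_iff_le_exp (hd i)]
    linarith [h4 i]
  have h7 : ∀ i, -V ≤ Real.log (d i) := fun i => by
    rw [Real.le_log_iff_exp_le (hd i), Real.exp_neg, inv_le_iff_one_le_mul₀ (Real.exp_pos _),
      mul_comm]
    linarith [h5 i]
  constructor
  · rw [e0]
    conv in (V : ℂ) • G => rw [e1]
    rw [key]
    exact forth _ fun i => by linarith [h6 i]
  · have e2 : (V : ℂ) • G + G * lg (G⁻¹ * K) = Bᴴ * dg (fun i => V * 1 + Real.log (d i)) * B := by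
      have h8 := key V (fun _ => 1) (fun i => - Real.log (d i))
      have h9 : dg (fun i => - Real.log (d i)) = - dg (fun i => Real.log (d i)) := by
        ext i j
        by_cases hij : i = j
        · subst hij
          simp [dg]
        · simp [dg, Matrix.diagonal_apply_ne _ hij]
      rw [h9, Matrix.mul_neg, Matrix.neg_mul, sub_neg_eq_add, ← e0, ← e1] at h8
      rw [h8]
      congr 3
      funext i
      ring
    rw [e2]
    exact forth _ fun i => by linarith [h7 i]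

end

end Crest.Agent.R257.BCUA_532
end

-- ▼ part R257/BCUB_532
section

/-!
# R257 (S0395), part (GB), leaf GB-UPP (helper532): smoothness of the logarithm

* `exp_back` : a field which tends to `0` and has a smooth exponential is smooth
* `lg_sm`, **`lgStmt`** : `LgStmt` of BCUP_532
-/

set_option autoImplicit false
set_option linter.unusedSectionVars false

open Finset Matrix Complex Filter Topology
open scoped ContDiff ComplexConjugate ComplexOrder

namespace Crest.Agent.R257.BCUB_532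

open Crest.Agent.R275.Geo Crest.Agent.R275.EDR890
open Crest.Agent.R273.Fock_243 Crest.Agent.R273.Calc_243
open Crest.Agent.R273.Bkn_243 Crest.Agent.R273.Pos_243 Crest.Agent.R273.BochA_101
open Crest.Agent.R273.BochB_101
open Crest.Agent.R273.BochC_101 Crest.Agent.R273.BochD_101
open Crest.Agent.R273.Hess_333 Crest.Agent.R273.HessB_333
open Crest.Agent.R257.C2F1_625 Crest.Agent.R257.C2F2_625
open Crest.Agent.R257.BCU1_532 Crest.Agent.R257.BCU2_532 Crest.Agent.R257.BCUA_532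
open Crest.Agent.R257.BCUP_532

noncomputable section

variable {κ : Type} [Fintype κ] [DecidableEq κ]

set_option backward.isDefEq.respectTransparency false in
open scoped Norms.Operator in
theorem exp_back {V : Type*} [NormedAddCommGroup V] [NormedSpace ℝ V] {L : V → Matrix κ κ ℂ} {x : V}
    (h1 : ∀ S T, Tendsto (fun y => L y S T) (𝓝 x) (𝓝 0))
    (h2 : ∀ S T, ContDiffAt ℝ ∞ (fun y => NormedSpace.exp (L y) S T) x) (S T : κ) :
    ContDiffAt ℝ ∞ (fun y => L y S T) x := by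
  have hx0 : L x = 0 := by
    ext S T
    have h3 := (h1 S T)
    have h4 : Tendsto (fun y => L y S T) (pure x) (𝓝 0) := h3.mono_left (pure_le_nhds x)
    have h5 : Tendsto (fun y => L y S T) (pure x) (𝓝 (L x S T)) :=
      (tendsto_pure_nhds (fun y => L y S T) x)
    exact tendsto_nhds_unique h5 h4
  -- the exponential is a smooth map into matrices
  have hE : ContDiffAt ℝ ∞ (fun y => NormedSpace.exp (L y)) x := by
    have e : (fun y => NormedSpace.exp (L y)) = fun y => ∑ i, ∑ j,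
        (LinearMap.toContinuousLinearMap
        (Matrix.singleLinearMap ℝ i j : ℂ →ₗ[ℝ] Matrix κ κ ℂ)) (NormedSpace.exp (L y) i j) := by
      funext y
      conv_lhs => rw [Matrix.matrix_eq_sum_single (NormedSpace.exp (L y))]
      rfl
    rw [e]
    exact ContDiffAt.sum fun i _ => ContDiffAt.sum fun j _ =>
      (ContinuousLinearMap.contDiff _).contDiffAt.comp x (h2 i j)
  have hT : Tendsto L (𝓝 x) (𝓝 0) := by
    have e : L = fun y => ∑ i, ∑ j, (LinearMap.toContinuousLinearMap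
        (Matrix.singleLinearMap ℝ i j : ℂ →ₗ[ℝ] Matrix κ κ ℂ)) (L y i j) := by
      funext y
      conv_lhs => rw [Matrix.matrix_eq_sum_single (L y)]
      rfl
    rw [e]
    have e0 : (0 : Matrix κ κ ℂ) = ∑ i : κ, ∑ j : κ, (LinearMap.toContinuousLinearMap
        (Matrix.singleLinearMap ℝ i j : ℂ →ₗ[ℝ] Matrix κ κ ℂ)) 0 := by simp
    rw [e0]
    exact tendsto_finsetSum _ fun i _ => tendsto_finsetSum _ fun j _ =>
      ((ContinuousLinearMap.continuous _).tendsto _).comp (h1 i j)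
  have hexp : ContDiffAt ℝ ∞ (NormedSpace.exp : Matrix κ κ ℂ → Matrix κ κ ℂ) 0 :=
    (NormedSpace.exp_analytic (𝕂 := ℝ) 0).contDiffAt
  have hd : HasFDerivAt (NormedSpace.exp : Matrix κ κ ℂ → Matrix κ κ ℂ)
      ((ContinuousLinearEquiv.refl ℝ (Matrix κ κ ℂ) : Matrix κ κ ℂ ≃L[ℝ] Matrix κ κ ℂ) :
        Matrix κ κ ℂ →L[ℝ] Matrix κ κ ℂ) 0 := hasFDerivAt_exp_zero
  have hn : (∞ : WithTop ℕ∞) ≠ 0 := by simp
  have h3 := hexp.to_localInverse hd hn
  have h4 := (hexp.hasStrictFDerivAt' hd hn).eventually_left_inverse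
  have h5 : (fun y => L y) =ᶠ[𝓝 x] fun y => hexp.localInverse hd hn (NormedSpace.exp (L y)) := by
    filter_upwards [hT.eventually h4] with y hy
    exact hy.symm
  have h6 : ContDiffAt ℝ ∞ (fun y => hexp.localInverse hd hn (NormedSpace.exp (L y))) x := by
    refine ContDiffAt.comp x (g := hexp.localInverse hd hn) (f := fun y => NormedSpace.exp (L y))
      ?_ hE
    rw [hx0]
    exact h3
  have h7 : ContDiffAt ℝ ∞ L x := h6.congr_of_eventuallyEq h5
  exact ((LinearMap.toContinuousLinearMap (Matrix.entryLinearMap ℝ ℂ S T :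
      Matrix κ κ ℂ →ₗ[ℝ] ℂ)).contDiff.contDiffAt.comp x h7 :)

/-! ### the logarithm -/

variable {n : ℕ}

theorem re_sm {V : Type*} [NormedAddCommGroup V] [NormedSpace ℝ V] {a : V → ℂ} {x : V}
    (h : ContDiffAt ℝ ∞ a x) : ContDiffAt ℝ ∞ (fun y => (a y).re) x :=
  Complex.reCLM.contDiff.contDiffAt.comp x h

theorem of_sm {V : Type*} [NormedAddCommGroup V] [NormedSpace ℝ V] {a : V → ℝ} {x : V}
    (h : ContDiffAt ℝ ∞ a x) : ContDiffAt ℝ ∞ (fun y => ((a y : ℝ) : ℂ)) x :=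
  Complex.ofRealCLM.contDiff.contDiffAt.comp x h

theorem dr_sm {X : Cn n → Matrix (Fin 2) (Fin 2) ℂ} {z : Cn n} (h : SmM z X) :
    ContDiffAt ℝ ∞ (fun y => dr (X y)) z := re_sm (SmM.det h)

theorem cr_sm {X : Cn n → Matrix (Fin 2) (Fin 2) ℂ} {z : Cn n} (h : SmM z X)
    (hd : 0 < dr (X z)) : ContDiffAt ℝ ∞ (fun y => cr (X y)) z := by
  have h1 : ContDiffAt ℝ ∞ (fun y => (X y).trace.re) z := re_sm (Sm.trace h)
  have h2 : ContDiffAt ℝ ∞ (fun y => Real.sqrt (dr (X y))) z := (dr_sm h).sqrt hd.ne'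
  exact h1.div (contDiffAt_const.mul h2) (by positivity)

/-- smoothness at the points with two different eigenvalues -/
theorem lg_sm1 {X : Cn n → Matrix (Fin 2) (Fin 2) ℂ} {z : Cn n} (h : SmM z X)
    (hd : 0 < dr (X z)) (hc : 1 < cr (X z)) : SmM z (fun y => lg (X y)) := by
  have h1 := dr_sm h
  have h2 := cr_sm h hd
  have h3 : ContDiffAt ℝ ∞ (fun y => Real.sqrt (dr (X y))) z := h1.sqrt hd.ne'
  have hs0 : 0 < Real.sqrt (dr (X z)) := Real.sqrt_pos.2 hd
  have h4 : ContDiffAt ℝ ∞ (fun y => Real.sqrt (cr (X y) ^ 2 - 1)) z :=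
    ((h2.pow 2).sub contDiffAt_const).sqrt (by nlinarith)
  have h40 : 0 < Real.sqrt (cr (X z) ^ 2 - 1) := Real.sqrt_pos.2 (by nlinarith)
  have h5 : ContDiffAt ℝ ∞ (fun y => ta (cr (X y))) z := by
    have h6 : ContDiffAt ℝ ∞ (fun y => Real.log (cr (X y) + Real.sqrt (cr (X y) ^ 2 - 1)) /
        Real.sqrt (cr (X y) ^ 2 - 1)) z :=
      ((h2.add h4).log (by positivity)).div h4 h40.ne'
    refine h6.congr_of_eventuallyEq ?_
    filter_upwards [h2.continuousAt.eventually (lt_mem_nhds hc)] with y hy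
    rw [ta, if_pos hy]
  intro S T
  have e : (fun y => lg (X y) S T) = fun y => ((Real.log (dr (X y)) / 2 : ℝ) : ℂ) *
      (1 : Matrix (Fin 2) (Fin 2) ℂ) S T + ((ta (cr (X y)) : ℝ) : ℂ) *
      ((((Real.sqrt (dr (X y)))⁻¹ : ℝ) : ℂ) * X y S T -
        ((cr (X y) : ℝ) : ℂ) * (1 : Matrix (Fin 2) (Fin 2) ℂ) S T) := rfl
  rw [e]
  exact ((of_sm ((h1.log hd.ne').div_const 2)).mul contDiffAt_const).add
    ((of_sm h5).mul (((of_sm (h3.inv hs0.ne')).mul (h S T)).sub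
      ((of_sm h2).mul contDiffAt_const)))

/-- continuity at `1` -/
theorem lg_cont {X : Cn n → Matrix (Fin 2) (Fin 2) ℂ} {z : Cn n} (h : SmM z X) (h1 : X z = 1)
    (S T : Fin 2) : Tendsto (fun y => lg (X y) S T) (𝓝 z) (𝓝 0) := by
  have d1 : dr (X z) = 1 := by rw [h1, dr, Matrix.det_one, Complex.one_re]
  have c1 : cr (X z) = 1 := by
    rw [cr, d1, h1, Matrix.trace_one, Fintype.card_fin, Real.sqrt_one]
    norm_num
  have h2 := (dr_sm h).continuousAt
  have h3 := (cr_sm h (by rw [d1]; exact one_pos)).continuousAt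
  have h4 : Tendsto (fun y => Real.log (dr (X y)) / 2) (𝓝 z) (𝓝 0) := by
    have h5 := (h2.log (by rw [d1]; exact one_ne_zero)).div_const 2
    have h6 : Tendsto (fun y => Real.log (dr (X y)) / 2) (𝓝 z) (𝓝 (Real.log (dr (X z)) / 2)) := h5
    rwa [d1, Real.log_one, zero_div] at h6
  have h7 : Tendsto (fun y => (((Real.sqrt (dr (X y)))⁻¹ : ℝ) : ℂ) * X y S T -
      ((cr (X y) : ℝ) : ℂ) * (1 : Matrix (Fin 2) (Fin 2) ℂ) S T) (𝓝 z) (𝓝 0) := by
    have h8 : Tendsto (fun y => (Real.sqrt (dr (X y)))⁻¹) (𝓝 z) (𝓝 1) := by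
      have h9 : Tendsto (fun y => (Real.sqrt (dr (X y)))⁻¹) (𝓝 z)
          (𝓝 (Real.sqrt (dr (X z)))⁻¹) :=
        (h2.sqrt).inv₀ (by rw [d1, Real.sqrt_one]; exact one_ne_zero)
      rwa [d1, Real.sqrt_one, inv_one] at h9
    have h10 : Tendsto (fun y => cr (X y)) (𝓝 z) (𝓝 1) := by rw [← c1]; exact h3
    have h11 : Tendsto (fun y => X y S T) (𝓝 z) (𝓝 ((1 : Matrix (Fin 2) (Fin 2) ℂ) S T)) := by
      rw [← h1]; exact (h S T).continuousAt
    have h12 := (((Complex.continuous_ofReal.tendsto _).comp h8).mul h11).sub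
      (((Complex.continuous_ofReal.tendsto _).comp h10).mul
        (tendsto_const_nhds (x := (1 : Matrix (Fin 2) (Fin 2) ℂ) S T)))
    simpa using h12
  have h13 : Tendsto (fun y => ((ta (cr (X y)) : ℝ) : ℂ) *
      ((((Real.sqrt (dr (X y)))⁻¹ : ℝ) : ℂ) * X y S T -
        ((cr (X y) : ℝ) : ℂ) * (1 : Matrix (Fin 2) (Fin 2) ℂ) S T)) (𝓝 z) (𝓝 0) := by
    refine squeeze_zero_norm (fun y => ?_) (tendsto_zero_iff_norm_tendsto_zero.1 h7)
    rw [norm_mul, Complex.norm_real, Real.norm_eq_abs]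
    exact mul_le_of_le_one_left (norm_nonneg _) (ta_le _)
  have h14 : Tendsto (fun y => ((Real.log (dr (X y)) / 2 : ℝ) : ℂ) *
      (1 : Matrix (Fin 2) (Fin 2) ℂ) S T) (𝓝 z) (𝓝 0) := by
    have h15 := ((Complex.continuous_ofReal.tendsto _).comp h4).mul
        (tendsto_const_nhds (x := (1 : Matrix (Fin 2) (Fin 2) ℂ) S T))
    simpa using h15
  have h16 := h14.add h13
  rw [add_zero] at h16
  exact h16

theorem inv_conj {F X Y : Matrix (Fin 2) (Fin 2) ℂ} (hF : F.det ≠ 0) (h : F * X = Y * F) :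
    dr X = dr Y ∧ cr X = cr Y := by
  have hd : X.det = Y.det := by
    have h1 := congrArg Matrix.det h
    rw [Matrix.det_mul F X, Matrix.det_mul Y F, mul_comm Y.det] at h1
    exact mul_left_cancel₀ hF h1
  have i1 : F⁻¹ * F = 1 := Matrix.nonsing_inv_mul _ (isUnit_iff_ne_zero.2 hF)
  have i2 : F * F⁻¹ = 1 := Matrix.mul_nonsing_inv _ (isUnit_iff_ne_zero.2 hF)
  have ht : X.trace = Y.trace := by
    have h1 : Y = F * X * F⁻¹ := by rw [h, Matrix.mul_assoc, i2, Matrix.mul_one]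
    rw [h1, Matrix.mul_assoc, Matrix.trace_mul_comm, Matrix.mul_assoc, i1, Matrix.mul_one]
  have e1 : dr X = dr Y := by rw [dr, dr, hd]
  exact ⟨e1, by rw [cr, cr, e1, ht]⟩

/-- smoothness -/
theorem lg_sm {G K : Cn n → Matrix (Fin 2) (Fin 2) ℂ} {z : Cn n} (hG : SmM z G) (hK : SmM z K)
    (pG : ∀ᶠ y in 𝓝 z, (G y).PosDef) (pK : ∀ᶠ y in 𝓝 z, (K y).PosDef) :
    SmM z (fun y => lg ((G y)⁻¹ * K y)) := by
  have h0 : (G z).det ≠ 0 := pG.self_of_nhds.det_pos.ne'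
  have hX : SmM z (fun y => (G y)⁻¹ * K y) := SmM.mul (SmM.inv hG h0) hK
  have hdr : ∀ y, (G y).PosDef → (K y).PosDef → 0 < dr ((G y)⁻¹ * K y) := by
    intro y h1 h2
    obtain ⟨B, d, hB, hd, -, -, h3⟩ := pair h1 h2
    rw [(inv_conj hB h3).1, dr_dg]
    exact mul_pos (hd 0) (hd 1)
  have hdz := hdr z pG.self_of_nhds pK.self_of_nhds
  by_cases hc : 1 < cr ((G z)⁻¹ * K z)
  · exact lg_sm1 hX hdz hc
  obtain ⟨B, d, hB, hd, e1, e2, e3⟩ := pair pG.self_of_nhds pK.self_of_nhds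
  have i1 : B⁻¹ * B = 1 := Matrix.nonsing_inv_mul _ (isUnit_iff_ne_zero.2 hB)
  -- the eigenvalues agree
  have h01 : d 0 = d 1 := by
    rw [(inv_conj hB e3).2, cr_dg hd] at hc
    by_contra hne
    refine hc (Real.one_lt_cosh.2 fun h => hne ?_)
    have h1 : Real.log (d 0) = Real.log (d 1) := by linarith
    exact Real.log_injOn_pos (hd 0) (hd 1) h1
  have hXz : (G z)⁻¹ * K z = ((d 0 : ℝ) : ℂ) • (1 : Matrix (Fin 2) (Fin 2) ℂ) := by
    have h1 : dg d = ((d 0 : ℝ) : ℂ) • (1 : Matrix (Fin 2) (Fin 2) ℂ) := by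
      ext i j
      by_cases hij : i = j
      · subst hij
        fin_cases i <;> simp [dg, h01]
      · simp [dg, Matrix.diagonal_apply_ne _ hij, Matrix.one_apply_ne hij]
    calc (G z)⁻¹ * K z = B⁻¹ * (B * ((G z)⁻¹ * K z)) := by
          rw [← Matrix.mul_assoc B⁻¹, i1, Matrix.one_mul]
      _ = _ := by
          rw [e3, h1, Matrix.smul_mul, Matrix.one_mul, Matrix.mul_smul, i1]
  set l : ℝ := (d 0)⁻¹ with hl
  have hl0 : 0 < l := inv_pos.2 (hd 0)
  have hK' : SmM z (fun y => (l : ℂ) • K y) := fun S T => contDiffAt_const.mul (hK S T)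
  have e4 : ∀ y, (l : ℂ) • ((G y)⁻¹ * K y) = (G y)⁻¹ * ((l : ℂ) • K y) := fun y => by
    rw [Matrix.mul_smul]
  have hY : SmM z (fun y => (l : ℂ) • ((G y)⁻¹ * K y)) := fun S T =>
    contDiffAt_const.mul (hX S T)
  have hY1 : (l : ℂ) • ((G z)⁻¹ * K z) = 1 := by
    rw [hXz, smul_smul, hl, ← Complex.ofReal_mul, inv_mul_cancel₀ (hd 0).ne', Complex.ofReal_one,
      one_smul]
  have hlog : SmM z (fun y => lg ((l : ℂ) • ((G y)⁻¹ * K y))) := by
    intro S T
    refine exp_back (L := fun y => lg ((l : ℂ) • ((G y)⁻¹ * K y))) (fun S T => ?_)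
      (fun S T => ?_) S T
    · exact lg_cont hY hY1 S T
    · refine (hY S T).congr_of_eventuallyEq ?_
      filter_upwards [pG, pK] with y h1 h2
      rw [e4 y, lg_exp h1 (h2.smul (Complex.zero_lt_real.2 hl0))]
  intro S T
  have h1 : (fun y => lg ((G y)⁻¹ * K y) S T) =ᶠ[𝓝 z] fun y =>
      lg ((l : ℂ) • ((G y)⁻¹ * K y)) S T -
        ((Real.log l : ℝ) : ℂ) * (1 : Matrix (Fin 2) (Fin 2) ℂ) S T := by
    filter_upwards [pG, pK] with y h1 h2
    rw [lg_smul hl0 (hdr y h1 h2)]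
    simp only [Matrix.add_apply, Matrix.smul_apply, smul_eq_mul]
    ring
  exact ((hlog S T).sub contDiffAt_const).congr_of_eventuallyEq h1

/-- **the matrix logarithm** -/
theorem lgm : Lgm lg :=
  ⟨fun _ _ hG hK => lg_sa hG hK, fun _ _ hG hK => lg_exp hG hK,
    fun _ _ _ hF h => lg_conj hF h, lg_one, fun _ _ _ hG hK pG pK => lg_sm hG hK pG pK,
    fun _ _ _ hG hK ha hb => lg_bd hG hK ha hb⟩

theorem lgStmt : LgStmt := ⟨lg, lgm⟩

end

end Crest.Agent.R257.BCUB_532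
end

-- ▼ part R257/GBL3_625
section

/-!
# R257 (S0395), part (GB), leaf GB-LIM (helper625): curvature bound of Kaehler-Einstein surfaces

* `quad_entry` : every curvature component at a point with `K = 1` is `≤ sqrt (c2)`
* `einstein_rm` : `|R(x, x̄, v, v̄)|² ≤ 16 (c2 K / det K) |x|⁴ |v|⁴`
* `einstein_psd` : the same as inequalities of Hermitian forms
-/

set_option autoImplicit false
set_option linter.unusedSectionVars false
set_option linter.unusedSimpArgs false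

open Finset Matrix Complex Filter Topology
open scoped ContDiff ComplexConjugate ComplexOrder

namespace Crest.Agent.R257.GBL3_625

open Crest.Agent.R275.Geo Crest.Agent.R275.EDR890
open Crest.Agent.R273.Fock_243 Crest.Agent.R273.Calc_243
open Crest.Agent.R273.Bkn_243 Crest.Agent.R273.Pos_243 Crest.Agent.R273.BochA_101
open Crest.Agent.R273.BochB_101
open Crest.Agent.R273.BochC_101 Crest.Agent.R273.BochD_101
open Crest.Agent.R273.Hess_333 Crest.Agent.R273.HessB_333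
open Crest.Agent.R257.C2F1_625 Crest.Agent.R257.C2F2_625 Crest.Agent.R257.C2F3_625

noncomputable section

theorem quad_entry {Z : Fin 2 → Fin 2 → Matrix (Fin 2) (Fin 2) ℂ}
    (s1 : ∀ a b c d, Z c d b a = Z a d b c) (s2 : ∀ a b c d, Z c d b a = Z c b d a)
    (hh : ∀ c d, (Z c d)ᴴ = Z d c) (ht : ∀ c d, (Z c d).trace = if c = d then -1 else 0) :
    ∀ a b c d, ‖Z c d b a‖ ^ 2 ≤ (pd (Z 0 0) (Z 1 1) - pd (Z 0 1) (Z 1 0)).re := by
  have hh' : ∀ a b c d, conj (Z c d a b) = Z d c b a := fun a b c d => by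
    rw [← hh c d, Matrix.conjTranspose_apply]; rfl
  have t00 := ht 0 0
  have t11 := ht 1 1
  have t01 := ht 0 1
  have t10 := ht 1 0
  simp only [Matrix.trace_fin_two] at t00 t11 t01 t10
  simp only [if_true, Fin.isValue, zero_ne_one, one_ne_zero, if_false] at t00 t11 t01 t10
  have e1 : Z 1 1 0 0 = Z 0 0 1 1 := by rw [s1 0 0 1 1, s2 1 0 0 1, s1]
  have e2 : Z 0 0 0 1 = Z 1 0 0 0 := s1 1 0 0 0
  have e3 : Z 0 0 1 0 = Z 0 1 0 0 := s2 0 1 0 0
  have e4 : Z 1 1 1 0 = Z 0 1 1 1 := s1 0 1 1 1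
  have e5 : Z 1 1 0 1 = Z 1 0 1 1 := s2 1 0 1 1
  have e6 : Z 0 1 0 1 = Z 0 0 1 1 := (s1 1 0 0 1).trans e1
  have e7 : Z 1 0 1 0 = Z 0 0 1 1 := s1 0 1 1 0
  have e8 : Z 1 0 0 1 = conj (Z 0 1 1 0) := (hh' 1 0 0 1).symm
  have e9 : Z 1 0 0 0 = conj (Z 0 1 0 0) := (hh' 0 0 0 1).symm
  have e10 : Z 0 1 1 1 = - Z 0 1 0 0 := by linear_combination t01
  have e11 : Z 1 0 1 1 = - conj (Z 0 1 0 0) := by rw [← e9]; linear_combination t10
  have e12 : Z 0 0 1 1 = -1 - Z 0 0 0 0 := by linear_combination t00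
  have e13 : Z 1 1 1 1 = Z 0 0 0 0 := by
    have : Z 1 1 1 1 = -1 - Z 1 1 0 0 := by linear_combination t11
    rw [this, e1, e12]; ring
  have eA : Z 0 0 0 0 = ((Z 0 0 0 0).re : ℂ) := (Complex.conj_eq_iff_real.1 (hh' 0 0 0 0)).elim
    fun r hr => by rw [hr, ofReal_re]
  have key : pd (Z 0 0) (Z 1 1) - pd (Z 0 1) (Z 1 0) = (((Z 0 0 0 0).re ^ 2
      + 2 * (1 + (Z 0 0 0 0).re) ^ 2 + 4 * normSq (Z 0 1 0 0) + normSq (Z 0 1 1 0) : ℝ) : ℂ) := by
    unfold pd
    rw [e2, e3, e4, e5, e6, e7, e8, e9, e10, e11, e13, e1, e12]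
    push_cast
    rw [Complex.normSq_eq_conj_mul_self, Complex.normSq_eq_conj_mul_self, ← eA]
    ring
  have nb := Complex.normSq_nonneg (Z 0 1 0 0)
  have ng := Complex.normSq_nonneg (Z 0 1 1 0)
  have qa := sq_nonneg ((Z 0 0 0 0).re)
  have qb := sq_nonneg (1 + (Z 0 0 0 0).re)
  have n0 : ‖Z 0 0 0 0‖ ^ 2 = (Z 0 0 0 0).re ^ 2 := by
    rw [eA, Complex.norm_real, ofReal_re, Real.norm_eq_abs, sq_abs]
  have n1 : ‖Z 0 0 1 1‖ ^ 2 = (1 + (Z 0 0 0 0).re) ^ 2 := by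
    have : Z 0 0 1 1 = ((-(1 + (Z 0 0 0 0).re) : ℝ) : ℂ) := by
      rw [e12]; push_cast; rw [← eA]; ring
    rw [this, Complex.norm_real, Real.norm_eq_abs, sq_abs]; ring
  have n2 : ‖Z 0 1 0 0‖ ^ 2 = normSq (Z 0 1 0 0) := (Complex.normSq_eq_norm_sq _).symm
  have n3 : ‖Z 0 1 1 0‖ ^ 2 = normSq (Z 0 1 1 0) := (Complex.normSq_eq_norm_sq _).symm
  rw [key, ofReal_re]
  intro a b c d
  fin_cases a <;> fin_cases b <;> fin_cases c <;> fin_cases d <;>
    simp only [Fin.zero_eta, Fin.mk_one, Fin.isValue]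
  · nlinarith
  · nlinarith
  · rw [e9, Complex.norm_conj]; nlinarith
  · rw [e1]; nlinarith
  · rw [e3]; nlinarith
  · nlinarith
  · rw [e7]; nlinarith
  · rw [e4, e10, norm_neg]; nlinarith
  · rw [e2, e9, Complex.norm_conj]; nlinarith
  · rw [e6]; nlinarith
  · rw [e8, Complex.norm_conj]; nlinarith
  · rw [e5, e11, norm_neg, Complex.norm_conj]; nlinarith
  · nlinarith
  · rw [e10, norm_neg]; nlinarith
  · rw [e11, norm_neg, Complex.norm_conj]; nlinarith
  · rw [e13]; nlinarith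

/-- a unitary frame at a point of a Kaehler-Einstein surface -/
theorem einstein_frame {K : Cn 2 → Matrix (Fin 2) (Fin 2) ℂ} {z : Cn 2}
    (hK : ∀ᶠ y in 𝓝 z, SmM y K) (hh : ∀ᶠ y in 𝓝 z, (K y).IsHermitian) (hp : (K z).PosDef)
    (hk : ∀ᶠ y in 𝓝 z, KahAt K y) (hE : ∀ a b, ric K z a b = - K z b a) :
    ∃ M B : Matrix (Fin 2) (Fin 2) ℂ, M * B = 1 ∧ K z = Bᴴ * B ∧
      (∀ a b c d, ‖tf M (rm K z) c d b a‖ ^ 2 ≤ (c2 K z).re / (K z).det.re) := by
  have hKz := hK.self_of_nhds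
  obtain ⟨B, hB⟩ := exists_fac hp.posSemidef
  have hdet : 0 < (K z).det := hp.det_pos
  have hB0 : B.det ≠ 0 := by
    intro h0
    rw [hB, Matrix.det_mul, h0, mul_zero] at hdet
    exact lt_irrefl _ hdet
  set M := B⁻¹ with hM
  have i1 : B * M = 1 := Matrix.mul_nonsing_inv _ (isUnit_iff_ne_zero.2 hB0)
  have i2 : M * B = 1 := Matrix.nonsing_inv_mul _ (isUnit_iff_ne_zero.2 hB0)
  have i3 : Mᴴ * Bᴴ = 1 := by rw [← Matrix.conjTranspose_mul, i1, Matrix.conjTranspose_one]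
  have hMK : Mᴴ * K z * M = 1 := by
    rw [hB, ← Matrix.mul_assoc, i3, Matrix.one_mul, i1]
  have hMM : M * Mᴴ = (K z)⁻¹ := by
    refine (Matrix.inv_eq_right_inv ?_).symm
    rw [hB]
    calc Bᴴ * B * (M * Mᴴ) = Bᴴ * (B * M) * Mᴴ := by simp only [Matrix.mul_assoc]
      _ = Bᴴ * Mᴴ := by rw [i1, Matrix.mul_one]
      _ = (M * B)ᴴ := by rw [Matrix.conjTranspose_mul]
      _ = 1 := by rw [i2, Matrix.conjTranspose_one]
  have x1 : ∀ s q, rm K z 0 s q 1 = rm K z 1 s q 0 := fun s q => rm_hol hKz hk 1 q 0 s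
  have x2 : ∀ r p, rm K z r 0 1 p = rm K z r 1 0 p := fun r p => rm_bar hKz hk p 1 r 0
  have x3 : ∀ r s, (rm K z r s)ᴴ = rm K z s r := fun r s => rm_herm hK hh r s
  have s1 : ∀ a b c d, tf M (rm K z) c d b a = tf M (rm K z) a d b c := by
    intro a b c d
    rw [tf_apply, tf_apply]
    simp only [Fin.sum_univ_two, x1]
    ring
  have s2 : ∀ a b c d, tf M (rm K z) c d b a = tf M (rm K z) c b d a := by
    intro a b c d
    rw [tf_apply, tf_apply]
    simp only [Fin.sum_univ_two, x2]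
    ring
  have s3 : ∀ c d, (tf M (rm K z) c d)ᴴ = tf M (rm K z) d c := by
    intro c d
    have e : ∀ r s, (Mᴴ * rm K z r s * M)ᴴ = Mᴴ * rm K z s r * M := fun r s => by
      rw [Matrix.conjTranspose_mul, Matrix.conjTranspose_mul, Matrix.conjTranspose_conjTranspose,
        x3, ← Matrix.mul_assoc]
    simp only [tf, Fin.sum_univ_two, Matrix.conjTranspose_add, Matrix.conjTranspose_smul, e,
      star_mul', RCLike.star_def, Complex.conj_conj]
    simp only [mul_comm (conj (M _ c)) (M _ d)]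
    abel
  have s4 : ∀ c d, (tf M (rm K z) c d).trace = if c = d then -1 else 0 := by
    intro c d
    have e : ∀ r s, (Mᴴ * rm K z r s * M).trace = - K z s r := fun r s => by
      rw [Matrix.mul_assoc, Matrix.trace_mul_comm, Matrix.mul_assoc, hMM, Matrix.trace_mul_comm]
      exact hE r s
    have h1 : (tf M (rm K z) c d).trace = - (Mᴴ * K z * M) d c := by
      simp only [tf, Fin.sum_univ_two, Matrix.trace_add, Matrix.trace_smul, e, smul_eq_mul,
        Matrix.mul_apply, Matrix.conjTranspose_apply, RCLike.star_def]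
      ring
    rw [h1, hMK, Matrix.one_apply]
    by_cases hcd : c = d
    · rw [if_pos hcd, if_pos hcd.symm]
    · rw [if_neg hcd, if_neg fun h => hcd h.symm, neg_zero]
  have h5 := quad_entry s1 s2 s3 s4
  rw [tf_pd] at h5
  have hdM : (M.det * conj M.det) * (K z).det = 1 := by
    have := congrArg Matrix.det hMK
    rw [Matrix.det_mul, Matrix.det_mul, Matrix.det_conjTranspose, Matrix.det_one] at this
    rw [← this]
    simp only [RCLike.star_def]
    ring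
  have hdre : (K z).det = ((K z).det.re : ℂ) :=
    Complex.ext (by simp) (by simpa using (Complex.lt_def.1 hdet).2.symm)
  have h6 : (M.det * conj M.det) ^ 2 * (pd (rm K z 0 0) (rm K z 1 1)
      - pd (rm K z 0 1) (rm K z 1 0)) = (((K z).det.re)⁻¹ : ℝ) * c2 K z := by
    have e1 : M.det * conj M.det = ((K z).det)⁻¹ := eq_inv_of_mul_eq_one_left hdM
    rw [e1, c2, Complex.ofReal_inv, ← hdre]
    have : (K z).det ≠ 0 := hdet.ne'
    field_simp
  rw [h6, Complex.re_ofReal_mul] at h5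
  refine ⟨M, B, i2, hB, fun a b c d => ?_⟩
  rw [div_eq_inv_mul]
  exact h5 a b c d

/-- the full contraction of the curvature -/
def RR (X : Fin 2 → Fin 2 → Matrix (Fin 2) (Fin 2) ℂ) (x v : Fin 2 → ℂ) : ℂ :=
  ∑ c, ∑ d, x c * conj (x d) * (star v ⬝ᵥ (X c d *ᵥ v))

theorem RR_eq (X : Fin 2 → Fin 2 → Matrix (Fin 2) (Fin 2) ℂ) (x v : Fin 2 → ℂ) :
    RR X x v = ∑ c, ∑ d, ∑ b, ∑ a, x c * conj (x d) * conj (v b) * v a * X c d b a := by
  simp only [RR, dotProduct, Matrix.mulVec, Finset.mul_sum, Pi.star_apply, RCLike.star_def]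
  refine Finset.sum_congr rfl fun c _ => Finset.sum_congr rfl fun d _ =>
    Finset.sum_congr rfl fun b _ => Finset.sum_congr rfl fun a _ => by ring

theorem RR_tf (M : Matrix (Fin 2) (Fin 2) ℂ) (X : Fin 2 → Fin 2 → Matrix (Fin 2) (Fin 2) ℂ)
    (x v : Fin 2 → ℂ) : RR (tf M X) x v = RR X (M *ᵥ x) (M *ᵥ v) := by
  have e1 : ∀ c d, star v ⬝ᵥ (tf M X c d *ᵥ v) = ∑ r, ∑ s, (M r c * conj (M s d)) *
      (star (M *ᵥ v) ⬝ᵥ (X r s *ᵥ (M *ᵥ v))) := by
    intro c d
    unfold tf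
    rw [Matrix.sum_mulVec, dotProduct_sum]
    refine Finset.sum_congr rfl fun r _ => ?_
    rw [Matrix.sum_mulVec, dotProduct_sum]
    refine Finset.sum_congr rfl fun s _ => ?_
    rw [Matrix.smul_mulVec, dotProduct_smul, smul_eq_mul]
    congr 1
    rw [Matrix.star_mulVec, ← Matrix.mulVec_mulVec, ← Matrix.mulVec_mulVec,
      Matrix.dotProduct_mulVec, Matrix.dotProduct_mulVec, Matrix.dotProduct_mulVec,
      Matrix.vecMul_vecMul]
  have e2 : ∀ Q : Fin 2 → Fin 2 → ℂ, ∑ c, ∑ d, x c * conj (x d) *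
      (∑ r, ∑ s, (M r c * conj (M s d)) * Q r s) =
      ∑ r, ∑ s, (M *ᵥ x) r * conj ((M *ᵥ x) s) * Q r s := by
    intro Q
    simp only [Fin.sum_univ_two, Matrix.mulVec, dotProduct, map_add, map_mul]
    ring
  unfold RR
  simp only [e1]
  exact e2 _

theorem RR_le {X : Fin 2 → Fin 2 → Matrix (Fin 2) (Fin 2) ℂ} {q : ℝ}
    (h : ∀ a b c d, ‖X c d b a‖ ^ 2 ≤ q) (x v : Fin 2 → ℂ) :
    ‖RR X x v‖ ≤ 4 * Real.sqrt q * ((‖x 0‖ ^ 2 + ‖x 1‖ ^ 2) * (‖v 0‖ ^ 2 + ‖v 1‖ ^ 2)) := by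
  have hq : ∀ a b c d, ‖X c d b a‖ ≤ Real.sqrt q := fun a b c d =>
    Real.le_sqrt_of_sq_le (h a b c d)
  have h1 : ‖RR X x v‖ ≤ ∑ c, ∑ d, ∑ b, ∑ a, ‖x c‖ * ‖x d‖ * ‖v b‖ * ‖v a‖ * Real.sqrt q := by
    rw [RR_eq]
    refine (norm_sum_le _ _).trans (Finset.sum_le_sum fun c _ => ?_)
    refine (norm_sum_le _ _).trans (Finset.sum_le_sum fun d _ => ?_)
    refine (norm_sum_le _ _).trans (Finset.sum_le_sum fun b _ => ?_)
    refine (norm_sum_le _ _).trans (Finset.sum_le_sum fun a _ => ?_)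
    rw [norm_mul, norm_mul, norm_mul, norm_mul, Complex.norm_conj, Complex.norm_conj]
    exact mul_le_mul_of_nonneg_left (hq a b c d) (by positivity)
  refine h1.trans ?_
  have h2 : ∑ c, ∑ d, ∑ b, ∑ a, ‖x c‖ * ‖x d‖ * ‖v b‖ * ‖v a‖ * Real.sqrt q
      = Real.sqrt q * ((‖x 0‖ + ‖x 1‖) ^ 2 * (‖v 0‖ + ‖v 1‖) ^ 2) := by
    simp only [Fin.sum_univ_two]
    ring
  rw [h2]
  have a1 : (‖x 0‖ + ‖x 1‖) ^ 2 ≤ 2 * (‖x 0‖ ^ 2 + ‖x 1‖ ^ 2) := by
    nlinarith [sq_nonneg (‖x 0‖ - ‖x 1‖)]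
  have a2 : (‖v 0‖ + ‖v 1‖) ^ 2 ≤ 2 * (‖v 0‖ ^ 2 + ‖v 1‖ ^ 2) := by
    nlinarith [sq_nonneg (‖v 0‖ - ‖v 1‖)]
  calc Real.sqrt q * ((‖x 0‖ + ‖x 1‖) ^ 2 * (‖v 0‖ + ‖v 1‖) ^ 2)
      ≤ Real.sqrt q * ((2 * (‖x 0‖ ^ 2 + ‖x 1‖ ^ 2)) * (2 * (‖v 0‖ ^ 2 + ‖v 1‖ ^ 2))) := by
        refine mul_le_mul_of_nonneg_left ?_ (Real.sqrt_nonneg _)
        exact mul_le_mul a1 a2 (by positivity) (by positivity)
    _ = _ := by ring

theorem nq_fac {B : Matrix (Fin 2) (Fin 2) ℂ} (x : Fin 2 → ℂ) :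
    star x ⬝ᵥ ((Bᴴ * B) *ᵥ x) = (((‖(B *ᵥ x) 0‖ ^ 2 + ‖(B *ᵥ x) 1‖ ^ 2 : ℝ)) : ℂ) := by
  have h1 : star x ⬝ᵥ ((Bᴴ * B) *ᵥ x) = star (B *ᵥ x) ⬝ᵥ (B *ᵥ x) := by
    rw [Matrix.star_mulVec, ← Matrix.mulVec_mulVec, Matrix.dotProduct_mulVec]
  rw [h1]
  simp only [dotProduct, Fin.sum_univ_two, Pi.star_apply, RCLike.star_def]
  push_cast
  rw [← Complex.conj_mul', ← Complex.conj_mul']

/-- **curvature bound** of Kaehler-Einstein surfaces -/
theorem einstein_rm {K : Cn 2 → Matrix (Fin 2) (Fin 2) ℂ} {z : Cn 2}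
    (hK : ∀ᶠ y in 𝓝 z, SmM y K) (hh : ∀ᶠ y in 𝓝 z, (K y).IsHermitian) (hp : (K z).PosDef)
    (hk : ∀ᶠ y in 𝓝 z, KahAt K y) (hE : ∀ a b, ric K z a b = - K z b a) (x v : Fin 2 → ℂ) :
    ‖RR (rm K z) x v‖ ≤ 4 * Real.sqrt ((c2 K z).re / (K z).det.re) *
      ((star x ⬝ᵥ (K z *ᵥ x)).re * (star v ⬝ᵥ (K z *ᵥ v)).re) := by
  obtain ⟨M, B, h1, h2, h3⟩ := einstein_frame hK hh hp hk hE
  have e1 : ∀ y : Fin 2 → ℂ, M *ᵥ (B *ᵥ y) = y := fun y => by
    rw [Matrix.mulVec_mulVec, h1, Matrix.one_mulVec]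
  have e2 := RR_le h3 (B *ᵥ x) (B *ᵥ v)
  rw [RR_tf, e1, e1] at e2
  rw [h2, nq_fac, nq_fac, Complex.ofReal_re, Complex.ofReal_re, ← h2]
  exact e2

theorem star_q (N : Matrix (Fin 2) (Fin 2) ℂ) (y : Fin 2 → ℂ) :
    star (star y ⬝ᵥ (N *ᵥ y)) = star y ⬝ᵥ (Nᴴ *ᵥ y) := by
  simp only [dotProduct, Matrix.mulVec, Fin.sum_univ_two, Pi.star_apply,
    Matrix.conjTranspose_apply, RCLike.star_def, map_add, map_mul, Complex.conj_conj]
  ring

/-- the curvature form of a vector is Hermitian -/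
theorem rv_herm {K : Cn 2 → Matrix (Fin 2) (Fin 2) ℂ} {z : Cn 2}
    (hK : ∀ᶠ y in 𝓝 z, SmM y K) (hh : ∀ᶠ y in 𝓝 z, (K y).IsHermitian) (v : Fin 2 → ℂ) :
    (Matrix.of fun c d => star v ⬝ᵥ (rm K z c d *ᵥ v)).IsHermitian := by
  ext c d
  rw [Matrix.conjTranspose_apply, Matrix.of_apply, Matrix.of_apply, star_q, rm_herm hK hh d c]

theorem psd_pm {G S : Matrix (Fin 2) (Fin 2) ℂ} (hG : G.IsHermitian) (hS : S.IsHermitian) {t : ℝ}
    (h : ∀ y, |(star y ⬝ᵥ (S *ᵥ y)).re| ≤ t * (star y ⬝ᵥ (G *ᵥ y)).re) :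
    ((t : ℂ) • G - S).PosSemidef ∧ ((t : ℂ) • G + S).PosSemidef := by
  have im0 : ∀ {N : Matrix (Fin 2) (Fin 2) ℂ}, N.IsHermitian → ∀ y : Fin 2 → ℂ,
      (star y ⬝ᵥ (N *ᵥ y)).im = 0 := by
    intro N hN y
    have h1 : conj (star y ⬝ᵥ (N *ᵥ y)) = star y ⬝ᵥ (N *ᵥ y) := by
      have h2 : star (star y ⬝ᵥ (N *ᵥ y)) = star y ⬝ᵥ (N *ᵥ y) := by
        rw [star_q, hN.eq]
      exact h2
    exact Complex.conj_eq_iff_im.1 h1
  have hG' : ((t : ℂ) • G).IsHermitian := by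
    rw [Matrix.IsHermitian, Matrix.conjTranspose_smul, hG.eq, RCLike.star_def, Complex.conj_ofReal]
  refine ⟨Matrix.PosSemidef.of_dotProduct_mulVec_nonneg (hG'.sub hS) fun y => ?_,
    Matrix.PosSemidef.of_dotProduct_mulVec_nonneg (hG'.add hS) fun y => ?_⟩
  · have hy := (abs_le.1 (h y)).2
    rw [Complex.le_def]
    rw [Matrix.sub_mulVec, Matrix.smul_mulVec, dotProduct_sub, dotProduct_smul, smul_eq_mul]
    constructor
    · rw [Complex.sub_re, Complex.re_ofReal_mul, Complex.zero_re]; linarith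
    · rw [Complex.sub_im, Complex.im_ofReal_mul, im0 hG, im0 hS]; simp
  · have hy := (abs_le.1 (h y)).1
    rw [Complex.le_def]
    rw [Matrix.add_mulVec, Matrix.smul_mulVec, dotProduct_add, dotProduct_smul, smul_eq_mul]
    constructor
    · rw [Complex.add_re, Complex.re_ofReal_mul, Complex.zero_re]; linarith
    · rw [Complex.add_im, Complex.im_ofReal_mul, im0 hG, im0 hS]; simp

/-- **curvature bound** as inequalities of Hermitian forms -/
theorem einstein_psd {K : Cn 2 → Matrix (Fin 2) (Fin 2) ℂ} {z : Cn 2}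
    (hK : ∀ᶠ y in 𝓝 z, SmM y K) (hh : ∀ᶠ y in 𝓝 z, (K y).IsHermitian) (hp : (K z).PosDef)
    (hk : ∀ᶠ y in 𝓝 z, KahAt K y) (hE : ∀ a b, ric K z a b = - K z b a) (v : Fin 2 → ℂ) {r : ℝ}
    (hr : 4 * Real.sqrt ((c2 K z).re / (K z).det.re) ≤ r) :
    (((r * (star v ⬝ᵥ (K z *ᵥ v)).re : ℝ) : ℂ) • (K z)ᵀ -
      Matrix.of fun c d => star v ⬝ᵥ (rm K z c d *ᵥ v)).PosSemidef ∧
    (((r * (star v ⬝ᵥ (K z *ᵥ v)).re : ℝ) : ℂ) • (K z)ᵀ +
      Matrix.of fun c d => star v ⬝ᵥ (rm K z c d *ᵥ v)).PosSemidef := by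
  have nn : ∀ w : Fin 2 → ℂ, 0 ≤ (star w ⬝ᵥ (K z *ᵥ w)).re := fun w =>
    (Complex.le_def.1 (hp.posSemidef.dotProduct_mulVec_nonneg w)).1
  have hG : ((K z)ᵀ).IsHermitian := hp.1.transpose
  refine psd_pm hG (rv_herm hK hh v) fun y => ?_
  have e1 : star y ⬝ᵥ ((Matrix.of fun c d => star v ⬝ᵥ (rm K z c d *ᵥ v)) *ᵥ y)
      = RR (rm K z) (star y) v := by
    unfold RR
    simp only [dotProduct, Matrix.mulVec, Matrix.of_apply, Fin.sum_univ_two, Pi.star_apply,
      RCLike.star_def, Complex.conj_conj]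
    ring
  have e2 : star y ⬝ᵥ ((K z)ᵀ *ᵥ y) = star (star y) ⬝ᵥ (K z *ᵥ star y) := by
    simp only [dotProduct, Matrix.mulVec, Matrix.transpose_apply, Fin.sum_univ_two, Pi.star_apply,
      RCLike.star_def, Complex.conj_conj]
    ring
  rw [e1, e2]
  refine (Complex.abs_re_le_norm _).trans ((einstein_rm hK hh hp hk hE (star y) v).trans ?_)
  calc 4 * Real.sqrt ((c2 K z).re / (K z).det.re) *
      ((star (star y) ⬝ᵥ (K z *ᵥ star y)).re * (star v ⬝ᵥ (K z *ᵥ v)).re)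
      ≤ r * ((star (star y) ⬝ᵥ (K z *ᵥ star y)).re * (star v ⬝ᵥ (K z *ᵥ v)).re) :=
        mul_le_mul_of_nonneg_right hr (mul_nonneg (nn _) (nn _))
    _ = _ := by ring

end

end Crest.Agent.R257.GBL3_625
end

-- ▼ part R257/Ptw1_617
section

/-!
# R257 (S0395), part (GB), leaf GB-PTW (helper617): pointwise curvature bound on `Ω¹`

* `ke_pack`  : the metric matrix `K = (∂∂̄u)ᵀ` of a Kaehler-Einstein weight in a parametrisation
* `psd_trf`  : `|tr (Q rm_{cd})| ≤ r tr (Q K) Kᵀ` for `Q ≥ 0`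
* `ptwStmt`  : **`BCUP_532.PtwStmt`**
-/

set_option autoImplicit false
set_option linter.unusedSectionVars false
set_option linter.unusedSimpArgs false

open Topology Filter MeasureTheory Set Complex
open scoped ContDiff Matrix ComplexConjugate ComplexOrder

noncomputable section

namespace Crest.Agent.R257.Ptw_617

open Crest.Agent.R275.Geo Crest.Agent.R275.EDR890
open Crest.Agent.R273.Fock_243 Crest.Agent.R273.Calc_243
open Crest.Agent.R273.Bkn_243 Crest.Agent.R273.Pos_243 Crest.Agent.R273.BochA_101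
open Crest.Agent.R273.BochB_101
open Crest.Agent.R273.BochC_101 Crest.Agent.R273.BochD_101
open Crest.Agent.R273.Hess_333 Crest.Agent.R273.HessB_333
open Crest.Agent.R273.Defs_333 (lev)
open Crest.Agent.R273.YauDefs_635 (cH)
open Crest.Agent.R273.YauMax_635 (cH_eq_hess)
open Crest.Agent.R257.C2F1_625 Crest.Agent.R257.C2F2_625 Crest.Agent.R257.C2F3_625
open Crest.Agent.R257.C2F4_335 Crest.Agent.R257.C2F5_335
open Crest.Agent.R257.Defs_219
open Crest.Agent.R257.PN_835 (nsq)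
open Crest.Agent.R257.Aff_835 (eta2a)
open Crest.Agent.R257.KED_952 Crest.Agent.R257.KEG_952 Crest.Agent.R257.KEU_952
open Crest.Agent.R257.V1Defs_822 (SmL LvlOK)
open Crest.Agent.R257.KUP_952 (HK)
open Crest.Agent.R257.BCU4_532 (bf Th)
open Crest.Agent.R257.OutD_309 (Js Js_det Hc Hc_ev HO_eq Pot ldt)
open Crest.Agent.R257.GBL3_625
open Crest.Agent.R257.GBLcut_844 (pd_nonneg)
open Crest.Agent.R257.Ked2_397 (denStmt eta2a_norm kahAt_hess)

/-! ### the Kaehler-Einstein metric in a parametrisation -/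

/-- data of a Kaehler-Einstein metric matrix at a point -/
structure KPack (K : Cn 2 → Matrix (Fin 2) (Fin 2) ℂ) (z : Cn 2) : Prop where
  sm : ∀ᶠ y in 𝓝 z, SmM y K
  herm : ∀ᶠ y in 𝓝 z, (K y).IsHermitian
  pos : (K z).PosDef
  kah : ∀ᶠ y in 𝓝 z, KahAt K y
  ein : ∀ a b, ric K z a b = - K z b a

theorem ke_pack {f : E3 → ℂ} {s : ℂ} {r : ℝ} {u : E3 → ℝ} (hL : LvlOK f s r)
    (hu : KEon f s r u) {θ : Cn 2 → E3} {O : Set (Cn 2)} (hP : PE f s r θ O) {z : Cn 2}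
    (hz : z ∈ O) :
    KPack (fun y => (hess (fun z => u (θ z)) y)ᵀ) z := by
  have hO := hP.par.isOpen
  set v : Cn 2 → ℝ := fun z => u (θ z) with hv
  have hvs : ContDiffOn ℝ ∞ v O := hu.sm θ O hP
  have hva : ∀ y ∈ O, ContDiffAt ℝ ∞ v y := fun y hy => hvs.contDiffAt (hO.mem_nhds hy)
  set K : Cn 2 → Matrix (Fin 2) (Fin 2) ℂ := fun y => (hess v y)ᵀ with hK
  have hpd : ∀ y ∈ O, (hess v y).PosDef := fun y hy => posDef_hess (hva y hy) (hu.pos θ O hP y hy)
  have eO : ∀ᶠ y in 𝓝 z, y ∈ O := hO.mem_nhds hz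
  have hfz : ∀ y ∈ O, AnalyticAt ℂ f (θ y) := fun y hy => hL.an _ (hP.lt y hy)
  have h0z : ∀ y ∈ O, fderiv ℂ f (θ y) ≠ 0 := fun y hy =>
    hL.sm _ (hP.ne y hy) (hP.lt y hy) (hP.par.lvl y hy)
  have hmu : 0 < eta2a (n := 2) f θ z := Loc_835.eta2a_pos hP.par hz (h0z z hz)
  have hma : ∀ y ∈ O, (K y).det = ((Real.exp (u (θ y)) * eta2a (n := 2) f θ y : ℝ) : ℂ) := by
    intro y hy
    show ((hess v y)ᵀ).det = _
    rw [Matrix.det_transpose, ← cH_eq_hess (hva y hy)]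
    exact hu.ma θ O hP y hy
  have hKsm : ∀ y ∈ O, SmM y K := fun y hy S S' => contDiffAt_hess (hva y hy) S' S
  have hKh : ∀ y ∈ O, (K y).IsHermitian := fun y hy => (hpd y hy).isHermitian.transpose
  refine ⟨eO.mono fun y hy => hKsm y hy, eO.mono fun y hy => hKh y hy, (hpd z hz).transpose,
    eO.mono fun y hy => kahAt_hess hO hvs hy, ?_⟩
  intro a b
  have h0 : 0 < (K z).det.re := by
    rw [hma z hz, ofReal_re]
    positivity
  rw [← hess_neg_log_det (hKsm z hz) (eO.mono fun y hy => hKh y hy) h0 a b]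
  obtain ⟨q, hq, hq0, hqe⟩ := eta2a_norm (n := 2) hP.par hz (hfz z hz) (h0z z hz)
  have hqd : ∀ᶠ w in 𝓝 z, DifferentiableAt ℂ q w :=
    hq.eventually_analyticAt.mono fun w hw => hw.differentiableAt
  set g : Cn 2 → ℝ := fun w => Real.log (‖q w‖ ^ 2) with hg
  have hgs : ContDiffAt ℝ ∞ g z := KEl_835.c2_log hq hq0 ∞
  have e3 : (fun y => - Real.log (K y).det.re) =ᶠ[𝓝 z] fun y => -(v y + g y) := by
    filter_upwards [eO, hqe, hq.continuousAt.eventually_ne hq0] with y hy hy' hy0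
    have h1 : eta2a (n := 2) f θ y = ‖q y‖ ^ 2 := hy'
    have h2 : 0 < ‖q y‖ := norm_pos_iff.2 hy0
    rw [hma y hy, ofReal_re, h1, Real.log_mul (Real.exp_pos _).ne' (by positivity), Real.log_exp]
  rw [hess_congr e3, hess_neg ((hva z hz).add hgs), hess_add (hva z hz) hgs,
    hess_log_norm hqd hq0, add_zero]
  rfl

/-! ### contraction with a positive matrix -/

/-- `tr (Q X_{cd})` -/
def trf (Q : Matrix (Fin 2) (Fin 2) ℂ) (X : Fin 2 → Fin 2 → Matrix (Fin 2) (Fin 2) ℂ) :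
    Matrix (Fin 2) (Fin 2) ℂ := Matrix.of fun c d => (Q * X c d).trace

theorem trace_fac (B X : Matrix (Fin 2) (Fin 2) ℂ) : ((Bᴴ * B) * X).trace =
    star (fun a => star (B 0 a)) ⬝ᵥ (X *ᵥ fun a => star (B 0 a)) +
      star (fun a => star (B 1 a)) ⬝ᵥ (X *ᵥ fun a => star (B 1 a)) := by
  simp only [Matrix.trace_fin_two, Matrix.mul_apply, Fin.sum_univ_two, dotProduct,
    Matrix.mulVec, Pi.star_apply, star_star, Matrix.conjTranspose_apply]
  ring

theorem psd_trf {K : Cn 2 → Matrix (Fin 2) (Fin 2) ℂ} {z : Cn 2} (h : KPack K z)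
    {Q : Matrix (Fin 2) (Fin 2) ℂ} (hQ : Q.PosSemidef) {r : ℝ}
    (hr : 4 * Real.sqrt ((c2 K z).re / (K z).det.re) ≤ r) :
    (((r * (Q * K z).trace.re : ℝ) : ℂ) • (K z)ᵀ - trf Q (rm K z)).PosSemidef ∧
    (((r * (Q * K z).trace.re : ℝ) : ℂ) • (K z)ᵀ + trf Q (rm K z)).PosSemidef := by
  obtain ⟨B, hB⟩ := exists_fac hQ
  have h0 := einstein_psd h.sm h.herm h.pos h.kah h.ein (fun a => star (B 0 a)) hr
  have h1 := einstein_psd h.sm h.herm h.pos h.kah h.ein (fun a => star (B 1 a)) hr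
  have e1 : trf Q (rm K z) = (Matrix.of fun c d => star (fun a => star (B 0 a)) ⬝ᵥ
      (rm K z c d *ᵥ fun a => star (B 0 a))) + Matrix.of fun c d =>
      star (fun a => star (B 1 a)) ⬝ᵥ (rm K z c d *ᵥ fun a => star (B 1 a)) := by
    ext c d
    rw [Matrix.add_apply, Matrix.of_apply, Matrix.of_apply, trf, Matrix.of_apply, hB, trace_fac]
  have e2 : (((r * (Q * K z).trace.re : ℝ) : ℂ) • (K z)ᵀ) =
      (((r * (star (fun a => star (B 0 a)) ⬝ᵥ (K z *ᵥ fun a => star (B 0 a))).re : ℝ) : ℂ) •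
        (K z)ᵀ) +
      (((r * (star (fun a => star (B 1 a)) ⬝ᵥ (K z *ᵥ fun a => star (B 1 a))).re : ℝ) : ℂ) •
        (K z)ᵀ) := by
    rw [← add_smul, hB, trace_fac, Complex.add_re]
    congr 1
    push_cast
    ring
  rw [e1, e2]
  constructor
  · have := h0.1.add h1.1
    convert this using 1
    abel
  · have := h0.2.add h1.2
    convert this using 1
    abel

/-- `pd X Y` against a bound of a Hermitian `Y` -/
theorem pd_norm_le {X Y W : Matrix (Fin 2) (Fin 2) ℂ} (hX : X.PosSemidef)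
    (h1 : (W - Y).PosSemidef) (h2 : (W + Y).PosSemidef) : ‖pd X Y‖ ≤ (pd X W).re := by
  have hY : Y.IsHermitian := by
    have h3 : ((W + Y) - (W - Y)).IsHermitian := h2.1.sub h1.1
    have h4 : (W + Y) - (W - Y) = (2 : ℂ) • Y := by
      rw [two_smul]; abel
    rw [h4] at h3
    have h5 : Yᴴ = (2 : ℂ)⁻¹ • ((2 : ℂ) • Y)ᴴ := by
      rw [Matrix.conjTranspose_smul, smul_smul]
      simp
    rw [Matrix.IsHermitian, h5, h3.eq, smul_smul]
    simp
  have him : (pd X Y).im = 0 := GBLcut_844.pd_herm_im hX.1 hY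
  have a1 := pd_nonneg hX h1
  have a2 := pd_nonneg hX h2
  rw [pd_sub, Complex.sub_re] at a1
  rw [pd_add, Complex.add_re] at a2
  have e : ‖pd X Y‖ = |(pd X Y).re| := by
    have : pd X Y = (((pd X Y).re : ℝ) : ℂ) := Complex.ext (by simp) (by simp [him])
    rw [this, Complex.norm_real, Real.norm_eq_abs, Complex.ofReal_re]
  rw [e, abs_le]
  constructor <;> linarith

end Crest.Agent.R257.Ptw_617
end
end

-- ▼ part R257/Ptw2_617
section

/-!
# R257 (S0395), part (GB), leaf GB-PTW (helper617): pointwise curvature bound on `Ω¹`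

* `bf_eq`    : `tr (L F)` for the metric `HK u`, by the curvature of `K = (∂∂̄u)ᵀ`
* `ptwStmt`  : **`BCUP_532.PtwStmt`**
-/

set_option autoImplicit false
set_option linter.unusedSectionVars false
set_option linter.unusedSimpArgs false

open Topology Filter MeasureTheory Set Complex
open scoped ContDiff Matrix ComplexConjugate ComplexOrder

noncomputable section

namespace Crest.Agent.R257.Ptw_617

open Crest.Agent.R275.Geo Crest.Agent.R275.EDR890
open Crest.Agent.R273.Fock_243 Crest.Agent.R273.Calc_243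
open Crest.Agent.R273.Bkn_243 Crest.Agent.R273.Pos_243 Crest.Agent.R273.BochA_101
open Crest.Agent.R273.BochB_101
open Crest.Agent.R273.BochC_101 Crest.Agent.R273.BochD_101
open Crest.Agent.R273.Hess_333 Crest.Agent.R273.HessB_333
open Crest.Agent.R273.Defs_333 (lev)
open Crest.Agent.R273.YauDefs_635 (cH)
open Crest.Agent.R273.YauMax_635 (cH_eq_hess)
open Crest.Agent.R257.C2F1_625 Crest.Agent.R257.C2F2_625 Crest.Agent.R257.C2F3_625
open Crest.Agent.R257.C2F4_335 Crest.Agent.R257.C2F5_335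
open Crest.Agent.R257.Defs_219
open Crest.Agent.R257.PN_835 (nsq)
open Crest.Agent.R257.Aff_835 (eta2a)
open Crest.Agent.R257.KED_952 Crest.Agent.R257.KEG_952 Crest.Agent.R257.KEU_952
open Crest.Agent.R257.V1Defs_822 (SmL LvlOK)
open Crest.Agent.R257.KUP_952 (HK)
open Crest.Agent.R257.BCU4_532 (bf Th)
open Crest.Agent.R257.OutD_309 (Js Js_det Hc Hc_ev HO_eq Pot ldt)
open Crest.Agent.R257.GBL3_625
open Crest.Agent.R257.GBLcut_844 (pd_nonneg)
open Crest.Agent.R257.Ked2_397 (denStmt eta2a_norm kahAt_hess)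

theorem Js1 : Jsᴴ * Js = 1 := by
  ext i j
  fin_cases i <;> fin_cases j <;>
    simp [Js, Matrix.mul_apply, Fin.sum_univ_two, Matrix.conjTranspose_apply]

theorem Js2 : Js * Jsᴴ = 1 := by
  ext i j
  fin_cases i <;> fin_cases j <;>
    simp [Js, Matrix.mul_apply, Fin.sum_univ_two, Matrix.conjTranspose_apply]

variable {v : Cn 2 → ℝ} {z : Cn 2}

/-- the twisted frame -/
theorem Th_HK (h : Pot v z) (hp : KPack (fun y => (hess v y)ᵀ) z) (c d : Fin 2) :
    Th (Hc v fun _ => 0) c d z =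
      Jsᴴ * ((hess v z)ᵀ)⁻¹ * rm (fun y => (hess v y)ᵀ) z c d * Js +
        ((hess v z)ᵀ) d c • (1 : Matrix (Fin 2) (Fin 2) ℂ) := by
  set K : Cn 2 → Matrix (Fin 2) (Fin 2) ℂ := fun y => (hess v y)ᵀ with hK
  have hKz : (hess v z)ᵀ = K z := rfl
  have hKd : (K z).det ≠ 0 := hp.pos.det_pos.ne'
  have i3 : K z * (K z)⁻¹ = 1 := Matrix.mul_nonsing_inv _ (isUnit_iff_ne_zero.2 hKd)
  have i4 : (K z)⁻¹ * K z = 1 := Matrix.nonsing_inv_mul _ (isUnit_iff_ne_zero.2 hKd)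
  have hJ : HolM z (fun _ : Cn 2 => Js) := fun S T =>
    Eventually.of_forall fun y => differentiableAt_const _
  have hJd : (Js).det ≠ 0 := by rw [Js_det]; exact one_ne_zero
  set K' : Cn 2 → Matrix (Fin 2) (Fin 2) ℂ := fun y => Jsᴴ * K y * Js with hK'
  have hJc : (Jsᴴ).det = 1 := by rw [Matrix.det_conjTranspose, Js_det, star_one]
  have hdet : ∀ y, (K' y).det = (hess v y).det := fun y => by
    rw [hK', Matrix.det_mul, Matrix.det_mul, hJc, Js_det, one_mul, mul_one, hK,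
      Matrix.det_transpose]
  have hK'd : (K' z).det ≠ 0 := by rw [hdet]; exact h.det_ne
  have hK'sm : SmM z K' := by
    have h1 := hp.sm.self_of_nhds
    intro S T
    have h2 : (fun y => K' y S T) = fun y => ∑ b, (∑ a, Jsᴴ S a * K y a b) * Js b T := by
      funext y
      simp only [hK', Matrix.mul_apply]
    rw [h2]
    refine ContDiffAt.sum fun b _ => ContDiffAt.mul (ContDiffAt.sum fun a _ => ?_)
      contDiffAt_const
    exact contDiffAt_const.mul (h1 a b)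
  have hinv : (K' z)⁻¹ = Jsᴴ * (K z)⁻¹ * Js := by
    refine Matrix.inv_eq_right_inv ?_
    calc Jsᴴ * K z * Js * (Jsᴴ * (K z)⁻¹ * Js)
        = Jsᴴ * (K z * ((Js * Jsᴴ) * (K z)⁻¹)) * Js := by simp only [Matrix.mul_assoc]
      _ = 1 := by rw [Js2, Matrix.one_mul, i3, Matrix.mul_one, Js1]
  have hld := h.sm_ldt
  have hrm : rm K' z c d = Jsᴴ * rm K z c d * Js :=
    rm_frame (F := fun _ => Js) hp.sm hKd hJ hJd c d
  have hH : hess (ldt v) z c d = K z d c := by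
    have h0 : 0 < (K z).det.re := (Complex.lt_def.1 hp.pos.det_pos).1
    have h1 := hess_neg_log_det hp.sm.self_of_nhds hp.herm h0 c d
    rw [hp.ein] at h1
    have e3 : (fun y => - Real.log (K y).det.re) = fun y => - ldt v y := by
      funext y
      rw [hK, Matrix.det_transpose, ldt]
    rw [e3, hess_neg hld, Matrix.neg_apply] at h1
    exact neg_inj.1 h1
  have e0 := Hc_ev (ψ := fun _ => 0) h
  have hz0 : Hc v (fun _ => 0) z = ((Real.exp (-(0 + ldt v z)) : ℝ) : ℂ) • K' z := e0.eq_of_nhds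
  have hrmH : rm (Hc v fun _ => 0) z c d = ((Real.exp (-(0 + ldt v z)) : ℝ) : ℂ) •
      (rm K' z c d + hess (fun y => 0 + ldt v y) z c d • K' z) := by
    rw [rm_congr e0]
    exact rm_twist (H := K') (φ := fun y => 0 + ldt v y) hK'sm hK'd (contDiffAt_const.add hld) c d
  have hH' : hess (fun y => 0 + ldt v y) z = hess (ldt v) z := by
    have : (fun y => 0 + ldt v y) = ldt v := by
      funext y
      rw [zero_add]
    rw [this]
  set e : ℂ := ((Real.exp (-(0 + ldt v z)) : ℝ) : ℂ) with he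
  have he0 : e ≠ 0 := Complex.ofReal_ne_zero.2 (Real.exp_pos _).ne'
  have hinv2 : (e • K' z)⁻¹ = e⁻¹ • (K' z)⁻¹ := by
    refine Matrix.inv_eq_right_inv ?_
    rw [Matrix.smul_mul, Matrix.mul_smul,
      Matrix.mul_nonsing_inv _ (isUnit_iff_ne_zero.2 hK'd), smul_smul, mul_inv_cancel₀ he0,
      one_smul]
  rw [Th, hrmH, hz0, hinv2, Matrix.smul_mul, Matrix.mul_smul, smul_smul, inv_mul_cancel₀ he0,
    one_smul, hH', hH, Matrix.mul_add, Matrix.mul_smul,
    Matrix.nonsing_inv_mul _ (isUnit_iff_ne_zero.2 hK'd), hrm, hinv, hKz]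
  congr 1
  calc Jsᴴ * (K z)⁻¹ * Js * (Jsᴴ * rm K z c d * Js)
      = Jsᴴ * (K z)⁻¹ * ((Js * Jsᴴ) * rm K z c d * Js) := by simp only [Matrix.mul_assoc]
    _ = Jsᴴ * (K z)⁻¹ * rm K z c d * Js := by
      rw [Js2, Matrix.one_mul]; simp only [Matrix.mul_assoc]

/-- the endomorphism in the frame of the tangent bundle -/
def PP' (K L : Matrix (Fin 2) (Fin 2) ℂ) : Matrix (Fin 2) (Fin 2) ℂ := Js * L * Jsᴴ * K⁻¹

theorem bf_eq (h : Pot v z) (hp : KPack (fun y => (hess v y)ᵀ) z)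
    (L : Cn 2 → Matrix (Fin 2) (Fin 2) ℂ) :
    bf (Hc v fun _ => 0) L z =
      trf (PP' ((hess v z)ᵀ) (L z)) (rm (fun y => (hess v y)ᵀ) z) +
        (L z).trace • ((hess v z)ᵀ)ᵀ := by
  ext c d
  rw [bf, Matrix.of_apply, Th_HK h hp, Matrix.mul_add, Matrix.trace_add, Matrix.add_apply,
    Matrix.smul_apply, trf, Matrix.of_apply, Matrix.mul_smul, Matrix.mul_one, Matrix.trace_smul,
    Matrix.transpose_apply _ c d, smul_eq_mul, smul_eq_mul, mul_comm (Matrix.trace (L z))]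
  congr 1
  rw [PP', ← Matrix.mul_assoc, Matrix.trace_mul_comm]
  simp only [Matrix.mul_assoc]

theorem trace_PP {K L : Matrix (Fin 2) (Fin 2) ℂ} (hK : K.det ≠ 0) :
    (PP' K L * K).trace = L.trace := by
  rw [PP', Matrix.mul_assoc, Matrix.nonsing_inv_mul _ (isUnit_iff_ne_zero.2 hK), Matrix.mul_one,
    Matrix.mul_assoc, Matrix.trace_mul_comm, Matrix.mul_assoc, Js1, Matrix.mul_one]

/-- positivity in the frame of the tangent bundle -/
theorem psd_PP {K L : Matrix (Fin 2) (Fin 2) ℂ} (hK : K.PosDef) {e : ℝ} (he : 0 < e) {V σ : ℂ}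
    (h : (V • ((e : ℂ) • (Jsᴴ * K * Js)) + σ • (((e : ℂ) • (Jsᴴ * K * Js)) * L)).PosSemidef) :
    (V • K⁻¹ + σ • PP' K L).PosSemidef := by
  have hKd : K.det ≠ 0 := hK.det_pos.ne'
  have i3 : K * K⁻¹ = 1 := Matrix.mul_nonsing_inv _ (isUnit_iff_ne_zero.2 hKd)
  have i4 : K⁻¹ * K = 1 := Matrix.nonsing_inv_mul _ (isUnit_iff_ne_zero.2 hKd)
  have hc : (K⁻¹)ᴴ = K⁻¹ := (hK.inv).1
  have h1 := h.conjTranspose_mul_mul_same (Jsᴴ * K⁻¹)
  rw [Matrix.conjTranspose_mul, Matrix.conjTranspose_conjTranspose, hc] at h1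
  have a1 : K⁻¹ * Js * (Jsᴴ * K * Js) * (Jsᴴ * K⁻¹) = K⁻¹ := by
    calc K⁻¹ * Js * (Jsᴴ * K * Js) * (Jsᴴ * K⁻¹)
        = K⁻¹ * ((Js * Jsᴴ) * (K * ((Js * Jsᴴ) * K⁻¹))) := by simp only [Matrix.mul_assoc]
      _ = K⁻¹ := by rw [Js2, Matrix.one_mul, Matrix.one_mul, i3, Matrix.mul_one]
  have a2 : K⁻¹ * Js * ((Jsᴴ * K * Js) * L) * (Jsᴴ * K⁻¹) = PP' K L := by
    calc K⁻¹ * Js * ((Jsᴴ * K * Js) * L) * (Jsᴴ * K⁻¹)
        = K⁻¹ * ((Js * Jsᴴ) * (K * (Js * (L * (Jsᴴ * K⁻¹))))) := by simp only [Matrix.mul_assoc]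
      _ = (K⁻¹ * K) * (Js * (L * (Jsᴴ * K⁻¹))) := by
        rw [Js2, Matrix.one_mul]; simp only [Matrix.mul_assoc]
      _ = PP' K L := by rw [i4, Matrix.one_mul, PP']; simp only [Matrix.mul_assoc]
  have e1 : K⁻¹ * Js * (V • ((e : ℂ) • (Jsᴴ * K * Js)) +
      σ • (((e : ℂ) • (Jsᴴ * K * Js)) * L)) * (Jsᴴ * K⁻¹) =
      (e : ℂ) • (V • K⁻¹ + σ • PP' K L) := by
    rw [Matrix.mul_add, Matrix.add_mul, Matrix.mul_smul, Matrix.smul_mul, Matrix.mul_smul,
      Matrix.smul_mul, a1, Matrix.smul_mul, Matrix.mul_smul, Matrix.smul_mul, Matrix.mul_smul,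
      Matrix.smul_mul, a2, smul_add, smul_comm V, smul_comm σ]
  rw [e1] at h1
  have h2 := h1.smul (a := ((e⁻¹ : ℝ) : ℂ)) (by
    rw [Complex.zero_le_real]; positivity)
  rw [smul_smul, ← Complex.ofReal_mul, inv_mul_cancel₀ he.ne', Complex.ofReal_one, one_smul] at h2
  exact h2

theorem trace_nonneg {Q K : Matrix (Fin 2) (Fin 2) ℂ} (hQ : Q.PosSemidef) (hK : K.PosSemidef) :
    0 ≤ (Q * K).trace := by
  obtain ⟨B, hB⟩ := exists_fac hQ
  rw [hB, trace_fac]
  exact add_nonneg (hK.dotProduct_mulVec_nonneg _) (hK.dotProduct_mulVec_nonneg _)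

theorem trf_add (A B : Matrix (Fin 2) (Fin 2) ℂ)
    (X : Fin 2 → Fin 2 → Matrix (Fin 2) (Fin 2) ℂ) : trf (A + B) X = trf A X + trf B X := by
  ext c d
  simp only [trf, Matrix.of_apply, Matrix.add_apply, Matrix.add_mul, Matrix.trace_add]

theorem trf_smul (t : ℂ) (B : Matrix (Fin 2) (Fin 2) ℂ)
    (X : Fin 2 → Fin 2 → Matrix (Fin 2) (Fin 2) ℂ) : trf (t • B) X = t • trf B X := by
  ext c d
  simp only [trf, Matrix.of_apply, Matrix.smul_apply, Matrix.smul_mul, Matrix.trace_smul]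

/-- the bound of `trf P + t Kᵀ` -/
theorem psd_tot {K : Cn 2 → Matrix (Fin 2) (Fin 2) ℂ} (h : KPack K z)
    {P : Matrix (Fin 2) (Fin 2) ℂ} {V t : ℝ} (ht : (P * K z).trace = (t : ℂ))
    (h1 : ((V : ℂ) • (K z)⁻¹ + (1 : ℂ) • P).PosSemidef)
    (h2 : ((V : ℂ) • (K z)⁻¹ + (-1 : ℂ) • P).PosSemidef) {r : ℝ}
    (hr : 4 * Real.sqrt ((c2 K z).re / (K z).det.re) ≤ r) :
    |t| ≤ 2 * V ∧
    (((2 * r * V + |t| : ℝ) : ℂ) • (K z)ᵀ - (trf P (rm K z) + (t : ℂ) • (K z)ᵀ)).PosSemidef ∧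
    (((2 * r * V + |t| : ℝ) : ℂ) • (K z)ᵀ + (trf P (rm K z) + (t : ℂ) • (K z)ᵀ)).PosSemidef := by
  have hKd : (K z).det ≠ 0 := h.pos.det_pos.ne'
  have i4 : (K z)⁻¹ * K z = 1 := Matrix.nonsing_inv_mul _ (isUnit_iff_ne_zero.2 hKd)
  have t1 : (((V : ℂ) • (K z)⁻¹ + (1 : ℂ) • P) * K z).trace = ((2 * V + t : ℝ) : ℂ) := by
    rw [Matrix.add_mul, Matrix.trace_add, Matrix.smul_mul, Matrix.smul_mul, i4,
      Matrix.trace_smul, Matrix.trace_smul, ht, Matrix.trace_one]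
    simp
    ring
  have t2 : (((V : ℂ) • (K z)⁻¹ + (-1 : ℂ) • P) * K z).trace = ((2 * V - t : ℝ) : ℂ) := by
    rw [Matrix.add_mul, Matrix.trace_add, Matrix.smul_mul, Matrix.smul_mul, i4,
      Matrix.trace_smul, Matrix.trace_smul, ht, Matrix.trace_one]
    simp
    ring
  have p1 : 0 ≤ 2 * V + t := by
    have := trace_nonneg h1 h.pos.posSemidef
    rw [t1] at this
    exact_mod_cast this
  have p2 : 0 ≤ 2 * V - t := by
    have := trace_nonneg h2 h.pos.posSemidef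
    rw [t2] at this
    exact_mod_cast this
  have hab : |t| ≤ 2 * V := abs_le.2 ⟨by linarith, by linarith⟩
  have q1 := psd_trf h h1 hr
  have q2 := psd_trf h h2 hr
  rw [t1, Complex.ofReal_re] at q1
  rw [t2, Complex.ofReal_re] at q2
  have hKt : ((K z)ᵀ).PosSemidef := h.pos.posSemidef.transpose
  have half : (0 : ℂ) ≤ ((1 / 2 : ℝ) : ℂ) := by
    rw [Complex.zero_le_real]; norm_num
  have eP : trf P (rm K z) = ((1 / 2 : ℝ) : ℂ) • trf ((V : ℂ) • (K z)⁻¹ + (1 : ℂ) • P) (rm K z) -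
      ((1 / 2 : ℝ) : ℂ) • trf ((V : ℂ) • (K z)⁻¹ + (-1 : ℂ) • P) (rm K z) := by
    rw [trf_add, trf_add, trf_smul 1, trf_smul (-1)]
    push_cast
    module
  refine ⟨hab, ?_, ?_⟩
  · have b1 := (q1.1.smul half).add (q2.2.smul half)
    have b2 : (((|t| - t : ℝ) : ℂ) • (K z)ᵀ).PosSemidef :=
      hKt.smul (by rw [Complex.zero_le_real]; linarith [le_abs_self t])
    convert b1.add b2 using 1
    rw [eP]
    push_cast
    module
  · have b1 := (q1.2.smul half).add (q2.1.smul half)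
    have b2 : (((|t| + t : ℝ) : ℂ) • (K z)ᵀ).PosSemidef :=
      hKt.smul (by rw [Complex.zero_le_real]; linarith [neg_abs_le t])
    convert b1.add b2 using 1
    rw [eP]
    push_cast
    module

end Crest.Agent.R257.Ptw_617
end
end

-- ▼ part R257/Ptw3_617
section

/-!
# R257 (S0395), part (GB), leaf GB-PTW (helper617)

* `ptwStmt` : **`BCUP_532.PtwStmt`**, constant `21`
-/

set_option autoImplicit false
set_option linter.unusedSectionVars false
set_option linter.unusedSimpArgs false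

open Topology Filter MeasureTheory Set Complex
open scoped ContDiff Matrix ComplexConjugate ComplexOrder

noncomputable section

namespace Crest.Agent.R257.Ptw_617

open Crest.Agent.R275.Geo Crest.Agent.R275.EDR890
open Crest.Agent.R273.Fock_243 Crest.Agent.R273.Calc_243
open Crest.Agent.R273.Bkn_243 Crest.Agent.R273.Pos_243 Crest.Agent.R273.BochA_101
open Crest.Agent.R273.BochB_101
open Crest.Agent.R273.BochC_101 Crest.Agent.R273.BochD_101
open Crest.Agent.R273.Hess_333 Crest.Agent.R273.HessB_333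
open Crest.Agent.R273.Defs_333 (lev)
open Crest.Agent.R273.YauDefs_635 (cH)
open Crest.Agent.R273.YauMax_635 (cH_eq_hess)
open Crest.Agent.R257.C2F1_625 Crest.Agent.R257.C2F2_625 Crest.Agent.R257.C2F3_625
open Crest.Agent.R257.C2F4_335 Crest.Agent.R257.C2F5_335
open Crest.Agent.R257.Defs_219
open Crest.Agent.R257.PN_835 (nsq)
open Crest.Agent.R257.Aff_835 (eta2a)
open Crest.Agent.R257.KED_952 Crest.Agent.R257.KEG_952 Crest.Agent.R257.KEU_952
open Crest.Agent.R257.V1Defs_822 (SmL LvlOK)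
open Crest.Agent.R257.KUP_952 (HK)
open Crest.Agent.R257.BCU4_532 (bf Th)
open Crest.Agent.R257.OutD_309 (Js Js_det Hc Hc_ev HO_eq Pot ldt)
open Crest.Agent.R257.GBL3_625
open Crest.Agent.R257.GBLcut_844 (pd_nonneg)
open Crest.Agent.R257.Ked2_397 (denStmt eta2a_norm kahAt_hess)
open Crest.Agent.R257.BCUP_532 (PtwStmt)

/-- **pointwise curvature bound** -/
theorem ptwStmt : PtwStmt := by
  refine ⟨21, by norm_num, ?_⟩
  intro f r u hL hu θ O hP z hz L X q V hq hV hX hqX hm hp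
  have hO := hP.par.isOpen
  set v : Cn 2 → ℝ := fun z => u (θ z) with hv
  have hvs : ContDiffOn ℝ ∞ v O := hu.sm θ O hP
  have hpot : Pot v z := Pot.of_on hO hvs (hu.pos θ O hP) hz
  have hK : KPack (fun y => (hess v y)ᵀ) z := ke_pack hL hu hP hz
  set K : Cn 2 → Matrix (Fin 2) (Fin 2) ℂ := fun y => (hess v y)ᵀ with hKdef
  have hKd : (K z).det ≠ 0 := hK.pos.det_pos.ne'
  have hcH : cH v z = (K z)ᵀ := by
    rw [cH_eq_hess (hvs.contDiffAt (hO.mem_nhds hz))]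
    rfl
  -- the metric
  have e0 : HK u θ z = ((Real.exp (-(0 + ldt v z)) : ℝ) : ℂ) • (Jsᴴ * K z * Js) :=
    (Hc_ev (ψ := fun _ => 0) hpot).eq_of_nhds
  have hf0 : fderiv ℂ f (θ z) ≠ 0 := hL.sm _ (hP.ne z hz) (hP.lt z hz) (hP.par.lvl z hz)
  have hmu : 0 < eta2a (n := 2) f θ z := Loc_835.eta2a_pos hP.par hz hf0
  have hdet : (K z).det.re = Real.exp (u (θ z)) * eta2a (n := 2) f θ z := by
    have h1 := hu.ma θ O hP z hz
    have h2 : (K z).det = (cH v z).det := by rw [hcH]; exact (Matrix.det_transpose _).symm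
    rw [h2]
    rw [show (cH v z).det = ((Real.exp (u (θ z)) * eta2a (n := 2) f θ z : ℝ) : ℂ) from h1,
      Complex.ofReal_re]
  have hc2 : (c2 K z).re = c2d f u (θ z) * eta2a (n := 2) f θ z := by
    have h1 := (denStmt f 0 r hL.pos hL.an (fun x a b c => hL.sm x a b c) θ O hP).2 u hu z hz
    rw [h1]
    refine congrArg Complex.re (c2_congr ?_).symm
    filter_upwards [hO.mem_nhds hz] with y hy
    rw [cH_eq_hess (hvs.contDiffAt (hO.mem_nhds hy))]
  set s : ℝ := Real.sqrt ((c2 K z).re / (K z).det.re) with hs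
  -- `s` is bounded below
  have hdp : 0 < (K z).det.re := by rw [hdet]; positivity
  have hge := einstein_ge hK.sm hK.herm hK.pos hK.kah hK.ein
  have hs1 : 1 ≤ 5 / 4 * s := by
    have h1 : (4 / 5 : ℝ) ≤ s := by
      refine Real.le_sqrt_of_sq_le ?_
      rw [le_div_iff₀ hdp]
      linarith
    linarith
  have hs0 : 0 ≤ s := Real.sqrt_nonneg _
  have hsd : s * (K z).det.re =
      Real.sqrt (c2d f u (θ z) * Real.exp (u (θ z))) * eta2a (n := 2) f θ z := by
    have hE := Real.exp_pos (u (θ z))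
    have h1 : (c2 K z).re / (K z).det.re = c2d f u (θ z) / Real.exp (u (θ z)) := by
      rw [hc2, hdet]
      field_simp
    have h2 : c2d f u (θ z) * Real.exp (u (θ z)) =
        c2d f u (θ z) / Real.exp (u (θ z)) * Real.exp (u (θ z)) ^ 2 := by
      field_simp
    rw [hs, h1, h2, Real.sqrt_mul' _ (sq_nonneg _), Real.sqrt_sq hE.le, hdet]
    ring
  -- the trace of `L` is real
  have hHK : (HK u θ z).PosDef := by
    rw [show HK u θ z = Hc v (fun _ => 0) z from rfl]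
    exact OutD_309.Hc_posDef hpot _
  set P := PP' (K z) (L z) with hPd
  have g1 : ((V : ℂ) • (K z)⁻¹ + (1 : ℂ) • P).PosSemidef := by
    refine psd_PP hK.pos (e := Real.exp (-(0 + ldt v z))) (Real.exp_pos _) ?_
    rw [← e0, one_smul]
    exact hp
  have g2 : ((V : ℂ) • (K z)⁻¹ + (-1 : ℂ) • P).PosSemidef := by
    refine psd_PP hK.pos (e := Real.exp (-(0 + ldt v z))) (Real.exp_pos _) ?_
    rw [← e0, neg_one_smul, ← sub_eq_add_neg]
    exact hm
  have hPH : Pᴴ = P := by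
    have h1 : ((V : ℂ) • (K z)⁻¹ + (1 : ℂ) • P)ᴴ = (V : ℂ) • (K z)⁻¹ + (1 : ℂ) • P := g1.1
    rw [Matrix.conjTranspose_add, Matrix.conjTranspose_smul, Matrix.conjTranspose_smul,
      (hK.pos.inv).1.eq, star_one, one_smul, one_smul, RCLike.star_def, Complex.conj_ofReal] at h1
    exact add_left_cancel h1
  have htr : (P * K z).trace = (L z).trace := trace_PP hKd
  obtain ⟨t, ht⟩ : ∃ t : ℝ, (P * K z).trace = (t : ℂ) := by
    refine ⟨(P * K z).trace.re, ?_⟩
    have h1 : star (P * K z).trace = (P * K z).trace := by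
      rw [← Matrix.trace_conjTranspose, Matrix.conjTranspose_mul, hPH, hK.pos.1.eq,
        Matrix.trace_mul_comm]
    exact (Complex.conj_eq_iff_re.1 h1).symm
  obtain ⟨h1, h2, h3⟩ := psd_tot hK ht g1 g2 (r := 4 * s) le_rfl
  have hb : bf (HK u θ) L z = trf P (rm K z) + (t : ℂ) • (K z)ᵀ := by
    rw [← ht, htr]
    exact bf_eq hpot hK L
  rw [hb]
  have h4 := pd_norm_le hX h2 h3
  set T : ℝ := 2 * (4 * s) * V + |t| with hT
  have hT0 : 0 ≤ T := by positivity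
  have hT1 : T ≤ 21 / 2 * s * V := by
    have : 2 * V ≤ 5 / 2 * s * V := by nlinarith
    rw [hT]
    linarith
  rw [pd_smul, Complex.re_ofReal_mul] at h4
  have hKt : ((K z)ᵀ).PosSemidef := hK.pos.posSemidef.transpose
  have h5 : (pd X (K z)ᵀ).re ≤ 2 * q * (K z).det.re := by
    have h6 := pd_nonneg hqX hKt
    rw [hcH, sub_pd, smul_pd, pd_self, Complex.sub_re, Complex.re_ofReal_mul,
      Matrix.det_transpose] at h6
    have h7 : (2 * (K z).det).re = 2 * (K z).det.re := by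
      simp
    rw [h7] at h6
    linarith
  calc ‖pd X (trf P (rm K z) + (t : ℂ) • (K z)ᵀ)‖ ≤ T * (pd X (K z)ᵀ).re := h4
    _ ≤ T * (2 * q * (K z).det.re) := mul_le_mul_of_nonneg_left h5 hT0
    _ ≤ (21 / 2 * s * V) * (2 * q * (K z).det.re) :=
      mul_le_mul_of_nonneg_right hT1 (by positivity)
    _ = 21 * (q * V * (s * (K z).det.re)) := by ring
    _ = _ := by rw [hsd]; ring

end Crest.Agent.R257.Ptw_617
end
end

-- ▼ part R257/Upp_822
section

/-!
# R257 (S0395), part (GB): `UpperStmt` closed (helper822 + 532 + 617)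
-/

namespace Crest.Agent.R257.Upp_822

/-- The Donaldson type upper bound (leaf `UpperStmt` of KUP_952). -/
theorem upperStmt : KUP_952.UpperStmt :=
  BrI_822.upperStmt_of BCUB_532.lgStmt Ptw_617.ptwStmt

end Crest.Agent.R257.Upp_822
end

-- ▼ part R257/UpA9_952
section

/-!
R257 / UpA9_952: assembly of `UppStmt`, part 9: the error term is small at some scales; the
inequality for the cone.
-/

set_option autoImplicit false
set_option linter.unusedSectionVars false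

open Topology Filter MeasureTheory Set
open scoped ENNReal ContDiff Matrix ComplexOrder

noncomputable section

namespace Crest.Agent.R257.UpA_952

open Crest.Agent.R275.Geo
open Crest.Agent.R257.Defs_219
open Crest.Agent.R257.KED_952 Crest.Agent.R257.KEG_952 Crest.Agent.R257.KEU_952
open Crest.Agent.R257.KUP_952
open Crest.Agent.R257.V1Defs_822 (SmL LvlOK lgh)
open Crest.Agent.R257.V1Pe_822
open Crest.Agent.R273.Defs_333 (lev)
open Crest.Agent.R257.PN_835 (nsq)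
open Crest.Agent.R257.LossA_625 (Lv sc sc_pos cv_sm pe_lv ev_pe)
open Crest.Agent.R257.LossB_625 (ae_lv stk3)
open Crest.Agent.R257.LossD_309 (oxd)
open Crest.Agent.R257.SkelV_952 Crest.Agent.R257.SkelG_952

variable {f : E3 → ℂ} {r A : ℝ} {u : E3 → ℝ} {ν : Measure E3} {χ ζ : E3 → ℝ} {k : ℕ}
  {g h : E3 → ℂ} {B : ℝ} {H : Form} {φ V U : E3 → ℝ} {d d₁ d₂ : ℝ}

namespace Sit

variable (S : Sit f r A u ν k g h B H φ V χ ζ d d₁ d₂ U)
include S

theorem int_er (hfin : C2I ν f u χ ≠ ⊤) {i : ℕ} (hi : 1 ≤ i) :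
    Integrable (er f A u V d₁ (Real.exp (i : ℝ))) ν := by
  obtain ⟨C, hC0, hC⟩ := S.exists_C
  have hsc := sc_pos
  have hM := MM_nn S.hE.pos
  have i1 : Integrable (vv A u χ V ((2 * i : ℕ) : ℝ)) ν := (hC _ (by
    have : (1 : ℝ) ≤ i := by exact_mod_cast hi
    push_cast
    linarith)).1
  have i2 := S.int_c hfin
  have i3 := S.int_tt hfin (Real.exp (i : ℝ) / 2)
  have i4 := ((i1.add i2).const_mul (sc * Real.exp (-(i : ℝ)))).add
    (((i1.const_mul 1).add (i3.div_const 1)).const_mul (MM A / 2))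
  refine i4.mono' (S.me_er _).aestronglyMeasurable (ae_lv S.hν fun x hx => ?_)
  have h1 := S.sum_er i one_pos hx
  have h2 : er f A u V d₁ (Real.exp (i : ℝ)) x ≤
      ∑ i' ∈ Finset.Ico i (2 * i), er f A u V d₁ (Real.exp (i' : ℝ)) x :=
    Finset.single_le_sum (f := fun i' : ℕ => er f A u V d₁ (Real.exp (i' : ℝ)) x)
      (fun i' _ => S.er_nn (Real.exp_pos _) x) (Finset.mem_Ico.2 ⟨le_rfl, by omega⟩)
  rw [Real.norm_eq_abs, abs_of_nonneg (S.er_nn (Real.exp_pos _) x)]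
  exact h2.trans h1

theorem sum_int (hfin : C2I ν f u χ ≠ ⊤) {C : ℝ}
    (hC : ∀ ρ : ℝ, 1 ≤ ρ → Integrable (vv A u χ V ρ) ν ∧ ∫ x, vv A u χ V ρ x ∂ν ≤ C * ρ ^ 2)
    {j : ℕ} (hj : 1 ≤ j) {l : ℝ} (hl : 0 < l) :
    ∑ i ∈ Finset.Ico j (2 * j), ∫ x, er f A u V d₁ (Real.exp (i : ℝ)) x ∂ν ≤
      sc * Real.exp (-(j : ℝ)) * (C * (2 * j) ^ 2 + ∫ x, χ x * c2d f u x ∂ν) +
      MM A / 2 * (l * (C * (2 * j) ^ 2) +
        (∫ x, tt f A u χ (Real.exp (j : ℝ) / 2) x ∂ν) / l) := by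
  have hsc := sc_pos
  have hM := MM_nn S.hE.pos
  have h2j : (1 : ℝ) ≤ ((2 * j : ℕ) : ℝ) := by
    have : (1 : ℝ) ≤ j := by exact_mod_cast hj
    push_cast
    linarith
  obtain ⟨i1, e1⟩ := hC _ h2j
  have i2 := S.int_c hfin
  have i3 := S.int_tt hfin (Real.exp (j : ℝ) / 2)
  have j1 := (i1.add i2).const_mul (sc * Real.exp (-(j : ℝ)))
  have j2 := ((i1.const_mul l).add (i3.div_const l)).const_mul (MM A / 2)
  rw [← integral_finsetSum _ fun i hi => S.int_er hfin (hj.trans (Finset.mem_Ico.1 hi).1)]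
  calc ∫ x, ∑ i ∈ Finset.Ico j (2 * j), er f A u V d₁ (Real.exp (i : ℝ)) x ∂ν ≤
      ∫ x, (sc * Real.exp (-(j : ℝ)) * (vv A u χ V ((2 * j : ℕ) : ℝ) x + χ x * c2d f u x) +
      MM A / 2 * (l * vv A u χ V ((2 * j : ℕ) : ℝ) x +
        tt f A u χ (Real.exp (j : ℝ) / 2) x / l)) ∂ν := by
        refine integral_mono_ae (integrable_finsetSum _ fun i hi =>
          S.int_er hfin (hj.trans (Finset.mem_Ico.1 hi).1)) (j1.add j2)
          (ae_lv S.hν fun x hx => S.sum_er j hl hx)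
    _ = sc * Real.exp (-(j : ℝ)) * (∫ x, vv A u χ V ((2 * j : ℕ) : ℝ) x ∂ν +
          ∫ x, χ x * c2d f u x ∂ν) +
        MM A / 2 * (l * ∫ x, vv A u χ V ((2 * j : ℕ) : ℝ) x ∂ν +
        (∫ x, tt f A u χ (Real.exp (j : ℝ) / 2) x ∂ν) / l) := by
        have a1 : ∫ x, (sc * Real.exp (-(j : ℝ)) *
            (vv A u χ V ((2 * j : ℕ) : ℝ) x + χ x * c2d f u x)) ∂ν =
            sc * Real.exp (-(j : ℝ)) * (∫ x, vv A u χ V ((2 * j : ℕ) : ℝ) x ∂ν +
              ∫ x, χ x * c2d f u x ∂ν) := by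
          rw [integral_const_mul, integral_add i1 i2]
        have a2 : ∫ x, (MM A / 2 * (l * vv A u χ V ((2 * j : ℕ) : ℝ) x +
            tt f A u χ (Real.exp (j : ℝ) / 2) x / l)) ∂ν =
            MM A / 2 * (l * ∫ x, vv A u χ V ((2 * j : ℕ) : ℝ) x ∂ν +
            (∫ x, tt f A u χ (Real.exp (j : ℝ) / 2) x ∂ν) / l) := by
          rw [integral_const_mul, integral_add (i1.const_mul l) (i3.div_const l),
            integral_const_mul, integral_div]
        rw [← a1, ← a2]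
        exact integral_add j1 j2
    _ ≤ _ := by
        have e2 : C * ((2 * j : ℕ) : ℝ) ^ 2 = C * (2 * j) ^ 2 := by push_cast; ring
        rw [e2] at e1
        gcongr

/-- **the error is small at some scales** -/
theorem exists_small (hfin : C2I ν f u χ ≠ ⊤) {ε : ℝ} (hε : 0 < ε) (N : ℕ) :
    ∃ i : ℕ, N ≤ i ∧ 1 ≤ i ∧ ∫ x, er f A u V d₁ (Real.exp (i : ℝ)) x ∂ν ≤ ε := by
  obtain ⟨C, hC0, hC⟩ := S.exists_C
  have hsc := sc_pos
  have hM := MM_nn S.hE.pos
  have hc0 : 0 ≤ ∫ x, χ x * c2d f u x ∂ν :=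
    integral_nonneg_of_ae (ae_lv S.hν fun x hx => mul_nonneg (S.hχ.nn x) (c_nn S.hf S.hK hx))
  set C2 := ∫ x, χ x * c2d f u x ∂ν with hC2
  set δ := ε / (8 * (MM A * C + 1)) with hδ
  have hδ0 : 0 < δ := by positivity
  have hδ1 : 2 * (MM A * C) * δ ≤ ε / 4 := by
    rw [hδ, mul_div_assoc']
    rw [div_le_iff₀ (by positivity)]
    nlinarith [mul_nonneg hM hC0]
  have t1 : Tendsto (fun j : ℕ => MM A / (2 * δ) *
      ∫ x, tt f A u χ (Real.exp (j : ℝ) / 2) x ∂ν) atTop (𝓝 0) := by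
    have h1 : Tendsto (fun j : ℕ => Real.exp (j : ℝ) / 2) atTop atTop :=
      (Real.tendsto_exp_atTop.comp tendsto_natCast_atTop_atTop).atTop_div_const (by norm_num)
    have h2 := ((S.lim_tt hfin).comp h1).const_mul (MM A / (2 * δ))
    rw [mul_zero] at h2
    exact h2
  have t2 : Tendsto (fun j : ℕ => sc * Real.exp (-(j : ℝ)) * (C * (2 * j) ^ 2 + C2)) atTop
      (𝓝 0) := by
    have h1 := (Real.tendsto_pow_mul_exp_neg_atTop_nhds_zero 2).comp
      (tendsto_natCast_atTop_atTop (R := ℝ))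
    have h2 := (Real.tendsto_pow_mul_exp_neg_atTop_nhds_zero 0).comp
      (tendsto_natCast_atTop_atTop (R := ℝ))
    have h3 := (h1.const_mul (sc * C * 4)).add (h2.const_mul (sc * C2))
    rw [mul_zero, mul_zero, add_zero] at h3
    refine h3.congr fun j => ?_
    simp only [Function.comp]
    ring
  obtain ⟨j, h1, h2, h3⟩ := ((t1.eventually (gt_mem_nhds (by linarith : (0 : ℝ) < ε / 4))).and
    ((t2.eventually (gt_mem_nhds (by linarith : (0 : ℝ) < ε / 4))).and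
      (eventually_ge_atTop (max N 1)))).exists
  have hj1 : 1 ≤ j := (le_max_right _ _).trans h3
  have hjR : (1 : ℝ) ≤ j := by exact_mod_cast hj1
  have h4 := S.sum_int hfin hC hj1 (l := δ / j) (by positivity)
  have h5 : ∑ i ∈ Finset.Ico j (2 * j), ∫ x, er f A u V d₁ (Real.exp (i : ℝ)) x ∂ν ≤
      ∑ i ∈ Finset.Ico j (2 * j), ε := by
    rw [Finset.sum_const, Nat.card_Ico, nsmul_eq_mul]
    have e : ((2 * j - j : ℕ) : ℝ) = j := by
      have : 2 * j - j = j := by omega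
      rw [this]
    rw [e]
    refine h4.trans ?_
    have e2 : MM A / 2 * (δ / j * (C * (2 * j) ^ 2) +
        (∫ x, tt f A u χ (Real.exp (j : ℝ) / 2) x ∂ν) / (δ / j)) =
        (2 * (MM A * C) * δ + MM A / (2 * δ) * ∫ x, tt f A u χ (Real.exp (j : ℝ) / 2) x ∂ν) *
          j := by
      field_simp
    rw [e2]
    have e3 : (2 * (MM A * C) * δ + MM A / (2 * δ) *
        ∫ x, tt f A u χ (Real.exp (j : ℝ) / 2) x ∂ν) * j ≤ (ε / 4 + ε / 4) * j := by
      gcongr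
    nlinarith
  obtain ⟨i, hi, hi2⟩ := Finset.exists_le_of_sum_le
    (Finset.nonempty_Ico.2 (by omega : j < 2 * j)) h5
  have hji := (Finset.mem_Ico.1 hi).1
  exact ⟨i, ((le_max_left _ _).trans h3).trans hji, hj1.trans hji, hi2⟩

/-- **the inequality for the cone** -/
theorem ineq (hfin : C2I ν f u χ ≠ ⊤) :
    2 * (C2I ν f u χ).toReal - 2 * (VOL ν u χ).toReal ≤
      2 * (∫ x, oxd f u (fun _ => 0) g χ x ∂ν + (1 + 1 / k) * TOT ν f (lgh g h) χ) -
        (TOT ν f u χ - TOT ν f (lgh g h) χ / k ^ 2) := by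
  obtain ⟨C₀, hC0, hup⟩ := Upp_822.upperStmt
  have t1 := S.lim_L hfin
  have t2 := (S.lim_G.const_mul 2).sub S.lim_U
  have t3 := (t1.sub t2).comp (Real.tendsto_exp_atTop.comp
    (tendsto_natCast_atTop_atTop (R := ℝ)))
  rw [← sub_nonpos]
  refine le_of_forall_pos_le_add fun ε hε => ?_
  rw [zero_add]
  refine le_of_tendsto_of_frequently t3 (frequently_atTop.2 fun N => ?_)
  obtain ⟨i, h1, h2, h3⟩ := S.exists_small hfin (ε := ε / (C₀ + 1)) (by positivity) N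
  refine ⟨i, h1, ?_⟩
  simp only [Function.comp]
  set R := Real.exp (i : ℝ) with hR
  have hRp : 0 < R := Real.exp_pos _
  have ht := tst_tR (χ := χ) S.hE S.us S.hχ hRp
  have h4 := hup f r u (gl ζ H (HK u)) U ν (tR A u χ R) ((In d₁).indicator (qR A u R)) V S.hf S.hK
    S.mt S.hU S.hν ht (fun x => indicator_nonneg (fun y _ => qR_nonneg hRp S.hE.pos y) x)
    S.hT.V_nn (S.int_er hfin h2) (fun x hx => by
      by_cases hd : x ∈ In d₁
      · right
        intro θ O hP z hz hzx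
        rw [indicator_of_mem hd]
        refine ⟨fun v => ?_, cpr_gl S.ζ0 S.ζ1 (S.mtK.pos θ O hP z hz) (S.hT.V_nn _)
          (S.hT.cpr θ O hP z hz)⟩
        have e : (fun y => tR A u χ R (θ y)) =ᶠ[𝓝 z] fun y => cR A u R (θ y) := by
          filter_upwards [ev_pe (S.chi x hd) hP hz hzx] with y hy
          show χ (θ y) * _ = _
          rw [hy, one_mul]
        rw [KEl_835.lev_congr e]
        have h5 := lev_cR_pe S.hK S.hE hRp hP hz v
        rwa [hzx] at h5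
      · left
        refine eqn_gl (S.out1 x ?_)
        have h5 : d₁ ^ 2 ≤ nsq x := not_lt.1 hd
        exact lt_of_lt_of_le (pow_lt_pow_left₀ S.d2 S.d2p two_ne_zero) h5)
  have e1 : ∫ x, tR A u χ R x * (2 * c2h f (gl ζ H (HK u)) x - mxd f U U x) ∂ν =
      2 * ∫ x, tR A u χ R x * c2h f (gl ζ H (HK u)) x ∂ν -
        ∫ x, tR A u χ R x * mxd f U U x ∂ν := by
    have j1 := (S.sq_glued _ ht).1
    have j2 : Integrable (fun x => tR A u χ R x * mxd f U U x) ν :=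
      (stk3 S.hf S.hν S.hU.sm S.hU.sm ht.sm (cs_of_tst ht)).2.1
    rw [← integral_const_mul, ← integral_sub (j1.const_mul 2) j2]
    refine integral_congr_ae (Eventually.of_forall fun x => ?_)
    show _ = _
    ring
  rw [e1] at h4
  have h6 : C₀ * ∫ x, er f A u V d₁ R x ∂ν ≤ ε := by
    calc C₀ * ∫ x, er f A u V d₁ R x ∂ν ≤ C₀ * (ε / (C₀ + 1)) := by gcongr
      _ ≤ ε := by
        rw [mul_div_assoc', div_le_iff₀ (by positivity)]
        nlinarith
  have h7 : ∫ x, (In d₁).indicator (qR A u R) x * V x * Real.sqrt (c2d f u x * Real.exp (u x)) ∂ν =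
      ∫ x, er f A u V d₁ R x ∂ν := rfl
  rw [h7] at h4
  linarith

end Sit

end Crest.Agent.R257.UpA_952
end
end

-- ▼ part R257/UpA10_952

/-!
R257 / UpA10_952: **`UppStmt`** from `TrialStmt` and `EscStmt`.
-/

set_option autoImplicit false
set_option linter.unusedSectionVars false

open Topology Filter MeasureTheory Set
open scoped ENNReal ContDiff Matrix ComplexOrder

noncomputable section

namespace Crest.Agent.R257.UpA_952

open Crest.Agent.R275.Geo
open Crest.Agent.R257.Defs_219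
open Crest.Agent.R257.KED_952 Crest.Agent.R257.KEG_952 Crest.Agent.R257.KEU_952
open Crest.Agent.R257.KUP_952
open Crest.Agent.R257.V1Defs_822 (SmL LvlOK lgh)
open Crest.Agent.R273.Defs_333 (lev)
open Crest.Agent.R257.PN_835 (nsq)
open Crest.Agent.R257.LossA_625 (Lv)
open Crest.Agent.R257.LossB_625 (Sh exists_sh)
open Crest.Agent.R257.LossD_309 (oxd)
open Crest.Agent.R257.SkelV_952 Crest.Agent.R257.SkelG_952

variable {f : E3 → ℂ} {r r' A : ℝ} {u : E3 → ℝ} {ν : Measure E3} {χ ζ : E3 → ℝ} {k : ℕ}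
  {g h : E3 → ℂ} {B : ℝ} {H : Form} {φ V U : E3 → ℝ} {d d₁ d₂ : ℝ}

theorem mt_mono (h0 : 0 ≤ r') (hr : r' ≤ r) (hH : Mt f r H) : Mt f r' H where
  sm θ O hP := hH.sm θ O (pe_mono h0 hr hP)
  pos θ O hP := hH.pos θ O (pe_mono h0 hr hP)
  ind θ O θ' O' z z' h1 h2 := hH.ind θ O θ' O' z z' (pe_mono h0 hr h1) (pe_mono h0 hr h2)

theorem trl_mono (h0 : 0 ≤ r') (hr : r' ≤ r) (hT : Trl f r A u ν k g h B H φ V) :
    Trl f r' A u (rs r' ν) k g h B H φ V where
  pr := hT.pr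
  g_an x hx := hT.g_an x (hx.trans_le (sq_mono h0 hr))
  h_an x hx := hT.h_an x (hx.trans_le (sq_mono h0 hr))
  nz x hx := hT.nz x ⟨hx.1, hx.2.1, hx.2.2.trans_le (sq_mono h0 hr)⟩
  mt := mt_mono h0 hr hT.mt
  dg θ O hP := hT.dg θ O (pe_mono h0 hr hP)
  det θ O hP := hT.det θ O (pe_mono h0 hr hP)
  φ_sm := sml_mono h0 hr hT.φ_sm
  φ_psh θ O hP := hT.φ_psh θ O (pe_mono h0 hr hP)
  φ_int χ hχ := (hT.φ_int χ (cut_mono hr hχ)).mono_measure Measure.restrict_le_self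
  bb θ O hP := hT.bb θ O (pe_mono h0 hr hP)
  V_nn := hT.V_nn
  V_me := hT.V_me.mono_measure Measure.restrict_le_self
  cpr θ O hP := hT.cpr θ O (pe_mono h0 hr hP)
  V_int χ hχ := by
    obtain ⟨C, hC⟩ := hT.V_int χ (cut_mono hr hχ)
    refine ⟨C, fun R hR => le_trans ?_ (hC R hR)⟩
    exact lintegral_mono' (Measure.restrict_mono' (Eventually.of_forall fun _ h => h)
      Measure.restrict_le_self) le_rfl

/-- the inequality for the cone, all data constructed -/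
theorem cone (hf : LvlOK f 0 r) (hK : KEon f 0 r u) (hE : Esc f r u A) (hν : IsNu f 0 r ν)
    (hT : Trl f r A u ν k g h B H φ V) (hχ : Cut r χ) (hfin : C2I ν f u χ ≠ ⊤) :
    2 * (C2I ν f u χ).toReal - 2 * (VOL ν u χ).toReal ≤
      2 * (∫ x, oxd f u (fun _ => 0) g χ x ∂ν + (1 + 1 / k) * TOT ν f (lgh g h) χ) -
        (TOT ν f u χ - TOT ν f (lgh g h) χ / k ^ 2) := by
  obtain ⟨r₁, r₂, hs⟩ := exists_sh hχ
  have hr := hf.pos
  set d₁ := min r₁ r with hd₁
  have hd₁0 : 0 < d₁ := lt_min hs.p1 hr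
  obtain ⟨ζ, hζ⟩ := exists_cut hd₁0
  obtain ⟨s₁, s₂, hz⟩ := exists_sh hζ
  have hmt : Mt f r (gl ζ H (HK u)) :=
    mt_gl hζ.sm hζ.nn hζ.le hT.mt (UVl_351.mtOStmt f r u hf hK).1
  obtain ⟨U, hU⟩ := UVl_351.vlStmt f r _ hf hmt
  have S : Sit f r A u ν k g h B H φ V χ ζ (min s₁ d₁) d₁ s₂ U :=
    { hf := hf
      hK := hK
      hE := hE
      hν := hν
      hT := hT
      hχ := hχ
      ζs := hζ.sm
      ζ0 := hζ.nn
      ζ1 := hζ.le
      dp := lt_min hz.p1 hd₁0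
      d1 := min_le_right _ _
      dr := min_le_right _ _
      d2p := hz.p2
      d2 := hz.lt
      in1 := fun x hx => hz.one x (hx.trans_le
        (sq_mono (lt_min hz.p1 hd₁0).le (min_le_left _ _)))
      out1 := hz.zero
      chi := fun x hx => hs.one x (hx.trans_le (sq_mono hd₁0.le (min_le_left _ _)))
      hU := hU }
  exact S.ineq hfin

/-- **`UppStmt`** -/
theorem upp_of (esc : EscStmt) (tr : TrialStmt) : UppStmt := by
  intro Φ τ₀ l r C w u hD f hf hm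
  have hiso : Iso f := hf ▸ hD.iso
  have hfa : AnalyticAt ℂ f 0 := hiso.an
  obtain ⟨r₁, A, e1, e2, hE⟩ := esc Φ τ₀ l r C w u hD f hf hm
  have hD₁ := smd_mono e1 e2.le hD
  have hlv₁ : LvlOK f 0 r₁ := hf ▸ smd_0 hD₁
  have hke₁ : KEon f 0 r₁ u := hf ▸ hD₁.ke0.1
  have hbd₁ : Bd f 0 r₁ C u := hf ▸ hD₁.ke0.2
  obtain ⟨ν₁, hν₁⟩ := KedM_941.nuStmt f 0 r₁ hlv₁.pos hlv₁.an hlv₁.sm
  obtain ⟨r₂, k, g, h, B, H, φ, V, hr₂, hr₂₁, hT⟩ := tr f r₁ C A u ν₁ hiso hlv₁ hke₁ hbd₁ hν₁ hm hE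
    fun χ hχ => Vol_397.volStmt Φ τ₀ l r₁ C w u hD₁ f hf χ hχ ν₁ hν₁
  have hX := hT.pr
  obtain ⟨g0, h0⟩ := xpr_zero hX hm
  obtain ⟨cf, cL⟩ := xpr_L LgA_827.lgStmt hiso hX hm
  obtain ⟨r₃, hr₃, hM3⟩ := M3_5.m3Stmt f g h hiso hX.g_an hX.h_an g0 h0 hX.fin
  obtain ⟨r', hr', h1, h2⟩ : ∃ r' : ℝ, 0 < r' ∧ r' < r₂ ∧ r' ≤ r₃ :=
    ⟨min (r₂ / 2) r₃, by positivity, (min_le_left _ _).trans_lt (by linarith), min_le_right _ _⟩
  have hr'₁ : r' ≤ r₁ := h1.le.trans hr₂₁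
  have hr'r : r' ≤ r := hr'₁.trans e2.le
  obtain ⟨χ, hχ⟩ := exists_cut hr'
  refine ⟨k, g, h, r', χ, hX, hr', hr'r, hχ, fun ν ν₀ hν hν₀ ε hε => ?_⟩
  have hD' : SmD Φ τ₀ l r' C w u := smd_mono hr' hr'r hD
  have hlv' : LvlOK f 0 r' := hf ▸ smd_0 hD'
  have hke' : KEon f 0 r' u := ke_mono hr'.le hr'₁ hke₁
  have hE' := esc_mono hr'.le hr'₁ hE
  -- uniqueness of the measure
  have hun : ν₀ = rs r' (rs r₂ ν₁) :=
    KedM_941.isNu_unique (V3_218.gd_of hlv') hν₀ (isnu_rs hr'.le h1.le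
      (isnu_rs hr₂.le hr₂₁ hν₁))
  have hT' : Trl f r' A u ν₀ k g h B H φ V := by
    rw [hun]
    exact trl_mono hr'.le h1.le hT
  have hν₀'' : IsNu (fun x => Φ (x, τ₀)) 0 r' ν₀ := hf ▸ hν₀
  have hfin : C2I ν₀ f u χ ≠ ⊤ := by
    have := fin_0 KedM_941.fatStmt Ked4_397.ctDStmt Ked4_397.cvDStmt Bd_309.bdStmt hD' hχ hν hν₀''
    rw [hf]
    exact this
  have hcone := cone hlv' hke' hE' hν₀ hT' hχ hfin
  rw [hM3 r' h2 hlv' ν₀ hν₀ χ hχ] at hcone
  have hg_an : ∀ x, nsq x ≤ r' ^ 2 → AnalyticAt ℂ g x := fun x hx =>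
    hT.g_an x (hx.trans_lt (pow_lt_pow_left₀ h1 hr'.le two_ne_zero))
  have hlim := Bd_309.e2Stmt Φ τ₀ l r' C w u hD' f hf χ hχ ν ν₀ hν hν₀ g hg_an g0 cf
    (noz_of_trl hT')
  have hpi : 0 < Real.pi ^ 2 := by positivity
  have hmas : Real.pi ^ 2 * (mas ν₀ f u χ / 2) =
      (TOT ν₀ f u χ - 2 * (VOL ν₀ u χ).toReal) / 2 := by
    unfold mas
    field_simp
  filter_upwards [hlim.eventually (lt_mem_nhds (sub_lt_self _ hε))] with τ hτ
  have e3 : Real.pi ^ 2 * (col (mnr f g) - (1 + 1 / k) * col ![f, g, h] -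
      col ![f, g, h] / (2 * k ^ 2) + mas ν₀ f u χ / 2) =
      Real.pi ^ 2 * col (mnr f g) - (1 + 1 / k) * (Real.pi ^ 2 * col ![f, g, h]) -
        (Real.pi ^ 2 * col ![f, g, h]) / k ^ 2 / 2 + Real.pi ^ 2 * (mas ν₀ f u χ / 2) := by
    ring
  rw [e3, hmas]
  linarith

end Crest.Agent.R257.UpA_952
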