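import Crest.Agent.R257.V1Top2_822
import Crest.Agent.R257.UpK3_938_Mg
import Crest.Agent.R257.Vol_397
import Crest.Agent.R257.M3Cnt_5
import Crest.Agent.R257.Cmp_157

/-!
R257 / V1_822 (helper822): `V1Stmt` from the exact pair `XUStmt` only; and from the inputs of
part C (`EPStmt`, `CNEStmt`, `IsoFinStmt`).
-/

set_option autoImplicit false

noncomputable section

namespace Crest.Agent.R257.V1_822

open Crest.Agent.R257 Crest.Agent.R257.KED_952 Crest.Agent.R257.V1Defs_822

/-- **V1**: `mstar f ≤` residual mass, from the exact pair -/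
theorem v1Stmt_of_xu (xu : XUStmt) : V1Stmt :=
  V1Top2_822.v1' xu (UpK_938.upStmt_of Fto_889.ftoStmt) Vol_397.volStmt M3_5.m3Stmt



end Crest.Agent.R257.V1_822
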