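import Crest.Agent.R257.LossV_309_Mg
import Crest.Agent.R257.SkelG6_952
import Crest.Agent.R257.KedM3_941
import Crest.Agent.R257.LimH_37
import Crest.Agent.R257.Esc_537
import Crest.Agent.R257.V1_822
import Crest.Agent.R257.Skel2_219
import Crest.Agent.R257.LgG_827
import Crest.Agent.R257.Jnu_980_Mg
import Crest.Agent.R257.UpA10_952
import Crest.Agent.R257.Trl1_39_Mg
import Crest.Agent.R257.B2_844
import Crest.Agent.R257.EVi_929
import Crest.Agent.R257.Ub8_472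
import Crest.Agent.R257.Ub10_472_Mg
import Crest.Agent.R257.LcxT_759
import Crest.Agent.R257.LCTopA_472
import Crest.Agent.R257.LCf_472
import Crest.Agent.R257.P8e_472
import Crest.Agent.R257.LcTop_980
import Crest.Agent.R257.Rig6_20
import Crest.Agent.R257.N2L_328
import Crest.Agent.R257.Line3_648_Mg
import Crest.Agent.R257.LcN_980
import Crest.Agent.R257.Mu8_799
import Crest.Agent.R257.Top2_219
import Crest.Agent.R257.ExNO_843
import Crest.Agent.R257.Rsn6_980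
import Crest.Agent.R257.LWD_547
import Crest.Agent.R257.T11_387
import Crest.Agent.R257.OrdL_578
import Crest.Agent.R275.Loc2A_879
import Crest.Agent.R257.Exf1_843
import Crest.Agent.R257.Vt8_558
import Crest.Agent.R257.HoT_843
import Crest.Agent.R257.ExNC_843
import Crest.Agent.R257.ExND_843
import Crest.Agent.R257.Vt6_558
import Crest.Agent.R257.T7_387
import Crest.Agent.R257.Lab5_931

-- ▼ part R257/SkelT_952
section

/-!
R257 / SkelT_952: `VStmt3` of `Skel2_219` from the leaves which are still open.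
-/

set_option autoImplicit false

open Topology Filter MeasureTheory Set

noncomputable section

namespace Crest.Agent.R257.SkelT_952

open Crest.Agent.R257.Defs_219 Crest.Agent.R257.KED_952 Crest.Agent.R257.KEG_952
open Crest.Agent.R257.KEU_952 Crest.Agent.R257.V1Defs_822 Crest.Agent.R257.Skel2_219

/-- (V) for germs of multiplicity `≥ 3` -/
theorem vstmt3' (up1 : Up1Stmt) (upp : UppStmt) (xu : XUStmt) (v31 : V31Stmt) (pos : PosStmt3) :
    VStmt3 := by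
  have bd : BdStmt := Bd_309.bdStmt
  have loss : SkelG_952.Loss1 := LossV_309.loss1Stmt
  have lg : LGStmt := LgA_827.lgStmt
  have v1 : V1Stmt := V1_822.v1Stmt_of_xu xu
  have esc : EscStmt := Esc_537.esc_of KedM_941.nuStmt xu (UpK_938.upStmt_of Fto_889.ftoStmt)
    Vol_397.volStmt
  have gb0 : GB0Stmt := SkelG_952.GB0_of KedM_941.measStmt KedM_941.fatStmt KedM_941.cvIStmt bd loss
    esc up1 v1 lg
  have gb1 : GB1Stmt := SkelG_952.GB1_of KedM_941.measStmt KedM_941.fatStmt KedM_941.cvIStmt bd upp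
    v1 lg
  intro G μ d R r c₀ e P c hG h1 h2 _ m hm
  exact SkelV_952.V_core KedM_941.nuStmt KedM_941.measStmt KedM_941.fatStmt KedM_941.cvIStmt
    Ked4_397.ctDStmt Ked2_397.bmyStmt Ked4_397.cvDStmt bd gb0 gb1 v1 v31 LimH_37.outStmt hG
    (pos G μ d R r c₀ e P c hG h1 h2) hm

/-- the same with the leaves that are proved by now (kept for compatibility) -/
theorem vstmt3 (_bd : BdStmt) (_loss : LossStmt) (up1 : Up1Stmt) (upp : UppStmt) (xu : XUStmt)
    (v31 : V31Stmt) (_lg : LGStmt) (pos : PosStmt3) : VStmt3 := vstmt3' up1 upp xu v31 pos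

end Crest.Agent.R257.SkelT_952
end
end

-- ▼ part R257/V3_218
section

/-!
R257 / V3_218 (helper218): `V31Stmt` (MASS-LE: residual mass `≤ mstar f` if `0 < mstar f`) from the
exact pair `XUStmt` only (used through `EscStmt`).
-/

set_option autoImplicit false

noncomputable section

namespace Crest.Agent.R257.V3_218

open Crest.Agent.R257 Crest.Agent.R257.KED_952 Crest.Agent.R257.V1Defs_822

theorem jnuStmt : JnuStmt := fun _ _ _ _ _ h1 h2 h3 h4 h5 h6 => Jnu_980.jnu h1 h2 h3 h4 h5 h6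

theorem v31Stmt_of_esc (esc : KEG_952.EscStmt) : KEG_952.V31Stmt := v31_of jnuStmt esc

/-- **V31**: residual mass `≤ mstar f`, from the exact pair -/
theorem v31Stmt_of_xu (xu : XUStmt) : KEG_952.V31Stmt :=
  v31Stmt_of_esc (Esc_537.esc_of KedM_941.nuStmt xu (UpK_938.upStmt_of Fto_889.ftoStmt)
    Vol_397.volStmt)

end Crest.Agent.R257.V3_218
end
end

-- ▼ part R257/SkelU_952
section

/-!
R257 / SkelU_952: `VStmt3` of `Skel2_219` from `CLogStmt` and `PosStmt3`.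
-/

set_option autoImplicit false

open Topology Filter MeasureTheory Set

noncomputable section

namespace Crest.Agent.R257.SkelU_952

open Crest.Agent.R257.Defs_219 Crest.Agent.R257.KED_952 Crest.Agent.R257.KEG_952
open Crest.Agent.R257.KEU_952 Crest.Agent.R257.V1Defs_822 Crest.Agent.R257.Skel2_219

theorem esc_of_xu (xu : XUStmt) : EscStmt :=
  Esc_537.esc_of KedM_941.nuStmt xu (UpK_938.upStmt_of Fto_889.ftoStmt) Vol_397.volStmt

/-- `UppStmt` from `CLogStmt` -/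
theorem upp_of_clog (cl : CLog_68.CLogStmt) : UppStmt :=
  UpA_952.upp_of (esc_of_xu (PairK_39.xu_of_clog cl)) (TrA_218.trialStmt_of cl B0_844.b0Stmt)

/-- **(V) for germs of multiplicity `≥ 3` from `CLogStmt`** -/
theorem vstmt3_of_clog (cl : CLog_68.CLogStmt) (pos : PosStmt3) : VStmt3 :=
  SkelT_952.vstmt3' (PairK_39.up1_of_clog cl) (upp_of_clog cl) (PairK_39.xu_of_clog cl)
    (V3_218.v31Stmt_of_xu (PairK_39.xu_of_clog cl)) pos

end Crest.Agent.R257.SkelU_952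
end
end

-- ▼ part R257/EVj_929
section

/-!
R257 / EVj_929 (helper929): `QuartStmt` of `LcxDefs_759`, literal.
-/

set_option autoImplicit false

noncomputable section

namespace Crest.Agent.R257.EVj_929

/-- **(B1)** of `LcxDefs_759` -/
theorem quartStmt : LcxDefs_759.QuartStmt :=
  EVi_929.quart_of fun _ A _ _ _ hf hD h3 hq => Ub8_472.quart_mu hf A hD h3 hq

end Crest.Agent.R257.EVj_929
end
end

-- ▼ part R257/EVl_929
section

/-!
R257 / EVl_929 (helper929): `SextStmt` of `LcxDefs_759`, literal.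
-/

set_option autoImplicit false

noncomputable section

namespace Crest.Agent.R257.EVl_929

/-- **(B2)** of `LcxDefs_759` -/
theorem sextStmt : LcxDefs_759.SextStmt :=
  EVk_929.sext_of fun _ _ e _ _ _ _ hf h hu hu0 hθ hθ0 hb hc he hd =>
    Ub10_472.sext_mu hf h e hu hu0 hθ hθ0 hb hc he hd

end Crest.Agent.R257.EVl_929
end
end

-- ▼ part R257/LcxZ_759
section

/-!
R257 / LcxZ_759 (helper759): **`PosStmt3`** of `Skel2_219`, unconditionally.
-/

set_option autoImplicit false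

open Topology Filter
open Crest.AlgGeometry.Germ

noncomputable section

namespace Crest.Agent.R257.LcxZ_759

open Crest.Agent.R257.Defs_219 Crest.Agent.R257.LCDefs_472

theorem posStmt3 : Skel2_219.PosStmt3 :=
  LcxG_759.posStmt3_of EVj_929.quartStmt EVl_929.sextStmt


end Crest.Agent.R257.LcxZ_759
end
end

-- ▼ part R257/LCTop_472
section

/-!
R257 / LCTop_472: the log canonical case, `LCStmt` of Defs_219, proved.
-/

set_option autoImplicit false

noncomputable section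

namespace Crest.Agent.R257.LCTop_472

open Crest.Agent.R257

theorem p8Stmt : LCDefs_472.P8Stmt :=
  P8e_472.p8_of fun _ hf h1 h2 hfin => Mu8_799.mu_ge_eight hf h1 h2 hfin



end Crest.Agent.R257.LCTop_472
end
end

-- ▼ part R257/TopC_952
section

/-!
R257 / TopC_952: **`S0395` from `CLogStmt` alone.**
-/

set_option autoImplicit false

open Topology Filter MeasureTheory Set
open scoped ENNReal
open Crest.AlgGeometry.Germ

noncomputable section

namespace Crest.Agent.R257.TopC_952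

open Crest.Agent.R257.Defs_219 Crest.Agent.R257.Skel2_219

/-- (V) for germs of multiplicity `≥ 3` from `CLogStmt` -/
theorem vstmt3 (cl : CLog_68.CLogStmt) : VStmt3 :=
  SkelU_952.vstmt3_of_clog cl LcxZ_759.posStmt3

theorem ep_of_clog (cl : CLog_68.CLogStmt) : XF_157.EPStmt := fun f hf hm => by
  obtain ⟨_, _, _, _, _, k, g, h, h1, -, -⟩ := cl f hf hm
  exact ⟨k, g, h, h1⟩

/-- **`S0395` from `CLogStmt`** -/
theorem top_clog (cl : CLog_68.CLogStmt) (R : ℝ) (hR : 0 < R) (F : (Fin 3 → ℂ) × ℂ → ℂ)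
    (hF : ∀ t : ℂ, ‖t‖ < R → AnalyticAt ℂ F (0, t) ∧ F (0, t) = 0)
    (hcrit : ∀ t : ℂ, ‖t‖ < R → fderiv ℂ (fun x => F (x, t)) 0 = 0 ∧
      ∀ᶠ x in 𝓝[≠] (0 : Fin 3 → ℂ), fderiv ℂ (fun x => F (x, t)) x ≠ 0)
    (hμ : ∀ t : ℂ, ‖t‖ < R →
      Module.Finite ℂ (Crest.AlgGeometry.Germ.JacobianQuotient 3 (fun x => F (x, t))) ∧
      Crest.AlgGeometry.Germ.milnorNumber 3 (fun x => F (x, t)) =
        Crest.AlgGeometry.Germ.milnorNumber 3 (fun x => F (x, 0))) :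
    ∃ δ : ℝ, 0 < δ ∧ ∃ Φ : OpenPartialHomeomorph ((Fin 3 → ℂ) × ℂ) ((Fin 3 → ℂ) × ℂ),
      (∀ t : ℂ, ‖t‖ < δ → ((0 : Fin 3 → ℂ), t) ∈ Φ.source ∧ Φ (0, t) = (0, t)) ∧
      (∀ p ∈ Φ.source, (Φ p).2 = p.2 ∧ F (Φ p) = F (p.1, 0)) ∧
      (∀ x : Fin 3 → ℂ, (x, (0 : ℂ)) ∈ Φ.source → Φ (x, 0) = (x, 0)) :=
  Top2_219.top2 LgA_827.lgStmt (ep_of_clog cl) Cne_812.cneStmt (vstmt3 cl) LCTop_472.p8Stmt
    R hR F hF hcrit hμ

end Crest.Agent.R257.TopC_952
end
end

-- ▼ part R257/ExNB_843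
section

/-!
# Row 257 (helper843): **`ExNBPStmt`** from the weights and the null data
-/

set_option autoImplicit false
set_option linter.unusedSectionVars false

open Polynomial Set Filter Topology Metric
open Crest.AlgGeometry.Germ Crest.Agent.R257.Defs_219 Crest.Agent.R257.AJ387 Crest.Agent.R257.T387
open Crest.Agent.R257.Gr1_157 Crest.Agent.R257.HoB_843 Crest.Agent.R257.BP_258
open Crest.Agent.R257.Wt_258 Crest.Agent.R257.Rsn_843 Crest.Agent.R257.OrdK_82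
open Crest.Agent.R257.KB_82 Crest.Agent.R257.HoT_843 Crest.Agent.R257.Tb3_941
open Crest.Agent.R257.Rot1_558 Crest.Agent.R257.Vt1_558 Crest.Agent.R257.Vt3_558
open Crest.Agent.R257.Vt4_558

noncomputable section

namespace Crest.Agent.R257.Exf_843

variable {f : (Fin 3 → ℂ) → ℂ} {T : TB f} {S : Sh T} {U : Tub T}

lemma v1_lab (L : Lab U S) {c : Ch T.m} (hc : Ok S c) {j : Fin T.d} {E : II U}
    (h : L.e1 c j = some E) : v1 T c = some E.1.1 := by
  have h1 := L.v_e1 c hc j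
  rw [h] at h1
  exact h1.symm

lemma v2_lab (L : Lab U S) {c : Ch T.m} (hc : Ok S c) {j : Fin T.d} {E : II U}
    (h : L.e2 c j = some E) : v2 T c = some E.1.1 := by
  have h1 := L.v_e2 c hc j
  rw [h] at h1
  exact h1.symm

/-- the two vertices of an edge are different -/
lemma lab12 (L : Lab U S) {c : Ch T.m} (hc : Ok S c) {j : Fin T.d} {E E' : II U}
    (h1 : L.e1 c j = some E) (h2 : L.e2 c j = some E') : IsE c ∧ E.1.1.1 < E'.1.1.1 := by
  have e1 := v1_lab L hc h1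
  have e2 := v2_lab L hc h2
  cases c with
  | edge i k k' =>
    refine ⟨trivial, ?_⟩
    have hk : k < k' := hc.1.2.2.1
    simp only [v1] at e1
    split_ifs at e1 with h0
    have a1 : k = E.1.1.1 := congrArg Prod.fst (Option.some.inj e1)
    have a2 : k' = E'.1.1.1 := congrArg Prod.fst (Option.some.inj e2)
    omega
  | leg i => simp [v2] at e2
  | vert i k w => simp [v2] at e2

/-- exponents of `s ^ m₀` along `{β = 0}` -/
def hN2 (m₀ : ℕ) (c : Ch T.m) : ℝ := by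
  classical
  exact if IsE c then m₀ else 0

/-- exponents of the function at the ends -/
def eN (L : Lab U S) (m : II U → ℕ) (E₀ : II U) (c : Ch T.m) (j : Fin T.d) : ℝ := by
  classical
  exact if L.e2 c j = some E₀ then z2 L m c j else z1 L m c j

/-- the orbit keeps the level -/
lemma not_orb {hG : GalPt T} {E₀ E : II U} (h : E.1.1.1 ≠ E₀.1.1.1) :
    ∀ γ : Ru T, piH hG γ E₀ ≠ E := by
  rintro γ rfl
  refine h ?_
  rw [piH_fst]
  rfl

lemma sc_norm_le (c : Ch T.m) (m₀ : ℕ) {p : ℂ × ℂ} (hp : T.Gen c p) :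
    ‖(T.map c p).1 ^ m₀‖ = ‖p.1‖ ^ (m₀ : ℝ) * ‖p.2‖ ^ hN2 (T := T) m₀ c := by
  classical
  unfold hN2
  rw [norm_pow]
  cases c with
  | edge i k k' =>
    rw [if_pos (show IsE (.edge i k k' : Ch T.m) from trivial)]
    show ‖p.1 * p.2‖ ^ m₀ = _
    rw [norm_mul, mul_pow, Real.rpow_natCast, Real.rpow_natCast]
  | leg i =>
    rw [if_neg (show ¬ IsE (.leg i : Ch T.m) from id), Real.rpow_zero, mul_one, Real.rpow_natCast]
    rfl
  | vert i k w =>
    rw [if_neg (show ¬ IsE (.vert i k w : Ch T.m) from id), Real.rpow_zero, mul_one,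
      Real.rpow_natCast]
    rfl

/-- **the input of the null data, `ExN`** -/
theorem ndatN [Fintype (II U)] (hG : GalPt T) (L : Lab U S) {nu : II U → ℤ}
    {n1 n2 : Ch T.m → Fin T.d → ℤ} (J : Jac L nu n1 n2) {E₀ : II U} {m : II U → ℕ} {y : II U → ℝ}
    (hy0 : y E₀ + nu E₀ = m E₀) (hyE : 0 < y E₀)
    (hyn : ∀ E, (∀ γ : Ru T, piH hG γ E₀ ≠ E) → y E + nu E < m E) (hypos : ∀ E, 0 ≤ y E)
    {fX : XV U E₀.1.1 → ℂ} (hX : HolX (pV U E₀.1.1) fX)
    (hoff : ∀ q : XV U E₀.1.1, (q : ConnectedComponents (XV U E₀.1.1)) ≠ E₀.2 → fX q = 0)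
    {C r' : ℝ} (hC : 0 < C) (hr' : 0 < r')
    (hb : ∀ c, Ok S c →
        (¬ IsV c → v1 T c = some E₀.1.1 → ∀ γ, End1 U S c E₀.1.1 γ → ∀ j, ∀ b : ℂ, 0 < ‖b‖ →
          ‖b‖ < r' → ‖fX (γ j b)‖ ≤ C * ‖b‖ ^ (z1 L m c j)) ∧
        (v2 T c = some E₀.1.1 → ∀ γ, End2 U S c E₀.1.1 γ → ∀ j, ∀ b : ℂ, 0 < ‖b‖ →
          ‖b‖ < r' → ‖fX (γ j b)‖ ≤ C * ‖b‖ ^ (z2 L m c j))) :
    NDat L n1 n2 E₀ y 0 fX (fun x => x 1 ^ m E₀) (fun _ _ => (m E₀ : ℝ))
      (fun c _ => hN2 (T := T) (m E₀) c) (eN L m E₀) := by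
  classical
  have hlt0 : (nu E₀ : ℝ) < m E₀ := by linarith
  refine
    { hol := hX
      off := hoff
      Han := fun c hc j p h1 h2 hg => ?_
      Hbd := fun c hc j _ => ⟨1, one_pos, fun p _ _ hg => ?_⟩
      h2V := fun c hc hV j => ?_
      f1 := fun c hc hV hv γ hγ j hE => ⟨C, r', hC, hr', fun b h1 h2 => ?_⟩
      f2 := fun c hc hv γ hγ j hE => ⟨C, r', hC, hr', fun b h1 h2 => ?_⟩
      near1 := fun c hc j hE => ?_
      nearD1 := fun c hc j hE => ?_
      far2 := fun c hc j hE E hE' => ?_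
      leg := fun c hc hV j hE hE' => ?_
      near2 := fun c hc j hE => ?_
      nearD2 := fun c hc j hE => ?_
      far1 := fun c hc j hE E hE' => ?_
      top := fun c hc j hE hE' => ?_ }
  · have h3 := an_s (S := S) hc.1 (p := p) ⟨h1, h2⟩
    exact h3.pow (m E₀)
  · rw [one_mul]
    exact (sc_norm_le c (m E₀) hg).le
  · unfold hN2
    rw [if_neg]
    cases c with
    | edge i k k' => exact absurd hV id
    | leg i => exact absurd hV id
    | vert i k w => exact id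
  · have h3 := (hb c hc).1 hV hv γ hγ j b h1 h2
    have h4 : eN L m E₀ c j = z1 L m c j := by
      unfold eN
      rw [if_neg]
      intro h5
      exact absurd (lab12 L hc hE h5).2 (lt_irrefl _)
    rw [h4, Real.rpow_intCast]
    exact h3
  · have h3 := (hb c hc).2 hv γ hγ j b h1 h2
    have h4 : eN L m E₀ c j = z2 L m c j := by
      unfold eN
      rw [if_pos hE]
    rw [h4, Real.rpow_intCast]
    exact h3
  · rw [J.some1 c hc j E₀ hE]
    linarith
  · rw [J.some1 c hc j E₀ hE]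
    push_cast
    linarith
  · have h3 := lab12 L hc hE hE'
    have h4 := hyn E (not_orb fun h5 => by omega)
    have h5 := hypos E
    have e1 : eN L m E₀ c j = (m E : ℝ) - m E₀ := by
      unfold eN
      rw [if_neg (by rw [hE']; intro h6; rw [Option.some.inj h6] at h3; exact lt_irrefl _ h3.2)]
      unfold z1
      rw [if_pos h3.1, hE, hE']
      simp [yn]
    have e2 : hN2 (T := T) (m E₀) c = m E₀ := by
      unfold hN2
      rw [if_pos h3.1]
    show y E + n2 c j < hN2 (T := T) (m E₀) c + eN L m E₀ c j ∧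
      (n2 c j : ℝ) < hN2 (T := T) (m E₀) c + eN L m E₀ c j + ((0 : ℕ) : ℝ)
    rw [J.some2 c hc j E hE', e1, e2]
    push_cast
    constructor <;> linarith
  · have h3 := J.none2 c hc j hE'
    have hnE : ¬ IsE c := by
      cases c with
      | edge i k k' =>
        have h4 := L.v_e2 _ hc j
        rw [hE'] at h4
        simp [v2] at h4
      | leg i => exact id
      | vert i k w => exact id
    have e1 : eN L m E₀ c j = 0 := by
      unfold eN
      rw [if_neg (by rw [hE']; simp)]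
      unfold z1
      rw [if_neg hnE]
      simp
    have e2 : hN2 (T := T) (m E₀) c = 0 := by
      unfold hN2
      rw [if_neg hnE]
    show (n2 c j : ℝ) < hN2 (T := T) (m E₀) c + eN L m E₀ c j
    rw [e1, e2]
    have h4 : (n2 c j : ℝ) ≤ -1 := by exact_mod_cast h3
    linarith
  · have hIE : IsE c := by
      have h4 := v2_lab L hc hE
      cases c with
      | edge i k k' => trivial
      | leg i => simp [v2] at h4
      | vert i k w => simp [v2] at h4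
    have e2 : hN2 (T := T) (m E₀) c = m E₀ := by
      unfold hN2
      rw [if_pos hIE]
    show y E₀ + n2 c j < hN2 (T := T) (m E₀) c + 1
    rw [J.some2 c hc j E₀ hE, e2]
    linarith
  · have hIE : IsE c := by
      have h4 := v2_lab L hc hE
      cases c with
      | edge i k k' => trivial
      | leg i => simp [v2] at h4
      | vert i k w => simp [v2] at h4
    have e2 : hN2 (T := T) (m E₀) c = m E₀ := by
      unfold hN2
      rw [if_pos hIE]
    show (n2 c j : ℝ) < hN2 (T := T) (m E₀) c + ((0 : ℕ) : ℝ)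
    rw [J.some2 c hc j E₀ hE, e2]
    push_cast
    linarith
  · have h3 := lab12 L hc hE' hE
    have h4 := hyn E (not_orb fun h5 => by omega)
    have h5 := hypos E
    have e1 : eN L m E₀ c j = (m E : ℝ) - m E₀ := by
      unfold eN
      rw [if_pos hE]
      unfold z2
      rw [hE, hE']
      simp [yn]
    show y E + n1 c j < (m E₀ : ℝ) + eN L m E₀ c j ∧
      (n1 c j : ℝ) < (m E₀ : ℝ) + eN L m E₀ c j + ((0 : ℕ) : ℝ)
    rw [J.some1 c hc j E hE', e1]
    push_cast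
    constructor <;> linarith
  · have h3 := J.none1 c hc j hE'
    have e1 : eN L m E₀ c j = -(m E₀ : ℝ) := by
      unfold eN
      rw [if_pos hE]
      unfold z2
      rw [hE, hE']
      simp [yn]
    show (n1 c j : ℝ) < (m E₀ : ℝ) + eN L m E₀ c j
    rw [e1]
    have h4 : (n1 c j : ℝ) ≤ -1 := by exact_mod_cast h3
    linarith

/-- **`ExNBPStmt`** -/
theorem exNBP [Fintype (II U)] (hf : Iso f) (hC : Clo T) (hG : GalPt T) (hR : RetStmt U)
    (hmono : ∀ c, T.Valid c → T.MonoC c (S.r c)) (hcovP : CovP S) (L : Lab U S)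
    {nu : II U → ℤ} {n1 n2 : Ch T.m → Fin T.d → ℤ} (J : Jac L nu n1 n2) (hW : WTDStmt L)
    (hN : NullStmt L n1 n2) : ExNBPStmt hG L nu := by
  intro E₀ hTh m y hDv hmi hyi hdg hy0 hyn hsup
  have hform := Lab_931.iform L hR
  have hpos : ∀ E, 0 ≤ y E := nonneg_of hform (S := Set.univ) (fun E _ => (hsup E).le)
    (fun E hE => absurd (Set.mem_univ E) hE)
  have hyE : 0 < y E₀ := by
    rcases (hpos E₀).lt_or_eq with h | h
    · exact h
    · exfalso
      have h1 := hsup E₀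
      have h2 : 0 ≤ dg (Mx L) y E₀ := by
        unfold dg
        refine Finset.sum_nonneg fun E _ => ?_
        by_cases hE : E = E₀
        · rw [hE, ← h, mul_zero]
        · exact mul_nonneg (hform.off _ _ (fun h' => hE h'.symm)) (hpos E)
      linarith
  obtain ⟨fX, h1, h2, h3, h4, C, r', hC', hr', h5⟩ := exf_N Rsn1_980.rsn (LWD_547.labWD hR L) hTh
    hDv hmi hdg
  have hd := ndatN hG L J hy0 hyE hyn hpos h1 h2 hC' hr' h5
  obtain ⟨q₀, hq₀⟩ := exists_comp E₀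
  obtain ⟨g, V, D, Φ, ρ₀, ρ₁, C₁, v, -, hHT, -, -, -, hv, hlo, hex⟩ := null_orders hf hC hG hR
    hmono hcovP L J hW hN hyi hsup (dvd_zero T.N) hd (fun γ c hc j p q hg hq => by
      have e1 : (rot (vl γ.1) (wc S c j p)) 1 ^ m E₀ = (wc S c j p) 1 ^ m E₀ := by
        show (vl γ.1 * (wc S c j p) 1) ^ m E₀ = _
        obtain ⟨k, hk⟩ : T.N ∣ m E₀ := (Dvd.intro _ rfl).trans (hDv E₀)
        rw [mul_pow, hk, pow_mul (vl γ.1), vl_pow, one_pow, one_mul]
      show (rot (vl γ.1) (wc S c j p)) 1 ^ m E₀ * fX (smv hG γ q) = (wc S c j p) 1 ^ m E₀ * fX q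
      rw [e1, h4 γ q hq]) (m := m E₀) (by linarith)
    (fun c hc hV j hE => ⟨fun _ => 1, analyticAt_const, one_ne_zero, Eventually.of_forall
      fun p hg => by
        show (T.map c p).1 ^ m E₀ = p.1 ^ m E₀ * 1
        rw [mapV hV, mul_one]⟩) ⟨q₀, h3 q₀ hq₀⟩ ∅ (fun c hc => absurd hc (Finset.notMem_empty c))
  refine ⟨g, hHT.an, fun E hE => lov_of_exv (hv E) ?_, fun γ => ?_⟩
  · have h6 := hlo E hE
    push_cast at h6
    linarith
  · have h6 := hex γ
    rw [add_zero] at h6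
    rw [← h6]
    exact hv _

end Crest.Agent.R257.Exf_843
end
end

-- ▼ part R257/Div_843
section

/-!
# Row 257, ExT (helper843): division by powers of `x'` on the surface

`div_x` : `g` analytic at `0`, `g ∘ th = O(α ^ n)`, `n > N (K - 1)`, along the sheets of the top edge
chart at the points `(0, b)` ⟹ `g = x' ^ K * g₁` on `{f = 0}` near `0`, `g₁` analytic at `0`.
-/

set_option autoImplicit false
set_option linter.unusedSectionVars false

open Polynomial Set Filter Topology Metric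
open Crest.AlgGeometry.Germ Crest.Agent.R257.AJ387 Crest.Agent.R257.Defs_219
open Crest.Agent.R257.T387 Crest.Agent.R257.T0_387 Crest.Agent.R275.Loc2879
open Crest.Agent.R257.OrdL_578

noncomputable section

namespace Crest.Agent.R257.Div_843

/-- coefficients of a polynomial are bounded by its values at distinct points -/
theorem vdm {d : ℕ} {z : Fin d → ℂ → ℂ} (hz : ∀ l, ContinuousAt (z l) 0)
    (hinj : Function.Injective fun l => z l 0) : ∃ C > 0, ∀ᶠ t in 𝓝 (0 : ℂ),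
      ∀ (c : Fin d → ℂ) (B : ℝ), (∀ l, ‖∑ j, c j * z l t ^ (j : ℕ)‖ ≤ B) → ∀ j, ‖c j‖ ≤ C * B := by
  classical
  set V : ℂ → Matrix (Fin d) (Fin d) ℂ := fun t => Matrix.vandermonde fun l => z l t with hV
  have hVc : ContinuousAt V 0 := by
    refine continuousAt_pi.2 fun l => continuousAt_pi.2 fun j => ?_
    exact (hz l).pow _
  have hdet : (V 0).det ≠ 0 := Matrix.det_vandermonde_ne_zero_iff.2 hinj
  have hdc : ContinuousAt (fun t => (V t).det) 0 :=
    (Continuous.matrix_det continuous_id).continuousAt.comp hVc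
  have hadj : ContinuousAt (fun t => (V t).adjugate) 0 :=
    (Continuous.matrix_adjugate continuous_id).continuousAt.comp hVc
  set W : ℂ → Matrix (Fin d) (Fin d) ℂ := fun t => ((V t).det)⁻¹ • (V t).adjugate with hW
  have hWc : ContinuousAt W 0 := (hdc.inv₀ hdet).smul hadj
  have hb : ∀ j l, ∀ᶠ t in 𝓝 (0 : ℂ), ‖W t j l‖ < ‖W 0 j l‖ + 1 := by
    intro j l
    have h1 : ContinuousAt (fun t => ‖W t j l‖) 0 :=
      (continuousAt_pi.1 (continuousAt_pi.1 hWc j) l).norm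
    exact h1.eventually (gt_mem_nhds (by linarith))
  set C : ℝ := 1 + ∑ j, ∑ l, (‖W 0 j l‖ + 1) with hC
  have hC0 : ∀ j, ∑ l, (‖W 0 j l‖ + 1) ≤ C := by
    intro j
    have h1 : ∑ l, (‖W 0 j l‖ + 1) ≤ ∑ j, ∑ l, (‖W 0 j l‖ + 1) :=
      Finset.single_le_sum (f := fun j => ∑ l, (‖W 0 j l‖ + 1))
        (fun j _ => Finset.sum_nonneg fun l _ => by positivity) (Finset.mem_univ j)
    linarith
  refine ⟨C, by positivity, ?_⟩
  have hall : ∀ᶠ t in 𝓝 (0 : ℂ), ∀ j l, ‖W t j l‖ < ‖W 0 j l‖ + 1 :=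
    eventually_all.2 fun j => eventually_all.2 fun l => hb j l
  filter_upwards [hall, hdc.eventually_ne hdet] with t ht hdt c B hB j
  have h1 : W t * V t = 1 := by
    rw [hW]
    simp only
    rw [Matrix.smul_mul, Matrix.adjugate_mul, smul_smul, inv_mul_cancel₀ hdt, one_smul]
  have h2 : c = (W t).mulVec ((V t).mulVec c) := by
    rw [Matrix.mulVec_mulVec, h1, Matrix.one_mulVec]
  have h3 : ∀ l, (V t).mulVec c l = ∑ j, c j * z l t ^ (j : ℕ) := by
    intro l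
    simp only [Matrix.mulVec, dotProduct, hV, Matrix.vandermonde_apply]
    exact Finset.sum_congr rfl fun j _ => mul_comm _ _
  have hB0 : 0 ≤ B := by
    rcases isEmpty_or_nonempty (Fin d) with h | ⟨⟨l⟩⟩
    · exact (h.false j).elim
    · exact (norm_nonneg _).trans (hB l)
  have h4 : c j = ∑ l, W t j l * (V t).mulVec c l := by
    conv_lhs => rw [h2]
    rfl
  rw [h4]
  calc ‖∑ l, W t j l * (V t).mulVec c l‖ ≤ ∑ l, ‖W t j l * (V t).mulVec c l‖ := norm_sum_le _ _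
    _ ≤ ∑ l, (‖W 0 j l‖ + 1) * B := by
        refine Finset.sum_le_sum fun l _ => ?_
        rw [norm_mul, h3]
        exact mul_le_mul (ht j l).le (hB l) (norm_nonneg _) (by positivity)
    _ = (∑ l, (‖W 0 j l‖ + 1)) * B := by rw [Finset.sum_mul]
    _ ≤ C * B := mul_le_mul_of_nonneg_right (hC0 j) hB0

/-- comparison of orders of growth -/
theorem ord_cmp {a b : ℕ} {c C : ℝ} (hc : 0 < c)
    (h : ∀ᶠ t in 𝓝[≠] (0 : ℂ), c * ‖t‖ ^ a ≤ C * ‖t‖ ^ b) : b ≤ a := by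
  by_contra hlt
  push Not at hlt
  have h1 : Tendsto (fun t : ℂ => C * ‖t‖ ^ (b - a)) (𝓝[≠] 0) (𝓝 0) := by
    have h2 : Continuous fun t : ℂ => C * ‖t‖ ^ (b - a) := by fun_prop
    have h3 := (h2.tendsto 0).mono_left (nhdsWithin_le_nhds (s := {(0 : ℂ)}ᶜ))
    simpa [Nat.sub_ne_zero_of_lt hlt] using h3
  obtain ⟨t, ⟨ht1, ht2⟩, ht0⟩ := ((h.and (h1.eventually (gt_mem_nhds hc))).and
    (self_mem_nhdsWithin (a := (0 : ℂ)) (s := {0}ᶜ))).exists
  have hn : 0 < ‖t‖ := norm_pos_iff.2 ht0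
  have h4 : ‖t‖ ^ b = ‖t‖ ^ (b - a) * ‖t‖ ^ a := by rw [← pow_add, Nat.sub_add_cancel hlt.le]
  rw [h4, ← mul_assoc] at ht1
  have h5 := (mul_le_mul_iff_of_pos_right (pow_pos hn a)).1 ht1
  linarith

variable {f : (Fin 3 → ℂ) → ℂ} {T : TB f}

/-- the function `g` in the coordinates `((x', y'), z)` -/
def gA (T : TB f) (g : (Fin 3 → ℂ) → ℂ) (p : (ℂ × ℂ) × ℂ) : ℂ := g (pt p.2 (T.A p.1))

lemma gA_an {g : (Fin 3 → ℂ) → ℂ} {p : (ℂ × ℂ) × ℂ} (hg : AnalyticAt ℂ g (pt p.2 (T.A p.1))) :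
    AnalyticAt ℂ (gA T g) p := by
  have h1 : gA T g = fun p : (ℂ × ℂ) × ℂ => g (ptL (T.A p.1, p.2)) := by
    funext p
    rw [ptL_apply]
    rfl
  rw [h1]
  refine AnalyticAt.comp (g := g) (f := fun p : (ℂ × ℂ) × ℂ => ptL (T.A p.1, p.2)) ?_ ?_
  · rw [ptL_apply]; exact hg
  · refine (ptL.analyticAt _).comp (AnalyticAt.prod ?_ analyticAt_snd)
    exact AnalyticAt.comp (g := fun q => T.A q) (f := fun p : (ℂ × ℂ) × ℂ => p.1)
      (T.A.toContinuousLinearMap.analyticAt _) analyticAt_fst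

lemma pt00 : pt 0 (0 : ℂ × ℂ) = 0 := by
  funext i
  fin_cases i <;> rfl

/-- the order of `f` on the `z`-axis -/
lemma ord_f : analyticOrderAt (fun w => gA T f ((0 : ℂ × ℂ), w)) 0 = T.d := by
  have hm : (0 : ℂ × ℂ) ∈ BD T.R T.R := ⟨by simpa using T.R_pos, by simpa using T.R_pos⟩
  have hfa : AnalyticAt ℂ (fun w => gA T f ((0 : ℂ × ℂ), w)) 0 := by
    have h1 := T.f_an 0 hm 0 (by simpa using T.rz_pos.le)
    exact AnalyticAt.comp (g := gA T f) (f := fun w : ℂ => ((0 : ℂ × ℂ), w)) (gA_an h1)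
      (analyticAt_const.prod analyticAt_id)
  rw [hfa.analyticOrderAt_eq_natCast]
  refine ⟨fun w => T.v (0, w), ?_, T.v_ne 0 hm 0 (by simpa using T.rz_pos.le), ?_⟩
  · exact AnalyticAt.comp (g := T.v) (f := fun w : ℂ => ((0 : ℂ × ℂ), w))
      (T.v_an 0 hm 0 (by simpa using T.rz_pos.le)) (analyticAt_const.prod analyticAt_id)
  · filter_upwards [Metric.ball_mem_nhds (0 : ℂ) T.rz_pos] with w hw
    rw [mem_ball_zero_iff] at hw
    show f (pt w (T.A 0)) = _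
    rw [T.f_eq 0 hm w hw.le, T.P_zero, eval_pow, eval_X, sub_zero, smul_eq_mul, mul_comm]

lemma map_top (i : Fin T.m) (a b : ℂ) : T.map (.edge i 0 1) (a, b) =
    (a * b, T.φ i ((a * b) ^ T.M) + b ^ T.M) := by
  show (a * b, T.φ i ((a * b) ^ T.M) + a ^ (T.M * 0) * b ^ (T.M * 1)) = _
  rw [Nat.mul_zero, pow_zero, one_mul, Nat.mul_one]

lemma sheet0 {i : Fin T.m} {r : ℝ} {ζ : Fin T.d → ℂ × ℂ → ℂ} (hS : T.Sheets (.edge i 0 1) r ζ)
    (l : Fin T.d) : ζ l (0, 0) = 0 := by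
  have hp : ((0 : ℂ), (0 : ℂ)) ∈ BD r r := ⟨by simpa using hS.r_pos, by simpa using hS.r_pos⟩
  have h1 := hS.root l hp
  rw [map_top] at h1
  have h2 : ((((0 : ℂ) * 0, T.φ i ((0 * 0) ^ T.M) + 0 ^ T.M) : ℂ × ℂ).1 ^ T.N,
      (((0 : ℂ) * 0, T.φ i ((0 * 0) ^ T.M) + 0 ^ T.M) : ℂ × ℂ).2) = (0 : ℂ × ℂ) := by
    simp [zero_pow T.N_pos.ne', zero_pow T.M_pos.ne', T.φ_zero]
  rw [h2, T.P_zero, eval_pow, eval_X] at h1
  exact pow_eq_zero_iff T.d_pos.ne' |>.1 h1

/-- **division by a power of `x'` on the surface** -/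
theorem div_x {i : Fin T.m} {r : ℝ} {ζ : Fin T.d → ℂ × ℂ → ℂ} (hS : T.Sheets (.edge i 0 1) r ζ)
    {g : (Fin 3 → ℂ) → ℂ} (hg : AnalyticAt ℂ g 0) {K : ℕ}
    (hb : ∀ᶠ b in 𝓝[≠] (0 : ℂ), ∀ l, ∃ (n : ℕ) (C : ℝ), T.N * K < n + T.N ∧
      ∀ᶠ a in 𝓝[≠] (0 : ℂ), ‖g (T.th (.edge i 0 1) (ζ l) (a, b))‖ ≤ C * ‖a‖ ^ n) :
    ∃ g₁ : (Fin 3 → ℂ) → ℂ, AnalyticAt ℂ g₁ 0 ∧ ∀ᶠ x in 𝓝 (0 : Fin 3 → ℂ), f x = 0 →
      g x = (T.A.symm (x 1, x 2)).1 ^ K * g₁ x := by
  classical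
  have hA0 : pt 0 (T.A (0 : ℂ × ℂ)) = 0 := by rw [map_zero]; exact pt00
  have hm0 : (0 : ℂ × ℂ) ∈ BD T.R T.R := ⟨by simpa using T.R_pos, by simpa using T.R_pos⟩
  have hF : AnalyticAt ℂ (gA T f) ((0 : ℂ × ℂ), (0 : ℂ)) :=
    gA_an (T.f_an 0 hm0 0 (by simpa using T.rz_pos.le))
  have hG : AnalyticAt ℂ (gA T g) ((0 : ℂ × ℂ), (0 : ℂ)) := gA_an (by
    show AnalyticAt ℂ g (pt 0 (T.A 0))
    rw [hA0]; exact hg)
  obtain ⟨q, c, hq, hc, heq⟩ := wdiv hF ord_f hG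
  have hval : T.Valid (.edge i 0 1) :=
    ⟨Or.inl rfl, T.one_mem_lev i, one_pos, fun _ hl => Or.inr (T.lev_pos hl)⟩
  have key : ∀ j, ∃ h : ℂ × ℂ → ℂ, AnalyticAt ℂ h 0 ∧ ∀ᶠ b in 𝓝 (0 : ℂ × ℂ),
      c j b = b.1 ^ K * h b := by
    intro j
    by_cases hz : ∀ᶠ b in 𝓝 ((0 : ℂ), (0 : ℂ)), c j b = 0
    · exact ⟨fun _ => 0, analyticAt_const, hz.mono fun b hb => by rw [hb, mul_zero]⟩
    obtain ⟨n, Gj, ⟨hGj, hGe⟩, hGn⟩ := exists_ord (h := c j) (b := 0) (hc j) hz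
    have hn : K ≤ n := by
      by_contra hlt
      push Not at hlt
      -- the leading coefficient
      have hGa : AnalyticAt ℂ (fun z : ℂ => Gj (0, z)) 0 :=
        AnalyticAt.comp (g := Gj) (f := fun z : ℂ => ((0 : ℂ), z)) hGj
          (analyticAt_const.prod analyticAt_id)
      have hne : ∀ᶠ z in 𝓝[≠] (0 : ℂ), Gj (0, z) ≠ 0 := by
        rcases hGa.eventually_eq_zero_or_eventually_ne_zero with h | h
        · exact ((hGn : ∃ᶠ z in 𝓝 (0 : ℂ), Gj (0, z) ≠ 0) (h.mono fun z hz hne => hne hz)).elim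
        · exact h
      have hpw : Tendsto (fun b : ℂ => b ^ T.M) (𝓝[≠] 0) (𝓝[≠] 0) := by
        refine tendsto_nhdsWithin_iff.2 ⟨?_, ?_⟩
        · have h1 : Continuous fun b : ℂ => b ^ T.M := by fun_prop
          have := (h1.tendsto 0).mono_left (nhdsWithin_le_nhds (s := {(0 : ℂ)}ᶜ))
          simpa [zero_pow T.M_pos.ne'] using this
        · filter_upwards [self_mem_nhdsWithin] with b hb
          exact pow_ne_zero _ hb
      have e1 : ∀ᶠ b in 𝓝[≠] (0 : ℂ), Gj (0, b ^ T.M) ≠ 0 := hpw.eventually hne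
      -- local equations
      have hc1 : ContinuousAt (fun b : ℂ => ((0 : ℂ), b ^ T.M)) 0 := by fun_prop
      have e2 : ∀ᶠ b in 𝓝 (0 : ℂ), ∀ᶠ x in 𝓝 ((0 : ℂ), b ^ T.M),
          c j x = x.1 ^ n * Gj x := by
        have h1 : ContinuousAt (fun b : ℂ => ((0 : ℂ), b ^ T.M)) 0 := hc1
        have h2 : Tendsto (fun b : ℂ => ((0 : ℂ), b ^ T.M)) (𝓝 0) (𝓝 ((0 : ℂ), (0 : ℂ))) := by
          have := h1.tendsto
          simpa [zero_pow T.M_pos.ne'] using this
        exact h2.eventually (eventually_eventually_nhds.2 hGe)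
      have e3 : ∀ᶠ b in 𝓝 (0 : ℂ), AnalyticAt ℂ Gj ((0 : ℂ), b ^ T.M) := by
        have h2 : Tendsto (fun b : ℂ => ((0 : ℂ), b ^ T.M)) (𝓝 0) (𝓝 ((0 : ℂ), (0 : ℂ))) := by
          have := hc1.tendsto
          simpa [zero_pow T.M_pos.ne'] using this
        exact h2.eventually hGj.eventually_analyticAt
      have hr := hS.r_pos
      have hp0 : ((0 : ℂ), (0 : ℂ)) ∈ BD r r := ⟨by simpa using hr, by simpa using hr⟩
      have e4 : ∀ l, ∀ᶠ b in 𝓝 (0 : ℂ), ∀ᶠ x in 𝓝 (((0 : ℂ), b ^ T.M), ζ l (0, b)),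
          gA T g x = q x * gA T f x + ∑ j : Fin T.d, c j x.1 * x.2 ^ (j : ℕ) := by
        intro l
        have h1 : ContinuousAt (fun b : ℂ => ζ l (0, b)) 0 :=
          ContinuousAt.comp (g := ζ l) (f := fun b : ℂ => ((0 : ℂ), b))
            (hS.an l _ hp0).continuousAt (by fun_prop)
        have h2 : Tendsto (fun b : ℂ => (((0 : ℂ), b ^ T.M), ζ l (0, b))) (𝓝 0)
            (𝓝 ((0 : ℂ × ℂ), (0 : ℂ))) := by
          have h3 := (hc1.prodMk h1).tendsto
          have h4 : (((0 : ℂ), (0 : ℂ) ^ T.M), ζ l (0, 0)) = ((0 : ℂ × ℂ), (0 : ℂ)) := by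
            rw [zero_pow T.M_pos.ne', sheet0 hS l]
            rfl
          rw [h4] at h3
          exact h3
        exact h2.eventually (eventually_eventually_nhds.2 heq)
      have e5 : ∀ᶠ b in 𝓝 (0 : ℂ), ‖b‖ < r := by
        have := Metric.ball_mem_nhds (0 : ℂ) hr
        filter_upwards [this] with b hb
        simpa using hb
      obtain ⟨b, ⟨⟨⟨⟨⟨⟨hb1, hb2⟩, hb3⟩, hb4⟩, hb5⟩, hb6⟩, hb7⟩⟩ :=
        (((((e1.and (e2.filter_mono nhdsWithin_le_nhds)).and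
          (e3.filter_mono nhdsWithin_le_nhds)).and
          ((eventually_all.2 e4).filter_mono nhdsWithin_le_nhds)).and
          (e5.filter_mono nhdsWithin_le_nhds)).and hb).and
          (self_mem_nhdsWithin (a := (0 : ℂ)) (s := {0}ᶜ)) |>.exists
      have hb0 : b ≠ 0 := hb7
      have hpb : ((0 : ℂ), b) ∈ BD r r := ⟨by simpa using hr, hb5⟩
      -- the path
      set β : ℂ → ℂ × ℂ := fun a => ((T.map (.edge i 0 1) (a, b)).1 ^ T.N,
        (T.map (.edge i 0 1) (a, b)).2) with hβ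
      have hβ0 : β 0 = (0, b ^ T.M) := by
        simp only [hβ, map_top]
        simp [zero_pow T.N_pos.ne', zero_pow T.M_pos.ne', T.φ_zero]
      have hβ1 : ∀ a, (β a).1 = (a * b) ^ T.N := by
        intro a
        simp only [hβ, map_top]
      have hpath : ContinuousAt (fun a : ℂ => (a, b)) 0 := by fun_prop
      have hβc : ContinuousAt β 0 :=
        ContinuousAt.comp (g := fun p => (((T.map (.edge i 0 1) p).1 ^ T.N,
          (T.map (.edge i 0 1) p).2) : ℂ × ℂ)) (f := fun a : ℂ => (a, b))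
          (hS.q_an hpb).continuousAt hpath
      have hZc : ∀ l, ContinuousAt (fun a : ℂ => ζ l (a, b)) 0 := fun l =>
        ContinuousAt.comp (g := ζ l) (f := fun a : ℂ => (a, b))
          (hS.an l _ hpb).continuousAt hpath
      obtain ⟨C₀, hC₀, hvd⟩ := vdm hZc (T.top_inj hS hval hpb hb0)
      choose nl Cl hnl hCl using hb6
      have e6 : ∀ᶠ a in 𝓝 (0 : ℂ), c j (β a) = (β a).1 ^ n * Gj (β a) := by
        have := hβc.tendsto
        rw [hβ0] at this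
        exact this.eventually hb2
      have e7 : ∀ᶠ a in 𝓝 (0 : ℂ), ‖Gj (0, b ^ T.M)‖ / 2 < ‖Gj (β a)‖ := by
        have h1 := hβc.tendsto
        rw [hβ0] at h1
        have h2 : Tendsto (fun a => ‖Gj (β a)‖) (𝓝 0) (𝓝 ‖Gj (0, b ^ T.M)‖) :=
          (hb3.continuousAt.norm.tendsto).comp h1
        have h3 : 0 < ‖Gj (0, b ^ T.M)‖ := norm_pos_iff.2 hb1
        exact h2.eventually (lt_mem_nhds (by linarith))
      have e8 : ∀ l, ∀ᶠ a in 𝓝 (0 : ℂ), gA T g (β a, ζ l (a, b)) =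
          q (β a, ζ l (a, b)) * gA T f (β a, ζ l (a, b)) +
            ∑ j : Fin T.d, c j (β a) * ζ l (a, b) ^ (j : ℕ) := by
        intro l
        have h1 : Tendsto (fun a => (β a, ζ l (a, b))) (𝓝 0) (𝓝 ((0, b ^ T.M), ζ l (0, b))) := by
          have h2 := (hβc.prodMk (hZc l)).tendsto
          rwa [hβ0] at h2
        exact h1.eventually (hb4 l)
      have e9 : ∀ᶠ a in 𝓝 (0 : ℂ), ‖a‖ < min r 1 := by
        have := Metric.ball_mem_nhds (0 : ℂ) (lt_min hr one_pos)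
        filter_upwards [this] with a ha
        simpa using ha
      set n₀ : ℕ := T.N * K + 1 - T.N with hn₀
      set Cs : ℝ := ∑ l, |Cl l| with hCs
      have hfin : ∀ᶠ a in 𝓝[≠] (0 : ℂ), (‖b‖ ^ (T.N * n) * (‖Gj (0, b ^ T.M)‖ / 2)) *
          ‖a‖ ^ (T.N * n) ≤ (C₀ * Cs) * ‖a‖ ^ n₀ := by
        filter_upwards [e6.filter_mono nhdsWithin_le_nhds, e7.filter_mono nhdsWithin_le_nhds,
          (eventually_all.2 e8).filter_mono nhdsWithin_le_nhds,
          e9.filter_mono nhdsWithin_le_nhds, eventually_all.2 hCl,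
          hvd.filter_mono nhdsWithin_le_nhds] with a a6 a7 a8 a9 a10 a11
        have ha1 : ‖a‖ ≤ 1 := (a9.trans_le (min_le_right _ _)).le
        have hpa : (a, b) ∈ BD r r := ⟨a9.trans_le (min_le_left _ _), hb5⟩
        have h1 : ∀ l, ‖∑ j : Fin T.d, c j (β a) * ζ l (a, b) ^ (j : ℕ)‖ ≤ Cs * ‖a‖ ^ n₀ := by
          intro l
          have h2 : gA T f (β a, ζ l (a, b)) = 0 := hS.th_V l hpa
          have h3 : gA T g (β a, ζ l (a, b)) = g (T.th (.edge i 0 1) (ζ l) (a, b)) := rfl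
          have h4 := a8 l
          rw [h2, mul_zero, zero_add, h3] at h4
          rw [← h4]
          have h5 : ‖a‖ ^ nl l ≤ ‖a‖ ^ n₀ := by
            refine pow_le_pow_of_le_one (norm_nonneg _) ha1 ?_
            have := hnl l
            omega
          have h6 : |Cl l| ≤ Cs :=
            Finset.single_le_sum (f := fun l => |Cl l|) (fun l _ => abs_nonneg _)
              (Finset.mem_univ l)
          calc ‖g (T.th (.edge i 0 1) (ζ l) (a, b))‖ ≤ Cl l * ‖a‖ ^ nl l := a10 l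
            _ ≤ |Cl l| * ‖a‖ ^ nl l := mul_le_mul_of_nonneg_right (le_abs_self _) (by positivity)
            _ ≤ Cs * ‖a‖ ^ n₀ := mul_le_mul h6 h5 (by positivity) ((abs_nonneg _).trans h6)
        have h2 := a11 (fun j => c j (β a)) _ h1 j
        have h3 : ‖c j (β a)‖ = ‖a‖ ^ (T.N * n) * ‖b‖ ^ (T.N * n) * ‖Gj (β a)‖ := by
          rw [a6, hβ1, norm_mul, norm_pow, norm_pow, norm_mul, ← pow_mul, mul_pow]
        simp only [h3] at h2
        calc (‖b‖ ^ (T.N * n) * (‖Gj (0, b ^ T.M)‖ / 2)) * ‖a‖ ^ (T.N * n)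
            = ‖a‖ ^ (T.N * n) * ‖b‖ ^ (T.N * n) * (‖Gj (0, b ^ T.M)‖ / 2) := by ring
          _ ≤ ‖a‖ ^ (T.N * n) * ‖b‖ ^ (T.N * n) * ‖Gj (β a)‖ :=
              mul_le_mul_of_nonneg_left a7.le (by positivity)
          _ ≤ C₀ * (Cs * ‖a‖ ^ n₀) := h2
          _ = _ := by ring
      have hpos : 0 < ‖b‖ ^ (T.N * n) * (‖Gj (0, b ^ T.M)‖ / 2) := by
        have h1 : 0 < ‖b‖ := norm_pos_iff.2 hb0
        have h2 : 0 < ‖Gj (0, b ^ T.M)‖ := norm_pos_iff.2 hb1
        positivity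
      have h10 := ord_cmp hpos hfin
      have hN := T.N_pos
      have h11 : T.N * (n + 1) ≤ T.N * K := Nat.mul_le_mul_left _ hlt
      rw [Nat.mul_add, Nat.mul_one] at h11
      omega
    refine ⟨fun b => b.1 ^ (n - K) * Gj b, (analyticAt_fst.pow _).mul hGj, ?_⟩
    filter_upwards [hGe] with b hb
    rw [hb, ← mul_assoc, ← pow_add, Nat.add_sub_cancel' hn]
  choose h hh hhe using key
  -- the quotient
  set B : (Fin 3 → ℂ) → ℂ × ℂ := fun x => T.A.symm (x 1, x 2) with hB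
  have hBa : AnalyticAt ℂ B 0 := by
    have h1 : AnalyticAt ℂ (fun x : Fin 3 → ℂ => ((x 1, x 2) : ℂ × ℂ)) 0 :=
      ((ContinuousLinearMap.proj (R := ℂ) (φ := fun _ : Fin 3 => ℂ) 1).analyticAt _).prod
        ((ContinuousLinearMap.proj (R := ℂ) (φ := fun _ : Fin 3 => ℂ) 2).analyticAt _)
    exact AnalyticAt.comp (g := fun q => T.A.symm q)
      (f := fun x : Fin 3 → ℂ => ((x 1, x 2) : ℂ × ℂ))
      (T.A.symm.toContinuousLinearMap.analyticAt _) h1
  have hB0 : B 0 = 0 := by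
    show T.A.symm ((0, 0) : ℂ × ℂ) = 0
    exact map_zero _
  have hx0 : AnalyticAt ℂ (fun x : Fin 3 → ℂ => x 0) 0 :=
    (ContinuousLinearMap.proj (R := ℂ) (φ := fun _ : Fin 3 => ℂ) 0).analyticAt _
  refine ⟨fun x => ∑ j : Fin T.d, h j (B x) * x 0 ^ (j : ℕ), ?_, ?_⟩
  · refine Finset.analyticAt_fun_sum _ fun j _ => ?_
    refine AnalyticAt.mul ?_ (hx0.pow _)
    exact AnalyticAt.comp (g := h j) (f := B) (by rw [hB0]; exact hh j) hBa
  · have ht : Tendsto (fun x : Fin 3 → ℂ => (B x, x 0)) (𝓝 0) (𝓝 ((0 : ℂ × ℂ), (0 : ℂ))) := by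
      have := (hBa.continuousAt.prodMk hx0.continuousAt).tendsto
      rwa [hB0] at this
    have htB : Tendsto B (𝓝 0) (𝓝 0) := by
      have := hBa.continuousAt.tendsto
      rwa [hB0] at this
    filter_upwards [ht.eventually heq, eventually_all.2 fun j => htB.eventually (hhe j)]
      with x h1 h2 hfx
    have hpt : pt (x 0) (T.A (B x)) = x := by
      simp only [hB, T.A.apply_symm_apply]
      funext k
      fin_cases k <;> rfl
    have e1 : gA T g (B x, x 0) = g x := by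
      show g (pt (x 0) (T.A (B x))) = _
      rw [hpt]
    have e2 : gA T f (B x, x 0) = 0 := by
      show f (pt (x 0) (T.A (B x))) = _
      rw [hpt, hfx]
    rw [e1, e2, mul_zero, zero_add] at h1
    rw [h1, Finset.mul_sum]
    refine Finset.sum_congr rfl fun j _ => ?_
    show c j (B x) * x 0 ^ (j : ℕ) = (B x).1 ^ K * (h j (B x) * x 0 ^ (j : ℕ))
    rw [h2 j, mul_assoc]

end Crest.Agent.R257.Div_843
end
end

-- ▼ part R257/ExT2_952
section

/-!
# Row 257, ExT (helper952): the factor of the invariant form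

`HF T k x = ∂₀ f / s ^ (N + M k)` on `W`:

* `HF_wc`, `HF_rot`, `HF_inv` (T2: `HF * fX` is invariant under the stabiliser);
* `HF_loc` : in a vertex chart `HF = α ^ n * unit`, `n = n1`.
-/

set_option autoImplicit false
set_option linter.unusedSectionVars false

open Polynomial Set Filter Topology Metric
open Crest.AlgGeometry.Germ Crest.Agent.R257.AJ387 Crest.Agent.R257.T387
open Crest.Agent.R257.BP_258 Crest.Agent.R257.Tb3_941 Crest.Agent.R257.Rot1_558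
open Crest.Agent.R257.Vt1_558 Crest.Agent.R257.Vt3_558 Crest.Agent.R257.Vt6_558
open Crest.Agent.R257.HoG_843

noncomputable section

namespace Crest.Agent.R257.ExT2_952

variable {f : (Fin 3 → ℂ) → ℂ} {T : TB f} {S : Sh T} {U : Tub T}

/-- the factor of the invariant form -/
def HF (T : TB f) (k : ℕ) (x : Fin 3 → ℂ) : ℂ := fz T x / x 1 ^ (T.N + T.M * k)




/-- **the form in a vertex chart** -/
theorem HF_loc {L : Lab U S} {nu : II U → ℤ} {n1 n2 : Ch T.m → Fin T.d → ℤ}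
    (J : Jac L nu n1 n2) {c : Ch T.m} (hc : Ok S c) (hV : IsV c) (j : Fin T.d) {v : Vtx}
    (hv : v1 T c = some v) {n : ℕ} (hn : (n : ℤ) = n1 c j) :
    ∃ u : ℂ × ℂ → ℂ, AnalyticOnNhd ℂ u (BD (2 * S.r c) (2 * S.r c)) ∧
      (∀ p ∈ BD (2 * S.r c) (2 * S.r c), u p ≠ 0) ∧
      ∀ p ∈ BD (2 * S.r c) (2 * S.r c), p.1 ≠ 0 → HF T v.1 (wc S c j p) = p.1 ^ n * u p := by
  have hr := S.pos c
  cases c with
  | edge i k k' => exact absurd hV id
  | leg i => exact absurd hV id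
  | vert i k w₀ =>
    have hvk : v.1 = k := by
      have h1 : vx T i k = v := Option.some.inj hv
      rw [← h1]; rfl
    subst hvk
    set c : Ch T.m := .vert i v.1 w₀ with hcdef
    obtain ⟨a, b, w, h1, h2, h3, h4⟩ := (S.sheets c hc.1).cd0_mono j
    have hb : b = 0 := h4 i v.1 w₀ rfl
    subst hb
    simp only [pow_zero, mul_one] at h3
    -- the exponent
    obtain ⟨K, hK, hbd⟩ := J.bd c hc j
    have hn2 : n2 c j = -1 := J.vert c hc trivial j
    have hab : a = T.N + T.M * v.1 + n := by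
      -- on the disc `(t, 0)`
      set m := T.N + T.M * v.1 + n with hm
      have hk := kk_pos hc.1
      have hN := T.N_pos
      have key : ∀ t : ℂ, t ≠ 0 → ‖t‖ < S.r c →
          kk T c * ‖t‖ ^ m ≤ K * (‖t‖ ^ a * ‖w (t, 0)‖) ∧
          ‖t‖ ^ a * ‖w (t, 0)‖ ≤ K * kk T c * ‖t‖ ^ m := by
        intro t ht htr
        have htn : 0 < ‖t‖ := norm_pos_iff.2 ht
        have hmem : ((t, 0) : ℂ × ℂ) ∈ BD (2 * S.r c) (2 * S.r c) :=
          ⟨by simpa using by linarith, by simpa using by linarith⟩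
        obtain ⟨b1, b2, b3⟩ := hbd (t, 0) htr.le (by simpa using hr.le) ht
        have e1 := dn_eq S hc.1 j hmem
        have e2 : fz T (wc S c j (t, 0)) = t ^ a * w (t, 0) := h3 _ hmem
        have e3 : T.jx c = (T.N - 1 + T.M * v.1, 0) := rfl
        rw [e3] at e1
        simp only [pow_zero, mul_one] at e1
        rw [e2, norm_mul, norm_pow] at e1
        have hw0 : 0 < ‖w (t, 0)‖ := norm_pos_iff.2 (h2 _ hmem)
        have e4 : ‖t‖ ^ (-n1 c j - 1) * ‖(((t, 0) : ℂ × ℂ)).2‖ ^ (-n2 c j - 1) =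
            (‖t‖ ^ (n + 1))⁻¹ := by
          rw [hn2, ← hn]
          have : (-(n : ℤ) - 1) = -((n + 1 : ℕ) : ℤ) := by push_cast; ring
          rw [this, zpow_neg, zpow_natCast]
          norm_num
        simp only at b2 b3
        have hD : 0 < ‖t‖ ^ a * ‖w (t, 0)‖ := by positivity
        have hP : 0 < ‖t‖ ^ (n + 1) := by positivity
        have e5 : ‖t‖ ^ m = ‖t‖ ^ (T.N - 1 + T.M * v.1) * ‖t‖ ^ (n + 1) := by
          rw [← pow_add]
          congr 1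
          omega
        have b2' : dn S c j (t, 0) ≤ K * (‖t‖ ^ (n + 1))⁻¹ := by rw [← e4]; exact b2
        have b3' : (‖t‖ ^ (n + 1))⁻¹ ≤ K * dn S c j (t, 0) := by rw [← e4]; exact b3
        rw [e1] at b2' b3'
        constructor
        · rw [div_le_iff₀ hD] at b2'
          have := mul_le_mul_of_nonneg_right b2' hP.le
          calc kk T c * ‖t‖ ^ m = kk T c * ‖t‖ ^ (T.N - 1 + T.M * v.1) * ‖t‖ ^ (n + 1) := by
                rw [e5]; ring
            _ ≤ K * (‖t‖ ^ (n + 1))⁻¹ * (‖t‖ ^ a * ‖w (t, 0)‖) * ‖t‖ ^ (n + 1) := this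
            _ = K * (‖t‖ ^ a * ‖w (t, 0)‖) := by field_simp
        · have h5 : 1 ≤ K * (kk T c * ‖t‖ ^ (T.N - 1 + T.M * v.1) / (‖t‖ ^ a * ‖w (t, 0)‖)) *
              ‖t‖ ^ (n + 1) := by
            have := mul_le_mul_of_nonneg_right b3' hP.le
            rwa [inv_mul_cancel₀ hP.ne'] at this
          have h6 := mul_le_mul_of_nonneg_right h5 hD.le
          calc ‖t‖ ^ a * ‖w (t, 0)‖ = 1 * (‖t‖ ^ a * ‖w (t, 0)‖) := (one_mul _).symm
            _ ≤ _ := h6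
            _ = K * kk T c * ‖t‖ ^ m := by rw [e5]; field_simp
      have hwc : ContinuousAt (fun t : ℂ => ‖w (t, 0)‖) 0 := by
        have h5 : ContinuousAt w ((fun t : ℂ => ((t, 0) : ℂ × ℂ)) 0) :=
          (h1 _ ⟨by simpa using hr, by simpa using hr⟩).continuousAt
        exact (ContinuousAt.comp (f := fun t : ℂ => ((t, 0) : ℂ × ℂ)) h5 (by fun_prop)).norm
      have hw0 : 0 < ‖w (0, 0)‖ := norm_pos_iff.2 (h2 _ ⟨by simpa using hr, by simpa using hr⟩)
      have e1 : ∀ᶠ t in 𝓝[≠] (0 : ℂ), ‖w (0, 0)‖ / 2 < ‖w (t, 0)‖ :=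
        (hwc.eventually (lt_mem_nhds (half_lt_self hw0))).filter_mono nhdsWithin_le_nhds
      have e2 : ∀ᶠ t in 𝓝[≠] (0 : ℂ), ‖w (t, 0)‖ < ‖w (0, 0)‖ + 1 :=
        (hwc.eventually (gt_mem_nhds (lt_add_one _))).filter_mono nhdsWithin_le_nhds
      have e3 : ∀ᶠ t in 𝓝[≠] (0 : ℂ), ‖t‖ < S.r c :=
        (continuous_norm.continuousAt.eventually (gt_mem_nhds (by simpa using hr))).filter_mono
          nhdsWithin_le_nhds
      refine le_antisymm ?_ ?_
      · refine Div_843.ord_cmp (a := m) (b := a) hk (C := K * (‖w (0, 0)‖ + 1)) ?_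
        filter_upwards [e1, e2, e3, self_mem_nhdsWithin] with t t1 t2 t3 t4
        refine (key t t4 t3).1.trans ?_
        have : ‖t‖ ^ a * ‖w (t, 0)‖ ≤ ‖t‖ ^ a * (‖w (0, 0)‖ + 1) :=
          mul_le_mul_of_nonneg_left t2.le (by positivity)
        nlinarith [mul_le_mul_of_nonneg_left this hK.le]
      · refine Div_843.ord_cmp (a := a) (b := m) (half_pos hw0) (C := K * kk T c) ?_
        filter_upwards [e1, e2, e3, self_mem_nhdsWithin] with t t1 t2 t3 t4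
        refine le_trans ?_ (key t t4 t3).2
        rw [mul_comm]
        exact mul_le_mul_of_nonneg_left t1.le (by positivity)
    refine ⟨w, h1, h2, fun p hp hp1 => ?_⟩
    have e1 : HF T v.1 (wc S c j p) = coordDeriv f 0 (T.th c (S.ζ c j) p) /
        p.1 ^ (T.N + T.M * v.1) := rfl
    rw [e1, h3 p hp, hab, pow_add]
    have : p.1 ^ (T.N + T.M * v.1) ≠ 0 := pow_ne_zero _ hp1
    field_simp

end Crest.Agent.R257.ExT2_952
end
end

-- ▼ part R257/ExTA_952
section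

/-!
# Row 257, ExT (helper952), the top axis

`top_ord` : the solution of the shifted Hörmander step has order `> a - N` along the axis `{α = 0}`
of a top edge.
-/

set_option autoImplicit false
set_option linter.unusedSectionVars false

noncomputable section

open Set Filter Topology MeasureTheory
open scoped ENNReal

namespace Crest.Agent.R257.ExT2_952

open Crest.AlgGeometry.Germ
open Crest.Agent.R257.T387 Crest.Agent.R257.BP_258 Crest.Agent.R257.OrdK_82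
open Crest.Agent.R257.HoT_843 Crest.Agent.R257.AJ387 Crest.Agent.R257.Gr1_157
open Crest.Agent.R257.Rot1_558 Crest.Agent.R257.Vt1_558 Crest.Agent.R257.Vt3_558
open Crest.Agent.R257.Vt4_558 Crest.Agent.R257.Vt6_558 Crest.Agent.R257.KB_82
open Polynomial (nthRootsFinset)

variable {f : (Fin 3 → ℂ) → ℂ} {T : TB f} {S : Sh T} {U : Tub T}

lemma root_mem {ξ : ℂ} (hξ : ξ ∈ nthRootsFinset T.N (1 : ℂ)) : ξ ^ T.N = 1 := by
  rwa [Polynomial.mem_nthRootsFinset T.N_pos] at hξ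

theorem top_ord {g V D : (Fin 3 → ℂ) → ℂ} {Φ : (Fin 3 → ℂ) → ℝ} {ρ₁ : ℝ} {a : ℕ}
    (h : HT S g V (fun x => x 1 ^ a * D x) (fun x => Φ x + a * Real.log (‖x 1‖ ^ 2)) ρ₁)
    {i : Fin T.m} {k' : ℕ} {c : Ch T.m} (hcd : c = .edge i 0 k') (hc : T.Valid c) (j : Fin T.d)
    (hoff : ∀ p ∈ Ogs S c ρ₁, ∀ i, (T.map c p).2 ≠ T.φ i ((T.map c p).1 ^ T.M))
    {b : ℂ} (hb : b ≠ 0) (hbr : ‖b‖ < S.r c)
    (hog : ∀ᶠ p in 𝓝 ((0 : ℂ), b), T.Gen c p → p ∈ Ogs S c ρ₁)
    (hga : AnalyticAt ℂ (fun p => g (T.th c (S.ζ c j) p)) (0, b)) {δ C : ℝ} (hδ : 0 < δ)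
    (hD : ∀ ξ : ℂ, ξ ^ T.N = 1 → ∃ C', ∀ᶠ p in 𝓝 ((0 : ℂ), b), T.Gen c p →
      ContinuousAt (fun p => D (rot ξ (wc S c j p))) p ∧
      ‖D (rot ξ (wc S c j p))‖ * dn S c j p ≤ C' * ‖p.1‖ ^ (δ - 1))
    (hΦ : ∀ ξ : ℂ, ξ ^ T.N = 1 → ∀ᶠ p in 𝓝 ((0 : ℂ), b), T.Gen c p →
      Φ (rot ξ (wc S c j p)) ≤ C) :
    ∃ (n : ℕ) (H : ℂ × ℂ → ℂ), (a : ℝ) - T.N < n ∧ AnalyticAt ℂ H (0, b) ∧
      ∀ᶠ p in 𝓝 ((0 : ℂ), b), g (T.th c (S.ζ c j) p) = p.1 ^ n * H p := by
  classical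
  have hr := S.pos c
  have hr1 := S.le c
  have hgen : ∀ p : ℂ × ℂ, T.Gen c p ↔ p.1 ≠ 0 ∧ p.2 ≠ 0 := by
    subst hcd; exact fun p => Iff.rfl
  have hs : ∀ p : ℂ × ℂ, (T.map c p).1 = p.1 * p.2 := by
    subst hcd; exact fun p => rfl
  have hjx : (T.jx c).1 = T.N - 1 := by
    subst hcd; simp [TB.jx]
  have hmem : ((0 : ℂ), b) ∈ AJ387.BD (2 * S.r c) (2 * S.r c) :=
    ⟨by simpa using hr, show ‖b‖ < 2 * S.r c by linarith⟩
  have hD' : ∀ ξ : ℂ, ∃ C', ξ ^ T.N = 1 → ∀ᶠ p in 𝓝 ((0 : ℂ), b), T.Gen c p →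
      ContinuousAt (fun p => D (rot ξ (wc S c j p))) p ∧
      ‖D (rot ξ (wc S c j p))‖ * dn S c j p ≤ C' * ‖p.1‖ ^ (δ - 1) := fun ξ => by
    by_cases hξ : ξ ^ T.N = 1
    · obtain ⟨C', hC'⟩ := hD ξ hξ; exact ⟨C', fun _ => hC'⟩
    · exact ⟨0, fun h => absurd h hξ⟩
  choose C' hC' using hD'
  -- the neighbourhood
  have hall : ∀ᶠ p in 𝓝 ((0 : ℂ), b), ∀ ξ ∈ nthRootsFinset T.N (1 : ℂ), T.Gen c p →
      (ContinuousAt (fun p => D (rot ξ (wc S c j p))) p ∧
      ‖D (rot ξ (wc S c j p))‖ * dn S c j p ≤ C' ξ * ‖p.1‖ ^ (δ - 1)) ∧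
      Φ (rot ξ (wc S c j p)) ≤ C := by
    rw [Filter.eventually_all_finset]
    intro ξ hξ
    filter_upwards [hC' ξ (root_mem hξ), hΦ ξ (root_mem hξ)] with p q1 q2 hg using ⟨q1 hg, q2 hg⟩
  have hfc : ContinuousAt (fun p => ‖fz T (wc S c j p)‖) ((0 : ℂ), b) := by
    obtain ⟨a', b', w, w1, -, w3, -⟩ := (S.sheets c hc).cd0_mono j
    have e : (fun p : ℂ × ℂ => p.1 ^ a' * p.2 ^ b' * w p) =ᶠ[𝓝 ((0 : ℂ), b)]
        fun p => fz T (wc S c j p) := by
      filter_upwards [(isOpen_BD _ _).mem_nhds hmem] with p hp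
      exact (w3 p hp).symm
    have h5 : ContinuousAt (fun p : ℂ × ℂ => p.1 ^ a' * p.2 ^ b' * w p) ((0 : ℂ), b) :=
      ((continuousAt_fst.pow _).mul (continuousAt_snd.pow _)).mul (w1 _ hmem).continuousAt
    exact (h5.congr e).norm
  set B : ℝ := ‖fz T (wc S c j (0, b))‖ + 1 with hB
  have hB0 : 0 < B := by positivity
  have hfz : ∀ᶠ p in 𝓝 ((0 : ℂ), b), ‖fz T (wc S c j p)‖ < B :=
    hfc.eventually (gt_mem_nhds (lt_add_one _))
  have hb0 : 0 < ‖b‖ := norm_pos_iff.2 hb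
  have e2 : ∀ᶠ p : ℂ × ℂ in 𝓝 ((0 : ℂ), b), ‖b‖ / 2 < ‖p.2‖ :=
    continuousAt_snd.norm.eventually (lt_mem_nhds (half_lt_self hb0))
  have e3 : ∀ᶠ p : ℂ × ℂ in 𝓝 ((0 : ℂ), b), p ∈ AJ387.BD (S.r c) (S.r c) :=
    (isOpen_BD _ _).mem_nhds ⟨by simpa using hr, hbr⟩
  have hgc : ∀ᶠ p in 𝓝 ((0 : ℂ), b), ContinuousAt (fun p => g (T.th c (S.ζ c j) p)) p :=
    hga.eventually_analyticAt.mono fun p hp => hp.continuousAt
  obtain ⟨A, hA, hAo, hA0⟩ := eventually_nhds_iff.1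
    (hall.and (hfz.and (e2.and (e3.and (hgc.and hog)))))
  set W : Set (ℂ × ℂ) := A ∩ {p | T.Gen c p} with hW
  have hWo : IsOpen W := hAo.inter (isOpen_gen c)
  have hp1 : ∀ p ∈ W, 0 < ‖p.1‖ := fun p hp => norm_pos_iff.2 ((hgen p).1 hp.2).1
  -- the comparison weight
  set Ψ : ℂ × ℂ → ℝ := fun p => a * Real.log (‖p.1‖ ^ 2) + C with hΨ
  have hΨc : ContinuousOn Ψ W := by
    intro p hp
    have : ‖p.1‖ ^ 2 ≠ 0 := pow_ne_zero _ (hp1 p hp).ne'
    exact ((continuousAt_const.mul ((continuousAt_fst.norm.pow 2).log this)).add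
      continuousAt_const).continuousWithinAt
  have hn1 : ∀ ξ : ℂ, ξ ^ T.N = 1 → ∀ p ∈ W, ‖rot ξ (wc S c j p) 1‖ = ‖p.1‖ * ‖p.2‖ := by
    intro ξ hξ p hp
    rw [rot_1, norm_mul, norm_one T hξ, one_mul]
    show ‖(T.map c p).1‖ = _
    rw [hs, norm_mul]
  have hp2 : ∀ p ∈ W, ‖p.2‖ ≤ 1 := fun p hp => by
    have := (hA p hp.1).2.2.2.1.2
    linarith
  have hp2' : ∀ p ∈ W, 0 < ‖p.2‖ := fun p hp => norm_pos_iff.2 ((hgen p).1 hp.2).2
  set d : ℂ → ℂ × ℂ → ℂ := fun ξ p => (rot ξ (wc S c j p) 1) ^ a * D (rot ξ (wc S c j p)) with hd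
  have hwcc : ∀ p ∈ W, ContinuousAt (wc S c j) p := fun p hp => by
    have h3 := (hA p hp.1).2.2.2.1
    exact (an_wc S hc (by linarith [h3.1]) (by linarith [h3.2]) j).continuousAt
  have hdc : ∀ ξ : ℂ, ξ ^ T.N = 1 → ContinuousOn (d ξ) W := by
    intro ξ hξ p hp
    have h5 : ξ ∈ nthRootsFinset T.N (1 : ℂ) := (Polynomial.mem_nthRootsFinset T.N_pos (1 : ℂ)).2 hξ
    have h4 := (((hA p hp.1).1 ξ h5) hp.2).1.1
    have h6 : ContinuousAt (fun p => ξ * wc S c j p 1) p :=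
      continuousAt_const.mul (continuousAt_pi.1 (hwcc p hp) 1)
    exact ((h6.pow a).mul h4).continuousWithinAt
  have key := h.l2 hc j hoff hWo (fun p hp => (hA p hp.1).2.2.2.2.2 hp.2) (d := d) hdc
    (fun ξ hξ p hp => rfl) hΨc (fun ξ hξ p hp => by
      have h5 : ξ ∈ nthRootsFinset T.N (1 : ℂ) :=
        (Polynomial.mem_nthRootsFinset T.N_pos (1 : ℂ)).2 hξ
      have h4 := (((hA p hp.1).1 ξ h5) hp.2).2
      have h6 : Real.log (‖rot ξ (wc S c j p) 1‖ ^ 2) ≤ Real.log (‖p.1‖ ^ 2) := by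
        rw [hn1 ξ hξ p hp]
        have h7 := hp1 p hp
        have h8 := hp2' p hp
        refine Real.log_le_log (by positivity) (pow_le_pow_left₀ (by positivity) ?_ 2)
        exact mul_le_of_le_one_right h7.le (hp2 p hp)
      have h7 : (a : ℝ) * Real.log (‖rot ξ (wc S c j p) 1‖ ^ 2) ≤ a * Real.log (‖p.1‖ ^ 2) :=
        mul_le_mul_of_nonneg_left h6 (Nat.cast_nonneg a)
      simp only [hΨ]
      linarith)
  -- the average of the data
  set dl : ℂ × ℂ → ℂ := fun p => 1 / T.N * ∑ ξ ∈ nthRootsFinset T.N (1 : ℂ), d ξ p with hdl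
  have hdlc : ContinuousOn dl W := by
    refine continuousOn_const.mul (continuousOn_finsetSum _ fun ξ hξ => hdc ξ (root_mem hξ))
  have hgW : ContinuousOn (fun p => g (T.th c (S.ζ c j) p)) W := fun p hp =>
    ((hA p hp.1).2.2.2.2.1).continuousWithinAt
  set w : ℂ × ℂ → ℝ := fun p => Real.exp (-Ψ p) * dn S c j p ^ 2 with hw
  have hwc : ContinuousOn w W := by
    refine (Real.continuous_exp.comp_continuousOn hΨc.neg).mul (ContinuousOn.pow ?_ 2)
    intro p hp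
    have h3 := (hA p hp.1).2.2.2.1
    exact (dn_cont hc j (by linarith [h3.1]) (by linarith [h3.2]) hp.2).continuousWithinAt
  have hw0 : ∀ p, 0 ≤ w p := fun p => by positivity
  have hexp : ∀ p ∈ W, Real.exp (-Ψ p) = Real.exp (-C) * ‖p.1‖ ^ (-2 * (a : ℝ)) := by
    intro p hp
    simp only [hΨ]
    rw [neg_add, Real.exp_add, CDataA_250.exp_log_sq (hp1 p hp), mul_comm]
  set Cs : ℝ := ∑ ξ ∈ nthRootsFinset T.N (1 : ℂ), |C' ξ| with hCs
  have hCs0 : 0 ≤ Cs := Finset.sum_nonneg fun _ _ => abs_nonneg _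
  have hdn0 : ∀ p, 0 ≤ dn S c j p := fun p => by unfold dn; positivity
  have hdb : ∀ p ∈ W, ‖dl p‖ * dn S c j p ≤ Cs * (‖p.1‖ ^ a * ‖p.1‖ ^ (δ - 1)) := by
    intro p hp
    have h1 : ‖dl p‖ ≤ ∑ ξ ∈ nthRootsFinset T.N (1 : ℂ), ‖d ξ p‖ := by
      simp only [hdl]
      rw [norm_mul]
      have hN : ‖(1 / T.N : ℂ)‖ ≤ 1 := by
        rw [norm_div, NormOneClass.norm_one, Complex.norm_natCast]
        have : (1 : ℝ) ≤ T.N := by exact_mod_cast T.N_pos
        exact (div_le_one (by linarith)).2 this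
      calc _ ≤ 1 * ‖∑ ξ ∈ nthRootsFinset T.N (1 : ℂ), d ξ p‖ :=
            mul_le_mul_of_nonneg_right hN (norm_nonneg _)
        _ ≤ _ := by rw [one_mul]; exact norm_sum_le _ _
    calc ‖dl p‖ * dn S c j p ≤ (∑ ξ ∈ nthRootsFinset T.N (1 : ℂ), ‖d ξ p‖) * dn S c j p :=
          mul_le_mul_of_nonneg_right h1 (hdn0 p)
      _ = ∑ ξ ∈ nthRootsFinset T.N (1 : ℂ), ‖d ξ p‖ * dn S c j p := by rw [Finset.sum_mul]
      _ ≤ ∑ ξ ∈ nthRootsFinset T.N (1 : ℂ), |C' ξ| * (‖p.1‖ ^ a * ‖p.1‖ ^ (δ - 1)) := by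
          refine Finset.sum_le_sum fun ξ hξ => ?_
          have h4 := (((hA p hp.1).1 ξ hξ) hp.2).1.2
          have h5 := hp1 p hp
          simp only [hd]
          rw [norm_mul, norm_pow, hn1 ξ (root_mem hξ) p hp, mul_pow]
          have h6 : ‖p.2‖ ^ a ≤ 1 := pow_le_one₀ (norm_nonneg _) (hp2 p hp)
          have h7 : 0 ≤ ‖D (rot ξ (wc S c j p))‖ * dn S c j p :=
            mul_nonneg (norm_nonneg _) (hdn0 p)
          calc ‖p.1‖ ^ a * ‖p.2‖ ^ a * ‖D (rot ξ (wc S c j p))‖ * dn S c j p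
              = ‖p.1‖ ^ a * (‖p.2‖ ^ a * (‖D (rot ξ (wc S c j p))‖ * dn S c j p)) := by ring
            _ ≤ ‖p.1‖ ^ a * (1 * (‖D (rot ξ (wc S c j p))‖ * dn S c j p)) := by gcongr
            _ ≤ ‖p.1‖ ^ a * (|C' ξ| * ‖p.1‖ ^ (δ - 1)) := by
                rw [one_mul]
                refine mul_le_mul_of_nonneg_left (h4.trans ?_) (by positivity)
                exact mul_le_mul_of_nonneg_right (le_abs_self _) (by positivity)
            _ = _ := by ring
      _ = Cs * (‖p.1‖ ^ a * ‖p.1‖ ^ (δ - 1)) := by rw [hCs, Finset.sum_mul]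
  have hint : ∫⁻ p in W, ENNReal.ofReal (‖dl p‖ ^ 2 * w p) ≠ ∞ := by
    refine CDataA_250.fin_int hWo.measurableSet (R := S.r c) (fun p hp => (hA p hp.1).2.2.2.1)
      (C := Real.exp (-C) * Cs ^ 2) (e := δ) (e' := 1) hδ one_pos (by positivity)
      fun p hp h1 h2 => ?_
    have h5 := hp1 p hp
    have h3 := hdb p hp
    have h4 : (‖dl p‖ * dn S c j p) ^ 2 ≤ (Cs * (‖p.1‖ ^ a * ‖p.1‖ ^ (δ - 1))) ^ 2 :=
      pow_le_pow_left₀ (mul_nonneg (norm_nonneg _) (hdn0 p)) h3 2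
    have h6 : (‖p.1‖ ^ a) ^ 2 * ‖p.1‖ ^ (-2 * (a : ℝ)) = 1 := by
      rw [← Real.rpow_natCast, ← Real.rpow_natCast, ← Real.rpow_mul h5.le, ← Real.rpow_add h5]
      rw [show (a : ℝ) * ((2 : ℕ) : ℝ) + -2 * (a : ℝ) = 0 by push_cast; ring, Real.rpow_zero]
    have h7 : (‖p.1‖ ^ (δ - 1)) ^ 2 = ‖p.1‖ ^ (2 * δ - 2) := by
      rw [← Real.rpow_natCast, ← Real.rpow_mul h5.le]
      congr 1
      push_cast
      ring
    calc ‖dl p‖ ^ 2 * w p = Real.exp (-C) * ‖p.1‖ ^ (-2 * (a : ℝ)) *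
          (‖dl p‖ * dn S c j p) ^ 2 := by
          simp only [hw]; rw [hexp p hp]; ring
      _ ≤ Real.exp (-C) * ‖p.1‖ ^ (-2 * (a : ℝ)) * (Cs * (‖p.1‖ ^ a * ‖p.1‖ ^ (δ - 1))) ^ 2 :=
          mul_le_mul_of_nonneg_left h4 (by positivity)
      _ = Real.exp (-C) * Cs ^ 2 * ((‖p.1‖ ^ a) ^ 2 * ‖p.1‖ ^ (-2 * (a : ℝ))) *
          (‖p.1‖ ^ (δ - 1)) ^ 2 := by ring
      _ = Real.exp (-C) * Cs ^ 2 * (‖p.1‖ ^ (2 * δ - 2) * ‖p.2‖ ^ (2 * (1 : ℝ) - 2)) := by
          rw [h6, h7, show (2 : ℝ) * 1 - 2 = 0 by norm_num, Real.rpow_zero]; ring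
  -- the integral of `g`
  have hL : ∫⁻ p in W, ENNReal.ofReal (‖g (T.th c (S.ζ c j) p)‖ ^ 2 * w p) ≠ ⊤ := by
    have e1 : ∀ p, ‖g (T.th c (S.ζ c j) p)‖ ^ 2 * w p =
        ‖(1 : ℂ) * ∑ x ∈ ({0, 1} : Finset (Fin 2)), ![g (T.th c (S.ζ c j) p) - dl p, dl p] x‖ ^ 2 *
          w p := by
      intro p
      simp
    have e2 := avg_L2 ({0, 1} : Finset (Fin 2)) hWo.measurableSet
      (v := fun x p => (![g (T.th c (S.ζ c j) p) - dl p, dl p] : Fin 2 → ℂ) x)
      (w := fun _ p => w p) (w₀ := w) (fun p _ => hw0 p) (fun _ _ _ _ => le_rfl)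
      (fun x _ => by
        refine ContinuousOn.aemeasurable ?_ hWo.measurableSet
        refine ENNReal.continuous_ofReal.comp_continuousOn (ContinuousOn.mul ?_ hwc)
        refine ContinuousOn.pow (ContinuousOn.norm ?_) 2
        fin_cases x
        · exact hgW.sub hdlc
        · exact hdlc)
      (fun x _ => by
        fin_cases x
        · have := key
          simp only [mul_assoc] at this
          simpa [hw, hdl, mul_assoc] using this
        · exact hint) 1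
    simp only [e1]
    exact e2
  have hlow : ∀ᶠ p in 𝓝 ((0 : ℂ), b), p.1 ≠ 0 →
      (Real.exp (-C) * (kk T c * (‖b‖ / 2) ^ (T.jx c).2 / B) ^ 2) *
        ‖p.1‖ ^ (-2 * ((a : ℝ) - T.N) - 2) ≤ w p := by
    filter_upwards [hAo.mem_nhds hA0] with p hp hp0
    have h2 : p.2 ≠ 0 := by
      have := (hA p hp).2.2.1
      exact norm_pos_iff.1 (by linarith)
    have hpW : p ∈ W := ⟨hp, (hgen p).2 ⟨hp0, h2⟩⟩
    have h5 := hp1 p hpW
    have h3 := (hA p hp).2.2.2.1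
    have hm2 : p ∈ AJ387.BD (2 * S.r c) (2 * S.r c) :=
      ⟨by linarith [h3.1], by linarith [h3.2]⟩
    have h6 : 0 < ‖fz T (wc S c j p)‖ := by
      refine norm_pos_iff.2 ?_
      exact cd_ne S hc hm2.1 hm2.2 hpW.2 j
    have hk := kk_pos hc
    have h7 : kk T c * (‖b‖ / 2) ^ (T.jx c).2 / B * ‖p.1‖ ^ (T.N - 1) ≤ dn S c j p := by
      rw [dn_eq S hc j hm2, hjx]
      have h8 : (‖b‖ / 2) ^ (T.jx c).2 ≤ ‖p.2‖ ^ (T.jx c).2 :=
        pow_le_pow_left₀ (by positivity) (hA p hp).2.2.1.le _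
      calc kk T c * (‖b‖ / 2) ^ (T.jx c).2 / B * ‖p.1‖ ^ (T.N - 1)
          = kk T c * ‖p.1‖ ^ (T.N - 1) * (‖b‖ / 2) ^ (T.jx c).2 / B := by ring
        _ ≤ kk T c * ‖p.1‖ ^ (T.N - 1) * ‖p.2‖ ^ (T.jx c).2 / B := by gcongr
        _ ≤ kk T c * ‖p.1‖ ^ (T.N - 1) * ‖p.2‖ ^ (T.jx c).2 / ‖fz T (wc S c j p)‖ := by
            gcongr
            exact (hA p hp).2.1.le
    have h9 := pow_le_pow_left₀ (by positivity) h7 2
    simp only [hw]
    rw [hexp p hpW]
    have h10 : ‖p.1‖ ^ (-2 * ((a : ℝ) - T.N) - 2) =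
        ‖p.1‖ ^ (-2 * (a : ℝ)) * (‖p.1‖ ^ (T.N - 1)) ^ 2 := by
      have hN : ((T.N - 1 : ℕ) : ℝ) = (T.N : ℝ) - 1 := by
        rw [Nat.cast_sub T.N_pos]; simp
      rw [← Real.rpow_natCast, ← Real.rpow_natCast, ← Real.rpow_mul h5.le, ← Real.rpow_add h5, hN]
      congr 1
      push_cast
      ring
    rw [h10]
    calc _ = Real.exp (-C) * ‖p.1‖ ^ (-2 * (a : ℝ)) *
        (kk T c * (‖b‖ / 2) ^ (T.jx c).2 / B * ‖p.1‖ ^ (T.N - 1)) ^ 2 := by ring
      _ ≤ _ := mul_le_mul_of_nonneg_left h9 (by positivity)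
  refine order_L2' (z := b) (U := W) ?_ hga (w := w) ?_ hlow hL
  · filter_upwards [hAo.mem_nhds hA0] with p hp hp0
    have h2 : p.2 ≠ 0 := by
      have := (hA p hp).2.2.1
      exact norm_pos_iff.1 (by linarith)
    exact ⟨hp, (hgen p).2 ⟨hp0, h2⟩⟩
  · have hk := kk_pos hc
    positivity

end Crest.Agent.R257.ExT2_952
end
end

-- ▼ part R257/ExT1_176
section

/-!
# Row 257, ExT (helper176): the input `NDat` of the null data for an invariant form

`HT T k x = ∂_z f / s ^ (N + M k)`; exponents `hT1`, `hT2`, `eT`; `ndatT : NDat ..`.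
-/

set_option autoImplicit false
set_option linter.unusedSectionVars false

open Polynomial Set Filter Topology Metric
open Crest.AlgGeometry.Germ Crest.Agent.R257.AJ387 Crest.Agent.R257.T387
open Crest.Agent.R257.Gr1_157 Crest.Agent.R257.HoB_843 Crest.Agent.R257.BP_258
open Crest.Agent.R257.Wt_258 Crest.Agent.R257.Rsn_843 Crest.Agent.R257.Hv_174
open Crest.Agent.R257.Vt6_558 Crest.Agent.R257.Exf_843
open Crest.Agent.R257.CDataB_250 (sc_ne gen_fst)

noncomputable section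

namespace Crest.Agent.R257.ExT1_176

variable {f : (Fin 3 → ℂ) → ℂ} {T : TB f} {S : Sh T} {U : Tub T}

/-- the coefficient `∂_z f / s ^ (N + M k)` -/
def HT (T : TB f) (k : ℕ) (x : Fin 3 → ℂ) : ℂ := fz T x / x 1 ^ (T.N + T.M * k)


open Classical in
/-- exponent along `{α = 0}` -/
def hT1 (L : Lab U S) (n1 : Ch T.m → Fin T.d → ℤ) (E₀ : II U) (c : Ch T.m) (j : Fin T.d) : ℝ :=
  if L.e2 c j = some E₀ then (n1 c j : ℝ) - lx T c else n1 c j

open Classical in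
/-- exponent along `{β = 0}` -/
def hT2 (L : Lab U S) (n2 : Ch T.m → Fin T.d → ℤ) (E₀ : II U) (c : Ch T.m) (j : Fin T.d) : ℝ :=
  if IsV c then 0 else if L.e2 c j = some E₀ then (n2 c j : ℝ) else (n2 c j : ℝ) + lx T c

open Classical in
/-- exponent of the form at the end -/
def eT (L : Lab U S) (E₀ : II U) (c : Ch T.m) (j : Fin T.d) : ℝ :=
  if L.e2 c j = some E₀ then (lx T c : ℝ) * (1 + 1 / (T.d : ℝ))
  else (lx T c : ℝ) * (-1 + 1 / (T.d : ℝ))

/-! ### labels -/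

lemma v1_of (L : Lab U S) {c : Ch T.m} (hc : Ok S c) {j : Fin T.d} {E : II U}
    (h : L.e1 c j = some E) : v1 T c = some E.1.1 := by
  have h1 := L.v_e1 c hc j
  rw [h] at h1
  exact h1.symm

lemma v2_of (L : Lab U S) {c : Ch T.m} (hc : Ok S c) {j : Fin T.d} {E : II U}
    (h : L.e2 c j = some E) : v2 T c = some E.1.1 := by
  have h1 := L.v_e2 c hc j
  rw [h] at h1
  exact h1.symm

/-- the two labels of an edge -/
lemma edge_of (L : Lab U S) {c : Ch T.m} (hc : Ok S c) {j : Fin T.d} {E : II U}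
    (h : L.e2 c j = some E) : ∃ i k, c = .edge i k E.1.1.1 ∧ k < E.1.1.1 := by
  have h2 := v2_of L hc h
  cases c with
  | leg i => simp [v2] at h2
  | vert i k w => simp [v2] at h2
  | edge i k k' =>
    simp only [v2, Option.some.injEq] at h2
    have h3 : k' = E.1.1.1 := congrArg Prod.fst h2
    subst h3
    exact ⟨i, k, rfl, hc.1.2.2.1⟩

lemma lab_ne (L : Lab U S) {c : Ch T.m} (hc : Ok S c) {j : Fin T.d} {E E' : II U}
    (h1 : L.e1 c j = some E) (h2 : L.e2 c j = some E') : E ≠ E' := by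
  obtain ⟨i, k, rfl, hk⟩ := edge_of L hc h2
  have h3 := v1_of L hc h1
  rintro rfl
  by_cases h0 : k = 0
  · simp [v1, h0] at h3
  · simp only [v1, h0, if_false, Option.some.injEq] at h3
    have h4 : k = E.1.1.1 := congrArg Prod.fst h3
    omega

lemma cd_pos {v : Vtx} (hv : v ∈ Vs T) : 0 < cd S v := by
  have h1 : S.kp v < v.1 := (S.kp_cons v hv).2.2.1
  have h2 : (0 : ℝ) < ((v.1 - S.kp v : ℕ) : ℝ) := by
    have : 0 < v.1 - S.kp v := by omega
    exact_mod_cast this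
  have h3 : (0 : ℝ) < T.M := by exact_mod_cast T.M_pos
  unfold cd
  positivity

lemma Mx_pos (L : Lab U S) {E E' : II U} (hne : E ≠ E') {v : Vtx} (hv : v ∈ Vs T) {j : Fin T.d}
    (h : (L.e1 (ec S v) j = some E ∧ L.e2 (ec S v) j = some E') ∨
      (L.e2 (ec S v) j = some E ∧ L.e1 (ec S v) j = some E')) : 0 < Mx L E E' := by
  classical
  unfold Mx
  have hterm : ∀ v ∈ Vs T, ∀ j : Fin T.d, 0 ≤ cd S v *
      ((if L.e1 (ec S v) j = some E then
        (if L.e2 (ec S v) j = some E' then (1 : ℝ) else 0) - (if E = E' then 1 else 0) else 0) +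
      (if L.e2 (ec S v) j = some E then
        (if L.e1 (ec S v) j = some E' then (1 : ℝ) else 0) - (if E = E' then 1 else 0) else 0)) := by
    intro v hv j
    refine mul_nonneg (cd_pos hv).le ?_
    simp only [if_neg hne, sub_zero]
    split_ifs <;> norm_num
  have hpos : 0 < cd S v *
      ((if L.e1 (ec S v) j = some E then
        (if L.e2 (ec S v) j = some E' then (1 : ℝ) else 0) - (if E = E' then 1 else 0) else 0) +
      (if L.e2 (ec S v) j = some E then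
        (if L.e1 (ec S v) j = some E' then (1 : ℝ) else 0) - (if E = E' then 1 else 0) else 0)) := by
    refine mul_pos (cd_pos hv) ?_
    simp only [if_neg hne, sub_zero]
    rcases h with ⟨h1, h2⟩ | ⟨h1, h2⟩
    · simp only [h1, h2]
      split_ifs <;> norm_num
    · simp only [h1, h2]
      split_ifs <;> norm_num
  have e1 : ∀ v ∈ Vs T, (0 : ℝ) ≤ ∑ j : Fin T.d, cd S v *
      ((if L.e1 (ec S v) j = some E then
        (if L.e2 (ec S v) j = some E' then (1 : ℝ) else 0) - (if E = E' then 1 else 0) else 0) +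
      (if L.e2 (ec S v) j = some E then
        (if L.e1 (ec S v) j = some E' then (1 : ℝ) else 0) - (if E = E' then 1 else 0) else 0)) :=
    fun v hv => Finset.sum_nonneg fun j _ => hterm v hv j
  have e2 := Finset.single_le_sum (f := fun v => ∑ j : Fin T.d, cd S v *
      ((if L.e1 (ec S v) j = some E then
        (if L.e2 (ec S v) j = some E' then (1 : ℝ) else 0) - (if E = E' then 1 else 0) else 0) +
      (if L.e2 (ec S v) j = some E then
        (if L.e1 (ec S v) j = some E' then (1 : ℝ) else 0) - (if E = E' then 1 else 0) else 0)))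
    e1 hv
  have e3 := Finset.single_le_sum (f := fun j : Fin T.d => cd S v *
      ((if L.e1 (ec S v) j = some E then
        (if L.e2 (ec S v) j = some E' then (1 : ℝ) else 0) - (if E = E' then 1 else 0) else 0) +
      (if L.e2 (ec S v) j = some E then
        (if L.e1 (ec S v) j = some E' then (1 : ℝ) else 0) - (if E = E' then 1 else 0) else 0)))
    (fun j _ => hterm v hv j) (Finset.mem_univ j)
  have e4 := lt_of_lt_of_le hpos (e3.trans e2)
  convert e4 using 1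

/-! ### the bound of `HT` -/

lemma part {u : ℝ} (hu : 0 < u) (a E : ℕ) (n h : ℤ) (e : h = a + n + 1 - E) :
    u ^ (-n - 1) * u ^ E * u ^ h = u ^ a := by
  rw [← zpow_natCast u E, ← zpow_natCast u a, ← zpow_add₀ hu.ne', ← zpow_add₀ hu.ne', e]
  congr 1
  ring

lemma fz_le {L : Lab U S} {nu : II U → ℤ} {n1 n2 : Ch T.m → Fin T.d → ℤ} (J : Jac L nu n1 n2)
    {c : Ch T.m} (hc : Ok S c) (j : Fin T.d) : ∃ C : ℝ, 0 < C ∧ ∀ p : ℂ × ℂ, ‖p.1‖ ≤ S.r c →
      ‖p.2‖ ≤ S.r c → T.Gen c p → ‖fz T (wc S c j p)‖ *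
        (‖p.1‖ ^ (-n1 c j - 1) * ‖p.2‖ ^ (-n2 c j - 1)) ≤
          C * (‖p.1‖ ^ (T.jx c).1 * ‖p.2‖ ^ (T.jx c).2) := by
  obtain ⟨K, hK, h⟩ := J.bd c hc j
  have hk := kk_pos hc.1
  refine ⟨K * kk T c, by positivity, fun p h1 h2 hg => ?_⟩
  obtain ⟨h3, -, h4⟩ := h p h1 h2 hg
  have hS := S.pos c
  have hm : p ∈ BD (2 * S.r c) (2 * S.r c) := ⟨by linarith, by linarith⟩
  rw [dn_eq S hc.1 j hm] at h4
  rw [fz_wc] at h3
  have h5 := norm_pos_iff.2 h3
  calc ‖fz T (wc S c j p)‖ * (‖p.1‖ ^ (-n1 c j - 1) * ‖p.2‖ ^ (-n2 c j - 1))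
      ≤ ‖fz T (wc S c j p)‖ * (K * (kk T c * ‖p.1‖ ^ (T.jx c).1 * ‖p.2‖ ^ (T.jx c).2 /
        ‖fz T (wc S c j p)‖)) := mul_le_mul_of_nonneg_left h4 h5.le
    _ = _ := by field_simp

/-- from the bound of `fz` to the bound of `HT` -/
lemma HT_le {A s X Y F C B : ℝ} (hA : 0 < A) (hs : 0 < s) (_hY : 0 ≤ Y)
    (h : F * A ≤ C * X) (hX : A * s * Y = X) (hB : B = F / s) : B ≤ C * Y := by
  rw [hB, div_le_iff₀ hs]
  have h1 : F * A ≤ (C * Y * s) * A := by
    rw [← hX] at h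
    calc F * A ≤ C * (A * s * Y) := h
      _ = _ := by ring
  exact le_of_mul_le_mul_right h1 hA

lemma norm_HT (k : ℕ) (c : Ch T.m) (j : Fin T.d) (p : ℂ × ℂ) : ‖HT T k (wc S c j p)‖ =
    ‖fz T (wc S c j p)‖ / ‖(T.map c p).1‖ ^ (T.N + T.M * k) := by
  change ‖fz T (wc S c j p) / (T.map c p).1 ^ (T.N + T.M * k)‖ = _
  rw [norm_div, norm_pow]

theorem HT_bd {L : Lab U S} {nu : II U → ℤ} {n1 n2 : Ch T.m → Fin T.d → ℤ} (J : Jac L nu n1 n2)
    {E₀ : II U} {c : Ch T.m} (hc : Ok S c) (j : Fin T.d)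
    (hE : L.e1 c j = some E₀ ∨ L.e2 c j = some E₀) : ∃ C : ℝ, 0 < C ∧ ∀ p : ℂ × ℂ,
      ‖p.1‖ ≤ S.r c → ‖p.2‖ ≤ S.r c → T.Gen c p → ‖HT T E₀.1.1.1 (wc S c j p)‖ ≤
        C * (‖p.1‖ ^ hT1 L n1 E₀ c j * ‖p.2‖ ^ hT2 L n2 E₀ c j) := by
  have hN := T.N_pos
  have hM := T.M_pos
  obtain ⟨C, hC, h⟩ := fz_le J hc j
  refine ⟨C, hC, fun p h1 h2 hg => ?_⟩
  have h3 := h p h1 h2 hg
  have hu : 0 < ‖p.1‖ := norm_pos_iff.2 (gen_fst hg)
  have hs : 0 < ‖(T.map c p).1‖ := norm_pos_iff.2 (sc_ne hg)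
  have hA : 0 < ‖p.1‖ ^ (-n1 c j - 1) := zpow_pos hu _
  cases c with
  | edge i k k' =>
    have hv : 0 < ‖p.2‖ := norm_pos_iff.2 hg.2
    have hkk : k < k' := hc.1.2.2.1
    obtain ⟨t, rfl⟩ : ∃ t, k' = k + t := ⟨k' - k, by omega⟩
    have hB : 0 < ‖p.2‖ ^ (-n2 (.edge i k (k + t)) j - 1) := zpow_pos hv _
    have hsn : ‖(T.map (.edge i k (k + t)) p).1‖ = ‖p.1‖ * ‖p.2‖ := norm_mul _ _
    have hl : lx T (.edge i k (k + t)) = T.M * t := by simp [lx]
    have hV : ¬ IsV (.edge i k (k + t) : Ch T.m) := fun h => h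
    by_cases he : L.e2 (.edge i k (k + t)) j = some E₀
    · have h4 := v2_of L hc he
      simp only [v2, Option.some.injEq] at h4
      have h5 : k + t = E₀.1.1.1 := congrArg Prod.fst h4
      have e1 : hT1 L n1 E₀ (.edge i k (k + t)) j =
          ((n1 (.edge i k (k + t)) j - T.M * t : ℤ) : ℝ) := by
        rw [hT1, if_pos he, hl]; push_cast; ring
      have e2 : hT2 L n2 E₀ (.edge i k (k + t)) j = ((n2 (.edge i k (k + t)) j : ℤ) : ℝ) := by
        rw [hT2, if_neg hV, if_pos he]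
      rw [e1, e2, Real.rpow_intCast, Real.rpow_intCast]
      refine HT_le (mul_pos hA hB) (pow_pos hs (T.N + T.M * E₀.1.1.1)) (by positivity) h3 ?_
        (norm_HT _ _ _ _)
      rw [hsn, mul_pow, ← h5]
      have p1 := part hu (T.jx (.edge i k (k + t))).1 (T.N + T.M * (k + t))
        (n1 (.edge i k (k + t)) j) (n1 (.edge i k (k + t)) j - T.M * t) (by
          simp only [TB.jx]; push_cast [Nat.cast_sub (show 1 ≤ T.N from hN)]; ring)
      have p2 := part hv (T.jx (.edge i k (k + t))).2 (T.N + T.M * (k + t))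
        (n2 (.edge i k (k + t)) j) (n2 (.edge i k (k + t)) j) (by
          simp only [TB.jx]; push_cast [Nat.cast_sub (show 1 ≤ T.N from hN)]; ring)
      rw [← p1, ← p2]
      ring
    · have he1 : L.e1 (.edge i k (k + t)) j = some E₀ := hE.resolve_right he
      have h4 := v1_of L hc he1
      have hk0 : k ≠ 0 := by
        rintro rfl
        simp [v1] at h4
      simp only [v1, hk0, if_false, Option.some.injEq] at h4
      have h5 : k = E₀.1.1.1 := congrArg Prod.fst h4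
      have e1 : hT1 L n1 E₀ (.edge i k (k + t)) j = ((n1 (.edge i k (k + t)) j : ℤ) : ℝ) := by
        rw [hT1, if_neg he]
      have e2 : hT2 L n2 E₀ (.edge i k (k + t)) j =
          ((n2 (.edge i k (k + t)) j + T.M * t : ℤ) : ℝ) := by
        rw [hT2, if_neg hV, if_neg he, hl]; push_cast; ring
      rw [e1, e2, Real.rpow_intCast, Real.rpow_intCast]
      refine HT_le (mul_pos hA hB) (pow_pos hs (T.N + T.M * E₀.1.1.1)) (by positivity) h3 ?_
        (norm_HT _ _ _ _)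
      rw [hsn, mul_pow, ← h5]
      have p1 := part hu (T.jx (.edge i k (k + t))).1 (T.N + T.M * k)
        (n1 (.edge i k (k + t)) j) (n1 (.edge i k (k + t)) j) (by
          simp only [TB.jx]; push_cast [Nat.cast_sub (show 1 ≤ T.N from hN)]; ring)
      have p2 := part hv (T.jx (.edge i k (k + t))).2 (T.N + T.M * k)
        (n2 (.edge i k (k + t)) j) (n2 (.edge i k (k + t)) j + T.M * t) (by
          simp only [TB.jx]; push_cast [Nat.cast_sub (show 1 ≤ T.N from hN)]; ring)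
      rw [← p1, ← p2]
      ring
  | leg i =>
    have hv : 0 < ‖p.2‖ := norm_pos_iff.2 hg.2
    have hB : 0 < ‖p.2‖ ^ (-n2 (.leg i) j - 1) := zpow_pos hv _
    have hsn : ‖(T.map (.leg i) p).1‖ = ‖p.1‖ := rfl
    have hV : ¬ IsV (.leg i : Ch T.m) := fun h => h
    have he : L.e2 (.leg i) j ≠ some E₀ := by
      intro h
      have := v2_of L hc h
      simp [v2] at this
    have he1 : L.e1 (.leg i) j = some E₀ := hE.resolve_right he
    have h4 := v1_of L hc he1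
    simp only [v1, Option.some.injEq] at h4
    have h5 : T.top i = E₀.1.1.1 := congrArg Prod.fst h4
    have e1 : hT1 L n1 E₀ (.leg i) j = ((n1 (.leg i) j : ℤ) : ℝ) := by
      rw [hT1, if_neg he]
    have e2 : hT2 L n2 E₀ (.leg i) j = ((n2 (.leg i) j + T.M : ℤ) : ℝ) := by
      rw [hT2, if_neg hV, if_neg he]; simp [lx]
    rw [e1, e2, Real.rpow_intCast, Real.rpow_intCast]
    refine HT_le (mul_pos hA hB) (pow_pos hs (T.N + T.M * E₀.1.1.1)) (by positivity) h3 ?_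
      (norm_HT _ _ _ _)
    rw [hsn, ← h5]
    have p1 := part hu (T.jx (.leg i)).1 (T.N + T.M * T.top i)
      (n1 (.leg i) j) (n1 (.leg i) j) (by
        simp only [TB.jx]; push_cast [Nat.cast_sub (show 1 ≤ T.N from hN)]; ring)
    have p2 := part hv (T.jx (.leg i)).2 0 (n2 (.leg i) j) (n2 (.leg i) j + T.M) (by
        simp only [TB.jx]; push_cast [Nat.cast_sub (show 1 ≤ T.M from hM)]; ring)
    rw [← p1, ← p2, pow_zero]
    ring
  | vert i k w₀ =>
    have hsn : ‖(T.map (.vert i k w₀) p).1‖ = ‖p.1‖ := rfl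
    have hV : IsV (.vert i k w₀ : Ch T.m) := trivial
    have he : L.e2 (.vert i k w₀) j ≠ some E₀ := by
      intro h
      have := v2_of L hc h
      simp [v2] at this
    have he1 : L.e1 (.vert i k w₀) j = some E₀ := hE.resolve_right he
    have h4 := v1_of L hc he1
    simp only [v1, Option.some.injEq] at h4
    have h5 : k = E₀.1.1.1 := congrArg Prod.fst h4
    have e1 : hT1 L n1 E₀ (.vert i k w₀) j = ((n1 (.vert i k w₀) j : ℤ) : ℝ) := by
      rw [hT1, if_neg he]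
    have e2 : hT2 L n2 E₀ (.vert i k w₀) j = 0 := by
      rw [hT2, if_pos hV]
    have hn2 := J.vert _ hc hV j
    rw [e1, e2, Real.rpow_intCast, Real.rpow_zero]
    have hone : ‖p.2‖ ^ (-n2 (.vert i k w₀) j - 1) = 1 := by rw [hn2]; norm_num
    have hjx : (T.jx (.vert i k w₀)).2 = 0 := rfl
    rw [hone, hjx, pow_zero] at h3
    refine HT_le (mul_pos hA one_pos) (pow_pos hs (T.N + T.M * E₀.1.1.1)) (by positivity) h3 ?_
      (norm_HT _ _ _ _)
    rw [hsn, ← h5]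
    have p1 := part hu (T.jx (.vert i k w₀)).1 (T.N + T.M * k)
      (n1 (.vert i k w₀) j) (n1 (.vert i k w₀) j) (by
        simp only [TB.jx]; push_cast [Nat.cast_sub (show 1 ≤ T.N from hN)]; ring)
    rw [← p1]
    ring

/-- `HT` is holomorphic at the generic points -/
theorem HT_an (k : ℕ) {c : Ch T.m} (hc : T.Valid c) (j : Fin T.d) {p : ℂ × ℂ}
    (h1 : ‖p.1‖ < 2 * S.r c) (h2 : ‖p.2‖ < 2 * S.r c) (hg : T.Gen c p) :
    AnalyticAt ℂ (HT T k ∘ wc S c j) p := by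
  have hS := S.sheets c hc
  have hp : p ∈ BD (2 * S.r c) (2 * S.r c) := ⟨h1, h2⟩
  obtain ⟨a, b, w, hw, -, he, -⟩ := hS.cd0_mono j
  have h3 : AnalyticAt ℂ (fun p => fz T (wc S c j p)) p := by
    have h4 : AnalyticAt ℂ (fun p : ℂ × ℂ => p.1 ^ a * p.2 ^ b * w p) p :=
      ((analyticAt_fst.pow a).mul (analyticAt_snd.pow b)).mul (hw p hp)
    refine h4.congr ?_
    have ho : IsOpen (BD (2 * S.r c) (2 * S.r c)) :=
      (isOpen_lt continuous_fst.norm continuous_const).inter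
        (isOpen_lt continuous_snd.norm continuous_const)
    filter_upwards [ho.mem_nhds hp] with q hq
    exact (he q hq).symm
  have h5 : AnalyticAt ℂ (fun p => (T.map c p).1) p := analyticAt_fst.comp (hS.map_an hp)
  exact h3.div (h5.pow _) (pow_ne_zero _ (sc_ne hg))

/-- `HT` under the rotations -/
lemma HT_rot (k : ℕ) {ξ : ℂ} (hξ : ξ ^ T.N = 1) (x : Fin 3 → ℂ) :
    HT T k (rot ξ x) = (ξ ^ (T.M * k))⁻¹ * HT T k x := by
  unfold HT
  rw [fz_rot hξ]
  have h1 : rot ξ x 1 = ξ * x 1 := rfl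
  rw [h1, mul_pow, pow_add ξ, hξ, one_mul, mul_comm (ξ ^ (T.M * k)), ← div_div, div_eq_mul_inv _
    (ξ ^ (T.M * k)), mul_comm]

/-! ### the null data for an invariant form -/

theorem ndatT (L : Lab U S) {nu : II U → ℤ} {n1 n2 : Ch T.m → Fin T.d → ℤ} (J : Jac L nu n1 n2)
    {E₀ : II U} {fX : XV U E₀.1.1 → ℂ} (hol : HolX (pV U E₀.1.1) fX)
    (off : ∀ q : XV U E₀.1.1, (q : ConnectedComponents (XV U E₀.1.1)) ≠ E₀.2 → fX q = 0)
    {C r' : ℝ} (hr' : 0 < r')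
    (hf1 : ∀ c, Ok S c → ¬ IsV c → v1 T c = some E₀.1.1 → ∀ γ, End1 U S c E₀.1.1 γ →
      ∀ j (b : ℂ), 0 < ‖b‖ → ‖b‖ < r' →
        ‖fX (γ j b)‖ ≤ C * ‖b‖ ^ ((lx T c : ℝ) * (-1 + 1 / (T.d : ℝ))))
    (hf2 : ∀ c, Ok S c → v2 T c = some E₀.1.1 → ∀ γ, End2 U S c E₀.1.1 γ →
      ∀ j (a : ℂ), 0 < ‖a‖ → ‖a‖ < r' →
        ‖fX (γ j a)‖ ≤ C * ‖a‖ ^ ((lx T c : ℝ) * (1 + 1 / (T.d : ℝ))))
    {y : II U → ℝ} (hy : ∀ E, E = E₀ ∨ Mx L E₀ E ≠ 0 → y E < 1 / (T.d : ℝ)) {a : ℕ}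
    (ha : 0 < a) :
    NDat L n1 n2 E₀ y a fX (HT T E₀.1.1.1) (hT1 L n1 E₀) (hT2 L n2 E₀) (eT L E₀) := by
  have hd : (1 : ℝ) ≤ T.d := by exact_mod_cast T.d_pos
  have hd0 : (0 : ℝ) < T.d := by linarith
  have hd1 : 0 < 1 / (T.d : ℝ) := by positivity
  have hd2 : 1 / (T.d : ℝ) ≤ 1 := by rw [div_le_one hd0]; exact hd
  have ha' : (1 : ℝ) ≤ a := by exact_mod_cast ha
  have hy0 : y E₀ < 1 / (T.d : ℝ) := hy E₀ (Or.inl rfl)
  have hlx : ∀ c, Ok S c → (1 : ℝ) ≤ lx T c := fun c hc => by exact_mod_cast lx_pos hc.1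
  have hldv : ∀ c, Ok S c → 1 / (T.d : ℝ) ≤ (lx T c : ℝ) * (1 / (T.d : ℝ)) := fun c hc => by
    have := hlx c hc
    nlinarith
  -- the labels of an edge sheet
  have hadj : ∀ c, Ok S c → ∀ j E E', L.e1 c j = some E → L.e2 c j = some E' →
      Mx L E E' ≠ 0 ∧ Mx L E' E ≠ 0 := by
    intro c hc j E E' h1 h2
    have hne := lab_ne L hc h1 h2
    have he := v2_eq hc (v2_of L hc h2)
    rw [he] at h1 h2
    exact ⟨(Mx_pos L hne E'.1.2 (Or.inl ⟨h1, h2⟩)).ne',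
      (Mx_pos L hne.symm E'.1.2 (Or.inr ⟨h2, h1⟩)).ne'⟩
  -- the exponents
  have hE1 : ∀ c, Ok S c → ∀ j, L.e1 c j = some E₀ → L.e2 c j ≠ some E₀ := fun c hc j h1 h2 =>
    lab_ne L hc h1 h2 rfl
  have x1 : ∀ c, Ok S c → ∀ j, L.e1 c j = some E₀ → hT1 L n1 E₀ c j = n1 c j ∧
      eT L E₀ c j = (lx T c : ℝ) * (-1 + 1 / (T.d : ℝ)) := fun c hc j h1 =>
    ⟨if_neg (hE1 c hc j h1), if_neg (hE1 c hc j h1)⟩
  have x1' : ∀ c, Ok S c → ¬ IsV c → ∀ j, L.e1 c j = some E₀ →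
      hT2 L n2 E₀ c j = n2 c j + lx T c := fun c hc hV j h1 => by
    rw [hT2, if_neg hV, if_neg (hE1 c hc j h1)]
  have hVE : ∀ c, Ok S c → ∀ j E, L.e2 c j = some E → ¬ IsV c := by
    intro c hc j E h
    obtain ⟨i, k, rfl, -⟩ := edge_of L hc h
    exact fun h => h
  have x2 : ∀ c, Ok S c → ∀ j, L.e2 c j = some E₀ → hT1 L n1 E₀ c j = n1 c j - lx T c ∧
      hT2 L n2 E₀ c j = n2 c j ∧ eT L E₀ c j = (lx T c : ℝ) * (1 + 1 / (T.d : ℝ)) :=
    fun c hc j h1 => ⟨if_pos h1, by rw [hT2, if_neg (hVE c hc j _ h1), if_pos h1], if_pos h1⟩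
  have hCC : ∀ x : ℝ, 0 ≤ x → C * x ≤ (|C| + 1) * x := fun x hx =>
    mul_le_mul_of_nonneg_right (by have := le_abs_self C; linarith) hx
  refine ⟨hol, off, fun c hc j p h1 h2 hg => HT_an _ hc.1 j h1 h2 hg,
    fun c hc j h => HT_bd J hc j h, ?_, ?_, ?_, ?_, ?_, ?_, ?_, ?_, ?_, ?_, ?_⟩
  · intro c hc hV j
    rw [hT2, if_pos hV]
  · intro c hc hV hv γ hγ j h1
    rw [(x1 c hc j h1).2]
    exact ⟨|C| + 1, r', by positivity, hr', fun b hb hb' =>
      (hf1 c hc hV hv γ hγ j b hb hb').trans (hCC _ (by positivity))⟩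
  · intro c hc hv γ hγ j h1
    rw [(x2 c hc j h1).2.2]
    exact ⟨|C| + 1, r', by positivity, hr', fun b hb hb' =>
      (hf2 c hc hv γ hγ j b hb hb').trans (hCC _ (by positivity))⟩
  · intro c hc j h1
    rw [(x1 c hc j h1).1]
    linarith
  · intro c hc j h1
    rw [(x1 c hc j h1).1]
    linarith
  · intro c hc j h1 E h2
    rw [(x1 c hc j h1).2, x1' c hc (hVE c hc j E h2) j h1]
    have h3 := hldv c hc
    have h4 := hy E (Or.inr (hadj c hc j E₀ E h1 h2).1)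
    constructor
    · linarith
    · linarith
  · intro c hc hV j h1 h2
    rw [(x1 c hc j h1).2, x1' c hc hV j h1]
    have h3 := hldv c hc
    linarith
  · intro c hc j h1
    rw [(x2 c hc j h1).2.1]
    linarith
  · intro c hc j h1
    rw [(x2 c hc j h1).2.1]
    linarith
  · intro c hc j h1 E h2
    rw [(x2 c hc j h1).1, (x2 c hc j h1).2.2]
    have h3 := hldv c hc
    have h4 := hy E (Or.inr (hadj c hc j E E₀ h2 h1).2)
    constructor
    · linarith
    · linarith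
  · intro c hc j h1 h2
    rw [(x2 c hc j h1).1, (x2 c hc j h1).2.2]
    have h3 := hldv c hc
    linarith

end Crest.Agent.R257.ExT1_176
end
end

-- ▼ part R257/Exg_176
section

/-!
# Row 257, ExT (helper176): the coefficient of an invariant form on the curve of a vertex

`exists_fX`: from `ThE hG E₀` a function `fX` on `XV U v`, holomorphic, supported on the component
`E₀`, equivariant, non zero, with bounds at the ends.
-/

set_option autoImplicit false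
set_option linter.unusedSectionVars false

open Polynomial Set Filter Topology Metric
open Crest.AlgGeometry.Germ Crest.Agent.R257.AJ387 Crest.Agent.R257.T387
open Crest.Agent.R257.Gr1_157 Crest.Agent.R257.HoB_843 Crest.Agent.R257.BP_258
open Crest.Agent.R257.Wt_258 Crest.Agent.R257.Cpt1_419 Crest.Agent.R257.Hv_174
open Crest.Agent.R257.Rsn_843 Crest.Agent.R257.Tb3_941 Crest.Agent.R257.Rot1_558
open Crest.Agent.R257.Vt1_558 Crest.Agent.R257.Vt4_558 Crest.Agent.R257.Exf_843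

noncomputable section

namespace Crest.Agent.R257.Exg_176

variable {f : (Fin 3 → ℂ) → ℂ} {T : TB f} {S : Sh T} {U : Tub T}

open Classical in
/-- extension by zero of a function on a component -/
def ex0 {E : II U} (g : XE E → ℂ) (q : XV U E.1.1) : ℂ :=
  if h : (q : ConnectedComponents (XV U E.1.1)) = E.2 then g ⟨q, h⟩ else 0

lemma ex0_of {E : II U} (g : XE E → ℂ) {q : XV U E.1.1}
    (h : (q : ConnectedComponents (XV U E.1.1)) = E.2) : ex0 g q = g ⟨q, h⟩ := dif_pos h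

lemma ex0_not {E : II U} (g : XE E → ℂ) {q : XV U E.1.1}
    (h : (q : ConnectedComponents (XV U E.1.1)) ≠ E.2) : ex0 g q = 0 := dif_neg h

lemma holX_ex0 {E : II U} {g : XE E → ℂ} (hg : HolX (fun x => ((covE E).p x).1) g) :
    HolX (pV U E.1.1) (ex0 g) := by
  intro w₀ ρ σ hρ hσ hσ'
  have hw : w₀ ∈ ball w₀ ρ := mem_ball_self hρ
  have hcomp : ∀ z ∈ ball w₀ ρ, (σ z : ConnectedComponents (XV U E.1.1)) = σ w₀ := by
    intro z hz
    have h5 : IsPreconnected (σ '' ball w₀ ρ) := (convex_ball _ _).isPreconnected.image _ hσ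
    have h6 := h5.subset_connectedComponent (x := σ w₀) ⟨w₀, hw, rfl⟩ ⟨z, hz, rfl⟩
    exact ConnectedComponents.coe_eq_coe'.2 h6
  by_cases h0 : (σ w₀ : ConnectedComponents (XV U E.1.1)) = E.2
  · have hin : ∀ z ∈ ball w₀ ρ, (σ z : ConnectedComponents (XV U E.1.1)) = E.2 := fun z hz =>
      (hcomp z hz).trans h0
    classical
    let σ' : ℂ → XE E := fun z => if hz : (σ z : ConnectedComponents (XV U E.1.1)) = E.2 then
      ⟨σ z, hz⟩ else ⟨σ w₀, h0⟩
    have hσv : ∀ z (hz : z ∈ ball w₀ ρ), σ' z = ⟨σ z, hin z hz⟩ := by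
      intro z hz
      exact dif_pos (hin z hz)
    have hσc : ContinuousOn σ' (ball w₀ ρ) := by
      have h7 : ContinuousOn (fun z => (σ' z).1) (ball w₀ ρ) :=
        hσ.congr fun z hz => by rw [hσv z hz]
      exact (Topology.IsInducing.subtypeVal.continuousOn_iff).2 h7
    have h8 := hg w₀ ρ σ' hρ hσc (fun z hz => by
      change pV U E.1.1 (σ' z).1 = z
      rw [hσv z hz]
      exact hσ' z hz)
    refine h8.congr ?_
    filter_upwards [ball_mem_nhds w₀ hρ] with z hz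
    simp only [Function.comp_apply]
    rw [hσv z hz, ex0_of g (hin z hz)]
  · refine (analyticAt_const (v := (0 : ℂ))).congr ?_
    filter_upwards [ball_mem_nhds w₀ hρ] with z hz
    simp only [Function.comp_apply]
    rw [ex0_not g (by rw [hcomp z hz]; exact h0)]

lemma rpow_l {x : ℝ} (hx : 0 ≤ x) (l : ℕ) (e : ℝ) : (x ^ l) ^ e = x ^ ((l : ℝ) * e) := by
  rw [Real.rpow_mul hx, Real.rpow_natCast]

lemma rpow_l_inv {x : ℝ} (hx : 0 < x) (l : ℕ) (e : ℝ) :
    ((x ^ l)⁻¹) ^ (-1 - e) = x ^ ((l : ℝ) * (1 + e)) := by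
  rw [Real.inv_rpow (by positivity), ← Real.rpow_neg (by positivity), rpow_l hx.le]
  congr 1
  ring

/-- **the coefficient of an invariant form** -/
theorem exists_fX {hG : GalPt T} {E₀ : II U} (h : ThE hG E₀) :
    ∃ fX : XV U E₀.1.1 → ℂ, HolX (pV U E₀.1.1) fX ∧
      (∀ q : XV U E₀.1.1, (q : ConnectedComponents (XV U E₀.1.1)) ≠ E₀.2 → fX q = 0) ∧
      (∀ (γ : GE hG E₀) (q : XV U E₀.1.1), (q : ConnectedComponents (XV U E₀.1.1)) = E₀.2 →
        chE hG E₀ γ * fX (smv hG γ q) = fX q) ∧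
      (∃ q, fX q ≠ 0) ∧
      ∃ C r' : ℝ, 0 < r' ∧ 0 ≤ C ∧
        (∀ c, Ok S c → ¬ IsV c → v1 T c = some E₀.1.1 → ∀ γ, End1 U S c E₀.1.1 γ → ∀ j (b : ℂ),
          0 < ‖b‖ → ‖b‖ < r' →
          ‖fX (γ j b)‖ ≤ C * ‖b‖ ^ ((lx T c : ℝ) * (-1 + 1 / (T.d : ℝ)))) ∧
        (∀ c, Ok S c → v2 T c = some E₀.1.1 → ∀ γ, End2 U S c E₀.1.1 γ → ∀ j (a : ℂ),
          0 < ‖a‖ → ‖a‖ < r' →
          ‖fX (γ j a)‖ ≤ C * ‖a‖ ^ ((lx T c : ℝ) * (1 + 1 / (T.d : ℝ)))) := by
  classical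
  obtain ⟨r, hr, g, hg1, hg2, ⟨C, hC1, hC2⟩, x₀, hx₀⟩ := h
  refine ⟨ex0 g, holX_ex0 hg1, fun q hq => ex0_not g hq, ?_, ?_, ?_⟩
  · intro γ q hq
    rw [ex0_of g hq, ex0_of g (smv_comp hG γ hq)]
    exact hg2 γ ⟨q, hq⟩
  · exact ⟨x₀.1, by rw [ex0_of g x₀.2]; exact hx₀⟩
  -- the radius
  have hex : ∃ r' : ℝ, 0 < r' ∧ r' ≤ 1 ∧ r' ≤ r ∧ ∀ c, Ok S c → ¬ IsV c → r' ≤ S.r c := by
    have h1 : ∀ᶠ r' in 𝓝[>] (0 : ℝ), ∀ c ∈ NC S, r' ≤ S.r c := by
      rw [eventually_all_finset]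
      intro c _
      exact mem_of_superset (Ioo_mem_nhdsGT (S.pos c)) fun η hη => hη.2.le
    have h2 : ∀ᶠ r' in 𝓝[>] (0 : ℝ), r' ≤ min 1 r :=
      mem_of_superset (Ioo_mem_nhdsGT (lt_min one_pos hr)) fun η hη => hη.2.le
    obtain ⟨r', h3, h4, h5⟩ := (h1.and (h2.and self_mem_nhdsWithin)).exists
    exact ⟨r', h5, h4.trans (min_le_left _ _), h4.trans (min_le_right _ _),
      fun c hc hn => h3 c (mem_NC.2 ⟨hc, hn⟩)⟩
  obtain ⟨r', hr', hr1, hrr, hrc⟩ := hex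
  refine ⟨|C|, r', hr', abs_nonneg C, ?_, ?_⟩
  · intro c hc hn h1 γ hγ j b hb hb'
    have hl := lx_pos hc.1
    have hS := S.pos c
    have hmem : b ∈ PDv S c := ⟨Or.inr hb, by
      have := hrc c hc hn
      linarith⟩
    have hpr := hγ.pr j b hmem
    by_cases hq : (γ j b : ConnectedComponents (XV U E₀.1.1)) = E₀.2
    · rw [ex0_of g hq]
      have h2 : ((covE E₀).p ⟨γ j b, hq⟩).1 - cx T c = b ^ lx T c := by
        change pV U E₀.1.1 (γ j b) - cx T c = _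
        rw [hpr, add_sub_cancel_left]
      have h3 : ‖b ^ lx T c‖ < r := by
        rw [norm_pow]
        exact (pow_le_of_le_one hb.le (hb'.le.trans hr1) hl.ne').trans_lt (hb'.trans_le hrr)
      have h4 := hC1 (cx T c) (cx_mem hn h1) ⟨γ j b, hq⟩ (by
        change ‖((covE E₀).p ⟨γ j b, hq⟩).1 - cx T c‖ < r
        rw [h2]; exact h3)
      simp only [h2] at h4
      rw [norm_pow, rpow_l hb.le] at h4
      refine h4.trans (mul_le_mul_of_nonneg_right (le_abs_self C) (by positivity))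
    · rw [ex0_not g hq, norm_zero]
      positivity
  · intro c hc h1 γ hγ j a ha ha'
    have hl := lx_pos hc.1
    have hS := S.pos c
    have hn : ¬ IsV c := by
      rw [v2_eq hc h1]
      exact fun h => h
    have hmem : a ∈ PDc S c := ⟨ha, by
      have := hrc c hc hn
      linarith⟩
    have hpr := hγ.pr j a hmem
    by_cases hq : (γ j a : ConnectedComponents (XV U E₀.1.1)) = E₀.2
    · rw [ex0_of g hq]
      have h2 : ((covE E₀).p ⟨γ j a, hq⟩).1 = (a ^ lx T c)⁻¹ := hpr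
      have h3 : ‖a ^ lx T c‖ < r := by
        rw [norm_pow]
        exact (pow_le_of_le_one ha.le (ha'.le.trans hr1) hl.ne').trans_lt (ha'.trans_le hrr)
      have h3' : 0 < ‖a ^ lx T c‖ := by rw [norm_pow]; positivity
      have h4 := hC2 ⟨γ j a, hq⟩ (by
        change r⁻¹ < ‖((covE E₀).p ⟨γ j a, hq⟩).1‖
        rw [h2, norm_inv]
        exact (inv_lt_inv₀ hr h3').2 h3)
      simp only [h2] at h4
      rw [norm_inv, norm_pow, rpow_l_inv ha] at h4
      refine h4.trans (mul_le_mul_of_nonneg_right (le_abs_self C) (by positivity))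
    · rw [ex0_not g hq, norm_zero]
      positivity

end Crest.Agent.R257.Exg_176
end
end

-- ▼ part R257/ExT2_176
section

/-!
# Row 257, ExT (helper176): from an invariant form to the input of the null data

`exists_T`: `ThE hG E₀` gives `fX` (non zero, equivariant, supported on `E₀`) and `NDat` for every
small `y` and every shift `a > 0`; `inv_T`: invariance of the product `HT * fX`.
-/

set_option autoImplicit false
set_option linter.unusedSectionVars false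

open Polynomial Set Filter Topology Metric
open Crest.AlgGeometry.Germ Crest.Agent.R257.AJ387 Crest.Agent.R257.T387
open Crest.Agent.R257.Gr1_157 Crest.Agent.R257.HoB_843 Crest.Agent.R257.BP_258
open Crest.Agent.R257.Wt_258 Crest.Agent.R257.Cpt1_419 Crest.Agent.R257.Hv_174
open Crest.Agent.R257.Rsn_843 Crest.Agent.R257.Tb3_941 Crest.Agent.R257.Rot1_558
open Crest.Agent.R257.Vt1_558 Crest.Agent.R257.Vt4_558 Crest.Agent.R257.Exf_843

noncomputable section

namespace Crest.Agent.R257.ExT1_176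

variable {f : (Fin 3 → ℂ) → ℂ} {T : TB f} {S : Sh T} {U : Tub T}

/-- invariance of the data `HT * fX` -/
lemma inv_T {hG : GalPt T} {E₀ : II U} {fX : XV U E₀.1.1 → ℂ} (γ : GE hG E₀) {q : XV U E₀.1.1}
    (h : chE hG E₀ γ * fX (smv hG γ q) = fX q) (x : Fin 3 → ℂ) :
    HT T E₀.1.1.1 (rot (vl γ.1) x) * fX (smv hG γ q) = HT T E₀.1.1.1 x * fX q := by
  rw [HT_rot _ (vl_pow γ.1), ← h]
  have h1 : chE hG E₀ γ = (vl γ.1 ^ (T.M * E₀.1.1.1))⁻¹ := rfl
  rw [h1]
  ring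

/-- **from an invariant form to the input of the null data** -/
theorem exists_T (L : Lab U S) {hG : GalPt T} {nu : II U → ℤ} {n1 n2 : Ch T.m → Fin T.d → ℤ}
    (J : Jac L nu n1 n2) {E₀ : II U} (h : ThE hG E₀) :
    ∃ fX : XV U E₀.1.1 → ℂ, HolX (pV U E₀.1.1) fX ∧
      (∀ q : XV U E₀.1.1, (q : ConnectedComponents (XV U E₀.1.1)) ≠ E₀.2 → fX q = 0) ∧
      (∀ (γ : GE hG E₀) (q : XV U E₀.1.1), (q : ConnectedComponents (XV U E₀.1.1)) = E₀.2 →
        chE hG E₀ γ * fX (smv hG γ q) = fX q) ∧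
      (∀ (γ : GE hG E₀) (q : XV U E₀.1.1), (q : ConnectedComponents (XV U E₀.1.1)) = E₀.2 →
        ∀ x, HT T E₀.1.1.1 (rot (vl γ.1) x) * fX (smv hG γ q) = HT T E₀.1.1.1 x * fX q) ∧
      (∃ q, fX q ≠ 0) ∧
      ∀ (y : II U → ℝ) (a : ℕ), 0 < a → (∀ E, E = E₀ ∨ Mx L E₀ E ≠ 0 → y E < 1 / (T.d : ℝ)) →
        NDat L n1 n2 E₀ y a fX (HT T E₀.1.1.1) (hT1 L n1 E₀) (hT2 L n2 E₀) (eT L E₀) := by
  obtain ⟨fX, h1, h2, h3, h4, C, r', hr', -, h5, h6⟩ := Exg_176.exists_fX (S := S) h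
  exact ⟨fX, h1, h2, h3, fun γ q hq x => inv_T γ (h3 γ q hq) x, h4, fun y a ha hy =>
    ndatT L J h1 h2 hr' h5 h6 hy ha⟩

end Crest.Agent.R257.ExT1_176
end
end

-- ▼ part R257/ExTB_952
section

/-!
# Row 257, ExT (helper952): `ExTBPStmt`

`top_div` : division of the solution by `x'`;  `exTBP` : `ExTBPStmt` from the weights and the null
data.
-/

set_option autoImplicit false
set_option linter.unusedSectionVars false

noncomputable section

open Set Filter Topology MeasureTheory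
open scoped ENNReal

namespace Crest.Agent.R257.ExT2_952

open Crest.AlgGeometry.Germ Crest.Agent.R257.Defs_219
open Crest.Agent.R257.T387 Crest.Agent.R257.BP_258 Crest.Agent.R257.OrdK_82
open Crest.Agent.R257.HoT_843 Crest.Agent.R257.AJ387 Crest.Agent.R257.Gr1_157
open Crest.Agent.R257.Rot1_558 Crest.Agent.R257.Vt1_558 Crest.Agent.R257.Vt3_558
open Crest.Agent.R257.Vt4_558 Crest.Agent.R257.Vt6_558 Crest.Agent.R257.KB_82
open Crest.Agent.R257.Exf_843 Crest.Agent.R257.Wt_258 Crest.Agent.R257.ExT1_176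
open Crest.Agent.R257.Tb3_941
open Polynomial (nthRootsFinset)

variable {f : (Fin 3 → ℂ) → ℂ} {T : TB f} {S : Sh T} {U : Tub T}

/-- the order of the solution along the axis `{α = 0}` of the top edge is positive, if `a = N` -/
theorem top_pos {hG : GalPt T} (L : Lab U S) {nu : II U → ℤ} {n1 n2 : Ch T.m → Fin T.d → ℤ}
    (J : Jac L nu n1 n2) (hmono : ∀ c, T.Valid c → T.MonoC c (S.r c)) {E₀ : II U}
    {y : II U → ℝ} {g V D : (Fin 3 → ℂ) → ℂ} {Φ : (Fin 3 → ℂ) → ℝ} {ρ₀ ρ₁ C : ℝ} {a : ℕ}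
    (hρ₀ : 0 < ρ₀)
    (h : HT S g V (fun x => x 1 ^ a * D x) (fun x => Φ x + a * Real.log (‖x 1‖ ^ 2)) ρ₁)
    {i : Fin T.m} {c : Ch T.m} (hcd : c = .edge i 0 1) (hc : Ok S c)
    (hup : ∀ ξ : ℂ, ξ ^ T.N = 1 → ∀ j, ∀ p ∈ Og (S := S) (rc T ξ c) ρ₀,
      Φ (wc S (rc T ξ c) j p) ≤ yo y (L.e1 (rc T ξ c) j) * Real.log (‖p.1‖ ^ 2) +
        yo y (L.e2 (rc T ξ c) j) * Real.log (‖p.2‖ ^ 2) + C)
    (htop : ∀ ξ : ℂ, ξ ^ T.N = 1 → ∀ j,
        (L.e2 (rc T ξ c) j = some E₀ → ∃ r > 0, ∃ C' : ℝ, ∀ p ∈ AJ387.BD r r,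
          T.Gen (rc T ξ c) p → ContinuousAt (D ∘ wc S (rc T ξ c) j) p ∧
          ‖D (wc S (rc T ξ c) j p)‖ ≤ C' * (‖p.1‖ ^ (hT1 L n1 E₀ (rc T ξ c) j +
            eT L E₀ (rc T ξ c) j) * ‖p.2‖ ^ hT2 L n2 E₀ (rc T ξ c) j)) ∧
        (L.e2 (rc T ξ c) j ≠ some E₀ → ∃ r > 0, ∀ p ∈ AJ387.BD r r, T.Gen (rc T ξ c) p →
          D (wc S (rc T ξ c) j p) = 0)) :
    ∀ᶠ b in 𝓝[≠] (0 : ℂ), ∀ j : Fin T.d, ∃ (n : ℕ) (H : ℂ × ℂ → ℂ), (a : ℝ) - T.N < n ∧
      AnalyticAt ℂ H (0, b) ∧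
      ∀ᶠ p in 𝓝 ((0 : ℂ), b), g (T.th c (S.ζ c j) p) = p.1 ^ n * H p := by
  classical
  have hr := S.pos c
  have hnv : ¬ IsV c := by subst hcd; exact fun h => h
  have h0 : T.map c (0, 0) = 0 := by
    rw [T.map_eq_zero hc.1]; subst hcd; exact Or.inr rfl
  have hv0 : v1 T c = none := by subst hcd; rfl
  set δ : ℝ := (T.M : ℝ) / T.d with hδ
  have hδ0 : 0 < δ := by
    have h1 : (0 : ℝ) < T.M := by exact_mod_cast T.M_pos
    have h2 : (0 : ℝ) < T.d := by exact_mod_cast T.d_pos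
    positivity
  have htend : Tendsto (fun b : ℂ => ((0 : ℂ), b)) (𝓝[≠] 0) (𝓝 ((0 : ℂ), (0 : ℂ))) := by
    have : Continuous fun b : ℂ => ((0 : ℂ), b) := by fun_prop
    exact (this.tendsto' _ _ rfl).mono_left nhdsWithin_le_nhds
  -- small generic points
  have k1 : ∀ᶠ b in 𝓝[≠] (0 : ℂ), ∀ᶠ p in 𝓝 ((0 : ℂ), b), T.Gen c p → p ∈ Ogs S c ρ₁ :=
    htend.eventually (eventually_eventually_nhds.2
      (ogs_ev (S := S) hc.1 (p₀ := ((0 : ℂ), (0 : ℂ))) (by simpa using hr) (by simpa using hr)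
        h0 h.pos))
  have k2 : ∀ᶠ b in 𝓝[≠] (0 : ℂ), ∀ j : Fin T.d,
      AnalyticAt ℂ (fun p => g (T.th c (S.ζ c j) p)) (0, b) :=
    eventually_all.2 fun j => htend.eventually (h.an_th hc.1 j (p₀ := ((0 : ℂ), (0 : ℂ)))
      (by simpa using hr) (by simpa using hr) h0).eventually_analyticAt
  have k3 : ∀ᶠ b in 𝓝[≠] (0 : ℂ), ‖b‖ < S.r c :=
    (continuous_norm.continuousAt.eventually (gt_mem_nhds (by simpa using hr))).filter_mono
      nhdsWithin_le_nhds
  have hmin : ∀ ξ, 0 < min (S.r c) (S.r (rc T ξ c)) := fun ξ => lt_min hr (S.pos _)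
  -- the data
  have k4 : ∀ ξ ∈ nthRootsFinset T.N (1 : ℂ), ∀ j : Fin T.d, ∀ᶠ b in 𝓝[≠] (0 : ℂ),
      ∃ C', ∀ᶠ p in 𝓝 ((0 : ℂ), b), T.Gen c p →
        ContinuousAt (fun p => D (rot ξ (wc S c j p))) p ∧
        ‖D (rot ξ (wc S c j p))‖ * dn S c j p ≤ C' * ‖p.1‖ ^ (δ - 1) := by
    intro ξ hξ' j
    have hξ := root_mem hξ'
    obtain ⟨τ, hτ⟩ := exists_tau hG hξ S hc.1
    set c' : Ch T.m := rc T ξ c with hc'd
    have hc' : Ok S c' := ok_rc S hG hξ hc
    have hr' := S.pos c'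
    have hcd' : c' = .edge (sg T ξ i) 0 1 := by rw [hc'd, hcd]; rfl
    have hm := hmin ξ
    have hrt : Tendsto (fun p : ℂ × ℂ => rp T ξ c p) (𝓝 ((0 : ℂ), (0 : ℂ)))
        (𝓝 ((0 : ℂ), (0 : ℂ))) := by
      have : Continuous fun p : ℂ × ℂ => rp T ξ c p := by unfold rp; fun_prop
      exact this.tendsto' _ _ (by simp [rp])
    have e1 : ∀ᶠ p : ℂ × ℂ in 𝓝 ((0 : ℂ), (0 : ℂ)),
        p ∈ AJ387.BD (min (S.r c) (S.r c')) (min (S.r c) (S.r c')) :=
      (isOpen_BD _ _).mem_nhds ⟨by simpa using hm, by simpa using hm⟩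
    -- the equation of the rotated point
    have heq : ∀ p ∈ AJ387.BD (min (S.r c) (S.r c')) (min (S.r c) (S.r c')),
        rot ξ (wc S c j p) = wc S c' (τ j) (rp T ξ c p) := fun p hp =>
      hτ j p (by linarith [hp.1]) (by linarith [hp.2])
    have hrpc : Continuous fun p : ℂ × ℂ => rp T ξ c p := by unfold rp; fun_prop
    by_cases hE : L.e2 c' (τ j) = some E₀
    · obtain ⟨r, hr0, C', hC'⟩ := (htop ξ hξ (τ j)).1 hE
      obtain ⟨K, hK, hbd⟩ := J.bd c' hc' (τ j)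
      have e2 : ∀ᶠ p : ℂ × ℂ in 𝓝 ((0 : ℂ), (0 : ℂ)), rp T ξ c p ∈ AJ387.BD r r :=
        hrt.eventually ((isOpen_BD _ _).mem_nhds ⟨by simpa using hr0, by simpa using hr0⟩)
      filter_upwards [htend.eventually (e1.and e2).eventually_nhds,
        self_mem_nhdsWithin (a := (0 : ℂ)) (s := {0}ᶜ)] with b hb hb0
      have hb0' : b ≠ 0 := hb0
      set h2 : ℝ := hT2 L n2 E₀ c' (τ j) with hh2
      set q : ℂ × ℂ → ℝ := fun p => ‖p.2‖ ^ h2 * ‖p.2‖ ^ (-n2 c' (τ j) - 1) with hq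
      have hqc : ContinuousAt q ((0 : ℂ), b) := by
        have h1 : ContinuousAt (fun p : ℂ × ℂ => ‖p.2‖) ((0 : ℂ), b) := continuousAt_snd.norm
        have hne : ‖b‖ ≠ 0 := norm_ne_zero_iff.2 hb0'
        exact (h1.rpow_const (Or.inl hne)).mul (h1.zpow₀ _ (Or.inl hne))
      have e3 : ∀ᶠ p in 𝓝 ((0 : ℂ), b), q p < q (0, b) + 1 :=
        hqc.eventually (gt_mem_nhds (lt_add_one _))
      refine ⟨|C'| * K * (q (0, b) + 1), ?_⟩
      filter_upwards [hb, hb.eventually_nhds, e3] with p hp hp' hp3 hg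
      have hg' : T.Gen c' (rp T ξ c p) := (gen_rot hξ c p).2 hg
      obtain ⟨hc1, hc2⟩ := hC' _ hp.2 hg'
      obtain ⟨hn1, hn2⟩ := rp_norm hξ c p
      have hp1 : p.1 ≠ 0 := CDataB_250.gen_fst hg
      constructor
      · have h1 : ContinuousAt (fun p => D (wc S c' (τ j) (rp T ξ c p))) p :=
          ContinuousAt.comp (g := D ∘ wc S c' (τ j)) (f := fun p => rp T ξ c p) hc1
            hrpc.continuousAt
        refine h1.congr ?_
        filter_upwards [hp'] with x hx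
        rw [heq x hx.1]
      · have hBD2 : p ∈ AJ387.BD (2 * S.r c) (2 * S.r c) := by
          have := min_le_left (S.r c) (S.r c')
          exact ⟨by linarith [hp.1.1], by linarith [hp.1.2]⟩
        have hBD2' : p ∈ AJ387.BD (2 * S.r c') (2 * S.r c') := by
          have := min_le_right (S.r c) (S.r c')
          exact ⟨by linarith [hp.1.1], by linarith [hp.1.2]⟩
        have e4 : dn S c j p = dn S c' (τ j) (rp T ξ c p) :=
          (dn_rot hG hξ S hc.1 hBD2 hBD2' (heq p hp.1)).symm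
        have hle : ‖(rp T ξ c p).1‖ ≤ S.r c' ∧ ‖(rp T ξ c p).2‖ ≤ S.r c' := by
          rw [hn1, hn2]
          have := min_le_right (S.r c) (S.r c')
          exact ⟨by linarith [hp.1.1], by linarith [hp.1.2]⟩
        have e5 := (hbd _ hle.1 hle.2 hg').2.1
        rw [hn1, hn2] at e5 hc2
        rw [heq p hp.1, e4]
        have hpp : 0 < ‖p.1‖ := norm_pos_iff.2 hp1
        have e6 : hT1 L n1 E₀ c' (τ j) + eT L E₀ c' (τ j) = (n1 c' (τ j) : ℝ) + δ := by
          unfold hT1 eT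
          rw [if_pos hE, if_pos hE]
          have h7 : (lx T c' : ℝ) = T.M := by
            rw [hcd']; simp [lx]
          rw [h7, hδ]
          ring
        rw [e6] at hc2
        have e7 : ‖p.1‖ ^ ((n1 c' (τ j) : ℝ) + δ) * ‖p.1‖ ^ (-n1 c' (τ j) - 1) =
            ‖p.1‖ ^ (δ - 1) := by
          rw [← Real.rpow_intCast, ← Real.rpow_add hpp]
          congr 1
          push_cast
          ring
        have hdn0 : 0 ≤ dn S c' (τ j) (rp T ξ c p) := by unfold dn; positivity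
        have hcc : ‖D (wc S c' (τ j) (rp T ξ c p))‖ ≤
            |C'| * (‖p.1‖ ^ ((n1 c' (τ j) : ℝ) + δ) * ‖p.2‖ ^ h2) :=
          hc2.trans (mul_le_mul_of_nonneg_right (le_abs_self _) (by positivity))
        calc ‖D (wc S c' (τ j) (rp T ξ c p))‖ * dn S c' (τ j) (rp T ξ c p)
            ≤ (|C'| * (‖p.1‖ ^ ((n1 c' (τ j) : ℝ) + δ) * ‖p.2‖ ^ h2)) *
              (K * (‖p.1‖ ^ (-n1 c' (τ j) - 1) * ‖p.2‖ ^ (-n2 c' (τ j) - 1))) :=
              mul_le_mul hcc e5 hdn0 (by positivity)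
          _ = |C'| * K * q p * (‖p.1‖ ^ ((n1 c' (τ j) : ℝ) + δ) *
                ‖p.1‖ ^ (-n1 c' (τ j) - 1)) := by simp only [hq]; ring
          _ = |C'| * K * q p * ‖p.1‖ ^ (δ - 1) := by rw [e7]
          _ ≤ |C'| * K * (q (0, b) + 1) * ‖p.1‖ ^ (δ - 1) := by
              gcongr
    · obtain ⟨r, hr0, hC'⟩ := (htop ξ hξ (τ j)).2 hE
      have e2 : ∀ᶠ p : ℂ × ℂ in 𝓝 ((0 : ℂ), (0 : ℂ)), rp T ξ c p ∈ AJ387.BD r r :=
        hrt.eventually ((isOpen_BD _ _).mem_nhds ⟨by simpa using hr0, by simpa using hr0⟩)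
      filter_upwards [htend.eventually (e1.and e2).eventually_nhds] with b hb
      refine ⟨0, ?_⟩
      filter_upwards [hb, hb.eventually_nhds] with p hp hp' hg
      have hz : ∀ x, (x ∈ AJ387.BD (min (S.r c) (S.r c')) (min (S.r c) (S.r c')) ∧
          rp T ξ c x ∈ AJ387.BD r r) → T.Gen c x → D (rot ξ (wc S c j x)) = 0 := by
        intro x hx hgx
        rw [heq x hx.1]
        exact hC' _ hx.2 ((gen_rot hξ c x).2 hgx)
      constructor
      · refine (continuousAt_const (y := (0 : ℂ))).congr ?_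
        filter_upwards [hp', (HoT_843.isOpen_gen c).mem_nhds hg] with x hx hgx
        exact (hz x hx hgx).symm
      · rw [hz p hp hg]; simp
  -- the weights
  have k5 : ∀ ξ ∈ nthRootsFinset T.N (1 : ℂ), ∀ j : Fin T.d, ∀ᶠ b in 𝓝[≠] (0 : ℂ),
      ∃ C', ∀ᶠ p in 𝓝 ((0 : ℂ), b), T.Gen c p → Φ (rot ξ (wc S c j p)) ≤ C' := by
    intro ξ hξ' j
    have hξ := root_mem hξ'
    obtain ⟨τ, hτ⟩ := exists_tau hG hξ S hc.1
    set c' : Ch T.m := rc T ξ c with hc'd
    have hc' : Ok S c' := ok_rc S hG hξ hc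
    have hr' := S.pos c'
    have hm := hmin ξ
    have hm0 : T.map c' (0, 0) = 0 := by
      rw [T.map_eq_zero hc'.1, hc'd, hcd]; exact Or.inr rfl
    have hrt : Tendsto (fun p : ℂ × ℂ => rp T ξ c p) (𝓝 ((0 : ℂ), (0 : ℂ)))
        (𝓝 ((0 : ℂ), (0 : ℂ))) := by
      have : Continuous fun p : ℂ × ℂ => rp T ξ c p := by unfold rp; fun_prop
      exact this.tendsto' _ _ (by simp [rp])
    have e1 : ∀ᶠ p : ℂ × ℂ in 𝓝 ((0 : ℂ), (0 : ℂ)),
        p ∈ AJ387.BD (min (S.r c) (S.r c')) (min (S.r c) (S.r c')) :=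
      (isOpen_BD _ _).mem_nhds ⟨by simpa using hm, by simpa using hm⟩
    have e2 : ∀ᶠ p : ℂ × ℂ in 𝓝 ((0 : ℂ), (0 : ℂ)), T.Gen c' (rp T ξ c p) →
        rp T ξ c p ∈ Og (S := S) c' ρ₀ :=
      hrt.eventually (og_ev (S := S) hc'.1 (p₀ := ((0 : ℂ), (0 : ℂ))) (by simpa using hr')
        (by simpa using hr') (by rw [hm0]; rfl) hρ₀)
    have he1 : L.e1 c' (τ j) = none := by
      have h1 := L.v_e1 c' hc' (τ j)
      rw [v1_rc hG hξ, hv0] at h1
      simpa using h1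
    filter_upwards [htend.eventually (e1.and e2).eventually_nhds,
      self_mem_nhdsWithin (a := (0 : ℂ)) (s := {0}ᶜ)] with b hb hb0
    have hb0' : b ≠ 0 := hb0
    set q : ℂ × ℂ → ℝ := fun p => yo y (L.e2 c' (τ j)) * Real.log (‖p.2‖ ^ 2) with hq
    have hqc : ContinuousAt q ((0 : ℂ), b) :=
      continuousAt_const.mul ((continuousAt_snd.norm.pow 2).log
        (pow_ne_zero _ (norm_ne_zero_iff.2 hb0')))
    have e3 : ∀ᶠ p in 𝓝 ((0 : ℂ), b), q p < q (0, b) + 1 :=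
      hqc.eventually (gt_mem_nhds (lt_add_one _))
    refine ⟨q (0, b) + 1 + C, ?_⟩
    filter_upwards [hb, e3] with p hp hp3 hg
    have hg' : T.Gen c' (rp T ξ c p) := (gen_rot hξ c p).2 hg
    have h5 := hup ξ hξ (τ j) _ (hp.2 hg')
    rw [← hc'd, he1] at h5
    rw [hτ j p (by linarith [hp.1.1]) (by linarith [hp.1.2])]
    have hn2 := (rp_norm hξ c p).2
    have h6 : yo y (none : Option (II U)) = 0 := rfl
    rw [h6, hn2, zero_mul, zero_add] at h5
    have h7 : yo y (L.e2 c' (τ j)) * Real.log (‖p.2‖ ^ 2) < q (0, b) + 1 := hp3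
    linarith
  have k4' : ∀ᶠ b in 𝓝[≠] (0 : ℂ), ∀ ξ ∈ nthRootsFinset T.N (1 : ℂ), ∀ j : Fin T.d,
      ∃ C', ∀ᶠ p in 𝓝 ((0 : ℂ), b), T.Gen c p →
        ContinuousAt (fun p => D (rot ξ (wc S c j p))) p ∧
        ‖D (rot ξ (wc S c j p))‖ * dn S c j p ≤ C' * ‖p.1‖ ^ (δ - 1) := by
    rw [Filter.eventually_all_finset]
    exact fun ξ hξ => eventually_all.2 fun j => k4 ξ hξ j
  have k5' : ∀ᶠ b in 𝓝[≠] (0 : ℂ), ∀ ξ ∈ nthRootsFinset T.N (1 : ℂ), ∀ j : Fin T.d,
      ∃ C', ∀ᶠ p in 𝓝 ((0 : ℂ), b), T.Gen c p → Φ (rot ξ (wc S c j p)) ≤ C' := by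
    rw [Filter.eventually_all_finset]
    exact fun ξ hξ => eventually_all.2 fun j => k5 ξ hξ j
  filter_upwards [k1, k2, k3, k4', k5', self_mem_nhdsWithin (a := (0 : ℂ)) (s := {0}ᶜ)]
    with b b1 b2 b3 b4 b5 b6 j
  have hroot : ∀ {ξ : ℂ}, ξ ^ T.N = 1 → ξ ∈ nthRootsFinset T.N (1 : ℂ) := fun hξ =>
    (Polynomial.mem_nthRootsFinset T.N_pos (1 : ℂ)).2 hξ
  obtain ⟨C₁, hC₁⟩ := unif (T := T) (P := fun ξ C' => ∀ᶠ p in 𝓝 ((0 : ℂ), b), T.Gen c p →
      Φ (rot ξ (wc S c j p)) ≤ C')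
    (fun ξ C₁ C₂ hC hP => hP.mono fun p hp hg => (hp hg).trans hC)
    (fun ξ hξ => b5 ξ (hroot hξ) j)
  exact top_ord h hcd hc.1 j (off_of_mono (hmono c hc.1) ρ₁) b6 b3 b1 (b2 j) hδ0
    (fun ξ hξ => b4 ξ (hroot hξ) j) hC₁

end Crest.Agent.R257.ExT2_952
end
end

-- ▼ part R257/ExTC_952

/-!
# Row 257, ExT (helper952): `exTBP : ExTBPStmt hG L nu` from the weights and the null data
-/

set_option autoImplicit false
set_option linter.unusedSectionVars false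

noncomputable section

open Set Filter Topology MeasureTheory
open scoped ENNReal

namespace Crest.Agent.R257.ExT2_952

open Crest.AlgGeometry.Germ Crest.Agent.R257.Defs_219
open Crest.Agent.R257.T387 Crest.Agent.R257.BP_258 Crest.Agent.R257.OrdK_82
open Crest.Agent.R257.HoT_843 Crest.Agent.R257.AJ387 Crest.Agent.R257.Gr1_157
open Crest.Agent.R257.Rot1_558 Crest.Agent.R257.Vt1_558 Crest.Agent.R257.Vt3_558
open Crest.Agent.R257.Vt4_558 Crest.Agent.R257.Vt6_558 Crest.Agent.R257.KB_82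
open Crest.Agent.R257.Exf_843 Crest.Agent.R257.Wt_258 Crest.Agent.R257.ExT1_176
open Crest.Agent.R257.Tb3_941
open Polynomial (nthRootsFinset)

variable {f : (Fin 3 → ℂ) → ℂ} {T : TB f} {S : Sh T} {U : Tub T}

/-- the chart of the top edge -/
lemma exists_top (S : Sh T) : ∃ i : Fin T.m, Ok S (.edge i 0 1) := by
  set i₀ : Fin T.m := ⟨0, T.m_pos⟩
  have hv : vx T i₀ 1 ∈ Vs T := Lab_931.vx_mem (T.one_mem_lev i₀)
  have hcons : T.Cons (S.ci (vx T i₀ 1)) (S.kp (vx T i₀ 1)) 1 := S.kp_cons _ hv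
  have hk : S.kp (vx T i₀ 1) = 0 := by
    have := hcons.2.2.1
    omega
  refine ⟨S.ci (vx T i₀ 1), ?_, vx T i₀ 1, hv, rfl, hk.symm, rfl⟩
  show T.Cons _ 0 1
  rw [← hk]; exact hcons

/-- **(ExT)** at the level of `BPDefs` -/
theorem exTBP [Fintype (II U)] (hf : Iso f) (hC : Clo T) (hG : GalPt T) (hR : RetStmt U)
    (hmono : ∀ c, T.Valid c → T.MonoC c (S.r c)) (hcovP : CovP S) (L : Lab U S)
    {nu : II U → ℤ} {n1 n2 : Ch T.m → Fin T.d → ℤ} (J : Jac L nu n1 n2) (hW : WTDStmt L)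
    (hN : NullStmt L n1 n2) : ExTBPStmt hG L nu := by
  classical
  intro E₀ hTh n hn
  obtain ⟨fX, hol, off, hch, hinv, hne, hdat⟩ := exists_T L J hTh
  have hd0 : (0 : ℝ) < T.d := by exact_mod_cast T.d_pos
  refine ⟨1 / (T.d : ℝ), by positivity, fun y hyi hsup hsm => ?_⟩
  have hd := hdat y T.N T.N_pos hsm
  have hy0 : ∀ E, 0 ≤ y E := nonneg_of (Lab_931.iform L hR) (S := Set.univ)
    (fun E _ => (hsup E).le) (fun E hE => absurd (Set.mem_univ E) hE)
  -- the top charts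
  obtain ⟨i, hci⟩ := exists_top S
  set c : Ch T.m := .edge i 0 1 with hcd
  set F' : Finset (Ch T.m) := (nthRootsFinset T.N (1 : ℂ)).image fun ξ => rc T ξ c with hF'd
  have hroot : ∀ {ξ : ℂ}, ξ ^ T.N = 1 → ξ ∈ nthRootsFinset T.N (1 : ℂ) := fun hξ =>
    (Polynomial.mem_nthRootsFinset T.N_pos (1 : ℂ)).2 hξ
  have hF' : ∀ c' ∈ F', Ok S c' := by
    intro c' hc'
    obtain ⟨ξ, hξ, rfl⟩ := Finset.mem_image.1 hc'
    exact ok_rc S hG (root_mem hξ) hci
  have hmem : ∀ ξ : ℂ, ξ ^ T.N = 1 → rc T ξ c ∈ F' := fun ξ hξ =>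
    Finset.mem_image.2 ⟨ξ, hroot hξ, rfl⟩
  obtain ⟨g, V, D, Φ, ρ₀, ρ₁, C, v, hρ₀, hHT, hup, htop, hfreq, hvE, hoffE, horb⟩ :=
    null_orders hf hC hG hR hmono hcovP L J hW hN hyi hsup (a := T.N) (dvd_refl _) hd
      (fun γ c hc j p q hg hq => hinv γ q hq _) (m := n) (by
        have h1 := hy0 E₀
        have h2 : (n : ℝ) = nu E₀ := by exact_mod_cast hn
        linarith) (fun c hc hV j hE => by
        have hv : v1 T c = some E₀.1.1 := by
          have h1 := L.v_e1 c hc j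
          rw [hE] at h1
          exact h1.symm
        obtain ⟨u, h1, h2, h3⟩ := HF_loc J hc hV j hv (n := n)
          (by rw [J.some1 c hc j E₀ hE]; exact hn)
        have hr := S.pos c
        have h0 : ((0 : ℂ), (0 : ℂ)) ∈ AJ387.BD (2 * S.r c) (2 * S.r c) :=
          ⟨by simpa using hr, by simpa using hr⟩
        refine ⟨u, h1 _ h0, h2 _ h0, ?_⟩
        filter_upwards [(isOpen_BD _ _).mem_nhds h0] with p hp hg
        exact h3 p hp (CDataB_250.gen_fst hg)) hne F' hF'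
  -- the division
  have htp := top_pos (hG := hG) L J hmono (E₀ := E₀) (y := y) hρ₀ hHT hcd hci
    (fun ξ hξ j p hp => hup _ (hmem ξ hξ) j p hp)
    (fun ξ hξ j => htop _ (hmem ξ hξ) (by rw [v1_rc hG hξ, hcd]; rfl) j)
  have hSh := S.sheets c hci.1
  obtain ⟨g₁, hg₁, hdiv⟩ := Div_843.div_x (i := i) (K := 1) hSh hHT.an (by
    filter_upwards [htp] with b hb l
    obtain ⟨m, H, h1, h2, h3⟩ := hb l
    refine ⟨m, ‖H (0, b)‖ + 1, ?_, ?_⟩
    · have h4 : (0 : ℝ) < m := by linarith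
      have h5 : 0 < m := by exact_mod_cast h4
      omega
    · have ht : Tendsto (fun a : ℂ => (a, b)) (𝓝[≠] 0) (𝓝 ((0 : ℂ), b)) := by
        have : Continuous fun a : ℂ => (a, b) := by fun_prop
        exact (this.tendsto' _ _ rfl).mono_left nhdsWithin_le_nhds
      have h4 : ∀ᶠ p in 𝓝 ((0 : ℂ), b), ‖H p‖ < ‖H (0, b)‖ + 1 :=
        h2.continuousAt.norm.eventually (gt_mem_nhds (lt_add_one _))
      filter_upwards [ht.eventually (h3.and h4)] with a ha
      rw [ha.1, norm_mul, norm_pow, mul_comm]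
      exact mul_le_mul_of_nonneg_right ha.2.le (by positivity))
  -- the orders of `g₁`
  have hfreq₁ : ∃ᶠ x in 𝓝 (0 : Fin 3 → ℂ), f x = 0 ∧ g₁ x ≠ 0 := by
    refine (hfreq.and_eventually hdiv).mono fun x hx => ⟨hx.1.1, fun h0 => hx.1.2 ?_⟩
    rw [hx.2 hx.1.1, h0, mul_zero]
  obtain ⟨v₁, hv₁⟩ := exists_exv hf hR L hg₁ hfreq₁
  have hvv : ∀ E, v E = T.N + v₁ E := by
    intro E
    refine exv_uniq hR (hvE E) ?_
    intro c' hc' hV j hE z hz
    obtain ⟨H, h1, h2, h3⟩ := hv₁ E c' hc' hV j hE z hz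
    refine ⟨H, h1, ?_, h3⟩
    have hr := S.pos c'
    have hb0 : ((0 : ℂ), z) ∈ AJ387.BD (2 * S.r c') (2 * S.r c') :=
      ⟨by simpa using hr, show ‖z‖ < 2 * S.r c' by linarith⟩
    have h0 : T.map c' (0, z) = 0 := by
      rw [T.map_eq_zero hc'.1]
      cases c' with
      | edge i k k' => exact absurd hV id
      | leg i => exact absurd hV id
      | vert i k w₀ => rfl
    have hth0 : T.th c' (S.ζ c' j) (0, z) = 0 := by
      rw [(S.sheets c' hc'.1).th_zero hc'.1 j hb0, ← T.map_eq_zero hc'.1]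
      exact h0
    have htend : Tendsto (T.th c' (S.ζ c' j)) (𝓝 ((0 : ℂ), z)) (𝓝 0) := by
      have := ((S.sheets c' hc'.1).th_an j hb0).continuousAt.tendsto
      rwa [hth0] at this
    filter_upwards [h2, htend.eventually hdiv, (isOpen_BD _ _).mem_nhds hb0] with p q1 q2 q3
    rw [q2 ((S.sheets c' hc'.1).th_V j q3), q1, pow_one]
    have e1 : (T.A.symm (T.th c' (S.ζ c' j) p 1, T.th c' (S.ζ c' j) p 2)).1 = p.1 ^ T.N := by
      have e2 : ((T.th c' (S.ζ c' j) p 1, T.th c' (S.ζ c' j) p 2) : ℂ × ℂ) =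
          T.A ((T.map c' p).1 ^ T.N, (T.map c' p).2) := rfl
      rw [e2, T.A.symm_apply_apply, mapV hV]
    rw [e1, pow_add]
    ring
  refine ⟨g₁, hg₁, fun E hE => ?_, fun γ => ?_⟩
  · refine lov_of_exv (hv₁ E) ?_
    have h1 := hoffE E hE
    rw [hvv E] at h1
    push_cast at h1
    linarith
  · have h1 := horb γ
    rw [hvv] at h1
    have h2 : v₁ (piH hG γ E₀) = n := by omega
    rw [← h2]
    exact hv₁ _

end Crest.Agent.R257.ExT2_952
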