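import Crest.Agent.R257.DetA_219
import Crest.Agent.R257.Fr2_808
import Crest.Agent.R257.DetD_219
import Crest.Agent.R257.Ord_757

-- ▼ part R257/Fr1_808
section

/-!
R257 / Fr1_808: area formula with multiplicities.

* `area_mult` : `∫_S |det ψ'| F = ∫ ∑_{y ∈ S, ψ y = x} F y dx`;
* `tsum_fib_le` : `∑_s Φ (T s) ≤ N ∑_z Φ z` if the fibres of `T` have at most `N` elements.
-/

set_option autoImplicit false

open Topology Filter MeasureTheory Set Function
open scoped ENNReal NNReal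

noncomputable section

namespace Crest.Agent.R257.Fr_808

open Crest.Agent.R257.Det_219

section Area

variable {E : Type*} [NormedAddCommGroup E] [NormedSpace ℝ E] [FiniteDimensional ℝ E]
  [MeasurableSpace E] [BorelSpace E]

/-- area formula with multiplicities -/
theorem area_mult (μ : Measure E) [μ.IsAddHaarMeasure] (ψ : E → E) (S : Set E)
    (ψ' : E → E →L[ℝ] E) (hS : MeasurableSet S)
    (hψ' : ∀ x ∈ S, HasFDerivWithinAt ψ (ψ' x) S x) (hdet : ∀ x ∈ S, (ψ' x).det ≠ 0)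
    (F : E → ℝ≥0∞) (hF : Measurable (S.domRestrict F)) :
    Measurable (fun x => ∑' y : {y // y ∈ S ∧ ψ y = x}, F y) ∧
      ∫⁻ y in S, ENNReal.ofReal |(ψ' y).det| * F y ∂μ =
        ∫⁻ x, ∑' y : {y // y ∈ S ∧ ψ y = x}, F y ∂μ := by
  classical
  obtain ⟨t, h1, h2, h3, h4⟩ := partition_inj ψ S ψ' hψ' hdet
  set P : ℕ → Set E := fun n => S ∩ t n with hP
  have hPm : ∀ n, MeasurableSet (P n) := fun n => hS.inter (h2 n)
  have hd : ∀ n x, x ∈ P n → HasFDerivWithinAt ψ (ψ' x) (P n) x := fun n x hx =>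
    (hψ' x hx.1).mono inter_subset_left
  have hemb : ∀ n, MeasurableEmbedding ((P n).domRestrict ψ) := fun n =>
    measurableEmbedding_of_fderivWithin (hPm n) (hd n) (h4 n)
  have hFP : ∀ n, Measurable ((P n).domRestrict F) := by
    intro n
    have : (P n).domRestrict F = (S.domRestrict F) ∘ (Set.inclusion (inter_subset_left : P n ⊆ S)) := rfl
    rw [this]
    exact hF.comp (measurable_inclusion inter_subset_left)
  set h : ℕ → E → ℝ≥0∞ := fun n => Function.extend ((P n).domRestrict ψ) ((P n).domRestrict F) 0 with hh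
  have hhm : ∀ n, Measurable (h n) := fun n => (hemb n).measurable_extend (hFP n) measurable_zero
  have hv : ∀ n y, y ∈ P n → h n (ψ y) = F y := by
    intro n y hy
    exact (hemb n).injective.extend_apply _ _ (⟨y, hy⟩ : P n)
  have hv0 : ∀ n x, x ∉ ψ '' P n → h n x = 0 := by
    intro n x hx
    have : ¬ ∃ a : P n, (P n).domRestrict ψ a = x := by
      rintro ⟨⟨a, ha⟩, rfl⟩
      exact hx ⟨a, ha, rfl⟩
    rw [hh]
    simp only
    rw [Function.extend_apply' _ _ _ this]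
    rfl
  have him : ∀ n, MeasurableSet (ψ '' P n) := fun n =>
    measurable_image_of_fderivWithin (hPm n) (hd n) (h4 n)
  -- pointwise identity
  have hpt : ∀ x, ∑' y : {y // y ∈ S ∧ ψ y = x}, F y = ∑' n, h n x := by
    intro x
    have hex : ∀ y : {y // y ∈ S ∧ ψ y = x}, ∃ n, (y : E) ∈ t n := fun y => by
      simpa using h3 y.2.1
    choose T hT using hex
    have hTP : ∀ y : {y // y ∈ S ∧ ψ y = x}, (y : E) ∈ P (T y) := fun y => ⟨y.2.1, hT y⟩
    have hinj : Injective T := by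
      intro y z hyz
      apply Subtype.ext
      refine h4 (T y) (hTP y) ?_ (y.2.2.trans z.2.2.symm)
      rw [hyz]; exact hTP z
    have hsup : support (fun n => h n x) ⊆ range T := by
      intro n hn
      have hx : x ∈ ψ '' P n := by
        by_contra hx
        exact hn (hv0 n x hx)
      obtain ⟨y, hy, hyx⟩ := hx
      refine ⟨⟨y, hy.1, hyx⟩, ?_⟩
      by_contra hne
      exact Set.disjoint_left.1 (h1 hne) (hT ⟨y, hy.1, hyx⟩) hy.2
    rw [← hinj.tsum_eq hsup]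
    refine tsum_congr fun y => ?_
    have := hv (T y) y (hTP y)
    rw [y.2.2] at this
    exact this.symm
  have hpt' : (fun x => ∑' y : {y // y ∈ S ∧ ψ y = x}, F y) = fun x => ∑' n, h n x := funext hpt
  refine ⟨by rw [hpt']; exact Measurable.tsum hhm, ?_⟩
  rw [hpt', lintegral_tsum fun n => (hhm n).aemeasurable]
  have h5 : S = ⋃ n, P n := by
    rw [hP, ← inter_iUnion]; exact (inter_eq_left.2 h3).symm
  conv_lhs => rw [h5]
  rw [lintegral_iUnion hPm fun i j hij => (h1 hij).mono inter_subset_right inter_subset_right]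
  refine tsum_congr fun n => ?_
  have e1 : ∫⁻ x, h n x ∂μ = ∫⁻ x in ψ '' P n, h n x ∂μ := by
    rw [← lintegral_indicator (him n)]
    congr 1; ext x
    by_cases hx : x ∈ ψ '' P n
    · rw [indicator_of_mem hx]
    · rw [indicator_of_notMem hx, hv0 n x hx]
  rw [e1, lintegral_image_eq_lintegral_abs_det_fderiv_mul μ (hPm n) (hd n) (h4 n)]
  refine setLIntegral_congr_fun (hPm n) fun y hy => ?_
  rw [hv n y hy]

end Area

/-- sums over fibres with at most `N` elements -/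
theorem tsum_fib_le {σ ζ : Type*} (T : σ → ζ) (Φ : ζ → ℝ≥0∞) (N : ℕ)
    (hN : ∀ z, {s | T s = z}.encard ≤ N) : ∑' s, Φ (T s) ≤ N * ∑' z, Φ z := by
  classical
  rw [← (Equiv.sigmaFiberEquiv T).tsum_eq (fun s => Φ (T s)), ENNReal.tsum_sigma',
    ← ENNReal.tsum_mul_left]
  refine ENNReal.tsum_le_tsum fun z => ?_
  have h1 : ∀ b : {s // T s = z}, Φ (T ((Equiv.sigmaFiberEquiv T) ⟨z, b⟩)) = Φ z := by
    rintro ⟨b, hb⟩
    simp [Equiv.sigmaFiberEquiv, hb]
  simp only [h1]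
  rw [ENNReal.tsum_const]
  gcongr
  have h2 : ENat.card {s // T s = z} ≤ N := hN z
  exact_mod_cast h2

end Crest.Agent.R257.Fr_808
end
end

-- ▼ part R257/Fr3_808
section

/-!
R257 / Fr3_808: sheet integrals in charts (both inequalities) and elementary integrals.
-/

set_option autoImplicit false

open Topology Filter MeasureTheory Set Function
open scoped ENNReal NNReal
open Crest.AlgGeometry.Germ

noncomputable section

namespace Crest.Agent.R257.Fr_808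

open Crest.Agent.R257.Defs_219
open Crest.Agent.R257.Det_219 (E2 Bx Bp Sh isOpen_Bx isOpen_Bp mem_Bx_cons det_restrict)

/-- `(Fin 2 → ℂ) ≃ ℂ × ℂ` -/
abbrev tw : (Fin 2 → ℂ) ≃L[ℂ] ℂ × ℂ := Ord_757.e2

/-- `x ↦ x'` -/
def tailL : E3 →L[ℂ] E2 := ContinuousLinearMap.pi fun i => ContinuousLinearMap.proj i.succ

/-- the chart in the `x'`-space -/
def ps (θ : ℂ × ℂ → E3) (y : E2) : E2 := Fin.tail (θ (tw y))

/-- its derivative -/
def psL (θ : ℂ × ℂ → E3) (y : E2) : E2 →L[ℂ] E2 :=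
  tailL.comp ((fderiv ℂ θ (tw y)).comp (tw : E2 →L[ℂ] ℂ × ℂ))

theorem ps_deriv {θ : ℂ × ℂ → E3} {y : E2} (h : DifferentiableAt ℂ θ (tw y)) :
    HasFDerivAt (ps θ) (psL θ y) y := by
  have h1 : HasFDerivAt (fun y : E2 => θ (tw y)) ((fderiv ℂ θ (tw y)).comp
      (tw : E2 →L[ℂ] ℂ × ℂ)) y := h.hasFDerivAt.comp y tw.hasFDerivAt
  exact tailL.hasFDerivAt.comp y h1

theorem psL_det (θ : ℂ × ℂ → E3) (y : E2) : (psL θ y).det = jac2 θ (tw y) := by
  have a0 : tw (Pi.single 0 1) = ((1 : ℂ), (0 : ℂ)) := by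
    rw [tw, Ord_757.e2_apply]; simp
  have a1 : tw (Pi.single 1 1) = ((0 : ℂ), (1 : ℂ)) := by
    rw [tw, Ord_757.e2_apply]; simp
  have b0 : ∀ i : Fin 2, psL θ y (Pi.single 0 1) i = fderiv ℂ θ (tw y) (1, 0) i.succ := by
    intro i
    show fderiv ℂ θ (tw y) (tw (Pi.single 0 1)) i.succ = _
    rw [a0]
  have b1 : ∀ i : Fin 2, psL θ y (Pi.single 1 1) i = fderiv ℂ θ (tw y) (0, 1) i.succ := by
    intro i
    show fderiv ℂ θ (tw y) (tw (Pi.single 1 1)) i.succ = _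
    rw [a1]
  rw [ContinuousLinearMap.det, ← LinearMap.det_toMatrix', Matrix.det_fin_two]
  simp only [LinearMap.toMatrix'_apply, ContinuousLinearMap.coe_coe, b0, b1, jac2]
  have s0 : (0 : Fin 2).succ = (1 : Fin 3) := rfl
  have s1 : (1 : Fin 2).succ = (2 : Fin 3) := rfl
  rw [s0, s1]
  ring

/-- chart integral `≤ N ×` sheet integral -/
theorem chart_le {θ : ℂ × ℂ → E3} {N : ℕ} {r : ℝ} {f : E3 → ℂ} (φ : E3 → ℝ≥0∞) {A : Set E2}
    (hA : MeasurableSet A) (hd : ∀ y ∈ A, DifferentiableAt ℂ θ (tw y))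
    (hj : ∀ y ∈ A, jac2 θ (tw y) ≠ 0) (hm : Measurable (A.domRestrict fun y => φ (θ (tw y))))
    (hbox : ∀ y ∈ A, θ (tw y) ∈ Bx r) (hf : ∀ y ∈ A, f (θ (tw y)) = 0)
    (h0 : ∀ y ∈ A, coordDeriv f 0 (θ (tw y)) ≠ 0)
    (hN : ∀ x, {y | y ∈ A ∧ θ (tw y) = x}.encard ≤ N) :
    ∫⁻ y in A, ENNReal.ofReal (‖jac2 θ (tw y)‖ ^ 2) * φ (θ (tw y)) ≤
      N * ∫⁻ x' in Bp r, ∑' z : Sh f r x', φ (Fin.cons z.1 x') := by
  obtain ⟨-, heq⟩ := area_mult (volume : Measure E2) (ps θ) A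
    (fun y => (psL θ y).restrictScalars ℝ) hA
    (fun y hy => ((ps_deriv (hd y hy)).restrictScalars ℝ).hasFDerivWithinAt)
    (fun y hy h => by
      have h1 := det_restrict (psL θ y)
      rw [h, abs_zero, psL_det] at h1
      exact hj y hy (by simpa using h1.symm))
    (fun y => φ (θ (tw y))) hm
  have e1 : ∫⁻ y in A, ENNReal.ofReal (‖jac2 θ (tw y)‖ ^ 2) * φ (θ (tw y)) =
      ∫⁻ y in A, ENNReal.ofReal |((psL θ y).restrictScalars ℝ).det| * φ (θ (tw y)) := by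
    refine setLIntegral_congr_fun hA fun y _ => ?_
    rw [det_restrict, psL_det]
  rw [e1, heq]
  have key : ∀ x' : E2, ∑' y : {y // y ∈ A ∧ ps θ y = x'}, φ (θ (tw y)) ≤
      N * (Bp r).indicator (fun x' => ∑' z : Sh f r x', φ (Fin.cons z.1 x')) x' := by
    intro x'
    by_cases hne : Nonempty {y // y ∈ A ∧ ps θ y = x'}
    · obtain ⟨y₀⟩ := hne
      have hcons : ∀ y : {y // y ∈ A ∧ ps θ y = x'},
          (Fin.cons (θ (tw y) 0) x' : E3) = θ (tw y) := by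
        intro y
        conv_rhs => rw [← Fin.cons_self_tail (θ (tw y))]
        congr 1
        exact y.2.2.symm
      have hx' : x' ∈ Bp r := by
        have h1 := hbox y₀ y₀.2.1
        rw [← hcons y₀, mem_Bx_cons] at h1
        exact h1.2
      rw [indicator_of_mem hx']
      let T : {y // y ∈ A ∧ ps θ y = x'} → Sh f r x' := fun y =>
        ⟨θ (tw y) 0, (hbox y y.2.1) 0, by rw [hcons y]; exact hf y y.2.1,
          by rw [hcons y]; exact h0 y y.2.1⟩
      have h2 : ∀ y : {y // y ∈ A ∧ ps θ y = x'},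
          φ (θ (tw y)) = φ (Fin.cons (T y).1 x') := by
        intro y
        show _ = φ (Fin.cons (θ (tw y) 0) x')
        rw [hcons y]
      calc ∑' y : {y // y ∈ A ∧ ps θ y = x'}, φ (θ (tw y))
          = ∑' y : {y // y ∈ A ∧ ps θ y = x'}, (fun z : Sh f r x' => φ (Fin.cons z.1 x')) (T y) :=
            tsum_congr h2
        _ ≤ N * ∑' z : Sh f r x', φ (Fin.cons z.1 x') := by
            refine tsum_fib_le T (fun z : Sh f r x' => φ (Fin.cons z.1 x')) N fun z => ?_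
            refine le_trans ?_ (hN (Fin.cons z.1 x'))
            have h3 : InjOn (fun y : {y // y ∈ A ∧ ps θ y = x'} => (y : E2)) {s | T s = z} :=
              fun a _ b _ h => Subtype.ext h
            rw [← h3.encard_image]
            refine Set.encard_le_encard ?_
            rintro _ ⟨y, hy, rfl⟩
            refine ⟨y.2.1, ?_⟩
            show θ (tw y) = _
            rw [← hcons y]
            have h4 : (T y).1 = z.1 := congrArg Subtype.val hy
            rw [← h4]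
    · have : IsEmpty {y // y ∈ A ∧ ps θ y = x'} := not_nonempty_iff.1 hne
      rw [tsum_empty]
      exact zero_le
  calc ∫⁻ x', ∑' y : {y // y ∈ A ∧ ps θ y = x'}, φ (θ (tw y))
      ≤ ∫⁻ x', N * (Bp r).indicator (fun x' => ∑' z : Sh f r x', φ (Fin.cons z.1 x')) x' :=
        lintegral_mono key
    _ = _ := by
        rw [lintegral_const_mul' _ _ (ENNReal.natCast_ne_top N),
          lintegral_indicator (isOpen_Bp r).measurableSet]

/-- sheet integral `≤` sum of the chart integrals -/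
theorem le_chart {κ : Type} [Fintype κ] {θ : κ → ℂ × ℂ → E3} {r : ℝ} {f : E3 → ℂ}
    (φ : E3 → ℝ≥0∞) {A : κ → Set E2} (hA : ∀ c, MeasurableSet (A c))
    (hd : ∀ c, ∀ y ∈ A c, DifferentiableAt ℂ (θ c) (tw y))
    (hj : ∀ c, ∀ y ∈ A c, jac2 (θ c) (tw y) ≠ 0)
    (hm : ∀ c, Measurable ((A c).domRestrict fun y => φ (θ c (tw y)))) {Z : Set E2}
    (hZ : volume Z = 0)
    (hcov : ∀ x' ∈ Bp r, x' ∉ Z → ∀ z : Sh f r x', ∃ c, ∃ y ∈ A c,
      θ c (tw y) = Fin.cons z.1 x') :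
    ∫⁻ x' in Bp r, ∑' z : Sh f r x', φ (Fin.cons z.1 x') ≤
      ∑ c, ∫⁻ y in A c, ENNReal.ofReal (‖jac2 (θ c) (tw y)‖ ^ 2) * φ (θ c (tw y)) := by
  classical
  have har := fun c => area_mult (volume : Measure E2) (ps (θ c)) (A c)
    (fun y => (psL (θ c) y).restrictScalars ℝ) (hA c)
    (fun y hy => ((ps_deriv (hd c y hy)).restrictScalars ℝ).hasFDerivWithinAt)
    (fun y hy h => by
      have h1 := det_restrict (psL (θ c) y)
      rw [h, abs_zero, psL_det] at h1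
      exact hj c y hy (by simpa using h1.symm))
    (fun y => φ (θ c (tw y))) (hm c)
  have e1 : ∀ c, ∫⁻ y in A c, ENNReal.ofReal (‖jac2 (θ c) (tw y)‖ ^ 2) * φ (θ c (tw y)) =
      ∫⁻ x', ∑' y : {y // y ∈ A c ∧ ps (θ c) y = x'}, φ (θ c (tw y)) := by
    intro c
    rw [← (har c).2]
    refine setLIntegral_congr_fun (hA c) fun y _ => ?_
    rw [det_restrict, psL_det]
  simp only [e1]
  rw [← lintegral_finsetSum _ fun c _ => (har c).1]
  refine le_trans ?_ (setLIntegral_le_lintegral (Bp r) _)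
  have hZ' : ∀ᵐ x' ∂(volume.restrict (Bp r)), x' ∉ Z :=
    ae_restrict_of_ae (measure_eq_zero_iff_ae_notMem.1 hZ)
  refine lintegral_mono_ae ?_
  filter_upwards [hZ', ae_restrict_mem (isOpen_Bp r).measurableSet] with x' h1 h2
  choose c y hy hyx using hcov x' h2 h1
  let ι : Sh f r x' → Σ c, {y // y ∈ A c ∧ ps (θ c) y = x'} := fun z =>
    ⟨c z, ⟨y z, hy z, by
      show Fin.tail (θ (c z) (tw (y z))) = x'
      rw [hyx z]; exact Fin.tail_cons _ _⟩⟩
  have hinj : Injective ι := by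
    intro z w hzw
    have h3 : (fun s : (Σ c, {y // y ∈ A c ∧ ps (θ c) y = x'}) => θ s.1 (tw s.2.1)) (ι z) =
        (fun s : (Σ c, {y // y ∈ A c ∧ ps (θ c) y = x'}) => θ s.1 (tw s.2.1)) (ι w) := by
      rw [hzw]
    have h4 : (Fin.cons z.1 x' : E3) = Fin.cons w.1 x' := by
      rw [← hyx z, ← hyx w]; exact h3
    apply Subtype.ext
    exact congrFun h4 0
  calc ∑' z : Sh f r x', φ (Fin.cons z.1 x')
      = ∑' z : Sh f r x', (fun s : (Σ c, {y // y ∈ A c ∧ ps (θ c) y = x'}) =>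
          φ (θ s.1 (tw s.2.1))) (ι z) := by
        refine tsum_congr fun z => ?_
        show _ = φ (θ (c z) (tw (y z)))
        rw [hyx z]
    _ ≤ ∑' s : (Σ c, {y // y ∈ A c ∧ ps (θ c) y = x'}), φ (θ s.1 (tw s.2.1)) :=
        ENNReal.tsum_comp_le_tsum_of_injective hinj _
    _ = ∑' c, ∑' y : {y // y ∈ A c ∧ ps (θ c) y = x'}, φ (θ c (tw y)) :=
        ENNReal.tsum_sigma' _
    _ = _ := by rw [tsum_fintype]

/-! ### elementary integrals -/

/-- `∫_{|z|<δ} |z|^(2e-2) < ∞` implies `e > 0` -/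
theorem int1_conv {e δ : ℝ} (hδ : 0 < δ)
    (h : ∫⁻ z in Metric.ball (0 : ℂ) δ, ENNReal.ofReal (‖z‖ ^ (2 * e - 2)) < ⊤) : 0 < e := by
  have h1 : IntegrableOn (fun z : ℂ => ‖z‖ ^ (2 * e - 2)) (Metric.ball 0 δ) := by
    refine ⟨?_, ?_⟩
    · exact (by fun_prop : Measurable fun z : ℂ => ‖z‖ ^ (2 * e - 2)).aestronglyMeasurable
    · rw [hasFiniteIntegral_iff_ofReal]
      · exact h
      · exact Eventually.of_forall fun z => Real.rpow_nonneg (norm_nonneg _) _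
  rw [integrableOn_fun_norm_addHaar (volume : Measure ℂ) (f := fun t : ℝ => t ^ (2 * e - 2))] at h1
  have h2 : IntegrableOn (fun t : ℝ => t ^ (2 * e - 1)) (Ioo 0 δ) := by
    refine h1.congr_fun ?_ measurableSet_Ioo
    intro t ht
    have ht' : 0 < t := ht.1
    simp only [Complex.finrank_real_complex, Nat.add_one_sub_one, pow_one, smul_eq_mul]
    rw [show 2 * e - 1 = 1 + (2 * e - 2) by ring, Real.rpow_add ht', Real.rpow_one]
  rw [intervalIntegral.integrableOn_Ioo_rpow_iff hδ] at h2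
  linarith

/-- the local form of the integrand -/
theorem nrm {x y G U : ℝ} (hx : 0 < x) (hy : 0 < y) (hG : 0 ≤ G) {s : ℝ} (a b : ℕ)
    (n n' : ℤ) : (x ^ a * y ^ b * G) ^ (2 / s) * (x ^ (-n - 1) * y ^ (-n' - 1) * U) ^ 2 =
      x ^ (2 * (a / s - n) - 2) * y ^ (2 * (b / s - n') - 2) * (G ^ (2 / s) * U ^ 2) := by
  have e1 : (x ^ a * y ^ b * G) ^ (2 / s) = x ^ ((a : ℝ) * (2 / s)) * y ^ ((b : ℝ) * (2 / s)) *
      G ^ (2 / s) := by
    rw [Real.mul_rpow (by positivity) hG, Real.mul_rpow (by positivity) (by positivity),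
      ← Real.rpow_natCast, ← Real.rpow_natCast, ← Real.rpow_mul hx.le, ← Real.rpow_mul hy.le]
  have e2 : ∀ {x : ℝ} (_ : 0 < x) (n : ℤ), (x ^ (-n - 1)) ^ 2 = x ^ (2 * (-(n : ℝ)) - 2) := by
    intro x hx n
    rw [← Real.rpow_intCast, ← Real.rpow_natCast, ← Real.rpow_mul hx.le]
    congr 1
    push_cast
    ring
  rw [e1, mul_pow, mul_pow, e2 hx, e2 hy,
    show 2 * ((a : ℝ) / s - n) - 2 = (a : ℝ) * (2 / s) + (2 * (-(n : ℝ)) - 2) by ring,
    show 2 * ((b : ℝ) / s - n') - 2 = (b : ℝ) * (2 / s) + (2 * (-(n' : ℝ)) - 2) by ring,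
    Real.rpow_add hx, Real.rpow_add hy]
  ring

end Crest.Agent.R257.Fr_808
end
end

-- ▼ part R257/Fr4_808
section

/-!
R257 / Fr4_808: `J_s` in a frame:  `v(g) > s nu` implies `g ∈ J_s`, and `g ∈ J_s` implies
`v(g) > s nu`.
-/

set_option autoImplicit false

open Topology Filter MeasureTheory Set Function
open scoped ENNReal NNReal
open Crest.AlgGeometry.Germ

noncomputable section

namespace Crest.Agent.R257.Fr_808

open Crest.Agent.R257.Defs_219
open Crest.Agent.R257.Gr1_157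
open Crest.Agent.R257.Det_219 (E2 Bx Bp Sh isOpen_Bx isOpen_Bp mem_Bx_cons cd_an)

/-- the integrand of `Jint` -/
def phi (s : ℝ) (f g : E3 → ℂ) (x : E3) : ℝ≥0∞ :=
  ENNReal.ofReal (‖g x‖ ^ (2 / s) / ‖coordDeriv f 0 x‖ ^ 2)

theorem Jint_eq (s r : ℝ) (f g : E3 → ℂ) : Jint s (fun _ => r) f g =
    ∫⁻ x' in Bp r, ∑' z : Sh f r x', phi s f g (Fin.cons z.1 x') := rfl

theorem cd0_an {f : E3 → ℂ} {x : E3} (h : AnalyticAt ℂ f x) (i : Fin 3) :
    AnalyticAt ℂ (coordDeriv f i) x := by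
  have h1 : AnalyticAt ℂ (fderiv ℂ f) x := h.fderiv
  have h2 := (ContinuousLinearMap.apply ℂ ℂ (Pi.single i (1 : ℂ) : E3)).analyticAt (fderiv ℂ f x)
  exact h2.comp h1

theorem phi_meas {f g : E3 → ℂ} {θ : ℂ × ℂ → E3} {A : Set E2} {s : ℝ} (hs : 0 < s)
    (h1 : ∀ y ∈ A, AnalyticAt ℂ θ (tw y)) (h2 : ∀ y ∈ A, AnalyticAt ℂ f (θ (tw y)))
    (h3 : ∀ y ∈ A, AnalyticAt ℂ g (θ (tw y))) (h4 : ∀ y ∈ A, coordDeriv f 0 (θ (tw y)) ≠ 0) :
    Measurable (A.domRestrict fun y => phi s f g (θ (tw y))) := by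
  have hθ : ∀ y ∈ A, ContinuousAt (fun y : E2 => θ (tw y)) y := fun y hy =>
    ContinuousAt.comp (f := (tw : E2 → ℂ × ℂ)) (g := θ) (h1 y hy).continuousAt
      tw.continuous.continuousAt
  have hg : ∀ y ∈ A, ContinuousAt (fun y : E2 => g (θ (tw y))) y := fun y hy =>
    ContinuousAt.comp (f := fun y : E2 => θ (tw y)) (g := g) (h3 y hy).continuousAt (hθ y hy)
  have hf : ∀ y ∈ A, ContinuousAt (fun y : E2 => coordDeriv f 0 (θ (tw y))) y := fun y hy =>
    ContinuousAt.comp (f := fun y : E2 => θ (tw y)) (g := coordDeriv f 0)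
      (cd0_an (h2 y hy) 0).continuousAt (hθ y hy)
  have hc : ContinuousOn (fun y : E2 => ‖g (θ (tw y))‖ ^ (2 / s) /
      ‖coordDeriv f 0 (θ (tw y))‖ ^ 2) A := by
    intro y hy
    refine ContinuousAt.continuousWithinAt ?_
    refine ContinuousAt.div ?_ ((hf y hy).norm.pow 2) (pow_ne_zero 2 (norm_ne_zero_iff.2 (h4 y hy)))
    exact (hg y hy).norm.rpow_const (Or.inr (by positivity))
  have h5 : Measurable (A.domRestrict fun y : E2 => ‖g (θ (tw y))‖ ^ (2 / s) /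
      ‖coordDeriv f 0 (θ (tw y))‖ ^ 2) := (continuousOn_iff_continuous_domRestrict.1 hc).measurable
  exact h5.ennreal_ofReal

namespace Frame

variable {f : E3 → ℂ} (F : Frame f)

/-- analyticity near the special fibre -/
theorem an_near (hf : AnalyticAt ℂ f 0) {g : E3 → ℂ} (hg : AnalyticAt ℂ g 0) {c : F.K}
    {p₀ : ℂ × ℂ} (hp : p₀ ∈ F.SF c) : ∀ᶠ p in 𝓝 p₀, AnalyticAt ℂ (F.th c) p ∧
      AnalyticAt ℂ f (F.th c p) ∧ AnalyticAt ℂ g (F.th c p) := by
  have h1 := F.an c p₀ hp.1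
  have h2 : Tendsto (F.th c) (𝓝 p₀) (𝓝 0) := by
    have := h1.continuousAt.tendsto
    rwa [F.th_SF hp] at this
  exact h1.eventually_analyticAt.and
    ((h2.eventually hf.eventually_analyticAt).and (h2.eventually hg.eventually_analyticAt))

/-- exponents in the integrals -/
def ex (v : F.I → ℕ) (s : ℝ) (c : F.K) : ℝ := (v (F.e1 c) : ℝ) / s - F.nu (F.e1 c)

/-- exponents in the integrals, second variable -/
def ex' (v : F.I → ℕ) (s : ℝ) (c : F.K) : ℝ := (ex2 v (F.e2 c) : ℝ) / s - F.nu2 c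

variable {F}

/-- local form of the integrand -/
theorem Fac.form {g : E3 → ℂ} {v : F.I → ℕ} {c : F.K} {p₀ : ℂ × ℂ} {G : ℂ × ℂ → ℂ}
    (hp : p₀ ∈ F.SF c) (hG : F.Fac g v c p₀ G) (s : ℝ) :
    ∃ U : ℂ × ℂ → ℂ, AnalyticAt ℂ U p₀ ∧ U p₀ ≠ 0 ∧ ∀ᶠ p in 𝓝 p₀, p.1 ≠ 0 → p.2 ≠ 0 →
      coordDeriv f 0 (F.th c p) ≠ 0 ∧ jac2 (F.th c) p ≠ 0 ∧
      ENNReal.ofReal (‖jac2 (F.th c) p‖ ^ 2) * phi s f g (F.th c p) =
        ENNReal.ofReal (‖p.1‖ ^ (2 * F.ex v s c - 2) * ‖p.2‖ ^ (2 * F.ex' v s c - 2) *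
          (‖G p‖ ^ (2 / s) * ‖U p‖ ^ 2)) := by
  obtain ⟨U, hU, hU0, hj⟩ := F.jac c p₀ hp
  refine ⟨U, hU, hU0, ?_⟩
  filter_upwards [hj, hG.2, hU.continuousAt.eventually_ne hU0] with p h1 h2 h3 h4 h5
  obtain ⟨h6, h7⟩ := h1 h4 h5
  have hX : p.1 ^ (-F.nu (F.e1 c) - 1) * p.2 ^ (-F.nu2 c - 1) * U p ≠ 0 :=
    mul_ne_zero (mul_ne_zero (zpow_ne_zero _ h4) (zpow_ne_zero _ h5)) h3
  have h7' : jac2 (F.th c) p = coordDeriv f 0 (F.th c p) *
      (p.1 ^ (-F.nu (F.e1 c) - 1) * p.2 ^ (-F.nu2 c - 1) * U p) := by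
    rw [h7]; ring
  refine ⟨h6, by rw [h7']; exact mul_ne_zero h6 hX, ?_⟩
  rw [phi, ← ENNReal.ofReal_mul (by positivity)]
  congr 1
  rw [h7', h2, mo]
  have hd : ‖coordDeriv f 0 (F.th c p)‖ ≠ 0 := norm_ne_zero_iff.2 h6
  have e1 : ‖coordDeriv f 0 (F.th c p) *
      (p.1 ^ (-F.nu (F.e1 c) - 1) * p.2 ^ (-F.nu2 c - 1) * U p)‖ ^ 2 *
      (‖p.1 ^ v (F.e1 c) * p.2 ^ ex2 v (F.e2 c) * G p‖ ^ (2 / s) /
        ‖coordDeriv f 0 (F.th c p)‖ ^ 2) =
      (‖p.1‖ ^ v (F.e1 c) * ‖p.2‖ ^ ex2 v (F.e2 c) * ‖G p‖) ^ (2 / s) *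
      (‖p.1‖ ^ (-F.nu (F.e1 c) - 1) * ‖p.2‖ ^ (-F.nu2 c - 1) * ‖U p‖) ^ 2 := by
    rw [norm_mul (coordDeriv f 0 (F.th c p)), norm_mul, norm_mul, norm_mul, norm_mul, norm_zpow,
      norm_zpow, norm_pow, norm_pow]
    field_simp
  rw [e1, nrm (norm_pos_iff.2 h4) (norm_pos_iff.2 h5) (norm_nonneg _)]
  rfl

variable (F)

/-- the null set of the `x'` below the second axes -/
theorem null (c : F.K) : volume (ps (F.th c) '' {y : E2 | tw y ∈ BD ∧ y 1 = 0}) = 0 := by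
  refine addHaar_image_eq_zero_of_differentiableOn_of_addHaar_eq_zero (volume : Measure E2)
    (fun y hy => ?_) ?_
  · exact ((ps_deriv (F.an c _ hy.1).differentiableAt).restrictScalars
      ℝ).differentiableAt.differentiableWithinAt
  · refine measure_mono_null (t := {y : E2 | y 1 = 0}) (fun y hy => hy.2) ?_
    have h1 : {y : E2 | y 1 = 0} = tw ⁻¹' (univ ×ˢ {(0 : ℂ)}) := by
      ext y; simp [tw, Ord_757.e2_apply]
    rw [h1, Ord_757.mp_e2.measure_preimage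
      ((MeasurableSet.univ.prod (measurableSet_singleton _)).nullMeasurableSet),
      Measure.volume_eq_prod, Measure.prod_prod]
    simp

theorem null0 : volume ({0} : Set E2) = 0 := by simp

variable {F}

/-- **`v(g) > s nu` implies `g ∈ J_s`** -/
theorem InJ_of (hf : AnalyticAt ℂ f 0) {g : E3 → ℂ} (hg : AnalyticAt ℂ g 0) {v : F.I → ℕ}
    (hv : F.Ge g v) {s : ℝ} (hs : 0 < s) (hlt : ∀ i, s * F.nu i < v i) : InJ s f g := by
  have hex : ∀ c, 0 < F.ex v s c := by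
    intro c
    have := hlt (F.e1 c)
    unfold ex
    rw [sub_pos, lt_div_iff₀ hs]
    linarith
  have hex' : ∀ c, 0 < F.ex' v s c := by
    intro c
    unfold ex'
    rcases h : F.e2 c with _ | i
    · have h1 := F.nu2_none c h
      have h2 : (F.nu2 c : ℝ) ≤ -1 := by exact_mod_cast h1
      simp only [ex2, Option.elim_none, Nat.cast_zero, zero_div]
      linarith
    · have h1 := F.nu2_some c i h
      have := hlt i
      rw [h1]
      simp only [ex2, Option.elim_some]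
      rw [sub_pos, lt_div_iff₀ hs]
      linarith
  set off : Set (ℂ × ℂ) := {p | p.1 ≠ 0 ∧ p.2 ≠ 0} with hoff
  have hoffo : IsOpen off := (isOpen_ne_fun continuous_fst continuous_const).inter
    (isOpen_ne_fun continuous_snd continuous_const)
  set D : F.K → ℂ × ℂ → ℝ≥0∞ := fun c p =>
    ENNReal.ofReal (‖jac2 (F.th c) p‖ ^ 2) * phi s f g (F.th c p) with hD
  have hBDm : MeasurableSet BD := isCompact_BD.isClosed.measurableSet
  -- open neighbourhoods of the special fibres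
  have key : ∀ c, ∃ W : Set (ℂ × ℂ), IsOpen W ∧ F.SF c ⊆ W ∧
      (∀ p ∈ W, AnalyticAt ℂ (F.th c) p ∧ AnalyticAt ℂ f (F.th c p) ∧
        AnalyticAt ℂ g (F.th c p) ∧ (p.1 ≠ 0 → p.2 ≠ 0 → coordDeriv f 0 (F.th c p) ≠ 0 ∧
          jac2 (F.th c) p ≠ 0)) ∧ ∫⁻ p in (W ∩ BD) ∩ off, D c p < ⊤ := by
    intro c
    refine (F.isCompact_SF c).induction_on
        (p := fun t => ∃ W : Set (ℂ × ℂ), IsOpen W ∧ t ⊆ W ∧
      (∀ p ∈ W, AnalyticAt ℂ (F.th c) p ∧ AnalyticAt ℂ f (F.th c p) ∧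
        AnalyticAt ℂ g (F.th c p) ∧ (p.1 ≠ 0 → p.2 ≠ 0 → coordDeriv f 0 (F.th c p) ≠ 0 ∧
          jac2 (F.th c) p ≠ 0)) ∧ ∫⁻ p in (W ∩ BD) ∩ off, D c p < ⊤) ?_ ?_ ?_ ?_
    · exact ⟨∅, isOpen_empty, subset_rfl, fun p hp => absurd hp (notMem_empty p), by simp⟩
    · rintro t t' htt ⟨W, h1, h2, h3⟩
      exact ⟨W, h1, htt.trans h2, h3⟩
    · rintro t t' ⟨W, h1, h2, h3, h4⟩ ⟨W', h1', h2', h3', h4'⟩
      refine ⟨W ∪ W', h1.union h1', union_subset_union h2 h2', ?_, ?_⟩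
      · rintro p (hp | hp)
        · exact h3 p hp
        · exact h3' p hp
      · have : (W ∪ W') ∩ BD ∩ off = (W ∩ BD ∩ off) ∪ (W' ∩ BD ∩ off) := by
          rw [union_inter_distrib_right, union_inter_distrib_right]
        rw [this]
        exact lt_of_le_of_lt (lintegral_union_le _ _ _) (ENNReal.add_lt_top.2 ⟨h4, h4'⟩)
    · intro p₀ hp₀
      obtain ⟨G, hG⟩ := hv c p₀ hp₀
      obtain ⟨U, hU, hU0, hform⟩ := hG.form hp₀ s
      have hbd : ∀ᶠ p in 𝓝 p₀, ‖G p‖ ^ (2 / s) * ‖U p‖ ^ 2 <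
          ‖G p₀‖ ^ (2 / s) * ‖U p₀‖ ^ 2 + 1 := by
        have h1 : ContinuousAt (fun p => ‖G p‖ ^ (2 / s) * ‖U p‖ ^ 2) p₀ :=
          (hG.1.continuousAt.norm.rpow_const (Or.inr (by positivity))).mul
            (hU.continuousAt.norm.pow 2)
        exact h1.eventually_lt continuousAt_const (by simp)
      obtain ⟨W, hW, hWo, hpW⟩ := _root_.eventually_nhds_iff.1
        ((hform.and hbd).and (F.an_near hf hg hp₀))
      refine ⟨W, mem_nhdsWithin_of_mem_nhds (hWo.mem_nhds hpW), W, hWo, subset_rfl, ?_, ?_⟩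
      · intro p hp
        obtain ⟨⟨h1, -⟩, h2, h3, h4⟩ := hW p hp
        exact ⟨h2, h3, h4, fun h5 h6 => ⟨(h1 h5 h6).1, (h1 h5 h6).2.1⟩⟩
      · set C : ℝ := ‖G p₀‖ ^ (2 / s) * ‖U p₀‖ ^ 2 + 1 with hC
        have hC0 : 0 ≤ C := by positivity
        have hms : MeasurableSet (W ∩ BD ∩ off) :=
          (hWo.measurableSet.inter hBDm).inter hoffo.measurableSet
        have hle : ∀ p ∈ W ∩ BD ∩ off, D c p ≤ ENNReal.ofReal C *
            ENNReal.ofReal (‖p.1‖ ^ (2 * F.ex v s c - 2) * ‖p.2‖ ^ (2 * F.ex' v s c - 2)) := by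
          rintro p ⟨⟨hp, -⟩, hp1, hp2⟩
          obtain ⟨⟨h1, h2⟩, -⟩ := hW p hp
          rw [hD]
          simp only
          rw [(h1 hp1 hp2).2.2, ← ENNReal.ofReal_mul hC0]
          refine ENNReal.ofReal_le_ofReal ?_
          rw [mul_comm C]
          exact mul_le_mul_of_nonneg_left h2.le (by positivity)
        calc ∫⁻ p in (W ∩ BD) ∩ off, D c p
            ≤ ∫⁻ p in (W ∩ BD) ∩ off, ENNReal.ofReal C *
              ENNReal.ofReal (‖p.1‖ ^ (2 * F.ex v s c - 2) * ‖p.2‖ ^ (2 * F.ex' v s c - 2)) :=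
              setLIntegral_mono' hms hle
          _ = ENNReal.ofReal C * ∫⁻ p in (W ∩ BD) ∩ off,
              ENNReal.ofReal (‖p.1‖ ^ (2 * F.ex v s c - 2) * ‖p.2‖ ^ (2 * F.ex' v s c - 2)) :=
              lintegral_const_mul' _ _ ENNReal.ofReal_ne_top
          _ ≤ ENNReal.ofReal C * ∫⁻ p in (Metric.ball (0 : ℂ) 2) ×ˢ (Metric.ball (0 : ℂ) 2),
              ENNReal.ofReal (‖p.1‖ ^ (2 * F.ex v s c - 2) * ‖p.2‖ ^ (2 * F.ex' v s c - 2)) := by
              gcongr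
              rintro p ⟨⟨-, hp1, hp2⟩, -⟩
              constructor
              · rw [mem_ball_zero_iff]; linarith
              · rw [mem_ball_zero_iff]; linarith
          _ < ⊤ := ENNReal.mul_lt_top ENNReal.ofReal_lt_top
              (Ord_757.int2 (hex c) (hex' c) 2 2)
  choose W hWo hSW hWp hWi using key
  -- the sheets are covered
  have hcov := F.glob' (fun x => ∃ c, ∃ p ∈ W c ∩ BD, F.th c p = x) (fun c p₀ hp₀ => by
    filter_upwards [(hWo c).mem_nhds (hSW c hp₀)] with p hp hpB _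
    exact ⟨c, p, ⟨hp, hpB⟩, rfl⟩)
  obtain ⟨ε, hε, hball⟩ := Metric.eventually_nhds_iff_ball.1 hcov
  refine ⟨ε, hε, ?_⟩
  rw [Jint_eq]
  set A : F.K → Set E2 := fun c => tw ⁻¹' ((W c ∩ BD) ∩ off) with hA
  have hms : ∀ c, MeasurableSet ((W c ∩ BD) ∩ off) := fun c =>
    ((hWo c).measurableSet.inter hBDm).inter hoffo.measurableSet
  refine lt_of_le_of_lt (le_chart (θ := F.th) (phi s f g) (A := A)
    (fun c => tw.continuous.measurable (hms c))
    (fun c y hy => (hWp c _ hy.1.1).1.differentiableAt)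
    (fun c y hy => ((hWp c _ hy.1.1).2.2.2 hy.2.1 hy.2.2).2)
    (fun c => phi_meas hs (fun y hy => (hWp c _ hy.1.1).1) (fun y hy => (hWp c _ hy.1.1).2.1)
      (fun y hy => (hWp c _ hy.1.1).2.2.1)
      (fun y hy => ((hWp c _ hy.1.1).2.2.2 hy.2.1 hy.2.2).1))
    (Z := (⋃ c, ps (F.th c) '' {y : E2 | tw y ∈ BD ∧ y 1 = 0}) ∪ {0})
    (measure_union_null (measure_iUnion_null fun c => F.null c) null0) ?_) ?_
  · intro x' hx' hxZ z
    have hx0 : (Fin.cons z.1 x' : E3) ≠ 0 := by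
      intro h0
      apply hxZ
      right
      have := congrArg Fin.tail h0
      rw [Fin.tail_cons] at this
      exact this
    have hxb : (Fin.cons z.1 x' : E3) ∈ Metric.ball (0 : E3) ε := by
      rw [mem_ball_zero_iff, pi_norm_lt_iff hε]
      exact mem_Bx_cons.2 ⟨z.2.1, hx'⟩
    obtain ⟨c, p, ⟨hp1, hp2⟩, hpx⟩ := hball _ hxb hx0 z.2.2.1
    have hpS : p ∉ F.SF c := fun h => hx0 (by rw [← hpx, F.th_SF h])
    obtain ⟨hp3, -⟩ := F.off hp2 hpS
    have hp4 : p.2 ≠ 0 := by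
      intro h0
      apply hxZ
      left
      refine mem_iUnion.2 ⟨c, tw.symm p, ⟨?_, ?_⟩, ?_⟩
      · rw [ContinuousLinearEquiv.apply_symm_apply]; exact hp2
      · have h1 : tw (tw.symm p) = p := tw.apply_symm_apply p
        rw [tw, Ord_757.e2_apply] at h1
        exact (congrArg Prod.snd h1).trans h0
      · show Fin.tail (F.th c (tw (tw.symm p))) = x'
        rw [ContinuousLinearEquiv.apply_symm_apply, hpx, Fin.tail_cons]
    refine ⟨c, tw.symm p, ?_, ?_⟩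
    · show tw (tw.symm p) ∈ (W c ∩ BD) ∩ off
      rw [ContinuousLinearEquiv.apply_symm_apply]
      exact ⟨⟨hp1, hp2⟩, hp3, hp4⟩
    · rw [ContinuousLinearEquiv.apply_symm_apply]; exact hpx
  · refine ENNReal.sum_lt_top.2 fun c _ => ?_
    refine lt_of_le_of_lt (le_of_eq ?_) (hWi c)
    exact Ord_757.lintegral_e2 ((W c ∩ BD) ∩ off) (D c)

/-- the zero function is in `J_s` -/
theorem InJ_zero {f g : E3 → ℂ} {s : ℝ} (hs : 0 < s)
    (hg : ∀ᶠ x in 𝓝 (0 : E3), f x = 0 → g x = 0) : InJ s f g := by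
  obtain ⟨ε, hε, hball⟩ := Metric.eventually_nhds_iff_ball.1 hg
  refine ⟨ε, hε, ?_⟩
  rw [Jint_eq]
  have h0 : ∫⁻ x' in Bp ε, ∑' z : Sh f ε x', phi s f g (Fin.cons z.1 x') =
      ∫⁻ x' in Bp ε, 0 := by
    refine setLIntegral_congr_fun (isOpen_Bp ε).measurableSet fun x' hx' => ?_
    rw [ENNReal.tsum_eq_zero]
    intro z
    have hxb : (Fin.cons z.1 x' : E3) ∈ Metric.ball (0 : E3) ε := by
      rw [mem_ball_zero_iff, pi_norm_lt_iff hε]
      exact mem_Bx_cons.2 ⟨z.2.1, hx'⟩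
    have h1 := hball _ hxb z.2.2.1
    rw [phi, h1, norm_zero, Real.zero_rpow (by positivity)]
    simp
  rw [h0]
  simp

/-- **`g ∈ J_s` implies `v(g) > s nu`** -/
theorem Ord.lt_of_InJ (hf : AnalyticAt ℂ f 0) {g : E3 → ℂ} (hg : AnalyticAt ℂ g 0) {v : F.I → ℕ}
    (hv : F.Ord g v) {s : ℝ} (hs : 0 < s) (hJ : InJ s f g) (i : F.I) : s * F.nu i < v i := by
  obtain ⟨r, hr, hfin⟩ := hJ
  rw [Jint_eq] at hfin
  obtain ⟨c, rfl⟩ := F.surj i
  obtain ⟨G, hG, hG1, -⟩ := hv.2 c (0, 0) (F.mem_SF1 c (by simp))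
  obtain ⟨z, ⟨hz1, hz2, hz3⟩, hz0⟩ := ((hG.good (hG1 rfl).1).and self_mem_nhdsWithin).exists
  have hz0' : z ≠ 0 := hz0
  have hpS : ((0 : ℂ), z) ∈ F.SF c := F.mem_SF1 c hz1.le
  obtain ⟨U, hU, hU0, hform⟩ := hz2.form hpS s
  obtain ⟨N, hN⟩ := F.mult
  -- lower bound of the density
  have hpos : 0 < ‖z‖ ^ (2 * F.ex' v s c - 2) * (‖G (0, z)‖ ^ (2 / s) * ‖U (0, z)‖ ^ 2) := by
    have h1 : 0 < ‖z‖ := norm_pos_iff.2 hz0'
    have h2 : 0 < ‖G (0, z)‖ := norm_pos_iff.2 hz3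
    have h3 : 0 < ‖U (0, z)‖ := norm_pos_iff.2 hU0
    exact mul_pos (Real.rpow_pos_of_pos h1 _) (mul_pos (Real.rpow_pos_of_pos h2 _) (by positivity))
  set m : ℝ := ‖z‖ ^ (2 * F.ex' v s c - 2) * (‖G (0, z)‖ ^ (2 / s) * ‖U (0, z)‖ ^ 2) / 2 with hm
  have hm0 : 0 < m := by rw [hm]; positivity
  have hlow : ∀ᶠ p in 𝓝 ((0 : ℂ), z),
      m < ‖p.2‖ ^ (2 * F.ex' v s c - 2) * (‖G p‖ ^ (2 / s) * ‖U p‖ ^ 2) := by
    have h1 : ContinuousAt (fun p : ℂ × ℂ => ‖p.2‖ ^ (2 * F.ex' v s c - 2) *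
        (‖G p‖ ^ (2 / s) * ‖U p‖ ^ 2)) (0, z) := by
      refine ContinuousAt.mul ?_ ((hz2.1.continuousAt.norm.rpow_const
        (Or.inr (by positivity))).mul (hU.continuousAt.norm.pow 2))
      exact continuousAt_snd.norm.rpow_const (Or.inl (norm_ne_zero_iff.2 hz0'))
    exact continuousAt_const.eventually_lt h1 (by rw [hm]; linarith)
  have hp2 : ∀ᶠ p in 𝓝 ((0 : ℂ), z), p.2 ≠ 0 := continuousAt_snd.eventually_ne hz0'
  have hBD : ∀ᶠ p in 𝓝 ((0 : ℂ), z), p ∈ BD := by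
    have h1 : ∀ᶠ p in 𝓝 ((0 : ℂ), z), ‖p.1‖ < 1 :=
      (continuousAt_fst.norm).eventually_lt continuousAt_const (by simp)
    have h2 : ∀ᶠ p in 𝓝 ((0 : ℂ), z), ‖p.2‖ < 1 :=
      (continuousAt_snd.norm).eventually_lt continuousAt_const (by simpa using hz1)
    filter_upwards [h1, h2] with p h3 h4 using ⟨h3.le, h4.le⟩
  have hbox : ∀ᶠ p in 𝓝 ((0 : ℂ), z), F.th c p ∈ Bx r := by
    have h1 : ContinuousAt (F.th c) (0, z) := (F.an c _ hpS.1).continuousAt
    refine h1.eventually ((isOpen_Bx r).mem_nhds ?_)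
    rw [F.th_SF hpS]
    intro i
    simpa using hr
  obtain ⟨δ, hδ, hball⟩ := Metric.eventually_nhds_iff_ball.1
    ((((hform.and hlow).and hp2).and (hBD.and hbox)).and (F.an_near hf hg hpS))
  set Q : Set (ℂ × ℂ) := (Metric.ball (0 : ℂ) δ ×ˢ Metric.ball z δ) ∩ {p | p.1 ≠ 0} with hQ
  have hQb : ∀ p ∈ Q, p ∈ Metric.ball ((0 : ℂ), z) δ := by
    intro p hp
    rw [← ball_prod_same]
    exact hp.1
  have hQo : IsOpen Q := (Metric.isOpen_ball.prod Metric.isOpen_ball).inter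
    (isOpen_ne_fun continuous_fst continuous_const)
  have hfacts := fun p (hp : p ∈ Q) => hball p (hQb p hp)
  have hQ1 : ∀ p ∈ Q, p.1 ≠ 0 := fun p hp => hp.2
  have hQ2 : ∀ p ∈ Q, p.2 ≠ 0 := fun p hp => (hfacts p hp).1.1.2
  have hQf : ∀ p ∈ Q, coordDeriv f 0 (F.th c p) ≠ 0 ∧ jac2 (F.th c) p ≠ 0 ∧
      ENNReal.ofReal m * ENNReal.ofReal (‖p.1‖ ^ (2 * F.ex v s c - 2)) ≤
      ENNReal.ofReal (‖jac2 (F.th c) p‖ ^ 2) * phi s f g (F.th c p) := by
    intro p hp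
    obtain ⟨⟨⟨⟨h1, h2⟩, -⟩, -⟩, -⟩ := hfacts p hp
    obtain ⟨h3, h4, h5⟩ := h1 (hQ1 p hp) (hQ2 p hp)
    refine ⟨h3, h4, ?_⟩
    rw [h5, ← ENNReal.ofReal_mul hm0.le]
    refine ENNReal.ofReal_le_ofReal ?_
    rw [mul_comm m, mul_assoc]
    exact mul_le_mul_of_nonneg_left h2.le (by positivity)
  have h1 := chart_le (θ := F.th c) (N := N) (r := r) (f := f) (phi s f g) (A := tw ⁻¹' Q)
    (tw.continuous.measurable hQo.measurableSet)
    (fun y hy => (hfacts _ hy).2.1.differentiableAt)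
    (fun y hy => (hQf _ hy).2.1)
    (phi_meas hs (fun y hy => (hfacts _ hy).2.1) (fun y hy => (hfacts _ hy).2.2.1)
      (fun y hy => (hfacts _ hy).2.2.2) (fun y hy => (hQf _ hy).1))
    (fun y hy => (hfacts _ hy).1.2.2) (fun y hy => F.onV c _ (hfacts _ hy).1.2.1)
    (fun y hy => (hQf _ hy).1)
    (fun x => by
      by_cases hx : x = 0
      · have : {y | y ∈ tw ⁻¹' Q ∧ F.th c (tw y) = x} = ∅ := by
          ext y
          simp only [mem_setOf_eq, mem_empty_iff_false, iff_false, not_and]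
          intro hy h0
          rw [hx, F.zero c _ (hfacts _ hy).1.2.1] at h0
          rcases h0.2 with h | h
          · exact hQ1 _ hy h
          · exact hQ2 _ hy h.2
        rw [this]; simp
      · refine le_trans ?_ (hN c x hx)
        rw [← tw.injective.injOn.encard_image (s := {y | y ∈ tw ⁻¹' Q ∧ F.th c (tw y) = x})]
        refine Set.encard_le_encard ?_
        rintro _ ⟨y, hy, rfl⟩
        exact ⟨(hfacts _ hy.1).1.2.1, hy.2⟩)
  have h2 : ∫⁻ p in Q, ENNReal.ofReal (‖jac2 (F.th c) p‖ ^ 2) * phi s f g (F.th c p) < ⊤ := by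
    rw [← Ord_757.lintegral_e2 Q (fun p =>
      ENNReal.ofReal (‖jac2 (F.th c) p‖ ^ 2) * phi s f g (F.th c p))]
    exact lt_of_le_of_lt h1 (ENNReal.mul_lt_top (ENNReal.natCast_lt_top N) hfin)
  have h3 : ∫⁻ p in Q, ENNReal.ofReal m * ENNReal.ofReal (‖p.1‖ ^ (2 * F.ex v s c - 2)) < ⊤ :=
    lt_of_le_of_lt (setLIntegral_mono' hQo.measurableSet fun p hp => (hQf p hp).2.2) h2
  rw [lintegral_const_mul' _ _ ENNReal.ofReal_ne_top] at h3
  have h4 : ∫⁻ p in Q, ENNReal.ofReal (‖p.1‖ ^ (2 * F.ex v s c - 2)) < ⊤ := by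
    by_contra hcon
    rw [not_lt_top_iff.1 hcon, ENNReal.mul_top (by
      rw [ne_eq, ENNReal.ofReal_eq_zero, not_le]; exact hm0)] at h3
    exact lt_irrefl _ h3
  -- remove the null set `p.1 = 0`
  have h5 : ∫⁻ p in Metric.ball (0 : ℂ) δ ×ˢ Metric.ball z δ,
      ENNReal.ofReal (‖p.1‖ ^ (2 * F.ex v s c - 2)) < ⊤ := by
    have hnull : volume ({p : ℂ × ℂ | p.1 = 0}) = 0 := by
      have : {p : ℂ × ℂ | p.1 = 0} = {(0 : ℂ)} ×ˢ univ := by ext p; simp
      rw [this, Measure.volume_eq_prod, Measure.prod_prod]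
      simp
    have h6 : (Metric.ball (0 : ℂ) δ ×ˢ Metric.ball z δ : Set (ℂ × ℂ)) ⊆ Q ∪ {p | p.1 = 0} := by
      intro p hp
      by_cases h : p.1 = 0
      · exact Or.inr h
      · exact Or.inl ⟨hp, h⟩
    calc ∫⁻ p in Metric.ball (0 : ℂ) δ ×ˢ Metric.ball z δ,
          ENNReal.ofReal (‖p.1‖ ^ (2 * F.ex v s c - 2))
        ≤ ∫⁻ p in Q ∪ {p | p.1 = 0}, ENNReal.ofReal (‖p.1‖ ^ (2 * F.ex v s c - 2)) :=
          lintegral_mono_set h6
      _ ≤ (∫⁻ p in Q, ENNReal.ofReal (‖p.1‖ ^ (2 * F.ex v s c - 2))) +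
          ∫⁻ p in {p : ℂ × ℂ | p.1 = 0}, ENNReal.ofReal (‖p.1‖ ^ (2 * F.ex v s c - 2)) :=
          lintegral_union_le _ _ _
      _ = (∫⁻ p in Q, ENNReal.ofReal (‖p.1‖ ^ (2 * F.ex v s c - 2))) + 0 := by
          rw [setLIntegral_measure_zero _ _ hnull]
      _ < ⊤ := by rw [add_zero]; exact h4
  rw [Measure.volume_eq_prod, ← Measure.prod_restrict,
    lintegral_prod (fun p : ℂ × ℂ => ENNReal.ofReal (‖p.1‖ ^ (2 * F.ex v s c - 2)))
      (by fun_prop)] at h5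
  simp only [lintegral_const] at h5
  rw [lintegral_mul_const' _ _ (by
    rw [Measure.restrict_apply MeasurableSet.univ, univ_inter]
    exact measure_ball_lt_top.ne)] at h5
  have h7 : ∫⁻ w in Metric.ball (0 : ℂ) δ, ENNReal.ofReal (‖w‖ ^ (2 * F.ex v s c - 2)) < ⊤ := by
    by_contra hcon
    rw [not_lt_top_iff.1 hcon, ENNReal.top_mul (by
      rw [Measure.restrict_apply MeasurableSet.univ, univ_inter]
      exact (Metric.measure_ball_pos _ _ hδ).ne')] at h5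
    exact lt_irrefl _ h5
  have h8 := int1_conv hδ h7
  unfold ex at h8
  rw [sub_pos, lt_div_iff₀ hs] at h8
  linarith

end Frame

end Crest.Agent.R257.Fr_808
end
end

-- ▼ part R257/Fr5_808
section

/-!
R257 / Fr5_808: positivity of the least cycle `q` when `0 < mstar f`; the data `PairD` of a generic pair
and its consequences (E1), (E2), (E4) of `XF_157.Exact`.
-/

set_option autoImplicit false

open Topology Filter MeasureTheory Set Function
open Crest.AlgGeometry.Germ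

noncomputable section

namespace Crest.Agent.R257.Fr_808

open Crest.Agent.R257.Defs_219
open Crest.Agent.R257.Gr1_157

/-- a unit among the generators -/
theorem col_unit {n m : ℕ} {G : Fin m → (Fin n → ℂ) → ℂ} {j : Fin m} (hj : AnalyticAt ℂ (G j) 0)
    (h0 : G j 0 ≠ 0) : col G = 0 := by
  classical
  have h1 : gens G = ⊤ := by
    rw [eq_top_iff]
    rintro ⟨u, hu⟩ -
    refine ⟨fun i => if i = j then fun x => u x / G j x else fun _ => 0, fun i => ?_, ?_⟩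
    · by_cases h : i = j
      · simp only [h, if_true]
        exact AnalyticAt.div hu hj h0
      · simp only [h, if_false]
        exact analyticAt_const
    · filter_upwards [hj.continuousAt.eventually_ne h0] with x hx
      rw [Finset.sum_eq_single j]
      · simp only [if_true]
        field_simp
      · intro i _ hi
        simp [hi]
      · simp
  have h2 : Subsingleton (Quo G) := by
    exact Submodule.Quotient.subsingleton_iff.2 h1
  exact Module.finrank_zero_of_subsingleton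

namespace Frame

variable {f : E3 → ℂ} {F : Frame f}

theorem Ord.toGe {g : E3 → ℂ} {v : F.I → ℕ} (h : F.Ord g v) : F.Ge g v := by
  intro c p₀ hp
  obtain ⟨G, hG, -⟩ := h.2 c p₀ hp
  exact ⟨G, hG⟩

/-- if `nu ≤ 0` then everything vanishing at `0` is in all `J_a` -/
theorem InJ_of_nonpos (hf : AnalyticAt ℂ f 0) (hnu : ∀ i, F.nu i ≤ 0) {g : E3 → ℂ}
    (hg : AnalyticAt ℂ g 0) (h0 : g 0 = 0) {a : ℝ} (ha : 0 < a) : InJ a f g := by
  by_cases hne : ∃ᶠ x in 𝓝 (0 : E3), f x = 0 ∧ g x ≠ 0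
  · obtain ⟨v, hv⟩ := F.exists_Ord hg hne
    refine InJ_of hf hg hv.toGe ha fun i => ?_
    have h1 : (F.nu i : ℝ) ≤ 0 := by exact_mod_cast hnu i
    have h2 : (0 : ℝ) < v i := by exact_mod_cast hv.pos h0 i
    nlinarith
  · refine InJ_zero ha ?_
    rw [not_frequently] at hne
    filter_upwards [hne] with x hx hfx
    by_contra h
    exact hx ⟨hfx, h⟩

variable (F)

theorem exists_pos_nu (hf : Iso f) (hm : 0 < mstar f) : ∃ i, 0 < F.nu i := by
  by_contra hcon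
  push Not at hcon
  have hne : (mset f).Nonempty := by
    by_contra h
    rw [Set.not_nonempty_iff_eq_empty] at h
    rw [mstar, h, Real.sInf_empty] at hm
    exact lt_irrefl _ hm
  obtain ⟨c, a, b, ha, hb, g, h, hg, hh, hgJ, hhJ, hfin, rfl⟩ := hne
  have hle := mul_mstar_le ha hb hg hh hgJ hhJ hfin
  have hpos : 0 < (col ![f, g, h] : ℝ) := lt_of_lt_of_le (by positivity) hle
  have hg0 : g 0 = 0 := by
    by_contra h0
    have := col_unit (G := ![f, g, h]) (j := 1) hg h0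
    rw [this] at hpos
    simp at hpos
  have hh0 : h 0 = 0 := by
    by_contra h0
    have := col_unit (G := ![f, g, h]) (j := 2) hh h0
    rw [this] at hpos
    simp at hpos
  set C : ℝ := (col ![f, g, h] : ℝ) with hC
  set t : ℝ := max 1 ((C + 1) / mstar f) with ht
  have ht1 : 1 ≤ t := le_max_left _ _
  have ht2 : C + 1 ≤ t * mstar f := by
    rw [← div_le_iff₀ hm]
    exact le_max_right _ _
  have h1 := mul_mstar_le ht1 ht1 hg hh
    (F.InJ_of_nonpos hf.an hcon hg hg0 (by linarith))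
    (F.InJ_of_nonpos hf.an hcon hh hh0 (by linarith)) hfin
  have h2 : t * mstar f ≤ t * t * mstar f := by
    have : 0 ≤ t * mstar f := by positivity
    nlinarith
  linarith

variable {F}

/-- **positivity of `q`** -/
theorem IsP.pos (hf : Iso f) (hm : 0 < mstar f) {q : F.I → ℝ} (hq : F.IsP q) : ∀ i, 0 < q i := by
  obtain ⟨i₀, hi₀⟩ := F.exists_pos_nu hf hm
  refine pos_of_connected F.form F.conn hq.dg_le ?_
  intro h0
  have h1 := hq.ge i₀
  rw [h0] at h1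
  have h2 : (0 : ℝ) < F.nu i₀ := by exact_mod_cast hi₀
  simp only [Pi.zero_apply] at h1
  linarith

variable (F)

/-- a generic pair of sections of `k q` -/
structure PairD (q : F.I → ℝ) (k : ℕ) (m : F.I → ℕ) (g h : E3 → ℂ) : Prop where
  isP : F.IsP q
  pos : ∀ i, 0 < q i
  k2 : 2 ≤ k
  hm : ∀ i, (m i : ℝ) = k * q i
  ang : AnalyticAt ℂ g 0
  anh : AnalyticAt ℂ h 0
  loc : ∀ c, ∀ p₀ ∈ F.SF c, ∃ G H, F.Fac g m c p₀ G ∧ F.Fac h m c p₀ H ∧
    (G p₀ ≠ 0 ∨ H p₀ ≠ 0 ∧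
      ((p₀.1 = 0 ∧ p₀.2 ≠ 0 ∧ deriv (fun z => G (0, z)) p₀.2 ≠ 0) ∨
        (F.e2 c ≠ none ∧ p₀.2 = 0 ∧ p₀.1 ≠ 0 ∧ deriv (fun z => G (z, 0)) p₀.1 ≠ 0)))

variable {F}

theorem PairD.m_pos {q : F.I → ℝ} {k : ℕ} {m : F.I → ℕ} {g h : E3 → ℂ} (P : F.PairD q k m g h)
    (i : F.I) : 0 < m i := by
  have h1 := P.hm i
  have h2 := P.pos i
  have h3 : (0 : ℝ) < k := by
    have := P.k2
    have : 0 < k := by omega
    exact_mod_cast this
  have h4 : (0 : ℝ) < m i := by rw [h1]; positivity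
  exact_mod_cast h4

theorem Fac.vanish {g : E3 → ℂ} {m : F.I → ℕ} (hm : ∀ i, 0 < m i) (hg : F.Ge g m)
    (hI : Nonempty F.I) : g 0 = 0 := by
  obtain ⟨i⟩ := hI
  obtain ⟨c, hc⟩ := F.surj i
  obtain ⟨G, hG⟩ := hg c (0, 0) (F.mem_SF1 c (by simp))
  have h1 := hG.2.self_of_nhds
  rw [F.th_SF (F.mem_SF1 c (by simp)), mo] at h1
  rw [h1, zero_pow (hm _).ne']
  simp

theorem PairD.geg {q : F.I → ℝ} {k : ℕ} {m : F.I → ℕ} {g h : E3 → ℂ} (P : F.PairD q k m g h) :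
    F.Ge g m := fun c p₀ hp => by
  obtain ⟨G, H, hG, hH, -⟩ := P.loc c p₀ hp
  exact ⟨G, hG⟩

theorem PairD.geh {q : F.I → ℝ} {k : ℕ} {m : F.I → ℕ} {g h : E3 → ℂ} (P : F.PairD q k m g h) :
    F.Ge h m := fun c p₀ hp => by
  obtain ⟨G, H, hG, hH, -⟩ := P.loc c p₀ hp
  exact ⟨H, hH⟩

/-- `|g| + |h|` is comparable with the monomial from below -/
theorem PairD.low {q : F.I → ℝ} {k : ℕ} {m : F.I → ℕ} {g h : E3 → ℂ} (P : F.PairD q k m g h)
    {c : F.K} {p₀ : ℂ × ℂ} (hp : p₀ ∈ F.SF c) : ∃ b : ℝ, 0 < b ∧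
      ∀ᶠ p in 𝓝 p₀, b * ‖F.mo m c p‖ ≤ ‖g (F.th c p)‖ + ‖h (F.th c p)‖ := by
  obtain ⟨G, H, hG, hH, hor⟩ := P.loc c p₀ hp
  have h0 : 0 < ‖G p₀‖ + ‖H p₀‖ := by
    rcases hor with h1 | ⟨h1, -⟩
    · have := norm_pos_iff.2 h1
      have := norm_nonneg (H p₀)
      linarith
    · have := norm_pos_iff.2 h1
      have := norm_nonneg (G p₀)
      linarith
  have hc : ContinuousAt (fun p => ‖G p‖ + ‖H p‖) p₀ :=
    hG.1.continuousAt.norm.add hH.1.continuousAt.norm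
  refine ⟨(‖G p₀‖ + ‖H p₀‖) / 2, by positivity, ?_⟩
  have h1 : ∀ᶠ p in 𝓝 p₀, (‖G p₀‖ + ‖H p₀‖) / 2 < ‖G p‖ + ‖H p‖ :=
    continuousAt_const.eventually_lt hc (by linarith)
  filter_upwards [h1, hG.2, hH.2] with p h2 h3 h4
  rw [h3, h4, norm_mul, norm_mul, ← mul_add, mul_comm]
  exact mul_le_mul_of_nonneg_left h2.le (norm_nonneg _)

/-- comparison of monomials -/
theorem mo_cmp {v m : F.I → ℕ} {a : ℝ} (ha : 0 ≤ a) {k : ℕ}
    (h : ∀ i, a * m i ≤ k * v i) (c : F.K) {p : ℂ × ℂ} (hp : p ∈ BD) :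
    ‖F.mo v c p‖ ^ k ≤ ‖F.mo m c p‖ ^ a := by
  have hpow : ∀ {x : ℝ} (_ : 0 ≤ x) (_ : x ≤ 1) {s t : ℕ}, a * t ≤ k * s →
      (x ^ s) ^ k ≤ (x ^ t) ^ a := by
    intro x hx hx1 s t hst
    rw [← pow_mul, ← Real.rpow_natCast, ← Real.rpow_natCast, ← Real.rpow_mul hx]
    refine Real.rpow_le_rpow_of_exponent_ge' hx hx1 (by positivity) ?_
    push_cast
    nlinarith
  unfold mo
  rw [norm_mul, norm_mul, norm_pow, norm_pow, norm_pow, norm_pow, mul_pow,
    Real.mul_rpow (by positivity) (by positivity)]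
  refine mul_le_mul (hpow (norm_nonneg _) hp.1 (h _)) (hpow (norm_nonneg _) hp.2 ?_)
    (by positivity) (by positivity)
  rcases h2 : F.e2 c with _ | i
  · simp [ex2]
  · exact h i

/-- (E4) -/
theorem PairD.e4 {q : F.I → ℝ} {k : ℕ} {m : F.I → ℕ} {g h : E3 → ℂ} (P : F.PairD q k m g h) :
    ∀ᶠ x in 𝓝 (0 : E3), f x = 0 → g x = 0 → h x = 0 → x = 0 := by
  have h1 := F.glob' (fun x => ¬ (g x = 0 ∧ h x = 0)) (fun c p₀ hp => by
    obtain ⟨b, hb, hlow⟩ := P.low hp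
    filter_upwards [hlow] with p h1 h2 h3 h4
    rw [h4.1, h4.2, norm_zero, add_zero] at h1
    have h5 : 0 < ‖F.mo m c p‖ := norm_pos_iff.2 (F.mo_ne m h2 h3)
    have : 0 < b * ‖F.mo m c p‖ := by positivity
    linarith)
  filter_upwards [h1] with x hx hfx hgx hhx
  by_contra h0
  exact hx h0 hfx ⟨hgx, hhx⟩

/-- (E1) -/
theorem InJ_of_ge (hf : AnalyticAt ℂ f 0) {q : F.I → ℝ} (hq : F.IsP q) (hpos : ∀ i, 0 < q i)
    {k : ℕ} {m : F.I → ℕ} (hm : ∀ i, (m i : ℝ) = k * q i) {g : E3 → ℂ} (hg : AnalyticAt ℂ g 0)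
    (hge : F.Ge g m) {p : ℝ} (hp : 1 ≤ p) (hpk : p < k) : InJ p f g := by
  refine InJ_of hf hg hge (by linarith) fun i => ?_
  rw [hm i]
  have h1 := hq.ge i
  have h2 := hpos i
  rcases le_or_gt (F.nu i : ℝ) 0 with h3 | h3
  · have : p * (F.nu i : ℝ) ≤ 0 := mul_nonpos_of_nonneg_of_nonpos (by linarith) h3
    have : 0 < (k : ℝ) * q i := mul_pos (by linarith) h2
    linarith
  · have : p * (F.nu i : ℝ) < k * F.nu i := mul_lt_mul_of_pos_right hpk h3
    have : (k : ℝ) * F.nu i ≤ k * q i := mul_le_mul_of_nonneg_left h1 (by linarith)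
    linarith

/-- orders of the elements of `J_a` -/
theorem Ord.ge_of_InJ (hf : AnalyticAt ℂ f 0) {q : F.I → ℝ} (hq : F.IsP q) {u : E3 → ℂ}
    (hu : AnalyticAt ℂ u 0) {v : F.I → ℕ} (hv : F.Ord u v) {a : ℝ} (ha : 1 ≤ a)
    (h1 : a = 1 → InJ 1 f u) (h2 : ∀ p : ℝ, 1 ≤ p → p < a → InJ p f u) (i : F.I) :
    a * q i ≤ v i := by
  have hge : ∀ i, (F.nu i : ℝ) ≤ a⁻¹ * v i := by
    intro i
    rw [inv_mul_eq_div, le_div_iff₀ (by linarith)]
    rcases eq_or_lt_of_le ha with h | h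
    · have := hv.lt_of_InJ hf hu one_pos (h1 h.symm) i
      rw [← h]; linarith
    · rcases le_or_gt (F.nu i : ℝ) 0 with h3 | h3
      · have h4 : (F.nu i : ℝ) * a ≤ 0 := mul_nonpos_of_nonpos_of_nonneg h3 (by linarith)
        have h5 : (0 : ℝ) ≤ v i := Nat.cast_nonneg _
        linarith
      · by_contra hcon
        push Not at hcon
        have h4 : (v i : ℝ) / F.nu i < a := by rw [div_lt_iff₀ h3]; linarith
        have h5 := hv.lt_of_InJ hf hu (s := max 1 ((v i : ℝ) / F.nu i))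
          (lt_of_lt_of_le one_pos (le_max_left _ _))
          (h2 _ (le_max_left _ _) (max_lt h h4)) i
        have h6 : (v i : ℝ) / F.nu i * F.nu i ≤ max 1 ((v i : ℝ) / F.nu i) * F.nu i :=
          mul_le_mul_of_nonneg_right (le_max_right _ _) h3.le
        rw [div_mul_cancel₀ _ h3.ne'] at h6
        linarith
  have hdg : ∀ i, dg F.M (fun i => a⁻¹ * (v i : ℝ)) i ≤ 0 := by
    intro i
    have h3 := dg_smul (M := F.M) a⁻¹ (fun i => (v i : ℝ)) i
    have h4 : (a⁻¹ • (fun i => (v i : ℝ))) = fun i => a⁻¹ * (v i : ℝ) := rfl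
    rw [h4] at h3
    rw [h3]
    exact mul_nonpos_of_nonneg_of_nonpos (by positivity) (hv.1 i)
  have h3 := hq.least hge hdg i
  rw [inv_mul_eq_div, le_div_iff₀ (by linarith)] at h3
  linarith

/-- (E2) -/
theorem PairD.e2 (hf : AnalyticAt ℂ f 0) (hI : Nonempty F.I) {q : F.I → ℝ} {k : ℕ}
    {m : F.I → ℕ} {g h : E3 → ℂ} (P : F.PairD q k m g h) {a : ℝ} (ha : 1 ≤ a) {u : E3 → ℂ}
    (hu : AnalyticAt ℂ u 0) (h1 : a = 1 → InJ 1 f u) (h2 : ∀ p : ℝ, 1 ≤ p → p < a → InJ p f u) :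
    ∃ C r : ℝ, 0 < r ∧ ∀ x, ‖x‖ < r → f x = 0 → ‖u x‖ ^ k ≤ C * (‖g x‖ + ‖h x‖) ^ a := by
  have hk : k ≠ 0 := by have := P.k2; omega
  by_cases hne : ∃ᶠ x in 𝓝 (0 : E3), f x = 0 ∧ u x ≠ 0
  · obtain ⟨v, hv⟩ := F.exists_Ord hu hne
    have hord := hv.ge_of_InJ hf P.isP hu ha h1 h2
    have hle : ∀ i, a * m i ≤ k * v i := by
      intro i
      rw [P.hm i]
      have h3 := mul_le_mul_of_nonneg_left (hord i) (Nat.cast_nonneg (α := ℝ) k)
      linarith
    have hvpos : ∀ i, 0 < v i := by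
      intro i
      have h3 := hord i
      have h4 := P.pos i
      have h5 : 0 < a * q i := by positivity
      have h6 : (0 : ℝ) < v i := lt_of_lt_of_le h5 h3
      exact_mod_cast h6
    obtain ⟨C, hC⟩ := F.glob (fun C x => ‖u x‖ ^ k ≤ C * (‖g x‖ + ‖h x‖) ^ a)
      (fun C C' x hCC h => h.trans (mul_le_mul_of_nonneg_right hCC (by positivity)))
      (fun c p₀ hp => by
        obtain ⟨b, hb, hlow⟩ := P.low hp
        obtain ⟨U, hU⟩ := hv.toGe c p₀ hp
        have hUb : ∀ᶠ p in 𝓝 p₀, ‖U p‖ < ‖U p₀‖ + 1 :=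
          hU.1.continuousAt.norm.eventually_lt continuousAt_const (by simp)
        refine ⟨(‖U p₀‖ + 1) ^ k / b ^ a, ?_⟩
        filter_upwards [hlow, hU.2, hUb] with p h3 h4 h5 hpB _
        have hba : 0 < b ^ a := Real.rpow_pos_of_pos hb a
        have e1 : (b * ‖F.mo m c p‖) ^ a ≤ (‖g (F.th c p)‖ + ‖h (F.th c p)‖) ^ a :=
          Real.rpow_le_rpow (by positivity) h3 (by linarith)
        rw [Real.mul_rpow hb.le (norm_nonneg _)] at e1
        have e2 := F.mo_cmp (by linarith : 0 ≤ a) hle c hpB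
        calc ‖u (F.th c p)‖ ^ k = ‖F.mo v c p‖ ^ k * ‖U p‖ ^ k := by
              rw [h4, norm_mul, mul_pow]
          _ ≤ ‖F.mo m c p‖ ^ a * (‖U p₀‖ + 1) ^ k :=
              mul_le_mul e2 (pow_le_pow_left₀ (norm_nonneg _) h5.le k) (by positivity)
                (by positivity)
          _ = (‖U p₀‖ + 1) ^ k / b ^ a * (b ^ a * ‖F.mo m c p‖ ^ a) := by
              field_simp
          _ ≤ _ := mul_le_mul_of_nonneg_left e1 (by positivity))
    obtain ⟨r, hr, hball⟩ := Metric.eventually_nhds_iff_ball.1 hC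
    refine ⟨C, r, hr, fun x hx hfx => ?_⟩
    by_cases hx0 : x = 0
    · have hu0 : u 0 = 0 := Fac.vanish hvpos hv.toGe hI
      have hg0 : g 0 = 0 := Fac.vanish P.m_pos P.geg hI
      have hh0 : h 0 = 0 := Fac.vanish P.m_pos P.geh hI
      rw [hx0, hu0, hg0, hh0, norm_zero, zero_pow hk, add_zero,
        Real.zero_rpow (by linarith), mul_zero]
    · exact hball x (by simpa using hx) hx0 hfx
  · rw [not_frequently] at hne
    obtain ⟨r, hr, hball⟩ := Metric.eventually_nhds_iff_ball.1 hne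
    refine ⟨0, r, hr, fun x hx hfx => ?_⟩
    have h3 : u x = 0 := by
      by_contra h
      exact hball x (by simpa using hx) ⟨hfx, h⟩
    rw [h3, norm_zero, zero_pow hk, zero_mul]

end Frame

end Crest.Agent.R257.Fr_808
end
end

-- ▼ part R257/Fr6_808

/-!
R257 / Fr6_808: generic pairs (Bertini through Sard).

* `bertini1` : in a finite family of holomorphic functions of one variable, one of which has no zeros,
  the general linear combination has only simple zeros (open dense set of coefficients);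
* `Frame.exists_pair` : base point freeness gives a generic pair `PairD`.
-/

set_option autoImplicit false

open Topology Filter MeasureTheory Set Function
open Crest.AlgGeometry.Germ

noncomputable section

namespace Crest.Agent.R257.Fr_808

open Crest.Agent.R257.Defs_219
open Crest.Agent.R257.Gr1_157

section OneVar

variable {J : Type} [Fintype J]

/-- the good coefficients -/
def goodC (K : Set ℂ) (γ : J → ℂ → ℂ) : Set (J → ℂ) :=
  {l | ∀ z ∈ K, ∑ j, l j * γ j z ≠ 0 ∨ ∑ j, l j * deriv (γ j) z ≠ 0}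

theorem goodC_open {U K : Set ℂ} (hU : IsOpen U) (hK : IsCompact K) (hKU : K ⊆ U)
    {γ : J → ℂ → ℂ} (hγ : ∀ j, DifferentiableOn ℂ (γ j) U) : IsOpen (goodC K γ) := by
  rw [isOpen_iff_eventually]
  intro l hl
  refine hK.eventually_forall_of_forall_eventually (P := fun (l : J → ℂ) (z : ℂ) =>
    ∑ j, l j * γ j z ≠ 0 ∨ ∑ j, l j * deriv (γ j) z ≠ 0) fun z hz => ?_
  have hc : ∀ {δ : J → ℂ → ℂ}, (∀ j, ContinuousAt (δ j) z) →
      ContinuousAt (fun p : (J → ℂ) × ℂ => ∑ j, p.1 j * δ j p.2) (l, z) := by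
    intro δ hδ
    refine tendsto_finset_sum _ fun j _ => ?_
    have h1 : ContinuousAt (fun p : (J → ℂ) × ℂ => p.1 j) (l, z) :=
      ((continuous_apply j).comp continuous_fst).continuousAt
    have h2 : ContinuousAt (fun p : (J → ℂ) × ℂ => δ j p.2) (l, z) :=
      ContinuousAt.comp (f := fun p : (J → ℂ) × ℂ => p.2) (g := δ j) (hδ j) continuousAt_snd
    exact h1.mul h2
  have hzU : U ∈ 𝓝 z := hU.mem_nhds (hKU hz)
  rcases hl z hz with h | h
  · filter_upwards [(hc fun j => (hγ j).continuousOn.continuousAt hzU).eventually_ne h] with p hp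
    exact Or.inl hp
  · filter_upwards [(hc fun j => ((hγ j).deriv hU).continuousOn.continuousAt hzU).eventually_ne
      h] with p hp
    exact Or.inr hp

theorem goodC_dense {U K : Set ℂ} (hU : IsOpen U) (hKU : K ⊆ U)
    {γ : J → ℂ → ℂ} (hγ : ∀ j, DifferentiableOn ℂ (γ j) U) {j₀ : J}
    (h0 : ∀ z ∈ U, γ j₀ z ≠ 0) : Dense (goodC K γ) := by
  classical
  intro l
  set A : ℂ → ℂ := fun z => ∑ j, l j * γ j z with hA
  have hAd : ∀ z ∈ U, HasDerivAt A (∑ j, l j * deriv (γ j) z) z := by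
    intro z hz
    refine HasDerivAt.fun_sum fun j _ => ?_
    exact ((hγ j).differentiableAt (hU.mem_nhds hz)).hasDerivAt.const_mul (l j)
  set Φ : ℂ → ℂ := fun z => - A z / γ j₀ z with hΦ
  set s : Set ℂ := {z | z ∈ U ∧ deriv Φ z = 0} with hs
  have hΦd : ∀ z ∈ U, HasDerivAt Φ ((-(∑ j, l j * deriv (γ j) z) * γ j₀ z -
      (- A z) * deriv (γ j₀) z) / (γ j₀ z) ^ 2) z := by
    intro z hz
    exact (hAd z hz).neg.div ((hγ j₀).differentiableAt (hU.mem_nhds hz)).hasDerivAt (h0 z hz)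
  have hnull : volume (Φ '' s) = 0 := by
    refine addHaar_image_eq_zero_of_det_fderivWithin_eq_zero (volume : Measure ℂ)
      (f' := fun _ => (0 : ℂ →L[ℝ] ℂ)) (fun z hz => ?_) (fun z _ => ?_)
    · have h1 : HasDerivAt Φ 0 z := by
        have h2 := (hΦd z hz.1).differentiableAt.hasDerivAt
        rwa [hz.2] at h2
      have h3 : HasFDerivAt Φ (0 : ℂ →L[ℂ] ℂ) z := by
        have h4 := h1.hasFDerivAt
        have h5 : ContinuousLinearMap.toSpanSingleton ℂ (0 : ℂ) = (0 : ℂ →L[ℂ] ℂ) := by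
          ext; simp
        rwa [h5] at h4
      exact (h3.restrictScalars ℝ).hasFDerivWithinAt
    · simp [ContinuousLinearMap.det]
  have hdense : Dense {t : ℂ | t ∉ Φ '' s} :=
    Measure.dense_of_ae (measure_eq_zero_iff_ae_notMem.1 hnull)
  set τ : ℂ → (J → ℂ) := fun t => l + Pi.single j₀ t with hτ
  have hτc : Continuous τ := by
    refine continuous_const.add ?_
    exact continuous_single (A := fun _ : J => ℂ) j₀
  have hτ0 : τ 0 = l := by simp [hτ]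
  have hsub : {t : ℂ | t ∉ Φ '' s} ⊆ τ ⁻¹' (goodC K γ) := by
    intro t ht z hz
    by_contra hcon
    push Not at hcon
    obtain ⟨h1, h2⟩ := hcon
    have hzU := hKU hz
    have hexp : ∀ δ : J → ℂ, ∑ j, τ t j * δ j = ∑ j, l j * δ j + t * δ j₀ := by
      intro δ
      simp only [hτ, Pi.add_apply, add_mul, Finset.sum_add_distrib]
      congr 1
      rw [Finset.sum_eq_single j₀]
      · simp
      · intro j _ hj
        rw [Pi.single_eq_of_ne hj, zero_mul]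
      · simp
    rw [hexp] at h1 h2
    apply ht
    have h3 : A z = - (t * γ j₀ z) := by
      rw [hA]; linear_combination h1
    refine ⟨z, ⟨hzU, ?_⟩, ?_⟩
    · rw [(hΦd z hzU).deriv, h3]
      have h4 : ∑ j, l j * deriv (γ j) z = - (t * deriv (γ j₀) z) := by
        linear_combination h2
      rw [h4]
      have h5 : (-(-(t * deriv (γ j₀) z)) * γ j₀ z - -(-(t * γ j₀ z)) * deriv (γ j₀) z) = 0 := by
        ring
      rw [h5, zero_div]
    · rw [hΦ]
      simp only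
      rw [h3, neg_neg, mul_div_assoc, div_self (h0 z hzU), mul_one]
  have h6 : (0 : ℂ) ∈ closure (τ ⁻¹' (goodC K γ)) := closure_mono hsub (hdense 0)
  have h7 := hτc.continuousAt.continuousWithinAt.mem_closure_image h6
  rw [hτ0] at h7
  exact closure_mono (image_preimage_subset _ _) h7

/-- the point version -/
theorem point_good {d : J → ℂ} {j₀ : J} (h0 : d j₀ ≠ 0) :
    IsOpen {l : J → ℂ | ∑ j, l j * d j ≠ 0} ∧ Dense {l : J → ℂ | ∑ j, l j * d j ≠ 0} := by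
  have h1 : {l : J → ℂ | ∑ j, l j * d j ≠ 0} = goodC {(0 : ℂ)} (fun j _ => d j) := by
    ext l
    simp [goodC]
  rw [h1]
  exact ⟨goodC_open isOpen_univ isCompact_singleton (subset_univ _)
      (fun j => differentiableOn_const _),
    goodC_dense isOpen_univ (subset_univ _) (fun j => differentiableOn_const _)
      (j₀ := j₀) (fun _ _ => h0)⟩

end OneVar

namespace Frame

variable {f : E3 → ℂ} (F : Frame f)

/-- linear combination -/
def comb {J : Type} [Fintype J] (γ : J → E3 → ℂ) (l : J → ℂ) (x : E3) : ℂ := ∑ j, l j * γ j x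

variable {F}

theorem Fac.comb {J : Type} [Fintype J] {γ : J → E3 → ℂ} {m : F.I → ℕ} {c : F.K} {p : ℂ × ℂ}
    {G : J → ℂ × ℂ → ℂ} (h : ∀ j, F.Fac (γ j) m c p (G j)) (l : J → ℂ) :
    F.Fac (comb γ l) m c p (fun p => ∑ j, l j * G j p) := by
  refine ⟨?_, ?_⟩
  · exact Finset.analyticAt_fun_sum _ fun j _ => analyticAt_const.mul (h j).1
  · have h1 : ∀ᶠ p' in 𝓝 p, ∀ j, γ j (F.th c p') = F.mo m c p' * G j p' :=
      Filter.eventually_all.2 fun j => (h j).2
    filter_upwards [h1] with p' hp'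
    rw [Frame.comb, Finset.mul_sum]
    refine Finset.sum_congr rfl fun j _ => ?_
    rw [hp' j]; ring

variable (F)

/-- simple zero on the special fibre, at a smooth point -/
def Sm (c : F.K) (p : ℂ × ℂ) (G : ℂ × ℂ → ℂ) : Prop :=
  (p.1 = 0 ∧ p.2 ≠ 0 ∧ deriv (fun z => G (0, z)) p.2 ≠ 0) ∨
    (F.e2 c ≠ none ∧ p.2 = 0 ∧ p.1 ≠ 0 ∧ deriv (fun z => G (z, 0)) p.1 ≠ 0)

theorem diff1 {G : ℂ × ℂ → ℂ} {z : ℂ} (h : AnalyticAt ℂ G (0, z)) :
    DifferentiableAt ℂ (fun z => G (0, z)) z := by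
  have h2 : DifferentiableAt ℂ (fun z : ℂ => ((0 : ℂ), z)) z := by fun_prop
  exact DifferentiableAt.comp (g := G) (f := fun z : ℂ => ((0 : ℂ), z)) z h.differentiableAt h2

theorem diff2 {G : ℂ × ℂ → ℂ} {z : ℂ} (h : AnalyticAt ℂ G (z, 0)) :
    DifferentiableAt ℂ (fun z => G (z, 0)) z := by
  have h2 : DifferentiableAt ℂ (fun z : ℂ => (z, (0 : ℂ))) z := by fun_prop
  exact DifferentiableAt.comp (g := G) (f := fun z : ℂ => (z, (0 : ℂ))) z h.differentiableAt h2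

variable {F}

/-- first function: simple zeros -/
theorem gen1 {J : Type} [Fintype J] {γ : J → E3 → ℂ} {m : F.I → ℕ} (hge : ∀ j, F.Ge (γ j) m)
    (hgen : ∀ c, ∀ p ∈ F.SF c, ∃ j, F.Gen (γ j) m c p) (c : F.K) :
    ∃ O : Set (J → ℂ), IsOpen O ∧ Dense O ∧ ∀ l ∈ O, ∀ p ∈ F.SF c,
      ∃ G, F.Fac (comb γ l) m c p G ∧ (G p ≠ 0 ∨ F.Sm c p G) := by
  suffices h : ∃ O : Set (J → ℂ), IsOpen O ∧ Dense O ∧ ∀ l ∈ O, ∀ p ∈ F.SF c, p ∈ F.SF c →
      ∃ G, F.Fac (comb γ l) m c p G ∧ (G p ≠ 0 ∨ F.Sm c p G) by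
    obtain ⟨O, h1, h2, h3⟩ := h
    exact ⟨O, h1, h2, fun l hl p hp => h3 l hl p hp hp⟩
  refine (F.isCompact_SF c).induction_on
    (p := fun t => ∃ O : Set (J → ℂ), IsOpen O ∧ Dense O ∧ ∀ l ∈ O, ∀ p ∈ t, p ∈ F.SF c →
      ∃ G, F.Fac (comb γ l) m c p G ∧ (G p ≠ 0 ∨ F.Sm c p G)) ?_ ?_ ?_ ?_
  · exact ⟨univ, isOpen_univ, dense_univ, fun _ _ p hp => absurd hp (notMem_empty p)⟩
  · rintro s t hst ⟨O, h1, h2, h3⟩
    exact ⟨O, h1, h2, fun l hl p hp => h3 l hl p (hst hp)⟩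
  · rintro s t ⟨O, h1, h2, h3⟩ ⟨O', h1', h2', h3'⟩
    refine ⟨O ∩ O', h1.inter h1', h2.inter_of_isOpen_left h2' h1, ?_⟩
    rintro l ⟨hl, hl'⟩ p (hp | hp)
    · exact h3 l hl p hp
    · exact h3' l hl' p hp
  · intro p₀ hp₀
    have hex : ∀ j, ∃ G, F.Fac (γ j) m c p₀ G := fun j => hge j c p₀ hp₀
    choose G hG using hex
    obtain ⟨j₀, G', hG', hG'0⟩ := hgen c p₀ hp₀
    have hG0 : G j₀ p₀ ≠ 0 := by rw [(hG j₀).unique hG']; exact hG'0
    have hev : ∀ᶠ p in 𝓝 p₀, (∀ j, F.Fac (γ j) m c p (G j)) ∧ G j₀ p ≠ 0 :=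
      (Filter.eventually_all.2 fun j => (hG j).eventually).and
        ((hG j₀).1.continuousAt.eventually_ne hG0)
    obtain ⟨δ, hδ, hball⟩ := Metric.eventually_nhds_iff_ball.1 hev
    set K1 : Set ℂ := {z | ((0 : ℂ), z) ∈ Metric.closedBall p₀ (δ / 2)} with hK1
    set U1 : Set ℂ := {z | ((0 : ℂ), z) ∈ Metric.ball p₀ δ} with hU1
    set K2 : Set ℂ := {z | (z, (0 : ℂ)) ∈ Metric.closedBall p₀ (δ / 2)} with hK2
    set U2 : Set ℂ := {z | (z, (0 : ℂ)) ∈ Metric.ball p₀ δ} with hU2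
    have hcb : Metric.closedBall p₀ (δ / 2) ⊆ Metric.ball p₀ δ :=
      Metric.closedBall_subset_ball (by linarith)
    have hK1c : IsCompact K1 := by
      refine (isCompact_closedBall p₀.2 (δ / 2)).of_isClosed_subset
        (Metric.isClosed_closedBall.preimage (by fun_prop : Continuous fun z : ℂ =>
          ((0 : ℂ), z))) fun z hz => ?_
      have h1 : dist ((0 : ℂ), z) p₀ ≤ δ / 2 := hz
      rw [Metric.mem_closedBall]
      exact (le_max_right _ _).trans h1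
    have hK2c : IsCompact K2 := by
      refine (isCompact_closedBall p₀.1 (δ / 2)).of_isClosed_subset
        (Metric.isClosed_closedBall.preimage (by fun_prop : Continuous fun z : ℂ =>
          (z, (0 : ℂ)))) fun z hz => ?_
      have h1 : dist (z, (0 : ℂ)) p₀ ≤ δ / 2 := hz
      rw [Metric.mem_closedBall]
      exact (le_max_left _ _).trans h1
    have hU1o : IsOpen U1 := Metric.isOpen_ball.preimage (by fun_prop : Continuous fun z : ℂ =>
          ((0 : ℂ), z))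
    have hU2o : IsOpen U2 := Metric.isOpen_ball.preimage (by fun_prop : Continuous fun z : ℂ =>
          (z, (0 : ℂ)))
    have hd1 : ∀ j, DifferentiableOn ℂ (fun z => G j (0, z)) U1 := fun j z hz =>
      (diff1 ((hball _ hz).1 j).1).differentiableWithinAt
    have hd2 : ∀ j, DifferentiableOn ℂ (fun z => G j (z, 0)) U2 := fun j z hz =>
      (diff2 ((hball _ hz).1 j).1).differentiableWithinAt
    set O1 := goodC K1 (fun j z => G j (0, z)) with hO1
    set O2 := goodC K2 (fun j z => G j (z, 0)) with hO2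
    have hO1o : IsOpen O1 := goodC_open hU1o hK1c (fun z hz => hcb hz) hd1
    have hO2o : IsOpen O2 := goodC_open hU2o hK2c (fun z hz => hcb hz) hd2
    have hO1d : Dense O1 := goodC_dense hU1o (fun z hz => hcb hz) hd1 (j₀ := j₀)
      fun z hz => (hball _ hz).2
    have hO2d : Dense O2 := goodC_dense hU2o (fun z hz => hcb hz) hd2 (j₀ := j₀)
      fun z hz => (hball _ hz).2
    obtain ⟨O3, hO3o, hO3d, hO3⟩ : ∃ O3 : Set (J → ℂ), IsOpen O3 ∧ Dense O3 ∧
        (((0 : ℂ), (0 : ℂ)) ∈ Metric.closedBall p₀ (δ / 2) → ∀ l ∈ O3,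
          ∑ j, l j * G j (0, 0) ≠ 0) := by
      by_cases h : ((0 : ℂ), (0 : ℂ)) ∈ Metric.closedBall p₀ (δ / 2)
      · have h1 := point_good (d := fun j => G j (0, 0)) (j₀ := j₀) (hball _ (hcb h)).2
        exact ⟨_, h1.1, h1.2, fun _ l hl => hl⟩
      · exact ⟨univ, isOpen_univ, dense_univ, fun h' => absurd h' h⟩
    refine ⟨Metric.closedBall p₀ (δ / 2), mem_nhdsWithin_of_mem_nhds
      (Metric.closedBall_mem_nhds p₀ (by linarith)), O1 ∩ O2 ∩ O3, (hO1o.inter hO2o).inter hO3o,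
      (hO1d.inter_of_isOpen_left hO2d hO1o).inter_of_isOpen_left hO3d (hO1o.inter hO2o), ?_⟩
    rintro l ⟨⟨hl1, hl2⟩, hl3⟩ p hp hpS
    have hfac := (hball p (hcb hp)).1
    refine ⟨fun p => ∑ j, l j * G j p, Fac.comb hfac l, ?_⟩
    by_cases h1 : p.1 = 0
    · have hpe : p = (0, p.2) := Prod.ext h1 rfl
      have hz : p.2 ∈ K1 := by
        show ((0 : ℂ), p.2) ∈ Metric.closedBall p₀ (δ / 2)
        rw [← hpe]; exact hp
      rcases hl1 p.2 hz with h2 | h2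
      · left
        rw [hpe]; exact h2
      · by_cases h3 : p.2 = 0
        · left
          have hp0 : p = (0, 0) := Prod.ext h1 h3
          rw [hp0]
          rw [hp0] at hp
          exact hO3 hp l hl3
        · right; left
          refine ⟨h1, h3, ?_⟩
          have h4 : HasDerivAt (fun z => ∑ j, l j * G j (0, z))
              (∑ j, l j * deriv (fun z => G j (0, z)) p.2) p.2 := by
            refine HasDerivAt.fun_sum fun j _ => ?_
            refine HasDerivAt.const_mul (l j) ?_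
            exact ((hd1 j).differentiableAt (hU1o.mem_nhds (hcb hz))).hasDerivAt
          rw [h4.deriv]
          exact h2
    · rcases hpS.2 with h2 | ⟨h2, h3⟩
      · exact absurd h2 h1
      · have hpe : p = (p.1, 0) := Prod.ext rfl h3
        have hz : p.1 ∈ K2 := by
          show (p.1, (0 : ℂ)) ∈ Metric.closedBall p₀ (δ / 2)
          rw [← hpe]; exact hp
        rcases hl2 p.1 hz with h4 | h4
        · left
          rw [hpe]; exact h4
        · right; right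
          refine ⟨h2, h3, h1, ?_⟩
          have h5 : HasDerivAt (fun z => ∑ j, l j * G j (z, 0))
              (∑ j, l j * deriv (fun z => G j (z, 0)) p.1) p.1 := by
            refine HasDerivAt.fun_sum fun j _ => ?_
            refine HasDerivAt.const_mul (l j) ?_
            exact ((hd2 j).differentiableAt (hU2o.mem_nhds (hcb hz))).hasDerivAt
          rw [h5.deriv]
          exact h4

/-- second function: non zero at the zeros of the first -/
theorem gen2 {J : Type} [Fintype J] {γ : J → E3 → ℂ} {m : F.I → ℕ} (hge : ∀ j, F.Ge (γ j) m)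
    (hgen : ∀ c, ∀ p ∈ F.SF c, ∃ j, F.Gen (γ j) m c p) (c : F.K) {g : E3 → ℂ}
    (hg : ∀ p ∈ F.SF c, ∃ G, F.Fac g m c p G ∧ (G p ≠ 0 ∨ F.Sm c p G)) :
    ∃ O : Set (J → ℂ), IsOpen O ∧ Dense O ∧ ∀ l ∈ O, ∀ p ∈ F.SF c,
      ∃ G H, F.Fac g m c p G ∧ F.Fac (comb γ l) m c p H ∧ (G p ≠ 0 ∨ H p ≠ 0 ∧ F.Sm c p G) := by
  suffices h : ∃ O : Set (J → ℂ), IsOpen O ∧ Dense O ∧ ∀ l ∈ O, ∀ p ∈ F.SF c, p ∈ F.SF c →
      ∃ G H, F.Fac g m c p G ∧ F.Fac (comb γ l) m c p H ∧ (G p ≠ 0 ∨ H p ≠ 0 ∧ F.Sm c p G) by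
    obtain ⟨O, h1, h2, h3⟩ := h
    exact ⟨O, h1, h2, fun l hl p hp => h3 l hl p hp hp⟩
  -- some factorisation of the second function exists everywhere
  have hH : ∀ l : J → ℂ, ∀ p ∈ F.SF c, ∃ H, F.Fac (comb γ l) m c p H := by
    intro l p hp
    choose H hH using fun j => hge j c p hp
    exact ⟨_, Fac.comb hH l⟩
  refine (F.isCompact_SF c).induction_on
    (p := fun t => ∃ O : Set (J → ℂ), IsOpen O ∧ Dense O ∧ ∀ l ∈ O, ∀ p ∈ t, p ∈ F.SF c →
      ∃ G H, F.Fac g m c p G ∧ F.Fac (comb γ l) m c p H ∧ (G p ≠ 0 ∨ H p ≠ 0 ∧ F.Sm c p G))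
      ?_ ?_ ?_ ?_
  · exact ⟨univ, isOpen_univ, dense_univ, fun _ _ p hp => absurd hp (notMem_empty p)⟩
  · rintro s t hst ⟨O, h1, h2, h3⟩
    exact ⟨O, h1, h2, fun l hl p hp => h3 l hl p (hst hp)⟩
  · rintro s t ⟨O, h1, h2, h3⟩ ⟨O', h1', h2', h3'⟩
    refine ⟨O ∩ O', h1.inter h1', h2.inter_of_isOpen_left h2' h1, ?_⟩
    rintro l ⟨hl, hl'⟩ p (hp | hp)
    · exact h3 l hl p hp
    · exact h3' l hl' p hp
  · intro p₀ hp₀
    obtain ⟨G, hG, hor⟩ := hg p₀ hp₀
    by_cases hG0 : G p₀ ≠ 0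
    · refine ⟨{p | F.Fac g m c p G ∧ G p ≠ 0}, mem_nhdsWithin_of_mem_nhds
        (hG.eventually.and (hG.1.continuousAt.eventually_ne hG0)), univ, isOpen_univ, dense_univ,
        fun l _ p hp hpS => ?_⟩
      obtain ⟨H, hH'⟩ := hH l p hpS
      exact ⟨G, H, hp.1, hH', Or.inl hp.2⟩
    · have hSm : F.Sm c p₀ G := hor.resolve_left hG0
      -- near `p₀` the only zero on the special fibre is `p₀`
      have hiso : ∀ᶠ p in 𝓝 p₀, p ∈ F.SF c → p ≠ p₀ → G p ≠ 0 := by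
        have hG0' : G p₀ = 0 := not_not.1 hG0
        rcases hSm with ⟨h1, h2, h3⟩ | ⟨h0, h1, h2, h3⟩
        · have hpe : p₀ = (0, p₀.2) := Prod.ext h1 rfl
          have hda : DifferentiableAt ℂ (fun z => G (0, z)) p₀.2 := by
            refine diff1 ?_
            rw [← hpe]; exact hG.1
          have h4 : ∀ᶠ z in 𝓝[≠] p₀.2, G (0, z) ≠ 0 := hda.hasDerivAt.eventually_ne h3
          rw [eventually_nhdsWithin_iff] at h4
          have h5 : ∀ᶠ p : ℂ × ℂ in 𝓝 p₀, p.2 ∈ ({p₀.2} : Set ℂ)ᶜ → G (0, p.2) ≠ 0 :=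
            continuousAt_snd.eventually h4
          have h6 : ∀ᶠ p : ℂ × ℂ in 𝓝 p₀, p.2 ≠ 0 := continuousAt_snd.eventually_ne h2
          filter_upwards [h5, h6] with p h7 h8 hpS hne
          have h9 : p.1 = 0 := by
            rcases hpS.2 with h | h
            · exact h
            · exact absurd h.2 h8
          have hpe' : p = (0, p.2) := Prod.ext h9 rfl
          rw [hpe']
          refine h7 fun h10 => hne ?_
          have h11 : p.2 = p₀.2 := h10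
          rw [hpe', hpe, h11]
        · have hpe : p₀ = (p₀.1, 0) := Prod.ext rfl h1
          have hda : DifferentiableAt ℂ (fun z => G (z, 0)) p₀.1 := by
            refine diff2 ?_
            rw [← hpe]; exact hG.1
          have h4 : ∀ᶠ z in 𝓝[≠] p₀.1, G (z, 0) ≠ 0 := hda.hasDerivAt.eventually_ne h3
          rw [eventually_nhdsWithin_iff] at h4
          have h5 : ∀ᶠ p : ℂ × ℂ in 𝓝 p₀, p.1 ∈ ({p₀.1} : Set ℂ)ᶜ → G (p.1, 0) ≠ 0 :=
            continuousAt_fst.eventually h4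
          have h6 : ∀ᶠ p : ℂ × ℂ in 𝓝 p₀, p.1 ≠ 0 := continuousAt_fst.eventually_ne h2
          filter_upwards [h5, h6] with p h7 h8 hpS hne
          have h9 : p.2 = 0 := by
            rcases hpS.2 with h | h
            · exact absurd h h8
            · exact h.2
          have hpe' : p = (p.1, 0) := Prod.ext rfl h9
          rw [hpe']
          refine h7 fun h10 => hne ?_
          have h11 : p.1 = p₀.1 := h10
          rw [hpe', hpe, h11]
      choose Hj hHj using fun j => hge j c p₀ hp₀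
      obtain ⟨j₀, G', hG', hG'0⟩ := hgen c p₀ hp₀
      have hHj0 : Hj j₀ p₀ ≠ 0 := by rw [(hHj j₀).unique hG']; exact hG'0
      have hpg := point_good (d := fun j => Hj j p₀) (j₀ := j₀) hHj0
      refine ⟨{p | F.Fac g m c p G ∧ (p ∈ F.SF c → p ≠ p₀ → G p ≠ 0)},
        mem_nhdsWithin_of_mem_nhds (hG.eventually.and hiso), _, hpg.1, hpg.2,
        fun l hl p hp hpS => ?_⟩
      by_cases hpp : p = p₀
      · rw [hpp]
        exact ⟨G, _, hG, Fac.comb hHj l, Or.inr ⟨hl, hSm⟩⟩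
      · obtain ⟨H, hH'⟩ := hH l p hpS
        exact ⟨G, H, hp.1, hH', Or.inl (hp.2 hpS hpp)⟩

/-- a finite base point free family -/
theorem fin_family {m : F.I → ℕ} (hb : ∀ c, ∀ p₀ ∈ F.SF c, ∃ g : E3 → ℂ, AnalyticAt ℂ g 0 ∧
    F.Ge g m ∧ F.Gen g m c p₀) : ∃ (J : Type) (_ : Fintype J) (γ : J → E3 → ℂ),
      (∀ j, AnalyticAt ℂ (γ j) 0) ∧ (∀ j, F.Ge (γ j) m) ∧
      ∀ c, ∀ p ∈ F.SF c, ∃ j, F.Gen (γ j) m c p := by
  have key : ∀ c, ∃ S : Set (E3 → ℂ), S.Finite ∧ (∀ g ∈ S, AnalyticAt ℂ g 0 ∧ F.Ge g m) ∧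
      ∀ p ∈ F.SF c, ∃ g ∈ S, F.Gen g m c p := by
    intro c
    refine (F.isCompact_SF c).induction_on
      (p := fun t => ∃ S : Set (E3 → ℂ), S.Finite ∧ (∀ g ∈ S, AnalyticAt ℂ g 0 ∧ F.Ge g m) ∧
        ∀ p ∈ t, ∃ g ∈ S, F.Gen g m c p) ?_ ?_ ?_ ?_
    · exact ⟨∅, finite_empty, by simp, by simp⟩
    · rintro s t hst ⟨S, h1, h2, h3⟩
      exact ⟨S, h1, h2, fun p hp => h3 p (hst hp)⟩
    · rintro s t ⟨S, h1, h2, h3⟩ ⟨S', h1', h2', h3'⟩
      refine ⟨S ∪ S', h1.union h1', ?_, ?_⟩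
      · rintro g (hg | hg)
        · exact h2 g hg
        · exact h2' g hg
      · rintro p (hp | hp)
        · obtain ⟨g, hg, hgen⟩ := h3 p hp
          exact ⟨g, Or.inl hg, hgen⟩
        · obtain ⟨g, hg, hgen⟩ := h3' p hp
          exact ⟨g, Or.inr hg, hgen⟩
    · intro p₀ hp₀
      obtain ⟨g, hg, hge, G, hG, hG0⟩ := hb c p₀ hp₀
      refine ⟨{p | F.Fac g m c p G ∧ G p ≠ 0}, mem_nhdsWithin_of_mem_nhds
        (hG.eventually.and (hG.1.continuousAt.eventually_ne hG0)), {g}, finite_singleton g, ?_, ?_⟩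
      · rintro g' hg'
        rw [mem_singleton_iff] at hg'
        rw [hg']
        exact ⟨hg, hge⟩
      · intro p hp
        exact ⟨g, rfl, G, hp.1, hp.2⟩
  choose S hS1 hS2 hS3 using key
  have hfin : (⋃ c, S c).Finite := finite_iUnion hS1
  have : Finite (⋃ c, S c : Set (E3 → ℂ)) := hfin.to_subtype
  refine ⟨(⋃ c, S c : Set (E3 → ℂ)), Fintype.ofFinite _, fun g => g.1, ?_, ?_, ?_⟩
  · rintro ⟨g, hg⟩
    obtain ⟨c, hc⟩ := mem_iUnion.1 hg
    exact (hS2 c g hc).1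
  · rintro ⟨g, hg⟩
    obtain ⟨c, hc⟩ := mem_iUnion.1 hg
    exact (hS2 c g hc).2
  · intro c p hp
    obtain ⟨g, hg, hgen⟩ := hS3 c p hp
    exact ⟨⟨g, mem_iUnion.2 ⟨c, hg⟩⟩, hgen⟩

theorem comb_an {J : Type} [Fintype J] {γ : J → E3 → ℂ} (h : ∀ j, AnalyticAt ℂ (γ j) 0)
    (l : J → ℂ) : AnalyticAt ℂ (comb γ l) 0 :=
  Finset.analyticAt_fun_sum _ fun j _ => analyticAt_const.mul (h j)


end Frame

end Crest.Agent.R257.Fr_808
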