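import Crest.Agent.R257.HoB_843

/-!
# Row 257, task C-WT (helper101): calculus of the Levi form `lvE`

`lvE_add`, `lvE_sub`, `lvE_const_mul`, `lvE_const`, `lvE_real` (composition with a function of one real
variable), `lvE_sq` (`‖F‖²`), `lvE_log` (`log ‖F‖²` is pluriharmonic), `lvE_log2`
(`log (‖F‖² + ‖G‖²)` is psh), `lvE_comp1` (`H ∘ g`, `g` holomorphic with values in `ℂ`),
`two_forms` (lower bound of `|A w|² + |B w|²` from the determinant);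
local weights: `tube` (`y log |s|² + H (g) + ε |s|²`), `node`
(`y₁ log |a|² + y₂ log |b|² + t log (|a|² + |b|²) + ε (|a|² + |b|²) + A`).
-/

set_option autoImplicit false
set_option linter.unusedSectionVars false

noncomputable section

open Set Filter Topology ComplexConjugate

namespace Crest.Agent.R257.Glue2_101

open Crest.Agent.R257.HoB_843

variable {E : Type*} [NormedAddCommGroup E] [NormedSpace ℂ E] [NormedSpace ℝ E]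
  [IsScalarTower ℝ ℂ E]

section calc1

variable {u v : E → ℝ} {z : E}

lemma ev_diff (hu : ContDiffAt ℝ (⊤ : ℕ∞) u z) : ∀ᶠ y in 𝓝 z, DifferentiableAt ℝ u y := by
  have h2 : ContDiffAt ℝ 1 u z := hu.of_le (by norm_cast)
  exact (h2.eventually (by simp)).mono fun y hy => hy.differentiableAt (by norm_num)

lemma diff_fd (hu : ContDiffAt ℝ (⊤ : ℕ∞) u z) : DifferentiableAt ℝ (fderiv ℝ u) z := by
  have h2 : ContDiffAt ℝ 2 u z := hu.of_le (by norm_cast)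
  exact (h2.fderiv_right (m := 1) (by norm_num)).differentiableAt (by norm_num)

lemma lvE_add (hu : ContDiffAt ℝ (⊤ : ℕ∞) u z) (hv : ContDiffAt ℝ (⊤ : ℕ∞) v z) (w : E) :
    lvE (fun y => u y + v y) z w = lvE u z w + lvE v z w := by
  have e : fderiv ℝ (fun y => u y + v y) =ᶠ[𝓝 z] fun y => fderiv ℝ u y + fderiv ℝ v y := by
    filter_upwards [ev_diff hu, ev_diff hv] with y h1 h2
    exact fderiv_add h1 h2
  have e2 : fderiv ℝ (fun y => fderiv ℝ u y + fderiv ℝ v y) z =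
      fderiv ℝ (fderiv ℝ u) z + fderiv ℝ (fderiv ℝ v) z := fderiv_add (diff_fd hu) (diff_fd hv)
  unfold lvE
  rw [e.fderiv_eq, e2]
  simp only [_root_.add_apply]
  ring

lemma lvE_const (c : ℝ) (z w : E) : lvE (fun _ : E => c) z w = 0 := by
  unfold lvE
  have e : fderiv ℝ (fun _ : E => c) = fun _ => 0 := by
    funext y; exact fderiv_const_apply c
  rw [e, fderiv_const_apply]
  simp


lemma lvE_const_mul (hu : ContDiffAt ℝ (⊤ : ℕ∞) u z) (c : ℝ) (w : E) :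
    lvE (fun y => c * u y) z w = c * lvE u z w := by
  have e : fderiv ℝ (fun y => c * u y) =ᶠ[𝓝 z] fun y => c • fderiv ℝ u y := by
    filter_upwards [ev_diff hu] with y h1
    exact fderiv_const_mul h1 c
  have e2 : fderiv ℝ (fun y => c • fderiv ℝ u y) z = c • fderiv ℝ (fderiv ℝ u) z :=
    fderiv_const_smul (diff_fd hu) c
  unfold lvE
  rw [e.fderiv_eq, e2]
  simp only [_root_.smul_apply, smul_eq_mul]
  ring

/-- composition with a function of one real variable -/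
lemma lvE_real (hu : ContDiffAt ℝ (⊤ : ℕ∞) u z) {φ φ₁ : ℝ → ℝ} {φ₂ : ℝ}
    (h1 : ∀ᶠ t in 𝓝 (u z), HasDerivAt φ (φ₁ t) t) (h2 : HasDerivAt φ₁ φ₂ (u z)) (w : E) :
    lvE (fun y => φ (u y)) z w = φ₁ (u z) * lvE u z w +
      φ₂ * ((fderiv ℝ u z w) ^ 2 + (fderiv ℝ u z (Complex.I • w)) ^ 2) / 4 := by
  have e : fderiv ℝ (fun y => φ (u y)) =ᶠ[𝓝 z] fun y => φ₁ (u y) • fderiv ℝ u y := by
    filter_upwards [ev_diff hu, hu.continuousAt.eventually h1] with y hy1 hy2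
    exact (hy2.comp_hasFDerivAt y hy1.hasFDerivAt).fderiv
  have e2 : HasFDerivAt (fun y => φ₁ (u y) • fderiv ℝ u y)
      (φ₁ (u z) • fderiv ℝ (fderiv ℝ u) z + (φ₂ • fderiv ℝ u z).smulRight (fderiv ℝ u z)) z :=
    (h2.comp_hasFDerivAt z (ev_diff hu).self_of_nhds.hasFDerivAt).smul (diff_fd hu).hasFDerivAt
  unfold lvE
  rw [e.fderiv_eq, e2.fderiv]
  simp only [_root_.add_apply, _root_.smul_apply, ContinuousLinearMap.smulRight_apply, smul_eq_mul]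
  ring

end calc1

/-! ### holomorphic functions -/

section hol

lemma sm_of_hol {F : E → ℂ} {z : E} (hF : ContDiffAt ℂ (⊤ : ℕ∞) F z) :
    ContDiffAt ℝ (⊤ : ℕ∞) (fun y => ‖F y‖ ^ 2) z :=
  (hF.restrict_scalars ℝ).norm_sq ℝ

lemma two_le_top : (2 : WithTop ℕ∞) ≤ ((⊤ : ℕ∞) : WithTop ℕ∞) := by norm_cast

/-- `H ∘ g` -/
lemma lvE_comp1 {g : E → ℂ} {H : ℂ → ℝ} {z : E} (hg : ContDiffAt ℂ (⊤ : ℕ∞) g z)
    (hH : ContDiffAt ℝ (⊤ : ℕ∞) H (g z)) (w : E) :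
    lvE (fun y => H (g y)) z w = lvE H (g z) 1 * ‖fderiv ℂ g z w‖ ^ 2 := by
  have h := lvE_comp (T := g) (u := H) (z := z) (hg.of_le two_le_top) (hH.of_le two_le_top) w
  have h' : lvE (fun y => H (g y)) z w = lvE H (g z) (fderiv ℂ g z w) := h
  rw [h']
  set c : ℂ := fderiv ℂ g z w with hc
  set B := fderiv ℝ (fderiv ℝ H) (g z) with hB
  have hsym : ∀ a b, B a b = B b a := by
    intro a b
    have h2 : ContDiffAt ℝ (minSmoothness ℝ 2) H (g z) := by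
      rw [minSmoothness_of_isRCLikeNormedField]
      exact hH.of_le two_le_top
    exact (h2.isSymmSndFDerivAt (le_refl _)).eq a b
  have ec : c = (c.re : ℝ) • (1 : ℂ) + (c.im : ℝ) • Complex.I := by
    simp [Complex.re_add_im]
  have eic : Complex.I • c = (-c.im : ℝ) • (1 : ℂ) + (c.re : ℝ) • Complex.I := by
    apply Complex.ext <;> simp
  have ei1 : Complex.I • (1 : ℂ) = Complex.I := by simp
  have en : ‖c‖ ^ 2 = c.re ^ 2 + c.im ^ 2 := by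
    rw [← Complex.normSq_eq_norm_sq, Complex.normSq_apply]; ring
  unfold lvE
  rw [← hB, ei1, eic, en]
  conv_lhs => rw [show B c c = B ((c.re : ℝ) • (1 : ℂ) + (c.im : ℝ) • Complex.I)
    ((c.re : ℝ) • (1 : ℂ) + (c.im : ℝ) • Complex.I) from by rw [← ec]]
  simp only [map_add, map_smul, _root_.add_apply, _root_.smul_apply, smul_eq_mul]
  rw [hsym Complex.I 1]
  ring

lemma lvE_nsq (ζ v : ℂ) : lvE (fun x : ℂ => ‖x‖ ^ 2) ζ v = ‖v‖ ^ 2 := by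
  have e : fderiv ℝ (fun x : ℂ => ‖x‖ ^ 2) = fun x => (2 : ℝ) • innerSL ℝ x := by
    funext x
    rw [fderiv_norm_sq_apply]
    ext v
    simp
    ring
  have e2 : HasFDerivAt (fun x : ℂ => (2 : ℝ) • innerSL ℝ x)
      ((2 : ℝ) • (innerSL ℝ : ℂ →L[ℝ] ℂ →L[ℝ] ℝ)) ζ :=
    ((innerSL ℝ : ℂ →L[ℝ] ℂ →L[ℝ] ℝ).hasFDerivAt).const_smul (2 : ℝ)
  have hin : ∀ v : ℂ, ((innerSL ℝ : ℂ →L[ℝ] ℂ →L[ℝ] ℝ) v) v = ‖v‖ ^ 2 := fun v =>
    real_inner_self_eq_norm_sq v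
  unfold lvE
  rw [e, e2.fderiv]
  simp only [_root_.smul_apply, smul_eq_mul, hin, norm_mul, Complex.norm_I, one_mul]
  ring

/-- `‖F‖²` -/
lemma lvE_sq {F : E → ℂ} {z : E} (hF : ContDiffAt ℂ (⊤ : ℕ∞) F z) (w : E) :
    lvE (fun y => ‖F y‖ ^ 2) z w = ‖fderiv ℂ F z w‖ ^ 2 := by
  have h := lvE_comp1 (H := fun x : ℂ => ‖x‖ ^ 2) hF (contDiff_norm_sq ℝ).contDiffAt w
  rw [h, lvE_nsq]
  simp

lemma fd_sq {F : E → ℂ} {z : E} (hF : ContDiffAt ℂ (⊤ : ℕ∞) F z) (w : E) :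
    fderiv ℝ (fun y => ‖F y‖ ^ 2) z w = 2 * (conj (F z) * fderiv ℂ F z w).re := by
  have hd : DifferentiableAt ℂ F z := hF.differentiableAt (by simp)
  have h1 : fderiv ℝ F z w = fderiv ℂ F z w := by rw [hd.fderiv_restrictScalars ℝ]; rfl
  have h2 : HasFDerivAt (fun y => ‖F y‖ ^ 2) (2 • (innerSL ℝ (F z)).comp (fderiv ℝ F z)) z :=
    (hd.restrictScalars ℝ).hasFDerivAt.norm_sq
  rw [h2.fderiv]
  simp only [_root_.smul_apply, ContinuousLinearMap.comp_apply, innerSL_apply_apply, nsmul_eq_mul, h1]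
  rw [Complex.inner]
  norm_num
  ring

lemma fd_sq_I {F : E → ℂ} {z : E} (hF : ContDiffAt ℂ (⊤ : ℕ∞) F z) (w : E) :
    fderiv ℝ (fun y => ‖F y‖ ^ 2) z (Complex.I • w) =
      - (2 * (conj (F z) * fderiv ℂ F z w).im) := by
  rw [fd_sq hF, map_smul]
  simp only [smul_eq_mul, Complex.mul_re, Complex.mul_im, Complex.conj_re, Complex.conj_im,
    Complex.I_re, Complex.I_im]
  ring

lemma log_deriv1 {t : ℝ} (ht : t ≠ 0) : ∀ᶠ s in 𝓝 t, HasDerivAt Real.log s⁻¹ s := by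
  filter_upwards [isOpen_ne.mem_nhds ht] with s hs
  exact Real.hasDerivAt_log hs

/-- `log (‖F‖² + ‖G‖²)` -/
lemma lvE_log2_eq {F G : E → ℂ} {z : E} (hF : ContDiffAt ℂ (⊤ : ℕ∞) F z)
    (hG : ContDiffAt ℂ (⊤ : ℕ∞) G z) (h0 : F z ≠ 0 ∨ G z ≠ 0) (w : E) :
    lvE (fun y => Real.log (‖F y‖ ^ 2 + ‖G y‖ ^ 2)) z w =
      ‖F z * fderiv ℂ G z w - G z * fderiv ℂ F z w‖ ^ 2 / (‖F z‖ ^ 2 + ‖G z‖ ^ 2) ^ 2 := by
  have hpos : 0 < ‖F z‖ ^ 2 + ‖G z‖ ^ 2 := by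
    rcases h0 with h | h
    · have := norm_pos_iff.2 h; positivity
    · have := norm_pos_iff.2 h; positivity
  have hu : ContDiffAt ℝ (⊤ : ℕ∞) (fun y => ‖F y‖ ^ 2 + ‖G y‖ ^ 2) z :=
    (sm_of_hol hF).add (sm_of_hol hG)
  have h1 := lvE_real (u := fun y => ‖F y‖ ^ 2 + ‖G y‖ ^ 2) (z := z) (φ := Real.log)
    (φ₁ := fun t => t⁻¹) (φ₂ := -(((‖F z‖ ^ 2 + ‖G z‖ ^ 2) ^ 2)⁻¹)) hu (log_deriv1 hpos.ne')
    (hasDerivAt_inv hpos.ne') w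
  rw [h1, lvE_add (sm_of_hol hF) (sm_of_hol hG), lvE_sq hF, lvE_sq hG]
  have hfd : ∀ v, fderiv ℝ (fun y => ‖F y‖ ^ 2 + ‖G y‖ ^ 2) z v =
      fderiv ℝ (fun y => ‖F y‖ ^ 2) z v + fderiv ℝ (fun y => ‖G y‖ ^ 2) z v := by
    intro v
    rw [fderiv_fun_add (ev_diff (sm_of_hol hF)).self_of_nhds (ev_diff (sm_of_hol hG)).self_of_nhds]
    rfl
  rw [hfd, hfd, fd_sq hF, fd_sq hG, fd_sq_I hF, fd_sq_I hG]
  have hn : ∀ x : ℂ, ‖x‖ ^ 2 = x.re ^ 2 + x.im ^ 2 := fun x => by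
    rw [← Complex.normSq_eq_norm_sq, Complex.normSq_apply]; ring
  simp only [hn] at hpos ⊢
  generalize F z = a at *
  generalize G z = b at *
  generalize fderiv ℂ F z w = c at *
  generalize fderiv ℂ G z w = d at *
  simp only [Complex.mul_re, Complex.mul_im, Complex.conj_re, Complex.conj_im, Complex.sub_re,
    Complex.sub_im]
  have hne : a.re ^ 2 + a.im ^ 2 + (b.re ^ 2 + b.im ^ 2) ≠ 0 := hpos.ne'
  field_simp
  ring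

lemma lvE_log2 {F G : E → ℂ} {z : E} (hF : ContDiffAt ℂ (⊤ : ℕ∞) F z)
    (hG : ContDiffAt ℂ (⊤ : ℕ∞) G z) (h0 : F z ≠ 0 ∨ G z ≠ 0) (w : E) :
    0 ≤ lvE (fun y => Real.log (‖F y‖ ^ 2 + ‖G y‖ ^ 2)) z w := by
  rw [lvE_log2_eq hF hG h0]; positivity

/-- `log ‖F‖²` is pluriharmonic -/
lemma lvE_log {F : E → ℂ} {z : E} (hF : ContDiffAt ℂ (⊤ : ℕ∞) F z) (h0 : F z ≠ 0) (w : E) :
    lvE (fun y => Real.log (‖F y‖ ^ 2)) z w = 0 := by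
  have h1 := lvE_log2_eq hF (G := fun _ => 0) contDiffAt_const (Or.inl h0) w
  have e : (fun y => Real.log (‖F y‖ ^ 2 + ‖(0 : ℂ)‖ ^ 2)) = fun y => Real.log (‖F y‖ ^ 2) := by
    funext y; simp
  rw [e] at h1
  rw [h1]
  have e2 : fderiv ℂ (fun _ : E => (0 : ℂ)) z w = 0 := by
    rw [fderiv_const_apply]; rfl
  rw [e2]
  simp

lemma sm_log {F : E → ℂ} {z : E} (hF : ContDiffAt ℂ (⊤ : ℕ∞) F z) (h0 : F z ≠ 0) :
    ContDiffAt ℝ (⊤ : ℕ∞) (fun y => Real.log (‖F y‖ ^ 2)) z :=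
  (sm_of_hol hF).log (by have := norm_pos_iff.2 h0; positivity)

lemma sm_log2 {F G : E → ℂ} {z : E} (hF : ContDiffAt ℂ (⊤ : ℕ∞) F z)
    (hG : ContDiffAt ℂ (⊤ : ℕ∞) G z) (h0 : F z ≠ 0 ∨ G z ≠ 0) :
    ContDiffAt ℝ (⊤ : ℕ∞) (fun y => Real.log (‖F y‖ ^ 2 + ‖G y‖ ^ 2)) z :=
  ((sm_of_hol hF).add (sm_of_hol hG)).log (by
    rcases h0 with h | h
    · have := norm_pos_iff.2 h; positivity
    · have := norm_pos_iff.2 h; positivity)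

end hol

/-! ### local weights -/

section loc

variable {a b g : E → ℂ} {z : E}

/-- the tube function in a chart: `s`, `g` the coordinates of the tube -/
theorem tube {s : E → ℂ} {H : ℂ → ℝ} (y ε : ℝ) (hs : ContDiffAt ℂ (⊤ : ℕ∞) s z) (h0 : s z ≠ 0)
    (hg : ContDiffAt ℂ (⊤ : ℕ∞) g z) (hH : ContDiffAt ℝ (⊤ : ℕ∞) H (g z)) :
    ContDiffAt ℝ (⊤ : ℕ∞) (fun p => y * Real.log (‖s p‖ ^ 2) + H (g p) + ε * ‖s p‖ ^ 2) z ∧
    ∀ w, lvE (fun p => y * Real.log (‖s p‖ ^ 2) + H (g p) + ε * ‖s p‖ ^ 2) z w =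
      lvE H (g z) 1 * ‖fderiv ℂ g z w‖ ^ 2 + ε * ‖fderiv ℂ s z w‖ ^ 2 := by
  have k1 : ContDiffAt ℝ (⊤ : ℕ∞) (fun p => y * Real.log (‖s p‖ ^ 2)) z :=
    contDiffAt_const.mul (sm_log hs h0)
  have k2 : ContDiffAt ℝ (⊤ : ℕ∞) (fun p => H (g p)) z :=
    hH.comp z (hg.restrict_scalars ℝ)
  have k3 : ContDiffAt ℝ (⊤ : ℕ∞) (fun p => ε * ‖s p‖ ^ 2) z :=
    contDiffAt_const.mul (sm_of_hol hs)
  refine ⟨(k1.add k2).add k3, fun w => ?_⟩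
  rw [lvE_add (k1.add k2) k3, lvE_add k1 k2, lvE_const_mul (sm_log hs h0),
    lvE_const_mul (sm_of_hol hs), lvE_log hs h0, lvE_sq hs, lvE_comp1 hg hH]
  ring


end loc

/-! ### linear algebra -/

/-- lower bound of two linear forms by their determinant -/
lemma two_forms {a₁ a₂ b₁ b₂ : ℂ} {K δ : ℝ} (hδ : 0 < δ) (hd : δ ≤ ‖a₁ * b₂ - a₂ * b₁‖)
    (h1 : ‖a₁‖ ≤ K) (h2 : ‖a₂‖ ≤ K) (h3 : ‖b₁‖ ≤ K) (h4 : ‖b₂‖ ≤ K) (w₁ w₂ : ℂ) :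
    δ ^ 2 * (‖w₁‖ ^ 2 + ‖w₂‖ ^ 2) ≤
      4 * K ^ 2 * (‖a₁ * w₁ + a₂ * w₂‖ ^ 2 + ‖b₁ * w₁ + b₂ * w₂‖ ^ 2) := by
  set A := a₁ * w₁ + a₂ * w₂ with hA
  set B := b₁ * w₁ + b₂ * w₂ with hB
  set D := a₁ * b₂ - a₂ * b₁ with hD
  have e1 : D * w₁ = b₂ * A - a₂ * B := by rw [hA, hB, hD]; ring
  have e2 : D * w₂ = a₁ * B - b₁ * A := by rw [hA, hB, hD]; ring
  have hK : 0 ≤ K := (norm_nonneg _).trans h1
  have k1 : δ * ‖w₁‖ ≤ K * (‖A‖ + ‖B‖) := by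
    calc δ * ‖w₁‖ ≤ ‖D‖ * ‖w₁‖ := mul_le_mul_of_nonneg_right hd (norm_nonneg _)
      _ = ‖b₂ * A - a₂ * B‖ := by rw [← norm_mul, e1]
      _ ≤ ‖b₂ * A‖ + ‖a₂ * B‖ := norm_sub_le _ _
      _ = ‖b₂‖ * ‖A‖ + ‖a₂‖ * ‖B‖ := by rw [norm_mul, norm_mul]
      _ ≤ K * ‖A‖ + K * ‖B‖ := add_le_add (mul_le_mul_of_nonneg_right h4 (norm_nonneg _))
        (mul_le_mul_of_nonneg_right h2 (norm_nonneg _))
      _ = K * (‖A‖ + ‖B‖) := by ring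
  have k2 : δ * ‖w₂‖ ≤ K * (‖A‖ + ‖B‖) := by
    calc δ * ‖w₂‖ ≤ ‖D‖ * ‖w₂‖ := mul_le_mul_of_nonneg_right hd (norm_nonneg _)
      _ = ‖a₁ * B - b₁ * A‖ := by rw [← norm_mul, e2]
      _ ≤ ‖a₁ * B‖ + ‖b₁ * A‖ := norm_sub_le _ _
      _ = ‖a₁‖ * ‖B‖ + ‖b₁‖ * ‖A‖ := by rw [norm_mul, norm_mul]
      _ ≤ K * ‖B‖ + K * ‖A‖ := add_le_add (mul_le_mul_of_nonneg_right h1 (norm_nonneg _))
        (mul_le_mul_of_nonneg_right h3 (norm_nonneg _))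
      _ = K * (‖A‖ + ‖B‖) := by ring
  have p1 : 0 ≤ δ * ‖w₁‖ := by positivity
  have p2 : 0 ≤ δ * ‖w₂‖ := by positivity
  have q1 := pow_le_pow_left₀ p1 k1 2
  have q2 := pow_le_pow_left₀ p2 k2 2
  have q3 : (K * (‖A‖ + ‖B‖)) ^ 2 ≤ 2 * K ^ 2 * (‖A‖ ^ 2 + ‖B‖ ^ 2) := by
    nlinarith [mul_nonneg (sq_nonneg K) (sq_nonneg (‖A‖ - ‖B‖))]
  nlinarith

end Crest.Agent.R257.Glue2_101
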