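import Crest.Agent.R257.HoB_843
import Crest.Agent.R257.Area_5
import Crest.Agent.R271.Rd7_692
import Crest.Agent.R271.RExt2_747
import Crest.Agent.R257.OtKE_331
import Crest.Agent.R257.FrDefs_808
import Crest.Agent.R257.Ord_757

-- ▼ part R257/HoC_843
section

/-!
# Row 257, task C-HO (helper843), file C

* `km Φ S y` : the least `κ` with `|∂̄S(w)|² ≤ κ Levi Φ w`, a measurable function;
* `cover_le` : `∫_M H ≤ ∑_c ∫_{O_c} g_c |det q_c'|²` for a covering of `M` by (ramified) charts;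
* `dA d a`   : the hypersurface with `{a(x') = 0}` removed; `ext_a`: extension across `{a = 0}`;
* `ho_a`     : one Hörmander step on `{h = 0, ∂₀h ≠ 0, a(x') ≠ 0}`.
-/

set_option autoImplicit false
set_option linter.unusedSectionVars false

noncomputable section

open Set Filter Topology MeasureTheory ComplexConjugate
open scoped ENNReal

namespace Crest.Agent.R257.HoC_843

open Crest.Agent.R271 Crest.Agent.R271.Ho51 Crest.Agent.R273.Dir73 Crest.Agent.R273.OTA_34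
open Crest.Agent.R257.OtK_331 Crest.Agent.R276.EngU_29 Crest.Agent.R273.Reg_844
open Crest.Agent.R257.HoA_843 Crest.Agent.R257.HoB_843
open Crest.Agent.R271.W792 (lev dsq nS nT lg)
open TopologicalSpace (denseSeq)

/-! ### the least constant -/

section kap

variable {n : ℕ} {M : Type*} [TopologicalSpace M] [RDom n M]

/-- the least constant, as an extended number -/
def kmE (Φ : M → ℝ) (S : M → ℂ) (y : M) : ℝ≥0∞ :=
  ⨆ i : ℕ, ENNReal.ofReal (‖∑ j, db j S y * conj (denseSeq (Fin n → ℂ) i j)‖ ^ 2) /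
    ENNReal.ofReal (Levi Φ y (denseSeq (Fin n → ℂ) i))

/-- the least constant -/
def km (Φ : M → ℝ) (S : M → ℂ) (y : M) : ℝ := (kmE Φ S y).toReal

variable {Φ : M → ℝ} {S : M → ℂ} {y : M} {k : ℝ}

lemma km_nonneg : 0 ≤ km Φ S y := ENNReal.toReal_nonneg

lemma kmE_le (hk0 : 0 ≤ k)
    (hk : ∀ w : Fin n → ℂ, ‖∑ j, db j S y * conj (w j)‖ ^ 2 ≤ k * Levi Φ y w) :
    kmE Φ S y ≤ ENNReal.ofReal k := by
  refine iSup_le fun i => ?_
  apply ENNReal.div_le_of_le_mul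
  rw [← ENNReal.ofReal_mul hk0]
  exact ENNReal.ofReal_le_ofReal (hk _)

lemma km_le (hk0 : 0 ≤ k)
    (hk : ∀ w : Fin n → ℂ, ‖∑ j, db j S y * conj (w j)‖ ^ 2 ≤ k * Levi Φ y w) :
    km Φ S y ≤ k := by
  have h1 := ENNReal.toReal_mono ENNReal.ofReal_ne_top (kmE_le hk0 hk)
  rwa [ENNReal.toReal_ofReal hk0] at h1

lemma cont_Levi (Φ : M → ℝ) (y : M) : Continuous fun w : Fin n → ℂ => Levi Φ y w := by
  unfold Levi; fun_prop

lemma km_spec (hk0 : 0 ≤ k)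
    (hk : ∀ w : Fin n → ℂ, ‖∑ j, db j S y * conj (w j)‖ ^ 2 ≤ k * Levi Φ y w)
    (hL : ∀ w : Fin n → ℂ, 0 ≤ Levi Φ y w) (w : Fin n → ℂ) :
    ‖∑ j, db j S y * conj (w j)‖ ^ 2 ≤ km Φ S y * Levi Φ y w := by
  have hfin : kmE Φ S y ≠ ∞ := ne_top_of_le_ne_top ENNReal.ofReal_ne_top (kmE_le hk0 hk)
  have h1 : ∀ i : ℕ, ‖∑ j, db j S y * conj (denseSeq (Fin n → ℂ) i j)‖ ^ 2 ≤
      km Φ S y * Levi Φ y (denseSeq (Fin n → ℂ) i) := by
    intro i
    have h2 : ENNReal.ofReal (‖∑ j, db j S y * conj (denseSeq (Fin n → ℂ) i j)‖ ^ 2) /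
        ENNReal.ofReal (Levi Φ y (denseSeq (Fin n → ℂ) i)) ≤ kmE Φ S y :=
      le_iSup (fun i : ℕ => ENNReal.ofReal
        (‖∑ j, db j S y * conj (denseSeq (Fin n → ℂ) i j)‖ ^ 2) /
        ENNReal.ofReal (Levi Φ y (denseSeq (Fin n → ℂ) i))) i
    rw [ENNReal.div_le_iff_le_mul (Or.inr hfin) (Or.inl ENNReal.ofReal_ne_top),
      ← ENNReal.ofReal_toReal hfin, ← ENNReal.ofReal_mul ENNReal.toReal_nonneg] at h2
    exact (ENNReal.ofReal_le_ofReal_iff (mul_nonneg km_nonneg (hL _))).1 h2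
  have hcl : IsClosed {w : Fin n → ℂ | ‖∑ j, db j S y * conj (w j)‖ ^ 2 ≤
      km Φ S y * Levi Φ y w} := by
    refine isClosed_le (by fun_prop) (continuous_const.mul (cont_Levi Φ y))
  have h3 : closure (range (denseSeq (Fin n → ℂ))) ⊆ {w : Fin n → ℂ |
      ‖∑ j, db j S y * conj (w j)‖ ^ 2 ≤ km Φ S y * Levi Φ y w} :=
    closure_minimal (by rintro _ ⟨i, rfl⟩; exact h1 i) hcl
  have h4 : w ∈ closure (range (denseSeq (Fin n → ℂ))) :=
    (TopologicalSpace.denseRange_denseSeq _) w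
  exact h3 h4

lemma measurable_km [MeasurableSpace M] [BorelSpace M] (hΦ : Sm Φ) (hS : Sm S) :
    Measurable (km Φ S) := by
  apply Measurable.ennreal_toReal
  refine Measurable.iSup fun i => ?_
  refine Measurable.div ?_ ?_
  · refine Measurable.ennreal_ofReal (Continuous.measurable ?_)
    have : ∀ j, Continuous fun y => db j S y := fun j => (hS.db j).continuous
    fun_prop
  · refine Measurable.ennreal_ofReal (Continuous.measurable ?_)
    have h1 : ∀ v u : Fin n → ℂ, Continuous fun y => D (fun y => D Φ y v) y u := fun v u =>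
      ((hΦ.D.apply v).D.apply u).continuous
    have h2 : (fun y => Levi Φ y (denseSeq (Fin n → ℂ) i)) =
        fun y => W792.lev Φ y (denseSeq (Fin n → ℂ) i) := by
      funext y; exact W792.Levi_eq_lev hΦ _ _
    rw [h2]
    unfold W792.lev
    exact ((h1 _ _).add (h1 _ _)).const_mul _

end kap

/-! ### covering -/

section cov

variable {n : ℕ} {M : Type*} [TopologicalSpace M] [RDom n M] [SecondCountableTopology M]
  [MeasurableSpace M] [BorelSpace M] {μ : Measure M}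

theorem cover_le (hμ : IsLeb μ) {H : M → ℝ≥0∞} (hH : Measurable H) {ι : Type*} [Countable ι]
    {O : ι → Set (Fin n → ℂ)} (hO : ∀ c, IsOpen (O c)) {q : ι → (Fin n → ℂ) → (Fin n → ℂ)}
    (hq : ∀ c, DifferentiableOn ℂ (q c) (O c)) {g : ι → (Fin n → ℂ) → ℝ≥0∞}
    (hg : ∀ c, Measurable (g c)) {σ : M → ι × (Fin n → ℂ)} (hσ : Function.Injective σ)
    (h1 : ∀ y, (σ y).2 ∈ O (σ y).1) (h2 : ∀ y, q (σ y).1 (σ y).2 = cp y)
    (h3 : ∀ y, H y ≤ g (σ y).1 (σ y).2) :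
    ∫⁻ y, H y ∂μ ≤ ∑' c, ∫⁻ p in O c, ENNReal.ofReal (‖(fderiv ℂ (q c) p).det‖ ^ 2) * g c p := by
  have hq1 : ∀ c, ContDiffOn ℝ 1 (q c) (O c) := fun c x hx =>
    (((R266.SCV.analyticOnNhd_of_differentiableOn (hO c) (hq c) x hx).contDiffAt
      (n := 1)).restrict_scalars ℝ).contDiffWithinAt
  have hA := fun c => Area_5.area' (volume : Measure (Fin n → ℂ)) (hO c) (hq1 c) (hg c)
  calc ∫⁻ y, H y ∂μ = ∫⁻ ζ : Fin n → ℂ, ∑' y : {y : M // cp y = ζ}, H y.1 :=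
        Rd692.lintegral_eq_fibre hμ hH
    _ ≤ ∫⁻ ζ : Fin n → ℂ, ∑' c, Area_5.fs (O c) (q c) (g c) ζ := by
        refine lintegral_mono fun ζ => ?_
        simp only [Area_5.fs_eq]
        rw [← ENNReal.tsum_sigma (fun c (x : {x // x ∈ O c ∧ q c x = ζ}) => g c x)]
        let τ : {y : M // cp y = ζ} → (Σ c, {x // x ∈ O c ∧ q c x = ζ}) := fun y =>
          ⟨(σ y.1).1, (σ y.1).2, h1 y.1, (h2 y.1).trans y.2⟩
        have hτ : Function.Injective τ := by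
          intro y y' hyy
          apply Subtype.ext
          apply hσ
          have e1 : (σ y.1).1 = (σ y'.1).1 := congrArg Sigma.fst hyy
          have e2 : (σ y.1).2 = (σ y'.1).2 :=
            congrArg (fun s : (Σ c, {x // x ∈ O c ∧ q c x = ζ}) => (s.2.1 : Fin n → ℂ)) hyy
          exact Prod.ext e1 e2
        refine le_trans (ENNReal.tsum_le_tsum fun y => h3 y.1) ?_
        exact ENNReal.tsum_comp_le_tsum_of_injective hτ
          (fun s : (Σ c, {x // x ∈ O c ∧ q c x = ζ}) => g s.1 s.2.1)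
    _ = ∑' c, ∫⁻ ζ, Area_5.fs (O c) (q c) (g c) ζ := lintegral_tsum fun c => (hA c).1
    _ = _ := by
        refine tsum_congr fun c => ?_
        rw [(hA c).2]
        refine setLIntegral_congr_fun (hO c).measurableSet fun p hp => ?_
        rw [((hq c).differentiableAt ((hO c).mem_nhds hp)).fderiv_restrictScalars ℝ,
          Bd741.abs_det_real]

end cov

/-! ### removing a hypersurface `a(x') = 0` -/

section rem

variable {n : ℕ}

lemma tail_mem {R : Fin (n + 1) → ℝ} {x : Fin (n + 1) → ℂ} (hx : x ∈ Pd R) :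
    Fin.tail x ∈ Pd (Fin.tail R) := fun i => hx i.succ

lemma diff_at {R : Fin (n + 1) → ℝ} {a : (Fin n → ℂ) → ℂ}
    (ha : DifferentiableOn ℂ a (Pd (Fin.tail R))) :
    DifferentiableOn ℂ (fun x : Fin (n + 1) → ℂ => a (Fin.tail x)) (Pd R) :=
  ha.comp (tl n).differentiable.differentiableOn fun _ hx => tail_mem hx

/-- the data with the hypersurface `a(x') = 0` removed -/
def dA (d : Dat n) (a : (Fin n → ℂ) → ℂ) (ha : DifferentiableOn ℂ a (Pd (Fin.tail d.R))) :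
    Dat n where
  R := d.R
  h := fun x => a (Fin.tail x) * d.h x
  hol := (diff_at ha).mul d.hol

variable {d : Dat n} {a : (Fin n → ℂ) → ℂ} {ha : DifferentiableOn ℂ a (Pd (Fin.tail d.R))}

lemma d0_dA {x : Fin (n + 1) → ℂ} (hx : x ∈ Pd d.R) :
    d0 (dA d a ha).h x = a (Fin.tail x) * d0 d.h x := by
  have h1 : DifferentiableAt ℂ a (Fin.tail x) :=
    ha.differentiableAt ((isOpen_Pd _).mem_nhds (tail_mem hx))
  have h2 : HasFDerivAt (fun x : Fin (n + 1) → ℂ => a (Fin.tail x))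
      ((fderiv ℂ a (Fin.tail x)).comp (tl n)) x := by
    have h3 : HasFDerivAt (tl n) (tl n) x := (tl n).hasFDerivAt
    exact HasFDerivAt.comp x (g := a) (f := tl n) h1.hasFDerivAt h3
  have h4 : HasFDerivAt d.h (fderiv ℂ d.h x) x :=
    (d.hol.differentiableAt ((isOpen_Pd _).mem_nhds hx)).hasFDerivAt
  have h5 := (h2.mul h4).fderiv
  have h6 : (tl n) (Pi.single 0 1 : Fin (n + 1) → ℂ) = 0 := by
    funext j
    rw [tl_apply]
    simp [Fin.tail]
  unfold d0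
  rw [show (dA d a ha).h = fun x => a (Fin.tail x) * d.h x from rfl]
  rw [show (fun x => a (Fin.tail x) * d.h x) =
    (fun x : Fin (n + 1) → ℂ => a (Fin.tail x)) * d.h from rfl, h5]
  simp [h6]

lemma mem_UA {x : Fin (n + 1) → ℂ} :
    x ∈ (dA d a ha).U ↔ x ∈ d.U ∧ a (Fin.tail x) ≠ 0 := by
  unfold Dat.U
  constructor
  · rintro ⟨h1, h2⟩
    have h1' : x ∈ Pd d.R := h1
    rw [d0_dA h1'] at h2
    exact ⟨⟨h1, right_ne_zero_of_mul h2⟩, left_ne_zero_of_mul h2⟩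
  · rintro ⟨⟨h1, h2⟩, h3⟩
    refine ⟨h1, ?_⟩
    rw [d0_dA h1]
    exact mul_ne_zero h3 h2

lemma vvA_mem (y : XX (dA d a ha)) : vv y ∈ d.U := (mem_UA.1 (vv_mem y)).1

lemma vvA_ne (y : XX (dA d a ha)) : a (Fin.tail (vv y)) ≠ 0 := (mem_UA.1 (vv_mem y)).2

lemma vvA_h (y : XX (dA d a ha)) : d.h (vv y) = 0 := by
  have h1 : a (Fin.tail (vv y)) * d.h (vv y) = 0 := h_vv y
  exact (mul_eq_zero.1 h1).resolve_left (vvA_ne y)

/-- points of `XX (dA d a ha)` -/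
def mkA (x : Fin (n + 1) → ℂ) (hx : x ∈ d.U) (h0 : d.h x = 0) (hne : a (Fin.tail x) ≠ 0) :
    XX (dA d a ha) :=
  mkX x (mem_UA.2 ⟨hx, hne⟩) (by
    show a (Fin.tail x) * d.h x = 0
    rw [h0, mul_zero])

lemma vv_mkA (x : Fin (n + 1) → ℂ) (hx : x ∈ d.U) (h0 : d.h x = 0) (hne : a (Fin.tail x) ≠ 0) :
    vv (mkA (ha := ha) x hx h0 hne) = x := rfl

/-- the inclusion -/
def jA (y : XX (dA d a ha)) : XX d := mkX (vv y) (vvA_mem y) (vvA_h y)

lemma vv_jA (y : XX (dA d a ha)) : vv (jA y) = vv y := rfl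

lemma dA_pos (y : XX (dA d a ha)) : 0 < ‖d0 d.h (vv y)‖ ^ 2 := by
  have := norm_pos_iff.2 (vvA_mem y).2
  positivity

/-- holomorphic functions of the ambient space restricted to `XX d` -/
lemma hol_vv {G : (Fin (n + 1) → ℂ) → ℂ} (hG : DifferentiableOn ℂ G d.U) :
    Ho51.Hol (fun y : XX d => G (vv y)) :=
  Crest.Agent.R273.Dir73.Hol.restr (hol_v hG)

/-- `{a = 0}` is a null set -/
lemma null_a {R : Fin n → ℝ} (ha : DifferentiableOn ℂ a (Pd R))
    (ha0 : ∀ p ∈ Pd R, ¬ ∀ᶠ z in 𝓝 p, a z = 0) : volume {p | p ∈ Pd R ∧ a p = 0} = 0 := by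
  refine measure_null_of_locally_null _ fun p hp => ?_
  have han : AnalyticAt ℂ a p := R266.SCV.analyticOnNhd_of_differentiableOn (isOpen_Pd R) ha p hp.1
  obtain ⟨r, hr, hae⟩ := Local821.eventually_null_zero
    (volume : Measure (Fin n → ℂ)) han (Filter.not_eventually.1 (ha0 p hp.1))
  rw [ae_restrict_iff' Metric.isOpen_ball.measurableSet, ae_iff] at hae
  refine ⟨Metric.ball p r ∩ {p | p ∈ Pd R ∧ a p = 0}, ?_, ?_⟩
  · exact inter_mem (mem_nhdsWithin_of_mem_nhds (Metric.ball_mem_nhds p hr)) self_mem_nhdsWithin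
  · refine measure_mono_null ?_ hae
    rintro z ⟨hz1, hz2, hz3⟩
    simp only [mem_ofPred_eq, Classical.not_imp, not_not]
    exact ⟨hz1, hz3⟩

lemma h1_dA (ha0 : ∀ p ∈ Pd (Fin.tail d.R), ¬ ∀ᶠ z in 𝓝 p, a z = 0)
    (h1 : ∃ x ∈ Pd d.R, d0 d.h x ≠ 0) : ∃ x ∈ Pd (dA d a ha).R, d0 (dA d a ha).h x ≠ 0 := by
  obtain ⟨x, hx, hx0⟩ := h1
  have h2 : d.U ∈ 𝓝 x := d.isOpen_U.mem_nhds ⟨hx, hx0⟩
  have h3 : ∃ᶠ p in 𝓝 (Fin.tail x), a p ≠ 0 :=
    Filter.not_eventually.1 (ha0 _ (tail_mem hx))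
  have h4 : Tendsto (fun p : Fin n → ℂ => (Fin.cons (x 0) p : Fin (n + 1) → ℂ))
      (𝓝 (Fin.tail x)) (𝓝 x) := by
    have h5 : Continuous (fun p : Fin n → ℂ => (Fin.cons (x 0) p : Fin (n + 1) → ℂ)) := by
      refine continuous_pi fun i => ?_
      refine Fin.cases ?_ (fun j => ?_) i
      · simpa using continuous_const
      · simpa using continuous_apply j
    have h6 := h5.tendsto (Fin.tail x)
    rwa [Fin.cons_self_tail] at h6
  obtain ⟨p, hp1, hp2⟩ := (h3.and_eventually (h4.eventually h2)).exists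
  have h5 : (Fin.cons (x 0) p : Fin (n + 1) → ℂ) ∈ (dA d a ha).U :=
    mem_UA.2 ⟨hp2, by rw [Fin.tail_cons]; exact hp1⟩
  exact ⟨_, h5.1, h5.2⟩

lemma cont_wA : Continuous fun y : XX (dA d a ha) => (‖d0 d.h (vv y)‖ ^ 2)⁻¹ := by
  have h5 : Continuous fun y : XX (dA d a ha) => d0 d.h (vv y) :=
    (d.cont_d0.mono fun _ h => h.1).comp_continuous cont_vv fun x => vvA_mem x
  exact (h5.norm.pow 2).inv₀ fun y => (dA_pos y).ne'

lemma hol_d0A : W792.Hol (fun x : MM (dA d a ha) => d0 d.h x.v) :=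
  hol_of _ (hol_v (d := dA d a ha) fun _ hx =>
    (d.an_d0 (mem_UA.1 hx).1.1).differentiableAt.differentiableWithinAt)

lemma pos_LA (x : MM (dA d a ha)) :
    0 < nS (fun (_ : Unit) (x : MM (dA d a ha)) => d0 d.h x.v) x + 0 := by
  have h1 : nS (fun (_ : Unit) (x : MM (dA d a ha)) => d0 d.h x.v) x = ‖d0 d.h x.v‖ ^ 2 := by
    simp [nS]
  rw [h1, add_zero]
  have := norm_pos_iff.2 (mem_UA.1 x.mem).1.2
  positivity

/-- `log |∂₀h|²` on `XX (dA d a ha)` -/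
def LA (d : Dat n) (a : (Fin n → ℂ) → ℂ) (ha : DifferentiableOn ℂ a (Pd (Fin.tail d.R)))
    (y : XX (dA d a ha)) : ℝ :=
  lg (fun (_ : Unit) (x : MM (dA d a ha)) => d0 d.h x.v) 0 (ι y)

lemma sm_LA : Sm (LA d a ha) := Sm.restr (W792.sm_lg (fun _ => hol_d0A.sm) pos_LA)

lemma levi_LA (y : XX (dA d a ha)) (w : Fin n → ℂ) : 0 ≤ Levi (LA d a ha) y w := by
  have hs : Sm (lg (fun (_ : Unit) (x : MM (dA d a ha)) => d0 d.h x.v) 0) :=
    W792.sm_lg (fun _ => hol_d0A.sm) pos_LA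
  have h1 : Levi (LA d a ha) y w =
      Levi (lg (fun (_ : Unit) (x : MM (dA d a ha)) => d0 d.h x.v) 0) (ι y) (gamL 0 w) :=
    Levi_restr hs y w
  rw [h1, W792.Levi_eq_lev hs]
  exact W792.lev_lg_nonneg (fun _ => hol_d0A) le_rfl pos_LA _ _

lemma exp_LA (y : XX (dA d a ha)) : Real.exp (-LA d a ha y) = (‖d0 d.h (vv y)‖ ^ 2)⁻¹ := by
  have h1 : LA d a ha y = Real.log (‖d0 d.h (vv y)‖ ^ 2) := by
    simp [LA, lg, nS, vv]
  rw [h1, Real.exp_neg, Real.exp_log (dA_pos y)]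

variable [MeasurableSpace (XX d)] [BorelSpace (XX d)] {μ : Measure (XX d)}
  [MeasurableSpace (XX (dA d a ha))] [BorelSpace (XX (dA d a ha))] {μA : Measure (XX (dA d a ha))}

/-- **extension across `{a = 0}` and to the ambient polydisc** -/
theorem ext_a (hμ : IsLeb μ) (hμA : IsLeb μA)
    (ha0 : ∀ p ∈ Pd (Fin.tail d.R), ¬ ∀ᶠ z in 𝓝 p, a z = 0)
    (h1 : ∃ x ∈ Pd d.R, d0 d.h x ≠ 0) {F : XX (dA d a ha) → ℂ} (hF : Ho51.Hol F)
    (hK : ∫⁻ y, ENNReal.ofReal (‖F y‖ ^ 2 * (‖d0 d.h (vv y)‖ ^ 2)⁻¹) ∂μA ≠ ∞) :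
    ∃ G : (Fin (n + 1) → ℂ) → ℂ, DifferentiableOn ℂ G (Pd d.R) ∧
      ∀ y : XX (dA d a ha), G (vv y) = F y := by
  classical
  have hdaU : DifferentiableOn ℂ (fun x : Fin (n + 1) → ℂ => a (Fin.tail x)) (dA d a ha).U :=
    (diff_at ha).mono fun _ h => h.1
  -- step 1
  have hF1 : Ho51.Hol (fun y : XX (dA d a ha) => a (Fin.tail (vv y)) * F y) := fun e he =>
    (hol_vv hdaU e he).mul (hF e he)
  obtain ⟨G1, hG1, hG1e⟩ := amb (d := dA d a ha) hμA (h1_dA ha0 h1) hF1 (by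
    refine ne_of_eq_of_ne ?_ hK
    refine lintegral_congr fun y => ?_
    congr 1
    rw [d0_dA (d := d) (ha := ha) (vvA_mem y).1, norm_mul, norm_mul, mul_pow, mul_pow, mul_inv]
    have h2 := norm_ne_zero_iff.2 (vvA_ne y)
    field_simp)
  have hG1' : ∀ (x : Fin (n + 1) → ℂ) (hx : x ∈ d.U) (h0 : d.h x = 0) (hne : a (Fin.tail x) ≠ 0),
      G1 x / a (Fin.tail x) = F (mkA x hx h0 hne) := by
    intro x hx h0 hne
    have h2 := hG1e (mkA x hx h0 hne)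
    simp only [vv_mkA] at h2
    rw [h2]
    field_simp
  -- the integrand
  set H : XX (dA d a ha) → ℝ≥0∞ := fun y =>
    ENNReal.ofReal (‖F y‖ ^ 2 * (‖d0 d.h (vv y)‖ ^ 2)⁻¹) with hH
  have hHm : Measurable H := by
    have hFs : Continuous F := (hol_of _ hF).sm.continuous
    exact ((hFs.norm.pow 2).mul cont_wA).measurable.ennreal_ofReal
  have hfib := Rd692.lintegral_eq_fibre hμA hHm
  -- step 2 : the function on `XX d`
  set N : Set (XX d) := {y | a (cp y) ≠ 0} with hN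
  set f0 : XX d → ℂ := fun y => G1 (vv y) / a (cp y) with hf0
  set f2 : XX d → ℂ := fun y => limUnder (𝓝[N] y) f0 with hf2
  have hcpP : ∀ y : XX d, cp y ∈ Pd (Fin.tail d.R) := fun y =>
    show Fin.tail (vv y) ∈ _ from tail_mem (vv_mem y).1
  have hNB : ∀ y : XX d, (𝓝[N] y).NeBot := by
    intro y
    rw [← mem_closure_iff_nhdsWithin_neBot, mem_closure_iff_frequently]
    have h2 : ∃ᶠ p in 𝓝 (cp y), a p ≠ 0 := Filter.not_eventually.1 (ha0 _ (hcpP y))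
    have he := isCh_ch y
    have h3 : Tendsto (ch y).symm (𝓝 (cp y)) (𝓝 y) := by
      have := (ch y).symm.continuousAt (x := cp y) (by simpa using he.cp_mem (mem_ch y))
      rwa [ContinuousAt, he.symm_cp (mem_ch y)] at this
    refine h3.frequently ((h2.and_eventually ((ch y).open_target.mem_nhds
      (he.cp_mem (mem_ch y)))).mono fun p hp => ?_)
    show a (cp ((ch y).symm p)) ≠ 0
    rw [he.cp_symm hp.2]
    exact hp.1
  have key : ∀ y0 : XX d, ∃ g : (Fin n → ℂ) → ℂ, DifferentiableOn ℂ g (ch y0).target ∧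
      (∀ p ∈ (ch y0).target, f2 ((ch y0).symm p) = g p) ∧
      ∀ p ∈ (ch y0).target, a p ≠ 0 → g p = f0 ((ch y0).symm p) := by
    intro y0
    have he := isCh_ch y0
    set e := ch y0 with hedef
    have hcv : ∀ p ∈ e.target, Fin.tail (vv (e.symm p)) = p := fun p hp => he.cp_symm hp
    have hpP : ∀ p ∈ e.target, p ∈ Pd (Fin.tail d.R) := by
      intro p hp
      have := hcpP (e.symm p)
      rwa [he.cp_symm hp] at this
    have hcont : ContinuousOn (fun p => ‖d0 d.h (vv (e.symm p))‖ ^ 2) e.target := by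
      have h5 : Continuous fun y : XX d => ‖d0 d.h (vv y)‖ ^ 2 := by
        have h6 : Continuous fun y : XX d => d0 d.h (vv y) :=
          (d.cont_d0.mono fun _ h => h.1).comp_continuous cont_vv fun x => vv_mem x
        exact h6.norm.pow 2
      exact h5.comp_continuousOn e.symm.continuousOn
    obtain ⟨g, hg, hgf⟩ := RExt747.riemann_ext (f := fun p => G1 (vv (e.symm p)) / a p)
      (D := a) (U := e.target) e.open_target
      (fun p hp => R266.SCV.analyticOnNhd_of_differentiableOn (isOpen_Pd _) ha p (hpP p hp))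
      (fun p hp => ha0 p (hpP p hp))
      (by
        have h5 : DifferentiableOn ℂ (fun p => G1 (vv (e.symm p))) e.target :=
          hol_vv (d := d) (G := G1) (hG1.mono fun _ h => h.1) e he
        have h6 : DifferentiableOn ℂ a (e.target ∩ {z | a z ≠ 0}) :=
          ha.mono fun p hp => hpP p hp.1
        exact ((h5.mono inter_subset_left).mul (h6.inv fun p hp => hp.2)).congr
          fun p _ => div_eq_mul_inv _ _)
      (by
        intro p0 hp0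
        set B : ℝ := ‖d0 d.h (vv (e.symm p0))‖ ^ 2 + 1 with hB
        have hW : {p | p ∈ e.target ∧ ‖d0 d.h (vv (e.symm p))‖ ^ 2 < B} ∈ 𝓝 p0 := by
          have h6 : ∀ᶠ p in 𝓝 p0, ‖d0 d.h (vv (e.symm p))‖ ^ 2 < B :=
            (hcont.continuousAt (e.open_target.mem_nhds hp0)).eventually_lt_const (by
              rw [hB]; linarith)
          filter_upwards [e.open_target.mem_nhds hp0, h6] with p hp1 hp2
          exact ⟨hp1, hp2⟩
        refine ⟨_, hW, ?_⟩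
        have hB0 : 0 ≤ B := by positivity
        have hWm : MeasurableSet ({p | p ∈ e.target ∧ ‖d0 d.h (vv (e.symm p))‖ ^ 2 < B} ∩
            {z | a z ≠ 0}) := by
          have h7 : IsOpen {p | p ∈ e.target ∧ ‖d0 d.h (vv (e.symm p))‖ ^ 2 < B} :=
            hcont.isOpen_inter_preimage e.open_target isOpen_Iio
          have h8 : IsOpen ({p | p ∈ e.target ∧ ‖d0 d.h (vv (e.symm p))‖ ^ 2 < B} ∩
            {z | a z ≠ 0}) :=
            (ha.continuousOn.mono fun p hp => hpP p hp.1).isOpen_inter_preimage h7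
              (isOpen_ne : IsOpen {w : ℂ | w ≠ 0})
          exact h8.measurableSet
        refine lt_of_le_of_lt (b := ENNReal.ofReal B * ∫⁻ ζ : Fin n → ℂ,
          ∑' y : {y : XX (dA d a ha) // cp y = ζ}, H y.1) ?_ ?_
        · rw [← lintegral_const_mul' _ _ ENNReal.ofReal_ne_top]
          refine le_trans (setLIntegral_mono' hWm (g := fun ζ => ENNReal.ofReal B *
            ∑' y : {y : XX (dA d a ha) // cp y = ζ}, H y.1) fun p hp => ?_)
            (setLIntegral_le_lintegral _ _)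
          obtain ⟨⟨hp1, hp2⟩, hp3⟩ := hp
          have hp3' : a (Fin.tail (vv (e.symm p))) ≠ 0 := by rw [hcv p hp1]; exact hp3
          set y1 : XX (dA d a ha) := mkA (vv (e.symm p)) (vv_mem _) (h_vv _) hp3' with hy1
          have h9 : H y1 ≤ ∑' y : {y : XX (dA d a ha) // cp y = p}, H y.1 :=
            ENNReal.le_tsum (f := fun y : {y : XX (dA d a ha) // cp y = p} => H y.1)
              ⟨y1, hcv p hp1⟩
          have h10 : F y1 = G1 (vv (e.symm p)) / a p := by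
            rw [← hG1' _ (vv_mem _) (h_vv _) hp3', hcv p hp1]
          refine le_trans ?_ (mul_le_mul_right h9 _)
          simp only [hH, hy1, vv_mkA]
          rw [← hy1, h10, ← ENNReal.ofReal_mul hB0]
          have h11 : 0 < ‖d0 d.h (vv (e.symm p))‖ ^ 2 := d0_pos _
          have h12 : ‖G1 (vv (e.symm p)) / a p‖ₑ ^ 2 =
              ENNReal.ofReal (‖G1 (vv (e.symm p)) / a p‖ ^ 2) := by
            rw [ENNReal.ofReal_pow (norm_nonneg _), ofReal_norm]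
          rw [h12]
          apply ENNReal.ofReal_le_ofReal
          have h13 : 1 ≤ B * (‖d0 d.h (vv (e.symm p))‖ ^ 2)⁻¹ := by
            rw [← div_eq_mul_inv, one_le_div h11]
            exact hp2.le
          calc ‖G1 (vv (e.symm p)) / a p‖ ^ 2 = ‖G1 (vv (e.symm p)) / a p‖ ^ 2 * 1 := by ring
            _ ≤ ‖G1 (vv (e.symm p)) / a p‖ ^ 2 * (B * (‖d0 d.h (vv (e.symm p))‖ ^ 2)⁻¹) :=
                mul_le_mul_of_nonneg_left h13 (by positivity)
            _ = _ := by ring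
        · rw [← hfib]
          exact ENNReal.mul_lt_top ENNReal.ofReal_lt_top (lt_top_iff_ne_top.2 hK))
    refine ⟨g, hg, fun p hp => ?_, fun p hp hne => ?_⟩
    · have := hNB (e.symm p)
      have hgc : ContinuousAt g (cp (e.symm p)) := by
        rw [he.cp_symm hp]
        exact (hg.differentiableAt (e.open_target.mem_nhds hp)).continuousAt
      have h2 : Tendsto (fun y : XX d => g (cp y)) (𝓝[N] (e.symm p)) (𝓝 (g p)) := by
        have h3 : ContinuousAt (fun y : XX d => g (cp y)) (e.symm p) :=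
          ContinuousAt.comp (g := g) (f := cp) hgc cp_cont.continuousAt
        have h4 := h3.tendsto
        simp only [he.cp_symm hp] at h4
        exact h4.mono_left nhdsWithin_le_nhds
      have h3 : (fun y : XX d => g (cp y)) =ᶠ[𝓝[N] (e.symm p)] f0 := by
        filter_upwards [nhdsWithin_le_nhds (e.open_source.mem_nhds (e.map_target hp)),
          self_mem_nhdsWithin] with y hy hy'
        have h5 := hgf (cp y) (he.cp_mem hy) hy'
        rw [he.symm_cp hy] at h5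
        exact h5
      exact (h2.congr' h3).limUnder_eq
    · rw [hgf p hp hne]
      simp only [hf0]
      rw [he.cp_symm hp]
  have hf2H : Ho51.Hol f2 := by
    refine hol_of_local fun y0 => ⟨ch y0, isCh_ch y0, mem_ch y0, ?_⟩
    obtain ⟨g, hg, hg2, -⟩ := key y0
    have ht : (ch y0).target ∈ 𝓝 (cp y0) :=
      (ch y0).open_target.mem_nhds ((isCh_ch y0).cp_mem (mem_ch y0))
    refine (hg.differentiableAt ht).congr_of_eventuallyEq ?_
    filter_upwards [ht] with p hp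
    exact hg2 p hp
  have hf2v : ∀ y : XX d, ∀ hne : a (Fin.tail (vv y)) ≠ 0,
      f2 y = F (mkA (vv y) (vv_mem y) (h_vv y) hne) := by
    intro y hne
    obtain ⟨g, hg, hg2, hg3⟩ := key y
    have hm := (isCh_ch y).cp_mem (mem_ch y)
    have h2 := hg2 (cp y) hm
    have h3 := hg3 (cp y) hm hne
    rw [(isCh_ch y).symm_cp (mem_ch y)] at h2 h3
    rw [h2, h3, ← hG1' (vv y) (vv_mem y) (h_vv y) hne]
    rfl
  -- step 3
  have hint : ∫⁻ y, ENNReal.ofReal (‖f2 y‖ ^ 2 * (‖d0 d.h (vv y)‖ ^ 2)⁻¹) ∂μ ≠ ∞ := by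
    refine ne_top_of_le_ne_top hK ?_
    have hm2 : Measurable fun y : XX d =>
        ENNReal.ofReal (‖f2 y‖ ^ 2 * (‖d0 d.h (vv y)‖ ^ 2)⁻¹) := by
      have hFs : Continuous f2 := (hol_of _ hf2H).sm.continuous
      have h5 : Continuous fun y : XX d => d0 d.h (vv y) :=
        (d.cont_d0.mono fun _ h => h.1).comp_continuous cont_vv fun x => vv_mem x
      exact ((hFs.norm.pow 2).mul ((h5.norm.pow 2).inv₀
        fun y => (d0_pos y).ne')).measurable.ennreal_ofReal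
    rw [Rd692.lintegral_eq_fibre hμ hm2]
    refine le_trans ?_ hfib.ge
    refine lintegral_mono_ae ?_
    have hnull : ∀ᵐ ζ : Fin n → ℂ, ¬ (ζ ∈ Pd (Fin.tail d.R) ∧ a ζ = 0) := by
      rw [ae_iff]
      simpa only [not_not] using null_a ha ha0
    filter_upwards [hnull] with ζ hζ
    by_cases hζP : ζ ∈ Pd (Fin.tail d.R)
    · have hne : a ζ ≠ 0 := fun h => hζ ⟨hζP, h⟩
      have hne' : ∀ y : {y : XX d // cp y = ζ}, a (Fin.tail (vv y.1)) ≠ 0 := by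
        rintro ⟨y, rfl⟩
        exact hne
      let τ : {y : XX d // cp y = ζ} → {y : XX (dA d a ha) // cp y = ζ} := fun y =>
        ⟨mkA (vv y.1) (vv_mem y.1) (h_vv y.1) (hne' y), y.2⟩
      have hτ : Function.Injective τ := by
        intro y y' hyy
        apply Subtype.ext
        apply vv_inj
        exact congrArg (fun y : {y : XX (dA d a ha) // cp y = ζ} => vv y.1) hyy
      refine le_trans (le_of_eq ?_) (ENNReal.tsum_comp_le_tsum_of_injective hτ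
        (fun y : {y : XX (dA d a ha) // cp y = ζ} => H y.1))
      refine tsum_congr fun y => ?_
      simp only [hH]
      rw [hf2v y.1 (hne' y)]
      rfl
    · have : IsEmpty {y : XX d // cp y = ζ} := ⟨fun y => hζP (by
        have := hcpP y.1
        rwa [y.2] at this)⟩
      rw [tsum_empty]
      exact zero_le
  obtain ⟨G, hG, hGf⟩ := amb hμ h1 hf2H hint
  refine ⟨G, hG, fun y => ?_⟩
  have h2 := hGf (jA y)
  rw [vv_jA] at h2
  rw [h2, hf2v (jA y) (vvA_ne y)]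
  rfl

/-- **one Hörmander step on `{h = 0, ∂₀h ≠ 0, a(x') ≠ 0}`** -/
theorem ho_a (hμ : IsLeb μ) (hμA : IsLeb μA)
    (ha0 : ∀ p ∈ Pd (Fin.tail d.R), ¬ ∀ᶠ z in 𝓝 p, a z = 0)
    (h1 : ∃ x ∈ Pd d.R, d0 d.h x ≠ 0) {Φ : XX (dA d a ha) → ℝ} (hΦ : Sm Φ)
    (hΦL : ∀ y w, 0 ≤ Levi Φ y w) {C : ℝ} (hC : ∀ y, Φ y ≤ C) {S : XX (dA d a ha) → ℂ} (hS : Sm S)
    {κ : XX (dA d a ha) → ℝ} (hκ : ∀ y, 0 ≤ κ y)
    (hk : ∀ y (w : Fin n → ℂ), ‖∑ j, db j S y * conj (w j)‖ ^ 2 ≤ κ y * Levi Φ y w)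
    {K : ℝ≥0∞} (hKt : K ≠ ∞)
    (hK : ∫⁻ y, ENNReal.ofReal (κ y * Real.exp (-Φ y) * (‖d0 d.h (vv y)‖ ^ 2)⁻¹) ∂μA ≤ K)
    (hSi : ∫⁻ y, ENNReal.ofReal (‖S y‖ ^ 2 * (‖d0 d.h (vv y)‖ ^ 2)⁻¹) ∂μA ≠ ∞) :
    ∃ G : (Fin (n + 1) → ℂ) → ℂ, DifferentiableOn ℂ G (Pd d.R) ∧
      ∫⁻ y, ENNReal.ofReal (‖G (vv y) - S y‖ ^ 2 * Real.exp (-Φ y) *
        (‖d0 d.h (vv y)‖ ^ 2)⁻¹) ∂μA ≤ 2 * K := by
  set ψ : XX (dA d a ha) → ℝ := fun y => Φ y + LA d a ha y with hψ
  have hψs : Sm ψ := hΦ.add sm_LA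
  have hψL : ∀ y w, Levi Φ y w ≤ Levi ψ y w := by
    intro y w
    have h2 : Levi ψ y w = Levi Φ y w + Levi (LA d a ha) y w := Levi_add hΦ sm_LA y w
    rw [h2]
    have := levi_LA (ha := ha) y w
    linarith
  have hexp : ∀ y, Real.exp (-ψ y) = Real.exp (-Φ y) * (‖d0 d.h (vv y)‖ ^ 2)⁻¹ := by
    intro y
    simp only [hψ]
    rw [neg_add, Real.exp_add, exp_LA]
  obtain ⟨F, hF, hFb⟩ := engU (μ := μA) (ρ := rX (dA d a ha)) (ψ := ψ) (G := S) (κ := κ)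
    (b := fun _ => 1)
    (K := K) hμA sm_rX compact_rX levi_rX hψs (fun y w => (hΦL y w).trans (hψL y w)) hS
    (fun y w => (hk y w).trans (mul_le_mul_of_nonneg_left (hψL y w) (hκ y))) lpsh_one (by
      refine le_trans (le_of_eq ?_) hK
      refine lintegral_congr fun y => ?_
      rw [ENNReal.ofReal_one, div_one, hexp, mul_assoc])
  have hFb' : ∫⁻ y, ENNReal.ofReal (‖F y - S y‖ ^ 2 * Real.exp (-Φ y) *
        (‖d0 d.h (vv y)‖ ^ 2)⁻¹) ∂μA ≤ 2 * K := by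
    refine le_trans (le_of_eq ?_) hFb
    refine lintegral_congr fun y => ?_
    rw [ENNReal.ofReal_one, div_one, hexp, mul_assoc]
  have hFint : ∫⁻ y, ENNReal.ofReal (‖F y‖ ^ 2 * (‖d0 d.h (vv y)‖ ^ 2)⁻¹) ∂μA ≠ ∞ := by
    have h3 : ∀ y, ENNReal.ofReal (‖F y‖ ^ 2 * (‖d0 d.h (vv y)‖ ^ 2)⁻¹) ≤
        ENNReal.ofReal (2 * Real.exp C) * ENNReal.ofReal (‖F y - S y‖ ^ 2 * Real.exp (-Φ y) *
        (‖d0 d.h (vv y)‖ ^ 2)⁻¹) + 2 * ENNReal.ofReal (‖S y‖ ^ 2 * (‖d0 d.h (vv y)‖ ^ 2)⁻¹) := by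
      intro y
      have hd := dA_pos y
      have h4 : 1 ≤ Real.exp C * Real.exp (-Φ y) := by
        rw [← Real.exp_add]
        exact Real.one_le_exp (by have := hC y; linarith)
      have h5 : ‖F y‖ ^ 2 ≤ 2 * ‖F y - S y‖ ^ 2 + 2 * ‖S y‖ ^ 2 := by
        have h6 : ‖F y‖ ≤ ‖F y - S y‖ + ‖S y‖ := by
          calc ‖F y‖ = ‖(F y - S y) + S y‖ := by congr 1; ring
            _ ≤ _ := norm_add_le _ _
        have h7 := norm_nonneg (F y)
        have h8 := norm_nonneg (F y - S y)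
        have h9 := norm_nonneg (S y)
        nlinarith [sq_nonneg (‖F y - S y‖ - ‖S y‖)]
      rw [← ENNReal.ofReal_mul (by positivity), show (2 : ℝ≥0∞) = ENNReal.ofReal 2 by simp,
        ← ENNReal.ofReal_mul (by norm_num), ← ENNReal.ofReal_add (by positivity) (by positivity)]
      apply ENNReal.ofReal_le_ofReal
      have h10 : 0 ≤ (‖d0 d.h (vv y)‖ ^ 2)⁻¹ := by positivity
      have h11 : 0 ≤ ‖F y - S y‖ ^ 2 := by positivity
      calc ‖F y‖ ^ 2 * (‖d0 d.h (vv y)‖ ^ 2)⁻¹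
          ≤ (2 * ‖F y - S y‖ ^ 2 + 2 * ‖S y‖ ^ 2) * (‖d0 d.h (vv y)‖ ^ 2)⁻¹ :=
            mul_le_mul_of_nonneg_right h5 h10
        _ ≤ (2 * (‖F y - S y‖ ^ 2 * (Real.exp C * Real.exp (-Φ y))) + 2 * ‖S y‖ ^ 2) *
            (‖d0 d.h (vv y)‖ ^ 2)⁻¹ := by
            apply mul_le_mul_of_nonneg_right _ h10
            have := mul_le_mul_of_nonneg_left h4 h11
            linarith
        _ = _ := by ring
    refine ne_top_of_le_ne_top ?_ (lintegral_mono h3)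
    have hm2 : Measurable fun y : XX (dA d a ha) =>
        ENNReal.ofReal (‖S y‖ ^ 2 * (‖d0 d.h (vv y)‖ ^ 2)⁻¹) :=
      (((hS.continuous.norm.pow 2).mul cont_wA).measurable).ennreal_ofReal
    rw [lintegral_add_right _ (hm2.const_mul 2), lintegral_const_mul' _ _ ENNReal.ofReal_ne_top,
      lintegral_const_mul' _ _ (by simp)]
    refine ENNReal.add_ne_top.2 ⟨ENNReal.mul_ne_top ENNReal.ofReal_ne_top
      (ne_top_of_le_ne_top (ENNReal.mul_ne_top (by simp) hKt) hFb'),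
      ENNReal.mul_ne_top (by simp) hSi⟩
  obtain ⟨G, hG, hGF⟩ := ext_a hμ hμA ha0 h1 hF hFint
  refine ⟨G, hG, ?_⟩
  simp only [hGF]
  exact hFb'

end rem

end Crest.Agent.R257.HoC_843
end
end

-- ▼ part R257/HoD_843
section

/-!
# Row 257, task C-HO (helper843), file D: the Hörmander step, everything in parametrisations

`ho_charts` : `Φ`, `S` functions on the ambient space; all hypotheses are checked in (possibly
ramified, possibly overlapping) holomorphic parametrisations `θ c : O c → {h = 0}` covering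
`{h = 0, ∂₀h ≠ 0, a(x') ≠ 0}`; the conclusion is an estimate in every injective parametrisation.
-/

set_option autoImplicit false
set_option linter.unusedSectionVars false

noncomputable section

open Set Filter Topology MeasureTheory ComplexConjugate
open scoped ENNReal

namespace Crest.Agent.R257.HoD_843

open Crest.Agent.R271 Crest.Agent.R271.Ho51 Crest.Agent.R273.Dir73 Crest.Agent.R273.OTA_34
open Crest.Agent.R257.OtK_331 Crest.Agent.R276.EngU_29 Crest.Agent.R273.Reg_844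
open Crest.Agent.R257.HoA_843 Crest.Agent.R257.HoB_843 Crest.Agent.R257.HoC_843
open Crest.Agent.R271.W792 (lev dsq nS nT lg)

variable {n : ℕ}

/-- the Jacobian of `tail ∘ θ` -/
def Jt (θ : (Fin n → ℂ) → Fin (n + 1) → ℂ) (p : Fin n → ℂ) : ℂ :=
  (fderiv ℂ (fun x => Fin.tail (θ x)) p).det

/-- the density of `|η|²` -/
def den (d : Dat n) (θ : (Fin n → ℂ) → Fin (n + 1) → ℂ) (p : Fin n → ℂ) : ℝ :=
  (‖d0 d.h (θ p)‖ ^ 2)⁻¹ * ‖Jt θ p‖ ^ 2

lemma diff_tail_comp {O : Set (Fin n → ℂ)} {θ : (Fin n → ℂ) → Fin (n + 1) → ℂ}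
    (hθ : DifferentiableOn ℂ θ O) : DifferentiableOn ℂ (fun x => Fin.tail (θ x)) O :=
  (tl n).differentiable.comp_differentiableOn hθ

variable {d : Dat n} {a : (Fin n → ℂ) → ℂ} {ha : DifferentiableOn ℂ a (Pd (Fin.tail d.R))}

lemma exists_par {O : Set (Fin n → ℂ)} (hO : IsOpen O) {θ : (Fin n → ℂ) → Fin (n + 1) → ℂ}
    (hθ : DifferentiableOn ℂ θ O) (hz : ∀ p ∈ O, d.h (θ p) = 0) {p : Fin n → ℂ} (hp : p ∈ O)
    (hJ : Jt θ p ≠ 0) : ∃ L, Par (dA d a ha) θ p L := by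
  have hJ : (fderiv ℂ (fun x => Fin.tail (θ x)) p).det ≠ 0 := hJ
  refine ⟨(fderiv ℂ (fun x => Fin.tail (θ x)) p).toContinuousLinearEquivOfDetNeZero hJ, ?_, ?_, ?_⟩
  · exact R266.SCV.analyticOnNhd_of_differentiableOn hO hθ p hp
  · filter_upwards [hO.mem_nhds hp] with x hx
    show a (Fin.tail (θ x)) * d.h (θ x) = 0
    rw [hz x hx, mul_zero]
  · rw [ContinuousLinearMap.coe_toContinuousLinearEquivOfDetNeZero]
    exact ((diff_tail_comp hθ).differentiableAt (hO.mem_nhds hp)).hasFDerivAt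

/-- covering by charts, for functions on `XX (dA d a ha)` -/
lemma cover_A [MeasurableSpace (XX (dA d a ha))] [BorelSpace (XX (dA d a ha))]
    {μA : Measure (XX (dA d a ha))} (hμA : IsLeb μA) {ι : Type*} [Countable ι]
    {O : ι → Set (Fin n → ℂ)} (hO : ∀ c, IsOpen (O c))
    {θ : ι → (Fin n → ℂ) → Fin (n + 1) → ℂ} (hθ : ∀ c, DifferentiableOn ℂ (θ c) (O c))
    (hcov : ∀ x ∈ d.U, d.h x = 0 → a (Fin.tail x) ≠ 0 → ∃ c, ∃ p ∈ O c, θ c p = x)
    {H : XX (dA d a ha) → ℝ} (hH : Measurable H) {k e : ι → (Fin n → ℂ) → ℝ}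
    (hkm : ∀ c, Measurable (k c))
    (he : ∀ c, ContinuousOn (e c) (O c))
    (hle : ∀ c, ∀ p ∈ O c, ∀ y : XX (dA d a ha), vv y = θ c p → H y ≤ k c p * e c p) :
    ∫⁻ y, ENNReal.ofReal (H y * (‖d0 d.h (vv y)‖ ^ 2)⁻¹) ∂μA ≤
      ∑' c, ∫⁻ p in O c, ENNReal.ofReal (k c p * e c p * den d (θ c) p) := by
  classical
  set O' : ι → Set (Fin n → ℂ) := fun c => O c ∩ θ c ⁻¹' (Pd d.R) with hO'
  have hO'o : ∀ c, IsOpen (O' c) := fun c =>
    (hθ c).continuousOn.isOpen_inter_preimage (hO c) (isOpen_Pd _)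
  have hcov' : ∀ y : XX (dA d a ha), ∃ c, ∃ p ∈ O c, θ c p = vv y := fun y =>
    hcov (vv y) (vvA_mem y) (vvA_h y) (vvA_ne y)
  choose c p hp hcp using hcov'
  have hd0 : ∀ c, ContinuousOn (fun p => ‖d0 d.h (θ c p)‖ ^ 2) (O' c) := fun c =>
    (d.cont_d0.comp ((hθ c).continuousOn.mono inter_subset_left) fun p hp => hp.2).norm.pow 2
  have hm1 : ∀ c, Measurable ((O' c).indicator (e c)) := fun c =>
    meas_ind (hO'o c) ((he c).mono inter_subset_left)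
  have hm2 : ∀ c, Measurable ((O' c).indicator (fun p => ‖d0 d.h (θ c p)‖ ^ 2)) := fun c =>
    meas_ind (hO'o c) (hd0 c)
  have h1 := cover_le (σ := fun y => (c y, p y)) hμA
    (H := fun y => ENNReal.ofReal (H y * (‖d0 d.h (vv y)‖ ^ 2)⁻¹))
    ((hH.mul cont_wA.measurable).ennreal_ofReal) hO'o
    (q := fun c x => Fin.tail (θ c x)) (fun c => (diff_tail_comp (hθ c)).mono inter_subset_left)
    (g := fun c p => ENNReal.ofReal (k c p * (O' c).indicator (e c) p *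
      ((O' c).indicator (fun p => ‖d0 d.h (θ c p)‖ ^ 2) p)⁻¹))
    (fun c => (((hkm c).mul (hm1 c)).mul (hm2 c).inv).ennreal_ofReal)
    (by
      intro y y' hyy
      apply vv_inj
      rw [← hcp y, ← hcp y']
      have e1 : c y = c y' := congrArg Prod.fst hyy
      have e2 : p y = p y' := congrArg Prod.snd hyy
      rw [e1, e2])
    (fun y => ⟨hp y, by
      show θ (c y) (p y) ∈ Pd d.R
      rw [hcp y]; exact (vvA_mem y).1⟩)
    (fun y => by
      show Fin.tail (θ (c y) (p y)) = Fin.tail (vv y)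
      rw [hcp y])
    (fun y => by
      have hm : p y ∈ O' (c y) := ⟨hp y, by
        show θ (c y) (p y) ∈ Pd d.R
        rw [hcp y]; exact (vvA_mem y).1⟩
      simp only
      rw [indicator_of_mem hm, indicator_of_mem hm, hcp y]
      apply ENNReal.ofReal_le_ofReal
      exact mul_le_mul_of_nonneg_right (hle _ _ (hp y) y (hcp y).symm) (by positivity))
  refine h1.trans (ENNReal.tsum_le_tsum fun c => ?_)
  refine le_trans (setLIntegral_mono' (hO'o c).measurableSet (g := fun p =>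
    ENNReal.ofReal (k c p * e c p * den d (θ c) p)) fun x hx => ?_)
    (lintegral_mono_set inter_subset_left)
  rw [indicator_of_mem hx, indicator_of_mem hx, ← ENNReal.ofReal_mul (by positivity)]
  apply ENNReal.ofReal_le_ofReal
  apply le_of_eq
  unfold den Jt
  ring

/-- fibre sums along an at most `N`-to-one map -/
lemma tsum_le_mul {α β : Type*} (s : α → β) (N : ℕ) (hN : ∀ y, {x | s x = y}.encard ≤ N)
    (g : β → ℝ≥0∞) : ∑' x, g (s x) ≤ N * ∑' y, g y := by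
  classical
  have h1 : ∑' x, g (s x) = ∑' y, ∑' _ : {x // s x = y}, g y := by
    rw [← (Equiv.sigmaFiberEquiv s).tsum_eq, ENNReal.tsum_sigma']
    refine tsum_congr fun y => tsum_congr fun x => ?_
    have : s ((Equiv.sigmaFiberEquiv s) ⟨y, x⟩) = y := x.2
    rw [this]
  rw [h1, ← ENNReal.tsum_mul_left]
  refine ENNReal.tsum_le_tsum fun y => ?_
  have h2 : ∑' _ : {x // s x = y}, g y = ({x | s x = y}.encard : ℝ≥0∞) * g y :=
    ENNReal.tsum_set_const {x | s x = y} (g y)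
  rw [h2]
  gcongr
  exact_mod_cast ENat.toENNReal_le.2 (hN y)

/-- integrals in an at most `N`-to-one parametrisation -/
lemma piece_N [MeasurableSpace (XX (dA d a ha))] [BorelSpace (XX (dA d a ha))]
    {μA : Measure (XX (dA d a ha))} (hμA : IsLeb μA) {U : Set (Fin n → ℂ)} (hU : IsOpen U)
    {τ : (Fin n → ℂ) → Fin (n + 1) → ℂ} (hτ : DifferentiableOn ℂ τ U)
    (hτU : ∀ p ∈ U, τ p ∈ d.U ∧ d.h (τ p) = 0 ∧ a (Fin.tail (τ p)) ≠ 0) {N : ℕ}
    (hN : ∀ x, {p | p ∈ U ∧ τ p = x}.encard ≤ N) {g : (Fin (n + 1) → ℂ) → ℝ}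
    (hgm : Measurable fun y : XX (dA d a ha) => g (vv y))
    (hgc : ContinuousOn (fun p => g (τ p)) U) :
    ∫⁻ p in U, ENNReal.ofReal (g (τ p) * den d τ p) ≤
      N * ∫⁻ y, ENNReal.ofReal (g (vv y) * (‖d0 d.h (vv y)‖ ^ 2)⁻¹) ∂μA := by
  classical
  have hd0 : ContinuousOn (fun p => ‖d0 d.h (τ p)‖ ^ 2) U :=
    (d.cont_d0.comp hτ.continuousOn fun p hp => (hτU p hp).1.1).norm.pow 2
  have hm1 : Measurable (U.indicator (fun p => g (τ p))) := meas_ind hU hgc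
  have hm2 : Measurable (U.indicator (fun p => ‖d0 d.h (τ p)‖ ^ 2)) := meas_ind hU hd0
  set g' : (Fin n → ℂ) → ℝ≥0∞ := fun p => ENNReal.ofReal (U.indicator (fun p => g (τ p)) p *
    (U.indicator (fun p => ‖d0 d.h (τ p)‖ ^ 2) p)⁻¹) with hg'
  have hg'm : Measurable g' := (hm1.mul hm2.inv).ennreal_ofReal
  have hqd : DifferentiableOn ℂ (fun x => Fin.tail (τ x)) U := diff_tail_comp hτ
  have hq1 : ContDiffOn ℝ 1 (fun x => Fin.tail (τ x)) U := fun x hx =>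
    (((R266.SCV.analyticOnNhd_of_differentiableOn hU hqd x hx).contDiffAt
      (n := 1)).restrict_scalars ℝ).contDiffWithinAt
  have hA := (Area_5.area' (volume : Measure (Fin n → ℂ)) hU hq1 hg'm).2
  have h1 : ∫⁻ p in U, ENNReal.ofReal (g (τ p) * den d τ p) =
      ∫⁻ x in U, ENNReal.ofReal |(fderiv ℝ (fun x => Fin.tail (τ x)) x).det| * g' x := by
    refine setLIntegral_congr_fun hU.measurableSet fun p hp => ?_
    rw [(hqd.differentiableAt (hU.mem_nhds hp)).fderiv_restrictScalars ℝ, Bd741.abs_det_real]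
    simp only [hg']
    rw [indicator_of_mem hp, indicator_of_mem hp, ← ENNReal.ofReal_mul (by positivity)]
    congr 1
    unfold den Jt
    ring
  have hHm : Measurable fun y : XX (dA d a ha) =>
      ENNReal.ofReal (g (vv y) * (‖d0 d.h (vv y)‖ ^ 2)⁻¹) :=
    (hgm.mul cont_wA.measurable).ennreal_ofReal
  rw [h1, ← hA, Rd692.lintegral_eq_fibre hμA hHm,
    ← lintegral_const_mul' _ _ (ENNReal.natCast_ne_top N)]
  refine lintegral_mono fun ζ => ?_
  simp only [Area_5.fs_eq]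
  let s : {x // x ∈ U ∧ Fin.tail (τ x) = ζ} → {y : XX (dA d a ha) // cp y = ζ} := fun x =>
    ⟨mkA (τ x.1) (hτU _ x.2.1).1 (hτU _ x.2.1).2.1 (hτU _ x.2.1).2.2, x.2.2⟩
  have h2 := tsum_le_mul s N (fun y => by
    refine le_trans ?_ (hN (vv y.1))
    rw [← (Subtype.val_injective.encard_image {x | s x = y})]
    apply Set.encard_le_encard
    rintro _ ⟨x, hx, rfl⟩
    refine ⟨x.2.1, ?_⟩
    have h3 : s x = y := hx
    rw [← h3]
    rfl) (fun y => ENNReal.ofReal (g (vv y.1) * (‖d0 d.h (vv y.1)‖ ^ 2)⁻¹))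
  refine le_trans (le_of_eq ?_) h2
  refine tsum_congr fun x => ?_
  simp only [hg']
  rw [indicator_of_mem x.2.1, indicator_of_mem x.2.1]
  rfl

/-- **one Hörmander step, in parametrisations** -/
theorem ho_charts (ha : DifferentiableOn ℂ a (Pd (Fin.tail d.R)))
    (ha0 : ∀ p ∈ Pd (Fin.tail d.R), ¬ ∀ᶠ z in 𝓝 p, a z = 0)
    (h1 : ∃ x ∈ Pd d.R, d0 d.h x ≠ 0) {ι : Type*} [Countable ι]
    {O : ι → Set (Fin n → ℂ)} (hO : ∀ c, IsOpen (O c))
    {θ : ι → (Fin n → ℂ) → Fin (n + 1) → ℂ} (hθ : ∀ c, DifferentiableOn ℂ (θ c) (O c))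
    (hz : ∀ c, ∀ p ∈ O c, d.h (θ c p) = 0) (hJ : ∀ c, ∀ p ∈ O c, Jt (θ c) p ≠ 0)
    (hcov : ∀ x ∈ d.U, d.h x = 0 → a (Fin.tail x) ≠ 0 → ∃ c, ∃ p ∈ O c, θ c p = x)
    {Φ : (Fin (n + 1) → ℂ) → ℝ} {S : (Fin (n + 1) → ℂ) → ℂ} {κ : ι → (Fin n → ℂ) → ℝ}
    (hΦ : ∀ c, ∀ p ∈ O c, ContDiffAt ℝ (⊤ : ℕ∞) (Φ ∘ θ c) p)
    (hS : ∀ c, ∀ p ∈ O c, ContDiffAt ℝ (⊤ : ℕ∞) (S ∘ θ c) p)
    (hL : ∀ c, ∀ p ∈ O c, ∀ w, 0 ≤ lvE (Φ ∘ θ c) p w)
    (hκ0 : ∀ c p, 0 ≤ κ c p) (hκm : ∀ c, Measurable (κ c))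
    (hk : ∀ c, ∀ p ∈ O c, ∀ w, ‖dbE (S ∘ θ c) p w‖ ^ 2 ≤ κ c p * lvE (Φ ∘ θ c) p w)
    {C : ℝ} (hC : ∀ c, ∀ p ∈ O c, Φ (θ c p) ≤ C) {K : ℝ≥0∞} (hKt : K ≠ ∞)
    (hK : ∑' c, ∫⁻ p in O c, ENNReal.ofReal (κ c p * Real.exp (-Φ (θ c p)) * den d (θ c) p) ≤ K)
    (hSi : ∑' c, ∫⁻ p in O c, ENNReal.ofReal (‖S (θ c p)‖ ^ 2 * den d (θ c) p) ≠ ∞) :
    ∃ G : (Fin (n + 1) → ℂ) → ℂ, DifferentiableOn ℂ G (Pd d.R) ∧
      ∀ (U : Set (Fin n → ℂ)) (τ : (Fin n → ℂ) → Fin (n + 1) → ℂ) (N : ℕ), IsOpen U →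
        DifferentiableOn ℂ τ U →
        (∀ p ∈ U, τ p ∈ d.U ∧ d.h (τ p) = 0 ∧ a (Fin.tail (τ p)) ≠ 0) →
        (∀ x, {p | p ∈ U ∧ τ p = x}.encard ≤ N) →
        ∫⁻ p in U, ENNReal.ofReal (‖G (τ p) - S (τ p)‖ ^ 2 * Real.exp (-Φ (τ p)) * den d τ p) ≤
          N * (2 * K) := by
  classical
  let _ : MeasurableSpace (XX d) := borel _
  have : BorelSpace (XX d) := ⟨rfl⟩
  let _ : MeasurableSpace (XX (dA d a ha)) := borel _
  have : BorelSpace (XX (dA d a ha)) := ⟨rfl⟩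
  obtain ⟨μ, hμ⟩ := exists_leb (M := XX d)
  obtain ⟨μA, hμA⟩ := exists_leb (M := XX (dA d a ha))
  have hcov' : ∀ y : XX (dA d a ha), ∃ c, ∃ p ∈ O c, vv y = θ c p := fun y => by
    obtain ⟨c, p, hp, h⟩ := hcov (vv y) (vvA_mem y) (vvA_h y) (vvA_ne y)
    exact ⟨c, p, hp, h.symm⟩
  set ΦX : XX (dA d a ha) → ℝ := fun y => Φ (vv y) with hΦX
  set SX : XX (dA d a ha) → ℂ := fun y => S (vv y) with hSX
  have hΦs : Sm ΦX := by
    intro y
    obtain ⟨c, p, hp, hy⟩ := hcov' y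
    obtain ⟨L, hL'⟩ := exists_par (ha := ha) (hO c) (hθ c) (hz c) hp (hJ c p hp)
    exact hL'.sm hy (hΦ c p hp)
  have hSs : Sm SX := by
    intro y
    obtain ⟨c, p, hp, hy⟩ := hcov' y
    obtain ⟨L, hL'⟩ := exists_par (ha := ha) (hO c) (hθ c) (hz c) hp (hJ c p hp)
    exact hL'.sm hy (hS c p hp)
  have hlevEq : ∀ c, ∀ p ∈ O c, ∀ y : XX (dA d a ha), vv y = θ c p → ∀ w : Fin n → ℂ, ∃ w',
      Levi ΦX y w = lvE (Φ ∘ θ c) p w' ∧
      ∑ j, Ho51.db j SX y * conj (w j) = dbE (S ∘ θ c) p w' := by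
    intro c p hp y hy w
    obtain ⟨L, hL'⟩ := exists_par (ha := ha) (hO c) (hθ c) (hz c) hp (hJ c p hp)
    refine ⟨L.symm w, ?_, ?_⟩
    · rw [hL'.lev hy hΦs, W792.Levi_eq_lev hΦs, L.apply_symm_apply]
    · rw [hL'.db hy hSs, L.apply_symm_apply]
  have hΦL : ∀ y w, 0 ≤ Levi ΦX y w := by
    intro y w
    obtain ⟨c, p, hp, hy⟩ := hcov' y
    obtain ⟨w', h2, -⟩ := hlevEq c p hp y hy w
    rw [h2]
    exact hL c p hp w'
  have hkk : ∀ c, ∀ p ∈ O c, ∀ y : XX (dA d a ha), vv y = θ c p → ∀ w : Fin n → ℂ,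
      ‖∑ j, Ho51.db j SX y * conj (w j)‖ ^ 2 ≤ κ c p * Levi ΦX y w := by
    intro c p hp y hy w
    obtain ⟨w', h2, h3⟩ := hlevEq c p hp y hy w
    rw [h2, h3]
    exact hk c p hp w'
  have hkm : ∀ y w, ‖∑ j, Ho51.db j SX y * conj (w j)‖ ^ 2 ≤ km ΦX SX y * Levi ΦX y w := by
    intro y w
    obtain ⟨c, p, hp, hy⟩ := hcov' y
    exact km_spec (hκ0 c p) (hkk c p hp y hy) (hΦL y) w
  have hΦcont : ∀ c, ContinuousOn (fun p => Φ (θ c p)) (O c) := fun c p hp =>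
    (hΦ c p hp).continuousAt.continuousWithinAt
  have hScont : ∀ c, ContinuousOn (fun p => S (θ c p)) (O c) := fun c p hp =>
    (hS c p hp).continuousAt.continuousWithinAt
  obtain ⟨G, hG, hGb⟩ := ho_a (d := d) (a := a) (ha := ha) hμ hμA ha0 h1 hΦs hΦL (C := C)
    (fun y => by
      obtain ⟨c, p, hp, hy⟩ := hcov' y
      simp only [hΦX]
      rw [hy]; exact hC c p hp) hSs (κ := km ΦX SX) (fun y => km_nonneg) hkm hKt
    (by
      refine le_trans ?_ hK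
      refine cover_A (H := fun y => km ΦX SX y * Real.exp (-ΦX y)) hμA hO hθ hcov
        ((measurable_km hΦs hSs).mul (Real.continuous_exp.comp hΦs.continuous.neg).measurable)
        (k := κ) (e := fun c p => Real.exp (-Φ (θ c p))) hκm
        (fun c => Real.continuous_exp.comp_continuousOn (hΦcont c).neg) ?_
      intro c p hp y hy
      have h2 : km ΦX SX y ≤ κ c p := km_le (hκ0 c p) (hkk c p hp y hy)
      simp only [hΦX]
      rw [hy]
      exact mul_le_mul_of_nonneg_right h2 (Real.exp_pos _).le)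
    (by
      refine ne_top_of_le_ne_top hSi ?_
      have h3 := cover_A (H := fun y => ‖SX y‖ ^ 2) hμA hO hθ hcov
        (hSs.continuous.norm.pow 2).measurable
        (k := fun _ _ => 1) (e := fun c p => ‖S (θ c p)‖ ^ 2)
        (fun _ => measurable_const)
        (fun c => (hScont c).norm.pow 2) (fun c p hp y hy => by
          simp only [hSX]
          rw [hy, one_mul])
      simpa only [one_mul] using h3)
  refine ⟨G, hG, fun U τ N hU hτ hτU hN => ?_⟩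
  have hGc : Continuous fun y : XX (dA d a ha) => G (vv y) :=
    (hol_of _ (hol_vv (d := dA d a ha) (G := G) (hG.mono fun _ h => h.1))).sm.continuous
  have hgm : Continuous fun y : XX (dA d a ha) =>
      ‖G (vv y) - S (vv y)‖ ^ 2 * Real.exp (-Φ (vv y)) :=
    ((hGc.sub hSs.continuous).norm.pow 2).mul (Real.continuous_exp.comp hΦs.continuous.neg)
  -- continuity along `τ`
  have hsc : Continuous fun p : U => (mkA (τ p.1) (hτU _ p.2).1 (hτU _ p.2).2.1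
      (hτU _ p.2).2.2 : XX (dA d a ha)) := by
    rw [inducing_vv.continuous_iff]
    exact continuousOn_iff_continuous_domRestrict.1 hτ.continuousOn
  have hgc : ContinuousOn (fun p => ‖G (τ p) - S (τ p)‖ ^ 2 * Real.exp (-Φ (τ p))) U := by
    rw [continuousOn_iff_continuous_domRestrict]
    exact hgm.comp hsc
  have h2 := piece_N (g := fun x => ‖G x - S x‖ ^ 2 * Real.exp (-Φ x)) hμA hU hτ hτU hN
    hgm.measurable hgc
  refine h2.trans ?_
  gcongr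

end Crest.Agent.R257.HoD_843
end
end

-- ▼ part R257/HoE_843

/-!
# Row 257, task C-HO (helper843), file E: the Hörmander step for surfaces in `ℂ³`

`ho2` : `HoD_843.ho_charts` for `n = 2` with charts `θ : ℂ × ℂ → ℂ³` and the density
`den2 f θ p = |jac2 θ p|² / |∂₀f (θ p)|²`.
-/

set_option autoImplicit false
set_option linter.unusedSectionVars false

noncomputable section

open Set Filter Topology MeasureTheory ComplexConjugate
open scoped ENNReal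

namespace Crest.Agent.R257.HoE_843

open Crest.AlgGeometry.Germ
open Crest.Agent.R271 Crest.Agent.R271.Ho51
open Crest.Agent.R257.OtK_331 Crest.Agent.R257.HoA_843 Crest.Agent.R257.HoB_843
open Crest.Agent.R257.HoC_843 Crest.Agent.R257.HoD_843 Crest.Agent.R257.Ord_757
open Crest.Agent.R257.Defs_219 Crest.Agent.R257.Fr_808

/-- the density of `|η|²` in the chart `θ` -/
def den2 (f : E3 → ℂ) (θ : ℂ × ℂ → E3) (p : ℂ × ℂ) : ℝ :=
  (‖coordDeriv f 0 (θ p)‖ ^ 2)⁻¹ * ‖jac2 θ p‖ ^ 2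

lemma Jt_e2 {θ : ℂ × ℂ → E3} {z : Fin 2 → ℂ} (hθ : DifferentiableAt ℂ θ (e2 z)) :
    Jt (n := 2) (fun x => θ (e2 x)) z = jac2 θ (e2 z) := by
  have h1 : HasFDerivAt (fun x : Fin 2 → ℂ => Fin.tail (θ (e2 x)))
      ((tl 2).comp ((fderiv ℂ θ (e2 z)).comp (e2 : (Fin 2 → ℂ) →L[ℂ] ℂ × ℂ))) z := by
    have h2 : HasFDerivAt (fun x : Fin 2 → ℂ => θ (e2 x))
        ((fderiv ℂ θ (e2 z)).comp (e2 : (Fin 2 → ℂ) →L[ℂ] ℂ × ℂ)) z :=
      HasFDerivAt.comp z (g := θ) (f := fun x : Fin 2 → ℂ => e2 x) hθ.hasFDerivAt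
        (e2 : (Fin 2 → ℂ) →L[ℂ] ℂ × ℂ).hasFDerivAt
    exact HasFDerivAt.comp z (g := tl 2) (tl 2).hasFDerivAt h2
  unfold Jt
  rw [h1.fderiv]
  set A := (tl 2).comp ((fderiv ℂ θ (e2 z)).comp (e2 : (Fin 2 → ℂ) →L[ℂ] ℂ × ℂ)) with hA
  have h3 : A.det = (LinearMap.toMatrix' (A : (Fin 2 → ℂ) →ₗ[ℂ] (Fin 2 → ℂ))).det := by
    rw [LinearMap.det_toMatrix']
  have e0 : (e2 (Pi.single 0 1 : Fin 2 → ℂ)) = (1, 0) := by
    rw [e2_apply]; simp
  have e1 : (e2 (Pi.single 1 1 : Fin 2 → ℂ)) = (0, 1) := by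
    rw [e2_apply]; simp
  have h4 : ∀ i j, LinearMap.toMatrix' (A : (Fin 2 → ℂ) →ₗ[ℂ] (Fin 2 → ℂ)) i j =
      fderiv ℂ θ (e2 z) (e2 (Pi.single j 1)) i.succ := by
    intro i j
    rw [LinearMap.toMatrix'_apply]
    rfl
  rw [h3, Matrix.det_fin_two, h4, h4, h4, h4, e0, e1]
  unfold jac2
  show fderiv ℂ θ (e2 z) (1, 0) 1 * fderiv ℂ θ (e2 z) (0, 1) 2 -
    fderiv ℂ θ (e2 z) (0, 1) 1 * fderiv ℂ θ (e2 z) (1, 0) 2 = _
  ring

/-- the polydisc data of `f` -/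
def df (f : E3 → ℂ) (R : Fin 3 → ℝ) (hf : DifferentiableOn ℂ f (Pd R)) : Dat 2 := ⟨R, f, hf⟩

lemma den_e2 {f : E3 → ℂ} {R : Fin 3 → ℝ} {hf : DifferentiableOn ℂ f (Pd R)} {θ : ℂ × ℂ → E3}
    {z : Fin 2 → ℂ} (hθ : DifferentiableAt ℂ θ (e2 z)) :
    den (df f R hf) (fun x => θ (e2 x)) z = den2 f θ (e2 z) := by
  unfold den den2
  rw [Jt_e2 hθ]
  rfl

/-- **one Hörmander step on a surface in `ℂ³`, in parametrisations** -/
theorem ho2 {f : E3 → ℂ} {R : Fin 3 → ℝ} (hf : DifferentiableOn ℂ f (Pd R))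
    {a : ℂ × ℂ → ℂ} (ha : DifferentiableOn ℂ a {q | ‖q.1‖ < R 1 ∧ ‖q.2‖ < R 2})
    (ha0 : ∃ q : ℂ × ℂ, ‖q.1‖ < R 1 ∧ ‖q.2‖ < R 2 ∧ a q ≠ 0)
    (h1 : ∃ x ∈ Pd R, coordDeriv f 0 x ≠ 0) {ι : Type*} [Countable ι]
    {O : ι → Set (ℂ × ℂ)} (hO : ∀ c, IsOpen (O c))
    {θ : ι → ℂ × ℂ → E3} (hθ : ∀ c, DifferentiableOn ℂ (θ c) (O c))
    (hz : ∀ c, ∀ p ∈ O c, f (θ c p) = 0) (hJ : ∀ c, ∀ p ∈ O c, jac2 (θ c) p ≠ 0)
    (hcov : ∀ x ∈ Pd R, f x = 0 → coordDeriv f 0 x ≠ 0 → a (x 1, x 2) ≠ 0 →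
      ∃ c, ∃ p ∈ O c, θ c p = x)
    {Φ : E3 → ℝ} {S : E3 → ℂ} {κ : ι → ℂ × ℂ → ℝ}
    (hΦ : ∀ c, ∀ p ∈ O c, ContDiffAt ℝ (⊤ : ℕ∞) (Φ ∘ θ c) p)
    (hS : ∀ c, ∀ p ∈ O c, ContDiffAt ℝ (⊤ : ℕ∞) (S ∘ θ c) p)
    (hL : ∀ c, ∀ p ∈ O c, ∀ w, 0 ≤ lvE (Φ ∘ θ c) p w)
    (hκ0 : ∀ c p, 0 ≤ κ c p) (hκm : ∀ c, Measurable (κ c))
    (hk : ∀ c, ∀ p ∈ O c, ∀ w, ‖dbE (S ∘ θ c) p w‖ ^ 2 ≤ κ c p * lvE (Φ ∘ θ c) p w)
    {C : ℝ} (hC : ∀ c, ∀ p ∈ O c, Φ (θ c p) ≤ C) {K : ℝ≥0∞} (hKt : K ≠ ∞)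
    (hK : ∑' c, ∫⁻ p in O c, ENNReal.ofReal (κ c p * Real.exp (-Φ (θ c p)) * den2 f (θ c) p) ≤ K)
    (hSi : ∑' c, ∫⁻ p in O c, ENNReal.ofReal (‖S (θ c p)‖ ^ 2 * den2 f (θ c) p) ≠ ∞) :
    ∃ G : E3 → ℂ, DifferentiableOn ℂ G (Pd R) ∧
      ∀ (U : Set (ℂ × ℂ)) (τ : ℂ × ℂ → E3) (N : ℕ), IsOpen U → DifferentiableOn ℂ τ U →
        (∀ p ∈ U, τ p ∈ Pd R ∧ f (τ p) = 0 ∧ coordDeriv f 0 (τ p) ≠ 0 ∧ a (τ p 1, τ p 2) ≠ 0) →
        (∀ x, {p | p ∈ U ∧ τ p = x}.encard ≤ N) →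
        ∫⁻ p in U, ENNReal.ofReal (‖G (τ p) - S (τ p)‖ ^ 2 * Real.exp (-Φ (τ p)) *
          den2 f τ p) ≤ N * (2 * K) := by
  set a' : (Fin 2 → ℂ) → ℂ := fun z => a (e2 z) with ha'
  have hPd : ∀ z : Fin 2 → ℂ, z ∈ Pd (Fin.tail R) ↔ ‖(e2 z).1‖ < R 1 ∧ ‖(e2 z).2‖ < R 2 := by
    intro z
    rw [e2_apply]
    show (∀ i : Fin 2, ‖z i‖ < Fin.tail R i) ↔ _
    rw [Fin.forall_fin_two]
    rfl
  have hda : DifferentiableOn ℂ a' (Pd (Fin.tail R)) :=
    ha.comp e2.differentiable.differentiableOn fun z hz => (hPd z).1 hz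
  have ha0' : ∀ p ∈ Pd (Fin.tail R), ¬ ∀ᶠ z in 𝓝 p, a' z = 0 := by
    intro p hp hev
    obtain ⟨q, hq1, hq2, hq3⟩ := ha0
    have han : AnalyticOnNhd ℂ a' (Pd (Fin.tail R)) :=
      R266.SCV.analyticOnNhd_of_differentiableOn (isOpen_Pd _) hda
    have h2 := han.eqOn_zero_of_preconnected_of_eventuallyEq_zero
      (convex_Pd (Fin.tail R)).isPreconnected hp hev
    have h3 : e2 (e2.symm q) = q := e2.apply_symm_apply q
    have h4 : e2.symm q ∈ Pd (Fin.tail R) := by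
      rw [hPd, h3]; exact ⟨hq1, hq2⟩
    have h5 := h2 h4
    simp only [ha', h3] at h5
    exact hq3 h5
  have hdθ : ∀ c, ∀ z ∈ e2 ⁻¹' (O c), DifferentiableAt ℂ (θ c) (e2 z) := fun c z hz =>
    (hθ c).differentiableAt ((hO c).mem_nhds hz)
  have he2c : ∀ (k : WithTop ℕ∞) (z : Fin 2 → ℂ), ContDiffAt ℂ k (fun x : Fin 2 → ℂ => e2 x) z :=
    fun k z => e2.contDiff.contDiffAt
  have he2f : ∀ z : Fin 2 → ℂ, fderiv ℂ (fun x : Fin 2 → ℂ => e2 x) z =
      (e2 : (Fin 2 → ℂ) →L[ℂ] ℂ × ℂ) := fun z =>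
    (e2 : (Fin 2 → ℂ) →L[ℂ] ℂ × ℂ).hasFDerivAt.fderiv
  have he2R : ∀ z : Fin 2 → ℂ, ContDiffAt ℝ (⊤ : ℕ∞) (fun x : Fin 2 → ℂ => e2 x) z :=
    fun z => (he2c _ z).restrict_scalars ℝ
  have hlv : ∀ c, ∀ z ∈ e2 ⁻¹' (O c), ∀ w,
      lvE (Φ ∘ fun x : Fin 2 → ℂ => θ c (e2 x)) z w = lvE (Φ ∘ θ c) (e2 z) (e2 w) := by
    intro c z hz w
    have h2 := lvE_comp (T := fun x : Fin 2 → ℂ => e2 x) (u := Φ ∘ θ c) (z := z) (he2c 2 z)
      ((hΦ c _ hz).of_le two_le_top') w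
    rw [he2f] at h2
    exact h2
  have hdb : ∀ c, ∀ z ∈ e2 ⁻¹' (O c), ∀ w,
      dbE (S ∘ fun x : Fin 2 → ℂ => θ c (e2 x)) z w = dbE (S ∘ θ c) (e2 z) (e2 w) := by
    intro c z hz w
    have h2 := dbE_comp (T := fun x : Fin 2 → ℂ => e2 x) (S := S ∘ θ c) (z := z)
      ((he2c 1 z).differentiableAt (by norm_num))
      ((hS c _ hz).differentiableAt (by simp)) w
    rw [he2f] at h2
    exact h2
  have hint : ∀ (c : ι) (F : ℂ × ℂ → ℝ), ∫⁻ z in e2 ⁻¹' (O c), ENNReal.ofReal (F (e2 z) *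
      den (df f R hf) (fun x => θ c (e2 x)) z) =
      ∫⁻ p in O c, ENNReal.ofReal (F p * den2 f (θ c) p) := by
    intro c F
    rw [← lintegral_e2]
    refine setLIntegral_congr_fun ((hO c).preimage e2.continuous).measurableSet fun z hz => ?_
    rw [den_e2 (hdθ c z hz)]
  obtain ⟨G, hG, hGb⟩ := ho_charts (d := df f R hf) (a := a') hda ha0' h1
    (O := fun c => e2 ⁻¹' (O c)) (fun c => (hO c).preimage e2.continuous)
    (θ := fun c x => θ c (e2 x))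
    (fun c => (hθ c).comp e2.differentiable.differentiableOn fun z hz => hz)
    (fun c z hz' => hz c _ hz')
    (fun c z hz' => by rw [Jt_e2 (hdθ c z hz')]; exact hJ c _ hz')
    (fun x hx hx0 hxa => by
      obtain ⟨c, p, hp, hcp⟩ := hcov x hx.1 hx0 hx.2 hxa
      refine ⟨c, e2.symm p, ?_, ?_⟩
      · show e2 (e2.symm p) ∈ O c
        rwa [e2.apply_symm_apply]
      · show θ c (e2 (e2.symm p)) = x
        rwa [e2.apply_symm_apply])
    (Φ := Φ) (S := S) (κ := fun c z => κ c (e2 z))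
    (fun c z hz' => ContDiffAt.comp z (g := Φ ∘ θ c) (hΦ c _ hz') (he2R z))
    (fun c z hz' => ContDiffAt.comp z (g := S ∘ θ c) (hS c _ hz') (he2R z))
    (fun c z hz' w => by rw [hlv c z hz']; exact hL c _ hz' _)
    (fun c z => hκ0 c _) (fun c => (hκm c).comp e2.continuous.measurable)
    (fun c z hz' w => by rw [hlv c z hz', hdb c z hz']; exact hk c _ hz' _)
    (C := C) (fun c z hz' => hC c _ hz') hKt
    (by
      refine le_trans (le_of_eq ?_) hK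
      exact tsum_congr fun c => hint c (fun p => κ c p * Real.exp (-Φ (θ c p))))
    (by
      refine ne_of_eq_of_ne ?_ hSi
      exact tsum_congr fun c => hint c (fun p => ‖S (θ c p)‖ ^ 2))
  refine ⟨G, hG, fun U τ N hU hτ hτU hN => ?_⟩
  have h2 := hGb (e2 ⁻¹' U) (fun x => τ (e2 x)) N (hU.preimage e2.continuous)
    (hτ.comp e2.differentiable.differentiableOn fun z hz => hz)
    (fun z hz' => by
      obtain ⟨b1, b2, b3, b4⟩ := hτU _ hz'
      exact ⟨⟨b1, b3⟩, b2, b4⟩)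
    (fun x => by
      refine le_trans ?_ (hN x)
      rw [← (e2.injective.encard_image {p | p ∈ e2 ⁻¹' U ∧ τ (e2 p) = x})]
      apply Set.encard_le_encard
      rintro _ ⟨p, hp, rfl⟩
      exact hp)
  refine le_trans (le_of_eq ?_) h2
  rw [← lintegral_e2]
  refine setLIntegral_congr_fun (hU.preimage e2.continuous).measurableSet fun z hz' => ?_
  rw [den_e2 (hτ.differentiableAt (hU.mem_nhds hz'))]

end Crest.Agent.R257.HoE_843
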