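import Crest.Agent.R257.C2F3_625
import Mathlib.Analysis.Calculus.LineDeriv.IntegrationByParts
import Mathlib.MeasureTheory.Measure.Lebesgue.VolumeOfBalls
import Mathlib.MeasureTheory.Integral.IntegralEqImproper

-- ▼ part R257/Idx1_761
section

/-!
# R257 (S0395), leaf GB-IDX, part 1 (helper761): integration by parts for `(1,1)`-forms on `C^2`

* `CS U f`   : `f` smooth with compact support in `U`
* `int_dS`   : `∫ dS s a f = 0` for `f` smooth with compact support
* `hs f z`   : complex Hessian `∂_a ∂̄_b f` of a complex valued function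
* `Cl W z`   : the `(1,1)`-form `W` is smooth and closed at `z`
* `parts_pd` : `∫ κ * pd (hs a) W = ∫ a * pd (hs κ) W` for `W` closed
* `parts_ddm`: `∫ κ * ddm b = ∫ pd (hs κ) b`
-/

set_option autoImplicit false
set_option linter.unusedSectionVars false

open Set Filter Topology Complex MeasureTheory
open scoped ContDiff Matrix ComplexConjugate

namespace Crest.Agent.R257.Idx1_761

open Crest.Agent.R275.Geo Crest.Agent.R275.EDR890 Crest.Agent.R273.Calc_243
open Crest.Agent.R273.Hess_333 Crest.Agent.R273.HessB_333 Crest.Agent.R273.BochD_101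
open Crest.Agent.R257.C2F1_625

noncomputable section

variable {n : ℕ}

theorem contDiff_of_tsup {f : Cn n → ℂ} (h : ∀ x ∈ tsupport f, Sm x f) : ContDiff ℝ ∞ f := by
  refine contDiff_iff_contDiffAt.2 fun x => ?_
  by_cases hx : x ∈ tsupport f
  · exact h x hx
  · exact (contDiffAt_const (c := (0 : ℂ))).congr_of_eventuallyEq (notMem_tsupport_iff_eventuallyEq.1 hx)

/-- smooth with compact support in `U` -/
structure CS (U : Set (Cn n)) (f : Cn n → ℂ) : Prop where
  sm : ContDiff ℝ ∞ f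
  cpt : HasCompactSupport f
  sub : tsupport f ⊆ U

theorem CS.at {U : Set (Cn n)} {f : Cn n → ℂ} (h : CS U f) (z : Cn n) : Sm z f := h.sm.contDiffAt

theorem CS.mono {U U' : Set (Cn n)} {f : Cn n → ℂ} (h : CS U f) (hU : U ⊆ U') : CS U' f :=
  ⟨h.sm, h.cpt, h.sub.trans hU⟩

theorem CS.add {U : Set (Cn n)} {f g : Cn n → ℂ} (hf : CS U f) (hg : CS U g) :
    CS U (fun z => f z + g z) where
  sm := hf.sm.add hg.sm
  cpt := hf.cpt.add hg.cpt
  sub := (tsupport_add f g).trans (union_subset hf.sub hg.sub)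

theorem CS.neg {U : Set (Cn n)} {f : Cn n → ℂ} (hf : CS U f) : CS U (fun z => - f z) where
  sm := hf.sm.neg
  cpt := by
    have : (fun z => - f z) = -f := rfl
    rw [this]; exact hf.cpt.neg
  sub := by
    have : (fun z => - f z) = -f := rfl
    rw [this, tsupport_neg]; exact hf.sub

theorem CS.sub' {U : Set (Cn n)} {f g : Cn n → ℂ} (hf : CS U f) (hg : CS U g) :
    CS U (fun z => f z - g z) := by
  simpa only [sub_eq_add_neg] using hf.add hg.neg

theorem CS.mul {U : Set (Cn n)} {f g : Cn n → ℂ} (hf : CS U f) (hg : ∀ z ∈ U, Sm z g) :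
    CS U (fun z => f z * g z) where
  sm := by
    refine contDiff_of_tsup fun x hx => ?_
    have hx' : x ∈ tsupport f := tsupport_mul_subset_left hx
    exact (hf.at x).mul (hg x (hf.sub hx'))
  cpt := hf.cpt.mul_right
  sub := tsupport_mul_subset_left.trans hf.sub

theorem CS.mul' {U : Set (Cn n)} {f g : Cn n → ℂ} (hg : ∀ z ∈ U, Sm z g) (hf : CS U f) :
    CS U (fun z => g z * f z) := by
  simpa only [mul_comm] using hf.mul hg

theorem tsupport_dS_subset (s : ℂ) (a : Fin n) (f : Cn n → ℂ) : tsupport (dS s a f) ⊆ tsupport f := by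
  refine (closure_mono ?_).trans (tsupport_fderiv_subset ℝ)
  intro x hx
  simp only [Function.mem_support] at hx ⊢
  intro h0
  exact hx (by simp [dS, h0])

theorem CS.dS {U : Set (Cn n)} {f : Cn n → ℂ} (hf : CS U f) (s : ℂ) (a : Fin n) :
    CS U (dS s a f) where
  sm := contDiff_iff_contDiffAt.2 fun z => (hf.at z).dS s a
  cpt := hf.cpt.mono' ((subset_tsupport _).trans (tsupport_dS_subset s a f))
  sub := (tsupport_dS_subset s a f).trans hf.sub

theorem CS.integrable {U : Set (Cn n)} {f : Cn n → ℂ} (hf : CS U f) : Integrable f :=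
  hf.sm.continuous.integrable_of_hasCompactSupport hf.cpt

theorem CS.zero_off {U : Set (Cn n)} {f : Cn n → ℂ} (hf : CS U f) {z : Cn n} (hz : z ∉ U) : f z = 0 :=
  image_eq_zero_of_notMem_tsupport fun h => hz (hf.sub h)

theorem int_fderiv {f : Cn n → ℂ} (hf : ContDiff ℝ ∞ f) (hc : HasCompactSupport f) (v : Cn n) :
    ∫ z, fderiv ℝ f z v = 0 := by
  have hd : ContDiff ℝ ∞ (fun z => fderiv ℝ f z v) :=
    (hf.fderiv_right (m := ∞) (by simp)).clm_apply contDiff_const
  have hcd : HasCompactSupport (fun z => fderiv ℝ f z v) := hc.fderiv_apply (𝕜 := ℝ) v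
  have h := integral_smul_fderiv_eq_neg_fderiv_smul_of_integrable (μ := (volume : Measure (Cn n)))
    (𝕜 := ℝ) (f := fun _ => (1 : ℝ)) (g := f) (v := v) (by simp)
    (by simpa using hd.continuous.integrable_of_hasCompactSupport hcd)
    (by simpa using hf.continuous.integrable_of_hasCompactSupport hc)
    (fun x _ => differentiableAt_const _) (fun x _ => hf.contDiffAt.differentiableAt (by simp))
  simpa using h

theorem int_dS {U : Set (Cn n)} {f : Cn n → ℂ} (hf : CS U f) (s : ℂ) (a : Fin n) :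
    ∫ z, dS s a f z = 0 := by
  have hd : ∀ v, Integrable (fun z => fderiv ℝ f z v) := fun v =>
    ((hf.sm.fderiv_right (m := ∞) (by simp)).clm_apply contDiff_const).continuous
      |>.integrable_of_hasCompactSupport (hf.cpt.fderiv_apply (𝕜 := ℝ) v)
  unfold Crest.Agent.R273.Calc_243.dS
  rw [integral_const_mul, integral_add (hd _) ((hd _).const_mul s), integral_const_mul,
    int_fderiv hf.sm hf.cpt, int_fderiv hf.sm hf.cpt]
  simp

/-- complex Hessian of a complex valued function -/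
def hs (f : Cn n → ℂ) (z : Cn n) : Matrix (Fin n) (Fin n) ℂ :=
  Matrix.of fun a b => dS (-I) a (dS I b f) z

theorem hs_apply (f : Cn n → ℂ) (z : Cn n) (a b : Fin n) : hs f z a b = dS (-I) a (dS I b f) z := rfl

theorem hs_cu (u : Cn n → ℝ) (z : Cn n) : hs (cu u) z = hess u z := by
  ext a b
  rw [hess_eq]; rfl

/-- smooth closed `(1,1)`-form at `z` (only the relations needed in dimension 2) -/
structure Cl (W : Cn 2 → Matrix (Fin 2) (Fin 2) ℂ) (z : Cn 2) : Prop where
  sm : SmM z W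
  l : ∀ a b c, dS (-I) c (fun y => W y a b) z = dS (-I) a (fun y => W y c b) z
  r : ∀ a b c, dS I c (fun y => W y a b) z = dS I b (fun y => W y a c) z

theorem ev_sm {f : Cn n → ℂ} {U : Set (Cn n)} (hU : IsOpen U) (hf : ∀ z ∈ U, Sm z f) {z : Cn n}
    (hz : z ∈ U) : ∀ᶠ y in 𝓝 z, Sm y f := by
  filter_upwards [hU.mem_nhds hz] with y hy using hf y hy

theorem cl_hs {f : Cn 2 → ℂ} {U : Set (Cn 2)} (hU : IsOpen U) (hf : ∀ z ∈ U, Sm z f) {z : Cn 2}
    (hz : z ∈ U) : Cl (hs f) z where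
  sm := fun a b => ((hf z hz).dS I b).dS (-I) a
  l := fun a b c => dS_comm ((hf z hz).dS I b)
  r := fun a b c => by
    have h1 : ∀ d : Fin 2, (fun y => hs f y a d) =ᶠ[𝓝 z] dS I d (dS (-I) a f) := by
      intro d
      filter_upwards [ev_sm hU hf hz] with y hy
      exact dS_comm hy
    rw [dS_congr (h1 b), dS_congr (h1 c)]
    exact dS_comm ((hf z hz).dS (-I) a)

theorem dS_mul3 {s : ℂ} {a : Fin n} {f g h : Cn n → ℂ} {z : Cn n} (hf : Sm z f) (hg : Sm z g)
    (hh : Sm z h) : dS s a (fun y => f y * g y * h y) z =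
      dS s a f z * g z * h z + f z * dS s a g z * h z + f z * g z * dS s a h z := by
  rw [dS_mul (f := fun y => f y * g y) (hf.diff.mul hg.diff) hh.diff, dS_mul hf.diff hg.diff]
  ring

theorem dS_sub {s : ℂ} {a : Fin n} {f g : Cn n → ℂ} {z : Cn n} (hf : DifferentiableAt ℝ f z)
    (hg : DifferentiableAt ℝ g z) :
    dS s a (fun y => f y - g y) z = dS s a f z - dS s a g z := by
  have h : DifferentiableAt ℝ (fun y => - g y) z := hg.neg
  simp only [sub_eq_add_neg]
  rw [dS_add hf h, dS_neg]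

/-- **Green's formula** for a closed form `W` -/
theorem parts_pd {U : Set (Cn 2)} {κ a : Cn 2 → ℂ} {W : Cn 2 → Matrix (Fin 2) (Fin 2) ℂ}
    (hκ : CS U κ) (ha : ∀ z ∈ U, Sm z a) (hW : ∀ z ∈ U, Cl W z) :
    ∫ z, a z * pd (hs κ z) (W z) = ∫ z, κ z * pd (hs a z) (W z) := by
  have hWs : ∀ i j, ∀ z ∈ U, Sm z (fun y => W y i j) := fun i j z hz => (hW z hz).sm i j
  have had : ∀ s i, ∀ z ∈ U, Sm z (dS s i a) := fun s i z hz => (ha z hz).dS s i
  -- the four fields
  set F0 : Cn 2 → ℂ := fun y => a y * dS I 0 κ y * W y 1 1 - a y * dS I 1 κ y * W y 1 0 with hF0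
  set F1 : Cn 2 → ℂ := fun y => a y * dS I 1 κ y * W y 0 0 - a y * dS I 0 κ y * W y 0 1 with hF1
  set G0 : Cn 2 → ℂ := fun y => κ y * dS (-I) 0 a y * W y 1 1 - κ y * dS (-I) 1 a y * W y 0 1 with hG0
  set G1 : Cn 2 → ℂ := fun y => κ y * dS (-I) 1 a y * W y 0 0 - κ y * dS (-I) 0 a y * W y 1 0 with hG1
  have c1 : ∀ i j k, CS U (fun y => a y * dS I i κ y * W y j k) := fun i j k =>
    (CS.mul' ha (hκ.dS I i)).mul (hWs j k)
  have c2 : ∀ i j k, CS U (fun y => κ y * dS (-I) i a y * W y j k) := fun i j k =>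
    (hκ.mul (had (-I) i)).mul (hWs j k)
  have cF0 : CS U F0 := (c1 0 1 1).sub' (c1 1 1 0)
  have cF1 : CS U F1 := (c1 1 0 0).sub' (c1 0 0 1)
  have cG0 : CS U G0 := (c2 0 1 1).sub' (c2 1 0 1)
  have cG1 : CS U G1 := (c2 1 0 0).sub' (c2 0 1 0)
  have key : ∀ z, a z * pd (hs κ z) (W z) - κ z * pd (hs a z) (W z) =
      (dS (-I) 0 F0 z + dS (-I) 1 F1 z) - (dS I 0 G0 z + dS I 1 G1 z) := by
    intro z
    by_cases hz : z ∈ U
    · have sa := ha z hz
      have sk := hκ.at z
      have sW := fun i j => hWs i j z hz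
      have e1 : ∀ (i : Fin 2) (c : Fin 2) (j k : Fin 2), dS (-I) c (fun y => a y * dS I i κ y * W y j k) z =
          dS (-I) c a z * dS I i κ z * W z j k + a z * dS (-I) c (dS I i κ) z * W z j k
            + a z * dS I i κ z * dS (-I) c (fun y => W y j k) z := fun i c j k =>
        dS_mul3 sa (sk.dS I i) (sW j k)
      have e2 : ∀ (i : Fin 2) (c : Fin 2) (j k : Fin 2), dS I c (fun y => κ y * dS (-I) i a y * W y j k) z =
          dS I c κ z * dS (-I) i a z * W z j k + κ z * dS I c (dS (-I) i a) z * W z j k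
            + κ z * dS (-I) i a z * dS I c (fun y => W y j k) z := fun i c j k =>
        dS_mul3 sk (sa.dS (-I) i) (sW j k)
      have d1 : ∀ i j k, DifferentiableAt ℝ (fun y => a y * dS I i κ y * W y j k) z := fun i j k =>
        ((c1 i j k).at z).diff
      have d2 : ∀ i j k, DifferentiableAt ℝ (fun y => κ y * dS (-I) i a y * W y j k) z := fun i j k =>
        ((c2 i j k).at z).diff
      rw [hF0, hF1, hG0, hG1, dS_sub (d1 _ _ _) (d1 _ _ _), dS_sub (d1 _ _ _) (d1 _ _ _),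
        dS_sub (d2 _ _ _) (d2 _ _ _), dS_sub (d2 _ _ _) (d2 _ _ _)]
      simp only [e1, e2]
      have w1 := (hW z hz).l
      have w2 := (hW z hz).r
      have m : ∀ b c : Fin 2, dS I b (dS (-I) c a) z = dS (-I) c (dS I b a) z := fun b c => dS_comm sa
      simp only [m, pd, hs_apply]
      rw [w1 1 1 0, w1 1 0 0, w2 1 1 0, w2 0 1 0]
      ring
    · have z1 : ∀ i j, dS (-I) i (dS I j κ) z = 0 := fun i j => ((hκ.dS I j).dS (-I) i).zero_off hz
      rw [(cF0.dS _ _).zero_off hz, (cF1.dS _ _).zero_off hz, (cG0.dS _ _).zero_off hz,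
        (cG1.dS _ _).zero_off hz, hκ.zero_off hz]
      simp only [pd, hs_apply, z1]
      ring
  have i1 : Integrable fun z => a z * pd (hs κ z) (W z) := by
    have : CS U (fun z => a z * pd (hs κ z) (W z)) := by
      have h := fun i j k l => (CS.mul' ha ((hκ.dS I j).dS (-I) i)).mul (hWs k l)
      have e : (fun z => a z * pd (hs κ z) (W z)) = fun z =>
          ((a z * dS (-I) 0 (dS I 0 κ) z * W z 1 1 + a z * dS (-I) 1 (dS I 1 κ) z * W z 0 0) -
            a z * dS (-I) 0 (dS I 1 κ) z * W z 1 0) - a z * dS (-I) 1 (dS I 0 κ) z * W z 0 1 := by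
        funext z; simp only [pd, hs_apply]; ring
      rw [e]
      exact (((h 0 0 1 1).add (h 1 1 0 0)).sub' (h 0 1 1 0)).sub' (h 1 0 0 1)
    exact this.integrable
  have i2 : Integrable fun z => κ z * pd (hs a z) (W z) := by
    have hp : ∀ z ∈ U, Sm z (fun y => pd (hs a y) (W y)) := by
      intro z hz
      have h1 : ∀ i j, Sm z (fun y => hs a y i j) := fun i j => ((ha z hz).dS I j).dS (-I) i
      have h2 := fun i j => hWs i j z hz
      exact ((((h1 0 0).mul (h2 1 1)).add ((h1 1 1).mul (h2 0 0))).sub ((h1 0 1).mul (h2 1 0))).sub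
        ((h1 1 0).mul (h2 0 1))
    exact (hκ.mul hp).integrable
  have h3 : ∫ z, (a z * pd (hs κ z) (W z) - κ z * pd (hs a z) (W z)) = 0 := by
    rw [integral_congr_ae (Eventually.of_forall key), integral_sub, integral_add, integral_add,
      int_dS cF0, int_dS cF1, int_dS cG0, int_dS cG1]
    · simp
    · exact (cG0.dS _ _).integrable
    · exact (cG1.dS _ _).integrable
    · exact (cF0.dS _ _).integrable
    · exact (cF1.dS _ _).integrable
    · exact (cF0.dS _ _).integrable.add (cF1.dS _ _).integrable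
    · exact (cG0.dS _ _).integrable.add (cG1.dS _ _).integrable
  rw [integral_sub i1 i2] at h3
  exact sub_eq_zero.1 h3

/-- two integrations by parts -/
theorem parts2 {U : Set (Cn n)} {κ f : Cn n → ℂ} (hκ : CS U κ) (hf : ∀ z ∈ U, Sm z f)
    (s t : ℂ) (c d : Fin n) :
    ∫ z, κ z * dS s c (dS t d f) z = ∫ z, dS s c (dS t d κ) z * f z := by
  have hf1 : ∀ z ∈ U, Sm z (dS t d f) := fun z hz => (hf z hz).dS t d
  have c1 := hκ.mul hf1
  have c2 := (hκ.dS s c).mul hf
  have p1 : ∀ z, dS s c (fun y => κ y * dS t d f y) z =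
      dS s c κ z * dS t d f z + κ z * dS s c (dS t d f) z := by
    intro z
    by_cases hz : z ∈ U
    · exact dS_mul (hκ.at z).diff (hf1 z hz).diff
    · rw [(c1.dS s c).zero_off hz, (hκ.dS s c).zero_off hz, hκ.zero_off hz]
      ring
  have p2 : ∀ z, dS t d (fun y => dS s c κ y * f y) z =
      dS t d (dS s c κ) z * f z + dS s c κ z * dS t d f z := by
    intro z
    by_cases hz : z ∈ U
    · exact dS_mul ((hκ.dS s c).at z).diff (hf z hz).diff
    · rw [(c2.dS t d).zero_off hz, ((hκ.dS s c).dS t d).zero_off hz, (hκ.dS s c).zero_off hz]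
      ring
  have j1 : Integrable fun z => dS s c κ z * dS t d f z := ((hκ.dS s c).mul hf1).integrable
  have j2 : Integrable fun z => κ z * dS s c (dS t d f) z :=
    (hκ.mul (fun z hz => (hf1 z hz).dS s c)).integrable
  have j3 : Integrable fun z => dS t d (dS s c κ) z * f z :=
    (((hκ.dS s c).dS t d).mul hf).integrable
  have e1 := int_dS c1 s c
  rw [integral_congr_ae (Eventually.of_forall p1), integral_add j1 j2] at e1
  have e2 := int_dS c2 t d
  rw [integral_congr_ae (Eventually.of_forall p2), integral_add j3 j1] at e2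
  have e3 : ∫ z, dS s c (dS t d κ) z * f z = ∫ z, dS t d (dS s c κ) z * f z := by
    congr 1; funext z; rw [dS_comm (hκ.at z)]
  rw [e3]
  linear_combination e1 - e2

theorem int4 {f1 f2 f3 f4 : Cn n → ℂ} (h1 : Integrable f1) (h2 : Integrable f2)
    (h3 : Integrable f3) (h4 : Integrable f4) :
    ∫ z, (((f1 z + f2 z) - f3 z) - f4 z) =
      ((∫ z, f1 z) + (∫ z, f2 z) - ∫ z, f3 z) - ∫ z, f4 z := by
  have h12 : Integrable (fun z => f1 z + f2 z) := h1.add h2
  have h123 : Integrable (fun z => (f1 z + f2 z) - f3 z) := h12.sub h3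
  rw [integral_sub h123 h4, integral_sub h12 h3, integral_add h1 h2]

/-- Stokes' formula for a `(1,1)`-form -/
theorem parts_ddm {U : Set (Cn 2)} {κ : Cn 2 → ℂ} {b : Cn 2 → Matrix (Fin 2) (Fin 2) ℂ}
    (hκ : CS U κ) (hb : ∀ z ∈ U, SmM z b) :
    ∫ z, κ z * ddm b z = ∫ z, pd (hs κ z) (b z) := by
  have hbs : ∀ i j, ∀ z ∈ U, Sm z (fun y => b y i j) := fun i j z hz => hb z hz i j
  have j1 : ∀ (s t : ℂ) (c d i j : Fin 2),
      Integrable fun z => κ z * dS s c (dS t d (fun y => b y i j)) z :=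
    fun s t c d i j => (hκ.mul (fun z hz => ((hbs i j z hz).dS t d).dS s c)).integrable
  have j2 : ∀ (s t : ℂ) (c d i j : Fin 2), Integrable fun z => dS s c (dS t d κ) z * b z i j :=
    fun s t c d i j => (((hκ.dS t d).dS s c).mul (hbs i j)).integrable
  have l1 : ∫ z, κ z * ddm b z = ∫ z,
      (((κ z * dS (-I) 0 (dS I 0 (fun y => b y 1 1)) z + κ z * dS (-I) 1 (dS I 1 (fun y => b y 0 0)) z)
      - κ z * dS (-I) 0 (dS I 1 (fun y => b y 1 0)) z)
      - κ z * dS (-I) 1 (dS I 0 (fun y => b y 0 1)) z) := by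
    congr 1; funext z; unfold ddm; ring
  have l2 : ∫ z, pd (hs κ z) (b z) = ∫ z,
      (((dS (-I) 0 (dS I 0 κ) z * b z 1 1 + dS (-I) 1 (dS I 1 κ) z * b z 0 0)
      - dS (-I) 0 (dS I 1 κ) z * b z 1 0) - dS (-I) 1 (dS I 0 κ) z * b z 0 1) := by
    congr 1
  rw [l1, l2, int4 (j1 _ _ _ _ _ _) (j1 _ _ _ _ _ _) (j1 _ _ _ _ _ _) (j1 _ _ _ _ _ _),
    int4 (j2 _ _ _ _ _ _) (j2 _ _ _ _ _ _) (j2 _ _ _ _ _ _) (j2 _ _ _ _ _ _),
    parts2 hκ (hbs 1 1), parts2 hκ (hbs 0 0), parts2 hκ (hbs 1 0), parts2 hκ (hbs 0 1)]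

end

end Crest.Agent.R257.Idx1_761
end

-- ▼ part R257/Idx2_761
section

/-!
# R257 (S0395), leaf GB-IDX, part 2 (helper761): the flat model

* `flat_const` : `∫_{C^2} 2 / (|w|^2 + 1)^3 = π^2`
* `flat_G`     : `∫_{C^2} 2 det G / (w^* G w + 1)^3 = π^2` for `G` positive definite
* `int_norm3`  : `|z|^{-3}` is integrable on balls of `C^2`
-/

set_option autoImplicit false
set_option linter.unusedSectionVars false

open Set Filter Topology Complex MeasureTheory
open scoped ContDiff Matrix ComplexConjugate ComplexOrder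

namespace Crest.Agent.R257.Idx2_761

open Crest.Agent.R275.Geo

noncomputable section

theorem finrank4 : Module.finrank ℝ (Cn 2) = 4 := by
  have h := Module.finrank_mul_finrank ℝ ℂ (Cn 2)
  rw [Complex.finrank_real_complex, finrank_euclideanSpace_fin] at h
  omega

theorem vol_ball1 : (volume : Measure (Cn 2)).real (Metric.ball 0 1) = Real.pi ^ 2 / 2 := by
  rw [Measure.real, InnerProductSpace.volume_ball, finrank4]
  have h1 : Real.Gamma ((4 : ℕ) / 2 + 1) = 2 := by
    have : ((4 : ℕ) : ℝ) / 2 + 1 = ((2 : ℕ) : ℝ) + 1 := by norm_num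
    rw [this, Real.Gamma_nat_eq_factorial]
    norm_num
  rw [h1]
  have h2 : √Real.pi ^ 4 = Real.pi ^ 2 := by
    rw [show (4 : ℕ) = 2 * 2 from rfl, pow_mul, Real.sq_sqrt Real.pi_pos.le]
  rw [h2, ENNReal.ofReal_one, one_pow, one_mul, ENNReal.toReal_ofReal (by positivity)]

theorem radial_deriv (y : ℝ) :
    HasDerivAt (fun y : ℝ => y ^ 4 / (2 * (y ^ 2 + 1) ^ 2)) (y ^ 3 * (2 / (y ^ 2 + 1) ^ 3)) y := by
  have h0 : y ^ 2 + 1 ≠ 0 := by positivity
  have h1 : HasDerivAt (fun y : ℝ => y ^ 4) (4 * y ^ 3) y := by simpa using hasDerivAt_pow 4 y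
  have h2 : HasDerivAt (fun y : ℝ => y ^ 2 + 1) (2 * y) y := by
    simpa using (hasDerivAt_pow 2 y).add_const 1
  have h3 : HasDerivAt (fun y : ℝ => 2 * (y ^ 2 + 1) ^ 2) (2 * (2 * (y ^ 2 + 1) * (2 * y))) y := by
    simpa using (h2.pow 2).const_mul 2
  refine (h1.div h3 (by positivity)).congr_deriv ?_
  field_simp
  ring

theorem radial_lim : Tendsto (fun y : ℝ => y ^ 4 / (2 * (y ^ 2 + 1) ^ 2)) atTop (𝓝 (1 / 2)) := by
  have h1 : Tendsto (fun y : ℝ => (y ^ 2)⁻¹) atTop (𝓝 0) :=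
    (tendsto_pow_atTop (by norm_num : (2 : ℕ) ≠ 0)).inv_tendsto_atTop
  have h2 : Tendsto (fun y : ℝ => 1 / (2 * (1 + (y ^ 2)⁻¹) ^ 2)) atTop (𝓝 (1 / (2 * (1 + 0) ^ 2))) := by
    refine Tendsto.div tendsto_const_nhds ?_ (by norm_num)
    exact ((tendsto_const_nhds.add h1).pow 2).const_mul 2
  have h3 : (1 : ℝ) / (2 * (1 + 0) ^ 2) = 1 / 2 := by norm_num
  rw [h3] at h2
  refine h2.congr' ?_
  filter_upwards [eventually_gt_atTop (0 : ℝ)] with y hy
  field_simp

theorem radial_int : ∫ y in Ioi (0 : ℝ), y ^ 3 * (2 / (y ^ 2 + 1) ^ 3) = 1 / 2 := by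
  have h := integral_Ioi_of_hasDerivAt_of_nonneg' (a := 0) (fun x _ => radial_deriv x)
    (fun x hx => by have : (0:ℝ) < x := hx; positivity) radial_lim
  rw [h]
  norm_num

theorem radial_intble : IntegrableOn (fun y : ℝ => y ^ 3 * (2 / (y ^ 2 + 1) ^ 3)) (Ioi 0) :=
  integrableOn_Ioi_deriv_of_nonneg' (a := 0) (fun x _ => radial_deriv x)
    (fun x hx => by have : (0:ℝ) < x := hx; positivity) radial_lim

theorem flat_const : ∫ w : Cn 2, 2 / (‖w‖ ^ 2 + 1) ^ 3 = Real.pi ^ 2 := by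
  have h := integral_fun_norm_addHaar (volume : Measure (Cn 2)) (fun y : ℝ => 2 / (y ^ 2 + 1) ^ 3)
  rw [h, finrank4, vol_ball1]
  have : ∫ y in Ioi (0 : ℝ), y ^ (4 - 1) • (2 / (y ^ 2 + 1) ^ 3) = 1 / 2 := by
    simpa only [smul_eq_mul] using radial_int
  rw [this]
  simp only [nsmul_eq_mul, smul_eq_mul]
  push_cast
  ring

theorem flat_intble : Integrable (fun w : Cn 2 => 2 / (‖w‖ ^ 2 + 1) ^ 3) := by
  refine (integrable_fun_norm_addHaar (volume : Measure (Cn 2))
    (f := fun y : ℝ => 2 / (y ^ 2 + 1) ^ 3)).2 ?_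
  rw [finrank4]
  simpa only [smul_eq_mul] using radial_intble

/-- the linear map of a matrix -/
def LB (B : Matrix (Fin 2) (Fin 2) ℂ) : Cn 2 →ₗ[ℂ] Cn 2 := Matrix.toLpLin 2 2 B

theorem LB_apply (B : Matrix (Fin 2) (Fin 2) ℂ) (w : Cn 2) (i : Fin 2) :
    LB B w i = ∑ a, B i a * w a := rfl

/-- real determinant of a complex linear map -/
theorem det_real (B : Matrix (Fin 2) (Fin 2) ℂ) :
    LinearMap.det ((LB B).restrictScalars ℝ : Cn 2 →ₗ[ℝ] Cn 2) = normSq B.det := by
  rw [LinearMap.det_restrictScalars, LB, Matrix.toLpLin_eq_toLin, LinearMap.det_toLin,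
    Algebra.norm_complex_eq]
  rfl

/-- the Hermitian form of `G` -/
def qf (G : Matrix (Fin 2) (Fin 2) ℂ) (w : Cn 2) : ℝ := (∑ a, ∑ b, G a b * w a * conj (w b)).re

theorem qf_eq (C : Matrix (Fin 2) (Fin 2) ℂ) (w : Cn 2) :
    ∑ a, ∑ b, (Cᴴ * C) a b * w a * conj (w b) = ((‖LB (C.map conj) w‖ ^ 2 : ℝ) : ℂ) := by
  rw [EuclideanSpace.norm_sq_eq]
  simp only [Fin.sum_univ_two, LB_apply, Matrix.mul_apply, Matrix.conjTranspose_apply,
    Matrix.map_apply, ← Complex.mul_conj', ofReal_add, ofReal_pow, map_add, map_mul,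
    Complex.conj_conj, RCLike.star_def]
  ring

open scoped MatrixOrder in
theorem exists_fac {G : Matrix (Fin 2) (Fin 2) ℂ} (h : G.PosDef) :
    ∃ C : Matrix (Fin 2) (Fin 2) ℂ, G = Cᴴ * C ∧ C.det ≠ 0 := by
  obtain ⟨B, hB⟩ := CStarAlgebra.nonneg_iff_eq_star_mul_self.mp h.posSemidef.nonneg
  refine ⟨B, hB, fun h0 => h.det_pos.ne' ?_⟩
  rw [hB, Matrix.det_mul, h0, mul_zero]

theorem flat_G {G : Matrix (Fin 2) (Fin 2) ℂ} (hG : G.PosDef) :
    Integrable (fun w : Cn 2 => 2 * G.det.re / (qf G w + 1) ^ 3) ∧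
      ∫ w : Cn 2, 2 * G.det.re / (qf G w + 1) ^ 3 = Real.pi ^ 2 := by
  obtain ⟨C, hC, hC0⟩ := exists_fac hG
  set L := ((LB (C.map conj)).restrictScalars ℝ : Cn 2 →ₗ[ℝ] Cn 2) with hL
  have hd : LinearMap.det L = normSq C.det := by
    rw [hL, det_real]
    have : (C.map conj).det = conj C.det := by
      simp only [Matrix.det_fin_two, Matrix.map_apply, map_sub, map_mul]
    rw [this, Complex.normSq_conj]
  have hpos : 0 < normSq C.det := Complex.normSq_pos.2 hC0
  have hd0 : LinearMap.det L ≠ 0 := by rw [hd]; exact hpos.ne'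
  have hdet : G.det.re = normSq C.det := by
    rw [hC, Matrix.det_mul, Matrix.det_conjTranspose, RCLike.star_def, mul_comm, Complex.mul_conj,
      ofReal_re]
  have hq : ∀ w, qf G w = ‖L w‖ ^ 2 := by
    intro w
    rw [qf, hC, qf_eq, ofReal_re]
    rfl
  have hmap := Measure.map_linearMap_addHaar_eq_smul_addHaar (volume : Measure (Cn 2)) hd0
  rw [hd, abs_of_pos (inv_pos.2 hpos)] at hmap
  have hLc : Continuous L := L.continuous_of_finiteDimensional
  have hfun : (fun w : Cn 2 => 2 * G.det.re / (qf G w + 1) ^ 3) =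
      fun w => normSq C.det * (fun v : Cn 2 => 2 / (‖v‖ ^ 2 + 1) ^ 3) (L w) := by
    funext w
    rw [hq, hdet]
    ring
  have hm : AEStronglyMeasurable (fun v : Cn 2 => 2 / (‖v‖ ^ 2 + 1) ^ 3)
      (Measure.map L (volume : Measure (Cn 2))) := by
    have : Continuous (fun v : Cn 2 => 2 / (‖v‖ ^ 2 + 1) ^ 3) :=
      continuous_const.div (by fun_prop) fun v => by positivity
    exact this.aestronglyMeasurable
  rw [hfun]
  constructor
  · refine Integrable.const_mul ?_ _
    refine (integrable_map_measure hm hLc.aemeasurable).1 ?_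
    rw [hmap]
    exact flat_intble.smul_measure ENNReal.ofReal_ne_top
  · rw [integral_const_mul, ← integral_map hLc.aemeasurable hm, hmap, integral_smul_measure,
      flat_const, ENNReal.toReal_ofReal (by positivity), smul_eq_mul]
    field_simp

/-- lower bound of the form -/
theorem qf_ge {G : Matrix (Fin 2) (Fin 2) ℂ} (hG : G.PosDef) :
    ∃ c > 0, ∀ w : Cn 2, c * ‖w‖ ^ 2 ≤ qf G w := by
  obtain ⟨C, hC, hC0⟩ := exists_fac hG
  have hinj : Function.Injective (LB (C.map conj)) := by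
    have hd : (C.map conj).det ≠ 0 := by
      have : (C.map conj).det = conj C.det := by
        simp only [Matrix.det_fin_two, Matrix.map_apply, map_sub, map_mul]
      rw [this]
      simpa using hC0
    have : LinearMap.det (LB (C.map conj)) ≠ 0 := by
      rw [LB, Matrix.toLpLin_eq_toLin, LinearMap.det_toLin]
      exact hd
    exact (LinearEquiv.ofIsUnitDet (f := LB (C.map conj)) (v := (PiLp.basisFun 2 ℂ (Fin 2)))
      (v' := (PiLp.basisFun 2 ℂ (Fin 2))) (by rw [LinearMap.det_toMatrix]; exact this.isUnit)).injective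
  obtain ⟨K, hK, hanti⟩ := (LB (C.map conj)).exists_antilipschitzWith (LinearMap.ker_eq_bot.2 hinj)
  refine ⟨((K : ℝ) ^ 2)⁻¹, by positivity, fun w => ?_⟩
  have h1 : ‖w‖ ≤ K * ‖LB (C.map conj) w‖ := by
    have := hanti.le_mul_dist w 0
    simpa using this
  have h2 : qf G w = ‖LB (C.map conj) w‖ ^ 2 := by
    rw [qf, hC, qf_eq, ofReal_re]
  rw [h2, inv_mul_le_iff₀ (by positivity), ← mul_pow]
  exact pow_le_pow_left₀ (norm_nonneg _) h1 2

theorem int_norm3 (R : ℝ) : IntegrableOn (fun z : Cn 2 => (‖z‖ ^ 3)⁻¹) (Metric.ball 0 R) := by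
  have h := (integrable_fun_norm_addHaar (volume : Measure (Cn 2))
    (f := fun y : ℝ => if y < R then (y ^ 3)⁻¹ else 0)).2 (by
      rw [finrank4]
      have h1 : IntegrableOn (fun y : ℝ => if y < R then (1:ℝ) else 0) (Ioi 0) := by
        have : (fun y : ℝ => if y < R then (1:ℝ) else 0) = (Iio R).indicator (fun _ => (1:ℝ)) := by
          funext y; simp [indicator]
        rw [this, IntegrableOn, integrable_indicator_iff measurableSet_Iio, IntegrableOn,
          Measure.restrict_restrict measurableSet_Iio]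
        refine integrableOn_const (by
          have : Iio R ∩ Ioi 0 = Ioo 0 R := by ext; simp [and_comm]
          rw [this, Real.volume_Ioo]; exact ENNReal.ofReal_ne_top)
      refine h1.congr_fun (fun y hy => ?_) measurableSet_Ioi
      have hy0 : (0:ℝ) < y := hy
      show (if y < R then (1:ℝ) else 0) = y ^ (4 - 1) • (if y < R then (y ^ 3)⁻¹ else 0)
      split_ifs
      · show (1:ℝ) = y ^ 3 * (y ^ 3)⁻¹
        rw [mul_inv_cancel₀ (by positivity)]
      · simp)
  refine (h.integrableOn (s := Metric.ball 0 R)).congr_fun (fun z hz => ?_) measurableSet_ball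
  rw [mem_ball_zero_iff] at hz
  show (if ‖z‖ < R then (‖z‖ ^ 3)⁻¹ else 0) = _
  rw [if_pos hz]

end

end Crest.Agent.R257.Idx2_761
end

-- ▼ part R257/Idx3_761

/-!
# R257 (S0395), leaf GB-IDX, part 3 (helper761): Taylor estimates at a nondegenerate zero

`NZ q p` : `q` is smooth at `p`, vanishes there to second order, its `(2,0)`-part is zero and its
complex Hessian `G` is positive definite. Then near `p`
`q = w^* G w + O(|w|^3)`, `∂_a q = O(|w|)`, `N = q det Q - pd Q (∂q ∂̄q) = O(|w|^3)`, `w = z - p`.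
-/

set_option autoImplicit false
set_option linter.unusedSectionVars false

open Set Filter Topology Complex MeasureTheory Asymptotics
open scoped ContDiff Matrix ComplexConjugate ComplexOrder

namespace Crest.Agent.R257.Idx3_761

open Crest.Agent.R275.Geo Crest.Agent.R275.EDR890 Crest.Agent.R273.Calc_243
open Crest.Agent.R273.Hess_333 Crest.Agent.R273.HessB_333 Crest.Agent.R273.BochD_101
open Crest.Agent.R257.C2F1_625 Crest.Agent.R257.Idx1_761 Crest.Agent.R257.Idx2_761

noncomputable section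

variable {n : ℕ}

/-- `f = O(|z - p|^k)` near `p` -/
def Oo (p : Cn n) (k : ℕ) (f : Cn n → ℂ) : Prop := f =O[𝓝 p] fun z => ‖z - p‖ ^ k

namespace Oo

variable {p : Cn n} {j k : ℕ} {f g : Cn n → ℂ}

theorem add (hf : Oo p k f) (hg : Oo p k g) : Oo p k (fun z => f z + g z) := IsBigO.add hf hg

theorem sub (hf : Oo p k f) (hg : Oo p k g) : Oo p k (fun z => f z - g z) := IsBigO.sub hf hg

theorem neg (hf : Oo p k f) : Oo p k (fun z => - f z) := IsBigO.neg_left hf

theorem mul (hf : Oo p j f) (hg : Oo p k g) : Oo p (j + k) (fun z => f z * g z) := by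
  have h := IsBigO.mul hf hg
  refine h.congr_right fun z => ?_
  rw [pow_add]

theorem mono (h : j ≤ k) (hf : Oo p k f) : Oo p j f := by
  refine IsBigO.trans hf (IsBigO.of_bound 1 ?_)
  have h1 : ∀ᶠ z in 𝓝 p, ‖z - p‖ < 1 := by
    filter_upwards [Metric.ball_mem_nhds p one_pos] with z hz
    rwa [← dist_eq_norm]
  filter_upwards [h1] with z hz
  rw [one_mul, norm_pow, norm_pow, norm_norm]
  exact pow_le_pow_of_le_one (norm_nonneg _) hz.le h

theorem const (c : ℂ) : Oo p 0 (fun _ => c) := by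
  unfold Oo
  simp only [pow_zero]
  exact isBigO_const_const c one_ne_zero _

theorem of_cont (h : ContinuousAt f p) : Oo p 0 f := by
  unfold Oo
  simp only [pow_zero]
  exact h.isBigO_one ℝ

theorem of_diff (h : DifferentiableAt ℝ f p) (h0 : f p = 0) : Oo p 1 f := by
  have := h.isBigO_sub
  simp only [h0, sub_zero] at this
  unfold Oo
  simp only [pow_one]
  exact this.norm_right

theorem congr (hf : Oo p k f) (h : f =ᶠ[𝓝 p] g) : Oo p k g := IsBigO.congr' hf h EventuallyEq.rfl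

theorem cjg (hf : Oo p k f) : Oo p k (fun z => conj (f z)) := by
  refine IsBigO.trans (IsBigO.of_bound 1 (Eventually.of_forall fun z => ?_)) hf
  rw [RCLike.norm_conj, one_mul]

theorem coord (a : Fin n) : Oo p 1 (fun z => (z - p) a) := by
  refine IsBigO.of_bound 1 (Eventually.of_forall fun z => ?_)
  rw [one_mul, pow_one, norm_norm]
  exact PiLp.norm_apply_le _ _

end Oo

/-- a function is as small as its derivative allows -/
theorem oo_integ {p : Cn n} {k : ℕ} {f : Cn n → ℂ} (hf : Sm p f) (h0 : f p = 0)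
    (h1 : ∀ a, Oo p k (dS (-I) a f)) (h2 : ∀ a, Oo p k (dS I a f)) : Oo p (k + 1) f := by
  have hL : (fun z => fderiv ℝ f z) =O[𝓝 p] fun z => ‖z - p‖ ^ k := by
    have e : ∀ z, ‖fderiv ℝ f z‖ ≤ ∑ s : WI n, ‖wdL s (fderiv ℝ f z)‖ := by
      intro z
      refine ContinuousLinearMap.opNorm_le_bound _ (Finset.sum_nonneg fun _ _ => norm_nonneg _) ?_
      intro v
      rw [apply_eq_sum (fderiv ℝ f z) v, Finset.sum_mul]
      refine (norm_sum_le _ _).trans (Finset.sum_le_sum fun s _ => ?_)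
      rw [norm_smul, mul_comm]
      refine mul_le_mul_of_nonneg_left ?_ (norm_nonneg _)
      rw [ze_apply]
      have h3 : ‖cj s.1 (v s.2)‖ = ‖v s.2‖ := by
        cases s.1 <;> simp
      rw [h3]
      exact PiLp.norm_apply_le _ _
    refine IsBigO.trans (IsBigO.of_bound 1 (Eventually.of_forall fun z => ?_))
      (g := fun z => ∑ s : WI n, ‖wdL s (fderiv ℝ f z)‖) ?_
    · rw [one_mul, Real.norm_of_nonneg (Finset.sum_nonneg fun _ _ => norm_nonneg _)]
      exact e z
    · refine IsBigO.fun_sum fun s _ => ?_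
      obtain ⟨b, a⟩ := s
      cases b
      · exact IsBigO.norm_left (h1 a)
      · exact IsBigO.norm_left (h2 a)
  obtain ⟨C, hC⟩ := hL.bound
  have hd : ∀ᶠ z in 𝓝 p, DifferentiableAt ℝ f z := ev_diff hf
  obtain ⟨r, hr, hb⟩ := Metric.eventually_nhds_iff_ball.1 (hC.and hd)
  refine IsBigO.of_bound (|C|) ?_
  filter_upwards [Metric.ball_mem_nhds p hr] with z hz
  rw [norm_pow, norm_norm, pow_succ, ← mul_assoc]
  have hconv : Convex ℝ (Metric.closedBall p ‖z - p‖) := convex_closedBall _ _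
  have hsub : Metric.closedBall p ‖z - p‖ ⊆ Metric.ball p r := by
    rw [← dist_eq_norm]
    exact Metric.closedBall_subset_ball hz
  have key := hconv.norm_image_sub_le_of_norm_fderiv_le (𝕜 := ℝ) (f := f) (C := |C| * ‖z - p‖ ^ k)
    (x := p) (y := z) (fun y hy => (hb y (hsub hy)).2) (fun y hy => ?_)
    (Metric.mem_closedBall_self (norm_nonneg _)) (by rw [Metric.mem_closedBall, dist_eq_norm])
  · rwa [h0, sub_zero] at key
  · refine ((hb y (hsub hy)).1).trans ?_
    rw [norm_pow, norm_norm]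
    have h3 : ‖y - p‖ ≤ ‖z - p‖ := by
      rw [← dist_eq_norm]; exact hy
    exact mul_le_mul (le_abs_self C) (pow_le_pow_left₀ (norm_nonneg _) h3 k) (by positivity)
      (abs_nonneg C)

theorem dS_coord {p : Cn n} (s : ℂ) (c b : Fin n) (z : Cn n) :
    dS s c (fun y => (y - p) b) z = if b = c then (1 / 2 : ℂ) * (1 + s * I) else 0 := by
  have h : HasFDerivAt (𝕜 := ℝ) (fun y : Cn n => (y - p) b)
      ((EuclideanSpace.proj b : Cn n →L[ℂ] ℂ).restrictScalars ℝ) z := by
    have h1 := ((EuclideanSpace.proj b : Cn n →L[ℂ] ℂ).restrictScalars ℝ).hasFDerivAt (x := z)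
    have h2 := h1.sub_const (p b)
    exact h2
  rw [dS, h.fderiv]
  by_cases h1 : b = c
  · subst h1
    simp
  · simp [h1]

theorem dS_coord_f {p : Cn n} (c b : Fin n) (z : Cn n) :
    dS (-I) c (fun y => (y - p) b) z = if b = c then 1 else 0 := by
  rw [dS_coord]
  split_ifs
  · rw [neg_mul, I_mul_I]; norm_num
  · rfl

theorem dS_coord_t {p : Cn n} (c b : Fin n) (z : Cn n) :
    dS I c (fun y => (y - p) b) z = 0 := by
  rw [dS_coord]
  split_ifs
  · rw [I_mul_I]; norm_num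
  · rfl

theorem sm_coord {p : Cn n} (b : Fin n) (z : Cn n) : Sm z (fun y => (y - p) b) := by
  have h : ContDiff ℝ ∞ (fun y : Cn n => (y - p) b) :=
    (((EuclideanSpace.proj b : Cn n →L[ℂ] ℂ).restrictScalars ℝ).contDiff).sub contDiff_const
  exact h.contDiffAt

theorem sm_ccoord {p : Cn n} (b : Fin n) (z : Cn n) : Sm z (fun y => conj ((y - p) b)) :=
  Complex.conjCLE.contDiff.contDiffAt.comp z (sm_coord b z)

theorem dS_ccoord_f {p : Cn n} (c b : Fin n) (z : Cn n) :
    dS (-I) c (fun y => conj ((y - p) b)) z = 0 := by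
  rw [dS_conj (sm_coord b z).diff, conjnI, dS_coord_t, map_zero]

theorem dS_ccoord_t {p : Cn n} (c b : Fin n) (z : Cn n) :
    dS I c (fun y => conj ((y - p) b)) z = if b = c then 1 else 0 := by
  rw [dS_conj (sm_coord b z).diff, Complex.conj_I, dS_coord_f]
  split_ifs <;> simp

/-- nondegenerate zero of a nonnegative function `|V|^2_H` -/
structure NZ (q : Cn 2 → ℝ) (p : Cn 2) : Prop where
  sm : ∀ᶠ z in 𝓝 p, ContDiffAt ℝ ∞ q z
  v0 : q p = 0
  v1 : ∀ a, dS (-I) a (cu q) p = 0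
  v2 : ∀ a b, dS (-I) a (dS (-I) b (cu q)) p = 0
  pos : (hess q p).PosDef

namespace NZ

variable {q : Cn 2 → ℝ} {p : Cn 2}

/-- `∂_a` of the quadratic part -/
def la (G : Matrix (Fin 2) (Fin 2) ℂ) (p : Cn 2) (a : Fin 2) (z : Cn 2) : ℂ :=
  G a 0 * conj ((z - p) 0) + G a 1 * conj ((z - p) 1)

/-- `∂̄_b` of the quadratic part -/
def lb (G : Matrix (Fin 2) (Fin 2) ℂ) (p : Cn 2) (b : Fin 2) (z : Cn 2) : ℂ :=
  G 0 b * (z - p) 0 + G 1 b * (z - p) 1

/-- the quadratic part -/
def qq (G : Matrix (Fin 2) (Fin 2) ℂ) (p : Cn 2) (z : Cn 2) : ℂ :=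
  (z - p) 0 * la G p 0 z + (z - p) 1 * la G p 1 z

theorem hb {q : Cn n → ℝ} {z : Cn n} (h : ContDiffAt ℝ ∞ q z) (b : Fin n) :
    dS I b (cu q) z = conj (dS (-I) b (cu q) z) :=
  (conj_wd_real (false, b) (h.differentiableAt (by simp))).symm

theorem smq (h : NZ q p) : Sm p (cu q) := contDiffAt_cu h.sm.self_of_nhds

theorem evq (h : NZ q p) : ∀ᶠ z in 𝓝 p, Sm z (cu q) := h.sm.mono fun _ hz => contDiffAt_cu hz

theorem evb (h : NZ q p) (b : Fin 2) : dS I b (cu q) =ᶠ[𝓝 p] fun z => conj (dS (-I) b (cu q) z) := by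
  filter_upwards [h.sm] with z hz using hb hz b

theorem oH (h : NZ q p) (a b : Fin 2) : Oo p 1 (fun z => hess q z a b - hess q p a b) := by
  refine Oo.of_diff ?_ (sub_self _)
  have h1 : Sm p (fun z => hess q z a b) := contDiffAt_hess h.sm.self_of_nhds a b
  exact h1.diff.sub_const _

theorem sla (G : Matrix (Fin 2) (Fin 2) ℂ) (a : Fin 2) (z : Cn 2) : Sm z (la G p a) :=
  (contDiffAt_const.mul (sm_ccoord 0 z)).add (contDiffAt_const.mul (sm_ccoord 1 z))

theorem dla (G : Matrix (Fin 2) (Fin 2) ℂ) (s : ℂ) (a c : Fin 2) (z : Cn 2) :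
    dS s c (la G p a) z = G a 0 * dS s c (fun y => conj ((y - p) 0)) z +
      G a 1 * dS s c (fun y => conj ((y - p) 1)) z := by
  have e1 := (sm_ccoord (p := p) 0 z).diff
  have e2 := (sm_ccoord (p := p) 1 z).diff
  rw [← dS_const_mul _ e1, ← dS_const_mul _ e2]
  exact dS_add (e1.const_mul _) (e2.const_mul _)

theorem dla_f (G : Matrix (Fin 2) (Fin 2) ℂ) (a c : Fin 2) (z : Cn 2) :
    dS (-I) c (la G p a) z = 0 := by
  rw [dla, dS_ccoord_f, dS_ccoord_f]
  ring

theorem dla_t (G : Matrix (Fin 2) (Fin 2) ℂ) (a c : Fin 2) (z : Cn 2) :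
    dS I c (la G p a) z = G a c := by
  rw [dla, dS_ccoord_t, dS_ccoord_t]
  fin_cases c <;> simp

theorem oA (h : NZ q p) (a : Fin 2) :
    Oo p 2 (fun z => dS (-I) a (cu q) z - la (hess q p) p a z) := by
  have sq := h.smq
  refine oo_integ ((sq.dS (-I) a).sub (sla _ a p)) ?_ ?_ ?_
  · simp [h.v1 a, la]
  · intro c
    have e : Oo p 1 (dS (-I) c (dS (-I) a (cu q))) :=
      Oo.of_diff (((sq.dS (-I) a).dS (-I) c).diff) (h.v2 c a)
    refine e.congr ?_
    filter_upwards [h.evq] with z hz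
    rw [dS_sub (hz.dS _ _).diff (sla _ _ z).diff, dla_f, sub_zero]
  · intro c
    refine (h.oH a c).congr ?_
    filter_upwards [h.evq] with z hz
    rw [dS_sub (hz.dS _ _).diff (sla _ _ z).diff, dla_t, dS_comm hz]
    rfl

theorem lb_eq (h : NZ q p) (b : Fin 2) (z : Cn 2) :
    lb (hess q p) p b z = conj (la (hess q p) p b z) := by
  unfold lb la
  rw [map_add, map_mul, map_mul, Complex.conj_conj, Complex.conj_conj,
    hess_symm h.sm.self_of_nhds, hess_symm h.sm.self_of_nhds]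

theorem oA' (h : NZ q p) (b : Fin 2) :
    Oo p 2 (fun z => dS I b (cu q) z - lb (hess q p) p b z) := by
  refine (h.oA b).cjg.congr ?_
  filter_upwards [h.evb b] with z hz
  rw [hz, h.lb_eq, map_sub]

theorem sqq (G : Matrix (Fin 2) (Fin 2) ℂ) (z : Cn 2) : Sm z (qq G p) :=
  ((sm_coord 0 z).mul (sla G 0 z)).add ((sm_coord 1 z).mul (sla G 1 z))

theorem dqq (G : Matrix (Fin 2) (Fin 2) ℂ) (s : ℂ) (c : Fin 2) (z : Cn 2) :
    dS s c (qq G p) z = dS s c (fun y => (y - p) 0) z * la G p 0 z + (z - p) 0 * dS s c (la G p 0) z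
      + (dS s c (fun y => (y - p) 1) z * la G p 1 z + (z - p) 1 * dS s c (la G p 1) z) := by
  have e0 := (sm_coord (p := p) 0 z)
  have e1 := (sm_coord (p := p) 1 z)
  rw [← dS_mul e0.diff (sla G 0 z).diff, ← dS_mul e1.diff (sla G 1 z).diff]
  exact dS_add (e0.diff.mul (sla G 0 z).diff) (e1.diff.mul (sla G 1 z).diff)

theorem dqq_f (G : Matrix (Fin 2) (Fin 2) ℂ) (c : Fin 2) (z : Cn 2) :
    dS (-I) c (qq G p) z = la G p c z := by
  rw [dqq, dS_coord_f, dS_coord_f, dla_f, dla_f]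
  fin_cases c <;> simp

theorem dqq_t (G : Matrix (Fin 2) (Fin 2) ℂ) (c : Fin 2) (z : Cn 2) :
    dS I c (qq G p) z = lb G p c z := by
  rw [dqq, dS_coord_t, dS_coord_t, dla_t, dla_t, lb]
  ring

theorem oB (h : NZ q p) : Oo p 3 (fun z => cu q z - qq (hess q p) p z) := by
  have sq := h.smq
  refine oo_integ (sq.sub (sqq _ p)) ?_ ?_ ?_
  · simp [cu, h.v0, qq]
  · intro c
    refine (h.oA c).congr ?_
    filter_upwards [h.evq] with z hz
    rw [dS_sub hz.diff (sqq _ z).diff, dqq_f]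
  · intro c
    refine (h.oA' c).congr ?_
    filter_upwards [h.evq] with z hz
    rw [dS_sub hz.diff (sqq _ z).diff, dqq_t]

theorem ola (G : Matrix (Fin 2) (Fin 2) ℂ) (a : Fin 2) : Oo p 1 (la G p a) := by
  have e := fun b : Fin 2 => (Oo.const (p := p) (G a b)).mul (Oo.coord (p := p) b).cjg
  exact (e 0).add (e 1)

theorem olb (G : Matrix (Fin 2) (Fin 2) ℂ) (b : Fin 2) : Oo p 1 (lb G p b) := by
  have e := fun a : Fin 2 => (Oo.const (p := p) (G a b)).mul (Oo.coord (p := p) a)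
  exact (e 0).add (e 1)

theorem oqq (G : Matrix (Fin 2) (Fin 2) ℂ) : Oo p 2 (qq G p) := by
  have e := fun a : Fin 2 => (Oo.coord (p := p) a).mul (ola (p := p) G a)
  exact (e 0).add (e 1)

theorem oqa (h : NZ q p) (a : Fin 2) : Oo p 1 (dS (-I) a (cu q)) := by
  have := ((h.oA a).mono (j := 1) (by norm_num)).add (ola (hess q p) a)
  refine this.congr (Eventually.of_forall fun z => ?_)
  show _ - _ + _ = _
  ring

theorem oqb (h : NZ q p) (a : Fin 2) : Oo p 1 (dS I a (cu q)) := by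
  have := ((h.oA' a).mono (j := 1) (by norm_num)).add (olb (hess q p) a)
  refine this.congr (Eventually.of_forall fun z => ?_)
  show _ - _ + _ = _
  ring

/-- `Y = ∂q ∂̄q` -/
def YY (q : Cn 2 → ℝ) (z : Cn 2) : Matrix (Fin 2) (Fin 2) ℂ :=
  Matrix.of fun a b => dS (-I) a (cu q) z * dS I b (cu q) z

/-- `N = q det Q - pd Q Y` -/
def NN (q : Cn 2 → ℝ) (z : Cn 2) : ℂ := q z * (hess q z).det - pd (hess q z) (YY q z)

theorem oNN (h : NZ q p) : Oo p 3 (NN q) := by
  set G := hess q p with hG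
  have oG : ∀ a b, Oo p 0 (fun _ => G a b) := fun a b => Oo.const _
  have oHe : ∀ a b, Oo p 1 (fun z => hess q z a b - G a b) := h.oH
  have oHe0 : ∀ a b, Oo p 0 (fun z => hess q z a b) := fun a b =>
    Oo.of_cont (contDiffAt_hess h.sm.self_of_nhds a b).continuousAt
  -- the error terms
  have t1 : ∀ a b c d, Oo p 3 (fun z => qq G p z * ((hess q z a b - G a b) * hess q z c d)) :=
    fun a b c d => (oqq G).mul ((oHe a b).mul (oHe0 c d))
  have t2 : ∀ a b c d, Oo p 3 (fun z => qq G p z * (G a b * (hess q z c d - G c d))) :=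
    fun a b c d => (oqq G).mul ((oG a b).mul (oHe c d))
  have t3 : ∀ a b c d, Oo p 3 (fun z => (cu q z - qq G p z) * (hess q z a b * hess q z c d)) :=
    fun a b c d => h.oB.mul ((oHe0 a b).mul (oHe0 c d))
  have t4 : ∀ a b c d, Oo p 3 (fun z => (hess q z a b - G a b) *
      (dS (-I) c (cu q) z * dS I d (cu q) z)) :=
    fun a b c d => (oHe a b).mul ((h.oqa c).mul (h.oqb d))
  have t5 : ∀ a b c d, Oo p 3 (fun z => G a b * ((dS (-I) c (cu q) z - la G p c z) *
      dS I d (cu q) z)) :=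
    fun a b c d => (oG a b).mul ((h.oA c).mul (h.oqb d))
  have t6 : ∀ a b c d, Oo p 3 (fun z => G a b * (la G p c z *
      (dS I d (cu q) z - lb G p d z))) :=
    fun a b c d => (oG a b).mul ((ola G c).mul (h.oA' d))
  have key : NN q = fun z =>
      ((qq G p z * ((hess q z 0 0 - G 0 0) * hess q z 1 1) + qq G p z * (G 0 0 * (hess q z 1 1 - G 1 1)))
      - (qq G p z * ((hess q z 0 1 - G 0 1) * hess q z 1 0) + qq G p z * (G 0 1 * (hess q z 1 0 - G 1 0))))
      + ((cu q z - qq G p z) * (hess q z 0 0 * hess q z 1 1)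
        - (cu q z - qq G p z) * (hess q z 0 1 * hess q z 1 0))
      - ((((hess q z 0 0 - G 0 0) * (dS (-I) 1 (cu q) z * dS I 1 (cu q) z)
        + (hess q z 1 1 - G 1 1) * (dS (-I) 0 (cu q) z * dS I 0 (cu q) z))
        - (hess q z 0 1 - G 0 1) * (dS (-I) 1 (cu q) z * dS I 0 (cu q) z))
        - (hess q z 1 0 - G 1 0) * (dS (-I) 0 (cu q) z * dS I 1 (cu q) z))
      - (((G 0 0 * ((dS (-I) 1 (cu q) z - la G p 1 z) * dS I 1 (cu q) z)
        + G 1 1 * ((dS (-I) 0 (cu q) z - la G p 0 z) * dS I 0 (cu q) z))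
        - G 0 1 * ((dS (-I) 1 (cu q) z - la G p 1 z) * dS I 0 (cu q) z))
        - G 1 0 * ((dS (-I) 0 (cu q) z - la G p 0 z) * dS I 1 (cu q) z))
      - (((G 0 0 * (la G p 1 z * (dS I 1 (cu q) z - lb G p 1 z))
        + G 1 1 * (la G p 0 z * (dS I 0 (cu q) z - lb G p 0 z)))
        - G 0 1 * (la G p 1 z * (dS I 0 (cu q) z - lb G p 0 z)))
        - G 1 0 * (la G p 0 z * (dS I 1 (cu q) z - lb G p 1 z))) := by
    funext z
    have hcu : (q z : ℂ) = cu q z := rfl
    simp only [NN, YY, pd, Matrix.det_fin_two, Matrix.of_apply, hcu]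
    have e : qq G p z * (G 0 0 * G 1 1 - G 0 1 * G 1 0) = G 0 0 * (la G p 1 z * lb G p 1 z)
        + G 1 1 * (la G p 0 z * lb G p 0 z) - G 0 1 * (la G p 1 z * lb G p 0 z)
        - G 1 0 * (la G p 0 z * lb G p 1 z) := by
      unfold qq la lb
      ring
    linear_combination e
  rw [key]
  exact ((((((t1 0 0 1 1).add (t2 0 0 1 1)).sub ((t1 0 1 1 0).add (t2 0 1 1 0))).add
    ((t3 0 0 1 1).sub (t3 0 1 1 0))).sub
    ((((t4 0 0 1 1).add (t4 1 1 0 0)).sub (t4 0 1 1 0)).sub (t4 1 0 0 1))).sub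
    ((((t5 0 0 1 1).add (t5 1 1 0 0)).sub (t5 0 1 1 0)).sub (t5 1 0 0 1))).sub
    ((((t6 0 0 1 1).add (t6 1 1 0 0)).sub (t6 0 1 1 0)).sub (t6 1 0 0 1))

theorem qq_re (G : Matrix (Fin 2) (Fin 2) ℂ) (z : Cn 2) : (qq G p z).re = qf G (z - p) := by
  unfold qq qf la
  congr 1
  simp only [Fin.sum_univ_two]
  ring

end NZ

end

end Crest.Agent.R257.Idx3_761
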