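import Mathlib
import Crest.Agent.R275.Loc2A_879

-- ▼ part R257/Kp1_405
section

/-!
R257 / Kp1_405: calculus of Euler fields: `Eul f τ` = there is an analytic vector field `χ`, `χ 0 = 0`,
`χ f = f`, `tr Dχ(0) = τ`. Invariance under local biholomorphisms, units, adding a square.
-/

set_option autoImplicit false
set_option linter.unusedSectionVars false
set_option linter.deprecated false

open Set Filter Topology Metric

noncomputable section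

namespace Crest.Agent.R257.Kp_405

variable {E : Type*} [NormedAddCommGroup E] [NormedSpace ℂ E] [FiniteDimensional ℂ E]
variable {F : Type*} [NormedAddCommGroup F] [NormedSpace ℂ F] [FiniteDimensional ℂ F]

/-- `χ` is an Euler field of `f` at `0` with trace `τ` -/
def IsEul (f : E → ℂ) (χ : E → E) (τ : ℂ) : Prop :=
  AnalyticAt ℂ χ 0 ∧ χ 0 = 0 ∧ (∀ᶠ w in 𝓝 (0 : E), fderiv ℂ f w (χ w) = f w) ∧
    LinearMap.trace ℂ E ((fderiv ℂ χ 0 : E →L[ℂ] E) : E →ₗ[ℂ] E) = τ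

/-- existence of an Euler field with trace `τ` -/
def Eul (f : E → ℂ) (τ : ℂ) : Prop := ∃ χ : E → E, IsEul f χ τ

/-- local biholomorphisms `(E,0) → (F,0)` with given inverse -/
structure LB (Φ : E → F) (Ψ : F → E) : Prop where
  an : AnalyticAt ℂ Φ 0
  an' : AnalyticAt ℂ Ψ 0
  map0 : Φ 0 = 0
  map0' : Ψ 0 = 0
  left : ∀ᶠ w in 𝓝 (0 : E), Ψ (Φ w) = w
  right : ∀ᶠ v in 𝓝 (0 : F), Φ (Ψ v) = v

namespace LB

lemma symm {Φ : E → F} {Ψ : F → E} (h : LB Φ Ψ) : LB Ψ Φ :=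
  ⟨h.an', h.an, h.map0', h.map0, h.right, h.left⟩

lemma tendsto {Φ : E → F} {Ψ : F → E} (h : LB Φ Ψ) : Tendsto Φ (𝓝 0) (𝓝 0) := by
  have := h.an.continuousAt.tendsto
  rwa [h.map0] at this

lemma of_equiv (e : E ≃L[ℂ] F) : LB (e : E → F) (e.symm : F → E) :=
  ⟨(e : E →L[ℂ] F).analyticAt 0, (e.symm : F →L[ℂ] E).analyticAt 0, map_zero e, map_zero e.symm,
    Eventually.of_forall fun w => e.symm_apply_apply w,
    Eventually.of_forall fun w => e.apply_symm_apply w⟩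

/-- derivative identities near `0` -/
lemma fderiv_comp {Φ : E → F} {Ψ : F → E} (h : LB Φ Ψ) :
    ∀ᶠ w in 𝓝 (0 : E), (fderiv ℂ Φ w).comp (fderiv ℂ Ψ (Φ w)) = ContinuousLinearMap.id ℂ F := by
  have h1 : ∀ᶠ v in 𝓝 (0 : F), ∀ᶠ v' in 𝓝 v, Φ (Ψ v') = v' := h.right.eventually_nhds
  have h2 : ∀ᶠ v in 𝓝 (0 : F), AnalyticAt ℂ Ψ v := h.an'.eventually_analyticAt
  filter_upwards [h.tendsto.eventually h1, h.tendsto.eventually h2, h.left,
    h.an.eventually_analyticAt] with w a b c d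
  have e1 : HasFDerivAt (fun v' => Φ (Ψ v')) ((fderiv ℂ Φ w).comp (fderiv ℂ Ψ (Φ w))) (Φ w) := by
    have hb := b.differentiableAt.hasFDerivAt
    have hd : HasFDerivAt Φ (fderiv ℂ Φ w) (Ψ (Φ w)) := by
      rw [c]; exact d.differentiableAt.hasFDerivAt
    exact hd.comp _ hb
  have e2 : HasFDerivAt (fun v' => Φ (Ψ v')) (ContinuousLinearMap.id ℂ F) (Φ w) :=
    (hasFDerivAt_id _).congr_of_eventuallyEq (by filter_upwards [a] with v' hv'; exact hv')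
  exact e1.unique e2

lemma fderiv_comp_zero {Φ : E → F} {Ψ : F → E} (h : LB Φ Ψ) :
    (fderiv ℂ Φ 0).comp (fderiv ℂ Ψ 0) = ContinuousLinearMap.id ℂ F := by
  have := h.fderiv_comp.self_of_nhds
  rwa [h.map0] at this

end LB

lemma an_clm_apply {G H : Type*} [NormedAddCommGroup G] [NormedSpace ℂ G]
    [NormedAddCommGroup H] [NormedSpace ℂ H] {A : E → G →L[ℂ] H} {g : E → G} {x : E}
    (hA : AnalyticAt ℂ A x) (hg : AnalyticAt ℂ g x) : AnalyticAt ℂ (fun w => A w (g w)) x := by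
  have h1 := (ContinuousLinearMap.id ℂ (G →L[ℂ] H)).analyticAt_bilinear (A x, g x)
  exact AnalyticAt.comp (g := fun q : (G →L[ℂ] H) × G => (ContinuousLinearMap.id ℂ (G →L[ℂ] H)) q.1 q.2)
    (f := fun w => (A w, g w)) h1 (hA.prod hg)

/-- derivative of `A(w) (g w)` at a zero of `g` -/
lemma hasFDerivAt_clm_apply_zero {G H : Type*} [NormedAddCommGroup G] [NormedSpace ℂ G]
    [NormedAddCommGroup H] [NormedSpace ℂ H] {A : E → G →L[ℂ] H} {g : E → G} {x : E}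
    (hA : AnalyticAt ℂ A x) (hg : AnalyticAt ℂ g x) (h0 : g x = 0) :
    HasFDerivAt (fun w => A w (g w)) ((A x).comp (fderiv ℂ g x)) x := by
  have h1 := hA.differentiableAt.hasFDerivAt.clm_apply hg.differentiableAt.hasFDerivAt
  refine h1.congr_fderiv ?_
  ext v
  simp [h0]

/-- derivative of `s(w) • g w` at a zero of `g` -/
lemma hasFDerivAt_smul_zero {G : Type*} [NormedAddCommGroup G] [NormedSpace ℂ G]
    {s : E → ℂ} {g : E → G} {x : E}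
    (hs : AnalyticAt ℂ s x) (hg : AnalyticAt ℂ g x) (h0 : g x = 0) :
    HasFDerivAt (fun w => s w • g w) ((s x) • (fderiv ℂ g x)) x := by
  have h1 := hs.differentiableAt.hasFDerivAt.smul hg.differentiableAt.hasFDerivAt
  refine h1.congr_fderiv ?_
  ext v
  simp [h0]

lemma Eul.congr {f g : E → ℂ} {τ : ℂ} (hf : Eul f τ) (h : f =ᶠ[𝓝 0] g) : Eul g τ := by
  obtain ⟨χ, h1, h2, h3, h4⟩ := hf
  refine ⟨χ, h1, h2, ?_, h4⟩
  filter_upwards [h3, h, h.fderiv (𝕜 := ℂ)] with w a b c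
  rw [← c, a, b]

/-- (L1) invariance under local biholomorphisms -/
theorem Eul.comp {f : F → ℂ} (hfa : AnalyticAt ℂ f 0) {τ : ℂ} (hf : Eul f τ) {Φ : E → F} {Ψ : F → E}
    (h : LB Φ Ψ) : Eul (fun w => f (Φ w)) τ := by
  have : CompleteSpace E := FiniteDimensional.complete ℂ E
  have : CompleteSpace F := FiniteDimensional.complete ℂ F
  obtain ⟨χ, h1, h2, h3, h4⟩ := hf
  have hχΦ : AnalyticAt ℂ (fun w => χ (Φ w)) 0 :=
    AnalyticAt.comp (g := χ) (f := Φ) (by rw [h.map0]; exact h1) h.an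
  have hDΨ : AnalyticAt ℂ (fun w => fderiv ℂ Ψ (Φ w)) 0 :=
    AnalyticAt.comp (g := fderiv ℂ Ψ) (f := Φ) (by rw [h.map0]; exact h.an'.fderiv) h.an
  have hχ0 : χ (Φ 0) = 0 := by rw [h.map0, h2]
  have hder := hasFDerivAt_clm_apply_zero hDΨ hχΦ hχ0
  refine ⟨fun w => fderiv ℂ Ψ (Φ w) (χ (Φ w)), an_clm_apply hDΨ hχΦ, by simp [hχ0], ?_, ?_⟩
  · filter_upwards [h.tendsto.eventually h3, h.fderiv_comp, h.an.eventually_analyticAt,
      h.tendsto.eventually hfa.eventually_analyticAt] with w a b c d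
    have e1 : HasFDerivAt (fun w => f (Φ w)) ((fderiv ℂ f (Φ w)).comp (fderiv ℂ Φ w)) w :=
      d.differentiableAt.hasFDerivAt.comp w c.differentiableAt.hasFDerivAt
    rw [e1.fderiv, ContinuousLinearMap.comp_apply]
    have e2 := congrArg (fun T : F →L[ℂ] F => T (χ (Φ w))) b
    simp only [ContinuousLinearMap.comp_apply, ContinuousLinearMap.id_apply] at e2
    rw [e2, a]
  · rw [hder.fderiv]
    have e3 : fderiv ℂ (fun w => χ (Φ w)) 0 = (fderiv ℂ χ 0).comp (fderiv ℂ Φ 0) := by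
      have e4 : HasFDerivAt χ (fderiv ℂ χ 0) (Φ 0) := by
        rw [h.map0]; exact h1.differentiableAt.hasFDerivAt
      exact (e4.comp (0 : E) h.an.differentiableAt.hasFDerivAt).fderiv
    rw [e3, h.map0]
    have e5 : (((fderiv ℂ Ψ 0).comp ((fderiv ℂ χ 0).comp (fderiv ℂ Φ 0)) : E →L[ℂ] E) : E →ₗ[ℂ] E)
        = ((fderiv ℂ Ψ 0 : F →L[ℂ] E) : F →ₗ[ℂ] E) ∘ₗ
          (((fderiv ℂ χ 0).comp (fderiv ℂ Φ 0) : E →L[ℂ] F) : E →ₗ[ℂ] F) := rfl
    rw [e5, LinearMap.trace_comp_comm']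
    have e6 : (((fderiv ℂ χ 0).comp (fderiv ℂ Φ 0) : E →L[ℂ] F) : E →ₗ[ℂ] F) ∘ₗ
        ((fderiv ℂ Ψ 0 : F →L[ℂ] E) : F →ₗ[ℂ] E) = ((fderiv ℂ χ 0 : F →L[ℂ] F) : F →ₗ[ℂ] F) := by
      have := h.fderiv_comp_zero
      ext v
      have e7 := congrArg (fun T : F →L[ℂ] F => T v) this
      simp only [ContinuousLinearMap.comp_apply, ContinuousLinearMap.id_apply] at e7
      simp [e7]
    rw [e6, h4]

/-- (L2) multiplication by a unit -/
theorem Eul.unit_mul {f : E → ℂ} (hfa : AnalyticAt ℂ f 0) {τ : ℂ} (hf : Eul f τ) {u : E → ℂ}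
    (hu : AnalyticAt ℂ u 0) (hu0 : u 0 ≠ 0) : Eul (fun w => u w * f w) τ := by
  have : CompleteSpace E := FiniteDimensional.complete ℂ E
  obtain ⟨χ, h1, h2, h3, h4⟩ := hf
  set D : E → ℂ := fun w => u w + fderiv ℂ u w (χ w) with hD
  have hDa : AnalyticAt ℂ D 0 := hu.add (an_clm_apply hu.fderiv h1)
  have hD0 : D 0 = u 0 := by simp [hD, h2]
  have hD0' : D 0 ≠ 0 := by rw [hD0]; exact hu0
  have hsa : AnalyticAt ℂ (fun w => u w / D w) 0 := hu.div hDa hD0'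
  have hder := hasFDerivAt_smul_zero hsa h1 h2
  refine ⟨fun w => (u w / D w) • χ w, hsa.smul h1, by simp [h2], ?_, ?_⟩
  · filter_upwards [h3, hu.eventually_analyticAt, hfa.eventually_analyticAt,
      hDa.continuousAt.eventually_ne hD0'] with w a b c d
    have e1 := b.differentiableAt.hasFDerivAt.mul c.differentiableAt.hasFDerivAt
    have e2 : fderiv ℂ (fun w => u w * f w) w = u w • fderiv ℂ f w + f w • fderiv ℂ u w := e1.fderiv
    rw [e2, map_smul]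
    simp only [ContinuousLinearMap.add_apply, ContinuousLinearMap.smul_apply, smul_eq_mul, a]
    have e3 : u w * f w + f w * fderiv ℂ u w (χ w) = f w * D w := by simp only [hD]; ring
    rw [e3]
    field_simp
  · rw [hder.fderiv, hD0, div_self hu0, one_smul, h4]

/-- (L3) adding a square -/
theorem Eul.add_sq {f : E → ℂ} (hfa : AnalyticAt ℂ f 0) {τ : ℂ} (hf : Eul f τ) :
    Eul (fun w : E × ℂ => f w.1 + w.2 ^ 2) (τ + 1 / 2) := by
  have : CompleteSpace E := FiniteDimensional.complete ℂ E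
  obtain ⟨χ, h1, h2, h3, h4⟩ := hf
  have a1 : AnalyticAt ℂ (fun w : E × ℂ => χ w.1) 0 :=
    AnalyticAt.comp (g := χ) (f := Prod.fst) h1 analyticAt_fst
  have a2 : AnalyticAt ℂ (fun w : E × ℂ => (1 / 2 : ℂ) * w.2) 0 := analyticAt_const.mul analyticAt_snd
  refine ⟨fun w => (χ w.1, (1 / 2 : ℂ) * w.2), a1.prod a2, by simp [h2], ?_, ?_⟩
  · have t1 : Tendsto (Prod.fst : E × ℂ → E) (𝓝 0) (𝓝 0) := continuous_fst.tendsto' _ _ rfl
    filter_upwards [t1.eventually h3, t1.eventually hfa.eventually_analyticAt] with w a b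
    have e1 : HasFDerivAt (fun w : E × ℂ => f w.1)
        ((fderiv ℂ f w.1).comp (ContinuousLinearMap.fst ℂ E ℂ)) w :=
      b.differentiableAt.hasFDerivAt.comp w hasFDerivAt_fst
    have e2 : HasFDerivAt (fun w : E × ℂ => w.2 ^ 2)
        ((2 * w.2) • (ContinuousLinearMap.snd ℂ E ℂ)) w := by
      have := (hasFDerivAt_snd (𝕜 := ℂ) (E := E) (F := ℂ) (p := w)).pow 2
      refine this.congr_fderiv ?_
      ext v <;> simp
    have e3 : fderiv ℂ (fun w : E × ℂ => f w.1 + w.2 ^ 2) w = _ := (e1.add e2).fderiv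
    rw [e3]
    simp only [ContinuousLinearMap.add_apply, ContinuousLinearMap.comp_apply,
      ContinuousLinearMap.smul_apply, ContinuousLinearMap.coe_fst', ContinuousLinearMap.coe_snd',
      smul_eq_mul, a]
    ring
  · have e1 : HasFDerivAt (fun w : E × ℂ => χ w.1)
        ((fderiv ℂ χ 0).comp (ContinuousLinearMap.fst ℂ E ℂ)) 0 := by
      have : HasFDerivAt χ (fderiv ℂ χ 0) (Prod.fst (0 : E × ℂ)) :=
        h1.differentiableAt.hasFDerivAt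
      exact this.comp (0 : E × ℂ) hasFDerivAt_fst
    have e2 : HasFDerivAt (fun w : E × ℂ => (1 / 2 : ℂ) * w.2)
        ((1 / 2 : ℂ) • (ContinuousLinearMap.snd ℂ E ℂ)) 0 :=
      (hasFDerivAt_snd (𝕜 := ℂ) (E := E) (F := ℂ) (p := 0)).const_mul (1 / 2 : ℂ)
    rw [(e1.prodMk e2).fderiv]
    have e3 : (((((fderiv ℂ χ 0).comp (ContinuousLinearMap.fst ℂ E ℂ)).prod
        ((1 / 2 : ℂ) • (ContinuousLinearMap.snd ℂ E ℂ)) : E × ℂ →L[ℂ] E × ℂ)) : E × ℂ →ₗ[ℂ] E × ℂ)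
        = LinearMap.prodMap ((fderiv ℂ χ 0 : E →L[ℂ] E) : E →ₗ[ℂ] E)
          ((1 / 2 : ℂ) • (LinearMap.id : ℂ →ₗ[ℂ] ℂ)) := by
      ext v <;> simp
    rw [e3, LinearMap.trace_prodMap', h4, map_smul, LinearMap.trace_id]
    simp

/-! ### curves along which the gradient is small -/

/-- there is a curve germ `γ` along which `∇f = O(s^k)`, `f = O(s^(k+1))` -/
def Cv (f : E → ℂ) (k : ℕ) : Prop :=
  ∃ γ : ℂ → E, AnalyticAt ℂ γ 0 ∧ γ 0 = 0 ∧ ∃ c > 0, ∃ C : ℝ, ∀ᶠ s in 𝓝 (0 : ℂ),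
    c * ‖s‖ ≤ ‖γ s‖ ∧ ‖fderiv ℂ f (γ s)‖ ≤ C * ‖s‖ ^ k ∧ ‖f (γ s)‖ ≤ C * ‖s‖ ^ (k + 1)

lemma Cv.congr {f g : E → ℂ} {k : ℕ} (hf : Cv f k) (h : f =ᶠ[𝓝 0] g) : Cv g k := by
  obtain ⟨γ, h1, h2, c, hc, C, h3⟩ := hf
  refine ⟨γ, h1, h2, c, hc, C, ?_⟩
  have t1 : Tendsto γ (𝓝 0) (𝓝 0) := by
    have := h1.continuousAt.tendsto; rwa [h2] at this
  filter_upwards [h3, t1.eventually h, t1.eventually (h.fderiv (𝕜 := ℂ))] with s a b d
  rw [← b, ← d]; exact a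

theorem Cv.unit_mul {f : E → ℂ} (hfa : AnalyticAt ℂ f 0) {k : ℕ} (hf : Cv f k) {u : E → ℂ}
    (hu : AnalyticAt ℂ u 0) : Cv (fun w => u w * f w) k := by
  have : CompleteSpace E := FiniteDimensional.complete ℂ E
  obtain ⟨γ, h1, h2, c, hc, C, h3⟩ := hf
  have t1 : Tendsto γ (𝓝 0) (𝓝 0) := by
    have := h1.continuousAt.tendsto; rwa [h2] at this
  obtain ⟨M, hM, hM'⟩ : ∃ M : ℝ, 0 < M ∧ ∀ᶠ w in 𝓝 (0 : E), ‖u w‖ ≤ M ∧ ‖fderiv ℂ u w‖ ≤ M := by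
    refine ⟨max (‖u 0‖ + 1) (‖fderiv ℂ u 0‖ + 1), by positivity, ?_⟩
    have a1 := hu.continuousAt.norm.eventually_lt (continuousAt_const (y := ‖u 0‖ + 1))
      (by simp)
    have a2 := hu.fderiv.continuousAt.norm.eventually_lt
      (continuousAt_const (y := ‖fderiv ℂ u 0‖ + 1)) (by simp)
    filter_upwards [a1, a2] with w b1 b2
    exact ⟨b1.le.trans (le_max_left _ _), b2.le.trans (le_max_right _ _)⟩
  have hs1 : ∀ᶠ s in 𝓝 (0 : ℂ), ‖s‖ ≤ 1 := by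
    filter_upwards [closedBall_mem_nhds (0 : ℂ) one_pos] with s hs
    simpa using hs
  refine ⟨γ, h1, h2, c, hc, M * |C| + |C| * M, ?_⟩
  filter_upwards [h3, t1.eventually hM', t1.eventually hu.eventually_analyticAt,
    t1.eventually hfa.eventually_analyticAt, hs1] with s a b d e hs
  obtain ⟨a1, a2, a3⟩ := a
  have e1 := d.differentiableAt.hasFDerivAt.mul e.differentiableAt.hasFDerivAt
  have e2 : fderiv ℂ (fun w => u w * f w) (γ s) = u (γ s) • fderiv ℂ f (γ s) +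
    f (γ s) • fderiv ℂ u (γ s) := e1.fderiv
  have hC : C ≤ |C| := le_abs_self C
  have hsk : (0:ℝ) ≤ ‖s‖ ^ k := by positivity
  have hsk1 : (0:ℝ) ≤ ‖s‖ ^ (k + 1) := by positivity
  have hk1 : ‖s‖ ^ (k + 1) ≤ ‖s‖ ^ k := by
    rw [pow_succ]; exact mul_le_of_le_one_right hsk hs
  refine ⟨a1, ?_, ?_⟩
  · rw [e2]
    calc ‖u (γ s) • fderiv ℂ f (γ s) + f (γ s) • fderiv ℂ u (γ s)‖
        ≤ ‖u (γ s)‖ * ‖fderiv ℂ f (γ s)‖ + ‖f (γ s)‖ * ‖fderiv ℂ u (γ s)‖ := by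
          refine (norm_add_le _ _).trans ?_
          rw [norm_smul, norm_smul]
      _ ≤ M * (|C| * ‖s‖ ^ k) + (|C| * ‖s‖ ^ k) * M := by
          gcongr
          · exact b.1
          · exact a2.trans (by gcongr)
          · exact a3.trans (by gcongr)
          · exact b.2
      _ = (M * |C| + |C| * M) * ‖s‖ ^ k := by ring
  · rw [norm_mul]
    calc ‖u (γ s)‖ * ‖f (γ s)‖ ≤ M * (|C| * ‖s‖ ^ (k + 1)) := by
          gcongr
          · exact b.1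
          · exact a3.trans (by gcongr)
      _ ≤ (M * |C| + |C| * M) * ‖s‖ ^ (k + 1) := by
          have : 0 ≤ |C| * M * ‖s‖ ^ (k + 1) := by positivity
          nlinarith

theorem Cv.comp {f : F → ℂ} (hfa : AnalyticAt ℂ f 0) {k : ℕ} (hf : Cv f k) {Φ : E → F} {Ψ : F → E}
    (h : LB Φ Ψ) : Cv (fun w => f (Φ w)) k := by
  have : CompleteSpace E := FiniteDimensional.complete ℂ E
  have : CompleteSpace F := FiniteDimensional.complete ℂ F
  obtain ⟨γ, h1, h2, c, hc, C, h3⟩ := hf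
  have t1 : Tendsto γ (𝓝 0) (𝓝 0) := by
    have := h1.continuousAt.tendsto; rwa [h2] at this
  have t2 : Tendsto (fun s => Ψ (γ s)) (𝓝 0) (𝓝 0) := h.symm.tendsto.comp t1
  obtain ⟨M, hM, hM'⟩ : ∃ M : ℝ, 0 < M ∧ ∀ᶠ w in 𝓝 (0 : E), ‖fderiv ℂ Φ w‖ ≤ M := by
    refine ⟨‖fderiv ℂ Φ 0‖ + 1, by positivity, ?_⟩
    have a2 := h.an.fderiv.continuousAt.norm.eventually_lt
      (continuousAt_const (y := ‖fderiv ℂ Φ 0‖ + 1)) (by simp)
    filter_upwards [a2] with w b2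
    exact b2.le
  -- `Φ` is Lipschitz near `0`
  have hO : (fun w => Φ w) =O[𝓝 0] (fun w : E => w) := by
    have := h.an.differentiableAt.hasFDerivAt.isBigO_sub
    simpa [h.map0] using this
  obtain ⟨K, hK, hK'⟩ := hO.exists_pos
  have hK'' := hK'.bound
  refine ⟨fun s => Ψ (γ s), AnalyticAt.comp (g := Ψ) (f := γ) (by rw [h2]; exact h.an') h1,
    by simp [h2, h.map0'], c / K, by positivity, |C| * M + |C|, ?_⟩
  filter_upwards [h3, t1.eventually h.right, t2.eventually h.an.eventually_analyticAt,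
    t2.eventually hM', t1.eventually hfa.eventually_analyticAt, t2.eventually hK''] with
    s a b d e g l
  obtain ⟨a1, a2, a3⟩ := a
  have hC : C ≤ |C| := le_abs_self C
  refine ⟨?_, ?_, ?_⟩
  · rw [b] at l
    rw [div_mul_eq_mul_div, div_le_iff₀ hK]
    calc c * ‖s‖ ≤ ‖γ s‖ := a1
      _ ≤ K * ‖Ψ (γ s)‖ := l
      _ = ‖Ψ (γ s)‖ * K := mul_comm _ _
  · have e1 : HasFDerivAt (fun w => f (Φ w)) ((fderiv ℂ f (γ s)).comp (fderiv ℂ Φ (Ψ (γ s))))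
        (Ψ (γ s)) := by
      have : HasFDerivAt f (fderiv ℂ f (γ s)) (Φ (Ψ (γ s))) := by
        rw [b]; exact g.differentiableAt.hasFDerivAt
      exact this.comp _ d.differentiableAt.hasFDerivAt
    rw [e1.fderiv]
    calc ‖(fderiv ℂ f (γ s)).comp (fderiv ℂ Φ (Ψ (γ s)))‖
        ≤ ‖fderiv ℂ f (γ s)‖ * ‖fderiv ℂ Φ (Ψ (γ s))‖ := ContinuousLinearMap.opNorm_comp_le _ _
      _ ≤ (|C| * ‖s‖ ^ k) * M := by
          gcongr
          exact a2.trans (by gcongr)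
      _ ≤ (|C| * M + |C|) * ‖s‖ ^ k := by
          have : 0 ≤ |C| * ‖s‖ ^ k := by positivity
          nlinarith
  · rw [b]
    calc ‖f (γ s)‖ ≤ C * ‖s‖ ^ (k + 1) := a3
      _ ≤ |C| * ‖s‖ ^ (k + 1) := by gcongr
      _ ≤ (|C| * M + |C|) * ‖s‖ ^ (k + 1) := by
          have : 0 ≤ |C| * M * ‖s‖ ^ (k + 1) := by positivity
          nlinarith

theorem Cv.add_sq {f : E → ℂ} (hfa : AnalyticAt ℂ f 0) {k : ℕ} (hf : Cv f k) :
    Cv (fun w : E × ℂ => f w.1 + w.2 ^ 2) k := by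
  obtain ⟨γ, h1, h2, c, hc, C, h3⟩ := hf
  have t1 : Tendsto γ (𝓝 0) (𝓝 0) := by
    have := h1.continuousAt.tendsto; rwa [h2] at this
  refine ⟨fun s => (γ s, 0), h1.prod analyticAt_const, by simp [h2], c, hc, C, ?_⟩
  filter_upwards [h3, t1.eventually hfa.eventually_analyticAt] with s a b
  obtain ⟨a1, a2, a3⟩ := a
  have e1 : HasFDerivAt (fun w : E × ℂ => f w.1)
      ((fderiv ℂ f (γ s)).comp (ContinuousLinearMap.fst ℂ E ℂ)) (γ s, 0) := by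
    have : HasFDerivAt f (fderiv ℂ f (γ s)) (Prod.fst (γ s, (0:ℂ))) :=
      b.differentiableAt.hasFDerivAt
    exact this.comp (γ s, (0:ℂ)) hasFDerivAt_fst
  have e2 : HasFDerivAt (fun w : E × ℂ => w.2 ^ 2) (0 : E × ℂ →L[ℂ] ℂ) (γ s, 0) := by
    have := (hasFDerivAt_snd (𝕜 := ℂ) (E := E) (F := ℂ) (p := (γ s, (0:ℂ)))).pow 2
    refine this.congr_fderiv ?_
    ext v <;> simp
  refine ⟨a1.trans ?_, ?_, ?_⟩
  · exact le_max_left ‖γ s‖ ‖(0:ℂ)‖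
  · have e3 : fderiv ℂ (fun w : E × ℂ => f w.1 + w.2 ^ 2) (γ s, 0) = _ := (e1.add e2).fderiv
    rw [e3, add_zero]
    refine (ContinuousLinearMap.opNorm_comp_le _ _).trans ?_
    calc ‖fderiv ℂ f (γ s)‖ * ‖ContinuousLinearMap.fst ℂ E ℂ‖ ≤ ‖fderiv ℂ f (γ s)‖ * 1 := by
          gcongr
          exact ContinuousLinearMap.norm_fst_le _ _ _
      _ = ‖fderiv ℂ f (γ s)‖ := mul_one _
      _ ≤ _ := a2
  · simpa using a3

/-- the Łojasiewicz exponent bounds `k` -/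
theorem Cv.le_of_lojasiewicz {f : E → ℂ} {k N : ℕ} (hf : Cv f k) {c : ℝ} (hc : 0 < c)
    (h : ∀ᶠ w in 𝓝 (0 : E), c * ‖w‖ ^ N ≤ ‖fderiv ℂ f w‖) : k ≤ N := by
  obtain ⟨γ, h1, h2, c', hc', C, h3⟩ := hf
  have t1 : Tendsto γ (𝓝 0) (𝓝 0) := by
    have := h1.continuousAt.tendsto; rwa [h2] at this
  by_contra hk
  push Not at hk
  have h4 : ∀ᶠ s in 𝓝 (0 : ℂ), c * c' ^ N * ‖s‖ ^ N ≤ |C| * ‖s‖ ^ (N + 1) := by
    have hs1 : ∀ᶠ s in 𝓝 (0 : ℂ), ‖s‖ ≤ 1 := by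
      filter_upwards [closedBall_mem_nhds (0 : ℂ) one_pos] with s hs
      simpa using hs
    filter_upwards [h3, t1.eventually h, hs1] with s a b hs
    obtain ⟨a1, a2, -⟩ := a
    calc c * c' ^ N * ‖s‖ ^ N = c * (c' * ‖s‖) ^ N := by ring
      _ ≤ c * ‖γ s‖ ^ N := by gcongr
      _ ≤ ‖fderiv ℂ f (γ s)‖ := b
      _ ≤ C * ‖s‖ ^ k := a2
      _ ≤ |C| * ‖s‖ ^ k := by gcongr; exact le_abs_self C
      _ ≤ |C| * ‖s‖ ^ (N + 1) := by
          gcongr ?_ * ?_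
          exact pow_le_pow_of_le_one (norm_nonneg _) hs hk
  have h5 : ∀ᶠ s in 𝓝[≠] (0 : ℂ), c * c' ^ N ≤ |C| * ‖s‖ := by
    filter_upwards [h4.filter_mono nhdsWithin_le_nhds, self_mem_nhdsWithin] with s a b
    have hs : 0 < ‖s‖ := norm_pos_iff.2 b
    have hsN : 0 < ‖s‖ ^ N := by positivity
    rw [pow_succ] at a
    refine le_of_mul_le_mul_right ?_ hsN
    linarith
  have h6 : Tendsto (fun s : ℂ => |C| * ‖s‖) (𝓝[≠] (0 : ℂ)) (𝓝 (|C| * ‖(0 : ℂ)‖)) :=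
    ((continuous_norm.const_mul |C|).tendsto (0 : ℂ)).mono_left nhdsWithin_le_nhds
  have h7 := ge_of_tendsto h6 h5
  have h8 : 0 < c * c' ^ N := by positivity
  simp at h7
  linarith

end Crest.Agent.R257.Kp_405
end
end

-- ▼ part R257/Kp2_405
section

/-!
R257 / Kp2_405: Weierstrass preparation at the level of functions; one-variable divisions.
-/

set_option autoImplicit false
set_option linter.unusedSectionVars false
set_option linter.deprecated false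

open Set Filter Topology Metric

noncomputable section

namespace Crest.Agent.R257.Kp_405

variable {E : Type*} [NormedAddCommGroup E] [NormedSpace ℂ E] [FiniteDimensional ℂ E]

/-- Weierstrass preparation, function form. -/
theorem wprepF {F : E × ℂ → ℂ} (hF : AnalyticAt ℂ F 0) {n : ℕ}
    (hn : analyticOrderAt (fun w : ℂ => F (0, w)) 0 = n) :
    ∃ (u : E × ℂ → ℂ) (c : Fin n → E → ℂ), AnalyticAt ℂ u 0 ∧ u 0 ≠ 0 ∧
      (∀ j, AnalyticAt ℂ (c j) 0) ∧ (∀ j, c j 0 = 0) ∧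
      ∀ᶠ p in 𝓝 (0 : E × ℂ), F p = u p * (p.2 ^ n + ∑ j : Fin n, c j p.1 * p.2 ^ (j : ℕ)) := by
  have hF' : AnalyticAt ℂ F ((0 : E), (0 : ℂ)) := hF
  have hg : AnalyticAt ℂ (fun p : E × ℂ => p.2 ^ n) ((0 : E), (0 : ℂ)) := analyticAt_snd.pow n
  obtain ⟨q, c, hq, hc, he⟩ := Crest.Agent.R275.Loc2879.wdiv (z₀ := (0 : E)) hF' hn hg
  have hfa : AnalyticAt ℂ (fun w : ℂ => F (0, w)) 0 :=
    AnalyticAt.comp (g := F) (f := fun w : ℂ => ((0 : E), w)) hF'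
      (analyticAt_const.prod analyticAt_id)
  have hqa : AnalyticAt ℂ (fun w : ℂ => q (0, w)) 0 :=
    AnalyticAt.comp (g := q) (f := fun w : ℂ => ((0 : E), w)) hq
      (analyticAt_const.prod analyticAt_id)
  obtain ⟨v, hv, hv0, hfv⟩ := (hfa.analyticOrderAt_eq_natCast).1 hn
  have t1 : Tendsto (fun w : ℂ => ((0 : E), w)) (𝓝 0) (𝓝 ((0 : E), (0 : ℂ))) :=
    (Continuous.prodMk_right (0 : E)).tendsto 0
  -- the polynomial at the central point vanishes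
  set P : Polynomial ℂ := ∑ j : Fin n, Polynomial.C (c j 0) * Polynomial.X ^ (j : ℕ) with hP
  have hPe : ∀ w, P.eval w = ∑ j : Fin n, c j 0 * w ^ (j : ℕ) := by
    intro w; simp [hP, Polynomial.eval_finsetSum]
  have hPd : P.degree < n := by
    refine (Polynomial.degree_sum_le _ _).trans_lt ?_
    rw [Finset.sup_lt_iff (by exact_mod_cast WithBot.bot_lt_coe n)]
    intro j _
    refine (Polynomial.degree_C_mul_X_pow_le _ _).trans_lt ?_
    exact_mod_cast j.2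
  have key : ∀ᶠ w in 𝓝 (0 : ℂ), P.eval w = w ^ n * (1 - q (0, w) * v w) := by
    filter_upwards [t1.eventually he, hfv] with w a b
    simp only [sub_zero, smul_eq_mul] at b
    simp only [b] at a
    rw [hPe]
    linear_combination -a
  have hh : ContinuousAt (fun w : ℂ => 1 - q (0, w) * v w) 0 :=
    continuousAt_const.sub (hqa.continuousAt.mul hv.continuousAt)
  have hP0 : P = 0 := Crest.Agent.R275.Loc2879.poly_eq_zero hPd hh
    (key.filter_mono nhdsWithin_le_nhds)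
  have hc0 : ∀ j, c j 0 = 0 := by
    intro j
    have := congrArg (fun Q : Polynomial ℂ => Q.coeff j) hP0
    simp only [hP, Polynomial.finsetSum_coeff, Polynomial.coeff_C_mul, Polynomial.coeff_X_pow,
      Polynomial.coeff_zero] at this
    rw [Finset.sum_eq_single j] at this
    · simpa using this
    · intro b _ hb
      have : (j : ℕ) ≠ b := fun h => hb (Fin.ext h.symm)
      simp [this]
    · simp
  have hq0 : q (0, 0) * v 0 = 1 := by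
    have h1 : ∀ᶠ w in 𝓝[≠] (0 : ℂ), 1 - q (0, w) * v w = 0 := by
      filter_upwards [key.filter_mono nhdsWithin_le_nhds, self_mem_nhdsWithin] with w a b
      rw [hP0, Polynomial.eval_zero] at a
      have b' : w ^ n ≠ 0 := pow_ne_zero _ b
      exact (mul_eq_zero.1 a.symm).resolve_left b'
    have h2 : Tendsto (fun w : ℂ => 1 - q (0, w) * v w) (𝓝[≠] (0 : ℂ)) (𝓝 (1 - q (0, 0) * v 0)) :=
      hh.tendsto.mono_left nhdsWithin_le_nhds
    have h3 := tendsto_nhds_unique (h2.congr' h1) tendsto_const_nhds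
    linear_combination -h3
  have hq0' : q (0, 0) ≠ 0 := fun h => by rw [h, zero_mul] at hq0; exact zero_ne_one hq0
  refine ⟨fun p => (q p)⁻¹, fun j z => - c j z, hq.inv hq0', inv_ne_zero hq0',
    fun j => (hc j).neg, fun j => by simp [hc0 j], ?_⟩
  have hne : ∀ᶠ p in 𝓝 (0 : E × ℂ), q p ≠ 0 := hq.continuousAt.eventually_ne hq0'
  filter_upwards [he, hne] with p a b
  have : (∑ j : Fin n, - c j p.1 * p.2 ^ (j : ℕ)) = - ∑ j : Fin n, c j p.1 * p.2 ^ (j : ℕ) := by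
    rw [← Finset.sum_neg_distrib]
    exact Finset.sum_congr rfl fun j _ => by ring
  rw [this, a]
  field_simp
  ring

/-- degree `2` -/
theorem wprep2 {F : E × ℂ → ℂ} (hF : AnalyticAt ℂ F 0)
    (hn : analyticOrderAt (fun w : ℂ => F (0, w)) 0 = 2) :
    ∃ (u : E × ℂ → ℂ) (a₀ a₁ : E → ℂ), AnalyticAt ℂ u 0 ∧ u 0 ≠ 0 ∧
      AnalyticAt ℂ a₀ 0 ∧ AnalyticAt ℂ a₁ 0 ∧ a₀ 0 = 0 ∧ a₁ 0 = 0 ∧
      ∀ᶠ p in 𝓝 (0 : E × ℂ), F p = u p * (p.2 ^ 2 + a₁ p.1 * p.2 + a₀ p.1) := by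
  obtain ⟨u, c, hu, hu0, hc, hc0, he⟩ := wprepF hF (n := 2) (by exact_mod_cast hn)
  refine ⟨u, c 0, c 1, hu, hu0, hc 0, hc 1, hc0 0, hc0 1, ?_⟩
  filter_upwards [he] with p a
  rw [a, Fin.sum_univ_two]
  simp only [Fin.val_zero, Fin.val_one, pow_zero, pow_one, mul_one]
  ring

/-- degree `3` -/
theorem wprep3 {F : E × ℂ → ℂ} (hF : AnalyticAt ℂ F 0)
    (hn : analyticOrderAt (fun w : ℂ => F (0, w)) 0 = 3) :
    ∃ (u : E × ℂ → ℂ) (a₀ a₁ a₂ : E → ℂ), AnalyticAt ℂ u 0 ∧ u 0 ≠ 0 ∧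
      AnalyticAt ℂ a₀ 0 ∧ AnalyticAt ℂ a₁ 0 ∧ AnalyticAt ℂ a₂ 0 ∧
      a₀ 0 = 0 ∧ a₁ 0 = 0 ∧ a₂ 0 = 0 ∧
      ∀ᶠ p in 𝓝 (0 : E × ℂ), F p = u p * (p.2 ^ 3 + a₂ p.1 * p.2 ^ 2 + a₁ p.1 * p.2 + a₀ p.1) := by
  obtain ⟨u, c, hu, hu0, hc, hc0, he⟩ := wprepF hF (n := 3) (by exact_mod_cast hn)
  refine ⟨u, c 0, c 1, c 2, hu, hu0, hc 0, hc 1, hc 2, hc0 0, hc0 1, hc0 2, ?_⟩
  filter_upwards [he] with p a
  rw [a, Fin.sum_univ_three]
  simp only [Fin.val_zero, Fin.val_one, Fin.val_two, pow_zero, pow_one, mul_one]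
  ring

/-! ### shears -/

/-- the shear `(z, w) ↦ (z, w + θ z)` -/
def shear (θ : E → ℂ) (p : E × ℂ) : E × ℂ := (p.1, p.2 + θ p.1)

lemma LB_shear {θ : E → ℂ} (hθ : AnalyticAt ℂ θ 0) (h0 : θ 0 = 0) :
    LB (shear θ) (shear (fun z => - θ z)) := by
  have a1 : ∀ θ : E → ℂ, AnalyticAt ℂ θ 0 → AnalyticAt ℂ (shear θ) 0 := by
    intro θ hθ
    have : AnalyticAt ℂ (fun p : E × ℂ => θ p.1) 0 :=
      AnalyticAt.comp (g := θ) (f := Prod.fst) hθ analyticAt_fst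
    exact analyticAt_fst.prod (analyticAt_snd.add this)
  refine ⟨a1 θ hθ, a1 _ hθ.neg, by simp [shear, h0], by simp [shear, h0], ?_, ?_⟩
  · exact Eventually.of_forall fun w => by simp [shear]
  · exact Eventually.of_forall fun w => by simp [shear]

/-- swapping the factors of `ℂ × ℂ` -/
lemma LB_swap : LB (Prod.swap : ℂ × ℂ → ℂ × ℂ) (Prod.swap : ℂ × ℂ → ℂ × ℂ) := by
  refine ⟨?_, ?_, rfl, rfl, Eventually.of_forall fun _ => rfl, Eventually.of_forall fun _ => rfl⟩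
  · exact analyticAt_snd.prod analyticAt_fst
  · exact analyticAt_snd.prod analyticAt_fst

lemma LB.comp {F G : Type*} [NormedAddCommGroup F] [NormedSpace ℂ F] [FiniteDimensional ℂ F]
    [NormedAddCommGroup G] [NormedSpace ℂ G] [FiniteDimensional ℂ G]
    {Φ : E → F} {Ψ : F → E} {Φ' : F → G} {Ψ' : G → F}
    (h' : LB Φ' Ψ') (h : LB Φ Ψ) : LB (fun w => Φ' (Φ w)) (fun w => Ψ (Ψ' w)) := by
  refine ⟨?_, ?_, by simp [h.map0, h'.map0], by simp [h.map0', h'.map0'], ?_, ?_⟩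
  · exact AnalyticAt.comp (g := Φ') (f := Φ) (by rw [h.map0]; exact h'.an) h.an
  · exact AnalyticAt.comp (g := Ψ) (f := Ψ') (by rw [h'.map0']; exact h.an') h'.an'
  · filter_upwards [h.tendsto.eventually h'.left, h.left] with w a b
    rw [a, b]
  · filter_upwards [h'.symm.tendsto.eventually h.right, h'.right] with w a b
    rw [a, b]

/-! ### one variable -/

/-- extraction of a power of `y` from a bound -/
lemma exists_pow_mul_of_bound {a : ℂ → ℂ} (ha : AnalyticAt ℂ a 0) {n : ℕ} {C : ℝ}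
    (h : ∀ᶠ y in 𝓝 (0 : ℂ), ‖a y‖ ≤ C * ‖y‖ ^ n) :
    ∃ g : ℂ → ℂ, AnalyticAt ℂ g 0 ∧ ∀ᶠ y in 𝓝 (0 : ℂ), a y = y ^ n * g y := by
  have h1 : (n : ℕ∞) ≤ analyticOrderAt a 0 := by
    by_contra hlt
    push Not at hlt
    obtain ⟨m, hm⟩ := ENat.ne_top_iff_exists.1 (ne_top_of_lt hlt)
    rw [← hm] at hlt
    have hmn : m < n := by exact_mod_cast hlt
    obtain ⟨g, hg, hg0, he⟩ := (ha.analyticOrderAt_eq_natCast).1 hm.symm
    have h2 : ∀ᶠ y in 𝓝[≠] (0 : ℂ), ‖g y‖ ≤ |C| * ‖y‖ := by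
      have hs1 : ∀ᶠ s in 𝓝 (0 : ℂ), ‖s‖ ≤ 1 := by
        filter_upwards [closedBall_mem_nhds (0 : ℂ) one_pos] with s hs
        simpa using hs
      filter_upwards [h.filter_mono nhdsWithin_le_nhds, he.filter_mono nhdsWithin_le_nhds,
        hs1.filter_mono nhdsWithin_le_nhds, self_mem_nhdsWithin] with y b c hy1 d
      have hy : 0 < ‖y‖ := norm_pos_iff.2 d
      rw [c, sub_zero, norm_smul, norm_pow] at b
      have e1 : C * ‖y‖ ^ n ≤ |C| * ‖y‖ ^ (m + 1) := by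
        calc C * ‖y‖ ^ n ≤ |C| * ‖y‖ ^ n := by gcongr; exact le_abs_self C
          _ ≤ |C| * ‖y‖ ^ (m + 1) := by
            gcongr ?_ * ?_
            exact pow_le_pow_of_le_one (norm_nonneg _) hy1 hmn
      have e2 : ‖y‖ ^ m * ‖g y‖ ≤ ‖y‖ ^ m * (|C| * ‖y‖) := by
        calc _ ≤ _ := b
          _ ≤ _ := e1
          _ = _ := by ring
      exact le_of_mul_le_mul_left e2 (by positivity)
    have h3 : Tendsto (fun y : ℂ => |C| * ‖y‖) (𝓝[≠] (0 : ℂ)) (𝓝 (|C| * ‖(0 : ℂ)‖)) :=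
      ((continuous_norm.const_mul |C|).tendsto (0 : ℂ)).mono_left nhdsWithin_le_nhds
    have h4 : Tendsto (fun y : ℂ => ‖g y‖) (𝓝[≠] (0 : ℂ)) (𝓝 ‖g 0‖) :=
      hg.continuousAt.norm.tendsto.mono_left nhdsWithin_le_nhds
    have h5 := le_of_tendsto_of_tendsto h4 h3 h2
    simp at h5
    exact hg0 h5
  obtain ⟨g, hg, he⟩ := (natCast_le_analyticOrderAt ha).1 h1
  exact ⟨g, hg, by simpa using he⟩

/-- a function of finite order: `a = y^n g`, `g 0 ≠ 0`, and the derivative -/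
lemma deriv_pow_mul {a g : ℂ → ℂ} {n : ℕ} (hg : AnalyticAt ℂ g 0)
    (he : ∀ᶠ y in 𝓝 (0 : ℂ), a y = y ^ (n + 1) * g y) :
    ∀ᶠ y in 𝓝 (0 : ℂ), deriv a y = y ^ n * ((n + 1) * g y + y * deriv g y) := by
  filter_upwards [he.eventually_nhds, hg.eventually_analyticAt] with y a1 a2
  have a1' : a =ᶠ[𝓝 y] fun y => y ^ (n + 1) * g y := a1
  rw [a1'.deriv_eq]
  have e1 : HasDerivAt (fun y : ℂ => y ^ (n + 1)) (((n + 1 : ℕ) : ℂ) * y ^ n) y := by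
    simpa using hasDerivAt_pow (n + 1) y
  have e2 := (e1.mul a2.differentiableAt.hasDerivAt).deriv
  have e3 : deriv (fun y => y ^ (n + 1) * g y) y =
    ((n + 1 : ℕ) : ℂ) * y ^ n * g y + y ^ (n + 1) * deriv g y := e2
  rw [e3]
  push_cast
  ring

end Crest.Agent.R257.Kp_405
end
end

-- ▼ part R257/Kp3_405
section

/-!
R257 / Kp3_405: Euler fields of the models `x² + c(y)`, `ξ (z² + B(ξ))`, `x³ + b(y) x + c(y)`.
-/

set_option autoImplicit false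
set_option linter.unusedSectionVars false
set_option linter.deprecated false

open Set Filter Topology Metric

noncomputable section

namespace Crest.Agent.R257.Kp_405

variable {E : Type*} [NormedAddCommGroup E] [NormedSpace ℂ E] [FiniteDimensional ℂ E]
variable {F : Type*} [NormedAddCommGroup F] [NormedSpace ℂ F] [FiniteDimensional ℂ F]

/-- the result: an Euler field with trace `1/2 + 1/h` and the bound for `h` -/
def PRes (f : E → ℂ) : Prop :=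
  ∃ h k : ℕ, 1 ≤ h ∧ h ≤ 2 * k + 30 ∧ Eul f (1 / 2 + 1 / (h : ℂ)) ∧ Cv f k

lemma PRes.congr {f g : E → ℂ} (hf : PRes f) (h : f =ᶠ[𝓝 0] g) : PRes g := by
  obtain ⟨n, k, h1, h2, h3, h4⟩ := hf
  exact ⟨n, k, h1, h2, h3.congr h, h4.congr h⟩

lemma PRes.unit_mul {f : E → ℂ} (hfa : AnalyticAt ℂ f 0) (hf : PRes f) {u : E → ℂ}
    (hu : AnalyticAt ℂ u 0) (hu0 : u 0 ≠ 0) : PRes (fun w => u w * f w) := by
  obtain ⟨n, k, h1, h2, h3, h4⟩ := hf
  exact ⟨n, k, h1, h2, h3.unit_mul hfa hu hu0, h4.unit_mul hfa hu⟩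

lemma PRes.comp {f : F → ℂ} (hfa : AnalyticAt ℂ f 0) (hf : PRes f) {Φ : E → F} {Ψ : F → E}
    (h : LB Φ Ψ) : PRes (fun w => f (Φ w)) := by
  obtain ⟨n, k, h1, h2, h3, h4⟩ := hf
  exact ⟨n, k, h1, h2, h3.comp hfa h, h4.comp hfa h⟩

lemma trace_prod (T : ℂ × ℂ →ₗ[ℂ] ℂ × ℂ) :
    LinearMap.trace ℂ (ℂ × ℂ) T = (T (1, 0)).1 + (T (0, 1)).2 := by
  rw [LinearMap.trace_eq_matrix_trace ℂ (Module.Basis.finTwoProd ℂ) T, Matrix.trace_fin_two,
    LinearMap.toMatrix_apply, LinearMap.toMatrix_apply]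
  simp

/-- Euler fields in the plane -/
lemma Eul_plane {W β α : ℂ × ℂ → ℂ} (hβ : AnalyticAt ℂ β 0) (hα : AnalyticAt ℂ α 0)
    (hβ0 : β 0 = 0) (hα0 : α 0 = 0)
    (h : ∀ᶠ w in 𝓝 (0 : ℂ × ℂ), fderiv ℂ W w (β w, α w) = W w) {τ : ℂ}
    (hτ : fderiv ℂ β 0 (1, 0) + fderiv ℂ α 0 (0, 1) = τ) : Eul W τ := by
  refine ⟨fun w => (β w, α w), hβ.prod hα, by simp [hβ0, hα0], h, ?_⟩
  have e1 := hβ.differentiableAt.hasFDerivAt.prodMk hα.differentiableAt.hasFDerivAt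
  rw [e1.fderiv, trace_prod]
  simpa using hτ

/-- functions of the first variable -/
lemma hasFDerivAt_fst_fun {c : ℂ → ℂ} {w : ℂ × ℂ} (hc : AnalyticAt ℂ c w.1) :
    HasFDerivAt (fun p : ℂ × ℂ => c p.1) (deriv c w.1 • ContinuousLinearMap.fst ℂ ℂ ℂ) w :=
  hc.differentiableAt.hasDerivAt.comp_hasFDerivAt w hasFDerivAt_fst

lemma an_fst {c : ℂ → ℂ} (hc : AnalyticAt ℂ c 0) : AnalyticAt ℂ (fun p : ℂ × ℂ => c p.1) 0 :=
  AnalyticAt.comp (g := c) (f := Prod.fst) hc analyticAt_fst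

lemma tendsto_fst0 : Tendsto (Prod.fst : ℂ × ℂ → ℂ) (𝓝 0) (𝓝 0) := continuous_fst.tendsto' _ _ rfl

lemma ev_fst {P : ℂ → Prop} (h : ∀ᶠ y in 𝓝 (0 : ℂ), P y) : ∀ᶠ w in 𝓝 (0 : ℂ × ℂ), P w.1 :=
  tendsto_fst0.eventually h

/-- the quotient `y g / ((n+1) g + y g')` -/
lemma quot_aux {g : ℂ → ℂ} (hg : AnalyticAt ℂ g 0) (hg0 : g 0 ≠ 0) (n : ℕ) :
    ∃ q : ℂ → ℂ, AnalyticAt ℂ q 0 ∧ q 0 = 1 / ((n : ℂ) + 1) ∧
      ∀ᶠ y in 𝓝 (0 : ℂ), q y * ((n + 1) * g y + y * deriv g y) = g y := by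
  have hn : ((n : ℂ) + 1) ≠ 0 := Nat.cast_add_one_ne_zero n
  have hD : AnalyticAt ℂ (fun y => ((n : ℂ) + 1) * g y + y * deriv g y) 0 :=
    (analyticAt_const.mul hg).add (analyticAt_id.mul hg.deriv)
  have hD0 : ((n : ℂ) + 1) * g 0 + 0 * deriv g 0 ≠ 0 := by simp [hn, hg0]
  refine ⟨fun y => g y / (((n : ℂ) + 1) * g y + y * deriv g y), hg.div hD hD0, ?_, ?_⟩
  · simp only [zero_mul, add_zero]
    field_simp
  · filter_upwards [hD.continuousAt.eventually_ne hD0] with y hy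
    exact div_mul_cancel₀ _ hy

/-! ### the model `x² + c(y)` -/

theorem model_A {c g : ℂ → ℂ} (hg : AnalyticAt ℂ g 0) (hg0 : g 0 ≠ 0) {n : ℕ}
    (hc : AnalyticAt ℂ c 0) (he : ∀ᶠ y in 𝓝 (0 : ℂ), c y = y ^ (n + 1) * g y) :
    PRes (fun w : ℂ × ℂ => w.2 ^ 2 + c w.1) := by
  obtain ⟨q, hq, hq0, hqe⟩ := quot_aux hg hg0 n
  have hder := deriv_pow_mul hg he
  have hW : ∀ w : ℂ × ℂ, AnalyticAt ℂ c w.1 → HasFDerivAt (fun w : ℂ × ℂ => w.2 ^ 2 + c w.1)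
      ((2 * w.2) • ContinuousLinearMap.snd ℂ ℂ ℂ + deriv c w.1 • ContinuousLinearMap.fst ℂ ℂ ℂ) w := by
    intro w hw
    have e2 : HasFDerivAt (fun w : ℂ × ℂ => w.2 ^ 2)
        ((2 * w.2) • (ContinuousLinearMap.snd ℂ ℂ ℂ)) w := by
      have := (hasFDerivAt_snd (𝕜 := ℂ) (E := ℂ) (F := ℂ) (p := w)).pow 2
      refine this.congr_fderiv ?_
      ext v <;> simp
    exact e2.add (hasFDerivAt_fst_fun hw)
  refine ⟨n + 1, n, by omega, by omega, ?_, ?_⟩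
  · have a1 : AnalyticAt ℂ (fun w : ℂ × ℂ => w.1 * q w.1) 0 := analyticAt_fst.mul (an_fst hq)
    have a2 : AnalyticAt ℂ (fun w : ℂ × ℂ => (1 / 2 : ℂ) * w.2) 0 :=
      analyticAt_const.mul analyticAt_snd
    refine Eul_plane a1 a2 (by simp) (by simp) ?_ ?_
    · filter_upwards [ev_fst hc.eventually_analyticAt, ev_fst he, ev_fst hder, ev_fst hqe] with
        w h1 h2 h3 h4
      rw [(hW w h1).fderiv]
      simp only [ContinuousLinearMap.add_apply, ContinuousLinearMap.smul_apply,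
        ContinuousLinearMap.coe_fst', ContinuousLinearMap.coe_snd', smul_eq_mul, h2, h3]
      linear_combination (w.1 ^ (n + 1)) * h4
    · have e1 : HasFDerivAt (fun w : ℂ × ℂ => w.1 * q w.1) _ (0 : ℂ × ℂ) :=
        hasFDerivAt_fst.mul (hasFDerivAt_fst_fun (w := 0) hq)
      have e2 : HasFDerivAt (fun w : ℂ × ℂ => (1 / 2 : ℂ) * w.2)
          ((1 / 2 : ℂ) • (ContinuousLinearMap.snd ℂ ℂ ℂ)) 0 :=
        (hasFDerivAt_snd (𝕜 := ℂ) (E := ℂ) (F := ℂ) (p := 0)).const_mul (1 / 2 : ℂ)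
      rw [e1.fderiv, e2.fderiv]
      simp [hq0]
      ring
  · have e1 := hc.deriv
    obtain ⟨M, hM⟩ : ∃ M : ℝ, ∀ᶠ y in 𝓝 (0 : ℂ), ‖g y‖ ≤ M ∧
        ‖((n : ℂ) + 1) * g y + y * deriv g y‖ ≤ M := by
      have hD : AnalyticAt ℂ (fun y => ((n : ℂ) + 1) * g y + y * deriv g y) 0 :=
        (analyticAt_const.mul hg).add (analyticAt_id.mul hg.deriv)
      refine ⟨max (‖g 0‖ + 1) (‖((n : ℂ) + 1) * g 0 + 0 * deriv g 0‖ + 1), ?_⟩
      have b1 := hg.continuousAt.norm.eventually_lt (continuousAt_const (y := ‖g 0‖ + 1)) (by simp)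
      have b2 := hD.continuousAt.norm.eventually_lt
        (continuousAt_const (y := ‖((n : ℂ) + 1) * g 0 + 0 * deriv g 0‖ + 1)) (by simp)
      filter_upwards [b1, b2] with w c1 c2
      exact ⟨c1.le.trans (le_max_left _ _), c2.le.trans (le_max_right _ _)⟩
    refine ⟨fun s => (s, 0), analyticAt_id.prod analyticAt_const, rfl, 1, one_pos, M, ?_⟩
    filter_upwards [hc.eventually_analyticAt, he, hder, hM] with s h1 h2 h3 h4
    refine ⟨?_, ?_, ?_⟩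
    · rw [one_mul]; exact le_max_left ‖s‖ ‖(0:ℂ)‖
    · have e1 : fderiv ℂ (fun w : ℂ × ℂ => w.2 ^ 2 + c w.1) (s, 0) =
          (s ^ n * (((n : ℂ) + 1) * g s + s * deriv g s)) • ContinuousLinearMap.fst ℂ ℂ ℂ := by
        rw [(hW (s, 0) h1).fderiv]
        refine ContinuousLinearMap.ext fun v => ?_
        simp only [ContinuousLinearMap.add_apply, ContinuousLinearMap.smul_apply,
          ContinuousLinearMap.coe_fst', ContinuousLinearMap.coe_snd', smul_eq_mul, h3]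
        ring
      rw [e1, norm_smul, norm_mul, norm_pow]
      have : ‖ContinuousLinearMap.fst ℂ ℂ ℂ‖ ≤ 1 := ContinuousLinearMap.norm_fst_le _ _ _
      calc ‖s‖ ^ n * ‖((n : ℂ) + 1) * g s + s * deriv g s‖ * ‖ContinuousLinearMap.fst ℂ ℂ ℂ‖
          ≤ ‖s‖ ^ n * M * 1 := by
            have hM0 : 0 ≤ M := (norm_nonneg _).trans h4.1
            gcongr
            exact h4.2
        _ = M * ‖s‖ ^ n := by ring
    · simp only [ne_eq, OfNat.ofNat_ne_zero, not_false_eq_true, zero_pow, zero_add, h2, norm_mul,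
        norm_pow]
      rw [mul_comm]
      gcongr
      exact h4.1

/-! ### the model `ξ (z² + B(ξ))` -/

theorem model_D {B g : ℂ → ℂ} (hg : AnalyticAt ℂ g 0) (hg0 : g 0 ≠ 0) {n : ℕ}
    (hB : AnalyticAt ℂ B 0) (he : ∀ᶠ y in 𝓝 (0 : ℂ), B y = y ^ (n + 1) * g y) :
    PRes (fun w : ℂ × ℂ => w.1 * (w.2 ^ 2 + B w.1)) := by
  obtain ⟨q, hq, hq0, hqe⟩ := quot_aux hg hg0 (n + 1)
  have hder := deriv_pow_mul hg he
  have hW : ∀ w : ℂ × ℂ, AnalyticAt ℂ B w.1 →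
      HasFDerivAt (fun w : ℂ × ℂ => w.1 * (w.2 ^ 2 + B w.1))
      (w.1 • ((2 * w.2) • ContinuousLinearMap.snd ℂ ℂ ℂ + deriv B w.1 • ContinuousLinearMap.fst ℂ ℂ ℂ)
        + (w.2 ^ 2 + B w.1) • ContinuousLinearMap.fst ℂ ℂ ℂ) w := by
    intro w hw
    have e2 : HasFDerivAt (fun w : ℂ × ℂ => w.2 ^ 2)
        ((2 * w.2) • (ContinuousLinearMap.snd ℂ ℂ ℂ)) w := by
      have := (hasFDerivAt_snd (𝕜 := ℂ) (E := ℂ) (F := ℂ) (p := w)).pow 2
      refine this.congr_fderiv ?_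
      ext v <;> simp
    exact hasFDerivAt_fst.mul (e2.add (hasFDerivAt_fst_fun hw))
  refine ⟨2 * (n + 2), n + 1, by omega, by omega, ?_, ?_⟩
  · have a1 : AnalyticAt ℂ (fun w : ℂ × ℂ => w.1 * q w.1) 0 := analyticAt_fst.mul (an_fst hq)
    have a2 : AnalyticAt ℂ (fun w : ℂ × ℂ => w.2 * ((1 - q w.1) / 2)) 0 :=
      analyticAt_snd.mul ((analyticAt_const.sub (an_fst hq)).div analyticAt_const (by norm_num))
    refine Eul_plane a1 a2 (by simp) (by simp) ?_ ?_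
    · filter_upwards [ev_fst hB.eventually_analyticAt, ev_fst he, ev_fst hder, ev_fst hqe] with
        w h1 h2 h3 h4
      rw [(hW w h1).fderiv]
      simp only [ContinuousLinearMap.add_apply, ContinuousLinearMap.smul_apply,
        ContinuousLinearMap.coe_fst', ContinuousLinearMap.coe_snd', smul_eq_mul, h2, h3]
      push_cast at h4
      linear_combination (w.1 ^ (n + 2)) * h4
    · have e1 : HasFDerivAt (fun w : ℂ × ℂ => w.1 * q w.1) _ (0 : ℂ × ℂ) :=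
        hasFDerivAt_fst.mul (hasFDerivAt_fst_fun (w := 0) hq)
      have e3 : AnalyticAt ℂ (fun y => (1 - q y) / 2) 0 :=
        (analyticAt_const.sub hq).div analyticAt_const (by norm_num)
      have e2 : HasFDerivAt (fun w : ℂ × ℂ => w.2 * ((1 - q w.1) / 2)) _ (0 : ℂ × ℂ) :=
        hasFDerivAt_snd.mul (hasFDerivAt_fst_fun (w := 0) e3)
      rw [e1.fderiv, e2.fderiv]
      have hn : ((n : ℂ) + 2) ≠ 0 := by
        have := Nat.cast_add_one_ne_zero (R := ℂ) (n + 1)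
        push_cast at this
        intro h; apply this; linear_combination h
      have hn' : ((n : ℂ) + 1 + 1) ≠ 0 := by
        intro h; apply hn; linear_combination h
      simp [hq0]
      field_simp
      ring
  · obtain ⟨M, hM⟩ : ∃ M : ℝ, ∀ᶠ y in 𝓝 (0 : ℂ), ‖g y‖ ≤ M ∧
        ‖((n : ℂ) + 1) * g y + y * deriv g y + g y‖ ≤ M := by
      have hD : AnalyticAt ℂ (fun y => ((n : ℂ) + 1) * g y + y * deriv g y + g y) 0 :=
        ((analyticAt_const.mul hg).add (analyticAt_id.mul hg.deriv)).add hg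
      refine ⟨max (‖g 0‖ + 1) (‖((n : ℂ) + 1) * g 0 + 0 * deriv g 0 + g 0‖ + 1), ?_⟩
      have b1 := hg.continuousAt.norm.eventually_lt (continuousAt_const (y := ‖g 0‖ + 1)) (by simp)
      have b2 := hD.continuousAt.norm.eventually_lt
        (continuousAt_const (y := ‖((n : ℂ) + 1) * g 0 + 0 * deriv g 0 + g 0‖ + 1)) (by simp)
      filter_upwards [b1, b2] with w c1 c2
      exact ⟨c1.le.trans (le_max_left _ _), c2.le.trans (le_max_right _ _)⟩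
    refine ⟨fun s => (s, 0), analyticAt_id.prod analyticAt_const, rfl, 1, one_pos, M, ?_⟩
    filter_upwards [hB.eventually_analyticAt, he, hder, hM] with s h1 h2 h3 h4
    have hM0 : 0 ≤ M := (norm_nonneg _).trans h4.1
    refine ⟨?_, ?_, ?_⟩
    · rw [one_mul]; exact le_max_left ‖s‖ ‖(0:ℂ)‖
    · have e1 : fderiv ℂ (fun w : ℂ × ℂ => w.1 * (w.2 ^ 2 + B w.1)) (s, 0) =
          (s ^ (n + 1) * (((n : ℂ) + 1) * g s + s * deriv g s + g s)) •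
            ContinuousLinearMap.fst ℂ ℂ ℂ := by
        rw [(hW (s, 0) h1).fderiv]
        refine ContinuousLinearMap.ext fun v => ?_
        simp only [ContinuousLinearMap.add_apply, ContinuousLinearMap.smul_apply,
          ContinuousLinearMap.coe_fst', ContinuousLinearMap.coe_snd', smul_eq_mul, h2, h3]
        ring
      rw [e1, norm_smul, norm_mul, norm_pow]
      have : ‖ContinuousLinearMap.fst ℂ ℂ ℂ‖ ≤ 1 := ContinuousLinearMap.norm_fst_le _ _ _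
      calc ‖s‖ ^ (n + 1) * ‖((n : ℂ) + 1) * g s + s * deriv g s + g s‖ *
            ‖ContinuousLinearMap.fst ℂ ℂ ℂ‖
          ≤ ‖s‖ ^ (n + 1) * M * 1 := by
            gcongr
            exact h4.2
        _ = M * ‖s‖ ^ (n + 1) := by ring
    · simp only [ne_eq, OfNat.ofNat_ne_zero, not_false_eq_true, zero_pow, zero_add, h2, norm_mul,
        norm_pow]
      calc ‖s‖ * (‖s‖ ^ (n + 1) * ‖g s‖) ≤ ‖s‖ * (‖s‖ ^ (n + 1) * M) := by
            gcongr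
            exact h4.1
        _ = M * ‖s‖ ^ (n + 1 + 1) := by ring

/-- `Cv f 0` always holds for `f 0 = 0` -/
lemma Cv_zero [Nontrivial E] {f : E → ℂ} (hf : AnalyticAt ℂ f 0) (hf0 : f 0 = 0) : Cv f 0 := by
  have : CompleteSpace E := FiniteDimensional.complete ℂ E
  obtain ⟨v, hv⟩ := exists_ne (0 : E)
  have hv' : 0 < ‖v‖ := norm_pos_iff.2 hv
  have t1 : Tendsto (fun s : ℂ => s • v) (𝓝 0) (𝓝 0) := by
    have : Continuous (fun s : ℂ => s • v) := by fun_prop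
    simpa using this.tendsto 0
  have b1 := hf.fderiv.continuousAt.norm.eventually_lt
    (continuousAt_const (y := ‖fderiv ℂ f 0‖ + 1)) (by simp)
  have hO : (fun w => f w) =O[𝓝 0] (fun w : E => w) := by
    have := hf.differentiableAt.hasFDerivAt.isBigO_sub
    simpa [hf0] using this
  obtain ⟨K, hK, hK'⟩ := hO.exists_pos
  refine ⟨fun s => s • v, ?_, by simp, ‖v‖, hv', max (‖fderiv ℂ f 0‖ + 1) (K * ‖v‖), ?_⟩
  · exact analyticAt_id.smul analyticAt_const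
  · filter_upwards [t1.eventually b1, t1.eventually hK'.bound] with s h1 h2
    refine ⟨?_, ?_, ?_⟩
    · rw [norm_smul, mul_comm]
    · rw [pow_zero, mul_one]; exact h1.le.trans (le_max_left _ _)
    · rw [norm_smul] at h2
      calc ‖f (s • v)‖ ≤ K * (‖s‖ * ‖v‖) := h2
        _ = (K * ‖v‖) * ‖s‖ ^ (0 + 1) := by ring
        _ ≤ _ := by gcongr; exact le_max_right _ _

/-! ### the model `x³ + b(y) x + c(y)` -/

theorem cubic_field {b c g₁ g₂ : ℂ → ℂ} (hg₁ : AnalyticAt ℂ g₁ 0) (hg₂ : AnalyticAt ℂ g₂ 0)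
    {i j : ℕ} (hb : AnalyticAt ℂ b 0) (hc : AnalyticAt ℂ c 0)
    (hbe : ∀ᶠ y in 𝓝 (0 : ℂ), b y = y ^ (i + j + 2) * g₁ y)
    (hce : ∀ᶠ y in 𝓝 (0 : ℂ), c y = y ^ (i + 2 * j + 3) * g₂ y)
    {δ ν : ℂ} (hδ : δ = 0 ^ i * g₁ 0 * ((i + j + 2) * g₁ 0) ^ 2 +
      3 * 0 ^ j * ((i + 2 * j + 3) * g₂ 0) ^ 2) (hδ0 : δ ≠ 0)
    (hν : ν = 2 / 3 * 0 ^ i * g₁ 0 ^ 2 * ((i + j + 2) * g₁ 0) +
      3 * 0 ^ j * g₂ 0 * ((i + 2 * j + 3) * g₂ 0)) :
    Eul (fun w : ℂ × ℂ => w.2 ^ 3 + b w.1 * w.2 + c w.1) (1 / 3 + ν / δ) := by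
  have hb' := deriv_pow_mul (a := b) (n := i + j + 1) hg₁ hbe
  have hc' := deriv_pow_mul (a := c) (n := i + 2 * j + 2) hg₂ hce
  set B : ℂ → ℂ := fun y => (((i + j + 1 : ℕ) : ℂ) + 1) * g₁ y + y * deriv g₁ y with hB
  set C : ℂ → ℂ := fun y => (((i + 2 * j + 2 : ℕ) : ℂ) + 1) * g₂ y + y * deriv g₂ y with hC
  have hBa : AnalyticAt ℂ B 0 := (analyticAt_const.mul hg₁).add (analyticAt_id.mul hg₁.deriv)
  have hCa : AnalyticAt ℂ C 0 := (analyticAt_const.mul hg₂).add (analyticAt_id.mul hg₂.deriv)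
  have hB0 : B 0 = ((i + j + 2) * g₁ 0) := by simp only [hB]; push_cast; ring
  have hC0 : C 0 = ((i + 2 * j + 3) * g₂ 0) := by simp only [hC]; push_cast; ring
  set D : ℂ → ℂ := fun y => y ^ i * g₁ y * B y ^ 2 + 3 * y ^ j * C y ^ 2 with hD
  set N₀ : ℂ → ℂ := fun y => 2 / 3 * y ^ i * g₁ y ^ 2 * B y + 3 * y ^ j * g₂ y * C y with hN₀
  set N₁ : ℂ → ℂ := fun y => 2 * g₁ y * C y - 3 * B y * g₂ y with hN₁
  have hDa : AnalyticAt ℂ D 0 :=
    (((analyticAt_id.pow i).mul hg₁).mul (hBa.pow 2)).add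
      ((analyticAt_const.mul (analyticAt_id.pow j)).mul (hCa.pow 2))
  have hN₀a : AnalyticAt ℂ N₀ 0 :=
    (((analyticAt_const.mul (analyticAt_id.pow i)).mul (hg₁.pow 2)).mul hBa).add
      (((analyticAt_const.mul (analyticAt_id.pow j)).mul hg₂).mul hCa)
  have hN₁a : AnalyticAt ℂ N₁ 0 :=
    ((analyticAt_const.mul hg₁).mul hCa).sub ((analyticAt_const.mul hBa).mul hg₂)
  have hD0 : D 0 = δ := by simp only [hD, hB0, hC0]; rw [hδ]
  have hD0' : D 0 ≠ 0 := by rw [hD0]; exact hδ0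
  have hN0 : N₀ 0 = ν := by simp only [hN₀, hB0, hC0]; rw [hν]
  set Q₀ : ℂ → ℂ := fun y => N₀ y / D y with hQ₀
  set Q₁ : ℂ → ℂ := fun y => N₁ y / D y with hQ₁
  have hQ₀a : AnalyticAt ℂ Q₀ 0 := hN₀a.div hDa hD0'
  have hQ₁a : AnalyticAt ℂ Q₁ 0 := hN₁a.div hDa hD0'
  set A₀ : ℂ → ℂ := fun y => - (Q₁ y * (y ^ (i + j + 1) * B y)) / 3 with hA₀
  have hA₀a : AnalyticAt ℂ A₀ 0 :=
    ((hQ₁a.mul ((analyticAt_id.pow _).mul hBa)).neg).div analyticAt_const (by norm_num)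
  have a1 : AnalyticAt ℂ (fun w : ℂ × ℂ => w.1 * Q₀ w.1 + Q₁ w.1 * w.2) 0 :=
    (analyticAt_fst.mul (an_fst hQ₀a)).add ((an_fst hQ₁a).mul analyticAt_snd)
  have a2 : AnalyticAt ℂ (fun w : ℂ × ℂ => A₀ w.1 + (1 / 3 : ℂ) * w.2) 0 :=
    (an_fst hA₀a).add (analyticAt_const.mul analyticAt_snd)
  have hA00 : A₀ 0 = 0 := by simp [hA₀]
  refine Eul_plane a1 a2 (by simp) (by simp [hA00]) ?_ ?_
  · filter_upwards [ev_fst hb.eventually_analyticAt, ev_fst hc.eventually_analyticAt, ev_fst hbe,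
      ev_fst hce, ev_fst hb', ev_fst hc', ev_fst (hDa.continuousAt.eventually_ne hD0')] with
      w h1 h2 h3 h4 h5 h6 h7
    have e2 : HasFDerivAt (fun w : ℂ × ℂ => w.2 ^ 3)
        ((3 * w.2 ^ 2) • (ContinuousLinearMap.snd ℂ ℂ ℂ)) w := by
      have := (hasFDerivAt_snd (𝕜 := ℂ) (E := ℂ) (F := ℂ) (p := w)).pow 3
      refine this.congr_fderiv ?_
      ext v <;> simp
    have e3 : HasFDerivAt (fun w : ℂ × ℂ => w.2 ^ 3 + b w.1 * w.2 + c w.1) _ w :=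
      (e2.add ((hasFDerivAt_fst_fun h1).mul hasFDerivAt_snd)).add (hasFDerivAt_fst_fun h2)
    rw [e3.fderiv]
    simp only [ContinuousLinearMap.add_apply, ContinuousLinearMap.smul_apply,
      ContinuousLinearMap.coe_fst', ContinuousLinearMap.coe_snd', smul_eq_mul]
    have hBw : ((((i + j + 1 : ℕ) : ℂ) + 1) * g₁ w.1 + w.1 * deriv g₁ w.1) = B w.1 := rfl
    have hCw : ((((i + 2 * j + 2 : ℕ) : ℂ) + 1) * g₂ w.1 + w.1 * deriv g₂ w.1) = C w.1 := rfl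
    rw [h5, h6, h3, h4, hBw, hCw]
    simp only [hA₀]
    have k0 : Q₀ w.1 * D w.1 = N₀ w.1 := by simp only [hQ₀]; field_simp
    have k1 : Q₁ w.1 * D w.1 = N₁ w.1 := by simp only [hQ₁]; field_simp
    generalize Q₀ w.1 = q0 at *
    generalize Q₁ w.1 = q1 at *
    have key1 : q0 * B w.1 + w.1 ^ j * q1 * C w.1 = 2 / 3 * g₁ w.1 := by
      apply mul_right_cancel₀ h7
      have : (q0 * B w.1 + w.1 ^ j * q1 * C w.1) * D w.1 =
        (q0 * D w.1) * B w.1 + w.1 ^ j * (q1 * D w.1) * C w.1 := by ring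
      rw [this, k0, k1]
      simp only [hN₀, hN₁, hD]
      ring
    have key2 : q0 * C w.1 - 1 / 3 * w.1 ^ i * q1 * B w.1 * g₁ w.1 = g₂ w.1 := by
      apply mul_right_cancel₀ h7
      have : (q0 * C w.1 - 1 / 3 * w.1 ^ i * q1 * B w.1 * g₁ w.1) * D w.1 =
        (q0 * D w.1) * C w.1 - 1 / 3 * w.1 ^ i * (q1 * D w.1) * B w.1 * g₁ w.1 := by ring
      rw [this, k0, k1]
      simp only [hN₀, hN₁, hD]
      ring
    linear_combination (w.1 ^ (i + j + 2) * w.2) * key1 + (w.1 ^ (i + 2 * j + 3)) * key2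
  · have e1 : HasFDerivAt (fun w : ℂ × ℂ => w.1 * Q₀ w.1 + Q₁ w.1 * w.2) _ (0 : ℂ × ℂ) :=
      (hasFDerivAt_fst.mul (hasFDerivAt_fst_fun (w := 0) hQ₀a)).add
        ((hasFDerivAt_fst_fun (w := 0) hQ₁a).mul hasFDerivAt_snd)
    have e2 : HasFDerivAt (fun w : ℂ × ℂ => A₀ w.1 + (1 / 3 : ℂ) * w.2) _ (0 : ℂ × ℂ) :=
      (hasFDerivAt_fst_fun (w := 0) hA₀a).add
        ((hasFDerivAt_snd (𝕜 := ℂ) (E := ℂ) (F := ℂ) (p := 0)).const_mul (1 / 3 : ℂ))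
    rw [e1.fderiv, e2.fderiv]
    have hQ00 : Q₀ 0 = ν / δ := by simp only [hQ₀, hD0, hN0]
    simp [hQ00]
    ring

end Crest.Agent.R257.Kp_405
end
end

-- ▼ part R257/Kp4_405
section

/-!
R257 / Kp4_405: `KI p`: `1/|p|` is integrable near the origin of `ℂ²`; invariance; non-integrability.
-/

set_option autoImplicit false
set_option linter.unusedSectionVars false
set_option linter.deprecated false

open Set Filter Topology Metric MeasureTheory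
open scoped ENNReal

noncomputable section

namespace Crest.Agent.R257.Kp_405

/-- `1/|p|` is integrable near `0` -/
def KI (p : ℂ × ℂ → ℂ) : Prop := ∃ U ∈ 𝓝 (0 : ℂ × ℂ), ∫⁻ w in U, ‖p w‖ₑ⁻¹ < ⊤

lemma KI.mono {p : ℂ × ℂ → ℂ} (h : KI p) {V : Set (ℂ × ℂ)} (hV : V ∈ 𝓝 (0 : ℂ × ℂ)) :
    ∃ U ∈ 𝓝 (0 : ℂ × ℂ), IsOpen U ∧ U ⊆ V ∧ ∫⁻ w in U, ‖p w‖ₑ⁻¹ < ⊤ := by
  obtain ⟨U, hU, h1⟩ := h
  obtain ⟨W, hW, hWo, hW0⟩ := _root_.mem_nhds_iff.1 (inter_mem hU hV)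
  exact ⟨W, hWo.mem_nhds hW0, hWo, hW.trans inter_subset_right,
    (lintegral_mono_set (hW.trans inter_subset_left)).trans_lt h1⟩

lemma KI.of_le {p q : ℂ × ℂ → ℂ} (h : KI p) {C : ℝ} (hC : 0 < C)
    (hle : ∀ᶠ w in 𝓝 (0 : ℂ × ℂ), ‖p w‖ ≤ C * ‖q w‖) : KI q := by
  obtain ⟨U, hU, hUo, hUV, hUi⟩ := h.mono hle
  refine ⟨U, hU, ?_⟩
  have h1 : ∀ w ∈ U, ‖q w‖ₑ⁻¹ ≤ ENNReal.ofReal C * ‖p w‖ₑ⁻¹ := by
    intro w hw
    have h2 : ‖p w‖ ≤ C * ‖q w‖ := hUV hw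
    have h3 : ‖p w‖ₑ ≤ ENNReal.ofReal C * ‖q w‖ₑ := by
      rw [← ofReal_norm, ← ofReal_norm, ← ENNReal.ofReal_mul hC.le]
      exact ENNReal.ofReal_le_ofReal h2
    have hC0 : ENNReal.ofReal C ≠ 0 := (ENNReal.ofReal_pos.2 hC).ne'
    have hCt : ENNReal.ofReal C ≠ ⊤ := ENNReal.ofReal_ne_top
    calc ‖q w‖ₑ⁻¹ = ENNReal.ofReal C * (ENNReal.ofReal C * ‖q w‖ₑ)⁻¹ := by
          rw [ENNReal.mul_inv (Or.inl hC0) (Or.inl hCt), ← mul_assoc, ENNReal.mul_inv_cancel hC0 hCt,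
            one_mul]
      _ ≤ ENNReal.ofReal C * ‖p w‖ₑ⁻¹ := by gcongr
  calc ∫⁻ w in U, ‖q w‖ₑ⁻¹ ≤ ∫⁻ w in U, ENNReal.ofReal C * ‖p w‖ₑ⁻¹ :=
        setLIntegral_mono' hUo.measurableSet h1
    _ = ENNReal.ofReal C * ∫⁻ w in U, ‖p w‖ₑ⁻¹ := lintegral_const_mul' _ _ ENNReal.ofReal_ne_top
    _ < ⊤ := ENNReal.mul_lt_top ENNReal.ofReal_lt_top hUi

lemma KI.congr {p q : ℂ × ℂ → ℂ} (h : KI p) (he : p =ᶠ[𝓝 0] q) : KI q :=
  h.of_le one_pos (by filter_upwards [he] with w hw; rw [hw, one_mul])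

/-- dropping a unit -/
lemma KI.of_unit_mul {p u : ℂ × ℂ → ℂ} (hu : ContinuousAt u 0)
    (h : KI (fun w => u w * p w)) : KI p := by
  refine h.of_le (C := ‖u 0‖ + 1) (by positivity) ?_
  have b1 := hu.norm.eventually_lt (continuousAt_const (y := ‖u 0‖ + 1)) (by simp)
  filter_upwards [b1] with w hw
  rw [norm_mul]
  gcongr

/-- change of variables -/
theorem KI.comp {p : ℂ × ℂ → ℂ} (h : KI p) {Φ Ψ : ℂ × ℂ → ℂ × ℂ} (hL : LB Φ Ψ) :
    KI (fun w => p (Φ w)) := by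
  set D : ℂ × ℂ → (ℂ × ℂ →L[ℝ] ℂ × ℂ) := fun w => (fderiv ℂ Φ w).restrictScalars ℝ with hD
  have hDc : ContinuousAt D 0 := by
    have h1 : ContinuousAt (fderiv ℂ Φ) 0 := hL.an.fderiv.continuousAt
    exact (ContinuousLinearMap.restrictScalarsL ℂ (ℂ × ℂ) (ℂ × ℂ) ℝ ℝ).continuous.continuousAt.comp
      h1
  have hdet : ContinuousAt (fun w => (D w).det) 0 :=
    ContinuousLinearMap.continuous_det.continuousAt.comp hDc
  have hd0 : (D 0).det ≠ 0 := by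
    have h1 := hL.fderiv_comp_zero
    have h2 : (D 0).comp ((fderiv ℂ Ψ 0).restrictScalars ℝ) = ContinuousLinearMap.id ℝ (ℂ × ℂ) := by
      refine ContinuousLinearMap.ext fun v => ?_
      have h3 := congrArg (fun T : ℂ × ℂ →L[ℂ] ℂ × ℂ => T v) h1
      exact h3
    intro h3
    have h4 : ((D 0).comp ((fderiv ℂ Ψ 0).restrictScalars ℝ)).det = 0 := by
      change LinearMap.det (((D 0 : ℂ × ℂ →L[ℝ] ℂ × ℂ) : ℂ × ℂ →ₗ[ℝ] ℂ × ℂ) ∘ₗ
        (((fderiv ℂ Ψ 0).restrictScalars ℝ : ℂ × ℂ →L[ℝ] ℂ × ℂ) : ℂ × ℂ →ₗ[ℝ] ℂ × ℂ)) = 0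
      rw [LinearMap.det_comp]
      have : LinearMap.det ((D 0 : ℂ × ℂ →L[ℝ] ℂ × ℂ) : ℂ × ℂ →ₗ[ℝ] ℂ × ℂ) = 0 := h3
      rw [this, zero_mul]
    rw [h2] at h4
    have h5 : (ContinuousLinearMap.id ℝ (ℂ × ℂ)).det = 1 := LinearMap.det_id
    rw [h5] at h4
    exact one_ne_zero h4
  set δ : ℝ := |(D 0).det| / 2 with hδ
  have hδ0 : 0 < δ := by have := abs_pos.2 hd0; positivity
  have hge : ∀ᶠ w in 𝓝 (0 : ℂ × ℂ), δ ≤ |(D w).det| := by
    have := (continuousAt_const (y := δ)).eventually_lt hdet.abs (by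
      rw [hδ]; have := abs_pos.2 hd0; linarith)
    filter_upwards [this] with w hw using hw.le
  obtain ⟨V, hV, hVo, -, hVi⟩ := h.mono univ_mem
  have hgood : ∀ᶠ w in 𝓝 (0 : ℂ × ℂ), Φ w ∈ V ∧ δ ≤ |(D w).det| ∧ Ψ (Φ w) = w ∧
      AnalyticAt ℂ Φ w := by
    filter_upwards [hL.tendsto.eventually hV, hge, hL.left, hL.an.eventually_analyticAt] with
      w a b c d using ⟨a, b, c, d⟩
  obtain ⟨U, hU, hUo, hU0⟩ := _root_.mem_nhds_iff.1 hgood
  refine ⟨U, hUo.mem_nhds hU0, ?_⟩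
  have : (volume : Measure (ℂ × ℂ)).IsAddHaarMeasure := by
    rw [Measure.volume_eq_prod]; infer_instance
  have hcv := lintegral_image_eq_lintegral_abs_det_fderiv_mul (volume : Measure (ℂ × ℂ))
    hUo.measurableSet (f := Φ) (f' := D)
    (fun w hw => ((hU hw).2.2.2.differentiableAt.hasFDerivAt.restrictScalars ℝ).hasFDerivWithinAt)
    (fun w hw w' hw' he => by
      rw [← (hU hw).2.2.1, ← (hU hw').2.2.1, he]) (fun w => ‖p w‖ₑ⁻¹)
  have h1 : ∀ w ∈ U, ‖p (Φ w)‖ₑ⁻¹ ≤ ENNReal.ofReal δ⁻¹ *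
      (ENNReal.ofReal |(D w).det| * ‖p (Φ w)‖ₑ⁻¹) := by
    intro w hw
    have h2 : δ ≤ |(D w).det| := (hU hw).2.1
    rw [← mul_assoc, ← ENNReal.ofReal_mul (by positivity)]
    have h3 : 1 ≤ ENNReal.ofReal (δ⁻¹ * |(D w).det|) := by
      rw [← ENNReal.ofReal_one]
      apply ENNReal.ofReal_le_ofReal
      rw [inv_mul_eq_div, le_div_iff₀ hδ0]
      linarith
    calc ‖p (Φ w)‖ₑ⁻¹ = 1 * ‖p (Φ w)‖ₑ⁻¹ := (one_mul _).symm
      _ ≤ _ := by gcongr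
  calc ∫⁻ w in U, ‖p (Φ w)‖ₑ⁻¹
      ≤ ∫⁻ w in U, ENNReal.ofReal δ⁻¹ * (ENNReal.ofReal |(D w).det| * ‖p (Φ w)‖ₑ⁻¹) :=
        setLIntegral_mono' hUo.measurableSet h1
    _ = ENNReal.ofReal δ⁻¹ * ∫⁻ w in U, ENNReal.ofReal |(D w).det| * ‖p (Φ w)‖ₑ⁻¹ :=
        lintegral_const_mul' _ _ ENNReal.ofReal_ne_top
    _ = ENNReal.ofReal δ⁻¹ * ∫⁻ w in Φ '' U, ‖p w‖ₑ⁻¹ := by rw [hcv]
    _ ≤ ENNReal.ofReal δ⁻¹ * ∫⁻ w in V, ‖p w‖ₑ⁻¹ := by
        gcongr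
        rintro _ ⟨w, hw, rfl⟩
        exact (hU hw).1
    _ < ⊤ := ENNReal.mul_lt_top ENNReal.ofReal_lt_top hVi

/-- non-integrability -/
theorem not_KI {p : ℂ × ℂ → ℂ} (a b : ℕ) (ha : 1 ≤ a) {r C : ℝ} (hr : 0 < r)
    (h : ∀ t : ℝ, 0 < t → t ≤ 1 → ∀ w : ℂ × ℂ, ‖w.1‖ ≤ r * t ^ b → ‖w.2‖ ≤ r * t ^ a →
      ‖p w‖ ≤ C * t ^ (2 * a + 2 * b)) : ¬ KI p := by
  rintro ⟨U, hU, hUi⟩
  obtain ⟨ε, hε, hεU⟩ := Metric.mem_nhds_iff.1 hU
  set ρ : ℝ := min r (ε / 2) with hρ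
  have hρ0 : 0 < ρ := lt_min hr (by positivity)
  have hρr : ρ ≤ r := min_le_left _ _
  have hρε : ρ < ε := (min_le_right _ _).trans_lt (by linarith)
  set K : ℝ := max C 1 with hK
  have hK0 : 0 < K := lt_max_of_lt_right one_pos
  set t : ℕ → ℝ := fun k => (1 / 2 : ℝ) ^ k with ht
  have ht0 : ∀ k, 0 < t k := fun k => by positivity
  have ht1 : ∀ k, t k ≤ 1 := fun k => pow_le_one₀ (by norm_num) (by norm_num)
  set S : ℕ → Set (ℂ × ℂ) := fun k => ball (0 : ℂ) (ρ * t k ^ b) ×ˢ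
    ball (((3 / 4 * (ρ * t k ^ a) : ℝ)) : ℂ) (ρ * t k ^ a / 4) with hS
  have hSm : ∀ k, MeasurableSet (S k) := fun k => measurableSet_ball.prod measurableSet_ball
  have hSn : ∀ k, ∀ w ∈ S k, ‖w.1‖ < ρ * t k ^ b ∧ ρ * t k ^ a / 2 < ‖w.2‖ ∧
      ‖w.2‖ < ρ * t k ^ a := by
    intro k w hw
    have hw1 : ‖w.1‖ < ρ * t k ^ b := by simpa using hw.1
    have hw2 : ‖w.2 - ((3 / 4 * (ρ * t k ^ a) : ℝ) : ℂ)‖ < ρ * t k ^ a / 4 := by
      simpa [dist_eq_norm] using hw.2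
    have hR : 0 < ρ * t k ^ a := mul_pos hρ0 (pow_pos (ht0 k) _)
    have hc : ‖((3 / 4 * (ρ * t k ^ a) : ℝ) : ℂ)‖ = 3 / 4 * (ρ * t k ^ a) := by
      rw [Complex.norm_real, Real.norm_eq_abs, abs_of_pos (by positivity)]
    refine ⟨hw1, ?_, ?_⟩
    · have := norm_sub_norm_le (((3 / 4 * (ρ * t k ^ a) : ℝ)) : ℂ) w.2
      rw [norm_sub_rev] at this
      linarith
    · have := norm_le_norm_add_norm_sub' w.2 (((3 / 4 * (ρ * t k ^ a) : ℝ)) : ℂ)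
      linarith
  have hSU : ∀ k, S k ⊆ U := by
    intro k w hw
    apply hεU
    obtain ⟨h1, -, h3⟩ := hSn k w hw
    have e1 : ρ * t k ^ b ≤ ρ := mul_le_of_le_one_right hρ0.le (pow_le_one₀ (ht0 k).le (ht1 k))
    have e2 : ρ * t k ^ a ≤ ρ := mul_le_of_le_one_right hρ0.le (pow_le_one₀ (ht0 k).le (ht1 k))
    rw [mem_ball_zero_iff, Prod.norm_def]
    exact max_lt (by linarith) (by linarith)
  have hSd : Pairwise (Function.onFun Disjoint S) := by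
    have key : ∀ k l, k < l → Disjoint (S k) (S l) := by
      intro k l hkl
      rw [Set.disjoint_left]
      intro w hk hl
      obtain ⟨-, h2, -⟩ := hSn k w hk
      obtain ⟨-, -, h3⟩ := hSn l w hl
      have e1 : t l ≤ t k / 2 := by
        have : t l ≤ t (k + 1) := pow_le_pow_of_le_one (by norm_num) (by norm_num) hkl
        calc t l ≤ t (k + 1) := this
          _ = t k / 2 := by simp only [ht, pow_succ]; ring
      have e2 : t l ^ a ≤ t k ^ a / 2 := by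
        calc t l ^ a ≤ (t k / 2) ^ a := pow_le_pow_left₀ (ht0 l).le e1 a
          _ = t k ^ a * (1 / 2) ^ a := by rw [div_eq_mul_one_div, mul_pow]
          _ ≤ t k ^ a * (1 / 2) ^ 1 := by
              have := pow_pos (ht0 k) a
              exact mul_le_mul_of_nonneg_left
                (pow_le_pow_of_le_one (by norm_num : (0:ℝ) ≤ 1 / 2)
                  (by norm_num : (1 / 2 : ℝ) ≤ 1) ha) this.le
          _ = t k ^ a / 2 := by ring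
      have e3 : ρ * t l ^ a ≤ ρ * (t k ^ a / 2) := by gcongr
      have e4 : ρ * (t k ^ a / 2) = ρ * t k ^ a / 2 := by ring
      linarith
    intro k l hkl
    rcases lt_or_gt_of_ne hkl with h1 | h1
    · exact key k l h1
    · exact (key l k h1).symm
  set κ : ℝ := Real.pi * ρ ^ 2 * (Real.pi * (ρ / 4) ^ 2) / K with hκ
  have hκ0 : 0 < κ := by have := Real.pi_pos; positivity
  have hlow : ∀ k, ENNReal.ofReal κ ≤ ∫⁻ w in S k, ‖p w‖ₑ⁻¹ := by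
    intro k
    have htN : 0 < t k ^ (2 * a + 2 * b) := pow_pos (ht0 k) _
    have h1 : ∀ w ∈ S k, (ENNReal.ofReal (K * t k ^ (2 * a + 2 * b)))⁻¹ ≤ ‖p w‖ₑ⁻¹ := by
      intro w hw
      obtain ⟨e1, -, e3⟩ := hSn k w hw
      have e4 : ‖p w‖ ≤ C * t k ^ (2 * a + 2 * b) := by
        refine h (t k) (ht0 k) (ht1 k) w (e1.le.trans ?_) (e3.le.trans ?_)
        · have := pow_pos (ht0 k) b; gcongr
        · have := pow_pos (ht0 k) a; gcongr
      rw [ENNReal.inv_le_inv, ← ofReal_norm]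
      apply ENNReal.ofReal_le_ofReal
      refine e4.trans ?_
      gcongr
      exact le_max_left _ _
    have hvol : volume (S k) = ENNReal.ofReal (Real.pi * ρ ^ 2 * (Real.pi * (ρ / 4) ^ 2) *
        t k ^ (2 * a + 2 * b)) := by
      have hv : ∀ (c : ℂ) (s : ℝ), 0 ≤ s → volume (ball c s) = ENNReal.ofReal (Real.pi * s ^ 2) := by
        intro c s hs
        rw [Complex.volume_ball, ENNReal.ofReal_mul Real.pi_pos.le, ENNReal.ofReal_pow hs, mul_comm]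
        congr 1
        rw [← NNReal.coe_real_pi, ENNReal.ofReal_coe_nnreal]
      have htb := pow_pos (ht0 k) b
      have hta := pow_pos (ht0 k) a
      rw [Measure.volume_eq_prod, hS]
      simp only
      rw [Measure.prod_prod, hv _ _ (by positivity), hv _ _ (by positivity),
        ← ENNReal.ofReal_mul (by have := Real.pi_pos; positivity)]
      congr 1
      rw [pow_add, pow_mul', pow_mul']
      ring
    calc ENNReal.ofReal κ = (ENNReal.ofReal (K * t k ^ (2 * a + 2 * b)))⁻¹ * volume (S k) := by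
          rw [hvol, ← ENNReal.ofReal_inv_of_pos (by positivity), ← ENNReal.ofReal_mul (by positivity)]
          congr 1
          rw [hκ]
          field_simp
      _ = ∫⁻ w in S k, (ENNReal.ofReal (K * t k ^ (2 * a + 2 * b)))⁻¹ := by
          rw [setLIntegral_const]
      _ ≤ ∫⁻ w in S k, ‖p w‖ₑ⁻¹ := setLIntegral_mono' (hSm k) h1
  have hsum : ∑' k, ∫⁻ w in S k, ‖p w‖ₑ⁻¹ = ∫⁻ w in ⋃ k, S k, ‖p w‖ₑ⁻¹ :=
    (lintegral_iUnion hSm hSd _).symm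
  have htop : (⊤ : ℝ≥0∞) ≤ ∑' k, ∫⁻ w in S k, ‖p w‖ₑ⁻¹ := by
    calc (⊤ : ℝ≥0∞) = ∑' _ : ℕ, ENNReal.ofReal κ :=
          (ENNReal.tsum_const_eq_top_of_ne_zero (ENNReal.ofReal_pos.2 hκ0).ne').symm
      _ ≤ _ := ENNReal.tsum_le_tsum hlow
  rw [hsum] at htop
  have := lintegral_mono_set (μ := (volume : Measure (ℂ × ℂ))) (f := fun w => ‖p w‖ₑ⁻¹)
    (iUnion_subset hSU)
  exact absurd (htop.trans this) (not_le.2 hUi)

end Crest.Agent.R257.Kp_405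
end
end

-- ▼ part R257/Kp5_405

/-!
R257 / Kp5_405: the classification in the plane: `p` analytic at `0 ∈ ℂ²`, `p = 0`, `dp = 0` at `0`,
`1/|p|` integrable ⇒ `PRes p`.
-/

set_option autoImplicit false
set_option linter.unusedSectionVars false
set_option linter.deprecated false

open Set Filter Topology Metric MeasureTheory
open scoped ENNReal

noncomputable section

namespace Crest.Agent.R257.Kp_405

/-! ### orders along lines -/

section Lines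

variable {E : Type*} [NormedAddCommGroup E] [NormedSpace ℂ E] [FiniteDimensional ℂ E]

lemma an_line {q : E → ℂ} (hq : AnalyticAt ℂ q 0) (v : E) :
    AnalyticAt ℂ (fun t : ℂ => q (t • v)) 0 :=
  AnalyticAt.comp (g := q) (f := fun t : ℂ => t • v) (by simpa using hq)
    (analyticAt_id.smul analyticAt_const)

lemma bound_of_orders {q : E → ℂ} (hq : AnalyticAt ℂ q 0) (n : ℕ)
    (h : ∀ v : E, (n : ℕ∞) ≤ analyticOrderAt (fun t : ℂ => q (t • v)) 0) :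
    ∃ C : ℝ, 0 < C ∧ ∀ᶠ w in 𝓝 (0 : E), ‖q w‖ ≤ C * ‖w‖ ^ n := by
  obtain ⟨P, hP⟩ := hq
  have hcoef : ∀ v : E, ∀ k < n, P k (fun _ => v) = 0 := by
    intro v k hk
    set L : ℂ →L[ℂ] E := ContinuousLinearMap.toSpanSingleton ℂ v with hL
    have hP' : HasFPowerSeriesAt q P (L 0) := by simpa using hP
    have h1 := hP'.compContinuousLinearMap
    obtain ⟨r, hr⟩ := h1
    have h2 := hr.factorial_smul (1 : ℂ) k
    have h3 : iteratedDeriv k (q ∘ L) 0 = 0 := by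
      have h4 : AnalyticAt ℂ (q ∘ L) 0 := hr.analyticAt
      have h5 : (n : ℕ∞) ≤ analyticOrderAt (q ∘ L) 0 := h v
      exact (natCast_le_analyticOrderAt_iff_iteratedDeriv_eq_zero h4).1 h5 k hk
    rw [iteratedDeriv_eq_iteratedFDeriv] at h3
    rw [h3] at h2
    have h6 : (k.factorial : ℕ) ≠ 0 := k.factorial_ne_zero
    have h7 : (P.compContinuousLinearMap L) k (fun _ => (1 : ℂ)) = 0 := by
      rcases smul_eq_zero.1 h2 with h8 | h8
      · exact absurd h8 h6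
      · exact h8
    have h9 : (P.compContinuousLinearMap L) k (fun _ => (1 : ℂ)) = P k (fun _ => v) := by
      rw [FormalMultilinearSeries.compContinuousLinearMap_apply]
      congr 1
      funext i
      simp [hL, Function.comp]
    rw [← h9, h7]
  have h1 := hP.isBigO_sub_partialSum_pow n
  obtain ⟨C, hC, h2⟩ := h1.exists_pos
  refine ⟨C, hC, ?_⟩
  filter_upwards [h2.bound] with w hw
  have h3 : P.partialSum n w = 0 := by
    rw [FormalMultilinearSeries.partialSum]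
    exact Finset.sum_eq_zero fun k hk => hcoef w k (Finset.mem_range.1 hk)
  simpa [h3] using hw

lemma two_le_order {q : E → ℂ} (hq : AnalyticAt ℂ q 0) (h0 : q 0 = 0) (h1 : fderiv ℂ q 0 = 0)
    (v : E) : ((2 : ℕ) : ℕ∞) ≤ analyticOrderAt (fun t : ℂ => q (t • v)) 0 := by
  rw [natCast_le_analyticOrderAt_iff_iteratedDeriv_eq_zero (an_line hq v)]
  intro i hi
  interval_cases i
  · simp [h0]
  · rw [iteratedDeriv_one]
    have e1 : HasDerivAt (fun t : ℂ => t • v) v 0 := by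
      simpa using (hasDerivAt_id (0 : ℂ)).smul_const v
    have e2 : HasFDerivAt q (fderiv ℂ q 0) ((0 : ℂ) • v) := by
      rw [zero_smul]; exact hq.differentiableAt.hasFDerivAt
    have e3 := (e2.comp_hasDerivAt (0 : ℂ) e1).deriv
    have e4 : deriv (fun t : ℂ => q (t • v)) 0 = fderiv ℂ q 0 v := e3
    rw [e4, h1]
    simp

lemma order_line_zero {q : E → ℂ} (h0 : q 0 = 0) :
    analyticOrderAt (fun t : ℂ => q (t • (0 : E))) 0 = ⊤ := by
  rw [analyticOrderAt_eq_top]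
  exact Eventually.of_forall fun t => by simp [h0]

lemma add_one_le_of_ne {a : ℕ∞} {n : ℕ} (h : (n : ℕ∞) ≤ a) (h' : a ≠ n) :
    ((n + 1 : ℕ) : ℕ∞) ≤ a := by
  have : (n : ℕ∞) < a := lt_of_le_of_ne h (Ne.symm h')
  exact_mod_cast Order.add_one_le_of_lt this

end Lines

/-- an automorphism with `e (0, 1) = v` -/
lemma exists_equiv {v : ℂ × ℂ} (hv : v ≠ 0) : ∃ e : (ℂ × ℂ) ≃L[ℂ] (ℂ × ℂ), e (0, 1) = v := by
  have h1 : ((0 : ℂ), (1 : ℂ)) ≠ 0 := by simp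
  exact SeparatingDual.exists_continuousLinearEquiv_apply_eq h1 hv

/-- raising the exponent -/
lemma pow_step {a g : ℂ → ℂ} {n : ℕ} (hg : AnalyticAt ℂ g 0) (hg0 : g 0 = 0)
    (he : ∀ᶠ y in 𝓝 (0 : ℂ), a y = y ^ n * g y) :
    ∃ g' : ℂ → ℂ, AnalyticAt ℂ g' 0 ∧ ∀ᶠ y in 𝓝 (0 : ℂ), a y = y ^ (n + 1) * g' y := by
  have h1 : ((1 : ℕ) : ℕ∞) ≤ analyticOrderAt g 0 := by
    have : analyticOrderAt g 0 ≠ 0 := hg.analyticOrderAt_ne_zero.2 hg0
    exact_mod_cast Order.one_le_iff_ne_zero.2 this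
  obtain ⟨g', hg', he'⟩ := (natCast_le_analyticOrderAt hg).1 h1
  refine ⟨g', hg', ?_⟩
  filter_upwards [he, he'] with y h2 h3
  rw [h2, h3, sub_zero, pow_one, smul_eq_mul, pow_succ]
  ring

/-- finite order, positive -/
lemma exists_ord {a : ℂ → ℂ} (ha : AnalyticAt ℂ a 0) (h0 : a 0 = 0)
    (hne : ¬ ∀ᶠ y in 𝓝 (0 : ℂ), a y = 0) :
    ∃ (n : ℕ) (g : ℂ → ℂ), AnalyticAt ℂ g 0 ∧ g 0 ≠ 0 ∧
      ∀ᶠ y in 𝓝 (0 : ℂ), a y = y ^ (n + 1) * g y := by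
  rw [← analyticOrderAt_eq_top] at hne
  obtain ⟨m, hm⟩ := ENat.ne_top_iff_exists.1 hne
  have hm0 : m ≠ 0 := by
    rintro rfl
    exact (ha.analyticOrderAt_ne_zero.2 h0) (by rw [← hm]; rfl)
  obtain ⟨n, rfl⟩ := Nat.exists_eq_succ_of_ne_zero hm0
  obtain ⟨g, hg, hg0, he⟩ := (ha.analyticOrderAt_eq_natCast).1 hm.symm
  refine ⟨n, g, hg, hg0, ?_⟩
  filter_upwards [he] with y hy
  rw [hy, sub_zero, smul_eq_mul]

lemma exists_bound {g : ℂ → ℂ} (hg : AnalyticAt ℂ g 0) :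
    ∃ C r : ℝ, 0 < C ∧ 0 < r ∧ r ≤ 1 ∧ ∀ y, ‖y‖ ≤ r → ‖g y‖ ≤ C := by
  have b1 := hg.continuousAt.norm.eventually_lt (continuousAt_const (y := ‖g 0‖ + 1)) (by simp)
  obtain ⟨r, hr, h⟩ := Metric.nhds_basis_closedBall.eventually_iff.1 b1
  refine ⟨‖g 0‖ + 1, min r 1, by positivity, lt_min hr one_pos, min_le_right _ _, fun y hy => ?_⟩
  exact (h (by simpa using hy.trans (min_le_left _ _))).le

lemma exists_radius {P : ℂ → Prop} (h : ∀ᶠ y in 𝓝 (0 : ℂ), P y) :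
    ∃ r : ℝ, 0 < r ∧ r ≤ 1 ∧ ∀ y, ‖y‖ ≤ r → P y := by
  obtain ⟨r, hr, h⟩ := Metric.nhds_basis_closedBall.eventually_iff.1 h
  exact ⟨min r 1, lt_min hr one_pos, min_le_right _ _, fun y hy =>
    h (by simpa using hy.trans (min_le_left _ _))⟩

/-! ### order two -/

theorem res_A {c : ℂ → ℂ} (hc : AnalyticAt ℂ c 0) (hc0 : c 0 = 0)
    (hK : KI (fun w : ℂ × ℂ => w.2 ^ 2 + c w.1)) : PRes (fun w : ℂ × ℂ => w.2 ^ 2 + c w.1) := by
  have hne : ¬ ∀ᶠ y in 𝓝 (0 : ℂ), c y = 0 := by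
    intro h0
    obtain ⟨r, hr, -, h1⟩ := exists_radius h0
    refine not_KI (p := fun w : ℂ × ℂ => w.2 ^ 2 + c w.1) 1 0 le_rfl (r := r) (C := r ^ 2) hr
      (fun t ht ht1 w hw1 hw2 => ?_) hK
    have h2 : c w.1 = 0 := h1 _ (by simpa using hw1)
    simp only [h2, add_zero, norm_pow]
    calc ‖w.2‖ ^ 2 ≤ (r * t ^ 1) ^ 2 := by gcongr
      _ = r ^ 2 * t ^ (2 * 1 + 2 * 0) := by ring
  obtain ⟨n, g, hg, hg0, he⟩ := exists_ord hc hc0 hne
  exact model_A hg hg0 hc he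

theorem res_D {B : ℂ → ℂ} (hB : AnalyticAt ℂ B 0) (hB0 : B 0 = 0)
    (hK : KI (fun w : ℂ × ℂ => w.1 * (w.2 ^ 2 + B w.1))) :
    PRes (fun w : ℂ × ℂ => w.1 * (w.2 ^ 2 + B w.1)) := by
  have hne : ¬ ∀ᶠ y in 𝓝 (0 : ℂ), B y = 0 := by
    intro h0
    obtain ⟨r, hr, hr1, h1⟩ := exists_radius h0
    refine not_KI (p := fun w : ℂ × ℂ => w.1 * (w.2 ^ 2 + B w.1)) 1 0 le_rfl (r := r)
      (C := r ^ 2) hr (fun t ht ht1 w hw1 hw2 => ?_) hK
    have hw1' : ‖w.1‖ ≤ r := by simpa using hw1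
    have h2 : B w.1 = 0 := h1 _ hw1'
    simp only [h2, add_zero, norm_mul, norm_pow]
    calc ‖w.1‖ * ‖w.2‖ ^ 2 ≤ 1 * (r * t ^ 1) ^ 2 := by
          gcongr
          exact hw1'.trans hr1
      _ = r ^ 2 * t ^ (2 * 1 + 2 * 0) := by ring
  obtain ⟨n, g, hg, hg0, he⟩ := exists_ord hB hB0 hne
  exact model_D hg hg0 hB he

/-- completing the square: `x² + a₁ x + a₀` -/
lemma sq_form {a₀ a₁ : ℂ → ℂ} :
    (fun w : ℂ × ℂ => w.2 ^ 2 + a₁ w.1 * w.2 + a₀ w.1) =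
      fun w : ℂ × ℂ => (fun v : ℂ × ℂ => v.2 ^ 2 + (fun y => a₀ y - a₁ y ^ 2 / 4) v.1)
        (shear (fun y => a₁ y / 2) w) := by
  funext w
  simp only [shear]
  ring

theorem an_A {c : ℂ → ℂ} (hc : AnalyticAt ℂ c 0) :
    AnalyticAt ℂ (fun w : ℂ × ℂ => w.2 ^ 2 + c w.1) 0 := (analyticAt_snd.pow 2).add (an_fst hc)

/-- transfer from the sheared model -/
theorem res_shear {M : ℂ × ℂ → ℂ} (hM : AnalyticAt ℂ M 0) (hres : KI M → PRes M) {θ : ℂ → ℂ}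
    (hθ : AnalyticAt ℂ θ 0) (h0 : θ 0 = 0) (hK : KI (fun w => M (shear θ w))) :
    PRes (fun w => M (shear θ w)) := by
  have hL := LB_shear hθ h0
  have h1 : KI (fun w => (fun w => M (shear θ w)) (shear (fun z => - θ z) w)) := hK.comp hL.symm
  have h2 : KI M := h1.congr (by
    filter_upwards [hL.right] with w hw
    simp only [hw])
  exact (hres h2).comp hM hL

/-- transfer from `F = u M` -/
theorem res_unit {F M u : ℂ × ℂ → ℂ} (hM : AnalyticAt ℂ M 0) (hres : KI M → PRes M)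
    (hu : AnalyticAt ℂ u 0) (hu0 : u 0 ≠ 0) (he : ∀ᶠ w in 𝓝 (0 : ℂ × ℂ), F w = u w * M w)
    (hK : KI F) : PRes F := by
  have h1 : KI (fun w => u w * M w) := hK.congr he
  have h2 : KI M := h1.of_unit_mul hu.continuousAt
  refine ((hres h2).unit_mul hM hu hu0).congr ?_
  filter_upwards [he] with w hw using hw.symm

theorem res_ord2 {q : ℂ × ℂ → ℂ} (hq : AnalyticAt ℂ q 0)
    (hn : analyticOrderAt (fun w : ℂ => q (0, w)) 0 = 2) (hK : KI q) : PRes q := by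
  obtain ⟨u, a₀, a₁, hu, hu0, ha₀, ha₁, h00, h10, he⟩ := wprep2 hq hn
  set c : ℂ → ℂ := fun y => a₀ y - a₁ y ^ 2 / 4 with hc
  have hca : AnalyticAt ℂ c 0 := ha₀.sub ((ha₁.pow 2).div analyticAt_const (by norm_num))
  have hc0 : c 0 = 0 := by simp [hc, h00, h10]
  have hθ : AnalyticAt ℂ (fun y => a₁ y / 2) 0 := ha₁.div analyticAt_const (by norm_num)
  have hθ0 : a₁ 0 / 2 = 0 := by simp [h10]
  have hM := an_A hca
  have hMs : AnalyticAt ℂ (fun w : ℂ × ℂ => (fun v : ℂ × ℂ => v.2 ^ 2 + c v.1)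
      (shear (fun y => a₁ y / 2) w)) 0 := by
    rw [← sq_form]
    exact ((analyticAt_snd.pow 2).add ((an_fst ha₁).mul analyticAt_snd)).add (an_fst ha₀)
  refine res_unit hMs (fun h => res_shear hM (res_A hca hc0) hθ hθ0 h) hu hu0 ?_ hK
  filter_upwards [he] with w hw
  rw [hw]
  congr 1
  simp only [shear, hc]
  ring

/-! ### order three, a simple root -/

lemma exists_simple_root {β γ : ℂ} (h : β ≠ 0 ∨ γ ≠ 0) :
    ∃ ρ : ℂ, ρ ^ 3 + β * ρ + γ = 0 ∧ 3 * ρ ^ 2 + β ≠ 0 := by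
  set P : Polynomial ℂ := Polynomial.X ^ 3 + Polynomial.C β * Polynomial.X + Polynomial.C γ with hP
  have hd : P.degree ≠ 0 := by
    have : P.degree = 3 := by
      rw [hP]
      compute_degree!
    rw [this]; norm_num
  obtain ⟨ρ, hρ⟩ := IsAlgClosed.exists_root P hd
  have h1 : ρ ^ 3 + β * ρ + γ = 0 := by
    have := hρ
    rw [Polynomial.IsRoot, hP] at this
    simpa using this
  by_cases h2 : 3 * ρ ^ 2 + β = 0
  · have hβ : β = - 3 * ρ ^ 2 := by linear_combination h2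
    have hγ : γ = 2 * ρ ^ 3 := by rw [hβ] at h1; linear_combination h1
    have hρ0 : ρ ≠ 0 := by
      rintro rfl
      rcases h with h | h
      · exact h (by rw [hβ]; ring)
      · exact h (by rw [hγ]; ring)
    refine ⟨-2 * ρ, ?_, ?_⟩
    · rw [hβ, hγ]; ring
    · rw [hβ]
      have : 3 * (-2 * ρ) ^ 2 + -3 * ρ ^ 2 = 9 * ρ ^ 2 := by ring
      rw [this]
      exact mul_ne_zero (by norm_num) (pow_ne_zero 2 hρ0)
  · exact ⟨ρ, h1, h2⟩

/-- an analytic simple root -/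
lemma exists_root_fun {β γ : ℂ → ℂ} (hβ : AnalyticAt ℂ β 0) (hγ : AnalyticAt ℂ γ 0) {ρ : ℂ}
    (h1 : ρ ^ 3 + β 0 * ρ + γ 0 = 0) (h2 : 3 * ρ ^ 2 + β 0 ≠ 0) :
    ∃ σ : ℂ → ℂ, AnalyticAt ℂ σ 0 ∧ σ 0 = ρ ∧
      ∀ᶠ y in 𝓝 (0 : ℂ), σ y ^ 3 + β y * σ y + γ y = 0 := by
  set G : ℂ × ℂ → ℂ := fun w => (w.2 + ρ) ^ 3 + β w.1 * (w.2 + ρ) + γ w.1 with hG
  have hGa : AnalyticAt ℂ G 0 :=
    (((analyticAt_snd.add analyticAt_const).pow 3).add
      ((an_fst hβ).mul (analyticAt_snd.add analyticAt_const))).add (an_fst hγ)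
  have hord : analyticOrderAt (fun w : ℂ => G (0, w)) 0 = ((1 : ℕ) : ℕ∞) := by
    have ha : AnalyticAt ℂ (fun w : ℂ => G (0, w)) 0 :=
      AnalyticAt.comp (g := G) (f := fun w : ℂ => ((0 : ℂ), w)) hGa
        (analyticAt_const.prod analyticAt_id)
    rw [ha.analyticOrderAt_eq_natCast]
    refine ⟨fun s => s ^ 2 + 3 * ρ * s + (3 * ρ ^ 2 + β 0), ?_, ?_, ?_⟩
    · exact ((analyticAt_id.pow 2).add (analyticAt_const.mul analyticAt_id)).add analyticAt_const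
    · simpa using h2
    · refine Eventually.of_forall fun s => ?_
      simp only [hG, sub_zero, pow_one, smul_eq_mul]
      linear_combination h1
  obtain ⟨u, c, hu, hu0, hc, hc0, he⟩ := wprepF hGa hord
  refine ⟨fun y => ρ - c 0 y, analyticAt_const.sub (hc 0), by simp [hc0 0], ?_⟩
  have t1 : Tendsto (fun y : ℂ => (y, - c 0 y)) (𝓝 0) (𝓝 (0 : ℂ × ℂ)) := by
    have h3 : ContinuousAt (fun y : ℂ => (y, - c 0 y)) 0 :=
      continuousAt_id.prodMk (hc 0).continuousAt.neg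
    have h4 : ((0 : ℂ), - c 0 0) = (0 : ℂ × ℂ) := by
      simp only [hc0 0, neg_zero]; rfl
    have := h3.tendsto
    rwa [h4] at this
  filter_upwards [t1.eventually he] with y hy
  simp only [hG, Fin.sum_univ_one, Fin.isValue, Fin.val_zero, pow_zero, mul_one, pow_one,
    neg_add_cancel, mul_zero] at hy
  linear_combination hy

theorem res_simple {b c β γ : ℂ → ℂ} (hβ : AnalyticAt ℂ β 0) (hγ : AnalyticAt ℂ γ 0)
    (hb : AnalyticAt ℂ b 0) (hc : AnalyticAt ℂ c 0)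
    (hbe : ∀ᶠ y in 𝓝 (0 : ℂ), b y = y ^ 2 * β y) (hce : ∀ᶠ y in 𝓝 (0 : ℂ), c y = y ^ 3 * γ y)
    (h : β 0 ≠ 0 ∨ γ 0 ≠ 0) (hK : KI (fun w : ℂ × ℂ => w.2 ^ 3 + b w.1 * w.2 + c w.1)) :
    PRes (fun w : ℂ × ℂ => w.2 ^ 3 + b w.1 * w.2 + c w.1) := by
  obtain ⟨ρ, h1, h2⟩ := exists_simple_root h
  obtain ⟨σ, hσ, hσ0, hσe⟩ := exists_root_fun hβ hγ h1 h2
  set M : ℂ × ℂ → ℂ := fun w => w.2 ^ 3 + b w.1 * w.2 + c w.1 with hM
  have hMa : AnalyticAt ℂ M 0 :=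
    ((analyticAt_snd.pow 3).add ((an_fst hb).mul analyticAt_snd)).add (an_fst hc)
  set θ : ℂ → ℂ := fun y => y * σ y with hθ
  have hθa : AnalyticAt ℂ θ 0 := analyticAt_id.mul hσ
  have hθ0 : θ 0 = 0 := by simp [hθ]
  -- the change of variables
  set R : ℂ × ℂ → ℂ := fun w => w.1 ^ 2 + 3 * θ w.2 * w.1 + (3 * θ w.2 ^ 2 + b w.2) with hR
  have hθs : AnalyticAt ℂ (fun w : ℂ × ℂ => θ w.2) 0 :=
    AnalyticAt.comp (g := θ) (f := Prod.snd) hθa analyticAt_snd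
  have hbs : AnalyticAt ℂ (fun w : ℂ × ℂ => b w.2) 0 :=
    AnalyticAt.comp (g := b) (f := Prod.snd) hb analyticAt_snd
  have hRa : AnalyticAt ℂ R 0 :=
    ((analyticAt_fst.pow 2).add ((analyticAt_const.mul hθs).mul analyticAt_fst)).add
      ((analyticAt_const.mul (hθs.pow 2)).add hbs)
  have hord : analyticOrderAt (fun w : ℂ => R (0, w)) 0 = 2 := by
    have ha : AnalyticAt ℂ (fun w : ℂ => R (0, w)) 0 :=
      AnalyticAt.comp (g := R) (f := fun w : ℂ => ((0 : ℂ), w)) hRa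
        (analyticAt_const.prod analyticAt_id)
    have h3 : analyticOrderAt (fun w : ℂ => R (0, w)) 0 = ((2 : ℕ) : ℕ∞) := by
      rw [ha.analyticOrderAt_eq_natCast]
      refine ⟨fun s => 3 * σ s ^ 2 + β s, (analyticAt_const.mul (hσ.pow 2)).add hβ, ?_, ?_⟩
      · change 3 * σ 0 ^ 2 + β 0 ≠ 0
        rw [hσ0]; exact h2
      · filter_upwards [hbe] with s hs
        simp only [hR, hs, hθ, sub_zero, smul_eq_mul]
        ring
    exact_mod_cast h3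
  -- `M ∘ shear θ ∘ swap = ξ R`
  have hcomp : ∀ᶠ w in 𝓝 (0 : ℂ × ℂ), M (shear θ (Prod.swap w)) = w.1 * R w := by
    have h4 : ∀ᶠ w in 𝓝 (0 : ℂ × ℂ), b w.2 = w.2 ^ 2 * β w.2 ∧ c w.2 = w.2 ^ 3 * γ w.2 ∧
        σ w.2 ^ 3 + β w.2 * σ w.2 + γ w.2 = 0 := by
      have t1 : Tendsto (Prod.snd : ℂ × ℂ → ℂ) (𝓝 0) (𝓝 0) := continuous_snd.tendsto' _ _ rfl
      filter_upwards [t1.eventually hbe, t1.eventually hce, t1.eventually hσe] with w a1 a2 a3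
        using ⟨a1, a2, a3⟩
    filter_upwards [h4] with w hw
    obtain ⟨e1, e2, e3⟩ := hw
    simp only [hM, hR, shear, Prod.swap, hθ, e1, e2]
    linear_combination (w.2 ^ 3) * e3
  have hL1 := LB_shear hθa hθ0
  have hL2 : LB (fun w : ℂ × ℂ => shear θ (Prod.swap w))
      (fun w : ℂ × ℂ => Prod.swap (shear (fun z => - θ z) w)) := hL1.comp LB_swap
  -- it suffices to treat `ξ R`
  have hfin : KI (fun w : ℂ × ℂ => w.1 * R w) → PRes (fun w : ℂ × ℂ => w.1 * R w) := by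
    intro hK'
    obtain ⟨u, a₀, a₁, hu, hu0, ha₀, ha₁, h00, h10, he⟩ := wprep2 hRa hord
    set B : ℂ → ℂ := fun y => a₀ y - a₁ y ^ 2 / 4 with hB
    have hBa : AnalyticAt ℂ B 0 := ha₀.sub ((ha₁.pow 2).div analyticAt_const (by norm_num))
    have hB0 : B 0 = 0 := by simp [hB, h00, h10]
    have hθ' : AnalyticAt ℂ (fun y => a₁ y / 2) 0 := ha₁.div analyticAt_const (by norm_num)
    have hθ0' : a₁ 0 / 2 = 0 := by simp [h10]
    have hN : AnalyticAt ℂ (fun w : ℂ × ℂ => w.1 * (w.2 ^ 2 + B w.1)) 0 :=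
      analyticAt_fst.mul (an_A hBa)
    have hNs : AnalyticAt ℂ (fun w : ℂ × ℂ => (fun v : ℂ × ℂ => v.1 * (v.2 ^ 2 + B v.1))
        (shear (fun y => a₁ y / 2) w)) 0 := by
      refine AnalyticAt.comp (g := fun v : ℂ × ℂ => v.1 * (v.2 ^ 2 + B v.1))
        (f := shear (fun y => a₁ y / 2)) ?_ (LB_shear hθ' hθ0').an
      rw [(LB_shear hθ' hθ0').map0]; exact hN
    refine res_unit hNs (fun h => res_shear hN (res_D hBa hB0) hθ' hθ0' h) hu hu0 ?_ hK'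
    filter_upwards [he] with w hw
    rw [hw]
    simp only [shear, hB]
    ring
  -- transfer
  have hK1 : KI (fun w : ℂ × ℂ => w.1 * R w) := (hK.comp hL2).congr hcomp
  have h5 := hfin hK1
  have h6 : PRes (fun w : ℂ × ℂ => M (shear θ (Prod.swap w))) :=
    h5.congr (by filter_upwards [hcomp] with w hw using hw.symm)
  have hMc : AnalyticAt ℂ (fun w : ℂ × ℂ => M (shear θ (Prod.swap w))) 0 := by
    refine AnalyticAt.comp (g := M) (f := fun w : ℂ × ℂ => shear θ (Prod.swap w)) ?_ hL2.an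
    rw [hL2.map0]; exact hMa
  refine (h6.comp hMc hL2.symm).congr ?_
  filter_upwards [hL2.right] with w hw
  exact congrArg M hw

/-! ### order three, all cases -/

theorem PRes_of_Eul {f : ℂ × ℂ → ℂ} (hf : AnalyticAt ℂ f 0) (hf0 : f 0 = 0) {h : ℕ} (h1 : 1 ≤ h)
    (h2 : h ≤ 30) (hE : Eul f (1 / 2 + 1 / (h : ℂ))) : PRes f :=
  ⟨h, 0, h1, by omega, hE, Cv_zero hf hf0⟩

theorem res_cubic {b c : ℂ → ℂ} (hb : AnalyticAt ℂ b 0) (hc : AnalyticAt ℂ c 0)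
    {β γ : ℂ → ℂ} (hβ : AnalyticAt ℂ β 0) (hγ : AnalyticAt ℂ γ 0)
    (hbe : ∀ᶠ y in 𝓝 (0 : ℂ), b y = y ^ 2 * β y) (hce : ∀ᶠ y in 𝓝 (0 : ℂ), c y = y ^ 3 * γ y)
    (hK : KI (fun w : ℂ × ℂ => w.2 ^ 3 + b w.1 * w.2 + c w.1)) :
    PRes (fun w : ℂ × ℂ => w.2 ^ 3 + b w.1 * w.2 + c w.1) := by
  have hMa : AnalyticAt ℂ (fun w : ℂ × ℂ => w.2 ^ 3 + b w.1 * w.2 + c w.1) 0 :=
    ((analyticAt_snd.pow 3).add ((an_fst hb).mul analyticAt_snd)).add (an_fst hc)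
  have hc00 : c 0 = 0 := by have := hce.self_of_nhds; simpa using this
  have hM0 : (fun w : ℂ × ℂ => w.2 ^ 3 + b w.1 * w.2 + c w.1) 0 = 0 := by simp [hc00]
  by_cases h0 : β 0 ≠ 0 ∨ γ 0 ≠ 0
  · exact res_simple hβ hγ hb hc hbe hce h0 hK
  push Not at h0
  obtain ⟨b3, hb3, hb3e⟩ := pow_step hβ h0.1 hbe
  obtain ⟨c4, hc4, hc4e⟩ := pow_step hγ h0.2 hce
  by_cases h4 : c4 0 ≠ 0
  · -- E6
    have hδ : (0:ℂ) ^ 1 * b3 0 * ((((1:ℕ):ℂ) + ((0:ℕ):ℂ) + 2) * b3 0) ^ 2 +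
      3 * 0 ^ 0 * ((((1:ℕ):ℂ) + 2 * ((0:ℕ):ℂ) + 3) * c4 0) ^ 2 = 48 * c4 0 ^ 2 := by
      push_cast; ring
    have hν : 2 / 3 * (0:ℂ) ^ 1 * b3 0 ^ 2 * ((((1:ℕ):ℂ) + ((0:ℕ):ℂ) + 2) * b3 0) +
      3 * 0 ^ 0 * c4 0 * ((((1:ℕ):ℂ) + 2 * ((0:ℕ):ℂ) + 3) * c4 0) = 12 * c4 0 ^ 2 := by
      push_cast; ring
    have h5 := cubic_field (i := 1) (j := 0) hb3 hc4 hb hc hb3e hc4e hδ.symm
      (mul_ne_zero (by norm_num) (pow_ne_zero 2 h4)) hν.symm
    refine PRes_of_Eul hMa hM0 (h := 12) (by norm_num) (by norm_num) ?_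
    have e1 : (1:ℂ) / 3 + 12 * c4 0 ^ 2 / (48 * c4 0 ^ 2) = 1 / 2 + 1 / ((12:ℕ) : ℂ) := by
      field_simp
      push_cast
      norm_num
    rw [← e1]
    exact h5
  push Not at h4
  obtain ⟨c5, hc5, hc5e⟩ := pow_step hc4 h4 hc4e
  by_cases h5 : b3 0 ≠ 0
  · -- E7
    have hδ : (0:ℂ) ^ 0 * b3 0 * ((((0:ℕ):ℂ) + ((1:ℕ):ℂ) + 2) * b3 0) ^ 2 +
      3 * 0 ^ 1 * ((((0:ℕ):ℂ) + 2 * ((1:ℕ):ℂ) + 3) * c5 0) ^ 2 = 9 * b3 0 ^ 3 := by
      push_cast; ring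
    have hν : 2 / 3 * (0:ℂ) ^ 0 * b3 0 ^ 2 * ((((0:ℕ):ℂ) + ((1:ℕ):ℂ) + 2) * b3 0) +
      3 * 0 ^ 1 * c5 0 * ((((0:ℕ):ℂ) + 2 * ((1:ℕ):ℂ) + 3) * c5 0) = 2 * b3 0 ^ 3 := by
      push_cast; ring
    have h6 := cubic_field (i := 0) (j := 1) hb3 hc5 hb hc hb3e hc5e hδ.symm
      (mul_ne_zero (by norm_num) (pow_ne_zero 3 h5)) hν.symm
    refine PRes_of_Eul hMa hM0 (h := 18) (by norm_num) (by norm_num) ?_
    have e1 : (1:ℂ) / 3 + 2 * b3 0 ^ 3 / (9 * b3 0 ^ 3) = 1 / 2 + 1 / ((18:ℕ) : ℂ) := by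
      field_simp
      push_cast
      norm_num
    rw [← e1]
    exact h6
  push Not at h5
  obtain ⟨b4, hb4, hb4e⟩ := pow_step hb3 h5 hb3e
  by_cases h6 : c5 0 ≠ 0
  · -- E8
    have hδ : (0:ℂ) ^ 2 * b4 0 * ((((2:ℕ):ℂ) + ((0:ℕ):ℂ) + 2) * b4 0) ^ 2 +
      3 * 0 ^ 0 * ((((2:ℕ):ℂ) + 2 * ((0:ℕ):ℂ) + 3) * c5 0) ^ 2 = 75 * c5 0 ^ 2 := by
      push_cast; ring
    have hν : 2 / 3 * (0:ℂ) ^ 2 * b4 0 ^ 2 * ((((2:ℕ):ℂ) + ((0:ℕ):ℂ) + 2) * b4 0) +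
      3 * 0 ^ 0 * c5 0 * ((((2:ℕ):ℂ) + 2 * ((0:ℕ):ℂ) + 3) * c5 0) = 15 * c5 0 ^ 2 := by
      push_cast; ring
    have h7 := cubic_field (i := 2) (j := 0) hb4 hc5 hb hc hb4e hc5e hδ.symm
      (mul_ne_zero (by norm_num) (pow_ne_zero 2 h6)) hν.symm
    refine PRes_of_Eul hMa hM0 (h := 30) (by norm_num) (by norm_num) ?_
    have e1 : (1:ℂ) / 3 + 15 * c5 0 ^ 2 / (75 * c5 0 ^ 2) = 1 / 2 + 1 / ((30:ℕ) : ℂ) := by
      field_simp
      push_cast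
      norm_num
    rw [← e1]
    exact h7
  push Not at h6
  obtain ⟨c6, hc6, hc6e⟩ := pow_step hc5 h6 hc5e
  exfalso
  obtain ⟨C1, r1, hC1, hr1, hr11, hB1⟩ := exists_bound hb4
  obtain ⟨C2, r2, hC2, hr2, hr21, hB2⟩ := exists_bound hc6
  obtain ⟨r3, hr3, hr31, hB3⟩ := exists_radius (hb4e.and hc6e)
  set r := min r1 (min r2 r3) with hr
  have hr0 : 0 < r := lt_min hr1 (lt_min hr2 hr3)
  refine not_KI (p := fun w : ℂ × ℂ => w.2 ^ 3 + b w.1 * w.2 + c w.1) 2 1 (by norm_num) (r := r)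
    (C := 1 + C1 + C2) hr0 (fun t ht ht1 w hw1 hw2 => ?_) hK
  have hrr1 : r ≤ r1 := min_le_left _ _
  have hrr2 : r ≤ r2 := (min_le_right _ _).trans (min_le_left _ _)
  have hrr3 : r ≤ r3 := (min_le_right _ _).trans (min_le_right _ _)
  have hrone : r ≤ 1 := hrr1.trans hr11
  have hw1r : ‖w.1‖ ≤ r := hw1.trans (by
    rw [pow_one]; exact mul_le_of_le_one_right hr0.le ht1)
  have hw1t : ‖w.1‖ ≤ t := hw1.trans (by
    rw [pow_one]; exact mul_le_of_le_one_left ht.le hrone)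
  have hw2t : ‖w.2‖ ≤ t ^ 2 := hw2.trans (mul_le_of_le_one_left (by positivity) hrone)
  obtain ⟨e1, e2⟩ := hB3 w.1 (hw1r.trans hrr3)
  have e3 := hB1 w.1 (hw1r.trans hrr1)
  have e4 := hB2 w.1 (hw1r.trans hrr2)
  simp only [e1, e2]
  calc ‖w.2 ^ 3 + w.1 ^ (2 + 1 + 1) * b4 w.1 * w.2 + w.1 ^ (3 + 1 + 1 + 1) * c6 w.1‖
      ≤ ‖w.2‖ ^ 3 + ‖w.1‖ ^ 4 * ‖b4 w.1‖ * ‖w.2‖ + ‖w.1‖ ^ 6 * ‖c6 w.1‖ := by
        refine (norm_add_le _ _).trans ?_
        gcongr ?_ + ?_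
        · refine (norm_add_le _ _).trans ?_
          rw [norm_pow, norm_mul, norm_mul, norm_pow]
        · rw [norm_mul, norm_pow]
    _ ≤ (t ^ 2) ^ 3 + t ^ 4 * C1 * t ^ 2 + t ^ 6 * C2 := by gcongr
    _ = (1 + C1 + C2) * t ^ (2 * 2 + 2 * 1) := by ring

theorem res_ord3 {q : ℂ × ℂ → ℂ} (hq : AnalyticAt ℂ q 0)
    (hn : analyticOrderAt (fun w : ℂ => q (0, w)) 0 = 3)
    {C : ℝ} (hC : 0 < C) (hbd : ∀ᶠ w in 𝓝 (0 : ℂ × ℂ), ‖q w‖ ≤ C * ‖w‖ ^ 3) (hK : KI q) :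
    PRes q := by
  obtain ⟨u, a₀, a₁, a₂, hu, hu0, ha₀, ha₁, ha₂, h00, h10, h20, he⟩ := wprep3 hq hn
  set b : ℂ → ℂ := fun y => a₁ y - a₂ y ^ 2 / 3 with hb
  set c : ℂ → ℂ := fun y => a₀ y - a₁ y * a₂ y / 3 + 2 * a₂ y ^ 3 / 27 with hc
  have hba : AnalyticAt ℂ b 0 := ha₁.sub ((ha₂.pow 2).div analyticAt_const (by norm_num))
  have hca : AnalyticAt ℂ c 0 :=
    (ha₀.sub ((ha₁.mul ha₂).div analyticAt_const (by norm_num))).add
      ((analyticAt_const.mul (ha₂.pow 3)).div analyticAt_const (by norm_num))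
  have hb0 : b 0 = 0 := by simp [hb, h10, h20]
  have hc0 : c 0 = 0 := by simp [hc, h00, h10, h20]
  set M : ℂ × ℂ → ℂ := fun w => w.2 ^ 3 + b w.1 * w.2 + c w.1 with hM
  have hMa : AnalyticAt ℂ M 0 :=
    ((analyticAt_snd.pow 3).add ((an_fst hba).mul analyticAt_snd)).add (an_fst hca)
  set θ : ℂ → ℂ := fun y => a₂ y / 3 with hθ
  have hθa : AnalyticAt ℂ θ 0 := ha₂.div analyticAt_const (by norm_num)
  have hθ0 : θ 0 = 0 := by simp [hθ, h20]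
  have hL := LB_shear hθa hθ0
  have hMs : AnalyticAt ℂ (fun w : ℂ × ℂ => M (shear θ w)) 0 := by
    refine AnalyticAt.comp (g := M) (f := shear θ) ?_ hL.an
    rw [hL.map0]; exact hMa
  have heq : ∀ᶠ w in 𝓝 (0 : ℂ × ℂ), q w = u w * M (shear θ w) := by
    filter_upwards [he] with w hw
    rw [hw]
    simp only [hM, shear, hb, hc, hθ]
    ring
  -- the bound for `M`
  obtain ⟨C', hC', hMb⟩ : ∃ C' : ℝ, 0 < C' ∧ ∀ᶠ w in 𝓝 (0 : ℂ × ℂ), ‖M w‖ ≤ C' * ‖w‖ ^ 3 := by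
    have hO : (fun w => shear (fun z => - θ z) w) =O[𝓝 0] (fun w : ℂ × ℂ => w) := by
      have := hL.an'.differentiableAt.hasFDerivAt.isBigO_sub
      simpa [hL.map0'] using this
    obtain ⟨K, hK0, hK'⟩ := hO.exists_pos
    have huinv : ∀ᶠ w in 𝓝 (0 : ℂ × ℂ), ‖u 0‖ / 2 ≤ ‖u w‖ := by
      have hu0' : 0 < ‖u 0‖ := norm_pos_iff.2 hu0
      have := (continuousAt_const (y := ‖u 0‖ / 2)).eventually_lt hu.continuousAt.norm (by linarith)
      filter_upwards [this] with w hw using hw.le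
    have hu0' : 0 < ‖u 0‖ := norm_pos_iff.2 hu0
    refine ⟨C * K ^ 3 / (‖u 0‖ / 2), by positivity, ?_⟩
    filter_upwards [hK'.bound, hL.symm.tendsto.eventually heq, hL.symm.tendsto.eventually hbd,
      hL.symm.tendsto.eventually huinv, hL.right] with w h1 h2 h3 h4 h5
    rw [h5] at h2
    rw [div_mul_eq_mul_div, le_div_iff₀ (by positivity)]
    calc ‖M w‖ * (‖u 0‖ / 2) ≤ ‖M w‖ * ‖u (shear (fun z => - θ z) w)‖ := by gcongr
      _ = ‖q (shear (fun z => - θ z) w)‖ := by rw [h2, norm_mul, mul_comm]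
      _ ≤ C * ‖shear (fun z => - θ z) w‖ ^ 3 := h3
      _ ≤ C * (K * ‖w‖) ^ 3 := by gcongr
      _ = C * K ^ 3 * ‖w‖ ^ 3 := by ring
  have hcb : ∀ᶠ y in 𝓝 (0 : ℂ), ‖c y‖ ≤ C' * ‖y‖ ^ 3 := by
    have t1 : Tendsto (fun y : ℂ => (y, (0 : ℂ))) (𝓝 0) (𝓝 (0 : ℂ × ℂ)) :=
      (by fun_prop : Continuous (fun y : ℂ => (y, (0 : ℂ)))).tendsto' _ _ rfl
    filter_upwards [t1.eventually hMb] with y hy
    simpa [hM, Prod.norm_def] using hy
  have hbb : ∀ᶠ y in 𝓝 (0 : ℂ), ‖b y‖ ≤ (C' + 1 + C') * ‖y‖ ^ 2 := by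
    have t1 : Tendsto (fun y : ℂ => (y, y)) (𝓝 0) (𝓝 (0 : ℂ × ℂ)) :=
      (by fun_prop : Continuous (fun y : ℂ => (y, y))).tendsto' _ _ rfl
    filter_upwards [t1.eventually hMb, hcb] with y hy hy2
    rcases eq_or_ne y 0 with rfl | hy0
    · simp [hb0]
    have hyp : 0 < ‖y‖ := norm_pos_iff.2 hy0
    have h1 : ‖M (y, y)‖ ≤ C' * ‖y‖ ^ 3 := by simpa [Prod.norm_def] using hy
    have h2 : b y * y = M (y, y) - y ^ 3 - c y := by simp only [hM]; ring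
    have h3 : ‖b y‖ * ‖y‖ ≤ (C' + 1 + C') * ‖y‖ ^ 2 * ‖y‖ := by
      rw [← norm_mul, h2]
      calc ‖M (y, y) - y ^ 3 - c y‖ ≤ ‖M (y, y)‖ + ‖y ^ 3‖ + ‖c y‖ :=
            (norm_sub_le _ _).trans (by gcongr; exact norm_sub_le _ _)
        _ ≤ C' * ‖y‖ ^ 3 + ‖y‖ ^ 3 + C' * ‖y‖ ^ 3 := by rw [norm_pow]; gcongr
        _ = (C' + 1 + C') * ‖y‖ ^ 2 * ‖y‖ := by ring
    exact le_of_mul_le_mul_right h3 hyp
  obtain ⟨β, hβ, hβe⟩ := exists_pow_mul_of_bound hba hbb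
  obtain ⟨γ, hγ, hγe⟩ := exists_pow_mul_of_bound hca hcb
  exact res_unit hMs (fun h => res_shear hMa (fun h' => res_cubic hba hca hβ hγ hβe hγe h')
    hθa hθ0 h) hu hu0 heq hK

/-- **the plane classification** -/
theorem res_plane {p : ℂ × ℂ → ℂ} (hp : AnalyticAt ℂ p 0) (h0 : p 0 = 0)
    (h1 : fderiv ℂ p 0 = 0) (hK : KI p) : PRes p := by
  have key : ∀ (v : ℂ × ℂ) (m : ℕ), analyticOrderAt (fun t : ℂ => p (t • v)) 0 = m →
      ∃ e : (ℂ × ℂ) ≃L[ℂ] (ℂ × ℂ),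
        analyticOrderAt (fun w : ℂ => p (e (0, w))) 0 = m := by
    intro v m hm
    have hv : v ≠ 0 := by
      rintro rfl
      rw [order_line_zero h0] at hm
      exact absurd hm (by simp)
    obtain ⟨e, he⟩ := exists_equiv hv
    refine ⟨e, ?_⟩
    have : (fun w : ℂ => p (e (0, w))) = fun t : ℂ => p (t • v) := by
      funext t
      rw [← he, ← map_smul]
      simp
    rw [this, hm]
  have trans : ∀ e : (ℂ × ℂ) ≃L[ℂ] (ℂ × ℂ), (KI (fun w => p (e w)) → PRes (fun w => p (e w))) →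
      PRes p := by
    intro e h
    have hL := LB.of_equiv e
    have hpe : AnalyticAt ℂ (fun w => p (e w)) 0 := by
      refine AnalyticAt.comp (g := p) (f := fun w => e w) ?_ hL.an
      rw [map_zero]; exact hp
    refine ((h (hK.comp hL)).comp hpe hL.symm).congr ?_
    exact Eventually.of_forall fun w => by simp
  have hpea : ∀ e : (ℂ × ℂ) ≃L[ℂ] (ℂ × ℂ), AnalyticAt ℂ (fun w => p (e w)) 0 := by
    intro e
    refine AnalyticAt.comp (g := p) (f := fun w => e w) ?_ (LB.of_equiv e).an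
    rw [map_zero]; exact hp
  have h2 := fun v => two_le_order hp h0 h1 v
  by_cases hA : ∃ v, analyticOrderAt (fun t : ℂ => p (t • v)) 0 = (2 : ℕ)
  · obtain ⟨v, hv⟩ := hA
    obtain ⟨e, he⟩ := key v 2 hv
    exact trans e fun h => res_ord2 (hpea e) (by exact_mod_cast he) h
  push Not at hA
  have h3 : ∀ v, ((3 : ℕ) : ℕ∞) ≤ analyticOrderAt (fun t : ℂ => p (t • v)) 0 :=
    fun v => add_one_le_of_ne (h2 v) (hA v)
  by_cases hB : ∃ v, analyticOrderAt (fun t : ℂ => p (t • v)) 0 = (3 : ℕ)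
  · obtain ⟨v, hv⟩ := hB
    obtain ⟨e, he⟩ := key v 3 hv
    obtain ⟨C, hC, hbd⟩ := bound_of_orders hp 3 h3
    have hO : (fun w => e w) =O[𝓝 0] (fun w : ℂ × ℂ => w) := by
      have := (LB.of_equiv e).an.differentiableAt.hasFDerivAt.isBigO_sub
      simpa using this
    obtain ⟨K, hK0, hK'⟩ := hO.exists_pos
    refine trans e fun h => res_ord3 (hpea e) (by exact_mod_cast he) (C := C * K ^ 3)
      (by positivity) ?_ h
    filter_upwards [hK'.bound, (LB.of_equiv e).tendsto.eventually hbd] with w a1 a2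
    calc ‖p (e w)‖ ≤ C * ‖e w‖ ^ 3 := a2
      _ ≤ C * (K * ‖w‖) ^ 3 := by gcongr
      _ = C * K ^ 3 * ‖w‖ ^ 3 := by ring
  push Not at hB
  have h4 : ∀ v, ((4 : ℕ) : ℕ∞) ≤ analyticOrderAt (fun t : ℂ => p (t • v)) 0 :=
    fun v => add_one_le_of_ne (h3 v) (hB v)
  exfalso
  obtain ⟨C, hC, hbd⟩ := bound_of_orders hp 4 h4
  obtain ⟨r, hr, hbr⟩ := Metric.nhds_basis_closedBall.eventually_iff.1 hbd
  refine not_KI (p := p) 1 1 le_rfl (r := r) (C := C * r ^ 4) hr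
    (fun t ht ht1 w hw1 hw2 => ?_) hK
  have hw : ‖w‖ ≤ r * t := by
    rw [Prod.norm_def]
    exact max_le (by simpa using hw1) (by simpa using hw2)
  have hw' : ‖w‖ ≤ r := hw.trans (mul_le_of_le_one_right hr.le ht1)
  calc ‖p w‖ ≤ C * ‖w‖ ^ 4 := hbr (by simpa using hw')
    _ ≤ C * (r * t) ^ 4 := by gcongr
    _ = C * r ^ 4 * t ^ (2 * 1 + 2 * 1) := by ring

end Crest.Agent.R257.Kp_405
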