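import Crest.Agent.R257.ELocB_611
import Crest.Agent.R257.LimB_37
import Crest.Agent.R257.Loc_835
import Crest.Agent.R257.CLH_39
import Crest.Agent.R273.YauC3_812

-- ▼ part R257/ELocC_611
section

/-!
# R257 (S0395), E-LOC (helper611), part C: interior gradient bound

`grad_le` : `|u| ≤ K` and `|lev u z v| ≤ N |v|²` on a ball of radius `2d` give
`|Du(z₀)| ≤ 2K/d + (N+1)d/2` (barrier on a half square of the complex line of `v`).
-/

set_option autoImplicit false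

open Set Metric Filter
open scoped ContDiff Topology

namespace Crest.Agent.R257.ELoc_611

open Crest.Agent.R275.Geo (Cn)
open Crest.Agent.R273.Defs_333 (lev)
open Crest.Agent.R273.YauDefs_635 (cH D2 lev333_eq)
open Complex (I)

noncomputable section

/-- `f` is differentiable near `a` and its derivative has derivative `c` at `a` -/
def HD2 (f : ℝ → ℝ) (a c : ℝ) : Prop :=
  ∃ f' : ℝ → ℝ, (∀ᶠ t in 𝓝 a, HasDerivAt f (f' t) t) ∧ HasDerivAt f' c a

theorem HD2.add {f g : ℝ → ℝ} {a c c' : ℝ} (h : HD2 f a c) (h' : HD2 g a c') :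
    HD2 (fun t => f t + g t) a (c + c') := by
  obtain ⟨f', h1, h2⟩ := h
  obtain ⟨g', h3, h4⟩ := h'
  refine ⟨fun t => f' t + g' t, ?_, h2.add h4⟩
  filter_upwards [h1, h3] with t ht ht'
  exact ht.add ht'

theorem HD2.const_mul {f : ℝ → ℝ} {a c : ℝ} (b : ℝ) (h : HD2 f a c) :
    HD2 (fun t => b * f t) a (b * c) := by
  obtain ⟨f', h1, h2⟩ := h
  refine ⟨fun t => b * f' t, ?_, h2.const_mul b⟩
  filter_upwards [h1] with t ht
  exact ht.const_mul b

theorem HD2.quad (α β γ a : ℝ) : HD2 (fun t => α * t ^ 2 + β * t + γ) a (2 * α) := by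
  refine ⟨fun t => α * (2 * t) + β, Eventually.of_forall fun t => ?_, ?_⟩
  · have h := (((hasDerivAt_pow 2 t).const_mul α).add ((hasDerivAt_id t).const_mul β)).add_const γ
    simpa using h
  · have h := (((hasDerivAt_id a).const_mul 2).const_mul α).add_const β
    simpa [mul_comm] using h

theorem HD2.congr {f g : ℝ → ℝ} {a c c' : ℝ} (h : HD2 f a c) (he : ∀ t, g t = f t)
    (hc : c' = c) : HD2 g a c' := by
  obtain rfl : g = f := funext he
  rw [hc]
  exact h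

theorem HD2.nonpos {f : ℝ → ℝ} {a c : ℝ} (h : HD2 f a c) (hm : IsLocalMax f a) : c ≤ 0 := by
  obtain ⟨f', h1, h2⟩ := h
  by_contra hneg
  push Not at hneg
  have e1 : deriv f =ᶠ[𝓝 a] f' := h1.mono fun t ht => ht.deriv
  have e2 : deriv (deriv f) a = c := by rw [e1.deriv_eq]; exact h2.deriv
  have h3 : IsLocalMin f a := isLocalMin_of_deriv_deriv_pos (by rw [e2]; exact hneg)
    hm.deriv_eq_zero h1.self_of_nhds.continuousAt
  have e3 : f =ᶠ[𝓝 a] fun _ => f a := by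
    filter_upwards [hm, h3] with t ht ht'
    exact le_antisymm ht ht'
  have e4 : deriv f =ᶠ[𝓝 a] fun _ => 0 := by
    refine e3.deriv.trans (Eventually.of_forall fun t => ?_)
    simp
  rw [e4.deriv_eq] at e2
  simp at e2
  linarith

section line

variable {X : Type*} [NormedAddCommGroup X] [NormedSpace ℝ X]

theorem HD2.line {u : X → ℝ} {p w : X} {a : ℝ} (h : ContDiffAt ℝ 2 u (p + a • w)) :
    HD2 (fun t => u (p + t • w)) a (fderiv ℝ (fderiv ℝ u) (p + a • w) w w) := by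
  have hl : ∀ t : ℝ, HasDerivAt (fun t : ℝ => p + t • w) w t := fun t => by
    simpa using ((hasDerivAt_id t).smul_const w).const_add p
  have hc : ContinuousAt (fun t : ℝ => p + t • w) a := (hl a).continuousAt
  refine ⟨fun t => fderiv ℝ u (p + t • w) w, ?_, ?_⟩
  · have h1 : ∀ᶠ y in 𝓝 (p + a • w), ContDiffAt ℝ 2 u y := h.eventually (by simp)
    filter_upwards [hc.eventually h1] with t ht
    exact (ht.differentiableAt (by simp)).hasFDerivAt.comp_hasDerivAt t (hl t)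
  · have h2 : DifferentiableAt ℝ (fderiv ℝ u) (p + a • w) :=
      (h.fderiv_right (m := 1) (by norm_num)).differentiableAt (by norm_num)
    have h3 : HasDerivAt (fun t => fderiv ℝ u (p + t • w)) (fderiv ℝ (fderiv ℝ u) (p + a • w) w) a :=
      h2.hasFDerivAt.comp_hasDerivAt a (hl a)
    exact h3.clm_apply (hasDerivAt_const a w) |>.congr_deriv (by simp)

end line

variable {ι : Type*} {n : ℕ}

/-- gradient bound by the half square barrier -/
theorem dir_le {u : Cn n → ℝ} {z₀ v : Cn n} {d K N : ℝ} (hd : 0 < d) (hK0 : 0 ≤ K) (hN0 : 0 ≤ N)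
    (hu : ContDiffOn ℝ 2 u (ball z₀ (3 * d))) (hK : ∀ z ∈ ball z₀ (3 * d), |u z| ≤ K)
    (hN : ∀ z ∈ ball z₀ (3 * d), |lev u z v| ≤ N) (hv : ‖v‖ = 1) :
    fderiv ℝ u z₀ v ≤ 2 * K / d + (N + 1) * d / 2 := by
  have hIv : ‖I • v‖ = 1 := by rw [norm_smul, Complex.norm_I, one_mul, hv]
  obtain ⟨w, hw⟩ : ∃ w : Cn n, w = I • v := ⟨_, rfl⟩
  rw [← hw] at hIv
  obtain ⟨p, hp⟩ : ∃ p : ℝ → ℝ → Cn n, p = fun x y => z₀ + (x • w + y • v) := ⟨_, rfl⟩
  have hin : ∀ x y : ℝ, |x| ≤ d → |y| ≤ d → p x y ∈ ball z₀ (3 * d) := by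
    intro x y hx hy
    rw [mem_ball, dist_eq_norm, hp]
    simp only [add_sub_cancel_left]
    refine (norm_add_le _ _).trans_lt ?_
    rw [norm_smul, norm_smul, hIv, hv, Real.norm_eq_abs, Real.norm_eq_abs]
    linarith
  have hc2 : ∀ x y : ℝ, |x| ≤ d → |y| ≤ d → ContDiffAt ℝ 2 u (p x y) := fun x y hx hy =>
    hu.contDiffAt (isOpen_ball.mem_nhds (hin x y hx hy))
  have hx' : ∀ x y, p x y = (z₀ + y • v) + x • w := fun x y => by rw [hp]; simp only; abel
  have hy' : ∀ x y, p x y = (z₀ + x • w) + y • v := fun x y => by rw [hp]; simp only; abel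
  have hy'' : ∀ x y, p x (-y) = (z₀ + x • w) + y • (-v) := fun x y => by
    rw [hp]; simp only [neg_smul, smul_neg]; abel
  obtain ⟨P, hP⟩ : ∃ P : ℝ → ℝ → ℝ, P = fun x y => (1 / 2) * u (p x y) + (-(1 / 2)) * u (p x (-y))
    + (-(K / d ^ 2 * (x ^ 2 + y * (2 * d - y))) - (N + 1) / 2 * (y * (d - y))) := ⟨_, rfl⟩
  have hKd : 0 ≤ K / d ^ 2 := by positivity
  have hKd2 : K / d ^ 2 * d ^ 2 = K := by field_simp
  -- boundary
  have hbd : ∀ x y : ℝ, |x| ≤ d → 0 ≤ y → y ≤ d → (|x| = d ∨ y = 0 ∨ y = d) → P x y ≤ 0 := by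
    intro x y hx h0 h1 hxy
    have hyd : |y| ≤ d := abs_le.2 ⟨by linarith, h1⟩
    have hyd' : |-y| ≤ d := by rwa [abs_neg]
    have e1 := abs_le.1 (hK _ (hin x y hx hyd))
    have e2 := abs_le.1 (hK _ (hin x (-y) hx hyd'))
    have e3 : 0 ≤ (N + 1) / 2 * (y * (d - y)) := by
      have : 0 ≤ y * (d - y) := mul_nonneg h0 (by linarith)
      positivity
    rw [hP]
    simp only
    rcases hxy with h | h | h
    · have e4 : d ^ 2 ≤ x ^ 2 + y * (2 * d - y) := by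
        have : x ^ 2 = d ^ 2 := by rw [← sq_abs, h]
        have : 0 ≤ y * (2 * d - y) := mul_nonneg h0 (by linarith)
        linarith
      have e5 := mul_le_mul_of_nonneg_left e4 hKd
      rw [hKd2] at e5
      linarith [e1.2, e2.1]
    · subst h
      have e5 : 0 ≤ K / d ^ 2 * (x ^ 2 + 0 * (2 * d - 0)) :=
        mul_nonneg hKd (by nlinarith [sq_nonneg x])
      simp only [neg_zero] at *
      linarith
    · have e4 : d ^ 2 ≤ x ^ 2 + y * (2 * d - y) := by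
        rw [h]
        nlinarith [sq_nonneg x]
      have e5 := mul_le_mul_of_nonneg_left e4 hKd
      rw [hKd2] at e5
      linarith [e1.2, e2.1]
  -- maximum
  have hcP : ContinuousOn (fun q : ℝ × ℝ => P q.1 q.2) (Icc (-d) d ×ˢ Icc 0 d) := by
    have hpc : Continuous fun q : ℝ × ℝ => p q.1 q.2 := by
      rw [hp]
      exact continuous_const.add ((continuous_fst.smul continuous_const).add
        (continuous_snd.smul continuous_const))
    have hpc' : Continuous fun q : ℝ × ℝ => p q.1 (-q.2) := by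
      rw [hp]
      exact continuous_const.add ((continuous_fst.smul continuous_const).add
        (continuous_snd.neg.smul continuous_const))
    have hm1 : MapsTo (fun q : ℝ × ℝ => p q.1 q.2) (Icc (-d) d ×ˢ Icc 0 d) (ball z₀ (3 * d)) :=
      fun q hq => hin _ _ (abs_le.2 hq.1) (abs_le.2 ⟨by linarith [hq.2.1], hq.2.2⟩)
    have hm2 : MapsTo (fun q : ℝ × ℝ => p q.1 (-q.2)) (Icc (-d) d ×ˢ Icc 0 d)
        (ball z₀ (3 * d)) :=
      fun q hq => hin _ _ (abs_le.2 hq.1) (abs_le.2 ⟨by linarith [hq.2.2], by linarith [hq.2.1]⟩)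
    rw [hP]
    refine ContinuousOn.add (ContinuousOn.add ?_ ?_) ?_
    · exact continuousOn_const.mul (hu.continuousOn.comp hpc.continuousOn hm1)
    · exact continuousOn_const.mul (hu.continuousOn.comp hpc'.continuousOn hm2)
    · exact Continuous.continuousOn (by fun_prop)
  obtain ⟨⟨x0, y0⟩, hq0, hmax⟩ := (isCompact_Icc.prod isCompact_Icc).exists_isMaxOn
    (⟨(0, 0), ⟨by constructor <;> simp [hd.le], by constructor <;> simp [hd.le]⟩⟩ :
      (Icc (-d) d ×ˢ Icc (0 : ℝ) d).Nonempty) hcP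
  have hmax' : ∀ x y, |x| ≤ d → 0 ≤ y → y ≤ d → P x y ≤ P x0 y0 := fun x y hx h0 h1 =>
    hmax (a := (x, y)) ⟨abs_le.1 hx, h0, h1⟩
  have hx0 : |x0| ≤ d := abs_le.2 hq0.1
  have hy0 : 0 ≤ y0 := hq0.2.1
  have hy1 : y0 ≤ d := hq0.2.2
  have hPneg : P x0 y0 ≤ 0 := by
    by_contra hpos
    push Not at hpos
    have hxs : |x0| < d := lt_of_le_of_ne hx0 fun h => absurd (hbd x0 y0 hx0 hy0 hy1 (Or.inl h))
      (not_le.2 hpos)
    have hys : 0 < y0 := lt_of_le_of_ne hy0 fun h =>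
      absurd (hbd x0 y0 hx0 hy0 hy1 (Or.inr (Or.inl h.symm))) (not_le.2 hpos)
    have hys' : y0 < d := lt_of_le_of_ne hy1 fun h =>
      absurd (hbd x0 y0 hx0 hy0 hy1 (Or.inr (Or.inr h))) (not_le.2 hpos)
    have hya : |y0| ≤ d := abs_le.2 ⟨by linarith, hy1⟩
    have hya' : |-y0| ≤ d := by rwa [abs_neg]
    have m1 : IsLocalMax (fun x => P x y0) x0 := by
      have : ∀ᶠ x in 𝓝 x0, x ∈ Ioo (-d) d := Ioo_mem_nhds (abs_lt.1 hxs).1 (abs_lt.1 hxs).2
      filter_upwards [this] with x hx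
      exact hmax' x y0 (abs_le.2 ⟨hx.1.le, hx.2.le⟩) hy0 hy1
    have m2 : IsLocalMax (fun y => P x0 y) y0 := by
      have : ∀ᶠ y in 𝓝 y0, y ∈ Ioo 0 d := Ioo_mem_nhds hys hys'
      filter_upwards [this] with y hy
      exact hmax' x0 y hx0 hy.1.le hy.2.le
    have s1 : HD2 (fun x => P x y0) x0 ((1 / 2) * fderiv ℝ (fderiv ℝ u) (p x0 y0) w w
        + (-(1 / 2)) * fderiv ℝ (fderiv ℝ u) (p x0 (-y0)) w w + 2 * (-(K / d ^ 2))) := by
      have a1 := (HD2.line (w := w) (a := x0) (p := z₀ + y0 • v)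
        (by rw [← hx']; exact hc2 _ _ hx0 hya)).const_mul (1 / 2)
      have a2 := (HD2.line (w := w) (a := x0) (p := z₀ + (-y0) • v)
        (by rw [← hx']; exact hc2 _ _ hx0 hya')).const_mul (-(1 / 2))
      refine ((a1.add a2).add (HD2.quad (-(K / d ^ 2)) 0
        (-(K / d ^ 2 * (y0 * (2 * d - y0))) - (N + 1) / 2 * (y0 * (d - y0))) x0)).congr
        (fun x => ?_) ?_
      · rw [hP]
        simp only [hx']
        ring
      · rw [hx', hx']
    have s2 : HD2 (fun y => P x0 y) y0 ((1 / 2) * fderiv ℝ (fderiv ℝ u) (p x0 y0) v v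
        + (-(1 / 2)) * fderiv ℝ (fderiv ℝ u) (p x0 (-y0)) v v
        + 2 * (K / d ^ 2 + (N + 1) / 2)) := by
      have a1 := (HD2.line (w := v) (a := y0) (p := z₀ + x0 • w)
        (by rw [← hy']; exact hc2 _ _ hx0 hya)).const_mul (1 / 2)
      have a2 := (HD2.line (w := -v) (a := y0) (p := z₀ + x0 • w)
        (by rw [← hy'']; exact hc2 _ _ hx0 hya')).const_mul (-(1 / 2))
      refine ((a1.add a2).add (HD2.quad (K / d ^ 2 + (N + 1) / 2)
        (-(K / d ^ 2 * (2 * d)) - (N + 1) / 2 * d) (-(K / d ^ 2 * x0 ^ 2)) y0)).congr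
        (fun y => ?_) ?_
      · rw [hP]
        simp only [← hy', ← hy'']
        ring
      · rw [← hy', ← hy'']
        simp only [map_neg, neg_apply, neg_neg]
    have n1 := s1.nonpos m1
    have n2 := s2.nonpos m2
    have l1 := abs_le.1 (hN _ (hin x0 y0 hx0 hya))
    have l2 := abs_le.1 (hN _ (hin x0 (-y0) hx0 hya'))
    rw [lev333_eq, ← hw] at l1 l2
    simp only [D2] at l1 l2
    linarith [l1.1, l2.2]
  -- derivative
  have hder : HasDerivAt (fun y : ℝ => u (p 0 y)) (fderiv ℝ u z₀ v) 0 := by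
    have hl : HasDerivAt (fun t : ℝ => p 0 t) v 0 := by
      have := ((hasDerivAt_id (0 : ℝ)).smul_const v).const_add z₀
      simpa [hp] using this
    have hz : p 0 0 = z₀ := by rw [hp]; simp
    have h1 := (hc2 0 0 (by simp [hd.le]) (by simp [hd.le])).differentiableAt (by simp)
    rw [← hz]
    exact h1.hasFDerivAt.comp_hasDerivAt 0 hl
  have hder' : HasDerivAt (fun y : ℝ => u (p 0 (-y))) (-(fderiv ℝ u z₀ v)) 0 := by
    have h1 : HasDerivAt (fun y : ℝ => u (p 0 y)) (fderiv ℝ u z₀ v) (-0) := by simpa using hder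
    have := h1.comp (0 : ℝ) (hasDerivAt_neg (0 : ℝ))
    simpa [Function.comp_def] using this
  have hsum : HasDerivAt (fun y : ℝ => (1 / 2) * u (p 0 y) + (-(1 / 2)) * u (p 0 (-y)))
      (fderiv ℝ u z₀ v) 0 := by
    have := (hder.const_mul (1 / 2)).add (hder'.const_mul (-(1 / 2)))
    refine this.congr_deriv ?_
    ring
  have ht := hsum.tendsto_slope_zero_right
  refine le_of_tendsto ht ?_
  have hev : ∀ᶠ t in 𝓝[>] (0 : ℝ), t ∈ Ioo (0 : ℝ) d := Ioo_mem_nhdsGT hd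
  filter_upwards [hev] with t ht
  have h1 := (hmax' 0 t (by simp [hd.le]) ht.1.le ht.2.le).trans hPneg
  rw [hP] at h1
  simp only at h1
  simp only [zero_add, neg_zero, smul_eq_mul]
  have h2 : (1 / 2) * u (p 0 t) + (-(1 / 2)) * u (p 0 (-t)) - ((1 / 2) * u (p 0 0)
      + (-(1 / 2)) * u (p 0 0)) ≤ t * (2 * K / d + (N + 1) * d / 2) := by
    have e1 : K / d ^ 2 * (0 ^ 2 + t * (2 * d - t)) ≤ t * (2 * K / d) := by
      have : t * (2 * K / d) = K / d ^ 2 * (t * (2 * d)) := by field_simp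
      rw [this]
      refine mul_le_mul_of_nonneg_left ?_ hKd
      nlinarith [ht.1]
    have e2 : (N + 1) / 2 * (t * (d - t)) ≤ t * ((N + 1) * d / 2) := by
      have : t * ((N + 1) * d / 2) = (N + 1) / 2 * (t * d) := by ring
      rw [this]
      refine mul_le_mul_of_nonneg_left ?_ (by positivity)
      nlinarith [ht.1]
    linarith
  calc t⁻¹ * _ ≤ t⁻¹ * (t * (2 * K / d + (N + 1) * d / 2)) :=
        mul_le_mul_of_nonneg_left h2 (inv_nonneg.2 ht.1.le)
    _ = _ := by rw [← mul_assoc, inv_mul_cancel₀ ht.1.ne', one_mul]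

/-- interior gradient bound -/
theorem grad_le {u : Cn n → ℝ} {z₀ : Cn n} {d K N : ℝ} (hd : 0 < d) (hK0 : 0 ≤ K) (hN0 : 0 ≤ N)
    (hu : ContDiffOn ℝ 2 u (ball z₀ (3 * d))) (hK : ∀ z ∈ ball z₀ (3 * d), |u z| ≤ K)
    (hN : ∀ z ∈ ball z₀ (3 * d), ∀ v, |lev u z v| ≤ N * ‖v‖ ^ 2) :
    ‖fderiv ℝ u z₀‖ ≤ 2 * K / d + (N + 1) * d / 2 := by
  refine ContinuousLinearMap.opNorm_le_of_unit_norm (by positivity) fun v hv => ?_
  have hN' : ∀ v : Cn n, ‖v‖ = 1 → ∀ z ∈ ball z₀ (3 * d), |lev u z v| ≤ N := fun v hv z hz => by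
    simpa [hv] using hN z hz v
  have h1 := dir_le hd hK0 hN0 hu hK (hN' v hv) hv
  have h2 := dir_le hd hK0 hN0 hu hK (hN' (-v) (by rwa [norm_neg])) (by rwa [norm_neg])
  rw [Real.norm_eq_abs, abs_le]
  rw [map_neg] at h2
  exact ⟨by linarith, h1⟩

/-- gradient bound for families -/
theorem grad_fam {U : Set (Cn n)} (hU : IsOpen U) {u : ι → Cn n → ℝ}
    (hu : ∀ i, ContDiffOn ℝ ∞ (u i) U)
    (h0 : ∀ x ∈ U, ∃ r > 0, ∃ S : ℝ, ∀ i, ∀ z ∈ ball x r, |u i z| ≤ S)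
    (h2 : ∀ x ∈ U, ∃ r > 0, ∃ N : ℝ, ∀ i, ∀ z ∈ ball x r, ∀ v, |lev (u i) z v| ≤ N * ‖v‖ ^ 2) :
    ∀ x ∈ U, ∃ r > 0, ∃ S : ℝ, 0 ≤ S ∧ ∀ i, ∀ z ∈ ball x r, ‖fderiv ℝ (u i) z‖ ≤ S := by
  intro x hx
  obtain ⟨r1, hr1, S, H1⟩ := h0 x hx
  obtain ⟨r2, hr2, N, H2⟩ := h2 x hx
  obtain ⟨r3, hr3, H3⟩ := Metric.isOpen_iff.1 hU x hx
  set r := min r1 (min r2 r3) with hr
  have hr0 : 0 < r := lt_min hr1 (lt_min hr2 hr3)
  have hd : 0 < r / 6 := by positivity
  refine ⟨r / 2, by positivity, 2 * |S| / (r / 6) + (|N| + 1) * (r / 6) / 2, by positivity,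
    fun i z hz => ?_⟩
  have hsub : ball z (3 * (r / 6)) ⊆ ball x r := by
    refine ball_subset_ball' ?_
    rw [mem_ball] at hz
    linarith
  refine grad_le hd (abs_nonneg S) (abs_nonneg N) (((hu i).mono fun y hy => H3 ?_).of_le
    two_le_infty) (fun y hy => ?_) fun y hy v => ?_
  · exact ball_subset_ball ((min_le_right _ _).trans (min_le_right _ _)) (hsub hy)
  · exact (H1 i y (ball_subset_ball (min_le_left _ _) (hsub hy))).trans (le_abs_self _)
  · exact (H2 i y (ball_subset_ball ((min_le_right _ _).trans (min_le_left _ _)) (hsub hy)) v).trans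
      (mul_le_mul_of_nonneg_right (le_abs_self _) (sq_nonneg _))

end

end Crest.Agent.R257.ELoc_611
end

-- ▼ part R257/ELocD_611
section

/-!
# R257 (S0395), E-LOC (helper611), part D: the cone trick

`Φ(z,τ) = ψ(u(z) + 2 Re τ)` with `ψ'^n ψ'' = e^{-s}/(n+1)`: if `det ∂∂̄u = e^{u+h}` then
`det ∂∂̄Φ = e^{h - 2 Re τ}/(n+1)`, no zero order term.
-/

set_option autoImplicit false

open Set Metric Filter
open scoped ContDiff Topology Matrix ComplexConjugate

namespace Crest.Agent.R257.ELoc_611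

open Crest.Agent.R275.Geo (Cn)
open Crest.Agent.R273.SchA_152
open Crest.Agent.R273.Defs_333 (lev)
open Crest.Agent.R273.YauDefs_635 (cH D2 lev333_eq C3Stmt)
open Complex (I)

noncomputable section

/-! ### the profile function -/

/-- data of the profile: `ρ = ψ'`, `σ = ψ''` on `(-K-2, ∞)` -/
structure Prof (n : ℕ) (K : ℝ) (ψ ρ σ : ℝ → ℝ) : Prop where
  cψ : ContDiffOn ℝ ∞ ψ (Ioi (-K - 2))
  cρ : ContDiffOn ℝ ∞ ρ (Ioi (-K - 2))
  cσ : ContDiffOn ℝ ∞ σ (Ioi (-K - 2))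
  dψ : ∀ s ∈ Ioi (-K - 2), HasDerivAt ψ (ρ s) s
  dρ : ∀ s ∈ Ioi (-K - 2), HasDerivAt ρ (σ s) s
  pρ : ∀ s ∈ Ioi (-K - 2), 0 < ρ s
  pσ : ∀ s ∈ Ioi (-K - 2), 0 < σ s
  eq : ∀ s ∈ Ioi (-K - 2), ρ s ^ n * σ s = Real.exp (-s) / (n + 1)

theorem exists_prof (n : ℕ) (K : ℝ) : ∃ ψ ρ σ : ℝ → ℝ, Prof n K ψ ρ σ := by
  set C0 : ℝ := Real.exp (K + 2) + 1 with hC0
  set c : ℝ := 1 / (n + 1) with hc
  have hn : (0 : ℝ) < n + 1 := by positivity
  set b : ℝ → ℝ := fun s => C0 - Real.exp (-s) with hb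
  have hb1 : ∀ s ∈ Ioi (-K - 2), 1 < b s := by
    intro s hs
    have h1 : Real.exp (-s) < Real.exp (K + 2) := Real.exp_lt_exp.2 (by
      rw [mem_Ioi] at hs; linarith)
    simp only [hb, hC0]
    linarith
  have hbc : ContDiff ℝ ∞ b := contDiff_const.sub (Real.contDiff_exp.comp contDiff_neg)
  have hbd : ∀ s, HasDerivAt b (Real.exp (-s)) s := fun s => by
    have := ((Real.hasDerivAt_exp (-s)).comp s (hasDerivAt_neg s)).const_sub C0
    simpa using this
  have hrpow : ∀ e : ℝ, ContDiffOn ℝ ∞ (fun s => b s ^ e) (Ioi (-K - 2)) := fun e =>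
    hbc.contDiffOn.rpow_const_of_ne fun s hs => (lt_trans one_pos (hb1 s hs)).ne'
  set m : ℝ → ℝ := fun s => max (b s) 1 ^ c with hm
  have hmc : Continuous m :=
    (hbc.continuous.max continuous_const).rpow_const fun s => Or.inl
      (lt_of_lt_of_le one_pos (le_max_right _ _)).ne'
  have hmb : ∀ s ∈ Ioi (-K - 2), m s = b s ^ c := fun s hs => by
    simp only [hm, max_eq_left (hb1 s hs).le]
  set ψ : ℝ → ℝ := fun s => ∫ x in (0 : ℝ)..s, m x with hψ
  have hψd : ∀ s ∈ Ioi (-K - 2), HasDerivAt ψ (b s ^ c) s := fun s hs => by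
    rw [← hmb s hs]
    exact (hmc.integral_hasStrictDerivAt 0 s).hasDerivAt
  refine ⟨ψ, fun s => b s ^ c, fun s => c * b s ^ (c - 1) * Real.exp (-s), ?_, hrpow c, ?_, hψd,
    ?_, ?_, ?_, ?_⟩
  · rw [contDiffOn_infty_iff_deriv_of_isOpen isOpen_Ioi]
    refine ⟨fun s hs => (hψd s hs).differentiableAt.differentiableWithinAt, ?_⟩
    exact (hrpow c).congr fun s hs => (hψd s hs).deriv
  · exact (contDiffOn_const.mul (hrpow _)).mul
      (Real.contDiff_exp.comp contDiff_neg).contDiffOn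
  · intro s hs
    have := (hbd s).rpow_const (p := c) (Or.inl (lt_trans one_pos (hb1 s hs)).ne')
    convert this using 1
    ring
  · exact fun s hs => Real.rpow_pos_of_pos (lt_trans one_pos (hb1 s hs)) _
  · intro s hs
    have h0 := lt_trans one_pos (hb1 s hs)
    have : 0 < c := by positivity
    positivity
  · intro s hs
    have h0 := lt_trans one_pos (hb1 s hs)
    have h1 : (b s ^ c) ^ n = b s ^ (c * n) := by
      rw [Real.rpow_mul h0.le, Real.rpow_natCast]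
    have h2 : b s ^ (c * n) * b s ^ (c - 1) = 1 := by
      rw [← Real.rpow_add h0]
      have : c * n + (c - 1) = 0 := by rw [hc]; field_simp; ring
      rw [this, Real.rpow_zero]
    calc (b s ^ c) ^ n * (c * b s ^ (c - 1) * Real.exp (-s))
        = c * (b s ^ (c * n) * b s ^ (c - 1)) * Real.exp (-s) := by rw [h1]; ring
      _ = Real.exp (-s) / (n + 1) := by rw [h2, hc]; ring

/-! ### the determinant -/

variable {n : ℕ}

/-- bordered matrix -/
def bord (H : Matrix (Fin n) (Fin n) ℂ) (p : Fin n → ℂ) (x y : ℂ) :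
    Matrix (Fin n ⊕ Fin 1) (Fin n ⊕ Fin 1) ℂ :=
  Matrix.fromBlocks (x • H + y • Matrix.vecMulVec p (star p)) (Matrix.of fun a _ => y * p a)
    (Matrix.of fun _ b => y * conj (p b)) (Matrix.of fun _ _ => y)

theorem det_bord (H : Matrix (Fin n) (Fin n) ℂ) (p : Fin n → ℂ) (x y : ℂ) :
    (bord H p x y).det = x ^ n * y * H.det := by
  have h : bord H p x y = Matrix.fromBlocks (x • H) (Matrix.of fun a _ => p a) 0 1 *
      Matrix.fromBlocks 1 0 (Matrix.of fun _ b => y * conj (p b)) (Matrix.of fun _ _ => y) := by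
    rw [Matrix.fromBlocks_multiply]
    unfold bord
    congr 1
    · ext a b
      simp only [Matrix.add_apply, Matrix.smul_apply, Matrix.vecMulVec_apply, Matrix.mul_apply,
        Matrix.mul_one, Fin.sum_univ_one, Matrix.of_apply, Pi.star_apply, Complex.star_def,
        smul_eq_mul]
      ring
    · ext a b
      simp only [Matrix.add_apply, Matrix.mul_apply, Matrix.mul_zero, Matrix.zero_apply,
        Fin.sum_univ_one, Matrix.of_apply, zero_add]
      ring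
    · ext a b
      simp
    · ext a b
      simp
  rw [h, Matrix.det_mul, Matrix.det_fromBlocks_zero₂₁, Matrix.det_fromBlocks_zero₁₂,
    Matrix.det_smul, Matrix.det_one, Matrix.det_one, Matrix.det_fin_one, Fintype.card_fin]
  simp
  ring

/-! ### the spaces -/

/-- the first `n` coordinates, complex linear -/
def prL (n : ℕ) : Cn (n + 1) →ₗ[ℂ] Cn n where
  toFun Z := WithLp.toLp 2 fun a => Z a.castSucc
  map_add' Z W := by ext a; simp
  map_smul' c Z := by ext a; simp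

/-- the first `n` coordinates -/
def pr (n : ℕ) : Cn (n + 1) →L[ℝ] Cn n := (LinearMap.toContinuousLinearMap (prL n)).restrictScalars ℝ

theorem pr_apply (Z : Cn (n + 1)) (a : Fin n) : pr n Z a = Z a.castSucc := rfl

theorem pr_smul (c : ℂ) (Z : Cn (n + 1)) : pr n (c • Z) = c • pr n Z := (prL n).map_smul c Z

/-- `2 Re` of the last coordinate -/
def ell (n : ℕ) : Cn (n + 1) →L[ℝ] ℝ :=
  (2 : ℝ) • (Complex.reCLM.comp ((EuclideanSpace.proj (𝕜 := ℂ) (Fin.last n)).restrictScalars ℝ))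

theorem ell_apply (Z : Cn (n + 1)) : ell n Z = 2 * (Z (Fin.last n)).re := rfl

/-- the inclusion `z ↦ (z, 0)` -/
def inj (n : ℕ) : Cn n →ₗ[ℂ] Cn (n + 1) where
  toFun z := WithLp.toLp 2 (Fin.snoc (α := fun _ => ℂ) z.ofLp 0)
  map_add' z w := by
    ext a
    refine Fin.lastCases ?_ (fun a => ?_) a <;> simp
  map_smul' c z := by
    ext a
    refine Fin.lastCases ?_ (fun a => ?_) a <;> simp

theorem inj_last (z : Cn n) : inj n z (Fin.last n) = 0 := by simp [inj]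

theorem inj_cast (z : Cn n) (a : Fin n) : inj n z a.castSucc = z a := by simp [inj]

theorem pr_inj (z : Cn n) : pr n (inj n z) = z := by
  ext a
  rw [pr_apply, inj_cast]

theorem ell_inj (z : Cn n) : ell n (inj n z) = 0 := by
  rw [ell_apply, inj_last]
  simp

theorem norm_sq_split (Z : Cn (n + 1)) : ‖Z‖ ^ 2 = ‖pr n Z‖ ^ 2 + ‖Z (Fin.last n)‖ ^ 2 := by
  rw [EuclideanSpace.norm_sq_eq, EuclideanSpace.norm_sq_eq, Fin.sum_univ_castSucc]
  rfl

theorem norm_pr_le (Z : Cn (n + 1)) : ‖pr n Z‖ ≤ ‖Z‖ := by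
  have h := norm_sq_split Z
  exact abs_le_of_sq_le_sq' (by nlinarith [sq_nonneg ‖Z (Fin.last n)‖]) (norm_nonneg _) |>.2

theorem norm_last_le (Z : Cn (n + 1)) : ‖Z (Fin.last n)‖ ≤ ‖Z‖ := by
  have h := norm_sq_split Z
  exact abs_le_of_sq_le_sq' (by nlinarith [sq_nonneg ‖pr n Z‖]) (norm_nonneg _) |>.2

theorem norm_inj (z : Cn n) : ‖inj n z‖ = ‖z‖ := by
  have h := norm_sq_split (inj n z)
  rw [pr_inj, inj_last, norm_zero] at h
  have h1 := norm_nonneg z
  have h2 := norm_nonneg (inj n z)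
  nlinarith [sq_nonneg (‖inj n z‖ - ‖z‖), sq_nonneg (‖inj n z‖ + ‖z‖)]

/-- `inj` as a real continuous linear map -/
def injR (n : ℕ) : Cn n →L[ℝ] Cn (n + 1) := (LinearMap.toContinuousLinearMap (inj n)).restrictScalars ℝ


theorem pr_single_cast (a : Fin n) (c : ℂ) :
    pr n (EuclideanSpace.single a.castSucc c) = EuclideanSpace.single a c := by
  ext b
  rw [pr_apply]
  simp

theorem pr_single_last (c : ℂ) :
    pr n (EuclideanSpace.single (Fin.last n) c) = 0 := by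
  ext b
  rw [pr_apply]
  simp [Fin.castSucc_ne_last b]

theorem ell_single_cast (a : Fin n) (c : ℂ) :
    ell n (EuclideanSpace.single a.castSucc c) = 0 := by
  rw [ell_apply]
  simp [(Fin.castSucc_ne_last a).symm]

theorem ell_single_last (c : ℂ) :
    ell n (EuclideanSpace.single (Fin.last n) c) = 2 * c.re := by
  rw [ell_apply]
  simp

/-! ### second derivatives of the cone potential -/

/-- second derivative of a composition with a real function -/
theorem fd2_comp1 {X : Type*} [NormedAddCommGroup X] [NormedSpace ℝ X] {S : X → ℝ}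
    {ψ ρ : ℝ → ℝ} {σ : ℝ} {z : X} (hS : ContDiffAt ℝ 2 S z)
    (hψ : ∀ᶠ y in 𝓝 z, HasDerivAt ψ (ρ (S y)) (S y)) (hρ : HasDerivAt ρ σ (S z)) (V W : X) :
    fderiv ℝ (fderiv ℝ (fun y => ψ (S y))) z V W =
      σ * (fderiv ℝ S z V * fderiv ℝ S z W) + ρ (S z) * fderiv ℝ (fderiv ℝ S) z V W := by
  have h1 : ∀ᶠ y in 𝓝 z, ContDiffAt ℝ 2 S y := hS.eventually (by simp)
  have h2 : fderiv ℝ (fun y => ψ (S y)) =ᶠ[𝓝 z] fun y => ρ (S y) • fderiv ℝ S y := by
    filter_upwards [h1, hψ] with y hy hy'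
    exact (hy'.comp_hasFDerivAt y (hy.differentiableAt (by simp)).hasFDerivAt).fderiv
  have h3 : DifferentiableAt ℝ (fderiv ℝ S) z :=
    (hS.fderiv_right (m := 1) (by norm_num)).differentiableAt (by norm_num)
  have h4 : HasFDerivAt (fun y => ρ (S y)) (σ • fderiv ℝ S z) z :=
    hρ.comp_hasFDerivAt z (hS.differentiableAt (by simp)).hasFDerivAt
  have h5 := HasFDerivAt.fun_smul h4 h3.hasFDerivAt
  rw [h2.fderiv_eq, h5.fderiv]
  simp only [add_apply, smul_apply, smul_eq_mul, ContinuousLinearMap.smulRight_apply]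
  ring

/-- the cone potential -/
def Phi (ψ : ℝ → ℝ) (u : Cn n → ℝ) (Z : Cn (n + 1)) : ℝ := ψ (u (pr n Z) + ell n Z)

theorem fd1_S {u : Cn n → ℝ} {Z : Cn (n + 1)} (hu : DifferentiableAt ℝ u (pr n Z)) :
    HasFDerivAt (fun Z => u (pr n Z) + ell n Z) ((fderiv ℝ u (pr n Z)).comp (pr n) + ell n) Z :=
  (hu.hasFDerivAt.comp Z (pr n).hasFDerivAt).add (ell n).hasFDerivAt

theorem fd2_S {u : Cn n → ℝ} {Z : Cn (n + 1)} (hu : ContDiffAt ℝ 2 u (pr n Z))
    (V W : Cn (n + 1)) :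
    fderiv ℝ (fderiv ℝ (fun Z => u (pr n Z) + ell n Z)) Z V W =
      fderiv ℝ (fderiv ℝ u) (pr n Z) (pr n V) (pr n W) := by
  have h1 : ∀ᶠ y in 𝓝 (pr n Z), ContDiffAt ℝ 2 u y := hu.eventually (by simp)
  have h2 : ∀ᶠ Y in 𝓝 Z, ContDiffAt ℝ 2 u (pr n Y) :=
    ((pr n).continuous.tendsto Z).eventually h1
  have h3 : fderiv ℝ (fun Z => u (pr n Z) + ell n Z) =ᶠ[𝓝 Z]
      fun Y => (fderiv ℝ u (pr n Y)).comp (pr n) + ell n := by
    filter_upwards [h2] with Y hY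
    exact (fd1_S (hY.differentiableAt (by simp))).fderiv
  have h4 : DifferentiableAt ℝ (fderiv ℝ u) (pr n Z) :=
    (hu.fderiv_right (m := 1) (by norm_num)).differentiableAt (by norm_num)
  have h5 : HasFDerivAt (fun Y => (fderiv ℝ u (pr n Y)).comp (pr n) + ell n)
      (((ContinuousLinearMap.compL ℝ (Cn (n + 1)) (Cn n) ℝ).flip (pr n)).comp
        ((fderiv ℝ (fderiv ℝ u) (pr n Z)).comp (pr n))) Z := by
    refine HasFDerivAt.add_const _ ?_
    exact ((ContinuousLinearMap.compL ℝ (Cn (n + 1)) (Cn n) ℝ).flip (pr n)).hasFDerivAt.comp Z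
      (h4.hasFDerivAt.comp Z (pr n).hasFDerivAt)
  rw [h3.fderiv_eq, h5.fderiv]
  rfl

variable {K : ℝ} {ψ ρ σ : ℝ → ℝ}

theorem fd2_Phi (hP : Prof n K ψ ρ σ) {u : Cn n → ℝ} {Z : Cn (n + 1)}
    (hu : ContDiffAt ℝ 2 u (pr n Z)) (hs : -K - 2 < u (pr n Z) + ell n Z) (V W : Cn (n + 1)) :
    fderiv ℝ (fderiv ℝ (Phi ψ u)) Z V W =
      σ (u (pr n Z) + ell n Z) * ((fderiv ℝ u (pr n Z) (pr n V) + ell n V) *
        (fderiv ℝ u (pr n Z) (pr n W) + ell n W)) +
      ρ (u (pr n Z) + ell n Z) * fderiv ℝ (fderiv ℝ u) (pr n Z) (pr n V) (pr n W) := by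
  have hS : ContDiffAt ℝ 2 (fun Z => u (pr n Z) + ell n Z) Z :=
    (hu.comp Z (pr n).contDiff.contDiffAt).add (ell n).contDiff.contDiffAt
  have hev : ∀ᶠ Y in 𝓝 Z, u (pr n Y) + ell n Y ∈ Ioi (-K - 2) :=
    hS.continuousAt.eventually (Ioi_mem_nhds hs)
  have h := fd2_comp1 (ψ := ψ) (ρ := ρ) (σ := σ (u (pr n Z) + ell n Z)) hS
    (hev.mono fun Y hY => hP.dψ _ hY) (hP.dρ _ hs) V W
  have e : fderiv ℝ (fun Z => u (pr n Z) + ell n Z) Z =
      (fderiv ℝ u (pr n Z)).comp (pr n) + ell n := (fd1_S (hu.differentiableAt (by simp))).fderiv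
  rw [fd2_S hu, e] at h
  exact h

theorem lev_Phi (hP : Prof n K ψ ρ σ) {u : Cn n → ℝ} {Z : Cn (n + 1)}
    (hu : ContDiffAt ℝ 2 u (pr n Z)) (hs : -K - 2 < u (pr n Z) + ell n Z) (V : Cn (n + 1)) :
    lev (Phi ψ u) Z V =
      σ (u (pr n Z) + ell n Z) * ((fderiv ℝ u (pr n Z) (pr n V) + ell n V) ^ 2 +
        (fderiv ℝ u (pr n Z) (I • pr n V) + ell n (I • V)) ^ 2) +
      ρ (u (pr n Z) + ell n Z) * lev u (pr n Z) (pr n V) := by
  rw [lev333_eq, lev333_eq]
  simp only [D2]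
  rw [fd2_Phi hP hu hs, fd2_Phi hP hu hs, pr_smul]
  ring

/-- the Wirtinger derivatives `∂_a u` -/
def wd (u : Cn n → ℝ) (z : Cn n) (a : Fin n) : ℂ :=
  (1 / 2 : ℂ) * ((fderiv ℝ u z (EuclideanSpace.single a 1) : ℂ)
    - I * (fderiv ℝ u z (EuclideanSpace.single a I) : ℂ))

theorem cH_Phi_cc (hP : Prof n K ψ ρ σ) {u : Cn n → ℝ} {Z : Cn (n + 1)}
    (hu : ContDiffAt ℝ 2 u (pr n Z)) (hs : -K - 2 < u (pr n Z) + ell n Z) (a b : Fin n) :
    cH (Phi ψ u) Z a.castSucc b.castSucc = (ρ (u (pr n Z) + ell n Z) : ℂ) * cH u (pr n Z) a b +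
      (σ (u (pr n Z) + ell n Z) : ℂ) * (wd u (pr n Z) a * conj (wd u (pr n Z) b)) := by
  simp only [cH, Matrix.of_apply, D2, fd2_Phi hP hu hs, pr_single_cast, ell_single_cast, wd,
    map_mul, map_sub, Complex.conj_ofReal, Complex.conj_I, add_zero]
  push_cast
  have h2 : conj (1 / 2 : ℂ) = 1 / 2 := by rw [map_div₀, map_one, Complex.conj_ofNat]
  rw [h2]
  ring_nf
  rw [Complex.I_sq]
  ring

theorem cH_Phi_cl (hP : Prof n K ψ ρ σ) {u : Cn n → ℝ} {Z : Cn (n + 1)}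
    (hu : ContDiffAt ℝ 2 u (pr n Z)) (hs : -K - 2 < u (pr n Z) + ell n Z) (a : Fin n) :
    cH (Phi ψ u) Z a.castSucc (Fin.last n) =
      (σ (u (pr n Z) + ell n Z) : ℂ) * wd u (pr n Z) a := by
  simp only [cH, Matrix.of_apply, D2, fd2_Phi hP hu hs, pr_single_cast, ell_single_cast,
    pr_single_last, ell_single_last, wd, map_zero, Complex.one_re, Complex.I_re]
  push_cast
  ring

theorem cH_Phi_lc (hP : Prof n K ψ ρ σ) {u : Cn n → ℝ} {Z : Cn (n + 1)}
    (hu : ContDiffAt ℝ 2 u (pr n Z)) (hs : -K - 2 < u (pr n Z) + ell n Z) (b : Fin n) :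
    cH (Phi ψ u) Z (Fin.last n) b.castSucc =
      (σ (u (pr n Z) + ell n Z) : ℂ) * conj (wd u (pr n Z) b) := by
  simp only [cH, Matrix.of_apply, D2, fd2_Phi hP hu hs, pr_single_cast, ell_single_cast,
    pr_single_last, ell_single_last, wd, map_zero, Complex.one_re, Complex.I_re,
    map_mul, map_sub, Complex.conj_ofReal, Complex.conj_I, zero_apply]
  push_cast
  have h2 : conj (1 / 2 : ℂ) = 1 / 2 := by rw [map_div₀, map_one, Complex.conj_ofNat]
  rw [h2]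
  ring

theorem cH_Phi_ll (hP : Prof n K ψ ρ σ) {u : Cn n → ℝ} {Z : Cn (n + 1)}
    (hu : ContDiffAt ℝ 2 u (pr n Z)) (hs : -K - 2 < u (pr n Z) + ell n Z) :
    cH (Phi ψ u) Z (Fin.last n) (Fin.last n) = (σ (u (pr n Z) + ell n Z) : ℂ) := by
  simp only [cH, Matrix.of_apply, D2, fd2_Phi hP hu hs,
    pr_single_last, ell_single_last, map_zero, Complex.one_re, Complex.I_re]
  push_cast
  ring

theorem det_Phi (hP : Prof n K ψ ρ σ) {u : Cn n → ℝ} {Z : Cn (n + 1)}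
    (hu : ContDiffAt ℝ 2 u (pr n Z)) (hs : -K - 2 < u (pr n Z) + ell n Z) :
    (cH (Phi ψ u) Z).det = (Real.exp (-(u (pr n Z) + ell n Z)) / (n + 1) : ℝ) *
      (cH u (pr n Z)).det := by
  have h : (cH (Phi ψ u) Z).submatrix (finSumFinEquiv : Fin n ⊕ Fin 1 ≃ Fin (n + 1))
      finSumFinEquiv = bord (cH u (pr n Z)) (wd u (pr n Z)) (ρ (u (pr n Z) + ell n Z))
        (σ (u (pr n Z) + ell n Z)) := by
    ext a b
    rcases a with a | a <;> rcases b with b | b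
    · have := cH_Phi_cc hP hu hs a b
      change cH (Phi ψ u) Z a.castSucc b.castSucc = _
      simpa [bord, Matrix.vecMulVec_apply] using this
    · obtain rfl : b = 0 := Subsingleton.elim _ _
      have := cH_Phi_cl hP hu hs a
      change cH (Phi ψ u) Z a.castSucc (Fin.last n) = _
      simpa [bord] using this
    · obtain rfl : a = 0 := Subsingleton.elim _ _
      have := cH_Phi_lc hP hu hs b
      change cH (Phi ψ u) Z (Fin.last n) b.castSucc = _
      simpa [bord] using this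
    · obtain rfl : a = 0 := Subsingleton.elim _ _
      obtain rfl : b = 0 := Subsingleton.elim _ _
      have := cH_Phi_ll hP hu hs
      change cH (Phi ψ u) Z (Fin.last n) (Fin.last n) = _
      simpa [bord] using this
  rw [← Matrix.det_submatrix_equiv_self (finSumFinEquiv : Fin n ⊕ Fin 1 ≃ Fin (n + 1)), h,
    det_bord, ← hP.eq _ hs]
  push_cast
  ring

end

end Crest.Agent.R257.ELoc_611
end

-- ▼ part R257/ELocE_611
section

/-!
# R257 (S0395), E-LOC (helper611), part E: Hölder bounds of `∂∂̄u` from `C3Stmt`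

`hess_uh` : for families of solutions of `det ∂∂̄u = e^{u+h}` with locally uniform bounds of `u`,
of the ellipticity constants and of the derivatives of `h`, the entries of `∂∂̄u` are locally
uniformly Hölder.
-/

set_option autoImplicit false

open Set Metric Filter
open scoped ContDiff Topology Matrix ComplexConjugate

namespace Crest.Agent.R257.ELoc_611

open Crest.Agent.R275.Geo (Cn)
open Crest.Agent.R273.SchA_152
open Crest.Agent.R273.Defs_333 (lev)
open Crest.Agent.R273.YauDefs_635 (cH D2 lev333_eq C3Stmt)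
open Crest.Agent.R273.YauLoc_635 (contDiffOn_cH)
open Complex (I)

noncomputable section

variable {ι : Type*} {n : ℕ} {K : ℝ} {ψ ρ σ : ℝ → ℝ}

/-- polarisation -/
theorem cH_bound {u : Cn n → ℝ} {z : Cn n} {N : ℝ} (hu : ContDiffAt ℝ 2 u z)
    (h : ∀ v, |lev u z v| ≤ N * ‖v‖ ^ 2) (a b : Fin n) : ‖cH u z a b‖ ≤ 2 * N := by
  have hs : ∀ v w, D2 u z v w = D2 u z w v := fun v w =>
    (hu.isSymmSndFDerivAt (by simp)) v w
  have hN : ∀ v : Cn n, ‖v‖ = 1 → |lev u z v| ≤ N := fun v hv => by simpa [hv] using h v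
  have hN2 : ∀ v : Cn n, ‖v‖ ≤ 2 → |lev u z v| ≤ N * 4 := fun v hv => by
    rcases eq_or_ne v 0 with rfl | hv0
    · have h1 := h 0
      have h2 := (abs_nonneg _).trans (hN (EuclideanSpace.single a 1) (by simp))
      have h3 : |lev u z 0| ≤ 0 := by simpa using h1
      linarith
    · have h1 := h v
      have h2 := (abs_nonneg _).trans (hN (EuclideanSpace.single a 1) (by simp))
      have h3 : ‖v‖ ^ 2 ≤ 4 := by nlinarith [norm_nonneg v]
      nlinarith
  have pol : ∀ v w : Cn n, ‖v‖ = 1 → ‖w‖ = 1 →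
      |D2 u z v w + D2 u z (I • v) (I • w)| ≤ 3 * N := by
    intro v w hv hw
    have h1 : lev u z (v + w) = lev u z v + lev u z w
        + 2 * (D2 u z v w + D2 u z (I • v) (I • w)) := by
      simp only [lev333_eq, smul_add]
      have e1 := hs w v
      have e2 := hs (I • w) (I • v)
      simp only [D2, map_add, add_apply] at *
      linarith
    have h2 := abs_le.1 (hN2 (v + w) ((norm_add_le _ _).trans (by linarith)))
    have h3 := abs_le.1 (hN v hv)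
    have h4 := abs_le.1 (hN w hw)
    rw [abs_le]
    constructor <;> linarith [h2.1, h2.2, h3.1, h3.2, h4.1, h4.2]
  have e1 : ∀ c : Fin n, (I • (EuclideanSpace.single c (1 : ℂ)) : Cn n)
      = EuclideanSpace.single c I := fun c => by
    ext d; simp
  have e2 : ∀ c : Fin n, (I • (EuclideanSpace.single c I) : Cn n)
      = - EuclideanSpace.single c (1 : ℂ) := fun c => by
    ext d
    simp only [PiLp.smul_apply, PiLp.neg_apply, PiLp.single_apply, smul_eq_mul]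
    split_ifs <;> simp
  have p1 := pol (EuclideanSpace.single a 1) (EuclideanSpace.single b 1) (by simp) (by simp)
  have p2 := pol (EuclideanSpace.single a 1) (EuclideanSpace.single b I) (by simp) (by simp)
  rw [e1, e1] at p1
  rw [e1, e2] at p2
  have p3 : |D2 u z (EuclideanSpace.single a 1) (EuclideanSpace.single b I) -
      D2 u z (EuclideanSpace.single a I) (EuclideanSpace.single b 1)| ≤ 3 * N := by
    simpa only [D2, map_neg, ← sub_eq_add_neg] using p2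
  simp only [cH, Matrix.of_apply]
  rw [norm_mul]
  have q1 : ‖(1 / 4 : ℂ)‖ = 1 / 4 := by norm_num
  rw [q1]
  have q2 := norm_add_le
    ((D2 u z (EuclideanSpace.single a 1) (EuclideanSpace.single b 1)
        + D2 u z (EuclideanSpace.single a I) (EuclideanSpace.single b I) : ℝ) : ℂ)
    (I * ((D2 u z (EuclideanSpace.single a 1) (EuclideanSpace.single b I)
        - D2 u z (EuclideanSpace.single a I) (EuclideanSpace.single b 1) : ℝ) : ℂ))
  rw [norm_mul, Complex.norm_I, one_mul, Complex.norm_real, Complex.norm_real,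
    Real.norm_eq_abs, Real.norm_eq_abs] at q2
  have h2 := (abs_nonneg _).trans (hN (EuclideanSpace.single a 1) (by simp))
  linarith

/-- smooth functions on `(-K-2, ∞)` are bounded and Lipschitz on `[-K, K]` -/
theorem lipIcc {φ : ℝ → ℝ} (hφ : ContDiffOn ℝ ∞ φ (Ioi (-K - 2))) :
    ∃ C : ℝ, 0 ≤ C ∧ (∀ s ∈ Icc (-K) K, ‖φ s‖ ≤ C) ∧
      ∀ s ∈ Icc (-K) K, ∀ t ∈ Icc (-K) K, ‖φ s - φ t‖ ≤ C * ‖s - t‖ := by
  have hsub : Icc (-K) K ⊆ Ioi (-K - 2) := fun s hs => by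
    rw [mem_Ioi]; linarith [hs.1]
  have h1 : ContinuousOn (deriv φ) (Ioi (-K - 2)) :=
    hφ.continuousOn_deriv_of_isOpen isOpen_Ioi (by simp)
  obtain ⟨B0, hB0⟩ := isCompact_Icc.exists_bound_of_continuousOn (hφ.continuousOn.mono hsub)
  obtain ⟨B1, hB1⟩ := isCompact_Icc.exists_bound_of_continuousOn (h1.mono hsub)
  refine ⟨max 0 (max B0 B1), le_max_left _ _, fun s hs => (hB0 s hs).trans
    ((le_max_left _ _).trans (le_max_right _ _)), fun s hs t ht => ?_⟩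
  have h2 := (convex_Icc (-K) K).norm_image_sub_le_of_norm_deriv_le (f := φ) (C := B1)
    (fun x hx => (hφ.contDiffAt (isOpen_Ioi.mem_nhds (hsub hx))).differentiableAt (by simp))
    hB1 ht hs
  exact h2.trans (mul_le_mul_of_nonneg_right ((le_max_right _ _).trans (le_max_right _ _))
    (norm_nonneg _))

theorem UH.comp_real {X : Type*} [NormedAddCommGroup X] {B : Set X} (hB : IsOpen B)
    {φ : ℝ → ℝ} (hφ : ContDiffOn ℝ ∞ φ (Ioi (-K - 2))) {a : ℝ} {u : ι → X → ℝ}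
    (hu : UH a B u) (h : ∀ i, ∀ z ∈ B, |u i z| ≤ K) : UH a B (fun i z => φ (u i z)) := by
  obtain ⟨C, hC, h1, h2⟩ := lipIcc hφ
  refine hu.comp_lip fun x hx => ?_
  obtain ⟨r, hr, hrB⟩ := Metric.isOpen_iff.1 hB x hx
  exact ⟨r, hr, C, hC, fun i y hy => h1 _ (abs_le.1 (h i y (hrB hy))),
    fun i y hy z hz => h2 _ (abs_le.1 (h i y (hrB hy))) _ (abs_le.1 (h i z (hrB hz)))⟩

theorem UH.mulC {X : Type*} [NormedAddCommGroup X] {B : Set X} {a : ℝ} {F G : ι → X → ℂ}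
    (h : UH a B F) (h' : UH a B G) : UH a B (fun i x => F i x * G i x) :=
  UH.bil (ContinuousLinearMap.mul ℝ ℂ) h h'

theorem UH.ofReal {X : Type*} [NormedAddCommGroup X] {B : Set X} {a : ℝ} {F : ι → X → ℝ}
    (h : UH a B F) : UH a B (fun i x => (F i x : ℂ)) := UH.clm Complex.ofRealCLM h

theorem UH.conj {X : Type*} [NormedAddCommGroup X] {B : Set X} {a : ℝ} {F : ι → X → ℂ}
    (h : UH a B F) : UH a B (fun i x => conj (F i x)) :=
  UH.clm (Complex.conjCLE : ℂ →L[ℝ] ℂ) h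

theorem UH.neg {X V : Type*} [NormedAddCommGroup X] [NormedAddCommGroup V] [NormedSpace ℝ V]
    {B : Set X} {a : ℝ} {F : ι → X → V} (h : UH a B F) : UH a B (fun i x => - F i x) := by
  have := UH.clm (-ContinuousLinearMap.id ℝ V) h
  simpa using this

/-- composition with a linear map on the right -/
theorem UC.compR {X Y : Type} [NormedAddCommGroup X] [NormedSpace ℝ X] [NormedAddCommGroup Y]
    [NormedSpace ℝ Y] (L : Y →L[ℝ] X) {a : ℝ} (ha : 0 ≤ a) {U : Set X} (hU : IsOpen U) :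
    ∀ {k : ℕ} {V : Type} [NormedAddCommGroup V] [NormedSpace ℝ V] {F : ι → X → V},
      UC a U k F → UC a (L ⁻¹' U) k (fun i y => F i (L y)) := by
  have key : ∀ {V : Type} [NormedAddCommGroup V] [NormedSpace ℝ V] {F : ι → X → V},
      UH a U F → UH a (L ⁻¹' U) (fun i y => F i (L y)) := by
    intro V _ _ F h y hy
    obtain ⟨r, hr, C, hC, H⟩ := h (L y) hy
    obtain ⟨s, hs, hsr⟩ := Metric.mem_nhds_iff.1
      (L.continuous.continuousAt.preimage_mem_nhds (ball_mem_nhds (L y) hr))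
    have h1 : 1 ≤ max 1 (‖L‖ ^ a) := le_max_left _ _
    refine ⟨s, hs, C * max 1 (‖L‖ ^ a), by positivity, fun i => ⟨fun x hx => ?_,
      fun x hx w hw => ?_⟩⟩
    · exact ((H i).bdd _ (hsr hx)).trans (le_mul_of_one_le_right hC h1)
    · refine ((H i).hol _ (hsr hx) _ (hsr hw)).trans ?_
      rw [mul_assoc]
      refine mul_le_mul_of_nonneg_left ?_ hC
      calc ‖L x - L w‖ ^ a ≤ (‖L‖ * ‖x - w‖) ^ a := by
            rw [← map_sub]
            exact Real.rpow_le_rpow (norm_nonneg _) (L.le_opNorm _) ha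
        _ = ‖L‖ ^ a * ‖x - w‖ ^ a := Real.mul_rpow (norm_nonneg _) (norm_nonneg _)
        _ ≤ _ := mul_le_mul_of_nonneg_right (le_max_right _ _)
            (Real.rpow_nonneg (norm_nonneg _) _)
  have hsm : ∀ {V : Type} [NormedAddCommGroup V] [NormedSpace ℝ V] {F : ι → X → V},
      (∀ i, ContDiffOn ℝ ∞ (F i) U) → ∀ i, ContDiffOn ℝ ∞ (fun y => F i (L y)) (L ⁻¹' U) :=
    fun h i => (h i).comp L.contDiff.contDiffOn fun y hy => hy
  intro k
  induction k with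
  | zero => exact fun h => ⟨hsm h.1, key h.2⟩
  | succ k ih =>
    intro V _ _ F h
    refine ⟨hsm h.1, key h.2.1, ?_⟩
    refine UC.congr (hU.preimage L.continuous) (UC.clm (hU.preimage L.continuous)
      ((ContinuousLinearMap.compL ℝ Y X V).flip L) (ih h.2.2)) fun i y hy => ?_
    exact ((diffAt_of_smooth hU (h.1 i) hy).hasFDerivAt.comp y L.hasFDerivAt).fderiv

/-- one fixed smooth function -/
theorem UC.single {X : Type} [NormedAddCommGroup X] [NormedSpace ℝ X] {a : ℝ} (ha : a ≤ 1)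
    {U : Set X} (hU : IsOpen U) {k : ℕ} {V : Type} [NormedAddCommGroup V] [NormedSpace ℝ V]
    {f : X → V} (hf : ContDiffOn ℝ ∞ f U) : UC a U k (fun _ : ι => f) := by
  refine UC.of_ub hU ha (fun _ => hf) fun x hx => ?_
  have h1 : ∀ m : ℕ, ∀ᶠ y in 𝓝 x, ‖iteratedFDeriv ℝ m f y‖ < ‖iteratedFDeriv ℝ m f x‖ + 1 := by
    intro m
    have h2 : ContinuousAt (fun y => ‖iteratedFDeriv ℝ m f y‖) x :=
      (((hf.contDiffAt (hU.mem_nhds hx)).iteratedFDeriv_right (m := 0) (i := m)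
        (by rw [zero_add]; exact_mod_cast (le_top : (m : ℕ∞) ≤ ⊤))).continuousAt).norm
    exact h2.eventually (gt_mem_nhds (by linarith))
  have h3 : ∀ᶠ y in 𝓝 x, ∀ m ∈ Finset.range (k + 2),
      ‖iteratedFDeriv ℝ m f y‖ < ‖iteratedFDeriv ℝ m f x‖ + 1 :=
    (Filter.eventually_all_finset _).2 fun m _ => h1 m
  obtain ⟨r, hr, H⟩ := Metric.eventually_nhds_iff_ball.1 h3
  refine ⟨r, hr, ∑ m ∈ Finset.range (k + 2), (‖iteratedFDeriv ℝ m f x‖ + 1),
    fun _ y hy m hm => ?_⟩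
  have hm' : m ∈ Finset.range (k + 2) := Finset.mem_range.2 (by omega)
  refine (H y hy m hm').le.trans ?_
  exact Finset.single_le_sum (f := fun m => ‖iteratedFDeriv ℝ m f x‖ + 1)
    (fun m _ => by positivity) hm'

/-! ### the cone potential on a ball -/

theorem Phi_smooth (hP : Prof n K ψ ρ σ) {x : Cn n} {r : ℝ} (hr : r ≤ 1 / 2) {u : Cn n → ℝ}
    (hu : ContDiffOn ℝ ∞ u (ball x r)) (hK : ∀ z ∈ ball x r, |u z| ≤ K) :
    (∀ Z ∈ ball (inj n x) r, pr n Z ∈ ball x r) ∧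
    (∀ Z ∈ ball (inj n x) r, u (pr n Z) + ell n Z ∈ Icc (-(K + 1)) (K + 1)) ∧
    (∀ Z ∈ ball (inj n x) r, u (pr n Z) + ell n Z ∈ Ioi (-K - 2)) ∧
    ContDiffOn ℝ ∞ (Phi ψ u) (ball (inj n x) r) := by
  have h1 : ∀ Z ∈ ball (inj n x) r, pr n Z ∈ ball x r := by
    intro Z hZ
    rw [mem_ball, dist_eq_norm] at hZ ⊢
    have : pr n Z - x = pr n (Z - inj n x) := by rw [map_sub, pr_inj]
    rw [this]
    exact (norm_pr_le _).trans_lt hZ
  have h2 : ∀ Z ∈ ball (inj n x) r, |ell n Z| ≤ 1 := by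
    intro Z hZ
    rw [mem_ball, dist_eq_norm] at hZ
    have e : ell n Z = ell n (Z - inj n x) := by rw [map_sub, ell_inj, sub_zero]
    rw [e, ell_apply, abs_mul, abs_two]
    have h3 := (Complex.abs_re_le_norm ((Z - inj n x) (Fin.last n))).trans
      (norm_last_le (Z - inj n x))
    linarith
  have h3 : ∀ Z ∈ ball (inj n x) r, u (pr n Z) + ell n Z ∈ Icc (-(K + 1)) (K + 1) := by
    intro Z hZ
    have a1 := abs_le.1 (h2 Z hZ)
    have a2 := abs_le.1 (hK _ (h1 Z hZ))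
    constructor <;> linarith [a1.1, a1.2, a2.1, a2.2]
  have h4 : ∀ Z ∈ ball (inj n x) r, u (pr n Z) + ell n Z ∈ Ioi (-K - 2) := by
    intro Z hZ
    have := (h3 Z hZ).1
    rw [mem_Ioi]
    linarith
  refine ⟨h1, h3, h4, hP.cψ.comp (ContDiffOn.add ?_ (ell n).contDiff.contDiffOn) h4⟩
  exact hu.comp (pr n).contDiff.contDiffOn h1

/-- bounds of a positive smooth function on a compact interval -/
theorem pos_bounds {φ : ℝ → ℝ} (hφ : ContDiffOn ℝ ∞ φ (Ioi (-K - 2)))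
    (hp : ∀ s ∈ Ioi (-K - 2), 0 < φ s) :
    ∃ m M : ℝ, 0 < m ∧ ∀ s ∈ Icc (-(K + 1)) (K + 1), m ≤ φ s ∧ φ s ≤ M := by
  have hsub : Icc (-(K + 1)) (K + 1) ⊆ Ioi (-K - 2) := fun s hs => by
    rw [mem_Ioi]; linarith [hs.1]
  rcases (Icc (-(K + 1)) (K + 1)).eq_empty_or_nonempty with he | hne
  · exact ⟨1, 1, one_pos, fun s hs => by rw [he] at hs; exact hs.elim⟩
  obtain ⟨s1, hs1, h1⟩ := isCompact_Icc.exists_isMinOn hne (hφ.continuousOn.mono hsub)
  obtain ⟨s2, hs2, h2⟩ := isCompact_Icc.exists_isMaxOn hne (hφ.continuousOn.mono hsub)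
  exact ⟨φ s1, φ s2, hp _ (hsub hs1), fun s hs => ⟨h1 hs, h2 hs⟩⟩

/-- ellipticity of the cone potential -/
theorem lev_Phi_bounds (hP : Prof n K ψ ρ σ) {lo hi G : ℝ} (hlo : 0 < lo) :
    ∃ lo' hi' : ℝ, 0 < lo' ∧ ∀ (u : Cn n → ℝ) (Z : Cn (n + 1)), ContDiffAt ℝ 2 u (pr n Z) →
      u (pr n Z) + ell n Z ∈ Icc (-(K + 1)) (K + 1) →
      (∀ v, lo * ‖v‖ ^ 2 ≤ lev u (pr n Z) v ∧ lev u (pr n Z) v ≤ hi * ‖v‖ ^ 2) →
      ‖fderiv ℝ u (pr n Z)‖ ≤ G →
      ∀ V, lo' * ‖V‖ ^ 2 ≤ lev (Phi ψ u) Z V ∧ lev (Phi ψ u) Z V ≤ hi' * ‖V‖ ^ 2 := by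
  obtain ⟨m1, M1, hm1, H1⟩ := pos_bounds hP.cρ hP.pρ
  obtain ⟨m2, M2, hm2, H2⟩ := pos_bounds hP.cσ hP.pσ
  -- the parameter
  obtain ⟨l, hl0, hl1, hl2⟩ : ∃ l : ℝ, 0 < l ∧ l ≤ m2 ∧ 2 * l * G ^ 2 ≤ m1 * lo / 2 := by
    refine ⟨min m2 (m1 * lo / 2 / (2 * G ^ 2 + 1)), lt_min hm2 (by positivity),
      min_le_left _ _, ?_⟩
    have h1 : min m2 (m1 * lo / 2 / (2 * G ^ 2 + 1)) * (2 * G ^ 2 + 1) ≤ m1 * lo / 2 := by
      rw [← le_div_iff₀ (by positivity)]
      exact min_le_right _ _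
    have h2 : 0 < min m2 (m1 * lo / 2 / (2 * G ^ 2 + 1)) := lt_min hm2 (by positivity)
    nlinarith
  refine ⟨min (2 * l) (m1 * lo / 2), (|M2| * (4 * G ^ 2 + 16) + |M1| * |hi|),
    lt_min (by positivity) (by positivity), fun u Z hu hs hlev hgr V => ?_⟩
  have hs' : -K - 2 < u (pr n Z) + ell n Z := by linarith [hs.1]
  rw [lev_Phi hP hu hs' V]
  obtain ⟨a1, a2⟩ := H1 _ hs
  obtain ⟨b1, b2⟩ := H2 _ hs
  obtain ⟨c1, c2⟩ := hlev (pr n V)
  set R := ρ (u (pr n Z) + ell n Z)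
  set T := σ (u (pr n Z) + ell n Z)
  set v := pr n V
  set t := V (Fin.last n)
  have e1 : ell n V = 2 * t.re := ell_apply V
  have e2 : ell n (I • V) = -(2 * t.im) := by
    rw [ell_apply]
    simp [t]
  have g1 : |fderiv ℝ u (pr n Z) v| ≤ G * ‖v‖ :=
    ((fderiv ℝ u (pr n Z)).le_opNorm v).trans (mul_le_mul_of_nonneg_right hgr (norm_nonneg _))
  have g2 : |fderiv ℝ u (pr n Z) (I • v)| ≤ G * ‖v‖ := by
    refine ((fderiv ℝ u (pr n Z)).le_opNorm (I • v)).trans ?_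
    rw [norm_smul, Complex.norm_I, one_mul]
    exact mul_le_mul_of_nonneg_right hgr (norm_nonneg _)
  set A := fderiv ℝ u (pr n Z) v
  set B := fderiv ℝ u (pr n Z) (I • v)
  have hV : ‖V‖ ^ 2 = ‖v‖ ^ 2 + ‖t‖ ^ 2 := norm_sq_split V
  have ht : ‖t‖ ^ 2 = t.re ^ 2 + t.im ^ 2 := by
    rw [Complex.sq_norm, Complex.normSq_apply]; ring
  have hA : A ^ 2 ≤ G ^ 2 * ‖v‖ ^ 2 := by
    rw [← sq_abs, ← mul_pow]
    exact pow_le_pow_left₀ (abs_nonneg _) g1 2
  have hB : B ^ 2 ≤ G ^ 2 * ‖v‖ ^ 2 := by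
    rw [← sq_abs, ← mul_pow]
    exact pow_le_pow_left₀ (abs_nonneg _) g2 2
  rw [e1, e2]
  have hv0 : 0 ≤ ‖v‖ ^ 2 := sq_nonneg _
  have ht0 : 0 ≤ ‖t‖ ^ 2 := sq_nonneg _
  have q1 : 2 * ‖t‖ ^ 2 - 2 * (G ^ 2 * ‖v‖ ^ 2) ≤
      (A + 2 * t.re) ^ 2 + (B + -(2 * t.im)) ^ 2 := by
    nlinarith [sq_nonneg (2 * A + 2 * t.re), sq_nonneg (2 * B - 2 * t.im)]
  have q2 : (A + 2 * t.re) ^ 2 + (B + -(2 * t.im)) ^ 2 ≤
      4 * (G ^ 2 * ‖v‖ ^ 2) + 8 * ‖t‖ ^ 2 := by
    nlinarith [sq_nonneg (A - 2 * t.re), sq_nonneg (B + 2 * t.im)]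
  have q0 : 0 ≤ (A + 2 * t.re) ^ 2 + (B + -(2 * t.im)) ^ 2 := by positivity
  constructor
  · have r1 : l * ((A + 2 * t.re) ^ 2 + (B + -(2 * t.im)) ^ 2) ≤
        T * ((A + 2 * t.re) ^ 2 + (B + -(2 * t.im)) ^ 2) :=
      mul_le_mul_of_nonneg_right (hl1.trans b1) q0
    have r2 : l * (2 * ‖t‖ ^ 2 - 2 * (G ^ 2 * ‖v‖ ^ 2)) ≤
        l * ((A + 2 * t.re) ^ 2 + (B + -(2 * t.im)) ^ 2) := mul_le_mul_of_nonneg_left q1 hl0.le
    have r3 : m1 * (lo * ‖v‖ ^ 2) ≤ R * lev u (pr n Z) v := by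
      refine (mul_le_mul_of_nonneg_left c1 hm1.le).trans ?_
      exact mul_le_mul_of_nonneg_right a1 ((by positivity : 0 ≤ lo * ‖v‖ ^ 2).trans c1)
    have r4 : min (2 * l) (m1 * lo / 2) * ‖v‖ ^ 2 ≤ m1 * lo / 2 * ‖v‖ ^ 2 :=
      mul_le_mul_of_nonneg_right (min_le_right _ _) hv0
    have r5 : min (2 * l) (m1 * lo / 2) * ‖t‖ ^ 2 ≤ 2 * l * ‖t‖ ^ 2 :=
      mul_le_mul_of_nonneg_right (min_le_left _ _) ht0
    have r6 : 2 * l * G ^ 2 * ‖v‖ ^ 2 ≤ m1 * lo / 2 * ‖v‖ ^ 2 :=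
      mul_le_mul_of_nonneg_right hl2 hv0
    rw [hV]
    nlinarith
  · have hT : T ≤ |M2| := b2.trans (le_abs_self _)
    have hR : R ≤ |M1| := a2.trans (le_abs_self _)
    have r1 : T * ((A + 2 * t.re) ^ 2 + (B + -(2 * t.im)) ^ 2) ≤
        |M2| * (4 * (G ^ 2 * ‖v‖ ^ 2) + 8 * ‖t‖ ^ 2) :=
      (mul_le_mul_of_nonneg_right hT q0).trans (mul_le_mul_of_nonneg_left q2 (abs_nonneg _))
    have hlv0 : 0 ≤ lev u (pr n Z) v := (by positivity : 0 ≤ lo * ‖v‖ ^ 2).trans c1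
    have hlv1 : lev u (pr n Z) v ≤ |hi| * ‖v‖ ^ 2 :=
      c2.trans (mul_le_mul_of_nonneg_right (le_abs_self _) hv0)
    have r2 : R * lev u (pr n Z) v ≤ |M1| * (|hi| * ‖v‖ ^ 2) :=
      (mul_le_mul_of_nonneg_right hR hlv0).trans (mul_le_mul_of_nonneg_left hlv1 (abs_nonneg _))
    have r3 : |M2| * (4 * (G ^ 2 * ‖v‖ ^ 2) + 8 * ‖t‖ ^ 2) ≤
        |M2| * ((4 * G ^ 2 + 16) * (‖v‖ ^ 2 + ‖t‖ ^ 2)) := by
      refine mul_le_mul_of_nonneg_left ?_ (abs_nonneg _)
      have : 0 ≤ G ^ 2 * ‖t‖ ^ 2 := by positivity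
      nlinarith
    have r4 : |M1| * (|hi| * ‖v‖ ^ 2) ≤ |M1| * |hi| * (‖v‖ ^ 2 + ‖t‖ ^ 2) := by
      rw [mul_assoc]
      refine mul_le_mul_of_nonneg_left ?_ (abs_nonneg _)
      exact mul_le_mul_of_nonneg_left (by linarith) (abs_nonneg _)
    rw [hV]
    nlinarith

end

end Crest.Agent.R257.ELoc_611
end

-- ▼ part R257/ELocF_611
section

/-!
# R257 (S0395), E-LOC (helper611), part F: Hölder bounds of `∂∂̄u` from `C3Stmt`

`hess_uh` : for families of solutions of `det ∂∂̄u = e^{u+h}` with locally uniform bounds of `u`,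
of the ellipticity constants and of the derivatives of `h`, the entries of `∂∂̄u` are locally
uniformly Hölder.
-/

set_option autoImplicit false

open Set Metric Filter
open scoped ContDiff Topology Matrix ComplexConjugate

namespace Crest.Agent.R257.ELoc_611

open Crest.Agent.R275.Geo (Cn)
open Crest.Agent.R273.SchA_152
open Crest.Agent.R273.Defs_333 (lev)
open Crest.Agent.R273.YauDefs_635 (cH D2 lev333_eq C3Stmt)
open Crest.Agent.R273.YauLoc_635 (contDiffOn_cH)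
open Complex (I)

noncomputable section

variable {ι : Type*} {n : ℕ}

/-- finitely many positive radii have a positive lower bound -/
theorem exists_small (l : List ℝ) (hl : ∀ t ∈ l, 0 < t) : ∃ r > 0, ∀ t ∈ l, r ≤ t := by
  induction l with
  | nil => exact ⟨1, one_pos, fun t ht => by simp at ht⟩
  | cons a l ih =>
    obtain ⟨r, hr, H⟩ := ih fun t ht => hl t (List.mem_cons_of_mem _ ht)
    refine ⟨min a r, lt_min (hl a List.mem_cons_self) hr, fun t ht => ?_⟩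
    rcases List.mem_cons.1 ht with rfl | h
    · exact min_le_left _ _
    · exact (min_le_right _ _).trans (H t h)

/-- the right hand side of the equation of the cone potential -/
theorem rhs_uc {U : Set (Cn n)} (hU : IsOpen U) {h : ι → Cn n → ℝ} {k : ℕ}
    (hh : UC (1 / 2) U k h) :
    UC (1 / 2) (pr n ⁻¹' U) k
      (fun i Z => h i (pr n Z) + (-ell n Z + -Real.log (n + 1))) := by
  have hW : IsOpen (pr n ⁻¹' U) := hU.preimage (pr n).continuous
  refine UC.add hW (UC.compR (pr n) (by norm_num) hU hh) (UC.single (by norm_num) hW ?_)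
  exact (ell n).contDiff.contDiffOn.neg.add contDiffOn_const

/-- **Hölder bounds of the complex Hessian** -/
theorem hess_uh (h3 : C3Stmt) {U : Set (Cn n)} (hU : IsOpen U) {u h : ι → Cn n → ℝ}
    (hu : ∀ i, ContDiffOn ℝ ∞ (u i) U) (hh : UC (1 / 2) U 3 h)
    (h0 : ∀ x ∈ U, ∃ r > 0, ∃ S : ℝ, ∀ i, ∀ z ∈ ball x r, |u i z| ≤ S)
    (hell : ∀ x ∈ U, ∃ r > 0, ∃ lo > 0, ∃ hi : ℝ, ∀ i, ∀ z ∈ ball x r, ∀ v,
      lo * ‖v‖ ^ 2 ≤ lev (u i) z v ∧ lev (u i) z v ≤ hi * ‖v‖ ^ 2)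
    (heq : ∀ i, ∀ z ∈ U, (cH (u i) z).det = (Real.exp (u i z + h i z) : ℂ)) (a b : Fin n) :
    UH (1 / 2) U (fun i z => cH (u i) z a b) := by
  intro x hx
  obtain ⟨r1, hr1, S, H1⟩ := h0 x hx
  obtain ⟨r2, hr2, lo, hlo, hi, H2⟩ := hell x hx
  obtain ⟨r3, hr3, G, hG, H3⟩ := grad_fam hU hu h0 (by
    intro y hy
    obtain ⟨r, hr, lo, hlo, hi, H⟩ := hell y hy
    refine ⟨r, hr, hi, fun i z hz v => ?_⟩
    obtain ⟨k1, k2⟩ := H i z hz v
    rw [abs_of_nonneg ((by positivity : 0 ≤ lo * ‖v‖ ^ 2).trans k1)]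
    exact k2) x hx
  obtain ⟨r4, hr4, H4⟩ := Metric.isOpen_iff.1 hU x hx
  obtain ⟨r5, hr5, Cf, H5⟩ := (rhs_uc hU hh).ub (inj n x) (by
    rw [mem_preimage, pr_inj]; exact hx)
  obtain ⟨r, hr, Hr⟩ := exists_small [r1, r2, r3, r4, r5, 1 / 2] (by
    intro t ht
    simp only [List.mem_cons, List.not_mem_nil, or_false] at ht
    rcases ht with rfl | rfl | rfl | rfl | rfl | rfl
    · exact hr1
    · exact hr2
    · exact hr3
    · exact hr4
    · exact hr5
    · norm_num)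
  have l1 : r ≤ r1 := Hr _ (by simp)
  have l2 : r ≤ r2 := Hr _ (by simp)
  have l3 : r ≤ r3 := Hr _ (by simp)
  have l4 : r ≤ r4 := Hr _ (by simp)
  have l5 : r ≤ r5 := Hr _ (by simp)
  have l6 : r ≤ 1 / 2 := Hr _ (by simp)
  have hU4 : ball x r ⊆ U := (ball_subset_ball l4).trans H4
  obtain ⟨K, hK⟩ : ∃ K : ℝ, K = |S| := ⟨_, rfl⟩
  have hK0 : 0 ≤ K := by rw [hK]; exact abs_nonneg _
  have hKu : ∀ i, ∀ z ∈ ball x r, |u i z| ≤ K := fun i z hz => by
    rw [hK]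
    exact (H1 i z (ball_subset_ball l1 hz)).trans (le_abs_self _)
  obtain ⟨ψ, ρ, σ, hP⟩ := exists_prof n K
  obtain ⟨lo', hi', hlo', HL⟩ := lev_Phi_bounds hP (hi := hi) (G := G) hlo
  obtain ⟨C, HC⟩ := h3 (n + 1) r lo' hi' Cf hr hlo'
  have hsm := fun i => Phi_smooth hP (x := x) l6 ((hu i).mono hU4) (hKu i)
  have hlevΦ : ∀ i, ∀ Z ∈ ball (inj n x) r, ∀ V,
      lo' * ‖V‖ ^ 2 ≤ lev (Phi ψ (u i)) Z V ∧ lev (Phi ψ (u i)) Z V ≤ hi' * ‖V‖ ^ 2 := by
    intro i Z hZ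
    obtain ⟨k1, k2, k3, k4⟩ := hsm i
    have hz := k1 Z hZ
    exact HL (u i) Z (((hu i).contDiffAt (hU.mem_nhds (hU4 hz))).of_le two_le_infty) (k2 Z hZ)
      (H2 i _ (ball_subset_ball l2 hz)) (H3 i _ (ball_subset_ball l3 hz))
  have key : ∀ i, ∀ Z ∈ ball (inj n x) (r / 2), ∀ a b,
      ‖fderiv ℝ (fun w => cH (Phi ψ (u i)) w a b) Z‖ ≤ C := by
    intro i
    obtain ⟨k1, k2, k3, k4⟩ := hsm i
    refine HC (inj n x) (Phi ψ (u i)) (fun Z => h i (pr n Z) + (-ell n Z + -Real.log (n + 1)))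
      k4 (((rhs_uc hU hh).smooth i).mono fun Z hZ => hU4 (k1 Z hZ)) (hlevΦ i) ?_
      fun Z hZ k _ hk => H5 i Z (ball_subset_ball l5 hZ) k hk
    intro Z hZ
    have hz := hU4 (k1 Z hZ)
    rw [det_Phi hP (((hu i).contDiffAt (hU.mem_nhds hz)).of_le two_le_infty) (k3 Z hZ),
      heq i _ hz, ← Complex.ofReal_mul]
    congr 1
    have hn : (0 : ℝ) < n + 1 := by positivity
    rw [show h i (pr n Z) + (-ell n Z + -Real.log (n + 1)) =
      (-(u i (pr n Z) + ell n Z) + (u i (pr n Z) + h i (pr n Z))) - Real.log (n + 1) by ring,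
      Real.exp_sub, Real.exp_log hn, div_mul_eq_mul_div, ← Real.exp_add]
  have hBr : ball x (r / 2) ⊆ ball x r := ball_subset_ball (by linarith)
  have hinj : ∀ {s : ℝ} {z : Cn n}, z ∈ ball x s → inj n z ∈ ball (inj n x) s := by
    intro s z hz
    rw [mem_ball, dist_eq_norm] at hz ⊢
    rwa [← map_sub, norm_inj]
  have hu2 : ∀ i, ∀ z ∈ ball x r, ContDiffAt ℝ 2 (u i) (pr n (inj n z)) := fun i z hz => by
    rw [pr_inj]
    exact ((hu i).contDiffAt (hU.mem_nhds (hU4 hz))).of_le two_le_infty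
  have hs2 : ∀ i, ∀ z ∈ ball x r, -K - 2 < u i (pr n (inj n z)) + ell n (inj n z) :=
    fun i z hz => (hsm i).2.2.1 _ (hinj hz)
  -- the entries of the Hessian of the cone potential
  have hg : ∀ a b, UH (1 / 2) (ball x (r / 2))
      (fun i z => cH (Phi ψ (u i)) (inj n z) a b) := by
    intro a b
    have hd : ∀ i, ∀ z ∈ ball x (r / 2), HasFDerivAt (fun z => cH (Phi ψ (u i)) (inj n z) a b)
        ((fderiv ℝ (fun w => cH (Phi ψ (u i)) w a b) (inj n z)).comp (injR n)) z := by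
      intro i z hz
      have h1 : DifferentiableAt ℝ (fun w => cH (Phi ψ (u i)) w a b) (inj n z) :=
        diffAt_of_smooth isOpen_ball (contDiffOn_cH isOpen_ball (hsm i).2.2.2 a b)
          (hinj (hBr hz))
      exact h1.hasFDerivAt.comp z (injR n).hasFDerivAt
    refine UH.of_c1 (by norm_num) isOpen_ball (fun i z hz => (hd i z hz).differentiableAt)
      fun y hy => ?_
    obtain ⟨s, hs, hsB⟩ := Metric.isOpen_iff.1 isOpen_ball y hy
    refine ⟨s, hs, max (2 * hi') (C * ‖injR n‖), fun i z hz => ⟨?_, ?_⟩⟩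
    · refine le_trans ?_ (le_max_left _ _)
      have hZ : inj n z ∈ ball (inj n x) r := hinj (hBr (hsB hz))
      refine cH_bound (((hsm i).2.2.2.contDiffAt (isOpen_ball.mem_nhds hZ)).of_le two_le_infty)
        (fun V => ?_) a b
      obtain ⟨k1, k2⟩ := hlevΦ i _ hZ V
      rw [abs_of_nonneg ((by positivity : 0 ≤ lo' * ‖V‖ ^ 2).trans k1)]
      exact k2
    · refine le_trans ?_ (le_max_right _ _)
      rw [(hd i z (hsB hz)).fderiv]
      refine (ContinuousLinearMap.opNorm_comp_le _ _).trans ?_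
      exact mul_le_mul_of_nonneg_right (key i _ (hinj (hsB hz)) a b) (norm_nonneg _)
  have huB : UH (1 / 2) (ball x (r / 2)) u := by
    refine UH.of_c1 (by norm_num) isOpen_ball (fun i z hz => diffAt_of_smooth hU (hu i)
      (hU4 (hBr hz))) fun y hy => ?_
    obtain ⟨s, hs, hsB⟩ := Metric.isOpen_iff.1 isOpen_ball y hy
    refine ⟨s, hs, max K G, fun i z hz => ⟨?_, ?_⟩⟩
    · exact (hKu i z (hBr (hsB hz))).trans (le_max_left _ _)
    · exact (H3 i z (ball_subset_ball l3 (hBr (hsB hz)))).trans (le_max_right _ _)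
  have hKB : ∀ i, ∀ z ∈ ball x (r / 2), |u i z| ≤ K := fun i z hz => hKu i z (hBr hz)
  have uσ : UH (1 / 2) (ball x (r / 2)) (fun i z => ((σ (u i z) : ℝ) : ℂ)) :=
    (UH.comp_real isOpen_ball hP.cσ huB hKB).ofReal
  have uσi : UH (1 / 2) (ball x (r / 2)) (fun i z => (((σ (u i z))⁻¹ : ℝ) : ℂ)) :=
    (UH.comp_real (φ := fun s => (σ s)⁻¹) isOpen_ball
      (hP.cσ.inv fun s hs => (hP.pσ s hs).ne') huB hKB).ofReal
  have uρi : UH (1 / 2) (ball x (r / 2)) (fun i z => (((ρ (u i z))⁻¹ : ℝ) : ℂ)) :=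
    (UH.comp_real (φ := fun s => (ρ s)⁻¹) isOpen_ball
      (hP.cρ.inv fun s hs => (hP.pρ s hs).ne') huB hKB).ofReal
  have hpos : ∀ i, ∀ z ∈ ball x (r / 2), u i z ∈ Ioi (-K - 2) := fun i z hz => by
    rw [mem_Ioi]
    linarith [(abs_le.1 (hKB i z hz)).1]
  have uwd : ∀ a, UH (1 / 2) (ball x (r / 2)) (fun i z => wd (u i) z a) := by
    intro a
    refine (UH.mulC uσi (hg a.castSucc (Fin.last n))).congr isOpen_ball fun i z hz => ?_
    rw [cH_Phi_cl hP (hu2 i z (hBr hz)) (hs2 i z (hBr hz)), pr_inj, ell_inj, add_zero,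
      ← mul_assoc, ← Complex.ofReal_mul, inv_mul_cancel₀ (hP.pσ _ (hpos i z hz)).ne']
    simp
  have ufin : UH (1 / 2) (ball x (r / 2)) (fun i z => cH (u i) z a b) := by
    refine (UH.mulC uρi (UH.add (hg a.castSucc b.castSucc)
      (UH.neg (UH.mulC uσ (UH.mulC (uwd a) (UH.conj (uwd b))))))).congr isOpen_ball
      fun i z hz => ?_
    rw [cH_Phi_cc hP (hu2 i z (hBr hz)) (hs2 i z (hBr hz)), pr_inj, ell_inj, add_zero,
      add_neg_cancel_right, ← mul_assoc, ← Complex.ofReal_mul,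
      inv_mul_cancel₀ (hP.pρ _ (hpos i z hz)).ne']
    simp
  exact ufin x (mem_ball_self (by linarith))

end

end Crest.Agent.R257.ELoc_611
end

-- ▼ part R257/ELocG_611
section

/-!
# R257 (S0395), E-LOC (helper611), part G: bootstrapping

`eloc` : locally uniform `C^k` bounds for families of solutions of `det ∂∂̄u = e^{u+h}`.
-/

set_option autoImplicit false

open Set Metric Filter
open scoped ContDiff Topology Matrix ComplexConjugate

namespace Crest.Agent.R257.ELoc_611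

open Crest.Agent.R275.Geo (Cn)

open Crest.Agent.R273.SchA_152 Crest.Agent.R273.SchE_152
open Crest.Agent.R273.Defs_333 (lev)
open Crest.Agent.R273.YauDefs_635 (cH D2 lev333_eq C3Stmt cH_eq_hs lev333_eq_lev145)
open Crest.Agent.R273.YauLoc_635 (contDiffOn_cH)
open Complex (I)

noncomputable section

variable {ι : Type*} {n : ℕ}

/-! ### ellipticity of the adjugate -/

theorem re_star_dot (a b : Fin n → ℂ) : (star a ⬝ᵥ b).re = (star b ⬝ᵥ a).re := by
  simp only [dotProduct, Complex.re_sum, Pi.star_apply, Complex.star_def]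
  refine Finset.sum_congr rfl fun i _ => ?_
  rw [← Complex.conj_re]
  simp [mul_comm]

theorem star_dot_self (a : Fin n → ℂ) : (star a ⬝ᵥ a).re = ∑ i, ‖a i‖ ^ 2 := by
  simp only [dotProduct, Complex.re_sum, Pi.star_apply, Complex.star_def]
  refine Finset.sum_congr rfl fun i _ => ?_
  rw [mul_comm, Complex.mul_conj, Complex.normSq_eq_norm_sq, Complex.ofReal_re]

theorem ellC_adj {c1 c2 D : ℝ} {H : Matrix (Fin n) (Fin n) ℂ} (h1 : 0 < c1) (h2 : 0 < c2)
    (hD : 0 < D) (hH : EllC c1 c2 H) (hdet : H.det = (D : ℂ)) :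
    EllC (D / c2) (D / c1) H.adjugate := by
  refine ⟨hH.1.adjugate, fun ζ => ?_⟩
  set η : Fin n → ℂ := H.adjugate *ᵥ ζ with hη
  have e1 : H *ᵥ η = (D : ℂ) • ζ := by
    rw [hη, Matrix.mulVec_mulVec, Matrix.mul_adjugate, hdet, Matrix.smul_mulVec,
      Matrix.one_mulVec]
  set s : ℝ := (star ζ ⬝ᵥ η).re with hs
  set Z : ℝ := ∑ a, ‖ζ a‖ ^ 2 with hZ
  have hZ0 : 0 ≤ Z := Finset.sum_nonneg fun _ _ => sq_nonneg _
  have e2 : (star η ⬝ᵥ (H *ᵥ η)).re = D * s := by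
    rw [e1, dotProduct_smul, smul_eq_mul, Complex.re_ofReal_mul, re_star_dot]
  -- the form at `η - t D ζ`
  have e3 : ∀ t : ℝ, (star (η - (t : ℂ) • ζ) ⬝ᵥ (H *ᵥ (η - (t : ℂ) • ζ))).re =
      D * s - 2 * t * (D * Z) + t ^ 2 * (star ζ ⬝ᵥ (H *ᵥ ζ)).re := by
    intro t
    have a1 : (star η ⬝ᵥ (H *ᵥ ζ)) = (D : ℂ) * (star ζ ⬝ᵥ ζ) := by
      have : star η ⬝ᵥ (H *ᵥ ζ) = star (H *ᵥ η) ⬝ᵥ ζ := by
        rw [show star (H *ᵥ η) = star η ᵥ* Hᴴ from Matrix.star_mulVec H η, hH.1.eq,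
          Matrix.dotProduct_mulVec]
      rw [this, e1, star_smul, smul_dotProduct, smul_eq_mul, Complex.star_def,
        Complex.conj_ofReal]
    have a2 : (star ζ ⬝ᵥ (H *ᵥ η)) = (D : ℂ) * (star ζ ⬝ᵥ ζ) := by
      rw [e1, dotProduct_smul, smul_eq_mul]
    have a3 : star (η - (t : ℂ) • ζ) ⬝ᵥ (H *ᵥ (η - (t : ℂ) • ζ)) =
        star η ⬝ᵥ (H *ᵥ η) - 2 * (t : ℂ) * ((D : ℂ) * (star ζ ⬝ᵥ ζ)) +
          (t : ℂ) ^ 2 * (star ζ ⬝ᵥ (H *ᵥ ζ)) := by
      rw [Matrix.mulVec_sub, Matrix.mulVec_smul, star_sub, star_smul, sub_dotProduct,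
        dotProduct_sub, dotProduct_sub, smul_dotProduct, smul_dotProduct, dotProduct_smul,
        dotProduct_smul, a1, a2, Complex.star_def, Complex.conj_ofReal]
      simp only [smul_eq_mul]
      ring
    have a4 : (star ζ ⬝ᵥ ζ).re = Z := star_dot_self ζ
    rw [a3, Complex.add_re, Complex.sub_re, e2]
    have b1 : (2 * (t : ℂ) * ((D : ℂ) * (star ζ ⬝ᵥ ζ))).re = 2 * t * (D * Z) := by
      rw [← a4, show (2 * (t : ℂ) * ((D : ℂ) * (star ζ ⬝ᵥ ζ))) =
        ((2 * t * D : ℝ) : ℂ) * (star ζ ⬝ᵥ ζ) by push_cast; ring, Complex.re_ofReal_mul]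
      ring
    have b2 : ((t : ℂ) ^ 2 * (star ζ ⬝ᵥ (H *ᵥ ζ))).re = t ^ 2 * (star ζ ⬝ᵥ (H *ᵥ ζ)).re := by
      rw [show ((t : ℂ) ^ 2 * (star ζ ⬝ᵥ (H *ᵥ ζ))) = ((t ^ 2 : ℝ) : ℂ) * (star ζ ⬝ᵥ (H *ᵥ ζ)) by
        push_cast; ring, Complex.re_ofReal_mul]
    rw [b1, b2]
  have hnn : ∀ x : Fin n → ℂ, 0 ≤ (star x ⬝ᵥ (H *ᵥ x)).re := fun x =>
    (mul_nonneg h1.le (Finset.sum_nonneg fun _ _ => sq_nonneg _)).trans (hH.2 x).1
  have hup := (hH.2 ζ).2
  have hlow := (hH.2 ζ).1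
  have hηl := (hH.2 η).1
  rw [e2] at hηl
  constructor
  · -- lower bound: `t = D / c2`
    have h3 := hnn (η - ((D / c2 : ℝ) : ℂ) • ζ)
    rw [e3] at h3
    have h4 : (D / c2) ^ 2 * (star ζ ⬝ᵥ (H *ᵥ ζ)).re ≤ (D / c2) ^ 2 * (c2 * Z) :=
      mul_le_mul_of_nonneg_left hup (sq_nonneg _)
    have h5 : (D / c2) ^ 2 * (c2 * Z) = D / c2 * (D * Z) := by field_simp
    have h6 : D * (D / c2 * Z) = D / c2 * (D * Z) := by ring
    have h7 : D * (D / c2 * Z) ≤ D * s := by linarith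
    exact le_of_mul_le_mul_left h7 hD
  · -- upper bound by Cauchy-Schwarz in the standard form
    have hs0 : 0 ≤ s := by
      have := hnn η
      rw [e2] at this
      exact nonneg_of_mul_nonneg_right this hD
    have hη0 : 0 ≤ ∑ a, ‖η a‖ ^ 2 := Finset.sum_nonneg fun _ _ => sq_nonneg _
    have h3 : ∀ t : ℝ, 0 ≤ ∑ a, ‖η a‖ ^ 2 - 2 * t * s + t ^ 2 * Z := by
      intro t
      have h4 : (star (η - (t : ℂ) • ζ) ⬝ᵥ (η - (t : ℂ) • ζ)).re =
          ∑ a, ‖η a‖ ^ 2 - 2 * t * s + t ^ 2 * Z := by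
        have a3 : star (η - (t : ℂ) • ζ) ⬝ᵥ (η - (t : ℂ) • ζ) =
            star η ⬝ᵥ η - (t : ℂ) * (star ζ ⬝ᵥ η) - (t : ℂ) * (star η ⬝ᵥ ζ) +
              ((t ^ 2 : ℝ) : ℂ) * (star ζ ⬝ᵥ ζ) := by
          rw [star_sub, star_smul, sub_dotProduct,
            dotProduct_sub, dotProduct_sub, smul_dotProduct, smul_dotProduct, dotProduct_smul,
            dotProduct_smul, Complex.star_def, Complex.conj_ofReal]
          simp only [smul_eq_mul]
          push_cast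
          ring
        rw [a3, Complex.add_re, Complex.sub_re, Complex.sub_re, Complex.re_ofReal_mul,
          Complex.re_ofReal_mul, Complex.re_ofReal_mul, re_star_dot η ζ, star_dot_self,
          star_dot_self, ← hs, ← hZ]
        ring
      rw [← h4, star_dot_self]
      exact Finset.sum_nonneg fun _ _ => sq_nonneg _
    have h4 := h3 (D / c1)
    have h5 : c1 * ∑ a, ‖η a‖ ^ 2 ≤ D * s := hηl
    have h6 : c1 * (2 * (D / c1) * s) = 2 * (D * s) := by field_simp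
    have h7 : c1 * ((D / c1) ^ 2 * Z) = D * (D / c1 * Z) := by field_simp
    have h8 : 0 ≤ c1 * (∑ a, ‖η a‖ ^ 2 - 2 * (D / c1) * s + (D / c1) ^ 2 * Z) :=
      mul_nonneg h1.le h4
    have h9 : D * s ≤ D * (D / c1 * Z) := by
      have : c1 * (∑ a, ‖η a‖ ^ 2 - 2 * (D / c1) * s + (D / c1) ^ 2 * Z) =
        c1 * ∑ a, ‖η a‖ ^ 2 - c1 * (2 * (D / c1) * s) + c1 * ((D / c1) ^ 2 * Z) := by ring
      rw [this, h6, h7] at h8
      linarith
    exact le_of_mul_le_mul_left h9 hD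

/-- the complex Hessian in terms of `lev` -/
theorem ellC_cH {u : Cn n → ℝ} {z : Cn n} {lo hi : ℝ} (hu : ContDiffAt ℝ 2 u z)
    (h : ∀ v, lo * ‖v‖ ^ 2 ≤ lev u z v ∧ lev u z v ≤ hi * ‖v‖ ^ 2) :
    EllC (lo / 4) (hi / 4) (cH u z) := by
  refine ⟨?_, fun x => ?_⟩
  · ext a b
    rw [Matrix.conjTranspose_apply, cH_eq_hs hu, cH_eq_hs hu]
    exact Crest.Agent.R273.Levi_145.hs_herm hu b a
  set v : Cn n := WithLp.toLp 2 (fun a => conj (x a)) with hv
  have h1 := h v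
  rw [lev333_eq_lev145] at h1
  have h2 := Crest.Agent.R273.Levi_145.lev_eq hu v
  have h3 : star x ⬝ᵥ (cH u z) *ᵥ x
      = ∑ a, ∑ b, Crest.Agent.R273.Levi_145.hs (Crest.Agent.R273.Levi_145.cx u) z a b
        * v a * conj (v b) := by
    simp only [dotProduct, Matrix.mulVec, Pi.star_apply, RCLike.star_def, Finset.mul_sum, hv,
      Complex.conj_conj, cH_eq_hs hu]
    refine Finset.sum_congr rfl fun a _ => Finset.sum_congr rfl fun b _ => ?_
    ring
  have h4 : ‖v‖ ^ 2 = ∑ a, ‖x a‖ ^ 2 := by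
    rw [EuclideanSpace.norm_sq_eq]
    simp [hv]
  rw [h3, ← h2, Complex.ofReal_re, ← h4]
  constructor <;> linarith [h1.1, h1.2]

/-! ### Jacobi's formula -/

theorem sum_adj_col (A : Matrix (Fin n) (Fin n) ℂ) (i : Fin n) (b : Fin n → ℂ) :
    (A.updateCol i b).det = ∑ j, A.adjugate i j * b j := by
  rw [← Matrix.cramer_apply, Matrix.cramer_eq_adjugate_mulVec]
  rfl

theorem hasFDerivAt_det {V : Type*} [NormedAddCommGroup V] [NormedSpace ℝ V]
    {A : V → Matrix (Fin n) (Fin n) ℂ} {A' : Fin n → Fin n → V →L[ℝ] ℂ} {x : V}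
    (hA : ∀ i j, HasFDerivAt (fun y => A y i j) (A' i j) x) :
    HasFDerivAt (fun y => (A y).det) (∑ i, ∑ j, (A x).adjugate i j • A' j i) x := by
  have h1 : ∀ y, (A y).det =
      ∑ σ : Equiv.Perm (Fin n), ((Equiv.Perm.sign σ : ℤ) : ℂ) * ∏ i, A y (σ i) i := by
    intro y; rw [Matrix.det_apply']
  simp_rw [h1]
  have h2 : HasFDerivAt
      (fun y => ∑ σ : Equiv.Perm (Fin n), ((Equiv.Perm.sign σ : ℤ) : ℂ) * ∏ i, A y (σ i) i)
      (∑ σ : Equiv.Perm (Fin n), ((Equiv.Perm.sign σ : ℤ) : ℂ) •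
        ∑ i, (∏ j ∈ Finset.univ.erase i, A x (σ j) j) • A' (σ i) i) x := by
    refine HasFDerivAt.fun_sum fun σ _ => ?_
    exact (HasFDerivAt.finsetProd (fun i _ => hA (σ i) i)).const_mul _
  refine h2.congr_fderiv ?_
  ext v
  simp only [_root_.sum_apply, _root_.smul_apply, smul_eq_mul]
  simp_rw [← sum_adj_col (A x) _ (fun j => A' j _ v), Matrix.det_apply']
  rw [Finset.sum_comm]
  refine Finset.sum_congr rfl fun σ _ => ?_
  rw [Finset.mul_sum]
  refine Finset.sum_congr rfl fun i _ => ?_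
  congr 1
  rw [← Finset.mul_prod_erase Finset.univ _ (Finset.mem_univ i)]
  simp only [Matrix.updateCol_self]
  rw [mul_comm]
  congr 1
  refine Finset.prod_congr rfl fun j hj => ?_
  rw [Matrix.updateCol_ne (Finset.ne_of_mem_erase hj)]

/-- the linearised equation -/
theorem lin_eq {U : Set (Cn n)} (hU : IsOpen U) {u h : Cn n → ℝ} (hu : ContDiffOn ℝ ∞ u U)
    (hh : ContDiffOn ℝ ∞ h U)
    (heq : ∀ z ∈ U, (cH u z).det = (Real.exp (u z + h z) : ℂ)) {z : Cn n} (hz : z ∈ U)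
    (v : Cn n) :
    (((cH u z).adjugate * cH (fun z => fderiv ℝ u z v) z).trace).re =
      Real.exp (u z + h z) * (fderiv ℝ u z v + fderiv ℝ h z v) := by
  have h1 : HasFDerivAt (fun y => (cH u y).det)
      (∑ i, ∑ j, (cH u z).adjugate i j • fderiv ℝ (fun y => cH u y j i) z) z :=
    hasFDerivAt_det fun i j =>
      (diffAt_of_smooth hU (contDiffOn_cH hU hu i j) hz).hasFDerivAt
  have h2 : HasFDerivAt (fun y => ((Real.exp (u y + h y) : ℝ) : ℂ))
      (Complex.ofRealCLM.comp (Real.exp (u z + h z) • (fderiv ℝ u z + fderiv ℝ h z))) z :=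
    Complex.ofRealCLM.hasFDerivAt.comp z (((diffAt_of_smooth hU hu hz).hasFDerivAt.add
      (diffAt_of_smooth hU hh hz).hasFDerivAt).exp)
  have h3 : (fun y => (cH u y).det) =ᶠ[𝓝 z] fun y => ((Real.exp (u y + h y) : ℝ) : ℂ) :=
    Filter.eventually_of_mem (hU.mem_nhds hz) heq
  have h4 := h1.unique (h2.congr_of_eventuallyEq h3)
  have h5 := congrArg (fun L : Cn n →L[ℝ] ℂ => (L v).re) h4
  simp only [_root_.sum_apply, _root_.smul_apply, smul_eq_mul, ContinuousLinearMap.comp_apply,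
    Complex.ofRealCLM_apply, Complex.ofReal_re, _root_.add_apply] at h5
  rw [← h5, trace_re, Complex.re_sum]
  refine Finset.sum_congr rfl fun i _ => ?_
  rw [Complex.re_sum]
  refine Finset.sum_congr rfl fun j _ => ?_
  rw [cH_dir hU hu hz v j i]

/-! ### the main theorem -/

/-- first step: `C^{2,1/2}` bounds -/
theorem eloc_two (h3 : C3Stmt) {U : Set (Cn n)} (hU : IsOpen U) {u h : ι → Cn n → ℝ}
    (hu : ∀ i, ContDiffOn ℝ ∞ (u i) U) (hh : UC (1 / 2) U 3 h)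
    (h0 : ∀ x ∈ U, ∃ r > 0, ∃ S : ℝ, ∀ i, ∀ z ∈ ball x r, |u i z| ≤ S)
    (hell : ∀ x ∈ U, ∃ r > 0, ∃ lo > 0, ∃ hi : ℝ, ∀ i, ∀ z ∈ ball x r, ∀ v,
      lo * ‖v‖ ^ 2 ≤ lev (u i) z v ∧ lev (u i) z v ≤ hi * ‖v‖ ^ 2)
    (heq : ∀ i, ∀ z ∈ U, (cH (u i) z).det = (Real.exp (u i z + h i z) : ℂ)) :
    UC (1 / 2) U 2 u := by
  have hH := hess_uh h3 hU hu hh h0 hell heq
  refine lin0 hU (G := fun _ _ => (1 : Matrix (Fin n) (Fin n) ℂ)) (fun p q => UH.const _)
    (fun x hx => ⟨1, one_pos, 1, 1, one_pos, fun i z _ =>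
      Crest.Agent.R273.YauSchF_635.ell_one⟩) hu ?_ h0
  have h1 : UC (1 / 2) U 0 (fun i z => (∑ a, cH (u i) z a a).re) :=
    UC.re hU (UC.sum hU _ fun a _ => ⟨fun i => contDiffOn_cH hU (hu i) a a, hH a a⟩)
  refine h1.uh.congr hU fun i z _ => ?_
  rw [one_mul]
  rfl

/-- **locally uniform bounds of all derivatives** -/
theorem eloc_uc (h3 : C3Stmt) {U : Set (Cn n)} (hU : IsOpen U) {u h : ι → Cn n → ℝ}
    (hu : ∀ i, ContDiffOn ℝ ∞ (u i) U) (hh : ∀ k, UC (1 / 2) U k h)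
    (h0 : ∀ x ∈ U, ∃ r > 0, ∃ S : ℝ, ∀ i, ∀ z ∈ ball x r, |u i z| ≤ S)
    (hell : ∀ x ∈ U, ∃ r > 0, ∃ lo > 0, ∃ hi : ℝ, ∀ i, ∀ z ∈ ball x r, ∀ v,
      lo * ‖v‖ ^ 2 ≤ lev (u i) z v ∧ lev (u i) z v ≤ hi * ‖v‖ ^ 2)
    (heq : ∀ i, ∀ z ∈ U, (cH (u i) z).det = (Real.exp (u i z + h i z) : ℂ)) (k : ℕ) :
    UC (1 / 2) U (k + 2) u := by
  have hG : ∀ x ∈ U, ∃ r > 0, ∃ lo hi : ℝ, 0 < lo ∧ ∀ i, ∀ z ∈ ball x r,
      EllC lo hi (cH (u i) z).adjugate := by
    intro x hx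
    obtain ⟨r1, hr1, S, H1⟩ := h0 x hx
    obtain ⟨r2, hr2, lo, hlo, hi, H2⟩ := hell x hx
    obtain ⟨r3, hr3, T, hT, H3⟩ := (hh 0).uh x hx
    obtain ⟨r4, hr4, H4⟩ := Metric.isOpen_iff.1 hU x hx
    obtain ⟨r, hr, Hr⟩ := exists_small [r1, r2, r3, r4] (by
      intro t ht
      simp only [List.mem_cons, List.not_mem_nil, or_false] at ht
      rcases ht with rfl | rfl | rfl | rfl
      · exact hr1
      · exact hr2
      · exact hr3
      · exact hr4)
    have l1 : r ≤ r1 := Hr _ (by simp)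
    have l2 : r ≤ r2 := Hr _ (by simp)
    have l3 : r ≤ r3 := Hr _ (by simp)
    have l4 : r ≤ r4 := Hr _ (by simp)
    have hc1 : 0 < lo / 4 := by positivity
    have hc2 : 0 < max lo hi / 4 := by
      have := lt_of_lt_of_le hlo (le_max_left lo hi)
      positivity
    refine ⟨r, hr, Real.exp (-(S + T)) / (max lo hi / 4), Real.exp (S + T) / (lo / 4),
      by positivity, fun i z hz => ?_⟩
    have hzU : z ∈ U := H4 (ball_subset_ball l4 hz)
    have hzc : ContDiffAt ℝ 2 (u i) z :=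
      ((hu i).contDiffAt (hU.mem_nhds hzU)).of_le two_le_infty
    have e1 : EllC (lo / 4) (max lo hi / 4) (cH (u i) z) := by
      refine ellC_cH hzc fun v => ?_
      obtain ⟨k1, k2⟩ := H2 i z (ball_subset_ball l2 hz) v
      exact ⟨k1, k2.trans (mul_le_mul_of_nonneg_right (le_max_right _ _) (sq_nonneg _))⟩
    have e2 := ellC_adj hc1 hc2 (Real.exp_pos _) e1 (heq i z hzU)
    have a1 := abs_le.1 (H1 i z (ball_subset_ball l1 hz))
    have a2 := abs_le.1 ((H3 i).bdd z (ball_subset_ball l3 hz))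
    refine ⟨e2.1, fun ζ => ⟨?_, ?_⟩⟩
    · refine le_trans ?_ (e2.2 ζ).1
      refine mul_le_mul_of_nonneg_right ?_ (Finset.sum_nonneg fun _ _ => sq_nonneg _)
      exact div_le_div_of_nonneg_right (Real.exp_le_exp.2 (by linarith)) hc2.le
    · refine le_trans (e2.2 ζ).2 ?_
      refine mul_le_mul_of_nonneg_right ?_ (Finset.sum_nonneg fun _ _ => sq_nonneg _)
      exact div_le_div_of_nonneg_right (Real.exp_le_exp.2 (by linarith)) hc1.le
  induction k with
  | zero => exact eloc_two h3 hU hu (hh 3) h0 hell heq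
  | succ k ih =>
    refine UC.of_dir hU hu ih.uh fun v => ?_
    refine lin hU hG k (w := fun i z => fderiv ℝ (u i) z v)
      (f := fun i z => Real.exp (u i z + h i z) * (fderiv ℝ (u i) z v + fderiv ℝ (h i) z v))
      (fun p q => UC.adj hU (fun p q => UC.cH hU ih p q) p q) ?_ ?_ ?_ ?_
    · exact fun i => (ContinuousLinearMap.apply ℝ ℝ v).contDiff.comp_contDiffOn
        (smooth_fderiv hU (hu i))
    · exact UC.mulR hU (UC.exp hU (UC.add hU (ih.of_le (by omega)) (hh k)))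
        (UC.add hU ((ih.of_le (by omega : k + 1 ≤ k + 2)).dir hU v) ((hh (k + 1)).dir hU v))
    · exact fun i z hz => lin_eq hU (hu i) ((hh 0).smooth i) (heq i) hz v
    · intro x hx
      obtain ⟨r, hr, C, hC, H⟩ := (ih.dir hU v).uh x hx
      exact ⟨r, hr, C, fun i z hz => (H i).bdd z hz⟩

/-- **E-LOC**: locally uniform `C^k` bounds -/
theorem eloc (h3 : C3Stmt) {U : Set (Cn n)} (hU : IsOpen U) {u h : ι → Cn n → ℝ}
    (hu : ∀ i, ContDiffOn ℝ ∞ (u i) U) (hh : ∀ i, ContDiffOn ℝ ∞ (h i) U)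
    (hUh : ∀ k, UB k U h) (h0 : UB 0 U u)
    (hell : ∀ x ∈ U, ∃ r > 0, ∃ lo > 0, ∃ hi : ℝ, ∀ i, ∀ z ∈ ball x r, ∀ v,
      lo * ‖v‖ ^ 2 ≤ lev (u i) z v ∧ lev (u i) z v ≤ hi * ‖v‖ ^ 2)
    (heq : ∀ i, ∀ z ∈ U, (cH (u i) z).det = (Real.exp (u i z + h i z) : ℂ)) (k : ℕ) :
    UB k U u :=
  ((eloc_uc h3 hU hu (fun k => UC.of_ub hU (by norm_num) hh (hUh (k + 1))) (fun x hx => by
    obtain ⟨r, hr, C, -, H⟩ := h0.bdd hx
    exact ⟨r, hr, C, H⟩) hell heq k).of_le (by omega : k ≤ k + 2)).ub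

end

end Crest.Agent.R257.ELoc_611
end

-- ▼ part R257/ELocH_611
section

/-!
# R257 (S0395), E-LOC (helper611), part H: numerical form

`eloc_num` : `|D^k u| ≤ C` on the half ball, `C` depends only on the constants.
-/

set_option autoImplicit false

open Set Metric Filter
open scoped ContDiff Topology Matrix ComplexConjugate

namespace Crest.Agent.R257.ELoc_611

open Crest.Agent.R275.Geo (Cn)
open Crest.Agent.R273.Defs_333 (lev)
open Crest.Agent.R273.YauDefs_635 (cH D2 lev333_eq C3Stmt)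

noncomputable section

variable {ι : Type*} {n : ℕ}

/-- locally uniform bounds are uniform on compact sets -/
theorem UB.compact {X V : Type*} [NormedAddCommGroup X] [NormedSpace ℝ X]
    [NormedAddCommGroup V] [NormedSpace ℝ V] {k : ℕ} {U K : Set X} {F : ι → X → V}
    (h : UB k U F) (hK : IsCompact K) (hKU : K ⊆ U) :
    ∃ C : ℝ, ∀ i, ∀ y ∈ K, ∀ m ≤ k, ‖iteratedFDeriv ℝ m (F i) y‖ ≤ C := by
  refine hK.induction_on (p := fun s => ∃ C : ℝ, ∀ i, ∀ y ∈ s, ∀ m ≤ k,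
    ‖iteratedFDeriv ℝ m (F i) y‖ ≤ C) ⟨0, fun i y hy => hy.elim⟩ ?_ ?_ ?_
  · rintro s t hst ⟨C, H⟩
    exact ⟨C, fun i y hy => H i y (hst hy)⟩
  · rintro s t ⟨C, H⟩ ⟨D, H'⟩
    refine ⟨max C D, fun i y hy m hm => ?_⟩
    rcases hy with hy | hy
    · exact (H i y hy m hm).trans (le_max_left _ _)
    · exact (H' i y hy m hm).trans (le_max_right _ _)
  · intro x hx
    obtain ⟨r, hr, C, H⟩ := h x (hKU hx)
    exact ⟨ball x r, mem_nhdsWithin_of_mem_nhds (ball_mem_nhds x hr), C, H⟩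





end

end Crest.Agent.R257.ELoc_611
end

-- ▼ part R257/ELocI_611
section

/-!
# R257 (S0395), E-LOC (helper611), part I: compactness

* `lim_smooth` : pointwise limits (along any filter) of families with locally uniform `C^k` bounds
  for all `k` are smooth, and all derivatives converge locally uniformly
* `exists_subseq` : sequences with locally uniform `C^k` bounds for all `k` have subsequences which
  converge in `C^∞_loc`
* `tendsto_cH`, `tendsto_lev` : consequences for complex Hessians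
-/

set_option autoImplicit false

open Set Metric Filter
open scoped ContDiff Topology Matrix ComplexConjugate

namespace Crest.Agent.R257.ELoc_611

open Crest.Agent.R275.Geo (Cn)
open Crest.Agent.R273.Defs_333 (lev)
open Crest.Agent.R273.YauDefs_635 (cH D2 lev333_eq C3Stmt)
open Crest.Agent.R273.YauLim_635

noncomputable section

variable {ι : Type*}

theorem UB.fd {X V : Type*} [NormedAddCommGroup X] [NormedSpace ℝ X]
    [NormedAddCommGroup V] [NormedSpace ℝ V] {k : ℕ} {U : Set X} {F : ι → X → V}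
    (h : UB (k + 1) U F) : UB k U (fun i => fderiv ℝ (F i)) := by
  intro x hx
  obtain ⟨r, hr, C, H⟩ := h x hx
  refine ⟨r, hr, C, fun i y hy m hm => ?_⟩
  rw [norm_iteratedFDeriv_fderiv]
  exact H i y hy (m + 1) (by omega)

/-- a locally uniform Lipschitz bound -/
theorem UB.lip {X V : Type*} [NormedAddCommGroup X] [NormedSpace ℝ X]
    [NormedAddCommGroup V] [NormedSpace ℝ V] {U : Set X} (hU : IsOpen U) {F : ι → X → V}
    (hF : ∀ i, ∀ x ∈ U, DifferentiableAt ℝ (F i) x) (h : UB 1 U F) {x : X} (hx : x ∈ U) :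
    ∃ r > 0, ball x r ⊆ U ∧ ∃ C : ℝ, 0 ≤ C ∧ ∀ i, ∀ y ∈ ball x r, ∀ z ∈ ball x r,
      ‖F i y - F i z‖ ≤ C * ‖y - z‖ := by
  obtain ⟨r, hr, C, H⟩ := h x hx
  obtain ⟨s, hs, hsU⟩ := Metric.isOpen_iff.1 hU x hx
  refine ⟨min r s, lt_min hr hs, (ball_subset_ball (min_le_right _ _)).trans hsU, |C|,
    abs_nonneg _, fun i y hy z hz => ?_⟩
  refine (convex_ball x (min r s)).norm_image_sub_le_of_norm_fderiv_le
    (fun w hw => hF i w (hsU (ball_subset_ball (min_le_right _ _) hw))) (fun w hw => ?_) hz hy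
  have := H i w (ball_subset_ball (min_le_left _ _) hw) 1 le_rfl
  rw [norm_iteratedFDeriv_one] at this
  exact this.trans (le_abs_self _)

/-- equi-Lipschitz families: pointwise convergence is locally uniform -/
theorem tlu {X V : Type*} [NormedAddCommGroup X] [NormedAddCommGroup V] {U : Set X}
    {p : Filter ι} [p.NeBot] {F : ι → X → V} {f : X → V}
    (h : ∀ x ∈ U, ∃ r > 0, ball x r ⊆ U ∧ ∃ C : ℝ, 0 ≤ C ∧ ∀ i, ∀ y ∈ ball x r,
      ∀ z ∈ ball x r, ‖F i y - F i z‖ ≤ C * ‖y - z‖)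
    (hf : ∀ x ∈ U, Tendsto (fun i => F i x) p (𝓝 (f x))) :
    TendstoLocallyUniformlyOn F f p U := by
  rw [Metric.tendstoLocallyUniformlyOn_iff]
  intro ε hε x hx
  obtain ⟨r, hr, hrU, C, hC, H⟩ := h x hx
  have Hf : ∀ y ∈ ball x r, ∀ z ∈ ball x r, ‖f y - f z‖ ≤ C * ‖y - z‖ := fun y hy z hz =>
    le_of_tendsto (((hf y (hrU hy)).sub (hf z (hrU hz))).norm)
      (Eventually.of_forall fun i => H i y hy z hz)
  set δ : ℝ := min r (ε / (4 * (C + 1))) with hδ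
  have hδ0 : 0 < δ := lt_min hr (by positivity)
  refine ⟨ball x δ, mem_nhdsWithin_of_mem_nhds (ball_mem_nhds x hδ0), ?_⟩
  have h1 : ∀ᶠ i in p, dist (F i x) (f x) < ε / 4 :=
    (Metric.tendsto_nhds.1 (hf x hx)) (ε / 4) (by positivity)
  filter_upwards [h1] with i hi y hy
  have hyr : y ∈ ball x r := ball_subset_ball (min_le_left _ _) hy
  have hxr : x ∈ ball x r := mem_ball_self hr
  have hd : ‖y - x‖ ≤ ε / (4 * (C + 1)) := by
    rw [mem_ball, dist_eq_norm] at hy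
    exact hy.le.trans (min_le_right _ _)
  have hCd : C * ‖y - x‖ ≤ ε / 4 := by
    have h4 : C * ‖y - x‖ ≤ (C + 1) * (ε / (4 * (C + 1))) := by
      have := norm_nonneg (y - x)
      nlinarith
    have h5 : (C + 1) * (ε / (4 * (C + 1))) = ε / 4 := by field_simp
    linarith
  have h2 := H i y hyr x hxr
  have h3 := Hf y hyr x hxr
  rw [dist_eq_norm] at hi ⊢
  have e : f y - F i y = (f y - f x) - (F i x - f x) - (F i y - F i x) := by abel
  rw [e]
  calc ‖(f y - f x) - (F i x - f x) - (F i y - F i x)‖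
      ≤ ‖f y - f x‖ + ‖F i x - f x‖ + ‖F i y - F i x‖ :=
        (norm_sub_le _ _).trans (add_le_add_left (norm_sub_le _ _) _)
    _ < ε := by linarith

section lim

variable {X : Type} [NormedAddCommGroup X] [NormedSpace ℝ X] [FiniteDimensional ℝ X] {U : Set X}

theorem ultra_step (hU : IsOpen U) (p : Ultrafilter ι) {V : Type} [NormedAddCommGroup V]
    [NormedSpace ℝ V] [FiniteDimensional ℝ V] {F : ι → X → V} {f : X → V}
    (hF : ∀ i, ContDiffOn ℝ ∞ (F i) U) (hB : UB 2 U F)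
    (hf : ∀ x ∈ U, Tendsto (fun i => F i x) p (𝓝 (f x))) {x : X} (hx : x ∈ U) :
    DifferentiableAt ℝ f x ∧ Tendsto (fun i => fderiv ℝ (F i) x) p (𝓝 (fderiv ℝ f x)) := by
  have hB1 : UB 1 U (fun i => fderiv ℝ (F i)) := hB.fd
  obtain ⟨r, hr, hrU, C, hC, H⟩ := hB1.lip hU
    (fun i y hy => diffAt_of_smooth hU (smooth_fderiv hU (hF i)) hy) hx
  -- the limit of the derivatives
  obtain ⟨L, hL⟩ : ∃ L, Tendsto (fun i => fderiv ℝ (F i) x) p (𝓝 L) := by
    obtain ⟨s, hs, D, hD, H2⟩ := hB1.bdd hx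
    have hc : IsCompact (closedBall (0 : X →L[ℝ] V) D) := isCompact_closedBall _ _
    obtain ⟨y, -, hy⟩ := hc.ultrafilter_le_nhds (p.map fun i => fderiv ℝ (F i) x) (by
      rw [le_principal_iff]
      exact Ultrafilter.mem_coe.2 (by
        have : (fun i => fderiv ℝ (F i) x) ⁻¹' (closedBall (0 : X →L[ℝ] V) D) = univ := by
          ext k
          simpa using H2 k x (mem_ball_self hs)
        rw [Ultrafilter.mem_map, this]; exact univ_mem))
    exact ⟨y, hy⟩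
  have h1 : HasFDerivAt f L x := by
    refine hasFDerivAt_of_taylor (s := ball x r) (ball_mem_nhds x hr) one_pos (S := C)
      fun w hw => ?_
    have h2 : Tendsto (fun i => ‖F i w - F i x - fderiv ℝ (F i) x (w - x)‖) p
        (𝓝 ‖f w - f x - L (w - x)‖) := by
      refine (((hf w (hrU hw)).sub (hf x hx)).sub ?_).norm
      exact ((ContinuousLinearMap.apply ℝ V (w - x)).continuous.tendsto L).comp hL
    refine le_of_tendsto h2 (Eventually.of_forall fun i => ?_)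
    exact taylor_holder (convex_ball x r) zero_le_one
      (fun y hy => diffAt_of_smooth hU (hF i) (hrU hy))
      (fun y hy z hz => by rw [Real.rpow_one]; exact H i y hy z hz) (mem_ball_self hr) hw
  exact ⟨h1.differentiableAt, by rw [h1.fderiv]; exact hL⟩

theorem lim_step (hU : IsOpen U) {p : Filter ι} [p.NeBot] {V : Type} [NormedAddCommGroup V]
    [NormedSpace ℝ V] [FiniteDimensional ℝ V] {F : ι → X → V} {f : X → V}
    (hF : ∀ i, ContDiffOn ℝ ∞ (F i) U) (hB : UB 2 U F)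
    (hf : ∀ x ∈ U, Tendsto (fun i => F i x) p (𝓝 (f x))) {x : X} (hx : x ∈ U) :
    DifferentiableAt ℝ f x ∧ Tendsto (fun i => fderiv ℝ (F i) x) p (𝓝 (fderiv ℝ f x)) := by
  refine ⟨(ultra_step hU (Ultrafilter.of p) hF hB
    (fun x hx => (hf x hx).mono_left (Ultrafilter.of_le p)) hx).1, ?_⟩
  rw [tendsto_iff_ultrafilter]
  intro q hq
  exact (ultra_step hU q hF hB (fun x hx => (hf x hx).mono_left hq) hx).2

theorem lim_aux (hU : IsOpen U) {p : Filter ι} [p.NeBot] : ∀ (k : ℕ) {V : Type}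
    [NormedAddCommGroup V] [NormedSpace ℝ V] [FiniteDimensional ℝ V] {F : ι → X → V} {f : X → V},
    (∀ i, ContDiffOn ℝ ∞ (F i) U) → (∀ m, UB m U F) →
    (∀ x ∈ U, Tendsto (fun i => F i x) p (𝓝 (f x))) →
    ContDiffOn ℝ k f U ∧
      ∀ x ∈ U, Tendsto (fun i => iteratedFDeriv ℝ k (F i) x) p (𝓝 (iteratedFDeriv ℝ k f x)) := by
  intro k
  induction k with
  | zero =>
    intro V _ _ _ F f hF hB hf
    refine ⟨?_, fun x hx => ?_⟩
    · have h1 : ContinuousOn f U := fun x hx =>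
        (lim_step hU hF (hB 2) hf hx).1.continuousAt.continuousWithinAt
      exact contDiffOn_zero.2 h1
    · simp only [iteratedFDeriv_zero_eq_comp, Function.comp_apply]
      exact ((continuousMultilinearCurryFin0 ℝ X V).symm.continuous.tendsto _).comp (hf x hx)
  | succ k ih =>
    intro V _ _ _ F f hF hB hf
    have h1 := fun x (hx : x ∈ U) => lim_step hU hF (hB 2) hf hx
    obtain ⟨h2, h3⟩ := ih (F := fun i => fderiv ℝ (F i)) (f := fderiv ℝ f)
      (fun i => smooth_fderiv hU (hF i)) (fun m => (hB (m + 1)).fd) fun x hx => (h1 x hx).2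
    refine ⟨?_, fun x hx => ?_⟩
    · rw [show ((k + 1 : ℕ) : WithTop ℕ∞) = (k : WithTop ℕ∞) + 1 by norm_cast,
        contDiffOn_succ_iff_fderiv_of_isOpen hU]
      exact ⟨fun x hx => (h1 x hx).1.differentiableWithinAt, by simp, h2⟩
    · simp only [iteratedFDeriv_succ_eq_comp_right, Function.comp_apply]
      exact ((continuousMultilinearCurryRightEquiv' ℝ k X V).symm.continuous.tendsto _).comp
        (h3 x hx)

/-- **limits of families with bounds of all derivatives** -/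
theorem lim_smooth (hU : IsOpen U) {p : Filter ι} [p.NeBot] {V : Type} [NormedAddCommGroup V]
    [NormedSpace ℝ V] [FiniteDimensional ℝ V] {F : ι → X → V} {f : X → V}
    (hF : ∀ i, ContDiffOn ℝ ∞ (F i) U) (hB : ∀ m, UB m U F)
    (hf : ∀ x ∈ U, Tendsto (fun i => F i x) p (𝓝 (f x))) :
    ContDiffOn ℝ ∞ f U ∧ ∀ k, TendstoLocallyUniformlyOn (fun i => iteratedFDeriv ℝ k (F i))
      (iteratedFDeriv ℝ k f) p U := by
  refine ⟨contDiffOn_infty.2 fun k => (lim_aux hU k hF hB hf).1, fun k => ?_⟩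
  refine tlu (fun x hx => ?_) (lim_aux hU k hF hB hf).2
  obtain ⟨r, hr, C, H⟩ := hB (k + 1) x hx
  obtain ⟨s, hs, hsU⟩ := Metric.isOpen_iff.1 hU x hx
  refine ⟨min r s, lt_min hr hs, (ball_subset_ball (min_le_right _ _)).trans hsU, |C|,
    abs_nonneg _, fun i y hy z hz => ?_⟩
  refine (convex_ball x (min r s)).norm_image_sub_le_of_norm_fderiv_le (𝕜 := ℝ)
    (f := iteratedFDeriv ℝ k (F i)) (fun w hw => ?_) (fun w hw => ?_) hz hy
  · have hw' := hsU (ball_subset_ball (min_le_right _ _) hw)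
    exact ((hF i).contDiffAt (hU.mem_nhds hw')).differentiableAt_iteratedFDeriv
      (by exact_mod_cast (WithTop.coe_lt_top k))
  · rw [norm_fderiv_iteratedFDeriv]
    exact (H i w (ball_subset_ball (min_le_left _ _) hw) (k + 1) le_rfl).trans (le_abs_self _)

/-- pointwise convergence of first and second derivatives -/
theorem lim_fd (hU : IsOpen U) {p : Filter ι} [p.NeBot] {V : Type} [NormedAddCommGroup V]
    [NormedSpace ℝ V] [FiniteDimensional ℝ V] {F : ι → X → V} {f : X → V}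
    (hF : ∀ i, ContDiffOn ℝ ∞ (F i) U) (hB : ∀ m, UB m U F)
    (hf : ∀ x ∈ U, Tendsto (fun i => F i x) p (𝓝 (f x))) {x : X} (hx : x ∈ U) :
    Tendsto (fun i => fderiv ℝ (F i) x) p (𝓝 (fderiv ℝ f x)) ∧
    Tendsto (fun i => fderiv ℝ (fderiv ℝ (F i)) x) p (𝓝 (fderiv ℝ (fderiv ℝ f) x)) := by
  have h1 := fun x (hx : x ∈ U) => lim_step hU hF (hB 2) hf hx
  exact ⟨(h1 x hx).2, (lim_step hU (fun i => smooth_fderiv hU (hF i)) (hB 3).fd
    (fun x hx => (h1 x hx).2) hx).2⟩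


end lim

/-! ### consequences for complex Hessians -/

variable {n : ℕ} {U : Set (Cn n)} {p : Filter ι} [p.NeBot] {u : ι → Cn n → ℝ} {f : Cn n → ℝ}

theorem tendsto_cH (hU : IsOpen U) (hu : ∀ i, ContDiffOn ℝ ∞ (u i) U) (hB : ∀ m, UB m U u)
    (hf : ∀ x ∈ U, Tendsto (fun i => u i x) p (𝓝 (f x))) {z : Cn n} (hz : z ∈ U) :
    Tendsto (fun i => cH (u i) z) p (𝓝 (cH f z)) := by
  have h := (lim_fd hU hu hB hf hz).2
  refine tendsto_pi_nhds.2 fun a => tendsto_pi_nhds.2 fun b => ?_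
  simp only [cH_eq_cHL]
  exact ((cHL a b).continuous.tendsto _).comp h

theorem tendsto_det_cH (hU : IsOpen U) (hu : ∀ i, ContDiffOn ℝ ∞ (u i) U)
    (hB : ∀ m, UB m U u) (hf : ∀ x ∈ U, Tendsto (fun i => u i x) p (𝓝 (f x))) {z : Cn n}
    (hz : z ∈ U) : Tendsto (fun i => (cH (u i) z).det) p (𝓝 (cH f z).det) :=
  ((Continuous.matrix_det continuous_id).tendsto (cH f z)).comp (tendsto_cH hU hu hB hf hz)

theorem tendsto_lev (hU : IsOpen U) (hu : ∀ i, ContDiffOn ℝ ∞ (u i) U) (hB : ∀ m, UB m U u)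
    (hf : ∀ x ∈ U, Tendsto (fun i => u i x) p (𝓝 (f x))) {z : Cn n} (hz : z ∈ U) (v : Cn n) :
    Tendsto (fun i => lev (u i) z v) p (𝓝 (lev f z v)) := by
  have h := (lim_fd hU hu hB hf hz).2
  simp only [lev333_eq, D2]
  exact (((E2 v v).continuous.tendsto _).comp h).add
    (((E2 (Complex.I • v) (Complex.I • v)).continuous.tendsto _).comp h)


end

end Crest.Agent.R257.ELoc_611
end

-- ▼ part R257/LimC_37

/-!
Row 257 (S0395), leaf E-LIM, helper37: bounds of all derivatives of Kaehler-Einstein potentials on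
a holomorphic family of levels, uniform in the parameter.

* `iter_slice`, `slice_bound` : derivatives of `E (·, τ)`
* `PF g σ D O T Θ` : an analytic family of parametrisations of the levels `{g τ = σ τ}`
* `PF.bound` : `|D^m (u ∘ Θ (·, τ))| ≤ B` on compact sets, for all Kaehler-Einstein potentials `u`
  of `{g τ = σ τ}` with the a priori bounds `BdOn … C u`, `B` independent of `u` and `τ`.
-/

set_option autoImplicit false
set_option linter.unusedSectionVars false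

open Set Filter Topology Complex
open scoped ContDiff ComplexConjugate Matrix

namespace Crest.Agent.R257.LimC_37

open Crest.Agent.R275.Geo Crest.Agent.R275.Core144
open Crest.Agent.R273.Defs_333 Crest.Agent.R273.YauDefs_635 Crest.Agent.R273.YauCh_635
open Crest.Agent.R257.PN_835 Crest.Agent.R257.Gram_835 Crest.Agent.R257.Aff_835
open Crest.Agent.R257.LimA_37 Crest.Agent.R257.LimB_37 Crest.Agent.R257.Loc_835
open Crest.Agent.R257.ELoc_611
open Crest.Agent.R273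

noncomputable section

/-! ### slices -/

section slice

variable {X P V : Type*} [NormedAddCommGroup X] [NormedSpace ℝ X] [NormedAddCommGroup P]
  [NormedSpace ℝ P] [NormedAddCommGroup V] [NormedSpace ℝ V]

theorem iter_slice {E : X × P → V} {W : Set (X × P)} (hW : IsOpen W) (hE : ContDiffOn ℝ ∞ E W)
    {z : X} {τ : P} (h : (z, τ) ∈ W) (m : ℕ) :
    iteratedFDeriv ℝ m (fun z => E (z, τ)) z = (iteratedFDeriv ℝ m E (z, τ)).compContinuousLinearMap
      (fun _ => ContinuousLinearMap.inl ℝ X P) := by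
  let E' : X × P → V := fun p => E (p + (0, τ))
  let W' : Set (X × P) := (fun p => p + (0, τ)) ⁻¹' W
  have hc : Continuous fun p : X × P => p + (0, τ) := by fun_prop
  have hW' : IsOpen W' := hW.preimage hc
  have hE' : ContDiffOn ℝ ∞ E' W' :=
    hE.comp (contDiff_id.add contDiff_const).contDiffOn fun p hp => hp
  have e1 : (fun z => E (z, τ)) = E' ∘ (ContinuousLinearMap.inl ℝ X P) := by
    funext z
    show E (z, τ) = E ((z, 0) + (0, τ))
    simp
  have hz : (ContinuousLinearMap.inl ℝ X P) z ∈ W' := by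
    show (z, (0 : P)) + (0, τ) ∈ W
    simpa using h
  have hpre : IsOpen ((ContinuousLinearMap.inl ℝ X P) ⁻¹' W') :=
    hW'.preimage (ContinuousLinearMap.inl ℝ X P).continuous
  have h1 := (ContinuousLinearMap.inl ℝ X P).iteratedFDerivWithin_comp_right hE'
    hW'.uniqueDiffOn hpre.uniqueDiffOn hz (i := m) (by exact_mod_cast le_top)
  rw [iteratedFDerivWithin_of_isOpen m hpre hz, iteratedFDerivWithin_of_isOpen m hW' hz] at h1
  rw [e1, h1]
  congr 1
  have h2 := iteratedFDeriv_comp_add_right (𝕜 := ℝ) (f := E) m ((0 : X), τ)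
    ((ContinuousLinearMap.inl ℝ X P) z)
  rw [show E' = fun p => E (p + (0, τ)) from rfl, h2]
  congr 1
  show (z, (0 : P)) + (0, τ) = (z, τ)
  simp

theorem norm_iter_slice {E : X × P → V} {W : Set (X × P)} (hW : IsOpen W)
    (hE : ContDiffOn ℝ ∞ E W) {z : X} {τ : P} (h : (z, τ) ∈ W) (m : ℕ) :
    ‖iteratedFDeriv ℝ m (fun z => E (z, τ)) z‖ ≤ ‖iteratedFDeriv ℝ m E (z, τ)‖ := by
  rw [iter_slice hW hE h m]
  refine (ContinuousMultilinearMap.norm_compContinuousLinearMap_le _ _).trans ?_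
  have h1 : ∏ i : Fin m, ‖ContinuousLinearMap.inl ℝ X P‖ ≤ 1 :=
    Finset.prod_le_one (fun _ _ => norm_nonneg _)
      fun _ _ => ContinuousLinearMap.norm_inl_le_one ℝ X P
  exact mul_le_of_le_one_right (norm_nonneg _) h1

/-- uniform bounds of the derivatives of slices -/
theorem slice_bound {E : X × P → V} {W : Set (X × P)} (hW : IsOpen W) (hE : ContDiffOn ℝ ∞ E W)
    {K : Set X} {L : Set P} (hK : IsCompact K) (hL : IsCompact L) (hKL : K ×ˢ L ⊆ W) (k : ℕ) :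
    ∃ C : ℝ, ∀ z ∈ K, ∀ τ ∈ L, ∀ m ≤ k, ‖iteratedFDeriv ℝ m (fun z => E (z, τ)) z‖ ≤ C := by
  have h1 : ∀ m : ℕ, ∃ C : ℝ, ∀ p ∈ K ×ˢ L, ‖iteratedFDeriv ℝ m E p‖ ≤ C := fun m => by
    have h2 : ContinuousOn (fun p => iteratedFDeriv ℝ m E p) W := by
      intro p hp
      have h3 : ContDiffAt ℝ 0 (iteratedFDeriv ℝ m E) p :=
        ((hE.contDiffAt (hW.mem_nhds hp)).iteratedFDeriv_right (m := 0) (i := m)
          (by simp only [zero_add]; exact_mod_cast le_top))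
      exact h3.continuousAt.continuousWithinAt
    exact (hK.prod hL).exists_bound_of_continuousOn (h2.mono hKL)
  choose C hC using h1
  refine ⟨∑ m ∈ Finset.range (k + 1), |C m|, fun z hz τ hτ m hm => ?_⟩
  refine (norm_iter_slice hW hE (hKL (mk_mem_prod hz hτ)) m).trans
    ((hC m _ (mk_mem_prod hz hτ)).trans ((le_abs_self _).trans ?_))
  exact Finset.single_le_sum (f := fun m => |C m|) (fun _ _ => abs_nonneg _)
    (Finset.mem_range.2 (by omega))

end slice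

/-! ### smoothness of determinants -/

theorem contDiffAt_det {X : Type*} [NormedAddCommGroup X] [NormedSpace ℝ X] {m : ℕ}
    {M : X → Matrix (Fin m) (Fin m) ℂ} {x : X} (h : ∀ a b, ContDiffAt ℝ ∞ (fun y => M y a b) x) :
    ContDiffAt ℝ ∞ (fun y => (M y).det) x := by
  simp only [Matrix.det_apply]
  refine ContDiffAt.sum fun s _ => ?_
  refine ContDiffAt.const_smul _ ?_
  exact contDiffAt_prod fun i _ => h _ _

theorem contDiffAt_gdet {X : Type*} [NormedAddCommGroup X] [NormedSpace ℝ X] {m N : ℕ}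
    {M : X → Matrix (Fin m) (Fin N) ℂ} {x : X} (h : ∀ a b, ContDiffAt ℝ ∞ (fun y => M y a b) x) :
    ContDiffAt ℝ ∞ (fun y => gdet (M y)) x := by
  refine contDiffAt_det fun a b => ?_
  simp only [Matrix.mul_apply, Matrix.conjTranspose_apply]
  refine ContDiffAt.sum fun k _ => (h a k).mul ?_
  exact (Complex.conjCLE.contDiff.contDiffAt).comp x (h b k)

theorem lev_zero {n : ℕ} (u : Cn n → ℝ) (z : Cn n) : lev u z 0 = 0 := by
  rw [lev333_eq, smul_zero, D2, map_zero, add_zero]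

theorem _root_.Crest.Agent.R257.LimB_37.BdOn.le {n : ℕ} {g : AC n → ℂ} {s : ℂ} {D : Set (AC n)}
    {u : AC n → ℝ} {C C' : ℝ} (h : BdOn g s D C u) (hk : KEon g s D u) (hC : C ≤ C') :
    BdOn g s D C' u := by
  refine ⟨fun x hx hs => ?_, fun x hx hs => (h.hi x hx hs).trans hC, fun θ U hθ hm z hz v => ?_⟩
  · have := h.lo x hx hs
    linarith
  · refine (h.lev_le θ U hθ hm z hz v).trans (mul_le_mul_of_nonneg_right hC ?_)
    rcases eq_or_ne v 0 with hv | hv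
    · rw [hv, lev_zero]
    · exact (hk.pos θ U hθ hm z hz v hv).le

/-! ### families of parametrisations -/

section fam

variable {n : ℕ} {P : Type*} [NormedAddCommGroup P] [NormedSpace ℂ P]

/-- an analytic family of parametrisations of the levels -/
structure PF (g : P → AC n → ℂ) (σ : P → ℂ) (D : Set (AC n)) (O : Set (Cn n)) (T : Set P)
    (Θ : Cn n × P → AC n) : Prop where
  O_open : IsOpen O
  T_open : IsOpen T
  an : ∀ z ∈ O, ∀ τ ∈ T, AnalyticAt ℂ Θ (z, τ)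
  par : ∀ τ ∈ T, Par (g τ) (σ τ) (fun z => Θ (z, τ)) O
  maps : ∀ z ∈ O, ∀ τ ∈ T, Θ (z, τ) ∈ D
  jan : ∀ z ∈ O, ∀ τ ∈ T, AnalyticAt ℂ (jn g σ) (Θ (z, τ), τ)
  reg : ∀ z ∈ O, ∀ τ ∈ T, fderiv ℂ (g τ) (Θ (z, τ)) ≠ 0

variable {g : P → AC n → ℂ} {σ : P → ℂ} {D : Set (AC n)} {O : Set (Cn n)} {T : Set P}
  {Θ : Cn n × P → AC n}

theorem fderiv_slice {V W Q : Type*} [NormedAddCommGroup V] [NormedSpace ℂ V]
    [NormedAddCommGroup W] [NormedSpace ℂ W] [NormedAddCommGroup Q] [NormedSpace ℂ Q]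
    {F : V × Q → W} {x : V} {τ : Q} (h : DifferentiableAt ℂ F (x, τ)) (v : V) :
    fderiv ℂ (fun x => F (x, τ)) x v = fderiv ℂ F (x, τ) (v, 0) := by
  have h1 : HasFDerivAt (fun x : V => F (x, τ))
      ((fderiv ℂ F (x, τ)).comp (ContinuousLinearMap.inl ℂ V Q)) x :=
    HasFDerivAt.comp x (g := F) h.hasFDerivAt (hasFDerivAt_prodMk_left x τ)
  rw [h1.fderiv]
  rfl

theorem fderiv_g {x : AC n} {τ : P} (h : DifferentiableAt ℂ (jn g σ) (x, τ)) (v : AC n) :
    fderiv ℂ (g τ) x v = fderiv ℂ (jn g σ) (x, τ) (v, 0) := by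
  rw [← fderiv_slice h v]
  have : (fun x => jn g σ (x, τ)) = fun x => g τ x - σ τ := rfl
  rw [this, fderiv_sub_const]

theorem nga_eq {x : AC n} {τ : P} (h : DifferentiableAt ℂ (jn g σ) (x, τ)) :
    nga (g τ) x = ∑ k, ‖fderiv ℂ (jn g σ) (x, τ) ((Pi.single k 1 : AC n), 0)‖ ^ 2 := by
  unfold nga nsq gra
  exact Finset.sum_congr rfl fun k _ => by rw [fderiv_g h]

/-- real smoothness of analytic maps -/
theorem smooth_of_an {V W : Type*} [NormedAddCommGroup V] [NormedSpace ℂ V]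
    [NormedAddCommGroup W] [NormedSpace ℂ W] [CompleteSpace W] {F : V → W} {x : V}
    (h : AnalyticAt ℂ F x) : ContDiffAt ℝ ∞ F x := by
  have h1 : ContDiffAt ℂ ∞ F x := h.contDiffAt
  exact h1.restrict_scalars ℝ

theorem smooth_nga_comp {X : Type*} [NormedAddCommGroup X] [NormedSpace ℂ X] {φ : X → AC n × P}
    {p : X} (hφ : AnalyticAt ℂ φ p) (h : AnalyticAt ℂ (jn g σ) (φ p)) :
    ContDiffAt ℝ ∞ (fun q => nga (g (φ q).2) (φ q).1) p := by
  have h1 : ∀ᶠ q in 𝓝 p, AnalyticAt ℂ (jn g σ) (φ q) :=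
    hφ.continuousAt.eventually h.eventually_analyticAt
  have h2 : (fun q => nga (g (φ q).2) (φ q).1) =ᶠ[𝓝 p] fun q =>
      ∑ k, ‖fderiv ℂ (jn g σ) (φ q) ((Pi.single k 1 : AC n), 0)‖ ^ 2 := by
    filter_upwards [h1] with q hq
    exact nga_eq hq.differentiableAt
  refine ContDiffAt.congr_of_eventuallyEq (ContDiffAt.sum fun k _ => ?_) h2
  have h3 : AnalyticAt ℂ (fun q => fderiv ℂ (jn g σ) (φ q)) p :=
    AnalyticAt.comp (g := fderiv ℂ (jn g σ)) h.fderiv hφ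
  have h4 : AnalyticAt ℂ (fun q => fderiv ℂ (jn g σ) (φ q) ((Pi.single k 1 : AC n), (0 : P))) p :=
    ((ContinuousLinearMap.apply ℂ ℂ ((Pi.single k 1 : AC n), (0 : P))).analyticAt _).comp h3
  exact (smooth_of_an h4).norm_sq ℝ

namespace PF

variable (H : PF g σ D O T Θ)
include H

theorem mono {O' : Set (Cn n)} {T' : Set P} (hO : IsOpen O') (hT : IsOpen T') (h1 : O' ⊆ O)
    (h2 : T' ⊆ T) : PF g σ D O' T' Θ :=
  ⟨hO, hT, fun z hz τ hτ => H.an z (h1 hz) τ (h2 hτ), fun τ hτ => (H.par τ (h2 hτ)).mono hO h1,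
    fun z hz τ hτ => H.maps z (h1 hz) τ (h2 hτ), fun z hz τ hτ => H.jan z (h1 hz) τ (h2 hτ),
    fun z hz τ hτ => H.reg z (h1 hz) τ (h2 hτ)⟩

theorem isOpen_prod : IsOpen (O ×ˢ T) := H.O_open.prod H.T_open

theorem dΘ {z : Cn n} {τ : P} (hz : z ∈ O) (hτ : τ ∈ T) (v : Cn n) :
    fderiv ℂ (fun z => Θ (z, τ)) z v = fderiv ℂ Θ (z, τ) (v, 0) :=
  fderiv_slice (H.an z hz τ hτ).differentiableAt v


theorem smooth_nga : ContDiffOn ℝ ∞ (fun p : Cn n × P => nga (g p.2) (Θ p)) (O ×ˢ T) := by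
  rintro ⟨z, τ⟩ ⟨hz, hτ⟩
  have h1 : AnalyticAt ℂ (fun p : Cn n × P => (Θ p, p.2)) (z, τ) :=
    (H.an z hz τ hτ).prod analyticAt_snd
  exact (smooth_nga_comp (φ := fun p : Cn n × P => (Θ p, p.2)) h1
    (H.jan z hz τ hτ)).contDiffWithinAt

theorem nga_pos {z : Cn n} {τ : P} (hz : z ∈ O) (hτ : τ ∈ T) : 0 < nga (g τ) (Θ (z, τ)) :=
  Aff_835.nga_pos (H.reg z hz τ hτ)

theorem eta_pos {z : Cn n} {τ : P} (hz : z ∈ O) (hτ : τ ∈ T) :
    0 < eta2a (g τ) (fun z => Θ (z, τ)) z :=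
  eta2a_pos (H.par τ hτ) hz (H.reg z hz τ hτ)

theorem smooth_eta :
    ContDiffOn ℝ ∞ (fun p : Cn n × P => eta2a (g p.2) (fun z => Θ (z, p.2)) p.1) (O ×ˢ T) := by
  have h1 : ContDiffOn ℝ ∞ (fun p : Cn n × P => (gdet (DF (fun z => Θ (z, p.2)) p.1)).re)
      (O ×ˢ T) := by
    have h2 : ContDiffOn ℝ ∞ (fun p : Cn n × P => (gdet (Matrix.of fun (a : Fin n)
        (k : Fin (n + 1)) => (fderiv ℂ Θ p (EuclideanSpace.single a 1, 0)) k)).re) (O ×ˢ T) := by
      rintro ⟨z, τ⟩ ⟨hz, hτ⟩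
      refine ContDiffAt.contDiffWithinAt ?_
      have h3 : ∀ (a : Fin n) (k : Fin (n + 1)), ContDiffAt ℝ ∞
          (fun p : Cn n × P => (fderiv ℂ Θ p (EuclideanSpace.single a 1, 0)) k) (z, τ) := by
        intro a k
        have h4 : AnalyticAt ℂ (fun p : Cn n × P => fderiv ℂ Θ p
            ((EuclideanSpace.single a 1 : Cn n), (0 : P))) (z, τ) :=
          ((ContinuousLinearMap.apply ℂ (AC n)
            ((EuclideanSpace.single a 1 : Cn n), (0 : P))).analyticAt _).comp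
            (H.an z hz τ hτ).fderiv
        exact smooth_of_an (((ContinuousLinearMap.proj (R := ℂ) (φ := fun _ : Fin (n + 1) => ℂ)
          k).analyticAt _).comp h4)
      exact (Complex.reCLM.contDiff.contDiffAt).comp _ (contDiffAt_gdet h3)
    refine h2.congr ?_
    rintro ⟨z, τ⟩ ⟨hz, hτ⟩
    show (gdet (DF (fun z => Θ (z, τ)) z)).re = _
    congr 2
    ext a k
    show pd (fun z => Θ (z, τ)) z a k = (fderiv ℂ Θ (z, τ) (EuclideanSpace.single a 1, 0)) k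
    rw [(H.par τ hτ).pd_eq hz, H.dΘ hz hτ]
  exact h1.div H.smooth_nga fun _ hp => (H.nga_pos hp.1 hp.2).ne'

theorem smooth_leta : ContDiffOn ℝ ∞
    (fun p : Cn n × P => Real.log (eta2a (g p.2) (fun z => Θ (z, p.2)) p.1)) (O ×ˢ T) :=
  H.smooth_eta.log fun _ hp => (H.eta_pos hp.1 hp.2).ne'

/-- the flat metrics are uniformly equivalent to the metric of the parameter domain -/
theorem ell {K : Set (Cn n)} {L : Set P} (hK : IsCompact K) (hKO : K ⊆ O) (hL : IsCompact L)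
    (hLT : L ⊆ T) : ∃ lo > 0, ∃ hi : ℝ, 0 ≤ hi ∧ ∀ z ∈ K, ∀ τ ∈ L, ∀ v : Cn n,
      lo * ‖v‖ ^ 2 ≤ lev (FS_333.sq fun z => Θ (z, τ)) z v ∧
      lev (FS_333.sq fun z => Θ (z, τ)) z v ≤ hi * ‖v‖ ^ 2 := by
  have hlev : ∀ z ∈ O, ∀ τ ∈ T, ∀ v : Cn n, lev (FS_333.sq fun z => Θ (z, τ)) z v =
      4 * nsq (fderiv ℂ Θ (z, τ) (v, 0)) := fun z hz τ hτ v => by
    rw [← H.dΘ hz hτ]
    exact par_lev_nsq (H.par τ hτ) hz v
  set S : Set ((Cn n × P) × Cn n) := (K ×ˢ L) ×ˢ Metric.sphere 0 1 with hS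
  have hSc : IsCompact S := (hK.prod hL).prod (isCompact_sphere _ _)
  have hnsq : Continuous (nsq (m := n + 1)) := by
    unfold nsq
    fun_prop
  have hcont : ContinuousOn (fun q : (Cn n × P) × Cn n => 4 * nsq (fderiv ℂ Θ q.1 (q.2, 0))) S := by
    rintro ⟨⟨z, τ⟩, v⟩ ⟨⟨hz, hτ⟩, -⟩
    have h1 : ContinuousAt (fderiv ℂ Θ) (z, τ) :=
      (H.an z (hKO hz) τ (hLT hτ)).fderiv.continuousAt
    have h2 : ContinuousAt (fun q : (Cn n × P) × Cn n => fderiv ℂ Θ q.1) ((z, τ), v) :=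
      ContinuousAt.comp (g := fderiv ℂ Θ) (f := fun q : (Cn n × P) × Cn n => q.1) h1
        continuousAt_fst
    have h3 : ContinuousAt (fun q : (Cn n × P) × Cn n => fderiv ℂ Θ q.1 (q.2, 0)) ((z, τ), v) :=
      h2.clm_apply (by fun_prop)
    exact ((hnsq.continuousAt.comp h3).const_mul 4).continuousWithinAt
  obtain ⟨hi, hhi⟩ := hSc.exists_bound_of_continuousOn hcont
  have hlo : ∃ lo > 0, ∀ q ∈ S, lo ≤ 4 * nsq (fderiv ℂ Θ q.1 (q.2, 0)) := by
    rcases S.eq_empty_or_nonempty with he | hne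
    · exact ⟨1, one_pos, fun q hq => by rw [he] at hq; exact hq.elim⟩
    · obtain ⟨q, hq, hmin⟩ := hSc.exists_isMinOn hne hcont
      refine ⟨_, ?_, fun q' hq' => hmin hq'⟩
      have h1 : q.2 ≠ 0 := by
        intro h0
        have h2 : q.2 ∈ Metric.sphere (0 : Cn n) 1 := hq.2
        rw [h0] at h2
        simp at h2
      have h3 : fderiv ℂ Θ q.1 (q.2, 0) ≠ 0 := by
        intro h0
        apply h1
        refine (H.par q.1.2 (hLT hq.1.2)).imm q.1.1 (hKO hq.1.1) q.2 ?_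
        rw [H.dΘ (hKO hq.1.1) (hLT hq.1.2)]
        exact h0
      have := nsq_pos h3
      positivity
  obtain ⟨lo, hlo0, hlo⟩ := hlo
  refine ⟨lo, hlo0, max hi 0, le_max_right _ _, fun z hz τ hτ v => ?_⟩
  rw [hlev z (hKO hz) τ (hLT hτ)]
  rcases eq_or_ne v 0 with hv | hv
  · subst hv
    have h1 : fderiv ℂ Θ (z, τ) ((0 : Cn n), (0 : P)) = 0 := map_zero _
    rw [h1]
    simp [nsq]
  · have hv' : 0 < ‖v‖ := norm_pos_iff.2 hv
    set w : Cn n := ((‖v‖ : ℂ)⁻¹) • v with hw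
    have hw1 : w ∈ Metric.sphere (0 : Cn n) 1 := by
      rw [mem_sphere_zero_iff_norm, hw, norm_smul, norm_inv, Complex.norm_real, norm_norm,
        inv_mul_cancel₀ hv'.ne']
    have hvw : v = (‖v‖ : ℂ) • w := by
      rw [hw, smul_smul, mul_inv_cancel₀ (by exact_mod_cast hv'.ne'), one_smul]
    have h1 : fderiv ℂ Θ (z, τ) (v, 0) = (‖v‖ : ℂ) • fderiv ℂ Θ (z, τ) (w, 0) := by
      rw [← map_smul]
      congr 1
      rw [Prod.smul_mk, smul_zero, ← hvw]
    have h2 : nsq (fderiv ℂ Θ (z, τ) (v, 0)) = ‖v‖ ^ 2 * nsq (fderiv ℂ Θ (z, τ) (w, 0)) := by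
      rw [h1, nsq_smul, Complex.norm_real, norm_norm]
    have h3 := hlo ((z, τ), w) ⟨⟨hz, hτ⟩, hw1⟩
    have h4 := (le_abs_self _).trans (hhi ((z, τ), w) ⟨⟨hz, hτ⟩, hw1⟩)
    have h5 := h4.trans (le_max_left hi 0)
    simp only at h3 h5
    rw [h2]
    have h6 : (0 : ℝ) ≤ ‖v‖ ^ 2 := by positivity
    constructor
    · nlinarith
    · nlinarith

/-- the squared gradient is bounded below -/
theorem nga_lower {K : Set (Cn n)} {L : Set P} (hK : IsCompact K) (hKO : K ⊆ O)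
    (hL : IsCompact L) (hLT : L ⊆ T) : ∃ ν > 0, ∀ z ∈ K, ∀ τ ∈ L, ν ≤ nga (g τ) (Θ (z, τ)) := by
  rcases (K ×ˢ L).eq_empty_or_nonempty with he | hne
  · refine ⟨1, one_pos, fun z hz τ hτ => ?_⟩
    have : (z, τ) ∈ K ×ˢ L := ⟨hz, hτ⟩
    rw [he] at this
    exact this.elim
  · obtain ⟨q, hq, hmin⟩ := (hK.prod hL).exists_isMinOn hne
      (H.smooth_nga.continuousOn.mono (prod_mono hKO hLT))
    refine ⟨nga (g q.2) (Θ q), H.nga_pos (z := q.1) (τ := q.2) (hKO hq.1) (hLT hq.2),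
      fun z hz τ hτ => ?_⟩
    have h1 : (z, τ) ∈ K ×ˢ L := mk_mem_prod hz hτ
    exact isMinOn_iff.1 hmin (z, τ) h1

/-- **uniform bounds of all derivatives** -/
theorem bound {K : Set (Cn n)} {L : Set P} (hK : IsCompact K) (hKO : K ⊆ O) (hL : IsCompact L)
    (hLT : L ⊆ T) (C : ℝ) (k : ℕ) : ∃ B : ℝ, ∀ τ ∈ L, ∀ u : AC n → ℝ,
      KEon (g τ) (σ τ) D u → BdOn (g τ) (σ τ) D C u → ∀ z ∈ K, ∀ m ≤ k,
        ‖iteratedFDeriv ℝ m (fun z => u (Θ (z, τ))) z‖ ≤ B := by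
  obtain ⟨K', hK', hKK', hK'O⟩ := exists_compact_between hK H.O_open hKO
  set C' : ℝ := max C 1 with hC'
  have hC1 : 1 ≤ C' := le_max_right _ _
  have hC0 : 0 < C' := by linarith
  obtain ⟨lo, hlo, hi, hhi, hell⟩ := H.ell hK' hK'O hL hLT
  obtain ⟨ν, hν, hnga⟩ := H.nga_lower hK' hK'O hL hLT
  let J : Type _ := {p : P × (AC n → ℝ) // p.1 ∈ L ∧ KEon (g p.1) (σ p.1) D p.2 ∧
    BdOn (g p.1) (σ p.1) D C p.2}
  let w : J → Cn n → ℝ := fun j z => j.1.2 (Θ (z, j.1.1))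
  let h : J → Cn n → ℝ := fun j z => Real.log (eta2a (g j.1.1) (fun z => Θ (z, j.1.1)) z)
  set U : Set (Cn n) := interior K' with hU
  have hUo : IsOpen U := isOpen_interior
  have hUK : U ⊆ K' := interior_subset
  have hUO : U ⊆ O := hUK.trans hK'O
  have hpar : ∀ j : J, Par (g j.1.1) (σ j.1.1) (fun z => Θ (z, j.1.1)) U := fun j =>
    (H.par _ (hLT j.2.1)).mono hUo hUO
  have hmaps : ∀ j : J, ∀ z ∈ U, Θ (z, j.1.1) ∈ D := fun j z hz => H.maps z (hUO hz) _ (hLT j.2.1)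
  have hw : ∀ j, ContDiffOn ℝ ∞ (w j) U := fun j => j.2.2.1.sm _ _ (hpar j) (hmaps j)
  have hBd : ∀ j : J, BdOn (g j.1.1) (σ j.1.1) D C' j.1.2 := fun j =>
    j.2.2.2.le j.2.2.1 (le_max_left _ _)
  have hh : ∀ j, ContDiffOn ℝ ∞ (h j) U := fun j => by
    refine H.smooth_leta.comp (s := U) (f := fun z : Cn n => ((z, j.1.1) : Cn n × P)) ?_
      fun z hz => ⟨hUO hz, hLT j.2.1⟩
    exact (contDiff_id.prodMk contDiff_const).contDiffOn
  have hloc : ∀ x ∈ U, ∃ r > 0, Metric.ball x r ⊆ U := fun x hx => Metric.isOpen_iff.1 hUo x hx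
  have hUh : ∀ l, UB l U h := by
    intro l x hx
    obtain ⟨r, hr, hrU⟩ := hloc x hx
    obtain ⟨B, hB⟩ := slice_bound H.isOpen_prod H.smooth_leta hK' hL (prod_mono hK'O hLT) l
    exact ⟨r, hr, B, fun j y hy m hm => hB y (hUK (hrU hy)) j.1.1 j.2.1 m hm⟩
  have hval : ∀ (j : J), ∀ z ∈ U, |w j z| ≤ C' + |Real.log ν| := by
    intro j z hz
    have hlv := (hpar j).lvl z hz
    have h1 := (hBd j).lo _ (hmaps j z hz) hlv
    have h2 := (hBd j).hi _ (hmaps j z hz) hlv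
    have h3 := Real.log_le_log hν (hnga z (hUK hz) j.1.1 j.2.1)
    have h4 := neg_abs_le (Real.log ν)
    have h5 := abs_nonneg (Real.log ν)
    rw [abs_le]
    constructor
    · show _ ≤ j.1.2 (Θ (z, j.1.1))
      linarith
    · show j.1.2 (Θ (z, j.1.1)) ≤ _
      linarith
  have h0 : UB 0 U w := by
    intro x hx
    obtain ⟨r, hr, hrU⟩ := hloc x hx
    refine ⟨r, hr, C' + |Real.log ν|, fun j y hy m hm => ?_⟩
    obtain rfl : m = 0 := Nat.le_zero.1 hm
    rw [norm_iteratedFDeriv_zero]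
    exact hval j y (hrU hy)
  have heta : ∀ (j : J), ∀ z ∈ U, 0 < eta2a (g j.1.1) (fun z => Θ (z, j.1.1)) z := fun j z hz =>
    H.eta_pos (hUO hz) (hLT j.2.1)
  have heq : ∀ j, ∀ z ∈ U, (cH (w j) z).det = (Real.exp (w j z + h j z) : ℂ) := by
    intro j z hz
    have h1 := j.2.2.1.ke _ _ (hpar j) (hmaps j) z hz
    rw [show (w j) = fun z => j.1.2 (Θ (z, j.1.1)) from rfl, h1, Real.exp_add,
      Real.exp_log (heta j z hz)]
  have hell' : ∀ x ∈ U, ∃ r > 0, ∃ lo > 0, ∃ hi : ℝ, ∀ j, ∀ z ∈ Metric.ball x r, ∀ v,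
      lo * ‖v‖ ^ 2 ≤ lev (w j) z v ∧ lev (w j) z v ≤ hi * ‖v‖ ^ 2 := by
    intro x hx
    obtain ⟨r, hr, hrU⟩ := hloc x hx
    refine ⟨r, hr, lo / C', by positivity, Real.exp C' / ν * C' ^ (n - 1) * hi,
      fun j z hz v => ?_⟩
    have hzU := hrU hz
    have hzK := hUK hzU
    have hzO := hUO hzU
    have hτ := j.2.1
    have h1 := (hBd j).lev_le _ _ (hpar j) (hmaps j) z hzU
    have h2 := hell z hzK j.1.1 hτ
    have hsq : ContDiffAt ℝ ∞ (FS_333.sq fun z => Θ (z, j.1.1)) z :=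
      contDiffAt_sq hUo (hpar j).holk hzU
    constructor
    · have h3 := h1 v
      have h4 := (h2 v).1
      rw [div_mul_eq_mul_div, div_le_iff₀ hC0]
      have h5 : w j = fun z => j.1.2 (Θ (z, j.1.1)) := rfl
      rw [h5]
      linarith
    · have h5 := (hpar j).flat hzU (H.reg z hzO _ (hLT hτ))
      have hng : 0 < nga (g j.1.1) (Θ (z, j.1.1)) := H.nga_pos hzO (hLT hτ)
      set κ : ℝ := Real.exp (w j z) / nga (g j.1.1) (Θ (z, j.1.1)) with hκ
      have hdet : (cH (w j) z).det = (κ : ℂ) * (cH (FS_333.sq fun z => Θ (z, j.1.1)) z).det := by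
        have h6 := j.2.2.1.ke _ _ (hpar j) (hmaps j) z hzU
        rw [show (w j) = fun z => j.1.2 (Θ (z, j.1.1)) from rfl, h6, h5, ← ofReal_mul]
        congr 1
        rw [hκ]
        show Real.exp (j.1.2 (Θ (z, j.1.1))) * _ = Real.exp (j.1.2 (Θ (z, j.1.1))) / _ * _
        field_simp
      have h7 := CLH_39.ell_of_det ((hw j).contDiffAt (hUo.mem_nhds hzU)) hsq
        (fun v hv => by
          have h8 := (h2 v).1
          have h9 : 0 < ‖v‖ := norm_pos_iff.2 hv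
          have : 0 < lo * ‖v‖ ^ 2 := by positivity
          linarith) hC0 h1 hdet v
      refine h7.trans ?_
      have hκ0 : 0 < κ := div_pos (Real.exp_pos _) hng
      have hκle : κ ≤ Real.exp C' / ν := by
        refine div_le_div₀ (Real.exp_pos _).le (Real.exp_le_exp.2 ?_) hν
          (hnga z hzK _ hτ)
        exact (hBd j).hi _ (hmaps j z hzU) ((hpar j).lvl z hzU)
      have h10 : 0 ≤ lev (FS_333.sq fun z => Θ (z, j.1.1)) z v := by
        have := (h2 v).1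
        have h9 : 0 ≤ lo * ‖v‖ ^ 2 := by positivity
        linarith
      calc κ * C' ^ (n - 1) * lev (FS_333.sq fun z => Θ (z, j.1.1)) z v
          ≤ Real.exp C' / ν * C' ^ (n - 1) * lev (FS_333.sq fun z => Θ (z, j.1.1)) z v := by
            gcongr
        _ ≤ Real.exp C' / ν * C' ^ (n - 1) * (hi * ‖v‖ ^ 2) := by
            have := (h2 v).2
            gcongr
        _ = _ := by ring
  have hfin := eloc YauC3_812.c3Stmt hUo hw hh hUh h0 hell' heq k
  obtain ⟨B, hB⟩ := hfin.compact hK hKK'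
  exact ⟨B, fun τ hτ u hu hb z hz m hm => hB ⟨(τ, u), hτ, hu, hb⟩ z hz m hm⟩

end PF

end fam

end

end Crest.Agent.R257.LimC_37
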