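import Crest.Agent.R257.SkelV_952
import Crest.Agent.R257.KEG_952
import Crest.Agent.R257.LossB_625
import Crest.Agent.R257.GBLabs_844
import Crest.Agent.R257.LossD_309
import Crest.Agent.R257.LossA_625
import Crest.Agent.R257.OutA_309
import Crest.Agent.R257.Ked4_397
import Crest.Agent.R257.Bd_309

-- ▼ part R257/SkelV3_952
section

/-!
R257 / SkelV3_952: `VStmt` from `GB1Stmt`, `V31Stmt`, `PosStmt` (instead of `GBtStmt`, `V3Stmt`,
`KltStmt`, `KltMStmt`).
-/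

set_option autoImplicit false

open Topology Filter MeasureTheory Set
open scoped ENNReal ContDiff Matrix

noncomputable section

namespace Crest.Agent.R257.SkelV_952

open Crest.Agent.R275.Geo
open Crest.Agent.R257.Defs_219 Crest.Agent.R257.KED_952 Crest.Agent.R257.KEG_952
open Crest.Agent.R257.PN_835 (nsq)

theorem V_core (nu : NuStmt) (meas : MeasStmt) (fat : FatStmt) (cvi : CvIStmt) (ctd : CtDStmt)
    (bmy : BmyStmt) (cvd : CvDStmt) (bd : BdStmt) (gb0 : GB0Stmt) (gbt : GB1Stmt) (v1 : V1Stmt)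
    (v3 : V31Stmt) (out : OutStmt) {G : E3 × ℂ → ℂ} {μ d : ℕ} {R r c₀ e : ℝ}
    {P : ℂ → MvPolynomial (Fin 3) ℂ} {c : Fin 3 → ℂ} (hG : GFam G μ d R r c₀ e P c)
    (hpos1 : 0 < mstar (sl G 0) → ∀ᶠ t in 𝓝[≠] (0 : ℂ), 0 < mstar (sl G t)) {m : ℝ}
    (hm : m < mstar (sl G 0)) : ∀ᶠ t in 𝓝[≠] (0 : ℂ), m ≤ mstar (sl G t) := by
  rcases (mstar_nonneg (sl G 0)).eq_or_lt with h0 | hpos
  · refine Eventually.of_forall fun t => ?_
    have := mstar_nonneg (sl G t)
    linarith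
  by_contra hcon
  rw [Filter.not_eventually] at hcon
  have hne : (𝓝[≠] (0 : ℂ) ⊓ 𝓟 {t | ¬ m ≤ mstar (sl G t)}).NeBot := by
    rw [← Filter.frequently_mem_iff_neBot]
    exact hcon
  obtain ⟨T, hT'⟩ : ∃ T : Ultrafilter ℂ, (T : Filter ℂ) ≤ 𝓝[≠] 0 ⊓ 𝓟 {t | ¬ m ≤ mstar (sl G t)} :=
    ⟨Ultrafilter.of _, Ultrafilter.of_le _⟩
  have hT : (T : Filter ℂ) ≤ 𝓝[≠] 0 := hT'.trans inf_le_left
  have hTm : ∀ᶠ t in (T : Filter ℂ), mstar (sl G t) < m := by
    have h1 : ∀ᶠ t in (T : Filter ℂ), ¬ m ≤ mstar (sl G t) := hT'.trans inf_le_right (mem_principal_self _)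
    exact h1.mono fun t ht => not_le.1 ht
  obtain ⟨r₁, C, w, S, hr, hr1, hS, hA, hB⟩ := out G μ d R r c₀ e P c hG
  obtain ⟨u₀, k1, k2⟩ := hB T hT
  obtain ⟨χ, hχ⟩ := exists_cut hr
  -- neighbourhoods
  have hR0 : ‖(0 : ℂ)‖ < R := by simpa using hG.R_pos
  have hRn : ∀ᶠ t in 𝓝 (0 : ℂ), ‖t‖ < R := (continuous_norm.tendsto (0 : ℂ)).eventually
    (gt_mem_nhds hR0)
  have hRT : ∀ᶠ t in (T : Filter ℂ), ‖t‖ < R := (hT.trans nhdsWithin_le_nhds) hRn
  -- measures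
  have hex : ∀ τ : PP, ∃ ν : Measure E3, ‖τ.1‖ < R → IsNu (fun x => fam G (x, τ)) 0 r₁ ν := by
    intro τ
    by_cases hτ : ‖τ.1‖ < R
    · obtain ⟨ν, hν⟩ := nu (fun x => fam G (x, τ)) 0 r₁ hr
        (fun x _ => (an_fam hG x hτ).curry_left) (fun x hx hx1 _ => sm_fam hG hr hr1 hτ x hx hx1.le)
      exact ⟨ν, fun _ => hν⟩
    · exact ⟨0, fun h => absurd h hτ⟩
  choose ν hν using hex
  set L : Filter PP := Filter.bind (T : Filter ℂ) fun t => map (fun s => (t, s)) (S : Filter ℂ)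
    with hL
  set LT : Filter PP := map (fun t => (t, 0)) (T : Filter ℂ) with hLT
  have hS0 : (S : Filter ℂ) ≤ 𝓝 0 := hS.trans nhdsWithin_le_nhds
  have hT0 : (T : Filter ℂ) ≤ 𝓝 0 := hT.trans nhdsWithin_le_nhds
  have hLn : L ≤ 𝓝 (0, 0) := by
    intro U hU
    obtain ⟨U₁, h1, U₂, h2, h3⟩ := mem_nhds_prod_iff.1 hU
    rw [hL, Filter.mem_bind']
    filter_upwards [hT0 h1] with t ht
    show ∀ᶠ s in (S : Filter ℂ), (t, s) ∈ U
    filter_upwards [hS0 h2] with s hs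
    exact h3 ⟨ht, hs⟩
  have hLne : L.NeBot := by
    rw [Filter.neBot_iff, hL]
    intro h
    have h1 : (∅ : Set PP) ∈ L := by
      rw [hL, h]
      exact mem_bot
    rw [hL, Filter.mem_bind'] at h1
    obtain ⟨t, ht⟩ := Filter.nonempty_of_mem h1
    have h2 : (∅ : Set ℂ) ∈ (S : Filter ℂ) := ht
    exact Filter.empty_notMem _ h2
  have hLTn : LT ≤ 𝓝 (0, 0) := by
    have : Tendsto (fun t : ℂ => ((t, 0) : PP)) (𝓝 0) (𝓝 (0, 0)) :=
      (Continuous.prodMk continuous_id continuous_const).tendsto' _ _ rfl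
    exact this.mono_left hT0
  have hSn : ∀ t : ℂ, map (fun s => ((t, s) : PP)) (S : Filter ℂ) ≤ 𝓝 (t, 0) := fun t => by
    have : Tendsto (fun s : ℂ => ((t, s) : PP)) (𝓝 0) (𝓝 (t, 0)) :=
      (Continuous.prodMk continuous_const continuous_id).tendsto' _ _ rfl
    exact this.mono_left hS0
  -- the data
  have hL1 : ∀ {Q : PP → Prop}, (∀ᶠ t in (T : Filter ℂ), ∀ᶠ s in (S : Filter ℂ), Q (t, s)) →
      ∀ᶠ τ in L, Q τ := fun {Q} h => by
    rw [hL, Filter.eventually_bind]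
    exact h
  have hSne : ∀ᶠ s in (S : Filter ℂ), s ≠ 0 := hS self_mem_nhdsWithin
  have SM0 : SmD (fam G) (0, 0) L r₁ C w u₀ := by
    refine ⟨⟨fam_gfam hG hr hr1 hR0 hLn, k2⟩, hL1 ?_⟩
    filter_upwards [hRT] with t ht
    filter_upwards [hSne] with s hs
    exact nz_fam hG ht hs
  have FT : FamD (fam G) (0, 0) LT r₁ C w u₀ := ⟨fam_gfam hG hr hr1 hR0 hLTn, k1⟩
  have SMt : ∀ᶠ t in (T : Filter ℂ),
      SmD (fam G) (t, 0) (map (fun s => (t, s)) (S : Filter ℂ)) r₁ C w (w (t, 0)) := by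
    filter_upwards [hRT, hT hA] with t ht hk
    refine ⟨⟨fam_gfam hG hr hr1 ht (hSn t), hk⟩, ?_⟩
    rw [Filter.eventually_map]
    filter_upwards [hSne] with s hs
    exact nz_fam hG ht hs
  have hνL : ∀ᶠ τ in L, IsNu (fun x => fam G (x, τ)) 0 r₁ (ν τ) := by
    refine hL1 ?_
    filter_upwards [hRT] with t ht
    exact Eventually.of_forall fun s => hν (t, s) ht
  have hνLT : ∀ᶠ τ in LT, IsNu (fun x => fam G (x, τ)) 0 r₁ (ν τ) := by
    rw [hLT, Filter.eventually_map]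
    filter_upwards [hRT] with t ht using hν (t, 0) ht
  have hν0 : IsNu (fun x => fam G (x, (0, 0))) 0 r₁ (ν (0, 0)) := hν (0, 0) hR0
  have hkt : ∀ᶠ t in (T : Filter ℂ), 0 < mstar (sl G t) := hT (hpos1 hpos)
  -- the numbers
  set MM : ℝ≥0∞ := ENNReal.ofReal (Real.pi ^ 2 * (μ + 1)) with hMM
  obtain ⟨B, hBd⟩ := bd (fam G) (0, 0) L r₁ C w u₀ SM0 χ hχ ν hνL
  have hC0 : C2I (ν (0, 0)) (fun x => fam G (x, (0, 0))) u₀ χ ≤ ENNReal.ofReal B := by
    by_contra hcon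
    rw [not_le] at hcon
    have hct : ∀ᶠ τ in L, CtL (fun x => fam G (x, τ)) 0 r₁
        (fun x => χ x * c2d (fun x => fam G (x, τ)) (w τ) x) := by
      have h1 : ∀ᶠ τ in L, ‖τ.1‖ < R := hL1 (hRT.mono fun t ht => Eventually.of_forall fun _ => ht)
      filter_upwards [h1, k2.ke] with τ h2 h3
      exact CtL.mul (ctl_amb hχ.sm.continuous) (ctd _ 0 r₁ hr
        (fun x _ => (an_fam hG x h2).curry_left) (fun x hx hx1 _ => sm_fam hG hr hr1 h2 x hx hx1.le)
        (w τ) h3.1).1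
    have h1 := fat (fam G) (0, 0) L r₁ SM0.toFam ν (ν (0, 0)) hνL hν0 _ _ hct
      (CtL.mul (ctl_amb hχ.sm.continuous) (ctd _ 0 r₁ hr (fam_an SM0.toFam) (fam_sm SM0.toFam) u₀
        k2.ke0.1).1) (cv_c cvd ctd SM0.toFamD hχ) _ hcon
    obtain ⟨τ, h2, h3⟩ := (h1.and hBd).exists
    exact absurd h3 (not_le.2 h2)
  have hsp0 := c2i_split meas bmy hr (fam_an SM0.toFam) (fam_sm SM0.toFam) hν0 k2.ke0.1 hχ
  set C0 := C2I (ν (0, 0)) (fun x => fam G (x, (0, 0))) u₀ χ with hC0d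
  set A0 := VOL (ν (0, 0)) u₀ χ with hA0d
  set E0 := C2E (ν (0, 0)) (fun x => fam G (x, (0, 0))) u₀ χ with hE0d
  have hC0f : C0 ≠ ⊤ := (hC0.trans_lt ENNReal.ofReal_lt_top).ne
  have h23 : ENNReal.ofReal (2 / 3) ≠ 0 := by
    rw [Ne, ENNReal.ofReal_eq_zero]
    norm_num
  have hE0f : E0 ≠ ⊤ := fun h => hC0f (by rw [hsp0, h, top_add])
  have hA0f : A0 ≠ ⊤ := fun h => hC0f (by rw [hsp0, h, ENNReal.mul_top h23, add_top])
  -- comparison of the losses
  have hcmp : ∀ ε : ℝ, 0 < ε → ∀ᶠ t in (T : Filter ℂ),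
      C2I (ν (t, 0)) (fun x => fam G (x, (t, 0))) (w (t, 0)) χ ≤
        C0 + ENNReal.ofReal ε + ENNReal.ofReal ε := by
    intro ε hε
    have h1 := gb0 (fam G) (0, 0) L r₁ C w u₀ SM0 _ rfl (by rw [fam_zero]; exact hpos) χ hχ ν
      (ν (0, 0)) hνL hν0 ε hε
    rw [fam_zero G 0, hG.mu 0 hR0] at h1
    have h1' : ∀ᶠ t in (T : Filter ℂ), ∀ᶠ s in (S : Filter ℂ),
        C2I (ν (t, s)) (fun x => fam G (x, (t, s))) (w (t, s)) χ ≤ C0 + MM + ENNReal.ofReal ε := by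
      rw [hL, Filter.eventually_bind] at h1
      filter_upwards [h1] with t ht
      rw [Filter.eventually_map] at ht
      filter_upwards [ht] with s hs
      rw [hC0d, fam_zero G 0]
      exact hs
    filter_upwards [h1', SMt, hkt, hRT] with t h2 h3 h4 h5
    have h6 := gbt (fam G) (t, 0) _ r₁ C w (w (t, 0)) h3 _ rfl (by rw [fam_zero]; exact h4) χ hχ ν
      (ν (t, 0)) (by
        rw [Filter.eventually_map]
        exact Eventually.of_forall fun s => hν (t, s) h5) (hν (t, 0) h5) ε hε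
    rw [Filter.eventually_map] at h6
    obtain ⟨s, h7, h8⟩ := (h2.and h6).exists
    have h9 : (col (par fun x => fam G (x, (t, 0))) : ℝ) = μ := by
      rw [fam_zero, hG.mu t h5]
    rw [h9, ← hMM] at h8
    have h10 : C2I (ν (t, 0)) (fun x => fam G (x, (t, 0))) (w (t, 0)) χ + MM ≤
        (C0 + ENNReal.ofReal ε + ENNReal.ofReal ε) + MM := by
      refine h8.trans ?_
      calc C2I (ν (t, s)) (fun x => fam G (x, (t, s))) (w (t, s)) χ + ENNReal.ofReal ε
          ≤ C0 + MM + ENNReal.ofReal ε + ENNReal.ofReal ε := by gcongr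
        _ = _ := by abel
    exact (ENNReal.add_le_add_iff_right ENNReal.ofReal_ne_top).1 h10
  -- Fatou
  have hfat : ∀ δ : ℝ, 0 < δ → ∀ᶠ t in (T : Filter ℂ),
      E0 ≤ C2E (ν (t, 0)) (fun x => fam G (x, (t, 0))) (w (t, 0)) χ + ENNReal.ofReal δ := by
    intro δ hδ
    by_cases hE : E0 ≤ ENNReal.ofReal δ
    · exact Eventually.of_forall fun t => hE.trans le_add_self
    · rw [not_le] at hE
      have hlt : E0 - ENNReal.ofReal δ < E0 := ENNReal.sub_lt_self hE0f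
        (pos_of_gt hE).ne' (by simpa using hδ)
      have hct : ∀ᶠ τ in LT, CtL (fun x => fam G (x, τ)) 0 r₁
          (fun x => χ x * (c2d (fun x => fam G (x, τ)) (w τ) x - 2 / 3 * Real.exp (w τ x))) := by
        have h1 : ∀ᶠ τ in LT, ‖τ.1‖ < R := by
          rw [hLT, Filter.eventually_map]
          exact hRT
        filter_upwards [h1, k1.ke] with τ h2 h3
        exact ct_e ctd hr (fun x _ => (an_fam hG x h2).curry_left)
          (fun x hx hx1 _ => sm_fam hG hr hr1 h2 x hx hx1.le) h3.1 hχ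
      have h1 := fat (fam G) (0, 0) LT r₁ FT.toFam ν (ν (0, 0)) hνLT hν0 _ _ hct
        (ct_e ctd hr (fam_an FT.toFam) (fam_sm FT.toFam) k1.ke0.1 hχ) (cv_e cvd ctd FT hχ) _ hlt
      rw [hLT, Filter.eventually_map] at h1
      filter_upwards [h1] with t ht
      exact tsub_le_iff_right.1 ht.le
  -- the volumes
  have hvol : ∀ η : ℝ, 0 < η → ∀ᶠ t in (T : Filter ℂ),
      (VOL (ν (t, 0)) (w (t, 0)) χ).toReal ≤ A0.toReal + η := by
    intro η hη
    filter_upwards [hcmp (2 / 9 * η) (by positivity), hfat (2 / 9 * η) (by positivity), SMt, hRT]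
      with t h1 h2 h3 h4
    have hsp := c2i_split meas bmy hr (fam_an h3.toFam) (fam_sm h3.toFam) (hν (t, 0) h4) h3.ke0.1 hχ
    set At := VOL (ν (t, 0)) (w (t, 0)) χ with hAt
    set Et := C2E (ν (t, 0)) (fun x => fam G (x, (t, 0))) (w (t, 0)) χ with hEt
    rw [hsp] at h1
    have hfin : Et + ENNReal.ofReal (2 / 3) * At ≠ ⊤ :=
      (h1.trans_lt (by simp [hC0f.lt_top])).ne
    have hEf : Et ≠ ⊤ := fun h => hfin (by rw [h, top_add])
    have hAf : At ≠ ⊤ := fun h => hfin (by rw [h, ENNReal.mul_top h23, add_top])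
    have h5 : Et.toReal + 2 / 3 * At.toReal ≤ C0.toReal + 2 / 9 * η + 2 / 9 * η := by
      have h6 := ENNReal.toReal_mono (by simp [hC0f]) h1
      rw [ENNReal.toReal_add hEf (ENNReal.mul_ne_top ENNReal.ofReal_ne_top hAf),
        ENNReal.toReal_mul, ENNReal.toReal_ofReal (by norm_num),
        ENNReal.toReal_add (by simp [hC0f]) ENNReal.ofReal_ne_top,
        ENNReal.toReal_add hC0f ENNReal.ofReal_ne_top,
        ENNReal.toReal_ofReal (by positivity)] at h6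
      exact h6
    have h7 : C0.toReal = E0.toReal + 2 / 3 * A0.toReal := by
      rw [hsp0, ENNReal.toReal_add hE0f (ENNReal.mul_ne_top ENNReal.ofReal_ne_top hA0f),
        ENNReal.toReal_mul, ENNReal.toReal_ofReal (by norm_num)]
    have h8 : E0.toReal ≤ Et.toReal + 2 / 9 * η := by
      have h9 := ENNReal.toReal_mono (by simp [hEf]) h2
      rw [ENNReal.toReal_add hEf ENNReal.ofReal_ne_top, ENNReal.toReal_ofReal (by positivity)] at h9
      exact h9
    linarith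
  -- the total masses
  have htot : Tendsto (fun τ => TOT (ν τ) (fun x => fam G (x, τ)) (w τ) χ) LT
      (𝓝 (TOT (ν (0, 0)) (fun x => fam G (x, (0, 0))) u₀ χ)) := by
    obtain ⟨r₂, r₃, h1, h2, h3, h4⟩ := supp_t hχ
    have hct : ∀ᶠ τ in LT, CtL (fun x => fam G (x, τ)) 0 r₁
        (fun x => w τ x * mxd (fun x => fam G (x, τ)) (w τ) χ x) := by
      have h1 : ∀ᶠ τ in LT, ‖τ.1‖ < R := by
        rw [hLT, Filter.eventually_map]
        exact hRT
      filter_upwards [h1, k1.ke] with τ h2 h3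
      exact CtL.mul (ctl_ke h3.1) ((ctd _ 0 r₁ hr (fun x _ => (an_fam hG x h2).curry_left)
        (fun x hx hx1 _ => sm_fam hG hr hr1 h2 x hx hx1.le) (w τ) h3.1).2 χ hχ.sm)
    refine cvi (fam G) (0, 0) LT r₁ FT.toFam ν (ν (0, 0)) hνLT hν0 _ _ hct
      (CtL.mul (ctl_ke k1.ke0.1) ((ctd _ 0 r₁ hr (fam_an FT.toFam) (fam_sm FT.toFam) u₀
        k1.ke0.1).2 χ hχ.sm)) (cv_t cvd ctd FT hχ) ⟨r₂, r₃, h1, h2, h3, fun x hx => ⟨fun τ => ?_, ?_⟩⟩
    · rw [h4 x hx, mul_zero]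
    · rw [h4 x hx, mul_zero]
  -- the end
  have hV1 := v1 (fam G) (0, 0) L r₁ C w u₀ SM0 _ rfl (by rw [fam_zero]; exact hpos) χ hχ
    (ν (0, 0)) hν0
  rw [fam_zero] at hV1
  have hpi : 0 < Real.pi ^ 2 := by positivity
  set T0 := TOT (ν (0, 0)) (sl G 0) u₀ χ with hT0d
  set η : ℝ := Real.pi ^ 2 * (mstar (sl G 0) - m) / 4 with hη
  have hη0 : 0 < η := by
    have : 0 < mstar (sl G 0) - m := by linarith
    positivity
  have h1 : ∀ᶠ t in (T : Filter ℂ), T0 - η < TOT (ν (t, 0)) (fun x => fam G (x, (t, 0))) (w (t, 0)) χ := by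
    rw [fam_zero] at htot
    have := htot.eventually (lt_mem_nhds (show T0 - η < T0 by linarith))
    rwa [hLT, Filter.eventually_map] at this
  obtain ⟨t, h2, h3, h4, h5, h6, h7⟩ :=
    (h1.and ((hvol η hη0).and (SMt.and (hkt.and (hRT.and hTm))))).exists
  have hV3 := v3 (fam G) (t, 0) _ r₁ C w (w (t, 0)) h4 _ rfl (by rw [fam_zero]; exact h5) χ hχ
    (ν (t, 0)) (hν (t, 0) h6)
  unfold mas at hV1 hV3
  rw [le_div_iff₀ hpi] at hV1
  rw [div_le_iff₀ hpi] at hV3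
  have h8 : mstar (fun x => fam G (x, (t, 0))) < m := by
    rw [fam_zero]
    exact h7
  have h9 : mstar (fun x => fam G (x, (t, 0))) * Real.pi ^ 2 < m * Real.pi ^ 2 :=
    mul_lt_mul_of_pos_right h8 hpi
  have h10 : 4 * η = Real.pi ^ 2 * (mstar (sl G 0) - m) := by rw [hη]; ring
  nlinarith


end Crest.Agent.R257.SkelV_952
end
end

-- ▼ part R257/LossC_625
section

/-!
# R257 (S0395), task GB-LOSS (helper625): the first half of the loss lemma, abstract form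

* `Tst.jay`  : `∫ -L(∂∂̄u + ∂∂̄L)∧∂∂̄θ` in terms of `D = L - φ`
* `Sit`      : a punctured level with its weight and a cut-off; `cj A u j = cv ((A - u)/j)`
* `Sit.dec`  : `∂∂̄(χ c_j) = ∂∂̄χ - (sc/j) Y + χ ∂∂̄c_j`
* `Sit.lim_w`, `Sit.low_S`, `Sit.avg_of_le`
-/

set_option autoImplicit false
set_option linter.unusedSectionVars false

open Topology Filter MeasureTheory Set
open scoped ENNReal ContDiff Matrix ComplexOrder

noncomputable section

namespace Crest.Agent.R257.LossC_625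

open Crest.Agent.R275.Geo
open Crest.Agent.R257.Defs_219
open Crest.Agent.R257.KED_952
open Crest.Agent.R257.V1Defs_822
open Crest.Agent.R257.V1Pe_822
open Crest.Agent.R257.V1Top_822
open Crest.Agent.R257.LossA_625 Crest.Agent.R257.LossB_625
open Crest.Agent.R273.Defs_333 (lev)
open Crest.Agent.R273.YauDefs_635 (cH)
open Crest.Agent.R257.PN_835 (nsq)
open Crest.Agent.R257.Aff_835 (eta2a nga)
open Crest.Agent.R257.C2F1_625 (pd)

variable {f : E3 → ℂ} {r : ℝ} {ν : Measure E3}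

theorem mx_add (hf : LvlOK f 0 r) {a b t : E3 → ℝ} (ha : SmL f 0 r a) (hb : SmL f 0 r b) {x : E3}
    (hx : x ∈ Lv f r) : mxd f (fun y => a y + b y) t x = mxd f a t x + mxd f b t x := by
  simp only [mxd_eq_fx]
  exact fx_add hf ha hb hx

theorem mx_mul (hf : LvlOK f 0 r) {a t : E3 → ℝ} (ha : SmL f 0 r a) (c : ℝ) {x : E3}
    (hx : x ∈ Lv f r) : mxd f (fun y => c * a y) t x = c * mxd f a t x := by
  simp only [mxd_eq_fx]
  exact fx_mul hf ha c hx

theorem int6 {a b c d e g : E3 → ℝ} (ia : Integrable a ν) (ib : Integrable b ν)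
    (ic : Integrable c ν) (id : Integrable d ν) (ie : Integrable e ν) (ig : Integrable g ν) :
    ∫ x, (a x - b x - c x + d x - e x - g x) ∂ν =
      ∫ x, a x ∂ν - ∫ x, b x ∂ν - ∫ x, c x ∂ν + ∫ x, d x ∂ν - ∫ x, e x ∂ν - ∫ x, g x ∂ν := by
  have h1 : Integrable (fun x => a x - b x) ν := ia.sub ib
  have h2 : Integrable (fun x => a x - b x - c x) ν := h1.sub ic
  have h3 : Integrable (fun x => a x - b x - c x + d x) ν := h2.add id
  have h4 : Integrable (fun x => a x - b x - c x + d x - e x) ν := h3.sub ie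
  rw [integral_sub h4 ig, integral_sub h3 ie, integral_add h2 id, integral_sub h1 ic,
    integral_sub ia ib]

section jay

variable {t L u φ : E3 → ℝ}

/-- the algebra of the integrand -/
theorem jay (ht : Tst f r ν t) (hf : LvlOK f 0 r) (hν : IsNu f 0 r ν) (hL : SmL f 0 r L)
    (hu : SmL f 0 r u) (hφ : SmL f 0 r φ) {D : E3 → ℝ} (hD : ∀ x, D x = L x - φ x) :
    Integrable (fun x => - L x * (mxd f u t x + mxd f L t x)) ν ∧
    Integrable (fun x => fx f (Gf D) t x) ν ∧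
    ∫ x, - L x * (mxd f u t x + mxd f L t x) ∂ν =
      ∫ x, fx f (Gf D) t x ∂ν - ∫ x, D x * mxd f (fun y => 2 * φ y + u y) t x ∂ν
        - ∫ x, φ x * mxd f (fun y => φ y + u y) t x ∂ν := by
  have hDs : SmL f 0 r D := fun θ O h => by
    have := (hL θ O h).sub (hφ θ O h)
    exact this.congr fun z _ => hD _
  have hD2 : SmL f 0 r fun x => D x ^ 2 / 2 := fun θ O h => ((hDs θ O h).pow 2).div_const 2
  have hLD : ∀ x ∈ Lv f r, mxd f L t x = mxd f D t x + mxd f φ t x := fun x hx => by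
    rw [← mx_add hf hDs hφ hx]
    congr 2
    funext y
    rw [hD]
    ring
  have iu := ht.int L u hL hu
  have iL := ht.int L L hL hL
  have iDD := ht.int D D hDs hDs
  have iD2 := ht.int1 hf hν hD2
  have iDφ := ht.int D φ hDs hφ
  have iφD := ht.int φ D hφ hDs
  have h2φ : SmL f 0 r fun y => 2 * φ y := smL_smul 2 hφ
  have iw := ht.int D _ hDs (smL_add h2φ hu)
  have iv := ht.int φ _ hφ (smL_add hφ hu)
  have i1 : Integrable (fun x => - L x * (mxd f u t x + mxd f L t x)) ν := by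
    refine (iu.add iL).neg.congr (Eventually.of_forall fun x => ?_)
    simp only [Pi.neg_apply, Pi.add_apply]
    ring
  have i2 : Integrable (fun x => fx f (Gf D) t x) ν := by
    refine (iD2.sub iDD).congr (ae_lv hν fun x hx => ?_)
    simp only [Pi.sub_apply]
    rw [fx_Gf hf hx]
  refine ⟨i1, i2, ?_⟩
  have e1 : ∫ x, D x * mxd f φ t x ∂ν = ∫ x, φ x * mxd f D t x ∂ν := ht.sym D φ hDs hφ
  have e2 : ∫ x, mxd f (fun y => D y ^ 2 / 2) t x ∂ν = 0 := ht.one hf hν hD2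
  have e3 : ∫ x, - L x * (mxd f u t x + mxd f L t x) ∂ν =
      ∫ x, (fx f (Gf D) t x - D x * mxd f (fun y => 2 * φ y + u y) t x
        - φ x * mxd f (fun y => φ y + u y) t x + D x * mxd f φ t x - φ x * mxd f D t x
        - mxd f (fun y => D y ^ 2 / 2) t x) ∂ν := by
    refine integral_congr_ae (ae_lv hν fun x hx => ?_)
    beta_reduce
    rw [fx_Gf hf hx, mx_add hf h2φ hu hx, mx_add hf hφ hu hx, mx_mul hf hφ 2 hx, hLD x hx]
    have := hD x
    have hL' : L x = D x + φ x := by rw [this]; ring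
    rw [hL']
    ring
  rw [e3, int6 i2 iw iv iDφ iφD iD2, e1, e2]
  ring

end jay

/-! ### the situation -/

/-- a punctured level with its weight and a cut-off -/
structure Sit (f : E3 → ℂ) (r : ℝ) (ν : Measure E3) (A : ℝ) (u χ : E3 → ℝ) : Prop where
  lvl : LvlOK f 0 r
  nu : IsNu f 0 r ν
  ke : KEon f 0 r u
  cut : Cut r χ
  one : ∀ x ∈ Lv f r, 1 ≤ A - u x
  inf : ∀ c : ℝ, ∃ δ : ℝ, 0 < δ ∧ ∀ x ∈ Lv f r, nsq x < δ ^ 2 → u x < c

/-- the convex cut-off functions -/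
def cj (A : ℝ) (u : E3 → ℝ) (j : ℝ) (x : E3) : ℝ := cv ((A - u x) / j)

/-- the fixed error term -/
def Yf (f : E3 → ℂ) (A : ℝ) (u χ : E3 → ℝ) (S : F2) (x : E3) : ℝ :=
  fx f S (fun y => χ y * (A - u y)) x + χ x * fx f S u x

/-- pairings with compactly supported functions are integrable -/
def IntF (f : E3 → ℂ) (r : ℝ) (ν : Measure E3) (S : F2) (D : E3 → ℝ) : Prop :=
  ∀ a, SmL f 0 r a → Cs f r a → Integrable (fun x => D x * fx f S a x) ν

theorem intF_hS (hf : LvlOK f 0 r) (hν : IsNu f 0 r ν) {w D : E3 → ℝ} (hw : SmL f 0 r w)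
    (hD : SmL f 0 r D) : IntF f r ν (hS w) D := fun a ha hc =>
  (stk3 hf hν hD hw ha hc).1.congr (ae_lv hν fun x hx => by
    show D x * _ = D x * _
    rw [comm_lv hf hx, mxd_eq_fx])

section sit

variable {A : ℝ} {u χ : E3 → ℝ} (h : Sit f r ν A u χ)
include h

theorem Sit.cj_sm (j : ℝ) : SmL f 0 r (cj A u j) :=
  smL_comp (g := fun t => cv ((A - t) / j)) (cv_sm.comp ((contDiff_const.sub contDiff_id).div_const j))
    h.ke.sm

theorem Sit.χ_sm : SmL f 0 r χ := cut_smL h.cut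

/-- `χ c_j` has compact support -/
theorem Sit.cs {j : ℝ} (hj : 0 < j) : Cs f r fun x => χ x * cj A u j x := by
  obtain ⟨r₁, r₂, hs⟩ := exists_sh h.cut
  obtain ⟨δ, hδ, h1⟩ := h.inf (A - j)
  refine ⟨δ, r₂, hδ, hs.p2, hs.lt, fun x hx hx2 => ?_⟩
  show χ x * cj A u j x = 0
  rcases hx2 with hx2 | hx2
  · have h2 := h1 x hx hx2
    rw [cj, cv_zero, mul_zero]
    rw [one_le_div hj]
    linarith
  · rw [(hs.zero x hx2).self_of_nhds, zero_mul]

theorem Sit.θ_sm (j : ℝ) : SmL f 0 r fun x => χ x * cj A u j x := smL_mul h.χ_sm (h.cj_sm j)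

/-- `W` is bounded on annuli -/
theorem Sit.exists_B {r₁ r₂ : ℝ} (hs : Sh r χ r₁ r₂) :
    ∃ B : ℝ, 1 ≤ B ∧ ∀ x ∈ Lv f r, r₁ ^ 2 ≤ nsq x → nsq x ≤ r₂ ^ 2 → A - u x ≤ B := by
  have hK := Bridge_822.ann_compact h.lvl hs.p1 hs.p2 hs.lt
  have hc : Continuous fun x : (UpK_938.LX h.lvl).M 0 => A - u x.1 :=
    continuous_const.sub (Bridge_822.cont_val h.lvl fun θ O hθ => (h.ke.sm θ O hθ).continuousOn)
  obtain ⟨B, hB⟩ := hK.exists_bound_of_continuousOn hc.continuousOn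
  refine ⟨max B 1, le_max_right _ _, fun x hx h1 h2 => ?_⟩
  have h3 := hB (UpK_938.mkM h.lvl hx.1 hx.2.1 hx.2.2) ⟨h1, h2⟩
  rw [Real.norm_eq_abs] at h3
  exact ((le_abs_self _).trans h3).trans (le_max_left _ _)

/-- **the decomposition** -/
theorem Sit.dec {r₁ r₂ B : ℝ} (hs : Sh r χ r₁ r₂)
    (hB : ∀ x ∈ Lv f r, r₁ ^ 2 ≤ nsq x → nsq x ≤ r₂ ^ 2 → A - u x ≤ B) {j : ℝ} (hj : 0 < j)
    (hjB : 2 * B < j) (S : F2) {x : E3} (hx : x ∈ Lv f r) :
    fx f S (fun y => χ y * cj A u j y) x =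
      fx f S χ x - sc / j * Yf f A u χ S x + χ x * fx f S (cj A u j) x := by
  have hf := h.lvl
  have hWs : SmL f 0 r fun y => A - u y := fun θ O hθ => contDiffOn_const.sub (h.ke.sm θ O hθ)
  have hχW : SmL f 0 r fun y => χ y * (A - u y) := smL_mul h.χ_sm hWs
  by_cases h1 : nsq x < r₁ ^ 2
  · have e1 : fx f S (fun y => χ y * cj A u j y) x = fx f S (cj A u j) x :=
      fx_congr hf hx fun θ O hP z hz hzx => by
        filter_upwards [ev_pe (hs.one x h1) hP hz hzx] with y hy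
        rw [hy, one_mul]
    have e2 : fx f S (fun y => χ y * (A - u y)) x = - fx f S u x := by
      have e3 : fx f S (fun y => χ y * (A - u y)) x = fx f S (fun y => A - u y) x :=
        fx_congr hf hx fun θ O hP z hz hzx => by
          filter_upwards [ev_pe (hs.one x h1) hP hz hzx] with y hy
          rw [hy, one_mul]
      rw [e3, fx_sub hf (smL_const A) h.ke.sm hx,
        fx_const (c := A) hf hx fun θ O hP z hz hzx => Eventually.of_forall fun _ => rfl]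
      ring
    unfold Yf
    rw [e1, e2, hs.fx_zero hf hx (Or.inl h1), (hs.one x h1).self_of_nhds]
    ring
  by_cases h2 : r₂ ^ 2 < nsq x
  · have e1 : fx f S (fun y => χ y * cj A u j y) x = 0 :=
      fx_const (c := 0) hf hx fun θ O hP z hz hzx => by
        filter_upwards [ev_pe (hs.zero x h2) hP hz hzx] with y hy
        rw [hy, zero_mul]
    have e2 : fx f S (fun y => χ y * (A - u y)) x = 0 :=
      fx_const (c := 0) hf hx fun θ O hP z hz hzx => by
        filter_upwards [ev_pe (hs.zero x h2) hP hz hzx] with y hy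
        rw [hy, zero_mul]
    unfold Yf
    rw [e1, e2, hs.fx_zero hf hx (Or.inr h2), (hs.zero x h2).self_of_nhds]
    ring
  have hWx : A - u x < j / 2 := by
    have := hB x hx (not_lt.1 h1) (not_lt.1 h2)
    linarith
  have hev : ∀ θ O, PE f 0 r θ O → ∀ z ∈ O, θ z = x → ∀ᶠ y in 𝓝 z,
      cj A u j (θ y) = 1 - sc / j * (A - u (θ y)) := by
    intro θ O hP z hz hzx
    have hc : ContinuousAt (fun y => A - u (θ y)) z := (smAt hWs hP hz).continuousAt
    have h3 : ∀ᶠ y in 𝓝 z, A - u (θ y) < j / 2 :=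
      hc.eventually_lt continuousAt_const (by rw [hzx]; exact hWx)
    filter_upwards [h3] with y hy
    rw [cj, cv_aff]
    · ring
    · rw [div_le_iff₀ hj]
      linarith
  have e1 : fx f S (fun y => χ y * cj A u j y) x =
      fx f S χ x - sc / j * fx f S (fun y => χ y * (A - u y)) x := by
    rw [← fx_mul hf hχW (sc / j) hx, ← fx_sub hf h.χ_sm (smL_smul _ hχW) hx]
    refine fx_congr hf hx fun θ O hP z hz hzx => ?_
    filter_upwards [hev θ O hP z hz hzx] with y hy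
    rw [hy]
    ring
  have e2 : fx f S (cj A u j) x = sc / j * fx f S u x := by
    rw [← fx_mul hf h.ke.sm (sc / j) hx]
    have e3 : fx f S (cj A u j) x =
        fx f S (fun y => (1 - sc / j * A) + sc / j * u y) x := by
      refine fx_congr hf hx fun θ O hP z hz hzx => ?_
      filter_upwards [hev θ O hP z hz hzx] with y hy
      rw [hy]
      ring
    rw [e3, fx_add hf (smL_const _) (smL_smul _ h.ke.sm) hx,
      fx_const (c := 1 - sc / j * A) hf hx fun θ O hP z hz hzx => Eventually.of_forall fun _ => rfl,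
      zero_add]
  unfold Yf
  rw [e1, e2]
  ring

theorem Sit.pos_cj {S : F2} (hS : Psd f r S) {j : ℝ} (hj : 0 < j) {x : E3} (hx : x ∈ Lv f r) :
    0 ≤ fx f S (cj A u j) x := by
  refine fx_nonneg h.lvl hS (h.cj_sm j) hx fun θ O hP z hz _ v => ?_
  refine lev_cv_nonneg hj (smAt h.ke.sm hP hz) (fun v => ?_) v
  by_cases hv : v = 0
  · rw [hv]
    have : lev (fun y => u (θ y)) z 0 = 0 := by
      rw [Crest.Agent.R273.YauDefs_635.lev333_eq_lev145, Crest.Agent.R273.Levi_145.lev_zero,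
        mul_zero]
    rw [this]
  · exact (h.ke.pos θ O hP z hz v hv).le

theorem Sit.cj_off {S : F2} {j : ℝ} (hj : 0 < j) {x : E3} (hx : x ∈ Lv f r) (hW : j < A - u x) :
    fx f S (cj A u j) x = 0 := by
  refine fx_const (c := 0) h.lvl hx fun θ O hP z hz hzx => ?_
  have hWs : SmL f 0 r fun y => A - u y := fun θ O hθ => contDiffOn_const.sub (h.ke.sm θ O hθ)
  have hc : ContinuousAt (fun y => A - u (θ y)) z := (smAt hWs hP hz).continuousAt
  have h3 : ∀ᶠ y in 𝓝 z, j < A - u (θ y) :=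
    continuousAt_const.eventually_lt hc (by rw [hzx]; exact hW)
  filter_upwards [h3] with y hy
  rw [cj, cv_zero]
  rw [one_le_div hj]
  exact hy.le

/-- integrability with a cut-off -/
theorem Sit.int_cut {S : F2} {D : E3 → ℝ} (hI : IntF f r ν S D) :
    Integrable (fun x => D x * fx f S χ x) ν ∧ Integrable (fun x => D x * Yf f A u χ S x) ν := by
  have hf := h.lvl
  obtain ⟨r₁, r₂, hs⟩ := exists_sh h.cut
  obtain ⟨ξ, hξ, -, -, hξ1, a, b, ha, hb, hbr, hξ0⟩ := exists_xi hs.p1 hs.p2 hs.lt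
  have hξs : SmL f 0 r ξ := smL_amb hξ
  have hWs : SmL f 0 r fun y => A - u y := fun θ O hθ => contDiffOn_const.sub (h.ke.sm θ O hθ)
  have hχW : SmL f 0 r fun y => χ y * (A - u y) := smL_mul h.χ_sm hWs
  have cs : ∀ t, SmL f 0 r t → Integrable (fun x => D x * fx f S (fun y => ξ y * t y) x) ν :=
    fun t ht => hI _ (smL_mul hξs ht) ⟨a, b, ha, hb, hbr, fun x _ hx => by
      show ξ x * t x = 0
      rw [hξ0 x hx, zero_mul]⟩
  set N : Set E3 := {x | r₁ ^ 2 ≤ nsq x ∧ nsq x ≤ r₂ ^ 2} with hN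
  have hNm : MeasurableSet N :=
    ((isClosed_le continuous_const continuous_nsq3).inter
      (isClosed_le continuous_nsq3 continuous_const)).measurableSet
  have inN : ∀ t, ∀ x ∈ Lv f r, x ∈ N → fx f S (fun y => ξ y * t y) x = fx f S t x :=
    fun t x hx hxN => fx_congr hf hx fun θ O hP z hz hzx => by
      filter_upwards [ev_pe (hξ1 x hxN.1 hxN.2) hP hz hzx] with y hy
      rw [hy, one_mul]
  have offN : ∀ x, x ∉ N → nsq x < r₁ ^ 2 ∨ r₂ ^ 2 < nsq x := by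
    intro x hx
    by_contra hcon
    rw [not_or, not_lt, not_lt] at hcon
    exact hx hcon
  constructor
  · refine ((cs χ h.χ_sm).indicator hNm).congr (ae_lv h.nu fun x hx => ?_)
    by_cases hxN : x ∈ N
    · rw [indicator_of_mem hxN, inN χ x hx hxN]
    · beta_reduce
      rw [indicator_of_notMem hxN, hs.fx_zero hf hx (offN x hxN), mul_zero]
  · have i1 := cs _ hχW
    have i2 : Integrable (fun x => χ x * (D x * fx f S (fun y => ξ y * u y) x)) ν :=
      (cs u h.ke.sm).bdd_mul h.cut.sm.continuous.aestronglyMeasurable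
        (Eventually.of_forall fun x => by
          show ‖χ x‖ ≤ 1
          rw [Real.norm_eq_abs, abs_of_nonneg (h.cut.nn x)]
          exact h.cut.le x)
    refine ((i1.add i2).indicator hNm).congr (ae_lv h.nu fun x hx => ?_)
    by_cases hxN : x ∈ N
    · rw [indicator_of_mem hxN]
      simp only [Pi.add_apply]
      rw [inN _ x hx hxN, inN _ x hx hxN]
      unfold Yf
      ring
    · rw [indicator_of_notMem hxN]
      have e : Yf f A u χ S x = 0 := by
        unfold Yf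
        rcases offN x hxN with h1 | h2
        · have e3 : fx f S (fun y => χ y * (A - u y)) x = fx f S (fun y => A - u y) x :=
            fx_congr hf hx fun θ O hP z hz hzx => by
              filter_upwards [ev_pe (hs.one x h1) hP hz hzx] with y hy
              rw [hy, one_mul]
          rw [e3, fx_sub hf (smL_const A) h.ke.sm hx,
            fx_const (c := A) hf hx fun θ O hP z hz hzx => Eventually.of_forall fun _ => rfl,
            (hs.one x h1).self_of_nhds]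
          ring
        · have e2 : fx f S (fun y => χ y * (A - u y)) x = 0 :=
            fx_const (c := 0) hf hx fun θ O hP z hz hzx => by
              filter_upwards [ev_pe (hs.zero x h2) hP hz hzx] with y hy
              rw [hy, zero_mul]
          rw [e2, (hs.zero x h2).self_of_nhds]
          ring
      beta_reduce
      rw [e, mul_zero]

end sit

end Crest.Agent.R257.LossC_625
end
end

-- ▼ part R257/LossE_625
section

/-!
# R257 (S0395), task GB-LOSS (helper625): limits with the convex cut-off functions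

* `Sit.lim_w`     : `limsup ∫ D ∂∂̄w∧∂∂̄(χ c_j) ≤ ∫ D ∂∂̄w∧∂∂̄χ` under the averaged hypothesis `Avg`
* `Sit.avg_of_le` : `D ≤ C (1 + log W)`, `w` psh ⟹ `Avg`
* `Sit.low_S`     : `liminf ∫ ∂∂̄(χ c_j)∧S ≥ ∫ ∂∂̄χ∧S` for positive `S`
* `Sit.int_mono`  : monotone convergence
* `Sit.half1`     : **the first half of the loss lemma**
-/

set_option autoImplicit false
set_option linter.unusedSectionVars false

open Topology Filter MeasureTheory Set
open scoped ENNReal ContDiff Matrix ComplexOrder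

noncomputable section

namespace Crest.Agent.R257.LossC_625

open Crest.Agent.R275.Geo
open Crest.Agent.R257.Defs_219
open Crest.Agent.R257.KED_952
open Crest.Agent.R257.V1Defs_822
open Crest.Agent.R257.V1Pe_822
open Crest.Agent.R257.V1Top_822
open Crest.Agent.R257.LossA_625 Crest.Agent.R257.LossB_625
open Crest.Agent.R273.Defs_333 (lev)
open Crest.Agent.R273.YauDefs_635 (cH)
open Crest.Agent.R257.PN_835 (nsq)
open Crest.Agent.R257.Aff_835 (eta2a nga)
open Crest.Agent.R257.C2F1_625 (pd)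

variable {f : E3 → ℂ} {r : ℝ} {ν : Measure E3} {A : ℝ} {u χ : E3 → ℝ}

/-- plurisubharmonic on the level -/
def PshL (f : E3 → ℂ) (r : ℝ) (w : E3 → ℝ) : Prop :=
  ∀ θ O, PE f 0 r θ O → ∀ z ∈ O, ∀ v : Cn 2, 0 ≤ lev (fun z => w (θ z)) z v

theorem psd_hS {w : E3 → ℝ} (hw : SmL f 0 r w) (hp : PshL f r w) : Psd f r (hS w) :=
  fun θ O hP z hz => psd_cH (smAt hw hP hz) (hp θ O hP z hz)

/-- the averaged hypothesis -/
def Avg (f : E3 → ℂ) (ν : Measure E3) (A : ℝ) (u χ D w : E3 → ℝ) : Prop :=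
  ∀ ε : ℝ, 0 < ε → ∀ᶠ j : ℕ in atTop, ∫ x, χ x * (D x * mxd f (cj A u j) w x) ∂ν ≤ ε

theorem tend_div (c : ℝ) : Tendsto (fun j : ℕ => sc / (j : ℝ) * c) atTop (𝓝 0) := by
  have h := (tendsto_const_div_atTop_nhds_zero_nat sc).mul_const c
  rwa [zero_mul] at h

section sit

variable (h : Sit f r ν A u χ)
include h

/-- the integrated decomposition -/
theorem Sit.idec {S : F2} {D : E3 → ℝ} (hI : IntF f r ν S D) :
    ∀ᶠ j : ℕ in atTop, Integrable (fun x => χ x * (D x * fx f S (cj A u j) x)) ν ∧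
      ∫ x, D x * fx f S (fun y => χ y * cj A u j y) x ∂ν =
        ∫ x, D x * fx f S χ x ∂ν - sc / j * ∫ x, D x * Yf f A u χ S x ∂ν +
          ∫ x, χ x * (D x * fx f S (cj A u j) x) ∂ν := by
  obtain ⟨r₁, r₂, hs⟩ := exists_sh h.cut
  obtain ⟨B, hB1, hB⟩ := h.exists_B hs
  obtain ⟨i1, i2⟩ := h.int_cut hI
  filter_upwards [eventually_gt_atTop 0, eventually_gt_atTop ⌈2 * B⌉₊] with j hj hj2
  have hj0 : (0 : ℝ) < j := by exact_mod_cast hj
  have hjB : 2 * B < j := (Nat.le_ceil _).trans_lt (by exact_mod_cast hj2)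
  have i3 : Integrable (fun x => D x * fx f S (fun y => χ y * cj A u j y) x) ν :=
    hI _ (h.θ_sm j) (h.cs hj0)
  have e : ∀ x ∈ Lv f r, D x * fx f S (fun y => χ y * cj A u j y) x =
      D x * fx f S χ x - sc / j * (D x * Yf f A u χ S x) + χ x * (D x * fx f S (cj A u j) x) := by
    intro x hx
    rw [h.dec hs hB hj0 hjB S hx]
    ring
  have i4 : Integrable (fun x => χ x * (D x * fx f S (cj A u j) x)) ν := by
    refine ((i3.sub i1).add (i2.const_mul (sc / j))).congr (ae_lv h.nu fun x hx => ?_)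
    simp only [Pi.add_apply, Pi.sub_apply]
    rw [e x hx]
    ring
  refine ⟨i4, ?_⟩
  have i5 : Integrable (fun x => D x * fx f S χ x - sc / j * (D x * Yf f A u χ S x)) ν :=
    i1.sub (i2.const_mul (sc / j))
  rw [integral_congr_ae (ae_lv h.nu e), integral_add i5 i4, integral_sub i1 (i2.const_mul _),
    integral_const_mul]

theorem Sit.lim_w {w D : E3 → ℝ} (hw : SmL f 0 r w) (hD : SmL f 0 r D)
    (ha : Avg f ν A u χ D w) {ε : ℝ} (hε : 0 < ε) :
    ∀ᶠ j : ℕ in atTop, ∫ x, D x * mxd f w (fun y => χ y * cj A u j y) x ∂ν ≤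
      ∫ x, D x * mxd f w χ x ∂ν + ε := by
  have hI := intF_hS h.lvl h.nu hw hD
  have h1 := (tend_div (∫ x, D x * Yf f A u χ (hS w) x ∂ν)).eventually
    (Metric.ball_mem_nhds (0 : ℝ) (half_pos hε))
  filter_upwards [h.idec hI, ha (ε / 2) (half_pos hε), h1] with j h2 h3 h4
  have e1 : ∫ x, D x * mxd f w (fun y => χ y * cj A u j y) x ∂ν =
      ∫ x, D x * fx f (hS w) (fun y => χ y * cj A u j y) x ∂ν :=
    integral_congr_ae (ae_lv h.nu fun x hx => by
      beta_reduce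
      rw [comm_lv h.lvl hx, mxd_eq_fx])
  have e2 : ∫ x, D x * mxd f w χ x ∂ν = ∫ x, D x * fx f (hS w) χ x ∂ν :=
    integral_congr_ae (ae_lv h.nu fun x hx => by
      beta_reduce
      rw [comm_lv h.lvl hx, mxd_eq_fx])
  rw [e1, e2, h2.2]
  simp only [mxd_eq_fx] at h3
  rw [dist_zero_right, Real.norm_eq_abs] at h4
  have := (abs_lt.1 h4).1
  linarith

theorem Sit.low_S {S : F2} (hS : Psd f r S) (hI : IntF f r ν S fun _ => 1) {ε : ℝ} (hε : 0 < ε) :
    ∀ᶠ j : ℕ in atTop, ∫ x, fx f S χ x ∂ν ≤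
      ∫ x, fx f S (fun y => χ y * cj A u j y) x ∂ν + ε := by
  have h1 := (tend_div (∫ x, 1 * Yf f A u χ S x ∂ν)).eventually
    (Metric.ball_mem_nhds (0 : ℝ) hε)
  filter_upwards [h.idec hI, h1, eventually_gt_atTop 0] with j h2 h4 hj
  have hj0 : (0 : ℝ) < j := by exact_mod_cast hj
  have h5 : 0 ≤ ∫ x, χ x * (1 * fx f S (cj A u j) x) ∂ν :=
    integral_nonneg_of_ae (ae_lv h.nu fun x hx =>
      mul_nonneg (h.cut.nn x) (by rw [one_mul]; exact h.pos_cj hS hj0 hx))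
  have e := h2.2
  simp only [one_mul] at e h4 h5
  rw [e]
  rw [dist_zero_right, Real.norm_eq_abs] at h4
  have := (abs_lt.1 h4).2
  linarith

/-- the mass of `χ ∂∂̄c_j ∧ ∂∂̄w` -/
theorem Sit.mass {w : E3 → ℝ} (hw : SmL f 0 r w) :
    ∀ᶠ j : ℕ in atTop, Integrable (fun x => χ x * mxd f (cj A u j) w x) ν ∧
      ∫ x, χ x * mxd f (cj A u j) w x ∂ν = sc / j * ∫ x, Yf f A u χ (hS w) x ∂ν := by
  have hI := intF_hS h.lvl h.nu hw (smL_one (f := f) (r := r))
  filter_upwards [h.idec hI, eventually_gt_atTop 0] with j h2 hj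
  have hj0 : (0 : ℝ) < j := by exact_mod_cast hj
  obtain ⟨i, e⟩ := h2
  simp only [one_mul] at i e
  have e1 : ∫ x, fx f (hS w) (fun y => χ y * cj A u j y) x ∂ν = 0 := by
    rw [← (tst_cs h.lvl h.nu (h.θ_sm j) (h.cs hj0)).one h.lvl h.nu hw]
    exact integral_congr_ae (ae_lv h.nu fun x hx => by
      rw [comm_lv h.lvl hx, mxd_eq_fx])
  have e2 : ∫ x, fx f (hS w) χ x ∂ν = 0 := by
    rw [← (tst_cut h.lvl h.nu h.cut).one h.lvl h.nu hw]
    exact integral_congr_ae (ae_lv h.nu fun x hx => by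
      rw [comm_lv h.lvl hx, mxd_eq_fx])
  rw [e1, e2] at e
  simp only [mxd_eq_fx]
  exact ⟨i, by linarith⟩

theorem Sit.avg_of_le {w D : E3 → ℝ} (hw : SmL f 0 r w) (hp : PshL f r w) (hD : SmL f 0 r D)
    {C : ℝ} (hC : 0 ≤ C) (hb : ∀ x ∈ Lv f r, D x ≤ C * (1 + Real.log (A - u x))) :
    Avg f ν A u χ D w := by
  intro ε hε
  set m := ∫ x, Yf f A u χ (hS w) x ∂ν with hm
  have hI := intF_hS h.lvl h.nu hw hD
  have t1 : Tendsto (fun j : ℕ => C * (1 + Real.log j) * (sc / j * m)) atTop (𝓝 0) := by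
    have a1 : Tendsto (fun x : ℝ => Real.log x / x) atTop (𝓝 0) := by
      have := Real.isLittleO_log_id_atTop
      exact this.tendsto_div_nhds_zero
    have a2 : Tendsto (fun x : ℝ => x⁻¹) atTop (𝓝 0) := tendsto_inv_atTop_zero
    have a3 : Tendsto (fun x : ℝ => C * sc * m * (x⁻¹ + Real.log x / x)) atTop (𝓝 0) := by
      have := (a2.add a1).const_mul (C * sc * m)
      simpa using this
    refine (a3.comp tendsto_natCast_atTop_atTop).congr fun j => ?_
    simp only [Function.comp_apply]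
    ring
  filter_upwards [h.idec hI, h.mass hw, eventually_ge_atTop 1,
    t1.eventually (Metric.ball_mem_nhds (0 : ℝ) hε)] with j h2 h3 hj h4
  have hj1 : (1 : ℝ) ≤ j := by exact_mod_cast hj
  have hj0 : (0 : ℝ) < j := by linarith
  have hlog : 0 ≤ Real.log j := Real.log_nonneg hj1
  obtain ⟨i, -⟩ := h2
  simp only [← mxd_eq_fx] at i
  obtain ⟨i', e'⟩ := h3
  calc ∫ x, χ x * (D x * mxd f (cj A u j) w x) ∂ν
      ≤ ∫ x, C * (1 + Real.log j) * (χ x * mxd f (cj A u j) w x) ∂ν := by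
        refine integral_mono_ae i (i'.const_mul _) (ae_lv h.nu fun x hx => ?_)
        beta_reduce
        have hP := psd_hS hw hp
        by_cases hW : (j : ℝ) < A - u x
        · rw [mxd_eq_fx, h.cj_off hj0 hx hW]
          simp
        · have h5 : 0 ≤ mxd f (cj A u j) w x := by
            rw [mxd_eq_fx]
            exact h.pos_cj hP hj0 hx
          have h6 : D x ≤ C * (1 + Real.log j) := by
            refine (hb x hx).trans (mul_le_mul_of_nonneg_left ?_ hC)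
            have := Real.log_le_log (by linarith [h.one x hx]) (not_lt.1 hW)
            linarith
          have h7 := mul_le_mul_of_nonneg_right h6 (mul_nonneg (h.cut.nn x) h5)
          calc _ = D x * (χ x * mxd f (cj A u j) w x) := by ring
            _ ≤ _ := h7
    _ = C * (1 + Real.log j) * (sc / j * m) := by rw [integral_const_mul, e']
    _ ≤ ε := by
        rw [dist_zero_right, Real.norm_eq_abs] at h4
        exact ((le_abs_self _).trans h4.le)

theorem Sit.cj_tend {x : E3} : Tendsto (fun j : ℕ => χ x * cj A u j x) atTop (𝓝 (χ x)) := by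
  have h1 : Tendsto (fun j : ℕ => (A - u x) / (j : ℝ)) atTop (𝓝 0) :=
    tendsto_const_div_atTop_nhds_zero_nat _
  have h2 : Tendsto (fun j : ℕ => cv ((A - u x) / (j : ℝ))) atTop (𝓝 (cv 0)) :=
    (cv_sm.continuous.tendsto 0).comp h1
  have h3 : cv 0 = 1 := by
    rw [cv_aff (by norm_num)]
    ring
  rw [h3] at h2
  have := h2.const_mul (χ x)
  rwa [mul_one] at this

theorem Sit.cj_01 {x : E3} (hx : x ∈ Lv f r) {j : ℝ} (hj : 0 < j) :
    0 ≤ cj A u j x ∧ cj A u j x ≤ 1 :=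
  ⟨cv_nonneg _, cv_le_one (div_nonneg (by linarith [h.one x hx]) hj.le)⟩

/-- monotone convergence -/
theorem Sit.int_mono {X : E3 → ℝ} (hX : ∀ x ∈ Lv f r, 0 ≤ X x)
    (hi : ∀ j : ℕ, 0 < j → Integrable (fun x => (χ x * cj A u j x) * X x) ν) {K : ℝ}
    (hK : ∀ᶠ j : ℕ in atTop, ∫ x, (χ x * cj A u j x) * X x ∂ν ≤ K) :
    Integrable (fun x => χ x * X x) ν ∧
      Tendsto (fun j : ℕ => ∫ x, (χ x * cj A u j x) * X x ∂ν) atTop (𝓝 (∫ x, χ x * X x ∂ν)) := by
  have h0 : ∀ j : ℕ, 0 < j → ∀ x ∈ Lv f r, 0 ≤ (χ x * cj A u j x) * X x := fun j hj x hx =>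
    mul_nonneg (mul_nonneg (h.cut.nn x) (h.cj_01 hx (by exact_mod_cast hj)).1) (hX x hx)
  have ht : ∀ x, Tendsto (fun j : ℕ => (χ x * cj A u j x) * X x) atTop (𝓝 (χ x * X x)) :=
    fun x => h.cj_tend.mul_const _
  have h1 := GBLabs_844.fatou (μ := ν) (f := fun (j : ℕ) x => (χ x * cj A u j x) * X x)
    (g := fun x => χ x * X x) (K := K)
    (by
      filter_upwards [hK, eventually_gt_atTop 0] with j hj hj0
      exact ⟨hi j hj0, ae_lv h.nu fun x hx => h0 j hj0 x hx, hj⟩)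
    (Eventually.of_forall fun x => ht x)
  refine ⟨h1.1, ?_⟩
  refine tendsto_integral_filter_of_dominated_convergence (fun x => χ x * X x) ?_ ?_ h1.1
    (Eventually.of_forall fun x => ht x)
  · filter_upwards [eventually_gt_atTop 0] with j hj
    exact (hi j hj).aestronglyMeasurable
  · filter_upwards [eventually_gt_atTop 0] with j hj
    refine ae_lv h.nu fun x hx => ?_
    rw [Real.norm_eq_abs, abs_of_nonneg (h0 j hj x hx)]
    have := (h.cj_01 hx (show (0 : ℝ) < j by exact_mod_cast hj)).2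
    exact mul_le_mul_of_nonneg_right (mul_le_of_le_one_right (h.cut.nn x) this) (hX x hx)

end sit

/-! ### the first half -/

/-- the data of a section without zeros: `L = log |dh|²`, `Sb` = second fundamental form,
`ox a` = density of `∂∂̄a ∧ Γ`, `c` = density of the second Chern form -/
structure Sec (f : E3 → ℂ) (r : ℝ) (ν : Measure E3) (u L : E3 → ℝ) (Sb : F2)
    (ox : (E3 → ℝ) → E3 → ℝ) (c : E3 → ℝ) : Prop where
  sm : SmL f 0 r L
  psd : Psd f r Sb
  c0 : ∀ x ∈ Lv f r, 0 ≤ c x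
  p2 : ∀ a, SmL f 0 r a → ∀ x ∈ Lv f r,
    ox a x = - L x * (mxd f u a x + mxd f L a x) + fx f Sb a x
  p1 : ∀ a, SmL f 0 r a → Cs f r a → Integrable (fun x => a x * c x) ν ∧ Integrable (ox a) ν ∧
    ∫ x, a x * c x ∂ν = ∫ x, ox a x ∂ν

section half

variable {L φ D c : E3 → ℝ} {Sb : F2} {ox : (E3 → ℝ) → E3 → ℝ}

theorem smL_D (hL : SmL f 0 r L) (hφ : SmL f 0 r φ) (hD : ∀ x, D x = L x - φ x) :
    SmL f 0 r D := fun θ O h => by
  have := (hL θ O h).sub (hφ θ O h)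
  exact this.congr fun z _ => hD _

theorem Sec.intF (s : Sec f r ν u L Sb ox c) (h : Sit f r ν A u χ) :
    IntF f r ν Sb fun _ => 1 := fun a ha hc => by
  have h1 := (jay (φ := fun _ => 0) (D := L) (tst_cs h.lvl h.nu ha hc) h.lvl h.nu s.sm h.ke.sm
    (smL_const 0) fun x => by ring).1
  refine ((s.p1 a ha hc).2.1.sub h1).congr (ae_lv h.nu fun x hx => ?_)
  simp only [Pi.sub_apply]
  rw [s.p2 a ha x hx]
  ring

/-- the integral of `ox` -/
theorem Sec.ox_eq (s : Sec f r ν u L Sb ox c) (h : Sit f r ν A u χ) (hφ : SmL f 0 r φ)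
    (hD : ∀ x, D x = L x - φ x) {t : E3 → ℝ} (ht : Tst f r ν t)
    (hi : Integrable (fun x => fx f Sb t x) ν) :
    Integrable (ox t) ν ∧ ∫ x, ox t x ∂ν = ∫ x, fx f (Gf D) t x ∂ν
      - ∫ x, D x * mxd f (fun y => 2 * φ y + u y) t x ∂ν
      - ∫ x, φ x * mxd f (fun y => φ y + u y) t x ∂ν + ∫ x, fx f Sb t x ∂ν := by
  obtain ⟨i1, i2, e⟩ := jay ht h.lvl h.nu s.sm h.ke.sm hφ hD
  have e1 : ∀ x ∈ Lv f r, ox t x = - L x * (mxd f u t x + mxd f L t x) + fx f Sb t x :=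
    fun x hx => s.p2 t ht.sm x hx
  refine ⟨(i1.add hi).congr (ae_lv h.nu fun x hx => ?_), ?_⟩
  · simp only [Pi.add_apply]
    rw [e1 x hx]
  · rw [integral_congr_ae (ae_lv h.nu e1), integral_add i1 hi, e]

/-- **the first half of the loss lemma** -/
theorem Sit.half1 (h : Sit f r ν A u χ) (s : Sec f r ν u L Sb ox c) (hA : 0 < A)
    (hφ : SmL f 0 r φ) (hp : PshL f r φ) (hφA : ∀ x ∈ Lv f r, φ x ≤ A)
    (hD : ∀ x, D x = L x - φ x) (ha : Avg f ν A u χ D fun y => 2 * φ y + u y)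
    (hc : Integrable (fun x => χ x * c x) ν) (hφφ : Integrable (fun x => χ x * mxd f φ φ x) ν) :
    Integrable (fun x => χ x * mxd f u φ x) ν ∧ Integrable (ox χ) ν ∧
    ∫ x, ox χ x ∂ν + (∫ x, u x * mxd f φ χ x ∂ν - ∫ x, χ x * mxd f u φ x ∂ν) +
      (∫ x, φ x * mxd f φ χ x ∂ν - ∫ x, χ x * mxd f φ φ x ∂ν) ≤ ∫ x, χ x * c x ∂ν := by
  have hf := h.lvl
  have hν := h.nu
  have hu := h.ke.sm
  have hpu : PshL f r u := fun θ O hP z hz v => by
    by_cases hv : v = 0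
    · rw [hv, Crest.Agent.R273.YauDefs_635.lev333_eq_lev145,
        Crest.Agent.R273.Levi_145.lev_zero, mul_zero]
    · exact (h.ke.pos θ O hP z hz v hv).le
  have hDs := smL_D s.sm hφ hD
  have h2φ : SmL f 0 r fun y => 2 * φ y := smL_smul 2 hφ
  have hw : SmL f 0 r fun y => 2 * φ y + u y := smL_add h2φ hu
  have hψ : SmL f 0 r fun y => φ y + u y := smL_add hφ hu
  have hχ := tst_cut hf hν h.cut
  -- positivity of the densities
  have posφφ : ∀ x ∈ Lv f r, 0 ≤ mxd f φ φ x := fun x hx => by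
    rw [mxd_eq_fx]
    exact fx_nonneg hf (psd_hS hφ hp) hφ hx fun θ O hP z hz _ v => hp θ O hP z hz v
  have posuφ : ∀ x ∈ Lv f r, 0 ≤ mxd f u φ x := fun x hx => by
    rw [mxd_eq_fx]
    exact fx_nonneg hf (psd_hS hφ hp) hu hx fun θ O hP z hz _ v => hpu θ O hP z hz v
  -- the mixed term is integrable
  have hmix : Integrable (fun x => χ x * mxd f u φ x) ν := by
    have ha' : Avg f ν A u χ φ u := h.avg_of_le hu hpu hφ hA.le fun x hx => by
      have h1 := Real.log_nonneg (h.one x hx)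
      have h2 := hφA x hx
      nlinarith
    refine (h.int_mono posuφ (K := ∫ x, φ x * mxd f u χ x ∂ν + 1) (fun j hj => ?_) ?_).1
    · exact (stk3 hf hν hu hφ (h.θ_sm j) (h.cs (by exact_mod_cast hj))).2.1
    · filter_upwards [h.lim_w hu hφ ha' one_pos, eventually_gt_atTop 0] with j h1 hj
      refine le_trans (le_of_eq ?_) h1
      rw [(stk3 hf hν hφ hu (h.θ_sm j) (h.cs (by exact_mod_cast hj))).2.2]
      exact integral_congr_ae (ae_lv hν fun x hx => by
        beta_reduce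
        rw [comm_lv hf hx])
  -- the outer term
  have iSb := s.intF h
  have iG : IntF f r ν (Gf D) fun _ => 1 := fun a ha hcs => by
    have := (jay (tst_cs hf hν ha hcs) hf hν s.sm hu hφ hD).2.1
    simpa only [one_mul] using this
  have iSbχ : Integrable (fun x => fx f Sb χ x) ν := by
    simpa only [one_mul] using (h.int_cut iSb).1
  obtain ⟨iox, eox⟩ := s.ox_eq h hφ hD hχ iSbχ
  refine ⟨hmix, iox, ?_⟩
  have e1 : ∫ x, φ x * mxd f (fun y => φ y + u y) χ x ∂ν =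
      ∫ x, φ x * mxd f φ χ x ∂ν + ∫ x, u x * mxd f φ χ x ∂ν := by
    rw [hχ.sym u φ hu hφ, ← integral_add (hχ.int φ φ hφ hφ) (hχ.int φ u hφ hu)]
    refine integral_congr_ae (ae_lv hν fun x hx => ?_)
    beta_reduce
    rw [mx_add hf hφ hu hx]
    ring
  -- the inequality for `θ_j`
  refine le_of_forall_pos_le_add fun ε hε => ?_
  obtain ⟨j, hj, h1, h2, h3⟩ := ((eventually_gt_atTop 0).and
    ((h.lim_w hw hDs ha (show 0 < ε / 3 by positivity)).and
    ((h.low_S (psd_Gf hDs) iG (show 0 < ε / 3 by positivity)).and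
    (h.low_S s.psd iSb (show 0 < ε / 3 by positivity))))).exists
  have hj0 : (0 : ℝ) < j := by exact_mod_cast hj
  have hts := h.θ_sm j
  have hcs := h.cs hj0
  have ht := tst_cs hf hν hts hcs
  obtain ⟨p1, p2, p3⟩ := s.p1 _ hts hcs
  have iSbt : Integrable (fun x => fx f Sb (fun y => χ y * cj A u j y) x) ν := by
    simpa only [one_mul] using iSb _ hts hcs
  obtain ⟨-, eoxt⟩ := s.ox_eq h hφ hD ht iSbt
  have i1 : Integrable (fun x => (χ x * cj A u j x) * mxd f φ φ x) ν :=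
    (stk3 hf hν hφ hφ hts hcs).2.1
  have i2 : Integrable (fun x => (χ x * cj A u j x) * mxd f u φ x) ν :=
    (stk3 hf hν hu hφ hts hcs).2.1
  have e2 : ∫ x, φ x * mxd f (fun y => φ y + u y) (fun y => χ y * cj A u j y) x ∂ν =
      ∫ x, (χ x * cj A u j x) * mxd f φ φ x ∂ν + ∫ x, (χ x * cj A u j x) * mxd f u φ x ∂ν := by
    rw [(stk3 hf hν hφ hψ hts hcs).2.2, ← integral_add i1 i2]
    refine integral_congr_ae (ae_lv hν fun x hx => ?_)
    beta_reduce
    rw [comm_lv hf hx, mx_add hf hφ hu hx]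
    ring
  have le1 : ∀ X : E3 → ℝ, (∀ x ∈ Lv f r, 0 ≤ X x) →
      Integrable (fun x => (χ x * cj A u j x) * X x) ν → Integrable (fun x => χ x * X x) ν →
      ∫ x, (χ x * cj A u j x) * X x ∂ν ≤ ∫ x, χ x * X x ∂ν := fun X hX a1 a2 =>
    integral_mono_ae a1 a2 (ae_lv hν fun x hx => by
      beta_reduce
      exact mul_le_mul_of_nonneg_right
        (mul_le_of_le_one_right (h.cut.nn x) (h.cj_01 hx hj0).2) (hX x hx))
  have l1 := le1 _ posφφ i1 hφφ
  have l2 := le1 _ posuφ i2 hmix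
  have l3 := le1 _ s.c0 p1 hc
  have l4 : ∫ x, (χ x * cj A u j x) * c x ∂ν = ∫ x, ox (fun y => χ y * cj A u j y) x ∂ν := p3
  rw [eoxt, e2] at l4
  rw [eox, e1]
  linarith

end half

end Crest.Agent.R257.LossC_625
end
end

-- ▼ part R257/V0a_417
section

/-!
# R257 (S0395), leaf V0Stmt, part a (helper417): the bundle `(Ω¹ ⊗ L_φ, e^{-φ} ω⁻¹)` on a level

* `bv`      : metric `HO u φ θ` and section `dV h θ` in a parametrisation (`BV` of OutB_309)
* `chg`     : change of parametrisation (`Chg` of OutB_309)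
* `oxd_eq`  : `oxd` in a parametrisation
* `c2_HO`   : `c2 (HO u 0 θ) = c2 ((cH (u ∘ θ))ᵀ)`
-/

set_option autoImplicit false
set_option linter.unusedSectionVars false

open Set Filter Topology Complex MeasureTheory
open scoped ContDiff Matrix ComplexConjugate ComplexOrder ENNReal

namespace Crest.Agent.R257.V0a_417

open Crest.Agent.R275.Geo Crest.Agent.R275.EDR890
open Crest.Agent.R273.Fock_243 Crest.Agent.R273.Calc_243
open Crest.Agent.R273.Bkn_243 Crest.Agent.R273.Pos_243 Crest.Agent.R273.BochA_101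
open Crest.Agent.R273.BochB_101
open Crest.Agent.R273.BochC_101 Crest.Agent.R273.BochD_101
open Crest.Agent.R273.Hess_333 Crest.Agent.R273.HessB_333
open Crest.Agent.R273.Defs_333 (lev)
open Crest.Agent.R273.YauDefs_635 (cH)
open Crest.Agent.R273.YauMax_635 (cH_eq_hess)
open Crest.Agent.R257.C2F1_625 Crest.Agent.R257.C2F2_625 Crest.Agent.R257.C2F3_625
open Crest.Agent.R257.C2F4_335 Crest.Agent.R257.C2F5_335
open Crest.Agent.R257.Defs_219
open Crest.Agent.R257.PN_835 (nsq)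
open Crest.Agent.R257.Aff_835 (eta2a)
open Crest.Agent.R257.KED_952 Crest.Agent.R257.KEG_952 Crest.Agent.R257.Ked1_397
open Crest.Agent.R257.Ked2_397
open Crest.Agent.R257.V1Defs_822 (SmL LvlOK)
open Crest.Agent.R257.V1Pe_822 (smAt)
open Crest.Agent.R257.OutB_309 Crest.Agent.R257.LossD_309

noncomputable section

variable {f : E3 → ℂ} {s : ℂ} {r : ℝ} {u φ : E3 → ℝ} {h : E3 → ℂ} {θ : Cn 2 → E3}
  {O : Set (Cn 2)} {z : Cn 2}

theorem posDef_cH (hK : KEon f s r u) (hθ : PE f s r θ O) (hz : z ∈ O) :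
    (cH (fun z => u (θ z)) z).PosDef := by
  rw [cH_eq_hess (smAt (a := u) hK.sm hθ hz)]
  exact posDef_hess (smAt (a := u) hK.sm hθ hz) (hK.pos θ O hθ z hz)

theorem smM_cH {a : E3 → ℝ} (ha : SmL f s r a) (hθ : PE f s r θ O) (hz : z ∈ O) :
    SmM z (fun y => cH (fun z => a (θ z)) y) := fun p q =>
  (Crest.Agent.R273.YauLoc_635.contDiffOn_cH hθ.par.isOpen (ha θ O hθ) p q).contDiffAt
    (hθ.par.isOpen.mem_nhds hz)

theorem posDef_HO (hK : KEon f s r u) (hθ : PE f s r θ O) (hz : z ∈ O) :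
    (HO u φ θ z).PosDef :=
  (posDef_cH hK hθ hz).inv.smul (Complex.zero_lt_real.2 (Real.exp_pos _))

theorem smM_HO (hK : KEon f s r u) (hφ : SmL f s r φ) (hθ : PE f s r θ O) (hz : z ∈ O) :
    SmM z (HO u φ θ) := by
  intro p q
  have h1 : SmM z (fun y => (cH (fun z => u (θ z)) y)⁻¹) :=
    SmM.inv (smM_cH (a := u) hK.sm hθ hz) (posDef_cH hK hθ hz).det_pos.ne'
  have h2 : Sm z (fun y => ((Real.exp (-φ (θ y)) : ℝ) : ℂ)) :=
    contDiffAt_cu (smAt hφ hθ hz).neg.exp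
  exact h2.mul (h1 p q)

/-- the section is holomorphic -/
theorem an_hθ (hh : ∀ x, nsq x < r ^ 2 → AnalyticAt ℂ h x)
    (hθ : PE f s r θ O) (hz : z ∈ O) : AnalyticAt ℂ (fun z => h (θ z)) z :=
  (hh _ (hθ.lt z hz)).comp (GradE_537.anal_th hθ.par hz)

theorem an_dV (hh : ∀ x, nsq x < r ^ 2 → AnalyticAt ℂ h x)
    (hθ : PE f s r θ O) (hz : z ∈ O) (i : Fin 2) : AnalyticAt ℂ (fun w => dV h θ w i) z := by
  have h1 := (an_hθ hh hθ hz).fderiv
  exact ((ContinuousLinearMap.apply ℂ ℂ (EuclideanSpace.single i (1 : ℂ) : Cn 2)).analyticAt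
    _).comp h1

theorem bv (hK : KEon f s r u) (hφ : SmL f s r φ)
    (hh : ∀ x, nsq x < r ^ 2 → AnalyticAt ℂ h x) (hθ : PE f s r θ O) (hz : z ∈ O) :
    BV (HO u φ θ) (dV h θ) z where
  mH := by
    filter_upwards [hθ.par.isOpen.mem_nhds hz] with y hy
    exact smM_HO hK hφ hθ hy
  mP := by
    filter_upwards [hθ.par.isOpen.mem_nhds hz] with y hy
    exact posDef_HO hK hθ hy
  mV := fun i => by
    filter_upwards [hθ.par.isOpen.mem_nhds hz] with y hy
    exact (an_dV hh hθ hy i).differentiableAt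

/-- `dV` under a change of parametrisation -/
theorem dV_trans (hh : ∀ x, nsq x < r ^ 2 → AnalyticAt ℂ h x)
    (hθ : PE f s r θ O) {θ' : Cn 2 → E3} {z' : Cn 2} {T : Cn 2 → Cn 2}
    (hT : DifferentiableAt ℂ T z') (hTe : ∀ᶠ w in 𝓝 z', T w ∈ O ∧ θ' w = θ (T w)) :
    dV h θ' z' = (Jac T z')ᵀ *ᵥ dV h θ (T z') := by
  have h0 : T z' ∈ O := hTe.self_of_nhds.1
  have h1 : DifferentiableAt ℂ (fun z => h (θ z)) (T z') := (an_hθ hh hθ h0).differentiableAt
  have h2 : HasFDerivAt (fun w => h (θ' w))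
      ((fderiv ℂ (fun z => h (θ z)) (T z')).comp (fderiv ℂ T z')) z' := by
    have h3 := HasFDerivAt.comp z' (g := fun z => h (θ z)) h1.hasFDerivAt hT.hasFDerivAt
    refine h3.congr_of_eventuallyEq ?_
    filter_upwards [hTe] with w hw
    show h (θ' w) = h (θ (T w))
    rw [hw.2]
  funext i
  show fderiv ℂ (fun z => h (θ' z)) z' (EuclideanSpace.single i 1) = _
  rw [h2.fderiv, ContinuousLinearMap.comp_apply]
  have hsum : fderiv ℂ T z' (EuclideanSpace.single i 1) =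
      ∑ b, Jac T z' b i • (EuclideanSpace.single b (1 : ℂ) : Cn 2) := by
    ext c
    fin_cases c <;> simp [Jac]
  rw [hsum, map_sum, Matrix.mulVec, dotProduct]
  refine Finset.sum_congr rfl fun b _ => ?_
  rw [map_smul, smul_eq_mul]
  rfl

/-- holomorphic inverse of the transposed Jacobian -/
theorem holM_inv {T : Cn 2 → Cn 2} {z' : Cn 2} (hT : ∀ᶠ w in 𝓝 z', DifferentiableAt ℂ T w)
    (hdet : (Jac T z').det ≠ 0) : HolM z' (fun w => ((Jac T w)ᵀ)⁻¹) := by
  have hJ : ∀ a c : Fin 2, ∀ᶠ y in 𝓝 z', DifferentiableAt ℂ (fun w => Jac T w a c) y :=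
    fun a c => J_hol hT a c
  have hd : ∀ᶠ y in 𝓝 z', DifferentiableAt ℂ (fun w => (Jac T w).det) y := by
    have e : (fun w => (Jac T w).det) =
        fun w => Jac T w 0 0 * Jac T w 1 1 - Jac T w 0 1 * Jac T w 1 0 :=
      funext fun w => Matrix.det_fin_two _
    rw [e]
    filter_upwards [hJ 0 0, hJ 0 1, hJ 1 0, hJ 1 1] with y a0 a1 a2 a3
    exact (a0.fun_mul a3).fun_sub (a1.fun_mul a2)
  have hne : ∀ᶠ y in 𝓝 z', (Jac T y).det ≠ 0 := hd.self_of_nhds.continuousAt.eventually_ne hdet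
  have hinv : ∀ w, ((Jac T w)ᵀ)⁻¹ = ((Jac T w).det)⁻¹ •
      !![Jac T w 1 1, -Jac T w 1 0; -Jac T w 0 1, Jac T w 0 0] := by
    intro w
    rw [Matrix.inv_def, Ring.inverse_eq_inv', Matrix.det_transpose, Matrix.adjugate_fin_two]
    rfl
  intro a b
  filter_upwards [hJ 0 0, hJ 0 1, hJ 1 0, hJ 1 1, hd, hne] with y a0 a1 a2 a3 a4 a5
  have e : (fun w => ((Jac T w)ᵀ)⁻¹ a b) = fun w => ((Jac T w).det)⁻¹ *
      (!![Jac T w 1 1, -Jac T w 1 0; -Jac T w 0 1, Jac T w 0 0] : Matrix (Fin 2) (Fin 2) ℂ) a b :=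
    funext fun w => by rw [hinv]; rfl
  rw [e]
  refine (a4.fun_inv a5).fun_mul ?_
  fin_cases a <;> fin_cases b
  · exact a3
  · exact a2.fun_neg
  · exact a1.fun_neg
  · exact a0

theorem chg (hK : KEon f s r u) (hh : ∀ x, nsq x < r ^ 2 → AnalyticAt ℂ h x)
    (hθ : PE f s r θ O) {θ' : Cn 2 → E3} {z' : Cn 2} {T : Cn 2 → Cn 2}
    (hT : ∀ᶠ w in 𝓝 z', DifferentiableAt ℂ T w)
    (hTe : ∀ᶠ w in 𝓝 z', T w ∈ O ∧ θ' w = θ (T w)) (hdet : (Jac T z').det ≠ 0) :
    Chg (HO u φ θ') (dV h θ') (HO u φ θ) (dV h θ) T (fun w => ((Jac T w)ᵀ)⁻¹) z' where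
  T_hol := hT
  F_hol := holM_inv hT hdet
  F_ne := by
    rw [Matrix.det_nonsing_inv, Ring.inverse_eq_inv', Matrix.det_transpose]
    exact inv_ne_zero hdet
  eH := by
    filter_upwards [hTe.eventually_nhds, hT.eventually_nhds] with w h1 h2
    obtain ⟨a1, a2⟩ := hess_trans h2 h1 (a := u) (smAt (a := u) hK.sm hθ h1.self_of_nhds.1)
    have e1 : cH (fun z => u (θ' z)) w =
        (Jac T w)ᵀ * cH (fun z => u (θ z)) (T w) * (Jac T w).map conj := by
      rw [cH_eq_hess a1, a2, cH_eq_hess (smAt (a := u) hK.sm hθ h1.self_of_nhds.1)]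
      rfl
    have e2 : ((Jac T w).map conj)⁻¹ = (((Jac T w)ᵀ)⁻¹)ᴴ := by
      rw [Matrix.conjTranspose_nonsing_inv]
      rfl
    show ((Real.exp (-φ (θ' w)) : ℝ) : ℂ) • (cH (fun z => u (θ' z)) w)⁻¹ =
      (((Jac T w)ᵀ)⁻¹)ᴴ * (((Real.exp (-φ (θ (T w))) : ℝ) : ℂ) •
        (cH (fun z => u (θ z)) (T w))⁻¹) * ((Jac T w)ᵀ)⁻¹
    rw [e1, Matrix.mul_inv_rev, Matrix.mul_inv_rev, e2, h1.self_of_nhds.2, Matrix.mul_smul,
      Matrix.smul_mul, Matrix.mul_assoc]
  eV := by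
    have hJ : ∀ a c : Fin 2, ∀ᶠ y in 𝓝 z', DifferentiableAt ℂ (fun w => Jac T w a c) y :=
      fun a c => J_hol hT a c
    have hne : ∀ᶠ y in 𝓝 z', (Jac T y).det ≠ 0 := by
      have e : (fun w => (Jac T w).det) =
          fun w => Jac T w 0 0 * Jac T w 1 1 - Jac T w 0 1 * Jac T w 1 0 :=
        funext fun w => Matrix.det_fin_two _
      have hd : ContinuousAt (fun w => (Jac T w).det) z' := by
        rw [e]
        exact ((hJ 0 0).self_of_nhds.continuousAt.mul (hJ 1 1).self_of_nhds.continuousAt).sub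
          ((hJ 0 1).self_of_nhds.continuousAt.mul (hJ 1 0).self_of_nhds.continuousAt)
      exact hd.eventually_ne hdet
    filter_upwards [hTe.eventually_nhds, hT, hne] with w h1 h2 h3
    show dV h θ (T w) = ((Jac T w)ᵀ)⁻¹ *ᵥ dV h θ' w
    rw [dV_trans hh hθ h2 h1, Matrix.mulVec_mulVec, Matrix.nonsing_inv_mul, Matrix.one_mulVec]
    rw [Matrix.det_transpose]
    exact isUnit_iff_ne_zero.2 h3

/-- the symplectic matrix -/
def JJ : Matrix (Fin 2) (Fin 2) ℂ := !![0, 1; -1, 0]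

theorem inv_eq_JJ (G : Matrix (Fin 2) (Fin 2) ℂ) : G⁻¹ = JJᴴ * (G.det⁻¹ • Gᵀ) * JJ := by
  rw [Matrix.inv_def, Ring.inverse_eq_inv', Matrix.adjugate_fin_two]
  ext i j
  fin_cases i <;> fin_cases j <;>
    simp [JJ, Matrix.mul_apply, Fin.sum_univ_two, Matrix.conjTranspose_apply]

/-- the dual bundle has the same second Chern form -/
theorem c2_HO (hK : KEon f s r u) (hθ : PE f s r θ O) (hz : z ∈ O) :
    c2 (HO u (fun _ => 0) θ) z = c2 (fun y => (cH (fun z => u (θ z)) y)ᵀ) z := by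
  set K : Cn 2 → Matrix (Fin 2) (Fin 2) ℂ := fun y => (cH (fun z => u (θ z)) y)ᵀ with hKd
  have hKs : ∀ y ∈ O, SmM y K := fun y hy p q => smM_cH (a := u) hK.sm hθ hy q p
  have hKp : ∀ y ∈ O, (K y).PosDef := fun y hy => (posDef_cH hK hθ hy).transpose
  have eO : ∀ᶠ y in 𝓝 z, y ∈ O := hθ.par.isOpen.mem_nhds hz
  set ψ : Cn 2 → ℝ := fun y => Real.log (K y).det.re with hψ
  have hd : ∀ y ∈ O, 0 < (K y).det.re := fun y hy => det_re_pos'' (hKp y hy)
  have hψs : ContDiffAt ℝ ∞ ψ z :=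
    (Complex.reCLM.contDiff.contDiffAt.comp z (SmM.det (hKs z hz))).log (hd z hz).ne'
  have e : HO u (fun _ => 0) θ =ᶠ[𝓝 z] fun y =>
      (JJ)ᴴ * (((Real.exp (-ψ y) : ℝ) : ℂ) • K y) * JJ := by
    filter_upwards [eO] with y hy
    have h1 : (((K y).det.re : ℝ) : ℂ) = (K y).det := herm_det_im (hKp y hy).isHermitian
    have h2 : ((Real.exp (-ψ y) : ℝ) : ℂ) = (cH (fun z => u (θ z)) y).det⁻¹ := by
      rw [Real.exp_neg, hψ]
      simp only
      rw [Real.exp_log (hd y hy), Complex.ofReal_inv, h1, hKd]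
      simp only
      rw [Matrix.det_transpose]
    rw [h2]
    show ((Real.exp (-0) : ℝ) : ℂ) • (cH (fun z => u (θ z)) y)⁻¹ = _
    rw [neg_zero, Real.exp_zero, Complex.ofReal_one, one_smul, inv_eq_JJ]
  have hsm : ∀ᶠ y in 𝓝 z, SmM y fun y => ((Real.exp (-ψ y) : ℝ) : ℂ) • K y := by
    filter_upwards [eO] with y hy p q
    have h1 : ContDiffAt ℝ ∞ ψ y :=
      (Complex.reCLM.contDiff.contDiffAt.comp y (SmM.det (hKs y hy))).log (hd y hy).ne'
    have h2 : Sm y (fun y => ((Real.exp (-ψ y) : ℝ) : ℂ)) := contDiffAt_cu h1.neg.exp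
    exact h2.mul (hKs y hy p q)
  have hne : (((Real.exp (-ψ z) : ℝ) : ℂ) • K z).det ≠ 0 := by
    rw [Matrix.det_smul]
    exact mul_ne_zero (pow_ne_zero _ (Complex.ofReal_ne_zero.2 (Real.exp_pos _).ne'))
      (hKp z hz).det_pos.ne'
  have h3 : c2 (fun y => (JJ)ᴴ * (((Real.exp (-ψ y) : ℝ) : ℂ) • K y) * JJ) z =
      c2 (fun y => ((Real.exp (-ψ y) : ℝ) : ℂ) • K y) z := by
    refine c2_frame (F := fun _ => JJ) hsm hne (fun S T => ?_) ?_
    · exact Eventually.of_forall fun y => differentiableAt_const _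
    · simp [JJ]
  have h4 : hess ψ z = - Matrix.of (ric K z) := by
    ext a b
    have h5 := hess_neg_log_det (hKs z hz) (eO.mono fun y hy => (hKp y hy).isHermitian)
      (hd z hz) a b
    rw [Matrix.neg_apply, Matrix.of_apply, ← h5, hess_neg hψs, Matrix.neg_apply, neg_neg]
  rw [c2_congr e, h3, c2_twist (hKs z hz) (hKp z hz).det_pos.ne' hψs, h4]
  simp only [pd_neg, neg_pd]
  ring

/-- **`oxd` in a parametrisation** -/
theorem oxd_eq (hf : LvlOK f s r) (hK : KEon f s r u) (hφ : SmL f s r φ)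
    (hh : ∀ x, nsq x < r ^ 2 → AnalyticAt ℂ h x) (hθ : PE f s r θ O) (hz : z ∈ O)
    (h0 : dV h θ z ≠ 0) {c : E3 → ℝ} (hc : ContDiffAt ℝ ∞ (fun z => c (θ z)) z) :
    oxd f u φ h c (θ z) * eta2a (n := 2) f θ z =
      (pd (cH (fun z => c (θ z)) z) (Gm (HO u φ θ) (dV h θ) z)).re := by
  refine dns_eq (D := fun θ z =>
    (pd (cH (fun z => c (θ z)) z) (Gm (HO u φ θ) (dV h θ) z)).re) hθ.par hz
    (hf.an _ (hθ.lt z hz)) (hf.sm _ (hθ.ne z hz) (hθ.lt z hz) (hθ.par.lvl z hz)) ?_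
  intro θ' z' T hT hTz hTe hdet
  obtain ⟨a1, a2⟩ := hess_trans hT hTe (a := c) (by rw [hTz]; exact hc)
  have hb : BV (HO u φ θ) (dV h θ) (T z') := by rw [hTz]; exact bv hK hφ hh hθ hz
  have e3 := (chg (φ := φ) hK hh hθ hT hTe hdet).gm_eq hb (by rw [hTz]; exact h0)
  show (pd (cH (fun z => c (θ' z)) z') (Gm (HO u φ θ') (dV h θ') z')).re = _
  rw [cH_eq_hess a1, a2, e3, pd_pbk, hTz, Complex.mul_conj, Complex.normSq_eq_norm_sq,
    Complex.re_ofReal_mul, cH_eq_hess hc]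

end

end Crest.Agent.R257.V0a_417
end

-- ▼ part R257/V0b_417
section

/-!
# R257 (S0395), leaf V0Stmt, part b (helper417): (P1)

* `oxd_int` : `∫ c c₂(ω) = ∫ ∂∂̄c ∧ Γ` for `c` with compact support on the punctured level
-/

set_option autoImplicit false
set_option linter.unusedSectionVars false

open Set Filter Topology Complex MeasureTheory
open scoped ContDiff Matrix ComplexConjugate ComplexOrder ENNReal

namespace Crest.Agent.R257.V0b_417

open Crest.Agent.R275.Geo Crest.Agent.R275.EDR890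
open Crest.Agent.R273.Fock_243 Crest.Agent.R273.Calc_243
open Crest.Agent.R273.Bkn_243 Crest.Agent.R273.Pos_243 Crest.Agent.R273.BochA_101
open Crest.Agent.R273.BochB_101
open Crest.Agent.R273.BochC_101 Crest.Agent.R273.BochD_101
open Crest.Agent.R273.Hess_333 Crest.Agent.R273.HessB_333
open Crest.Agent.R273.Defs_333 (lev)
open Crest.Agent.R273.YauDefs_635 (cH)
open Crest.Agent.R273.YauMax_635 (cH_eq_hess)
open Crest.Agent.R257.C2F1_625 Crest.Agent.R257.C2F2_625 Crest.Agent.R257.C2F3_625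
open Crest.Agent.R257.C2F4_335 Crest.Agent.R257.C2F5_335
open Crest.Agent.R257.Defs_219
open Crest.Agent.R257.PN_835 (nsq)
open Crest.Agent.R257.Aff_835 (eta2a)
open Crest.Agent.R257.KED_952 Crest.Agent.R257.KEG_952
open Crest.Agent.R257.V1Defs_822 (SmL LvlOK)
open Crest.Agent.R257.V1Pe_822 (smAt)
open Crest.Agent.R257.OutA_309 Crest.Agent.R257.OutB_309 Crest.Agent.R257.LossD_309
open Crest.Agent.R257.Idx1_761 (CS hs hs_cu)
open Crest.Agent.R257.LossA_625 (fx Lv Psd dns_cases fx_add fx_congr fx_const ev_pe)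
open Crest.Agent.R257.V0a_417

noncomputable section

/-- the identity on an open set without zeros -/
theorem loc0 {H : Cn 2 → Matrix (Fin 2) (Fin 2) ℂ} {V : Cn 2 → Fin 2 → ℂ} {U : Set (Cn 2)}
    (hb : ∀ z ∈ U, BV H V z ∧ V z ≠ 0) {κ : Cn 2 → ℂ} (hκ : CS U κ) :
    Integrable (fun z => κ z * c2 H z) ∧ Integrable (fun z => pd (hs κ z) (Gm H V z)) ∧
      ∫ z, κ z * c2 H z = ∫ z, pd (hs κ z) (Gm H V z) := by
  have hG : ∀ z ∈ U, SmM z (Gm H V) := fun z hz => (hb z hz).1.sm_Gm (hb z hz).2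
  have e1 : (fun z => κ z * c2 H z) = fun z => κ z * ddm (Gm H V) z := by
    funext z
    by_cases hz : z ∈ U
    · rw [(hb z hz).1.c2_ddm (hb z hz).2]
    · rw [hκ.zero_off hz, zero_mul, zero_mul]
  have j1 : ∀ (s t : ℂ) (c d i j : Fin 2),
      Integrable fun z => κ z * dS s c (dS t d (fun y => Gm H V y i j)) z :=
    fun s t c d i j => (hκ.mul (fun z hz => ((hG z hz i j).dS t d).dS s c)).integrable
  have j2 : ∀ (s t : ℂ) (c d i j : Fin 2), Integrable fun z => dS s c (dS t d κ) z * Gm H V z i j :=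
    fun s t c d i j => (((hκ.dS t d).dS s c).mul (fun z hz => hG z hz i j)).integrable
  rw [e1]
  refine ⟨?_, ?_, Idx1_761.parts_ddm hκ hG⟩
  · have := (((j1 (-I) I 0 0 1 1).add (j1 (-I) I 1 1 0 0)).sub (j1 (-I) I 0 1 1 0)).sub
      (j1 (-I) I 1 0 0 1)
    refine this.congr (Eventually.of_forall fun z => ?_)
    simp only [Pi.sub_apply, Pi.add_apply, ddm]
    ring
  · have := (((j2 (-I) I 0 0 1 1).add (j2 (-I) I 1 1 0 0)).sub (j2 (-I) I 0 1 1 0)).sub
      (j2 (-I) I 1 0 0 1)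
    refine this.congr (Eventually.of_forall fun z => ?_)
    simp only [Pi.sub_apply, Pi.add_apply, pd, hs, Matrix.of_apply]

variable {f : E3 → ℂ} {r : ℝ} {u : E3 → ℝ} {h : E3 → ℂ}

/-- the form `Γ` on the level -/
def SG (u : E3 → ℝ) (h : E3 → ℂ) : LossA_625.Frm := fun θ z => Gm (HO u (fun _ => 0) θ) (dV h θ) z

theorem oxd_eq_fx (f : E3 → ℂ) (u : E3 → ℝ) (h : E3 → ℂ) (c : E3 → ℝ) :
    oxd f u (fun _ => 0) h c = fx f (SG u h) c := rfl

theorem smL_zero : SmL f 0 r (fun _ => 0) := fun _ _ _ => contDiffOn_const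

theorem dV_ne (hN : NoZ f r h) {θ : Cn 2 → E3} {O : Set (Cn 2)} (hθ : PE f 0 r θ O) {z : Cn 2}
    (hz : z ∈ O) : dV h θ z ≠ 0 := by
  intro h0
  refine hN θ O hθ z hz (ContinuousLinearMap.ext fun v => ?_)
  have hsum : v = ∑ a, v a • (EuclideanSpace.single a (1 : ℂ) : Cn 2) := by
    ext b
    fin_cases b <;> simp
  rw [hsum, map_sum]
  simp only [map_smul]
  have h1 : ∀ a : Fin 2, fderiv ℂ (fun z => h (θ z)) z (EuclideanSpace.single a 1) = 0 :=
    fun a => congrFun h0 a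
  simp only [h1]
  simp

/-- the local statement -/
def PP1 (f : E3 → ℂ) (u : E3 → ℝ) (h : E3 → ℂ) (c : E3 → ℝ) (ν : Measure E3) (φ : E3 → ℝ) : Prop :=
  Integrable (fun x => (φ x * c x) * c2d f u x) ν ∧
  Integrable (oxd f u (fun _ => 0) h (fun x => φ x * c x)) ν ∧
  ∫ x, (φ x * c x) * c2d f u x ∂ν = ∫ x, oxd f u (fun _ => 0) h (fun x => φ x * c x) x ∂ν

theorem ae_lv {ν : Measure E3} (hν : IsNu f 0 r ν) : ∀ᵐ x ∂ν, x ∈ Lv f r := by
  rw [ae_iff]
  exact hν.null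

theorem smL_mul {a b : E3 → ℝ} (ha : ContDiff ℝ ∞ a) (hb : SmL f 0 r b) :
    SmL f 0 r (fun x => a x * b x) := fun θ O hθ => by
  have h1 : ContDiffOn ℝ ∞ θ O :=
    ((Crest.Agent.R266.SCV.contDiffOn_omega_of_differentiableOn hθ.par.isOpen
      hθ.par.hol).restrict_scalars ℝ).of_le le_top
  exact (ha.comp_contDiffOn h1).mul (hb θ O hθ)

theorem oxd_off (hf : LvlOK f 0 r) {a : E3 → ℝ} {x : E3} (hx : x ∈ Lv f r)
    (h0 : ∀ᶠ y in 𝓝 x, a y = 0) : oxd f u (fun _ => 0) h a x = 0 := by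
  rw [oxd_eq_fx]
  exact fx_const (c := 0) hf hx fun θ O hθ z hz hzx => ev_pe h0 hθ hz hzx

theorem oxd_add (hf : LvlOK f 0 r) {a b : E3 → ℝ} (ha : SmL f 0 r a) (hb : SmL f 0 r b) {x : E3}
    (hx : x ∈ Lv f r) : oxd f u (fun _ => 0) h (fun y => a y + b y) x =
      oxd f u (fun _ => 0) h a x + oxd f u (fun _ => 0) h b x := by
  rw [oxd_eq_fx, oxd_eq_fx, oxd_eq_fx]
  exact fx_add hf ha hb hx

theorem off_tsup {φ : E3 → ℝ} {c : E3 → ℝ} {x : E3} (hx : x ∉ tsupport φ) :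
    ∀ᶠ y in 𝓝 x, φ y * c y = 0 := by
  filter_upwards [notMem_tsupport_iff_eventuallyEq.1 hx] with y hy
  rw [hy]
  simp

theorem local_lv (hf : LvlOK f 0 r) (hK : KEon f 0 r u)
    (hh : ∀ x, nsq x < r ^ 2 → AnalyticAt ℂ h x) (hN : NoZ f r h) {ν : Measure E3}
    (hν : IsNu f 0 r ν) {c : E3 → ℝ} (hc : SmL f 0 r c) {p : E3} (hp : p ∈ Lv f r) :
    ∃ W : Set E3, IsOpen W ∧ p ∈ W ∧ ∀ φ : E3 → ℝ, ContDiff ℝ ∞ φ →
      HasCompactSupport φ → tsupport φ ⊆ W → PP1 f u h c ν φ := by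
  obtain ⟨θ, ρ, q, N₀, hL₀⟩ := exists_lc (hf.an p hp.2.2) (hf.sm p hp.2.1 hp.2.2 hp.1) hp.1 hp.2.1
    hp.2.2
  have hWo : IsOpen {x : E3 | nsq x < r ^ 2} := isOpen_lt continuous_nsq continuous_const
  have hL := hL₀.shrink hL₀.pos le_rfl hWo hp.2.2
  set N := N₀ ∩ (q ⁻¹' Metric.ball 0 ρ ∩ {x : E3 | nsq x < r ^ 2}) with hNd
  have hNr : ∀ x ∈ N, nsq x < r ^ 2 := fun x hx => hx.2.2
  refine ⟨N, hL.No, hL.Np, fun φ hφ hφc hφN => ?_⟩
  set B := Metric.ball (0 : Cn 2) ρ with hB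
  have hθ := hL.pe
  obtain ⟨k1, k2, k3⟩ := hL.cut hf.an hNr hφ hφc hφN (hc θ _ hθ)
  set κ₀ : Cn 2 → ℝ := rdc θ ρ fun x => φ x * c x with hκ₀
  have hκ : CS B (cu κ₀) := by
    refine ⟨?_, ?_, ?_⟩
    · exact Complex.ofRealCLM.contDiff.comp k1
    · refine k2.comp_left (g := fun t : ℝ => (t : ℂ)) ?_
      simp
    · refine (closure_mono ?_).trans k3
      intro z hz hz'
      exact hz (by show ((κ₀ z : ℝ) : ℂ) = 0; rw [hz']; simp)
  have hb : ∀ z ∈ B, BV (HO u (fun _ => 0) θ) (dV h θ) z ∧ dV h θ z ≠ 0 := fun z hz =>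
    ⟨bv hK smL_zero hh hθ hz, dV_ne hN hθ hz⟩
  obtain ⟨i1, i2, i3⟩ := loc0 hb hκ
  have hden := Crest.Agent.R257.Ked2_397.denStmt f 0 r hf.pos hf.an hf.sm θ _ hθ
  have hφcs : SmL f 0 r (fun x => φ x * c x) := smL_mul hφ hc
  -- first integral
  have A1 := hL.integral hν hf.an hf.sm (F := fun x => (φ x * c x) * c2d f u x)
    (G := fun z => (cu κ₀ z * c2 (HO u (fun _ => 0) θ) z).re) i1.re (fun z hz => by
      have e1 := hden.2 u hK z hz
      rw [← c2_HO hK hθ hz] at e1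
      show (φ (θ z) * c (θ z)) * c2d f u (θ z) * eta2a (n := 2) f θ z =
        (((κ₀ z : ℝ) : ℂ) * c2 (HO u (fun _ => 0) θ) z).re
      rw [Complex.re_ofReal_mul, mul_assoc, e1, hκ₀, rdc_in hz])
    (fun z hz => by
      show (((κ₀ z : ℝ) : ℂ) * c2 (HO u (fun _ => 0) θ) z).re = 0
      rw [hκ₀, rdc_off hz]
      simp)
    (fun x _ _ _ hxN => by
      have : φ x = 0 := image_eq_zero_of_notMem_tsupport fun hx => hxN (hφN hx)
      show (φ x * c x) * c2d f u x = 0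
      rw [this, zero_mul, zero_mul])
  have A2 := hL.integral hν hf.an hf.sm (F := oxd f u (fun _ => 0) h (fun x => φ x * c x))
    (G := fun z => (pd (hs (cu κ₀) z) (Gm (HO u (fun _ => 0) θ) (dV h θ) z)).re) i2.re
    (fun z hz => by
      rw [oxd_eq hf hK smL_zero hh hθ hz (dV_ne hN hθ hz) (smAt hφcs hθ hz), hs_cu,
        hess_congr (rdc_ev hz), cH_eq_hess (smAt hφcs hθ hz)])
    (fun z hz => by
      have h1 : z ∉ tsupport κ₀ := fun h2 => hz (k3 h2)
      have h2 : κ₀ =ᶠ[𝓝 z] fun _ => (0 : ℝ) := notMem_tsupport_iff_eventuallyEq.1 h1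
      have h3 : hess (fun _ : Cn 2 => (0 : ℝ)) z = 0 := by
        have h4 : ContDiffAt ℝ ∞ (fun _ : Cn 2 => (0 : ℝ)) z := contDiffAt_const
        have h5 := hess_sub h4 h4
        simpa using h5
      rw [hs_cu, hess_congr h2, h3]
      simp [pd])
    (fun x h1 h2 h3 hxN =>
      oxd_off hf ⟨h1, h2, h3⟩ (off_tsup fun hx => hxN (hφN hx)))
  refine ⟨A1.1, A2.1, ?_⟩
  rw [A1.2, A2.2]
  have e1 : ∫ z, (cu κ₀ z * c2 (HO u (fun _ => 0) θ) z).re =
      (∫ z, cu κ₀ z * c2 (HO u (fun _ => 0) θ) z).re := by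
    have := integral_re i1
    simpa using this
  have e2 : ∫ z, (pd (hs (cu κ₀) z) (Gm (HO u (fun _ => 0) θ) (dV h θ) z)).re =
      (∫ z, pd (hs (cu κ₀) z) (Gm (HO u (fun _ => 0) θ) (dV h θ) z)).re := by
    have := integral_re i2
    simpa using this
  rw [e1, e2, i3]

/-- off the level nothing happens -/
theorem local_off (hf : LvlOK f 0 r) {ν : Measure E3}
    (hν : IsNu f 0 r ν) {c : E3 → ℝ} {p : E3} (hp0 : f p ≠ 0)
    (hpr : nsq p < r ^ 2) :
    ∃ W : Set E3, IsOpen W ∧ p ∈ W ∧ ∀ φ : E3 → ℝ, ContDiff ℝ ∞ φ →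
      HasCompactSupport φ → tsupport φ ⊆ W → PP1 f u h c ν φ := by
  have hWo : IsOpen {x : E3 | nsq x < r ^ 2} := isOpen_lt continuous_nsq continuous_const
  have hfc : ContinuousOn f {x : E3 | nsq x < r ^ 2} := fun x hx =>
    (hf.an x hx).continuousAt.continuousWithinAt
  refine ⟨{x : E3 | nsq x < r ^ 2} ∩ f ⁻¹' {0}ᶜ, hfc.isOpen_inter_preimage hWo
    isOpen_compl_singleton, ⟨hpr, hp0⟩, fun φ hφ hφc hφW => ?_⟩
  have hx0 : ∀ x ∈ Lv f r, x ∉ tsupport φ := fun x hx h1 => (hφW h1).2 hx.1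
  have z1 : (fun x => (φ x * c x) * c2d f u x) =ᵐ[ν] fun _ => 0 := by
    filter_upwards [ae_lv hν] with x hx
    rw [image_eq_zero_of_notMem_tsupport (hx0 x hx), zero_mul, zero_mul]
  have z2 : oxd f u (fun _ => 0) h (fun x => φ x * c x) =ᵐ[ν] fun _ => 0 := by
    filter_upwards [ae_lv hν] with x hx
    exact oxd_off hf hx (off_tsup (hx0 x hx))
  refine ⟨(integrable_zero E3 ℝ ν).congr z1.symm, (integrable_zero E3 ℝ ν).congr z2.symm, ?_⟩
  rw [integral_congr_ae z1, integral_congr_ae z2]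

/-- **(P1)** -/
theorem oxd_int (hf : LvlOK f 0 r) (hK : KEon f 0 r u)
    (hh : ∀ x, nsq x < r ^ 2 → AnalyticAt ℂ h x) (hN : NoZ f r h) {ν : Measure E3}
    (hν : IsNu f 0 r ν) {c : E3 → ℝ} (hc : SmL f 0 r c)
    (h0 : ∃ r₁ r₂ : ℝ, 0 < r₁ ∧ 0 < r₂ ∧ r₂ < r ∧
      ∀ x ∈ Lv f r, nsq x < r₁ ^ 2 ∨ r₂ ^ 2 < nsq x → c x = 0) :
    Integrable (fun x => c x * c2d f u x) ν ∧ Integrable (oxd f u (fun _ => 0) h c) ν ∧
    ∫ x, c x * c2d f u x ∂ν = ∫ x, oxd f u (fun _ => 0) h c x ∂ν := by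
  obtain ⟨r₁, r₂, hr1, hr2, hr3, h0⟩ := h0
  set r₃ : ℝ := (r₂ + r) / 2 with hr₃
  have h23 : r₂ < r₃ := by rw [hr₃]; linarith
  have h3r : r₃ < r := by rw [hr₃]; linarith
  have h3p : 0 < r₃ := hr2.trans h23
  have hq1 : (r₁ / 2) ^ 2 < r₁ ^ 2 := by nlinarith
  have hq2 : r₂ ^ 2 < r₃ ^ 2 := pow_lt_pow_left₀ h23 hr2.le two_ne_zero
  have hq3 : r₃ ^ 2 < r ^ 2 := pow_lt_pow_left₀ h3r h3p.le two_ne_zero
  set U : Set E3 := {x | (r₁ / 2) ^ 2 < nsq x ∧ nsq x < r₃ ^ 2} with hU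
  set A : Set E3 := {x | r₁ ^ 2 ≤ nsq x ∧ nsq x ≤ r₂ ^ 2} with hA
  have hUo : IsOpen U :=
    (isOpen_lt continuous_const continuous_nsq).inter (isOpen_lt continuous_nsq continuous_const)
  have hAc : IsClosed A :=
    (isClosed_le continuous_const continuous_nsq).inter
      (isClosed_le continuous_nsq continuous_const)
  obtain ⟨η, hη, hηU, hη1, -, -⟩ := exists_cutoff hUo hAc (fun x hx =>
    ⟨hq1.trans_le hx.1, hx.2.trans_lt hq2⟩)
  set K : Set E3 := {x | (r₁ / 2) ^ 2 ≤ nsq x ∧ nsq x ≤ r₃ ^ 2} with hKd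
  have hKc : IsCompact K := by
    have hc1 : IsCompact {x : E3 | nsq x ≤ r₃ ^ 2} := by
      refine Metric.isCompact_of_isClosed_isBounded
        (isClosed_le continuous_nsq continuous_const) ?_
      refine (Metric.isBounded_closedBall (x := (0 : E3)) (r := r₃)).subset fun x hx => ?_
      rw [mem_closedBall_zero_iff, pi_norm_le_iff_of_nonneg h3p.le]
      intro k
      exact le_of_sq_le_sq ((Crest.Agent.R257.PN_835.sq_le_nsq x k).trans hx) h3p.le
    refine hc1.of_isClosed_subset ?_ fun x hx => hx.2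
    exact (isClosed_le continuous_const continuous_nsq).inter
      (isClosed_le continuous_nsq continuous_const)
  have hηK : tsupport η ⊆ K := fun x hx => ⟨(hηU hx).1.le, (hηU hx).2.le⟩
  have hηc : HasCompactSupport η := hKc.of_isClosed_subset (isClosed_tsupport η) hηK
  have main : PP1 f u h c ν η := by
    refine glob (P := PP1 f u h c ν) ?_ ?_ hKc ?_ hη hηc hηK
    · have z2 : oxd f u (fun _ => 0) h (fun x => (0 : ℝ) * c x) =ᵐ[ν] fun _ => 0 := by
        filter_upwards [ae_lv hν] with x hx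
        exact oxd_off hf hx (Eventually.of_forall fun y => zero_mul _)
      refine ⟨?_, (integrable_zero E3 ℝ ν).congr z2.symm, ?_⟩
      · simp only [zero_mul]
        exact integrable_zero _ _ _
      · rw [integral_congr_ae z2]
        simp
    · rintro φ φ' hφ hφ' - - ⟨a1, a2, a3⟩ ⟨b1, b2, b3⟩
      have e1 : (fun x => ((φ x + φ' x) * c x) * c2d f u x) =
          fun x => (φ x * c x) * c2d f u x + (φ' x * c x) * c2d f u x := by
        funext x; ring
      have e2 : oxd f u (fun _ => 0) h (fun x => (φ x + φ' x) * c x) =ᵐ[ν]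
          fun x => oxd f u (fun _ => 0) h (fun x => φ x * c x) x +
            oxd f u (fun _ => 0) h (fun x => φ' x * c x) x := by
        filter_upwards [ae_lv hν] with x hx
        have h1 : (fun x => (φ x + φ' x) * c x) = fun x => φ x * c x + φ' x * c x := by
          funext y; ring
        rw [h1]
        exact oxd_add hf (smL_mul hφ hc) (smL_mul hφ' hc) hx
      refine ⟨?_, (a2.add b2).congr e2.symm, ?_⟩
      · rw [e1]
        exact a1.add b1
      · rw [e1, integral_congr_ae e2, integral_add a1 b1, integral_add a2 b2, a3, b3]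
    · intro p hp
      have hp0 : p ≠ 0 := by
        rintro rfl
        have h1 : nsq (0 : E3) = 0 := Crest.Agent.R257.V1Pe_822.nsq_zero3
        have h2 : (r₁ / 2) ^ 2 ≤ nsq (0 : E3) := hp.1
        rw [h1] at h2
        have : 0 < (r₁ / 2) ^ 2 := by positivity
        linarith
      have hpr : nsq p < r ^ 2 := hp.2.trans_lt hq3
      by_cases hfp : f p = 0
      · exact local_lv hf hK hh hN hν hc ⟨hfp, hp0, hpr⟩
      · exact local_off hf hν hfp hpr
  obtain ⟨m1, m2, m3⟩ := main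
  have ce : ∀ x ∈ Lv f r, η x * c x = c x := by
    intro x hx
    by_cases hxA : x ∈ A
    · rw [(hη1 x hxA).self_of_nhds, one_mul]
    · have : c x = 0 := by
        refine h0 x hx ?_
        by_contra hcon
        push Not at hcon
        exact hxA hcon
      rw [this, mul_zero]
  have e1 : (fun x => (η x * c x) * c2d f u x) =ᵐ[ν] fun x => c x * c2d f u x := by
    filter_upwards [ae_lv hν] with x hx
    rw [ce x hx]
  have e2 : oxd f u (fun _ => 0) h (fun x => η x * c x) =ᵐ[ν] oxd f u (fun _ => 0) h c := by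
    filter_upwards [ae_lv hν] with x hx
    rw [oxd_eq_fx, oxd_eq_fx]
    refine fx_congr hf hx fun θ O hθ z hz hzx => ?_
    filter_upwards [hθ.par.isOpen.mem_nhds hz] with y hy
    exact ce _ (LossA_625.pe_lv hθ hy)
  refine ⟨m1.congr e1, m2.congr e2, ?_⟩
  rw [← integral_congr_ae e1, ← integral_congr_ae e2, m3]

end

end Crest.Agent.R257.V0b_417
end

-- ▼ part R257/V0c_417
section

/-!
# R257 (S0395), leaf V0Stmt, part c (helper417): (P2)

* `Sb u h`     : second fundamental form term `bb (HO u 0 θ) (dV h θ)`; `psd_Sb`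
* `LL f r u h` : the function `log |dh|²_ω` on the level; `LL_spec`, `smL_of_spec`
* `oxd_decomp` : `oxd f u 0 h a = - L (mxd f u a + mxd f L a) + fx f Sb a`
* `hess_lu`    : `∂∂̄ log det (ω⁻¹) = - ∂∂̄ u`
-/

set_option autoImplicit false
set_option linter.unusedSectionVars false

open Set Filter Topology Complex MeasureTheory
open scoped ContDiff Matrix ComplexConjugate ComplexOrder ENNReal

namespace Crest.Agent.R257.V0c_417

open Crest.Agent.R275.Geo Crest.Agent.R275.EDR890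
open Crest.Agent.R273.Fock_243 Crest.Agent.R273.Calc_243
open Crest.Agent.R273.Bkn_243 Crest.Agent.R273.Pos_243 Crest.Agent.R273.BochA_101
open Crest.Agent.R273.BochB_101
open Crest.Agent.R273.BochC_101 Crest.Agent.R273.BochD_101
open Crest.Agent.R273.Hess_333 Crest.Agent.R273.HessB_333
open Crest.Agent.R273.Defs_333 (lev)
open Crest.Agent.R273.YauDefs_635 (cH)
open Crest.Agent.R273.YauMax_635 (cH_eq_hess)
open Crest.Agent.R257.C2F1_625 Crest.Agent.R257.C2F2_625 Crest.Agent.R257.C2F3_625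
open Crest.Agent.R257.C2F4_335 Crest.Agent.R257.C2F5_335
open Crest.Agent.R257.Defs_219
open Crest.Agent.R257.PN_835 (nsq)
open Crest.Agent.R257.Aff_835 (eta2a)
open Crest.Agent.R257.KED_952 Crest.Agent.R257.KEG_952
open Crest.Agent.R257.V1Defs_822 (SmL LvlOK)
open Crest.Agent.R257.V1Pe_822 (smAt)
open Crest.Agent.R257.OutA_309 Crest.Agent.R257.OutB_309 Crest.Agent.R257.LossD_309
open Crest.Agent.R257.LossA_625 (fx Lv Psd dns_cases fx_add fx_congr fx_const ev_pe)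
open Crest.Agent.R257.V0a_417 Crest.Agent.R257.V0b_417

noncomputable section

variable {f : E3 → ℂ} {r : ℝ} {u : E3 → ℝ} {h : E3 → ℂ} {θ : Cn 2 → E3} {O : Set (Cn 2)} {z : Cn 2}

/-- the second fundamental form term -/
def Sb (u : E3 → ℝ) (h : E3 → ℂ) : LossA_625.Frm :=
  fun θ z => bb (HO u (fun _ => 0) θ) (dV h θ) z

theorem psd_Sb (hK : KEon f 0 r u) (hh : ∀ x, nsq x < r ^ 2 → AnalyticAt ℂ h x)
    (hN : NoZ f r h) : Psd f r (Sb u h) := by
  intro θ O hθ z hz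
  have hb := bv (φ := fun _ => 0) hK smL_zero hh hθ hz
  obtain ⟨w, hw⟩ := bb_rank hb.mH hb.mP hb.mV (dV_ne hN hθ hz)
  have e : Sb u h θ z = Matrix.vecMulVec (star w) w := by
    ext c d
    rw [Matrix.vecMulVec_apply]
    exact hw c d
  rw [e]
  exact Matrix.posSemidef_vecMulVec_star_self w

/-- `L = log |dh|²_ω` on the level -/
def IsL (f : E3 → ℂ) (r : ℝ) (u : E3 → ℝ) (h : E3 → ℂ) (L : E3 → ℝ) : Prop :=
  ∀ θ O, PE f 0 r θ O → ∀ z ∈ O, L (θ z) = Real.log (hV (HO u (fun _ => 0) θ) (dV h θ) z)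

open Classical in
/-- the function `log |dh|²_ω` -/
def LL (f : E3 → ℂ) (r : ℝ) (u : E3 → ℝ) (h : E3 → ℂ) (x : E3) : ℝ :=
  if hx : ∃ p : (Cn 2 → E3) × Set (Cn 2) × Cn 2,
    PE f 0 r p.1 p.2.1 ∧ p.2.2 ∈ p.2.1 ∧ p.1 p.2.2 = x
  then Real.log (hV (HO u (fun _ => 0) hx.choose.1) (dV h hx.choose.1) hx.choose.2.2) else 0

theorem LL_spec (hf : LvlOK f 0 r) (hK : KEon f 0 r u)
    (hh : ∀ x, nsq x < r ^ 2 → AnalyticAt ℂ h x) : IsL f r u h (LL f r u h) := by
  intro θ O hθ z hz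
  have hex : ∃ p : (Cn 2 → E3) × Set (Cn 2) × Cn 2,
      PE f 0 r p.1 p.2.1 ∧ p.2.2 ∈ p.2.1 ∧ p.1 p.2.2 = θ z := ⟨(θ, O, z), hθ, hz, rfl⟩
  unfold LL
  rw [dif_pos hex]
  obtain ⟨h1, h2, h3⟩ := hex.choose_spec
  set θ' := hex.choose.1
  set O' := hex.choose.2.1
  set z' := hex.choose.2.2
  have hfz := (hf.an _ (hθ.lt z hz)).hasStrictFDerivAt
  have h0 := hf.sm _ (hθ.ne z hz) (hθ.lt z hz) (hθ.par.lvl z hz)
  obtain ⟨T, hT, hTz, hTe⟩ := Ked1_397.exists_trans h1.par hθ.par h2 hz h3 hfz h0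
  have hdet := Ked1_397.det_trans h1.par hθ.par h2 hT hTe
  have e : hV (HO u (fun _ => 0) θ') (dV h θ') z' =
      hV (HO u (fun _ => 0) θ) (dV h θ) (T z') :=
    (chg (φ := fun _ => 0) hK hh hθ hT hTe hdet).hV_eq.self_of_nhds
  rw [e, hTz]

theorem smL_of_spec {L : E3 → ℝ} (hL : IsL f r u h L) (hK : KEon f 0 r u)
    (hh : ∀ x, nsq x < r ^ 2 → AnalyticAt ℂ h x) (hN : NoZ f r h) : SmL f 0 r L := by
  intro θ O hθ z hz
  have hb := bv (φ := fun _ => 0) hK smL_zero hh hθ hz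
  have h1 := (hb.sm_lam (dV_ne hN hθ hz)).contDiffWithinAt (s := O)
  exact h1.congr (fun y hy => hL θ O hθ y hy) (hL θ O hθ z hz)

/-- `log det (ω⁻¹) = - u - log |η|²` -/
theorem hess_ld (hf : LvlOK f 0 r) (hK : KEon f 0 r u) (hθ : PE f 0 r θ O) (hz : z ∈ O) :
    hess (fun y => Real.log (HO u (fun _ => 0) θ y).det.re) z = - hess (fun z => u (θ z)) z := by
  have hO := hθ.par.isOpen
  have hfz := hf.an _ (hθ.lt z hz)
  have h0 := hf.sm _ (hθ.ne z hz) (hθ.lt z hz) (hθ.par.lvl z hz)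
  obtain ⟨q, hq, hq0, hqe⟩ := Ked2_397.eta2a_norm (n := 2) hθ.par hz hfz h0
  have hqd : ∀ᶠ w in 𝓝 z, DifferentiableAt ℂ q w :=
    hq.eventually_analyticAt.mono fun w hw => hw.differentiableAt
  set g : Cn 2 → ℝ := fun w => Real.log (‖q w‖ ^ 2) with hg
  have hgs : ContDiffAt ℝ ∞ g z := KEl_835.c2_log hq hq0 ∞
  have hus := smAt (a := u) hK.sm hθ hz
  have e3 : (fun y => Real.log (HO u (fun _ => 0) θ y).det.re) =ᶠ[𝓝 z]
      fun y => -(u (θ y) + g y) := by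
    filter_upwards [hO.mem_nhds hz, hqe, hq.continuousAt.eventually_ne hq0] with y hy hy' hy0
    have h1 : eta2a (n := 2) f θ y = ‖q y‖ ^ 2 := hy'
    have h2 : 0 < ‖q y‖ := norm_pos_iff.2 hy0
    have h3 : (HO u (fun _ => 0) θ y).det =
        (((Real.exp (u (θ y)) * ‖q y‖ ^ 2)⁻¹ : ℝ) : ℂ) := by
      show (((Real.exp (-0) : ℝ) : ℂ) • (cH (fun z => u (θ z)) y)⁻¹).det = _
      rw [neg_zero, Real.exp_zero, Complex.ofReal_one, one_smul, Matrix.det_nonsing_inv,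
        Ring.inverse_eq_inv', hK.ma θ O hθ y hy, h1, Complex.ofReal_inv]
    rw [h3, Complex.ofReal_re, Real.log_inv,
      Real.log_mul (Real.exp_pos _).ne' (by positivity), Real.log_exp]
  rw [hess_congr e3, hess_neg (hus.add hgs), hess_add hus hgs, hess_log_norm hqd hq0, add_zero]

/-- **(P2)** -/
theorem oxd_decomp (hf : LvlOK f 0 r) (hK : KEon f 0 r u)
    (hh : ∀ x, nsq x < r ^ 2 → AnalyticAt ℂ h x) (hN : NoZ f r h) {L : E3 → ℝ}
    (hL : IsL f r u h L) {a : E3 → ℝ} {x : E3} (hx : x ∈ Lv f r) :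
    oxd f u (fun _ => 0) h a x = - L x * (mxd f u a x + mxd f L a x) + fx f (Sb u h) a x := by
  obtain ⟨θ, O, z, hθ, hz, hzx, hη, hd⟩ := dns_cases hf hx
  have hLs := smL_of_spec hL hK hh hN
  have hb := bv (φ := fun _ => 0) hK smL_zero hh hθ hz
  have hus := smAt (a := u) hK.sm hθ hz
  have e1 : oxd f u (fun _ => 0) h a x = (pd (cH (fun z => a (θ z)) z)
      (Gm (HO u (fun _ => 0) θ) (dV h θ) z)).re / eta2a (n := 2) f θ z := hd _
  have e2 : fx f (Sb u h) a x = (pd (cH (fun z => a (θ z)) z)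
      (bb (HO u (fun _ => 0) θ) (dV h θ) z)).re / eta2a (n := 2) f θ z := hd _
  have e3 : ∀ b : E3 → ℝ, mxd f b a x = (pd (cH (fun z => b (θ z)) z)
      (cH (fun z => a (θ z)) z)).re / eta2a (n := 2) f θ z := fun b => hd _
  have e4 : hess (fun y => Real.log (hV (HO u (fun _ => 0) θ) (dV h θ) y)) z
      = cH (fun z => L (θ z)) z := by
    rw [cH_eq_hess (smAt hLs hθ hz)]
    refine hess_congr ?_
    filter_upwards [hθ.par.isOpen.mem_nhds hz] with y hy
    exact (hL θ O hθ y hy).symm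
  have e5 : Gm (HO u (fun _ => 0) θ) (dV h θ) z = (L x : ℂ) • (- cH (fun z => u (θ z)) z
      - cH (fun z => L (θ z)) z) + bb (HO u (fun _ => 0) θ) (dV h θ) z := by
    unfold Gm
    rw [hess_ld hf hK hθ hz, e4, ← hL θ O hθ z hz, hzx, cH_eq_hess hus]
  rw [e1, e2, e3, e3, e5, pd_add, pd_smul, pd_sub, pd_neg, Complex.add_re,
    Complex.re_ofReal_mul, Complex.sub_re, Complex.neg_re,
    pd_comm (cH (fun z => a (θ z)) z) (cH (fun z => u (θ z)) z),
    pd_comm (cH (fun z => a (θ z)) z) (cH (fun z => L (θ z)) z)]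
  ring

/-- `UpB` is an upper bound of `L` -/
theorem L_le (hf : LvlOK f 0 r) (hK : KEon f 0 r u)
    (hh : ∀ x, nsq x < r ^ 2 → AnalyticAt ℂ h x) (hN : NoZ f r h) {L : E3 → ℝ}
    (hL : IsL f r u h L) {A : ℝ} {N : ℕ} {φ : E3 → ℝ} (hA : 0 < A) (hU : UpB f r u A N φ h)
    {x : E3} (hx : x ∈ Lv f r) (h1 : 0 < A - u x) :
    L x ≤ Real.log (4 * A) + N * Real.log (A - u x) + φ x := by
  obtain ⟨θ, O, z, hθ, hz, hzx, -, -⟩ := dns_cases hf hx
  have hb := bv (φ := fun _ => 0) hK smL_zero hh hθ hz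
  have hus := smAt (a := u) hK.sm hθ hz
  set G := cH (fun z => u (θ z)) z with hG
  have hGp : G.PosDef := posDef_cH hK hθ hz
  set V := dV h θ z with hVd
  have hV0 : V ≠ 0 := dV_ne hN hθ hz
  set w : Fin 2 → ℂ := G⁻¹ *ᵥ V with hw
  have hGw : G *ᵥ w = V := by
    rw [hw, Matrix.mulVec_mulVec, Matrix.mul_nonsing_inv _ (isUnit_iff_ne_zero.2 hGp.det_pos.ne'),
      Matrix.one_mulVec]
  have hpos : 0 < star V ⬝ᵥ w := hGp.inv.dotProduct_mulVec_pos hV0
  set t : ℝ := (star V ⬝ᵥ w).re with ht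
  have ht0 : 0 < t := (Complex.lt_def.1 hpos).1
  have htc : star V ⬝ᵥ w = (t : ℂ) := Complex.ext rfl (Complex.lt_def.1 hpos).2.symm
  have hHV : hV (HO u (fun _ => 0) θ) (dV h θ) z = t := by
    show (star (dV h θ z) ⬝ᵥ ((((Real.exp (-0) : ℝ) : ℂ) • (cH (fun z => u (θ z)) z)⁻¹) *ᵥ
      dV h θ z)).re = t
    rw [neg_zero, Real.exp_zero, Complex.ofReal_one, one_smul]
  have hLx : L x = Real.log t := by rw [← hHV, ← hzx]; exact hL θ O hθ z hz
  -- the test vector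
  set v : Cn 2 := WithLp.toLp 2 (fun a => conj (w a)) with hv
  have hlev : lev (fun z => u (θ z)) z v = 4 * t := by
    have e1 : star w ⬝ᵥ (G *ᵥ w) = (t : ℂ) := by
      rw [hGw]
      have := congrArg conj htc
      rw [Complex.conj_ofReal] at this
      rw [← this]
      simp [dotProduct, Fin.sum_univ_two, mul_comm]
    rw [hG, cH_eq_hess hus, hq_eq_dot, hq_real hus] at e1
    have e2 : lev (fun z => u (θ z)) z v / 4 = t := by exact_mod_cast e1
    linarith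
  have hdh : fderiv ℂ (fun z => h (θ z)) z v = (t : ℂ) := by
    have hsum : v = ∑ a, conj (w a) • (EuclideanSpace.single a (1 : ℂ) : Cn 2) := by
      ext b
      fin_cases b <;> simp [hv]
    rw [hsum, map_sum]
    have e3 : ∀ a : Fin 2, fderiv ℂ (fun z => h (θ z)) z
        (conj (w a) • (EuclideanSpace.single a (1 : ℂ) : Cn 2)) = conj (w a) * V a := fun a => by
      rw [map_smul, smul_eq_mul]
      rfl
    simp only [e3]
    have := congrArg conj htc
    rw [Complex.conj_ofReal] at this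
    rw [← this]
    simp [dotProduct, Fin.sum_univ_two, mul_comm]
  have hB := hU θ O hθ z hz v
  rw [hdh, hlev, hzx, Complex.norm_real, Real.norm_of_nonneg ht0.le] at hB
  have h2 : t ≤ 4 * A * (A - u x) ^ N * Real.exp (φ x) := by
    have h3 : t * t ≤ t * (4 * A * (A - u x) ^ N * Real.exp (φ x)) := by nlinarith
    exact le_of_mul_le_mul_left h3 ht0
  have h3 := Real.log_le_log ht0 h2
  rw [hLx]
  refine h3.trans (le_of_eq ?_)
  rw [Real.log_mul (by positivity) (Real.exp_pos _).ne', Real.log_mul (by positivity)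
    (by positivity), Real.log_pow, Real.log_exp]


end

end Crest.Agent.R257.V0c_417
end

-- ▼ part R257/LossF_625
section

/-!
# R257 (S0395), task GB-LOSS (helper625): the first half of `V0Stmt` (LossD_309)

* `half_avg` : averaged hypothesis (`Avg`, helper938)
* `V01Stmt`  : first half of `V0Stmt`, `v01Stmt : V01Stmt`
-/

set_option autoImplicit false
set_option linter.unusedSectionVars false

open Topology Filter MeasureTheory Set
open scoped ENNReal ContDiff Matrix ComplexOrder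

noncomputable section

namespace Crest.Agent.R257.LossF_625

open Crest.Agent.R275.Geo
open Crest.Agent.R257.Defs_219
open Crest.Agent.R257.KED_952 Crest.Agent.R257.KEG_952
open Crest.Agent.R257.V1Defs_822 (SmL LvlOK lgh)
open Crest.Agent.R257.LossA_625 Crest.Agent.R257.LossB_625 Crest.Agent.R257.LossC_625
open Crest.Agent.R257.LossD_309 (HO dV oxd V0Stmt)
open Crest.Agent.R257.V0c_417 (IsL LL LL_spec)
open Crest.Agent.R273.Defs_333 (lev)
open Crest.Agent.R273.YauDefs_635 (cH)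
open Crest.Agent.R257.PN_835 (nsq)
open Crest.Agent.R257.C2F2_625 (hV)

variable {f : E3 → ℂ} {r A : ℝ} {u χ : E3 → ℝ} {ν : Measure E3} {h : E3 → ℂ}

theorem sit_of (hf : LvlOK f 0 r) (hK : KEon f 0 r u) (hν : IsNu f 0 r ν) (hχ : Cut r χ)
    (h1 : ∀ x, f x = 0 → x ≠ 0 → nsq x < r ^ 2 → 1 ≤ A - u x)
    (h2 : ∀ c : ℝ, ∃ δ : ℝ, 0 < δ ∧ ∀ x, f x = 0 → x ≠ 0 → nsq x < δ ^ 2 → u x < c) :
    Sit f r ν A u χ :=
  ⟨hf, hν, hK, hχ, fun x hx => h1 x hx.1 hx.2.1 hx.2.2, fun c => by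
    obtain ⟨δ, hδ, h3⟩ := h2 c
    exact ⟨δ, hδ, fun x hx hx2 => h3 x hx.1 hx.2.1 hx2⟩⟩

theorem sec_of (hf : LvlOK f 0 r) (hK : KEon f 0 r u) (hν : IsNu f 0 r ν)
    (hh : ∀ x, nsq x < r ^ 2 → AnalyticAt ℂ h x) (hN : NoZ f r h) {L : E3 → ℝ}
    (hL : IsL f r u h L) :
    Sec f r ν u L (V0c_417.Sb u h) (fun a => oxd f u (fun _ => 0) h a) (c2d f u) where
  sm := V0c_417.smL_of_spec hL hK hh hN
  psd := V0c_417.psd_Sb hK hh hN
  c0 x hx := by
    have := Ked2_397.bmyStmt f 0 r u hf.pos hf.an hf.sm hK x hx.1 hx.2.1 hx.2.2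
    have := Real.exp_pos (u x)
    linarith
  p2 a _ x hx := V0c_417.oxd_decomp hf hK hh hN hL hx
  p1 a ha hc := by
    obtain ⟨r₁, r₂, h1, h2, h3, h4⟩ := hc
    refine V0b_417.oxd_int hf hK hh hN hν ha ⟨r₁, (r₂ + r) / 2, h1, by linarith, by linarith,
      fun x hx hx2 => h4 x hx (hx2.imp id fun h5 => lt_of_le_of_lt ?_ h5)⟩
    exact pow_le_pow_left₀ h2 (by linarith) 2

/-- **the first half, averaged hypothesis** -/
theorem half_avg (hf : LvlOK f 0 r) (hK : KEon f 0 r u) (hν : IsNu f 0 r ν) (hχ : Cut r χ)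
    (hC2 : C2I ν f u χ < ⊤) (hA : 0 < A)
    (h1 : ∀ x, f x = 0 → x ≠ 0 → nsq x < r ^ 2 → 1 ≤ A - u x)
    (h2 : ∀ c : ℝ, ∃ δ : ℝ, 0 < δ ∧ ∀ x, f x = 0 → x ≠ 0 → nsq x < δ ^ 2 → u x < c)
    {φ : E3 → ℝ} (hφ : SmL f 0 r φ)
    (hp : ∀ θ O, PE f 0 r θ O → ∀ z ∈ O, ∀ v : Cn 2, 0 ≤ lev (fun z => φ (θ z)) z v)
    (hφA : ∀ x, f x = 0 → x ≠ 0 → nsq x < r ^ 2 → φ x ≤ A)
    (hφφ : Integrable (fun x => χ x * mxd f φ φ x) ν)
    (hh : ∀ x, nsq x < r ^ 2 → AnalyticAt ℂ h x) (hN : NoZ f r h) {L : E3 → ℝ}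
    (hL : IsL f r u h L)
    (ha : Avg f ν A u χ (fun x => L x - φ x) fun y => 2 * φ y + u y) :
    ∫ x, oxd f u (fun _ => 0) h χ x ∂ν ≤
      (C2I ν f u χ).toReal - Real.pi ^ 2 * (mss ν f u φ χ + mss ν f φ φ χ) := by
  have hs := sit_of hf hK hν hχ h1 h2
  have s := sec_of hf hK hν hh hN hL
  have hct : CtL f 0 r (c2d f u) := (Ked4_397.ctDStmt f 0 r hf.pos hf.an hf.sm u hK).1
  have hm : AEMeasurable (fun x => χ x * c2d f u x) ν :=
    hχ.sm.continuous.measurable.aemeasurable.mul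
      (KedM_941.measStmt f 0 r hf.pos hf.an hf.sm ν hν _ hct)
  have h0 : ∀ᵐ x ∂ν, 0 ≤ χ x * c2d f u x :=
    LossB_625.ae_lv hν fun x hx => mul_nonneg (hχ.nn x) (s.c0 x hx)
  have hc : Integrable (fun x => χ x * c2d f u x) ν := by
    refine ⟨hm.aestronglyMeasurable, ?_⟩
    rw [hasFiniteIntegral_iff_ofReal h0]
    exact hC2
  have e0 : (C2I ν f u χ).toReal = ∫ x, χ x * c2d f u x ∂ν := by
    rw [integral_eq_lintegral_of_nonneg_ae h0 hm.aestronglyMeasurable]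
    rfl
  obtain ⟨-, -, key⟩ := hs.half1 s hA hφ hp (fun x hx => hφA x hx.1 hx.2.1 hx.2.2)
    (fun x => rfl) ha hc hφφ
  have hpi : Real.pi ^ 2 ≠ 0 := by positivity
  have e1 : Real.pi ^ 2 * (mss ν f u φ χ + mss ν f φ φ χ) =
      (∫ x, u x * mxd f φ χ x ∂ν - ∫ x, χ x * mxd f u φ x ∂ν) +
        (∫ x, φ x * mxd f φ χ x ∂ν - ∫ x, χ x * mxd f φ φ x ∂ν) := by
    unfold mss
    field_simp
  rw [e0, e1]
  linarith

/-- `UpB` implies the averaged hypothesis -/
theorem avg_of_upb (hf : LvlOK f 0 r) (hK : KEon f 0 r u) (hν : IsNu f 0 r ν) (hχ : Cut r χ)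
    (hA : 0 < A) (h1 : ∀ x, f x = 0 → x ≠ 0 → nsq x < r ^ 2 → 1 ≤ A - u x)
    (h2 : ∀ c : ℝ, ∃ δ : ℝ, 0 < δ ∧ ∀ x, f x = 0 → x ≠ 0 → nsq x < δ ^ 2 → u x < c)
    {φ : E3 → ℝ} (hφ : SmL f 0 r φ)
    (hp : ∀ θ O, PE f 0 r θ O → ∀ z ∈ O, ∀ v : Cn 2, 0 ≤ lev (fun z => φ (θ z)) z v)
    (hh : ∀ x, nsq x < r ^ 2 → AnalyticAt ℂ h x) (hN : NoZ f r h) {L : E3 → ℝ}
    (hL : IsL f r u h L) {N : ℕ} (hU : UpB f r u A N φ h) :
    Avg f ν A u χ (fun x => L x - φ x) fun y => 2 * φ y + u y := by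
  have hs := sit_of hf hK hν hχ h1 h2
  have s := sec_of hf hK hν hh hN hL
  have hw : SmL f 0 r fun y => 2 * φ y + u y := smL_add (smL_smul 2 hφ) hK.sm
  have hpu : ∀ θ O, PE f 0 r θ O → ∀ z ∈ O, ∀ v : Cn 2, 0 ≤ lev (fun z => u (θ z)) z v :=
    fun θ O hP z hz v => by
      by_cases hv : v = 0
      · rw [hv, Crest.Agent.R273.YauDefs_635.lev333_eq_lev145,
          Crest.Agent.R273.Levi_145.lev_zero, mul_zero]
      · exact (hK.pos θ O hP z hz v hv).le
  refine hs.avg_of_le hw (fun θ O hP z hz v => ?_) (smL_D s.sm hφ fun x => rfl)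
    (C := |Real.log (4 * A)| + N) (by positivity) fun x hx => ?_
  · have a1 := V1Pe_822.smAt hφ hP hz
    have a2 := V1Pe_822.smAt (a := u) hK.sm hP hz
    have b1 := hp θ O hP z hz v
    have b2 := hpu θ O hP z hz v
    rw [Crest.Agent.R273.YauDefs_635.lev333_eq_lev145] at b1 b2 ⊢
    rw [Crest.Agent.R273.Levi_145.lev_add ((contDiffAt_const.mul a1).of_le V1Pe_822.two_le_inf)
      (a2.of_le V1Pe_822.two_le_inf), Crest.Agent.R273.Levi_145.lev_const_mul 2
      (a1.of_le V1Pe_822.two_le_inf)]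
    linarith
  · have h3 := h1 x hx.1 hx.2.1 hx.2.2
    have h4 := V0c_417.L_le hf hK hh hN hL hA hU hx (by linarith)
    have h5 := Real.log_nonneg h3
    have h6 : (0 : ℝ) ≤ N := Nat.cast_nonneg N
    have h7 := le_abs_self (Real.log (4 * A))
    have h8 := abs_nonneg (Real.log (4 * A))
    nlinarith [mul_nonneg h8 h5]

/-- the first half of `V0Stmt` -/
def V01Stmt : Prop := ∀ (f : E3 → ℂ) (r C : ℝ) (u : E3 → ℝ), Iso f → LvlOK f 0 r →
  KEon f 0 r u → Bd f 0 r C u → ∀ ν, IsNu f 0 r ν → ∀ χ, Cut r χ → C2I ν f u χ < ⊤ →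
  VOL ν u χ < ⊤ → ∀ A : ℝ, Esc f r u A → ∀ φ : E3 → ℝ, SmL f 0 r φ →
  (∀ θ O, PE f 0 r θ O → ∀ z ∈ O, ∀ v : Cn 2, 0 ≤ lev (fun z => φ (θ z)) z v) →
  (∀ x, f x = 0 → x ≠ 0 → nsq x < r ^ 2 → - A * (A - u x) ≤ φ x ∧ φ x ≤ A) →
  Integrable (fun x => χ x * mxd f φ φ x) ν →
  ∀ (N : ℕ) (h : E3 → ℂ), (∀ x, nsq x ≤ r ^ 2 → AnalyticAt ℂ h x) →
  NoZ f r h → UpB f r u A N φ h →
  ∫ x, oxd f u (fun _ => 0) h χ x ∂ν ≤
    (C2I ν f u χ).toReal - Real.pi ^ 2 * (mss ν f u φ χ + mss ν f φ φ χ)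

theorem v01Stmt : V01Stmt := by
  intro f r C u _ hf hK _ ν hν χ hχ hC2 _ A hE φ hφ hp hb hφφ N h hh hN hU
  have hh' : ∀ x, nsq x < r ^ 2 → AnalyticAt ℂ h x := fun x hx => hh x hx.le
  have hL := LL_spec hf hK hh'
  exact half_avg hf hK hν hχ hC2 hE.pos hE.one hE.inf hφ hp
    (fun x h1 h2 h3 => (hb x h1 h2 h3).2) hφφ hh' hN hL
    (avg_of_upb hf hK hν hχ hE.pos hE.one hE.inf hφ hp hh' hN hL hU)

end Crest.Agent.R257.LossF_625
end
end

-- ▼ part R257/LossV_309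

/-!
R257 / LossV_309 (helper309): the first half of `LossStmt` (KEG_952), unconditional.
-/

set_option autoImplicit false

open Topology Filter MeasureTheory Set
open scoped ENNReal ContDiff Matrix

noncomputable section

namespace Crest.Agent.R257.LossV_309

open Crest.Agent.R275.Geo
open Crest.Agent.R257.Defs_219
open Crest.Agent.R257.KED_952 Crest.Agent.R257.KEG_952
open Crest.Agent.R257.SkelV_952 Crest.Agent.R257.SkelG_952
open Crest.Agent.R257.PN_835 (nsq)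
open Crest.Agent.R273.Defs_333 (lev)
open Crest.Agent.R257.V1Defs_822 (SmL LvlOK lgh)
open Crest.Agent.R257.Ked4_397 (ctDStmt cvDStmt)
open Crest.Agent.R257.KedM_941 (fatStmt)

/-- the first half of `LossStmt` -/
def Loss1Stmt : Prop := ∀ (Φ : E3 × PP → ℂ) (τ₀ : PP) (l : Filter PP) (r C : ℝ)
  (w : PP → E3 → ℝ) (u : E3 → ℝ), SmD Φ τ₀ l r C w u → ∀ f, f = (fun x => Φ (x, τ₀)) →
  ∀ A : ℝ, Esc f r u A → ∀ φ : E3 → ℝ, SmL f 0 r φ →
  (∀ θ O, PE f 0 r θ O → ∀ z ∈ O, ∀ v : Cn 2, 0 ≤ lev (fun z => φ (θ z)) z v) →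
  (∀ x, f x = 0 → x ≠ 0 → nsq x < r ^ 2 → - A * (A - u x) ≤ φ x ∧ φ x ≤ A) →
  ∀ χ, Cut r χ →
  ∀ (ν : PP → Measure E3) (ν₀ : Measure E3), (∀ᶠ τ in l, IsNu (fun x => Φ (x, τ)) 0 r (ν τ)) →
  IsNu f 0 r ν₀ → Integrable (fun x => χ x * mxd f φ φ x) ν₀ →
  ∀ (N : ℕ) (h : E3 → ℂ), (∀ x, nsq x ≤ r ^ 2 → AnalyticAt ℂ h x) → h 0 = 0 →
  ColFin (mnr f h) → NoZ f r h → UpB f r u A N φ h →
  ∀ ε : ℝ, 0 < ε → ∀ᶠ τ in l, (C2I (ν τ) (fun x => Φ (x, τ)) (w τ) χ).toReal ≤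
    (C2I ν₀ f u χ).toReal +
      Real.pi ^ 2 * (col (mnr f h) - mss ν₀ f u φ χ - mss ν₀ f φ φ χ) + ε

/-- **the first half of the loss statement** -/
theorem loss1Stmt : Loss1Stmt := by
  intro Φ τ₀ l r C w u hD f hf A hE φ hφ hpsh hbd χ hχ ν ν₀ hν hν₀ hI N h hh _ hcf hnz hup ε hε
  subst hf
  have h0 := smd_0 hD
  have hfin : C2I ν₀ (fun x => Φ (x, τ₀)) u χ < ⊤ :=
    (fin_0 fatStmt ctDStmt cvDStmt Bd_309.bdStmt hD hχ hν hν₀).lt_top
  have hvol : VOL ν₀ u χ < ⊤ := Vol_397.volStmt Φ τ₀ l r C w u hD _ rfl χ hχ ν₀ hν₀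
  obtain ⟨-, t2⟩ := Bd_309.tendStmt Φ τ₀ l r C w u hD _ rfl χ hχ ν ν₀ hν hν₀ h hh hcf hnz
  have v1 := LossF_625.v01Stmt _ r C u hD.iso h0 hD.ke0.1 hD.ke0.2 ν₀ hν₀ χ hχ hfin hvol A hE φ hφ
    hpsh hbd hI N h hh hnz hup
  filter_upwards [t2.eventually (gt_mem_nhds (lt_add_of_pos_right _ hε))] with τ hτ
  refine hτ.le.trans ?_
  nlinarith


end Crest.Agent.R257.LossV_309
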