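import Crest.Agent.R275.Loc2F_879

-- ▼ part R257/N2A_328
section

/-!
Row 257 (S0395), leaf LC-N2 (plane curves), file A (helper328): Kummer base change for germs in two
variables.  `cov N : O(x,y) → O(s,y)`, `x = s^N`; `O(s,y)` is free over `O(x,y)` with basis
`1, s, …, s^(N-1)`; hence `inum (cov f) (cov g) = N * inum f g`.
-/

set_option autoImplicit false

open Set Filter Topology Metric Complex
open Crest.Agent.R275.Loc2879

noncomputable section

namespace Crest.Agent.R257.N2_328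

/-- the origin of `ℂ × ℂ` -/
abbrev o2 : ℂ × ℂ := ((0 : ℂ), (0 : ℂ))

lemma an_cov (N : ℕ) (p : ℂ × ℂ) : AnalyticAt ℂ (fun q : ℂ × ℂ => (q.1 ^ N, q.2)) p :=
  (analyticAt_fst.pow N).prod analyticAt_snd

/-- the Kummer substitution `x = s ^ N` -/
def cov {N : ℕ} (hN : N ≠ 0) : OO o2 →+* OO o2 :=
  pull (fun q : ℂ × ℂ => (q.1 ^ N, q.2)) (an_cov N _) (by simp [hN])

lemma cov_gm {N : ℕ} (hN : N ≠ 0) {f : ℂ × ℂ → ℂ} (hf : AnalyticAt ℂ f o2) :
    cov hN (gm f hf) = gm (f ∘ fun q : ℂ × ℂ => (q.1 ^ N, q.2))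
      (AnalyticAt.comp (by simpa [hN] using hf) (an_cov N _)) := rfl

lemma cov_algebraMap {N : ℕ} (hN : N ≠ 0) (c : ℂ) :
    cov hN (algebraMap ℂ (OO o2) c) = algebraMap ℂ (OO o2) c := rfl

/-- `ℂ`-linear form of the substitution -/
def covₗ {N : ℕ} (hN : N ≠ 0) : OO o2 →ₐ[ℂ] OO o2 :=
  { cov hN with commutes' := cov_algebraMap hN }

@[simp] lemma covₗ_apply {N : ℕ} (hN : N ≠ 0) (x : OO o2) : covₗ hN x = cov hN x := rfl

/-- every germ in `(s,y)` is a combination of `1, s, …, s^(N-1)` over germs in `(s^N, y)` -/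
theorem cov_decomp {N : ℕ} (hN : N ≠ 0) (f : OO o2) :
    ∃ a : Fin N → OO o2, f = ∑ k : Fin N, Zv 0 ^ (k : ℕ) * cov hN (a k) := by
  obtain ⟨F, hF, rfl⟩ := exists_gm f
  -- the functions `s ^ N - x` and `F (s, y)` of `((x, y), s)`
  let z₀ : ℂ × ℂ := o2
  have hG : AnalyticAt ℂ (fun p : (ℂ × ℂ) × ℂ => p.2 ^ N - p.1.1) (z₀, 0) :=
    (analyticAt_snd.fun_pow N).fun_sub ((analyticAt_fst).fun_comp analyticAt_fst)
  have hF' : AnalyticAt ℂ (fun p : (ℂ × ℂ) × ℂ => F (p.2, p.1.2)) (z₀, 0) := by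
    refine AnalyticAt.comp (g := F) (f := fun p : (ℂ × ℂ) × ℂ => (p.2, p.1.2)) hF ?_
    exact analyticAt_snd.prod ((analyticAt_snd).fun_comp analyticAt_fst)
  have hreg : Reg (gm _ hG) N := by
    rw [reg_iff_order]
    have : (fun w : ℂ => w ^ N - ((z₀ : ℂ × ℂ)).1) = fun w : ℂ => (w - 0) ^ N := by
      ext w; simp [z₀]
    simp only
    rw [this]
    exact analyticOrderAt_centeredMonomial
  obtain ⟨q, c, h⟩ := div_exists hreg (gm _ hF')
  -- pull back along `(s, y) ↦ ((s ^ N, y), s)`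
  have hφ : AnalyticAt ℂ (fun q : ℂ × ℂ => ((q.1 ^ N, q.2), q.1)) o2 :=
    ((analyticAt_fst.pow N).prod analyticAt_snd).prod analyticAt_fst
  have hφ0 : (fun q : ℂ × ℂ => ((q.1 ^ N, q.2), q.1)) o2 = (z₀, (0 : ℂ)) := by simp [hN, z₀]
  let φ : OO ((z₀, (0 : ℂ)) : (ℂ × ℂ) × ℂ) →+* OO o2 := pull _ hφ hφ0
  have h1 := congrArg φ h
  have e1 : φ (gm _ hF') = gm F hF := rfl
  have e2 : φ (gm _ hG) = 0 := by
    change pull _ hφ hφ0 (gm _ hG) = 0
    rw [pull_gm, gm_eq_zero]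
    exact Eventually.of_forall fun x => by simp
  have e3 : ∀ x : OO z₀, φ (iot z₀ x) = cov hN x := by
    intro x
    obtain ⟨f, hf, rfl⟩ := exists_gm x
    rfl
  have e4 : φ (Wv z₀) = Zv 0 := by
    change pull _ hφ hφ0 (gm _ _) = _
    rw [pull_gm, Zv_eq, gm_eq_gm]
    exact Eventually.of_forall fun x => by simp
  rw [map_add, map_mul, e1, e2, mul_zero, zero_add, map_sum] at h1
  refine ⟨c, ?_⟩
  rw [h1]
  refine Finset.sum_congr rfl fun k _ => ?_
  rw [map_mul, map_pow, e3, e4, mul_comm]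

/-- `N` distinct `N`-th roots -/
lemma exists_roots {N : ℕ} (hN : N ≠ 0) {x : ℂ} (hx : x ≠ 0) :
    ∃ r : Fin N → ℂ, Function.Injective r ∧ ∀ k, r k ^ N = x := by
  obtain ⟨s, hs⟩ := IsAlgClosed.exists_pow_nat_eq x (Nat.pos_of_ne_zero hN)
  have hs0 : s ≠ 0 := by
    rintro rfl
    rw [zero_pow hN] at hs
    exact hx hs.symm
  have hζ := Complex.isPrimitiveRoot_exp N hN
  refine ⟨fun k => s * Complex.exp (2 * Real.pi * I / N) ^ (k : ℕ), ?_, fun k => ?_⟩
  · intro j k hjk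
    have h1 := mul_left_cancel₀ hs0 hjk
    exact Fin.ext (hζ.pow_inj j.2 k.2 h1)
  · rw [mul_pow, hs, ← pow_mul, mul_comm (k : ℕ) N, pow_mul, hζ.pow_eq_one, one_pow, mul_one]

/-- freeness -/
theorem cov_free {N : ℕ} (hN : N ≠ 0) {a : Fin N → OO o2}
    (h : ∑ k : Fin N, Zv 0 ^ (k : ℕ) * cov hN (a k) = 0) : a = 0 := by
  classical
  choose A hA hAa using fun k => exists_gm (a k)
  obtain rfl : (fun k => gm (A k) (hA k)) = a := funext hAa
  have h1 : ∀ᶠ p in 𝓝 o2, ∑ k : Fin N, p.1 ^ (k : ℕ) * A k (p.1 ^ N, p.2) = 0 := by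
    have key : ∀ s : Finset (Fin N), ∃ hh, ∑ k ∈ s, Zv 0 ^ (k : ℕ) * cov hN (gm (A k) (hA k)) =
        gm (p := o2) (fun p : ℂ × ℂ => ∑ k ∈ s, p.1 ^ (k : ℕ) * A k (p.1 ^ N, p.2)) hh := by
      intro s
      induction s using Finset.induction_on with
      | empty =>
        refine ⟨by simpa using analyticAt_const, ?_⟩
        rw [Finset.sum_empty, gm_zero, gm_eq_gm]
        exact Eventually.of_forall fun w => by simp
      | insert i s hi ih =>
        obtain ⟨hh, e1⟩ := ih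
        have h1 : AnalyticAt ℂ (fun p : ℂ × ℂ => p.1 ^ (i : ℕ) * A i (p.1 ^ N, p.2)) o2 := by
          refine (analyticAt_fst.fun_pow _).fun_mul ?_
          exact AnalyticAt.comp (g := A i) (f := fun q : ℂ × ℂ => (q.1 ^ N, q.2))
            (by simpa [hN] using hA i) (an_cov N _)
        refine ⟨by simp only [Finset.sum_insert hi]; exact h1.fun_add hh, ?_⟩
        rw [Finset.sum_insert hi, e1, cov_gm, Zv_eq, gm_pow, gm_mul, gm_add, gm_eq_gm]
        exact Eventually.of_forall fun w => by simp [Finset.sum_insert hi]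
    obtain ⟨hh, e⟩ := key Finset.univ
    rw [e, gm_eq_zero] at h
    exact h
  obtain ⟨r, hr, hball⟩ := Metric.eventually_nhds_iff_ball.1 h1
  -- all coefficients vanish for `x ≠ 0`
  have h2 : ∀ᶠ p in 𝓝 o2, ∀ k, p.1 * A k p = 0 := by
    have h3 : ∀ᶠ p in 𝓝 o2, ‖(p : ℂ × ℂ).1‖ < r ^ N ∧ ‖p.2‖ < r := by
      refine Filter.Eventually.and ?_ ?_
      · have : ContinuousAt (fun p : ℂ × ℂ => ‖p.1‖) o2 := by fun_prop
        exact this.eventually (Iio_mem_nhds (by simpa using pow_pos hr N))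
      · have : ContinuousAt (fun p : ℂ × ℂ => ‖p.2‖) o2 := by fun_prop
        exact this.eventually (Iio_mem_nhds (by simpa using hr))
    filter_upwards [h3] with p hp k
    rcases eq_or_ne p.1 0 with h0 | h0
    · rw [h0, zero_mul]
    obtain ⟨ro, hinj, hro⟩ := exists_roots hN h0
    set P : Polynomial ℂ := ∑ k : Fin N, Polynomial.C (A k p) * Polynomial.X ^ (k : ℕ) with hP
    have hN0 : 0 < N := Nat.pos_of_ne_zero hN
    have hdeg : P.natDegree < N := by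
      refine lt_of_le_of_lt (Polynomial.natDegree_sum_le_of_forall_le (n := N - 1) _ _ ?_) (by omega)
      intro i _
      refine (Polynomial.natDegree_C_mul_X_pow_le _ _).trans ?_
      have := i.2
      omega
    have hz : P = 0 := by
      refine Polynomial.eq_zero_of_natDegree_lt_card_of_eval_eq_zero P hinj (fun i => ?_)
        (by simpa using hdeg)
      have hmem : ((ro i, p.2) : ℂ × ℂ) ∈ ball o2 r := by
        rw [← ball_prod_same]
        refine ⟨?_, by simpa using hp.2⟩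
        rw [mem_ball_zero_iff]
        refine lt_of_pow_lt_pow_left₀ N hr.le ?_
        rw [← norm_pow, hro i]
        exact hp.1
      have h4 := hball _ hmem
      simp only [hro i] at h4
      rw [hP, Polynomial.eval_finsetSum]
      simp only [Polynomial.eval_mul, Polynomial.eval_C, Polynomial.eval_pow, Polynomial.eval_X]
      rw [← h4]
      exact Finset.sum_congr rfl fun k _ => mul_comm _ _
    have h5 : P.coeff k = A k p := by
      rw [hP, Polynomial.finsetSum_coeff]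
      simp only [Polynomial.coeff_C_mul, Polynomial.coeff_X_pow]
      rw [Finset.sum_eq_single k]
      · simp
      · intro b _ hb
        rw [if_neg (fun h => hb (Fin.ext h.symm)), mul_zero]
      · intro h; exact absurd (Finset.mem_univ k) h
    rw [← h5, hz]; simp
  ext k : 1
  have h6 : Zv 0 * gm (A k) (hA k) = 0 := by
    rw [Zv_eq, gm_mul, gm_eq_zero]
    filter_upwards [h2] with p hp
    simpa using hp k
  rcases mul_eq_zero.1 h6 with h7 | h7
  · exfalso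
    rw [Zv_eq, gm_eq_zero] at h7
    have h8 : Tendsto (fun t : ℂ => ((t, (0 : ℂ)) : ℂ × ℂ)) (𝓝[≠] 0) (𝓝 o2) := by
      have : Continuous (fun t : ℂ => ((t, (0 : ℂ)) : ℂ × ℂ)) := by fun_prop
      exact (this.tendsto' 0 o2 rfl).mono_left nhdsWithin_le_nhds
    obtain ⟨t, ht, ht'⟩ := ((h8.eventually h7).and self_mem_nhdsWithin).exists
    exact ht' (by simpa using ht)
  · exact h7

/-- the comparison map `(a_k) ↦ ∑ s^k a_k(s^N, y)` -/
def sumL {N : ℕ} (hN : N ≠ 0) : (Fin N → OO o2) →ₗ[ℂ] OO o2 :=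
  ∑ k : Fin N, (LinearMap.mulLeft ℂ (Zv 0 ^ (k : ℕ))).comp
    ((covₗ hN).toLinearMap.comp (LinearMap.proj k))

lemma sumL_apply {N : ℕ} (hN : N ≠ 0) (a : Fin N → OO o2) :
    sumL hN a = ∑ k : Fin N, Zv 0 ^ (k : ℕ) * cov hN (a k) := by
  simp [sumL, LinearMap.sum_apply]

/-- **Kummer base change multiplies intersection numbers by `N`** -/
theorem inum_cov {N : ℕ} (hN : N ≠ 0) {f g : OO o2} (hfg : IsRelPrime f g) :
    inum (cov hN f) (cov hN g) = N * inum f g := by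
  classical
  have hfin := finite_quot (F := ℂ × ℂ) (by simp) hfg
  set I := Ideal.span ({f, g} : Set (OO o2)) with hI
  set J := Ideal.span ({cov hN f, cov hN g} : Set (OO o2)) with hJ
  let Φ : (Fin N → OO o2) →ₗ[ℂ] (OO o2 ⧸ J) :=
    (Ideal.Quotient.mkₐ ℂ J).toLinearMap.comp (sumL hN)
  have hsurj : Function.Surjective Φ := by
    intro y
    obtain ⟨y, rfl⟩ := Ideal.Quotient.mk_surjective y
    obtain ⟨a, ha⟩ := cov_decomp hN y
    refine ⟨a, ?_⟩
    change Ideal.Quotient.mk J (sumL hN a) = _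
    rw [sumL_apply, ← ha]
  have hker : LinearMap.ker Φ =
      Submodule.pi Set.univ (fun _ : Fin N => (I.restrictScalars ℂ : Submodule ℂ (OO o2))) := by
    ext a
    rw [LinearMap.mem_ker, Submodule.mem_pi]
    change Ideal.Quotient.mk J (sumL hN a) = 0 ↔ _
    rw [Ideal.Quotient.eq_zero_iff_mem, sumL_apply]
    constructor
    · intro h
      obtain ⟨b, c, hbc⟩ := Ideal.mem_span_pair.1 h
      obtain ⟨B, hB⟩ := cov_decomp hN b
      obtain ⟨C, hC⟩ := cov_decomp hN c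
      have h1 : ∑ k : Fin N, Zv 0 ^ (k : ℕ) * cov hN ((fun k => a k - (B k * f + C k * g)) k) = 0 := by
        simp only [map_sub, map_add, map_mul, mul_sub, mul_add, Finset.sum_sub_distrib,
          Finset.sum_add_distrib]
        rw [← hbc, hB, hC, Finset.sum_mul, Finset.sum_mul]
        simp only [mul_assoc, sub_self]
      have h2 := cov_free hN h1
      intro k _
      have h3 := congrFun h2 k
      simp only [Pi.zero_apply] at h3
      rw [sub_eq_zero] at h3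
      change a k ∈ I
      rw [h3]
      exact Ideal.mem_span_pair.2 ⟨_, _, rfl⟩
    · intro h
      refine Ideal.sum_mem _ fun k _ => Ideal.mul_mem_left _ _ ?_
      have h1 : a k ∈ I := h k (Set.mem_univ k)
      obtain ⟨b, c, hbc⟩ := Ideal.mem_span_pair.1 h1
      rw [← hbc, map_add, map_mul, map_mul]
      exact Ideal.mem_span_pair.2 ⟨_, _, rfl⟩
  have e1 : ((Fin N → OO o2) ⧸ LinearMap.ker Φ) ≃ₗ[ℂ] (OO o2 ⧸ J) :=
    Φ.quotKerEquivOfSurjective hsurj
  have e2 := Submodule.quotEquivOfEq _ _ hker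
  have e3 := Submodule.quotientPi (fun _ : Fin N => (I.restrictScalars ℂ : Submodule ℂ (OO o2)))
  have h4 : Module.finrank ℂ (OO o2 ⧸ J) =
      Module.finrank ℂ (Fin N → (OO o2 ⧸ (I.restrictScalars ℂ : Submodule ℂ (OO o2)))) :=
    ((e1.symm.trans e2).trans e3).finrank_eq
  have hfin' : Module.Finite ℂ (OO o2 ⧸ (I.restrictScalars ℂ : Submodule ℂ (OO o2))) := hfin
  have h5 : Module.finrank ℂ (OO o2 ⧸ (I.restrictScalars ℂ : Submodule ℂ (OO o2))) = inum f g := rfl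
  change Module.finrank ℂ (OO o2 ⧸ J) = _
  rw [h4, Module.finrank_pi_fintype, h5]
  simp

end Crest.Agent.R257.N2_328
end
end

-- ▼ part R257/N2B_328

/-!
Row 257 (S0395), leaf LC-N2, file B (helper328): intersection numbers with graphs, and the sheet
formula `N * inum h g = ∑ j, ord_s g(s^N, ζ_j s)` when `h(s^N, y) = u ∏ (y - ζ_j s)`.
-/

set_option autoImplicit false

open Set Filter Topology Metric Complex
open Crest.Agent.R275.Loc2879

noncomputable section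

namespace Crest.Agent.R257.N2_328

/-! ### one variable -/

/-- dimension of `O_1 / (x)` -/
def ordO (x : OO (0 : ℂ)) : ℕ := Module.finrank ℂ (OO (0 : ℂ) ⧸ Ideal.span {x})

lemma ordO_unit_mul {x : OO (0 : ℂ)} (u : (OO (0 : ℂ))ˣ) : ordO (x * u) = ordO x := by
  unfold ordO
  rw [Ideal.span_singleton_mul_right_unit u.isUnit]

/-- the quotient by `s ^ n` -/
lemma ordO_pow (n : ℕ) : ordO (TT 0 ^ n) = n ∧
    Module.Finite ℂ (OO (0 : ℂ) ⧸ Ideal.span {TT (0 : ℂ) ^ n}) := by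
  -- the Taylor map
  let T : (Fin n → ℂ) →ₗ[ℂ] (OO (0 : ℂ) ⧸ Ideal.span {TT (0 : ℂ) ^ n}) :=
    ∑ k : Fin n, ((Ideal.Quotient.mkₐ ℂ (Ideal.span {TT (0 : ℂ) ^ n})).toLinearMap.comp
      ((LinearMap.mulRight ℂ (TT (0 : ℂ) ^ (k : ℕ))).comp (Algebra.linearMap ℂ (OO (0 : ℂ))))).comp
      (LinearMap.proj k)
  have hT : ∀ c, T c = Ideal.Quotient.mk _ (∑ k : Fin n, algebraMap ℂ (OO (0 : ℂ)) (c k) * TT 0 ^ (k : ℕ)) := by
    intro c
    simp only [T, LinearMap.sum_apply, LinearMap.comp_apply, LinearMap.proj_apply, map_sum]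
    rfl
  have hsurj : Function.Surjective T := by
    intro y
    obtain ⟨y, rfl⟩ := Ideal.Quotient.mk_surjective y
    obtain ⟨c, z, hz⟩ := exists_taylor n y
    refine ⟨c, ?_⟩
    rw [hT, Ideal.Quotient.eq, hz]
    refine Ideal.mem_span_singleton.2 ⟨-z, ?_⟩
    ring
  have hinj : Function.Injective T := by
    rw [← LinearMap.ker_eq_bot, LinearMap.ker_eq_bot']
    intro c hc
    rw [hT, Ideal.Quotient.eq_zero_iff_mem, Ideal.mem_span_singleton] at hc
    set p : Polynomial ℂ := ∑ k : Fin n, Polynomial.C (c k) * Polynomial.X ^ (k : ℕ) with hp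
    have h1 : pg p = ∑ k : Fin n, algebraMap ℂ (OO (0 : ℂ)) (c k) * TT 0 ^ (k : ℕ) := by
      rw [hp, map_sum]
      refine Finset.sum_congr rfl fun k _ => ?_
      simp [pg]
    have hdeg : p.degree < n := by
      refine (Polynomial.degree_sum_le _ _).trans_lt ?_
      rw [Finset.sup_lt_iff (by exact WithBot.bot_lt_coe n)]
      intro j _
      refine (Polynomial.degree_C_mul_X_pow_le _ _).trans_lt ?_
      exact_mod_cast j.2
    have h2 : p = 0 := pg_eq_zero_of_dvd hdeg (by rw [h1]; exact hc)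
    ext k
    have h3 : p.coeff k = c k := by
      rw [hp, Polynomial.finsetSum_coeff]
      simp only [Polynomial.coeff_C_mul, Polynomial.coeff_X_pow]
      rw [Finset.sum_eq_single k]
      · simp
      · intro b _ hb
        rw [if_neg (fun h => hb (Fin.ext h.symm)), mul_zero]
      · intro h; exact absurd (Finset.mem_univ k) h
    rw [← h3, h2]; simp
  have e := LinearEquiv.ofBijective T ⟨hinj, hsurj⟩
  refine ⟨?_, Module.Finite.equiv e⟩
  unfold ordO
  rw [← e.finrank_eq]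
  simp

/-- `ordO` is the order of vanishing -/
lemma ordO_eq {f : ℂ → ℂ} (hf : AnalyticAt ℂ f 0) (h : analyticOrderAt f 0 ≠ ⊤) :
    ordO (gm f hf) = analyticOrderNatAt f 0 ∧
      Module.Finite ℂ (OO (0 : ℂ) ⧸ Ideal.span {gm f hf}) := by
  obtain ⟨n, hn⟩ := ENat.ne_top_iff_exists.1 h
  obtain ⟨g, hg, hg0, hfg⟩ := hf.analyticOrderAt_eq_natCast.1 hn.symm
  have hu : IsUnit (gm g hg) := isUnit_gm.2 hg0
  have h1 : gm f hf = TT 0 ^ n * (hu.unit : (OO (0 : ℂ))ˣ) := by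
    rw [IsUnit.unit_spec, TT, gm_pow, gm_mul, gm_eq_gm]
    filter_upwards [hfg] with w hw
    rw [hw]; simp
  have h2 : analyticOrderNatAt f 0 = n := by
    rw [analyticOrderNatAt, ← hn]; rfl
  have h3 : Ideal.span {gm f hf} = Ideal.span {TT (0 : ℂ) ^ n} := by
    rw [h1, Ideal.span_singleton_mul_right_unit hu.unit.isUnit]
  refine ⟨?_, ?_⟩
  · rw [h1, ordO_unit_mul, (ordO_pow n).1, h2]
  · rw [h3]; exact (ordO_pow n).2

/-! ### graphs -/

/-- restriction to the graph `y = ζ s` -/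
def gr (ζ : ℂ → ℂ) (hζ : AnalyticAt ℂ ζ 0) (h0 : ζ 0 = 0) : OO o2 →+* OO (0 : ℂ) :=
  pull (fun s => (s, ζ s)) (analyticAt_id.prod hζ) (by simp [h0])

lemma gr_gm {ζ : ℂ → ℂ} (hζ : AnalyticAt ℂ ζ 0) (h0 : ζ 0 = 0) {f : ℂ × ℂ → ℂ}
    (hf : AnalyticAt ℂ f o2) : ∃ h, gr ζ hζ h0 (gm f hf) = gm (fun s => f (s, ζ s)) h :=
  ⟨AnalyticAt.fun_comp (g := f) (f := fun s => (s, ζ s)) (by simpa [h0] using hf)
    (analyticAt_id.prod hζ), rfl⟩

lemma an_graph {ζ : ℂ → ℂ} (hζ : AnalyticAt ℂ ζ 0) :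
    AnalyticAt ℂ (fun p : ℂ × ℂ => p.2 - ζ p.1) o2 :=
  analyticAt_snd.fun_sub (AnalyticAt.fun_comp (g := ζ) (f := Prod.fst) hζ analyticAt_fst)

/-- the germ `y - ζ s` -/
def Yz (ζ : ℂ → ℂ) (hζ : AnalyticAt ℂ ζ 0) : OO o2 := gm _ (an_graph hζ)

lemma gr_iot {ζ : ℂ → ℂ} (hζ : AnalyticAt ℂ ζ 0) (h0 : ζ 0 = 0) (x : OO (0 : ℂ)) :
    gr ζ hζ h0 (iot 0 x) = x := by
  obtain ⟨f, hf, rfl⟩ := exists_gm x
  rfl

lemma gr_Yz {ζ : ℂ → ℂ} (hζ : AnalyticAt ℂ ζ 0) (h0 : ζ 0 = 0) : gr ζ hζ h0 (Yz ζ hζ) = 0 := by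
  obtain ⟨h, e⟩ := gr_gm hζ h0 (an_graph hζ)
  rw [Yz, e, gm_eq_zero]
  exact Eventually.of_forall fun s => by simp

lemma reg_Yz {ζ : ℂ → ℂ} (hζ : AnalyticAt ℂ ζ 0) (h0 : ζ 0 = 0) : Reg (Yz ζ hζ) 1 := by
  rw [Yz, reg_iff_order]
  have : (fun w : ℂ => w - ζ 0) = fun w : ℂ => (w - 0) ^ 1 := by
    ext w; simp [h0]
  simp only
  rw [this]
  exact analyticOrderAt_centeredMonomial

/-- the kernel of the restriction to a graph -/
lemma ker_gr {ζ : ℂ → ℂ} (hζ : AnalyticAt ℂ ζ 0) (h0 : ζ 0 = 0) (x : OO o2) :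
    gr ζ hζ h0 x = 0 ↔ Yz ζ hζ ∣ x := by
  constructor
  · intro h
    obtain ⟨q, c, hq⟩ := div_exists (reg_Yz hζ h0) x
    have h1 := congrArg (gr ζ hζ h0) hq
    rw [map_add, map_mul, gr_Yz, mul_zero, zero_add, h] at h1
    simp only [Finset.univ_unique, Fin.default_eq_zero, Fin.isValue, Fin.val_eq_zero, pow_zero,
      mul_one, Finset.sum_singleton] at h1
    rw [gr_iot] at h1
    refine ⟨q, ?_⟩
    rw [hq]
    simp [← h1, mul_comm]
  · rintro ⟨y, rfl⟩
    rw [map_mul, gr_Yz, zero_mul]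

/-- intersection number with a graph -/
theorem inum_graph {ζ : ℂ → ℂ} (hζ : AnalyticAt ℂ ζ 0) (h0 : ζ 0 = 0) {g : ℂ × ℂ → ℂ}
    (hg : AnalyticAt ℂ g o2) (h : analyticOrderAt (fun s => g (s, ζ s)) 0 ≠ ⊤) :
    inum (Yz ζ hζ) (gm g hg) = analyticOrderNatAt (fun s => g (s, ζ s)) 0 := by
  obtain ⟨hh, e⟩ := gr_gm hζ h0 hg
  have h1 := (ordO_eq hh h).1
  rw [← h1]
  unfold inum ordO
  -- the two quotients are isomorphic
  set J := Ideal.span ({Yz ζ hζ, gm g hg} : Set (OO o2)) with hJ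
  set K := Ideal.span {gm (fun s => g (s, ζ s)) hh} with hK
  let grA : OO o2 →ₐ[ℂ] OO (0 : ℂ) := { gr ζ hζ h0 with commutes' := fun c => rfl }
  let Φ : OO o2 →ₗ[ℂ] (OO (0 : ℂ) ⧸ K) := (Ideal.Quotient.mkₐ ℂ K).toLinearMap.comp grA.toLinearMap
  have hsurj : Function.Surjective Φ := by
    intro y
    obtain ⟨y, rfl⟩ := Ideal.Quotient.mk_surjective y
    refine ⟨iot 0 y, ?_⟩
    change Ideal.Quotient.mk K (gr ζ hζ h0 (iot 0 y)) = _
    rw [gr_iot]
  have hker : LinearMap.ker Φ = (J.restrictScalars ℂ : Submodule ℂ (OO o2)) := by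
    ext x
    rw [LinearMap.mem_ker]
    change Ideal.Quotient.mk K (gr ζ hζ h0 x) = 0 ↔ x ∈ J
    rw [Ideal.Quotient.eq_zero_iff_mem, Ideal.mem_span_singleton]
    constructor
    · rintro ⟨c, hc⟩
      have h2 : gr ζ hζ h0 (x - iot 0 c * gm g hg) = 0 := by
        rw [map_sub, map_mul, gr_iot, e, hc]; ring
      obtain ⟨d, hd⟩ := (ker_gr hζ h0 _).1 h2
      refine Ideal.mem_span_pair.2 ⟨d, iot 0 c, ?_⟩
      linear_combination -hd
    · intro hx
      obtain ⟨a, b, rfl⟩ := Ideal.mem_span_pair.1 hx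
      rw [map_add, map_mul, map_mul, gr_Yz, mul_zero, zero_add, e]
      exact Dvd.intro_left _ rfl
  have e1 := Φ.quotKerEquivOfSurjective hsurj
  have e2 := Submodule.quotEquivOfEq _ _ hker
  exact (e2.symm.trans e1).finrank_eq

lemma prime_Yz {ζ : ℂ → ℂ} (hζ : AnalyticAt ℂ ζ 0) (h0 : ζ 0 = 0) : Prime (Yz ζ hζ) := by
  refine ⟨(reg_Yz hζ h0).ne_zero, ?_, ?_⟩
  · rw [Yz, isUnit_gm]; simp [h0]
  · intro a b hab
    rw [← ker_gr hζ h0] at hab ⊢
    rw [← ker_gr hζ h0, ← mul_eq_zero, ← map_mul]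
    exact hab

lemma isRelPrime_Yz {ζ : ℂ → ℂ} (hζ : AnalyticAt ℂ ζ 0) (h0 : ζ 0 = 0) {g : ℂ × ℂ → ℂ}
    (hg : AnalyticAt ℂ g o2) (h : analyticOrderAt (fun s => g (s, ζ s)) 0 ≠ ⊤) :
    IsRelPrime (Yz ζ hζ) (gm g hg) := by
  rw [(prime_Yz hζ h0).irreducible.isRelPrime_iff_not_dvd]
  intro hd
  rw [← ker_gr hζ h0] at hd
  obtain ⟨hh, e⟩ := gr_gm hζ h0 hg
  rw [e, gm_eq_zero] at hd
  exact h (analyticOrderAt_eq_top.2 hd)

/-! ### the sheet formula -/

/-- `h` splits into `d` sheets after the base change `x = s^N` -/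
structure Sheets (h : ℂ × ℂ → ℂ) (N d : ℕ) (ζ : Fin d → ℂ → ℂ) : Prop where
  hN : N ≠ 0
  an : ∀ j, AnalyticAt ℂ (ζ j) 0
  zero : ∀ j, ζ j 0 = 0
  fac : ∃ u : ℂ × ℂ → ℂ, AnalyticAt ℂ u o2 ∧ u o2 ≠ 0 ∧
    ∀ᶠ p in 𝓝 o2, h (p.1 ^ N, p.2) = u p * ∏ j, (p.2 - ζ j p.1)

variable {h : ℂ × ℂ → ℂ} {N d : ℕ} {ζ : Fin d → ℂ → ℂ}

lemma Sheets.tendsto (S : Sheets h N d ζ) (j : Fin d) :
    Tendsto (fun s : ℂ => (s, ζ j s)) (𝓝 0) (𝓝 o2) := by
  have : ContinuousAt (fun s : ℂ => (s, ζ j s)) 0 := continuousAt_id.prodMk (S.an j).continuousAt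
  have h1 := this.tendsto
  simp only [S.zero j] at h1
  exact h1

lemma Sheets.vanish (S : Sheets h N d ζ) (j : Fin d) : ∀ᶠ s in 𝓝 (0 : ℂ), h (s ^ N, ζ j s) = 0 := by
  obtain ⟨u, hu, hu0, hfac⟩ := S.fac
  filter_upwards [(S.tendsto j).eventually hfac] with s hs
  rw [hs]
  refine mul_eq_zero_of_right _ (Finset.prod_eq_zero (Finset.mem_univ j) (by simp))

lemma Sheets.tendsto' (S : Sheets h N d ζ) (j : Fin d) :
    Tendsto (fun s : ℂ => (s ^ N, ζ j s)) (𝓝 0) (𝓝 o2) := by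
  have : ContinuousAt (fun s : ℂ => (s ^ N, ζ j s)) 0 :=
    (continuousAt_id.pow N).prodMk (S.an j).continuousAt
  have h1 := this.tendsto
  simp only [S.zero j, zero_pow S.hN] at h1
  exact h1

/-- a germ relatively prime to `h` has finite order on every sheet -/
lemma Sheets.order_ne_top (S : Sheets h N d ζ) {hh : AnalyticAt ℂ h o2} {g : ℂ × ℂ → ℂ}
    {hg : AnalyticAt ℂ g o2} (hrel : IsRelPrime (gm h hh) (gm g hg)) (j : Fin d) :
    analyticOrderAt (fun s => g (s ^ N, ζ j s)) 0 ≠ ⊤ := by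
  intro htop
  rw [analyticOrderAt_eq_top] at htop
  have h1 := isolated_of_isRelPrime (F := ℂ × ℂ) (by simp) hrel
  have h2 := ((S.tendsto' j).eventually h1)
  have h3 : ∀ᶠ s in 𝓝[≠] (0 : ℂ), ((s ^ N, ζ j s) : ℂ × ℂ) = o2 :=
    ((h2.and ((S.vanish j).and htop)).mono fun s hs => hs.1 hs.2.1 hs.2.2).filter_mono
      nhdsWithin_le_nhds
  obtain ⟨s, hs, hs'⟩ := (h3.and self_mem_nhdsWithin).exists
  have h4 : s ^ N = 0 := congrArg Prod.fst hs
  exact hs' (eq_zero_of_pow_eq_zero h4)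

lemma prod_gm {ι : Type*} (s : Finset ι) (c : ι → ℂ × ℂ → ℂ) (hc : ∀ i, AnalyticAt ℂ (c i) o2) :
    ∃ h, ∏ i ∈ s, gm (c i) (hc i) = gm (p := o2) (fun p => ∏ i ∈ s, c i p) h := by
  classical
  induction s using Finset.induction_on with
  | empty => exact ⟨by simpa using analyticAt_const, by rw [Finset.prod_empty, gm_one, gm_eq_gm]; exact Eventually.of_forall fun w => by simp⟩
  | insert i s hi ih =>
    obtain ⟨h, e1⟩ := ih
    refine ⟨by simp only [Finset.prod_insert hi]; exact (hc i).fun_mul h, ?_⟩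
    rw [Finset.prod_insert hi, e1, gm_mul, gm_eq_gm]
    exact Eventually.of_forall fun w => by simp [Finset.prod_insert hi]

/-- **the sheet formula** -/
theorem Sheets.inum_eq (S : Sheets h N d ζ) {hh : AnalyticAt ℂ h o2} {g : ℂ × ℂ → ℂ}
    {hg : AnalyticAt ℂ g o2} (hrel : IsRelPrime (gm h hh) (gm g hg)) :
    N * inum (gm h hh) (gm g hg) = ∑ j, analyticOrderNatAt (fun s => g (s ^ N, ζ j s)) 0 := by
  classical
  rw [← inum_cov S.hN hrel]
  obtain ⟨u, hu, hu0, hfac⟩ := S.fac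
  -- `cov h` is a unit times the product of the graphs
  have h1 : cov S.hN (gm h hh) = gm u hu * ∏ j, Yz (ζ j) (S.an j) := by
    obtain ⟨hp, e⟩ := prod_gm Finset.univ (fun j => fun p : ℂ × ℂ => p.2 - ζ j p.1)
      (fun j => an_graph (S.an j))
    change _ = gm u hu * ∏ j, gm _ (an_graph (S.an j))
    rw [e, cov_gm, gm_mul, gm_eq_gm]
    exact hfac
  have hG : AnalyticAt ℂ (g ∘ fun q : ℂ × ℂ => (q.1 ^ N, q.2)) o2 :=
    AnalyticAt.comp (by simpa [S.hN] using hg) (an_cov N _)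
  have hord : ∀ j, analyticOrderAt (fun s => (g ∘ fun q : ℂ × ℂ => (q.1 ^ N, q.2)) (s, ζ j s)) 0 ≠ ⊤ :=
    fun j => S.order_ne_top hrel j
  have h2 : ∀ j, IsRelPrime (Yz (ζ j) (S.an j)) (gm _ hG) := fun j =>
    isRelPrime_Yz (S.an j) (S.zero j) hG (hord j)
  rw [h1, cov_gm, inum_comm, mul_comm, inum_mul_unit_right (isUnit_gm.2 hu0), inum_comm]
  -- induction over the product
  have key : ∀ s : Finset (Fin d), inum (∏ j ∈ s, Yz (ζ j) (S.an j)) (gm _ hG) =
      ∑ j ∈ s, analyticOrderNatAt (fun s => g (s ^ N, ζ j s)) 0 ∧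
      IsRelPrime (∏ j ∈ s, Yz (ζ j) (S.an j)) (gm _ hG) := by
    intro s
    induction s using Finset.induction_on with
    | empty =>
      refine ⟨?_, ?_⟩
      · rw [Finset.prod_empty, Finset.sum_empty, inum_of_isUnit_left isUnit_one]
      · rw [Finset.prod_empty]; exact isRelPrime_one_left
    | insert i s hi ih =>
      refine ⟨?_, ?_⟩
      · rw [Finset.prod_insert hi, Finset.sum_insert hi, inum_comm,
          inum_mul (F := ℂ × ℂ) (by simp) (h2 i).symm ih.2.symm, inum_comm, inum_comm (gm _ hG),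
          ih.1, inum_graph (S.an i) (S.zero i) hG (hord i)]
        rfl
      · rw [Finset.prod_insert hi]
        exact IsRelPrime.mul_left (h2 i) ih.2
  exact (key Finset.univ).1

end Crest.Agent.R257.N2_328
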