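import Crest.Agent.R257.FrBP4_808
import Crest.Agent.R257.ExD_121
import Crest.Agent.R257.BP0_554
import Mathlib
import Crest.Agent.R257.BPDefs_258
import Crest.Agent.R257.T0_939
import Crest.Agent.R257.Vt8_558
import Crest.Agent.R257.OrdF_578
import Crest.Agent.R257.Lab5_931
import Crest.Agent.R257.Tb2_941
import Crest.Agent.R257.T8_387
import Crest.Agent.R257.BPC_554
import Crest.Agent.R257.CLogDefs_68
import Crest.Agent.R257.OrdL_578
import Crest.Agent.R257.T1_387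

-- ▼ part R257/FrBP5_808
section

/-!
R257 / FrBP5_808: adjacency (`Ex_121.Adj`) of the frame.
-/

set_option autoImplicit false
set_option linter.unusedSectionVars false

open Polynomial Set Filter Topology Metric
open Crest.AlgGeometry.Germ

noncomputable section

namespace Crest.Agent.R257.FrBP_808

open Crest.Agent.R257.Defs_219 Crest.Agent.R257.AJ387 Crest.Agent.R257.T387
open Crest.Agent.R257.BP_258 Crest.Agent.R257.FrmF_547
open Crest.Agent.R257.Gr1_157 Crest.Agent.R257.GrH_547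

variable {f : (Fin 3 → ℂ) → ℂ} {T : TB f} {U : Tub T} {S : Sh T} {L : Lab U S}

/-- both labels of an edge sheet: different and adjacent -/
theorem edge_adj {c : Ch T.m} (hc : Ok S c) {j : Fin T.d} {E E' : II U} (h1 : L.e1 c j = some E)
    (h2 : L.e2 c j = some E') : E ≠ E' ∧ 0 < Mx L E E' := by
  have hk2 := v2_of_some L hc h2
  have hk1 := v1_of_some L hc h1
  cases c with
  | leg i => exact absurd hk2 (by simp [v2])
  | vert i k w => exact absurd hk2 (by simp [v2])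
  | edge i k k' =>
    have hkk : k < k' := hc.1.2.2.1
    have hne : E ≠ E' := by
      rintro rfl
      have h3 : v1 T (.edge i k k') = v2 T (.edge i k k') := hk1.trans hk2.symm
      by_cases h0 : k = 0
      · simp [v1, v2, h0] at h3
      · simp only [v1, v2, h0, if_false, Option.some.injEq] at h3
        have := congrArg Prod.fst h3
        simp only [vx] at this
        omega
    refine ⟨hne, ?_⟩
    obtain ⟨v, hv, he⟩ := ok_edge hc
    rw [he] at h1 h2
    rw [LabI_387.Mx_eq]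
    exact LM_pos LabI_387.hc_pos hne (h := (⟨⟨v, hv⟩, j⟩ : LabI_387.HE T)) (Or.inl ⟨h1, h2⟩)

/-- adjacent components are the labels of an edge sheet -/
theorem exists_edge {E E' : II U} (hne : E ≠ E') (hM : Mx L E E' ≠ 0) :
    ∃ v, ∃ _ : v ∈ Vs T, ∃ j, (L.e1 (ec S v) j = some E ∧ L.e2 (ec S v) j = some E') ∨
      (L.e1 (ec S v) j = some E' ∧ L.e2 (ec S v) j = some E) := by
  rw [LabI_387.Mx_eq, LM_off LabI_387.hc_pos hne] at hM
  obtain ⟨h, -, hh⟩ := Finset.exists_ne_zero_of_sum_ne_zero hM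
  have h1 := right_ne_zero_of_mul hh
  have key : ∀ {o : Option (II U)} {E : II U}, dl o E ≠ 0 → o = some E := by
    intro o E ho
    unfold dl at ho
    by_contra hcon
    rw [if_neg hcon] at ho
    exact ho rfl
  refine ⟨h.1.1, h.1.2, h.2, ?_⟩
  by_cases h2 : dl (LabI_387.ha L h) E * dl (LabI_387.hb L h) E' = 0
  · rw [h2, zero_add] at h1
    exact Or.inr ⟨key (right_ne_zero_of_mul h1), key (left_ne_zero_of_mul h1)⟩
  · exact Or.inl ⟨key (left_ne_zero_of_mul h2), key (right_ne_zero_of_mul h2)⟩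

theorem Mx_rat (E E' : II U) : ∃ r : ℚ, (r : ℝ) = Mx L E E' := by
  have hcd : ∀ v, cd S v ∈ (Rat.castHom ℝ).range := fun v =>
    ⟨1 / (T.M * (v.1 - S.kp v : ℕ) : ℚ), by simp [cd]⟩
  have h : Mx L E E' ∈ (Rat.castHom ℝ).range := by
    unfold Mx
    refine Subring.sum_mem _ fun v _ => Subring.sum_mem _ fun j _ => ?_
    refine Subring.mul_mem _ (hcd v) (Subring.add_mem _ ?_ ?_)
    · split_ifs
      all_goals
        first
        | exact Subring.sub_mem _ (Subring.one_mem _) (Subring.one_mem _)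
        | exact Subring.sub_mem _ (Subring.one_mem _) (Subring.zero_mem _)
        | exact Subring.sub_mem _ (Subring.zero_mem _) (Subring.one_mem _)
        | exact Subring.sub_mem _ (Subring.zero_mem _) (Subring.zero_mem _)
        | exact Subring.zero_mem _
    · split_ifs
      all_goals
        first
        | exact Subring.sub_mem _ (Subring.one_mem _) (Subring.one_mem _)
        | exact Subring.sub_mem _ (Subring.one_mem _) (Subring.zero_mem _)
        | exact Subring.sub_mem _ (Subring.zero_mem _) (Subring.one_mem _)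
        | exact Subring.sub_mem _ (Subring.zero_mem _) (Subring.zero_mem _)
        | exact Subring.zero_mem _
  obtain ⟨r, hr⟩ := h
  exact ⟨r, hr⟩

namespace FrIn

variable {nu : II U → ℤ} {n1 n2 : Ch T.m → Fin T.d → ℤ} [Fintype (II U)]
  (D : FrIn L nu n1 n2)

/-- an edge sheet with labels in `I0`, as a chart of the frame -/
theorem exists_K {v : Vtx} (hv : v ∈ Vs T) {j : Fin T.d} {E E' : II U}
    (h1 : L.e1 (ec S v) j = some E) (h2 : L.e2 (ec S v) j = some E') (hE : E ∈ D.I0)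
    (hE' : E' ∈ D.I0) : ∃ a : D.K, D.e1 a = ⟨E, hE⟩ ∧ D.e2 a = some ⟨E', hE'⟩ := by
  have hok : Ok S (ec S v) := D.ok _ (D.edge v hv)
  have hnt : ¬ T.IsTop (ec S v) := by
    intro ht
    rw [e1_top hok ht j] at h1
    exact absurd h1 (by simp)
  refine ⟨D.mkK (D.edge v hv) j (Or.inl h1) hE, ?_, ?_⟩
  · refine Subtype.ext (D.e1_of ?_)
    show l1 L (ec S v) j = some E
    rw [l1_not hnt]; exact h1
  · refine D.e2_of ?_ hE'
    show l2 L (ec S v) j = some E'
    rw [l2_not hnt]; exact h2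

theorem adj : Ex_121.Adj D.fr where
  rat := fun i j => Mx_rat (i : D.I0).1 (j : D.I0).1
  adj := fun a i' h => by
    have h2 := D.e2_some (a := a) (E := i') h
    have hnt : ¬ T.IsTop (D.ch a) := by
      intro ht
      rw [l2_top ht] at h2
      exact absurd h2 (by simp)
    have h1 := D.e1_spec a
    rw [l1_not hnt] at h1
    rw [l2_not hnt] at h2
    obtain ⟨h3, h4⟩ := edge_adj (D.okK a) h1 h2
    exact ⟨fun h5 => h3 (congrArg Subtype.val h5), h4.ne'⟩
  node := fun i j hij hM => by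
    have hne : (i : D.I0).1 ≠ (j : D.I0).1 := fun h => hij (Subtype.ext h)
    obtain ⟨v, hv, l, h | h⟩ := exists_edge hne hM
    · obtain ⟨a, h1, h2⟩ := D.exists_K hv h.1 h.2 (i : D.I0).2 (j : D.I0).2
      exact ⟨a, Or.inl ⟨h1, h2⟩⟩
    · obtain ⟨a, h1, h2⟩ := D.exists_K hv h.1 h.2 (j : D.I0).2 (i : D.I0).2
      exact ⟨a, Or.inr ⟨h1, h2⟩⟩

end FrIn

end Crest.Agent.R257.FrBP_808
end
end

-- ▼ part R257/FrBPS_808
section

/-!
R257 / FrBPS_808: `Sh T` with arbitrarily small radii, for the current structure `Sh` (with the fields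
`fare`, `farl`). The first part is the argument of BPS_554.
-/

set_option autoImplicit false
set_option linter.unusedSectionVars false

open Polynomial Set Filter Topology Metric
open Crest.AlgGeometry.Germ Crest.Agent.R257.AJ387 Crest.Agent.R257.T387
open Crest.Agent.R257.BP_258 Crest.Agent.R257.BP0_554

noncomputable section

namespace Crest.Agent.R257.FrBP_808

variable {f : (Fin 3 → ℂ) → ℂ} {T : TB f}

lemma exists_parent' {i : Fin T.m} {k : ℕ} (hk : k ∈ T.lev i) : ∃ l, T.Cons i l k := by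
  classical
  by_cases h : ((T.lev i).filter fun l => l < k).Nonempty
  · obtain ⟨l, hl, hmax⟩ := Finset.exists_max_image _ id h
    rw [Finset.mem_filter] at hl
    refine ⟨l, Or.inr hl.1, hk, hl.2, fun l' hl' => ?_⟩
    rcases lt_or_ge l' k with h1 | h1
    · exact Or.inl (hmax l' (Finset.mem_filter.2 ⟨hl', h1⟩))
    · exact Or.inr h1
  · rw [Finset.not_nonempty_iff_eq_empty, Finset.filter_eq_empty_iff] at h
    exact ⟨0, Or.inl rfl, hk, TCov554.lev_pos T hk, fun l' hl' => Or.inr (not_lt.1 (h hl'))⟩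

lemma mem_Vs' {v : Vtx} : v ∈ Vs T ↔ ∃ i, ∃ k ∈ T.lev i, vx T i k = v := by
  classical
  unfold Vs
  simp only [Finset.mem_biUnion, Finset.mem_univ, true_and, Finset.mem_image]

/-- small non zero numbers are not in a finite set -/
lemma small_not_mem (F : Finset ℂ) {n : ℕ} (hn : 0 < n) :
    ∃ δ > 0, ∀ b : ℂ, b ≠ 0 → ‖b‖ ≤ δ → b ^ n ∉ F := by
  classical
  have h : ∀ᶠ b in 𝓝 (0 : ℂ), b ^ n ∉ F.erase 0 := by
    have h1 : ContinuousAt (fun b : ℂ => b ^ n) 0 := by fun_prop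
    have h2 : ((F.erase 0 : Finset ℂ) : Set ℂ)ᶜ ∈ 𝓝 ((0 : ℂ) ^ n) := by
      rw [zero_pow hn.ne']
      exact (F.erase 0).finite_toSet.isClosed.isOpen_compl.mem_nhds (by simp)
    exact h1.eventually h2
  obtain ⟨δ, hδ, hb⟩ := Metric.eventually_nhds_iff_ball.1 h
  refine ⟨δ / 2, by positivity, fun b hb0 hbn hmem => ?_⟩
  have h3 := hb b (by rw [mem_ball_zero_iff]; linarith)
  exact h3 (Finset.mem_erase.2 ⟨pow_ne_zero _ hb0, hmem⟩)

/-- large numbers are not in a finite set -/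
lemma large_not_mem (F : Finset ℂ) {n : ℕ} (hn : 0 < n) :
    ∃ δ > 0, ∀ b : ℂ, b ≠ 0 → ‖b‖ ≤ δ → (b ^ n)⁻¹ ∉ F := by
  classical
  obtain ⟨δ, hδ, h⟩ := small_not_mem (F.image fun z => z⁻¹) hn
  refine ⟨δ, hδ, fun b hb0 hbn hmem => h b hb0 hbn ?_⟩
  rw [Finset.mem_image]
  exact ⟨_, hmem, inv_inv _⟩

/-- the radii of one chart -/
lemma exists_far (c : Ch T.m) (hc : T.Valid c) : ∃ δ > 0,
    (∀ i k w₀, c = .vert i k w₀ → ∀ w, ‖w - w₀‖ ≤ 2 * δ → w ∉ T.Sp i k) ∧
    (∀ i k k', c = .edge i k k' → ∀ b : ℂ, b ≠ 0 → ‖b‖ ≤ 2 * δ →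
      b ^ (T.M * (k' - k)) ∉ T.Sp i k ∧ (b ^ (T.M * (k' - k)))⁻¹ ∉ T.Sp i k') ∧
    (∀ i, c = .leg i → ∀ b : ℂ, b ≠ 0 → ‖b‖ ≤ 2 * δ → b ^ T.M ∉ T.Sp i (T.top i)) := by
  rcases c with ⟨i, k, k'⟩ | i | ⟨i, k, w₀⟩
  · have hkk : k < k' := hc.2.2.1
    have hn : 0 < T.M * (k' - k) := Nat.mul_pos T.M_pos (by omega)
    obtain ⟨δ₁, h1, h1'⟩ := small_not_mem (T.Sp i k) hn
    obtain ⟨δ₂, h2, h2'⟩ := large_not_mem (T.Sp i k') hn
    refine ⟨min δ₁ δ₂ / 2, by positivity, by rintro _ _ _ ⟨⟩, ?_, by rintro _ ⟨⟩⟩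
    rintro _ _ _ ⟨⟩ b hb0 hb
    have hb' : ‖b‖ ≤ min δ₁ δ₂ := by linarith
    exact ⟨h1' b hb0 (hb'.trans (min_le_left _ _)), h2' b hb0 (hb'.trans (min_le_right _ _))⟩
  · obtain ⟨δ₁, h1, h1'⟩ := small_not_mem (T.Sp i (T.top i)) T.M_pos
    refine ⟨δ₁ / 2, by positivity, by rintro _ _ _ ⟨⟩, by rintro _ _ _ ⟨⟩, ?_⟩
    rintro _ ⟨⟩ b hb0 hb
    exact h1' b hb0 (by linarith)
  · have hopen : IsOpen ((T.Sp i k : Set ℂ)ᶜ) := (T.Sp i k).finite_toSet.isClosed.isOpen_compl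
    obtain ⟨δ, hδ, hb⟩ := Metric.isOpen_iff.1 hopen w₀ (fun h => hc.2 h)
    refine ⟨δ / 4, by positivity, ?_, by rintro _ _ _ ⟨⟩, by rintro _ ⟨⟩⟩
    rintro _ _ _ ⟨⟩ w hw h
    have : w ∈ ball w₀ δ := by
      rw [mem_ball, dist_eq_norm]
      linarith
    exact hb this h

/-- **C-SH** for the current structure `Sh` -/
theorem exists_Sh (hC : Clo T) (b : Ch T.m → ℝ) (hb : ∀ c, 0 < b c) :
    ∃ S : Sh T, ∀ c, S.r c ≤ b c := by
  classical
  -- centres
  have hci : ∀ v : Vtx, ∃ j : Fin T.m, v ∈ Vs T →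
      (∀ s ∈ ball (0 : ℂ) T.ρ, T.φ j s = v.2.eval s) ∧ ∃ l, T.Cons j l v.1 := by
    intro v
    by_cases hv : v ∈ Vs T
    · obtain ⟨i, k, hk, rfl⟩ := mem_Vs'.1 hv
      obtain ⟨j, hj⟩ := hC.tr_mem i k hk
      exact ⟨j, fun _ => ⟨hj, exists_parent' (lev_center hk hj)⟩⟩
    · exact ⟨⟨0, T.m_pos⟩, fun h => absurd h hv⟩
  choose ci hci using hci
  have hkp : ∀ v : Vtx, ∃ l : ℕ, v ∈ Vs T → T.Cons (ci v) l v.1 := by
    intro v
    by_cases hv : v ∈ Vs T
    · obtain ⟨l, hl⟩ := (hci v hv).2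
      exact ⟨l, fun _ => hl⟩
    · exact ⟨0, fun h => absurd h hv⟩
  choose kp hkp using hkp
  -- radii
  have hr : ∀ c : Ch T.m, ∃ (r : ℝ) (ζ : Fin T.d → ℂ × ℂ → ℂ), 0 < r ∧ r ≤ 1 / 2 ∧ r ≤ b c ∧
      (T.Valid c → T.Sheets c (2 * r) ζ) ∧
      (∀ i k w₀, c = .vert i k w₀ → T.Valid c → ∀ w, ‖w - w₀‖ ≤ 2 * r → w ∉ T.Sp i k) ∧
      (∀ i k k', c = .edge i k k' → T.Valid c → ∀ b : ℂ, b ≠ 0 → ‖b‖ ≤ 2 * r →
        b ^ (T.M * (k' - k)) ∉ T.Sp i k ∧ (b ^ (T.M * (k' - k)))⁻¹ ∉ T.Sp i k') ∧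
      (∀ i, c = .leg i → ∀ b : ℂ, b ≠ 0 → ‖b‖ ≤ 2 * r → b ^ T.M ∉ T.Sp i (T.top i)) := by
    intro c
    by_cases hc : T.Valid c
    · obtain ⟨r₀, hr₀, hs⟩ := T.sheets c hc
      obtain ⟨δ, hδ, hf1, hf2, hf3⟩ := exists_far c hc
      have hrp : 0 < min (min (r₀ / 2) δ) (min (1 / 2) (b c)) :=
        lt_min (lt_min (by positivity) hδ) (lt_min (by norm_num) (hb c))
      set r := min (min (r₀ / 2) δ) (min (1 / 2) (b c)) with hrdef
      have h1 : 2 * r ≤ r₀ := by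
        have : r ≤ r₀ / 2 := (min_le_left _ _).trans (min_le_left _ _)
        linarith
      have h2 : r ≤ δ := (min_le_left _ _).trans (min_le_right _ _)
      obtain ⟨ζ, hζ⟩ := hs (2 * r) (by positivity) h1
      exact ⟨r, ζ, hrp, (min_le_right _ _).trans (min_le_left _ _),
        (min_le_right _ _).trans (min_le_right _ _), fun _ => hζ,
        fun i k w₀ hcc _ w hw => hf1 i k w₀ hcc w (by linarith),
        fun i k k' hcc _ b hb0 hbn => hf2 i k k' hcc b hb0 (by linarith),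
        fun i hcc b hb0 hbn => hf3 i hcc b hb0 (by linarith)⟩
    · refine ⟨min (1 / 2) (b c), fun _ _ => 0, lt_min (by norm_num) (hb c), min_le_left _ _,
        min_le_right _ _, fun h => absurd h hc, fun _ _ _ _ h => absurd h hc,
        fun _ _ _ _ h => absurd h hc, ?_⟩
      rintro i rfl
      exact absurd trivial hc
  choose r ζ h1 h2 h3 h4 h5 h6 h7 using hr
  exact ⟨{ r := r, ζ := ζ, pos := h1, le := h2, sheets := h4
           far := fun i k w₀ hv w hw => h5 _ i k w₀ rfl hv w hw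
           fare := fun i k k' hv b hb0 hbn => h6 _ i k k' rfl hv b hb0 hbn
           farl := fun i b hb0 hbn => h7 _ i rfl b hb0 hbn
           ci := ci, ci_eq := fun v hv => (hci v hv).1
           kp := kp, kp_cons := hkp }, h3⟩

end Crest.Agent.R257.FrBP_808
end
end

-- ▼ part R257/Clo_214
section

/-!
Row 257 (S0395), part C, task C-CLO (helper214): every `TB f` can be enlarged to one whose branches are
closed under truncation at the levels and under the Galois action: `BP_258.Clo`.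
-/

set_option autoImplicit false

open Polynomial Set Filter Topology Metric
open Crest.AlgGeometry.Germ Crest.Agent.R257.AJ387 Crest.Agent.R257.T387
open Crest.Agent.R257.BP_258

noncomputable section

namespace Crest.Agent.R257.Clo_214

/-! ### Taylor coefficients -/

/-- Taylor coefficient at `0` -/
def tc (g : ℂ → ℂ) (n : ℕ) : ℂ := iteratedDeriv n g 0 / (n.factorial : ℂ)

lemma tc_congr {g h : ℂ → ℂ} (e : g =ᶠ[𝓝 0] h) (n : ℕ) : tc g n = tc h n := by
  unfold tc; rw [Filter.EventuallyEq.iteratedDeriv_eq n e]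

lemma iteratedDeriv_scale (g : ℂ → ℂ) (ζ : ℂ) (n : ℕ) :
    iteratedDeriv n (fun s => g (ζ * s)) = fun s => ζ ^ n * iteratedDeriv n g (ζ * s) := by
  induction n with
  | zero => funext s; simp
  | succ n ih =>
    rw [iteratedDeriv_succ, ih]
    funext s
    rw [deriv_const_mul_field, deriv_comp_mul_left ζ (iteratedDeriv n g) s, iteratedDeriv_succ,
      smul_eq_mul, pow_succ, mul_assoc]

lemma tc_scale (g : ℂ → ℂ) (ζ : ℂ) (n : ℕ) : tc (fun s => g (ζ * s)) n = tc g n * ζ ^ n := by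
  unfold tc; rw [iteratedDeriv_scale]; simp only [mul_zero]; ring

lemma iteratedDeriv_poly (p : ℂ[X]) (n : ℕ) :
    iteratedDeriv n (fun s => p.eval s) = fun s => (derivative^[n] p).eval s := by
  induction n with
  | zero => rfl
  | succ n ih =>
    rw [iteratedDeriv_succ, ih]
    funext s
    rw [Function.iterate_succ_apply']
    exact Polynomial.deriv (p := derivative^[n] p)

lemma tc_poly (p : ℂ[X]) (n : ℕ) : tc (fun s => p.eval s) n = p.coeff n := by
  unfold tc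
  rw [iteratedDeriv_poly]
  show (derivative^[n] p).eval 0 / _ = _
  rw [← coeff_zero_eq_eval_zero, coeff_iterate_derivative, zero_add, Nat.descFactorial_self,
    nsmul_eq_mul]
  have : (n.factorial : ℂ) ≠ 0 := by exact_mod_cast n.factorial_ne_zero
  field_simp

lemma tc_eq_of_contact {g h u : ℂ → ℂ} {k : ℕ} (hg : AnalyticAt ℂ g 0) (hh : AnalyticAt ℂ h 0)
    (hu : AnalyticAt ℂ u 0) (e : ∀ᶠ s in 𝓝 (0 : ℂ), g s - h s = s ^ k * u s) {n : ℕ} (hn : n < k) :
    tc g n = tc h n := by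
  have h1 : (k : ℕ∞) ≤ analyticOrderAt (g - h) 0 := by
    rw [natCast_le_analyticOrderAt (hg.sub hh)]
    exact ⟨u, hu, by filter_upwards [e] with s hs; simpa [sub_zero] using hs⟩
  have h2 := (natCast_le_analyticOrderAt_iff_iteratedDeriv_eq_zero (hg.sub hh)).1 h1 n hn
  rw [iteratedDeriv_sub hg.contDiffAt hh.contDiffAt, sub_eq_zero] at h2
  unfold tc; rw [h2]

/-- truncation -/
def Tr (g : ℂ → ℂ) (k : ℕ) : ℂ[X] := ∑ n ∈ Finset.range k, C (tc g n) * X ^ n

lemma Tr_coeff (g : ℂ → ℂ) (k n : ℕ) : (Tr g k).coeff n = if n < k then tc g n else 0 := by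
  unfold Tr
  rw [finsetSum_coeff]
  simp only [coeff_C_mul_X_pow]
  by_cases h : n < k
  · rw [if_pos h, Finset.sum_eq_single n]
    · simp
    · intro b _ hb; rw [if_neg (Ne.symm hb)]
    · intro h1; exact absurd (Finset.mem_range.2 h) h1
  · rw [if_neg h]
    refine Finset.sum_eq_zero fun b hb => ?_
    rw [if_neg]
    rintro rfl
    exact h (Finset.mem_range.1 hb)

variable {f : (Fin 3 → ℂ) → ℂ} (T : TB f)

/-- the family of the conjugates (`k = 0`) and their truncations (`k > 0`) -/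
def G (p : Fin T.m × ℂ × ℕ) : ℂ → ℂ :=
  if p.2.2 = 0 then fun s => T.φ p.1 (p.2.1 * s) else
    fun s => (Tr (fun s => T.φ p.1 (p.2.1 * s)) p.2.2).eval s

lemma tc_G (a : Fin T.m) (ζ : ℂ) (k n : ℕ) :
    tc (G T (a, ζ, k)) n = if k = 0 ∨ n < k then tc (fun s => T.φ a (ζ * s)) n else 0 := by
  unfold G
  by_cases h : k = 0
  · subst h; simp
  · simp only [h, if_false, false_or]
    rw [tc_poly, Tr_coeff]

lemma Tr_G (a : Fin T.m) (ζ : ℂ) (k k' : ℕ) :
    Tr (G T (a, ζ, k)) k' = Tr (fun s => T.φ a (ζ * s)) (if k = 0 then k' else min k k') := by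
  ext n
  rw [Tr_coeff, Tr_coeff, tc_G]
  split_ifs <;> first | rfl | (exfalso; omega)

/-- the roots of unity -/
def Z : Finset ℂ := nthRootsFinset T.N₀ (1 : ℂ)

lemma mem_Z {ζ : ℂ} : ζ ∈ Z T ↔ ζ ^ T.N₀ = 1 := by
  unfold Z; rw [mem_nthRootsFinset T.N₀_pos]

lemma norm_Z {ζ : ℂ} (h : ζ ∈ Z T) : ‖ζ‖ = 1 :=
  Complex.norm_eq_one_of_pow_eq_one ((mem_Z T).1 h) T.N₀_pos.ne'

lemma ball_Z {ζ s : ℂ} {ρ : ℝ} (h : ζ ∈ Z T) (hs : s ∈ ball (0 : ℂ) ρ) : ζ * s ∈ ball (0 : ℂ) ρ := by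
  rw [mem_ball_zero_iff, norm_mul, norm_Z T h, one_mul]; exact mem_ball_zero_iff.1 hs

/-- bound for the truncation levels -/
def Bd : ℕ := 1 + ∑ p ∈ (Finset.univ : Finset (Fin T.m)) ×ˢ Z T,
  ∑ q ∈ (Finset.univ : Finset (Fin T.m)) ×ˢ Z T,
    analyticOrderNatAt (fun s => T.φ p.1 (p.2 * s) - T.φ q.1 (q.2 * s)) 0

lemma le_Bd {a b : Fin T.m} {ζ ξ : ℂ} (hζ : ζ ∈ Z T) (hξ : ξ ∈ Z T) :
    analyticOrderNatAt (fun s => T.φ a (ζ * s) - T.φ b (ξ * s)) 0 ≤ Bd T := by
  unfold Bd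
  refine le_trans ?_ (Nat.le_add_left _ _)
  refine le_trans ?_ (Finset.single_le_sum (f := fun p : Fin T.m × ℂ =>
    ∑ q ∈ (Finset.univ : Finset (Fin T.m)) ×ˢ Z T,
    analyticOrderNatAt (fun s => T.φ p.1 (p.2 * s) - T.φ q.1 (q.2 * s)) 0)
    (fun _ _ => Nat.zero_le _) (Finset.mk_mem_product (Finset.mem_univ a) hζ))
  exact Finset.single_le_sum (f := fun q : Fin T.m × ℂ =>
    analyticOrderNatAt (fun s => T.φ a (ζ * s) - T.φ q.1 (q.2 * s)) 0)
    (fun _ _ => Nat.zero_le _) (Finset.mk_mem_product (Finset.mem_univ b) hξ)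

/-- the index set -/
def J : Finset (Fin T.m × ℂ × ℕ) :=
  (Finset.univ : Finset (Fin T.m)) ×ˢ (Z T ×ˢ Finset.range (Bd T + 1))

lemma mem_J {a : Fin T.m} {ζ : ℂ} {k : ℕ} : (a, ζ, k) ∈ J T ↔ ζ ∈ Z T ∧ k ≤ Bd T := by
  unfold J
  simp [Finset.mem_product]

lemma G_an {a : Fin T.m} {ζ : ℂ} (k : ℕ) (hζ : ζ ∈ Z T) :
    AnalyticOnNhd ℂ (G T (a, ζ, k)) (ball 0 T.ρ) := by
  intro s hs
  unfold G
  split_ifs with h
  · exact AnalyticAt.comp (g := T.φ a) (f := fun s => ζ * s) (T.φ_an a _ (ball_Z T hζ hs))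
      (analyticAt_const.mul analyticAt_id)
  · exact (Polynomial.differentiable _).analyticAt s

lemma G_zero {a : Fin T.m} {ζ : ℂ} (k : ℕ) : G T (a, ζ, k) 0 = 0 := by
  unfold G
  split_ifs with h
  · simp [T.φ_zero]
  · show (Tr _ _).eval 0 = 0
    rw [← coeff_zero_eq_eval_zero, Tr_coeff]
    split_ifs
    · simp [tc, T.φ_zero]
    · rfl

lemma G_rot {a : Fin T.m} {ζ ξ : ℂ} (k : ℕ) (hξ : ξ ≠ 0) (s : ℂ) :
    G T (a, ζ * ξ⁻¹, k) (ξ * s) = G T (a, ζ, k) s := by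
  unfold G
  split_ifs with h
  · show T.φ a _ = T.φ a _
    congr 1
    show ζ * ξ⁻¹ * (ξ * s) = ζ * s
    field_simp
  · show (Tr (fun s => T.φ a (ζ * ξ⁻¹ * s)) k).eval (ξ * s) = (Tr (fun s => T.φ a (ζ * s)) k).eval s
    unfold Tr
    rw [eval_finsetSum, eval_finsetSum]
    refine Finset.sum_congr rfl fun n _ => ?_
    rw [eval_mul, eval_C, eval_pow, eval_X, eval_mul, eval_C, eval_pow, eval_X, tc_scale, tc_scale,
      mul_pow, mul_pow, inv_pow]
    have : ξ ^ n ≠ 0 := pow_ne_zero n hξ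
    field_simp

/-- **C-CLO** -/
theorem exists_clo : ∃ T' : TB f, Clo T' ∧ T'.A = T.A ∧ T'.d = T.d ∧ T'.P = T.P ∧ T'.v = T.v ∧
    T'.R = T.R ∧ T'.rz = T.rz ∧ T'.N₀ = T.N₀ ∧ T'.ρ ≤ T.ρ ∧
    (∀ i, ∃ j, ∀ s ∈ ball (0 : ℂ) T'.ρ, T'.φ j s = T.φ i s) := by
  classical
  let S : Finset (ℂ → ℂ) := (J T).image fun p => indicator (ball 0 T.ρ) (G T p)
  have h0m : (0 : ℂ) ∈ ball (0 : ℂ) T.ρ := mem_ball_self T.ρ_pos
  have hS : ∀ h ∈ S, ∃ a ζ k, ζ ∈ Z T ∧ k ≤ Bd T ∧ h = indicator (ball 0 T.ρ) (G T (a, ζ, k)) := by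
    intro h hh
    obtain ⟨⟨a, ζ, k⟩, hp, rfl⟩ := Finset.mem_image.1 hh
    exact ⟨a, ζ, k, ((mem_J T).1 hp).1, ((mem_J T).1 hp).2, rfl⟩
  have hmS : ∀ a ζ k, ζ ∈ Z T → k ≤ Bd T → indicator (ball 0 T.ρ) (G T (a, ζ, k)) ∈ S :=
    fun a ζ k h1 h2 => Finset.mem_image.2 ⟨(a, ζ, k), (mem_J T).2 ⟨h1, h2⟩, rfl⟩
  have hind : ∀ p, ∀ s ∈ ball (0 : ℂ) T.ρ, indicator (ball 0 T.ρ) (G T p) s = G T p s :=
    fun p s hs => indicator_of_mem hs _
  have hev : ∀ p, ∀ s ∈ ball (0 : ℂ) T.ρ, indicator (ball 0 T.ρ) (G T p) =ᶠ[𝓝 s] G T p :=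
    fun p s hs => by
      filter_upwards [isOpen_ball.mem_nhds hs] with x hx using hind p x hx
  have hSan : ∀ h ∈ S, AnalyticOnNhd ℂ h (ball 0 T.ρ) := by
    intro h hh s hs
    obtain ⟨a, ζ, k, hζ, hk, rfl⟩ := hS h hh
    exact (G_an T k hζ s hs).congr (hev _ s hs).symm
  have hS0 : ∀ h ∈ S, h 0 = 0 := by
    intro h hh
    obtain ⟨a, ζ, k, hζ, hk, rfl⟩ := hS h hh
    rw [hind _ 0 h0m, G_zero]
  have hSout : ∀ h ∈ S, ∀ s ∉ ball (0 : ℂ) T.ρ, h s = 0 := by
    intro h hh s hs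
    obtain ⟨a, ζ, k, hζ, hk, rfl⟩ := hS h hh
    exact indicator_of_notMem hs _
  -- the radius
  have hev1 : ∀ᶠ s in 𝓝 (0 : ℂ), (∀ h ∈ S, ‖h s‖ < T.R) ∧
      ∀ h ∈ S, ∀ h' ∈ S, h ≠ h' → s ≠ 0 → h s - h' s ≠ 0 := by
    refine ((Finset.eventually_all _).2 fun h hh => ?_).and
      ((Finset.eventually_all _).2 fun h hh => (Finset.eventually_all _).2 fun h' hh' => ?_)
    · have := (hSan h hh 0 h0m).continuousAt.norm.tendsto
      rw [hS0 h hh, norm_zero] at this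
      exact this.eventually (gt_mem_nhds T.R_pos)
    · by_cases hne : h = h'
      · exact Eventually.of_forall fun s h1 => absurd hne h1
      · have h1 : AnalyticAt ℂ (fun s => h s - h' s) 0 :=
          (hSan h hh 0 h0m).sub (hSan h' hh' 0 h0m)
        rcases h1.eventually_eq_zero_or_eventually_ne_zero with h2 | h2
        · exfalso
          apply hne
          have h3 : EqOn h h' (ball 0 T.ρ) := by
            refine (hSan h hh).eqOn_of_preconnected_of_eventuallyEq (hSan h' hh')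
              (convex_ball _ _).isPreconnected h0m ?_
            filter_upwards [h2] with s hs using sub_eq_zero.1 hs
          funext s
          by_cases hs : s ∈ ball (0 : ℂ) T.ρ
          · exact h3 hs
          · rw [hSout h hh s hs, hSout h' hh' s hs]
        · rw [eventually_nhdsWithin_iff] at h2
          filter_upwards [h2] with s hs _ hs0 using hs hs0
  obtain ⟨ε, hε, hεb⟩ := Metric.eventually_nhds_iff_ball.1 hev1
  set ρ : ℝ := min ε T.ρ with hρd
  have hρ0 : 0 < ρ := lt_min hε T.ρ_pos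
  have hρT : ρ ≤ T.ρ := min_le_right _ _
  have hρε : ρ ≤ ε := min_le_left _ _
  have hsub : ball (0 : ℂ) ρ ⊆ ball (0 : ℂ) T.ρ := ball_subset_ball hρT
  let e := S.equivFin
  let φ : Fin S.card → ℂ → ℂ := fun i => (e.symm i : ℂ → ℂ)
  have hφS : ∀ i, φ i ∈ S := fun i => (e.symm i).2
  have hφe : ∀ h (hh : h ∈ S), φ (e ⟨h, hh⟩) = h := by
    intro h hh
    show ((e.symm (e ⟨h, hh⟩) : S) : ℂ → ℂ) = h
    rw [Equiv.symm_apply_apply]
  have hφinj : ∀ i j, i ≠ j → φ i ≠ φ j := by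
    intro i j hij h
    exact hij (e.symm.injective (Subtype.ext h))
  have hφne : ∀ i j, i ≠ j → ∀ s ∈ ball (0 : ℂ) ρ, s ≠ 0 → φ i s - φ j s ≠ 0 :=
    fun i j hij s hs hs0 => (hεb s (ball_subset_ball hρε hs)).2 _ (hφS i) _ (hφS j)
      (hφinj i j hij) hs0
  have hφan : ∀ i, AnalyticOnNhd ℂ (φ i) (ball 0 ρ) := fun i => (hSan _ (hφS i)).mono hsub
  have hφ0 : ∀ i, φ i 0 = 0 := fun i => hS0 _ (hφS i)
  have hcon : ∀ i j, i ≠ j → ∃ (k : ℕ) (u : ℂ → ℂ), 0 < k ∧ AnalyticOnNhd ℂ u (ball 0 ρ) ∧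
      (∀ s ∈ ball (0 : ℂ) ρ, u s ≠ 0) ∧ ∀ s ∈ ball (0 : ℂ) ρ, φ i s - φ j s = s ^ k * u s := by
    intro i j hij
    exact T0_939.exists_contact (g := fun s => φ i s - φ j s) hρ0 ((hφan i).sub (hφan j))
      (by simp [hφ0]) (hφne i j hij)
  choose! k u hk hu hune hφs using hcon
  have hbr : ∀ i : Fin T.m, ∃ j, ∀ s ∈ ball (0 : ℂ) ρ, φ j s = T.φ i s := by
    intro i
    have h1 := hmS i 1 0 ((mem_Z T).2 (one_pow _)) (Nat.zero_le _)
    refine ⟨e ⟨_, h1⟩, fun s hs => ?_⟩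
    rw [hφe, hind _ s (hsub hs)]
    simp [G]
  have hρm : (0 : ℂ) ∈ ball (0 : ℂ) ρ := mem_ball_self hρ0
  let T' : TB f := {
    A := T.A
    d := T.d
    P := T.P
    v := T.v
    R := T.R
    rz := T.rz
    R_pos := T.R_pos
    rz_pos := T.rz_pos
    d_pos := T.d_pos
    monic := T.monic
    deg := T.deg
    coeff_an := T.coeff_an
    P_zero := T.P_zero
    f_an := T.f_an
    v_an := T.v_an
    v_ne := T.v_ne
    f_eq := T.f_eq
    roots_in := T.roots_in
    N₀ := T.N₀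
    N₀_pos := T.N₀_pos
    m := S.card
    m_pos := Finset.card_pos.2 ⟨_, hφS (e ⟨_, hmS ⟨0, T.m_pos⟩ 1 0 ((mem_Z T).2 (one_pow _))
      (Nat.zero_le _)⟩)⟩
    ρ := ρ
    ρ_pos := hρ0
    ρ_le := hρT.trans T.ρ_le
    ρ_R := fun s hs => T.ρ_R s (hsub hs)
    φ := φ
    φ_an := hφan
    φ_zero := hφ0
    φ_R := fun i s hs => (hεb s (ball_subset_ball hρε hs)).1 _ (hφS i)
    del := fun i j => if i = j then 1 else k i j
    u := u
    del_pos := fun i j => by
      show 0 < if i = j then 1 else k i j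
      split_ifs with h
      · exact one_pos
      · exact hk i j h
    u_an := hu
    u_ne := hune
    φ_sub := fun i j hij s hs => by
      show φ i s - φ j s = s ^ (if i = j then 1 else k i j) * u i j s
      rw [if_neg hij]
      exact hφs i j hij s hs
    nodup := fun s hs y hy hne => T.nodup s (hsub hs) y hy (fun i => by
      obtain ⟨j, hj⟩ := hbr i
      rw [← hj s hs]
      exact hne j) }
  have htc : ∀ p, ∀ n, tc (indicator (ball 0 T.ρ) (G T p)) n = tc (G T p) n :=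
    fun p n => tc_congr (hev p 0 h0m) n
  have hTr : ∀ p, ∀ n, Tr (indicator (ball 0 T.ρ) (G T p)) n = Tr (G T p) n := by
    intro p n; unfold Tr; simp_rw [htc]
  -- the key: truncations are in the family
  have key : ∀ (i : Fin S.card) (a : Fin T.m) (ζ : ℂ) (K n : ℕ), ζ ∈ Z T → 1 ≤ K → K ≤ Bd T →
      Tr (φ i) n = Tr (fun s => T.φ a (ζ * s)) K →
      ∃ j, ∀ s ∈ ball (0 : ℂ) ρ, φ j s = (Tr (φ i) n).eval s := by
    intro i a ζ K n hζ hK1 hK h
    refine ⟨e ⟨_, hmS a ζ K hζ hK⟩, fun s hs => ?_⟩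
    rw [hφe, hind _ s (hsub hs), h]
    unfold G
    rw [if_neg (by show K ≠ 0; omega)]
  have hB1 : 1 ≤ Bd T := by unfold Bd; omega
  refine ⟨T', ⟨?_, ?_⟩, rfl, rfl, rfl, rfl, rfl, rfl, rfl, hρT, hbr⟩
  · intro i n hn
    show ∃ j, ∀ s ∈ ball (0 : ℂ) ρ, φ j s = (Tr (φ i) n).eval s
    obtain ⟨a, ζ, k0, hζ, hk0, hi⟩ := hS _ (hφS i)
    have hn1 : 1 ≤ n := by
      rcases Finset.mem_insert.1 hn with h | h
      · exact h.ge
      · obtain ⟨j, _, rfl⟩ := Finset.mem_image.1 h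
        exact T'.del_pos i j
    have hTi : Tr (φ i) n = Tr (fun s => T.φ a (ζ * s)) (if k0 = 0 then n else min k0 n) := by
      rw [hi, hTr, Tr_G]
    by_cases hk00 : k0 = 0
    · rw [if_pos hk00] at hTi
      rcases Finset.mem_insert.1 hn with h | h
      · exact key i a ζ n n hζ hn1 (h ▸ hB1) hTi
      · obtain ⟨j, hj, hdel⟩ := Finset.mem_image.1 h
        have hji : i ≠ j := fun h => (Finset.mem_erase.1 hj).1 h.symm
        have hdel' : k i j = n := by
          have : (if i = j then 1 else k i j) = n := hdel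
          rwa [if_neg hji] at this
        obtain ⟨b, ξ, k1, hξ, hk1, hj'⟩ := hS _ (hφS j)
        have he1 : ∀ᶠ s in 𝓝 (0 : ℂ), φ i s - φ j s = s ^ n * u i j s := by
          filter_upwards [ball_mem_nhds _ hρ0] with s hs
          rw [← hdel']; exact hφs i j hji s hs
        by_cases hk10 : k1 = 0
        · -- contact of two conjugates
          refine key i a ζ n n hζ hn1 ?_ hTi
          have h1 : AnalyticAt ℂ (fun s => T.φ a (ζ * s) - T.φ b (ξ * s)) 0 := by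
            refine ((hφan i 0 hρm).sub (hφan j 0 hρm)).congr ?_
            rw [hi, hj', hk00, hk10]
            filter_upwards [hev (a, ζ, 0) 0 h0m, hev (b, ξ, 0) 0 h0m] with s h2 h3
            rw [Pi.sub_apply, h2, h3]
            simp [G]
          have h2 : analyticOrderAt (fun s => T.φ a (ζ * s) - T.φ b (ξ * s)) 0 = (n : ℕ∞) := by
            rw [h1.analyticOrderAt_eq_natCast]
            refine ⟨u i j, hu i j hji 0 hρm, hune i j hji 0 hρm, ?_⟩
            filter_upwards [he1, hev (a, ζ, 0) 0 h0m, hev (b, ξ, 0) 0 h0m] with s h2 h3 h4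
            rw [hi, hj', hk00, hk10, h3, h4] at h2
            simpa [G] using h2
          have h3 := le_Bd T (a := a) (b := b) hζ hξ
          rwa [analyticOrderNatAt, h2, ENat.toNat_natCast] at h3
        · have h5 : Tr (φ i) n = Tr (φ j) n := by
            unfold Tr
            refine Finset.sum_congr rfl fun l hl => ?_
            rw [tc_eq_of_contact (hφan i 0 hρm) (hφan j 0 hρm) (hu i j hji 0 hρm) he1
              (Finset.mem_range.1 hl)]
          have h6 : Tr (φ j) n = Tr (fun s => T.φ b (ξ * s)) (min k1 n) := by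
            rw [hj', hTr, Tr_G, if_neg hk10]
          exact key i b ξ (min k1 n) n hξ (by omega) ((min_le_left _ _).trans hk1) (h5.trans h6)
    · rw [if_neg hk00] at hTi
      exact key i a ζ (min k0 n) n hζ (by omega) ((min_le_left _ _).trans hk0) hTi
  · intro ξ hξ i
    show ∃ j, ∀ s ∈ ball (0 : ℂ) ρ, φ j (ξ * s) = φ i s
    obtain ⟨a, ζ, k0, hζ, hk0, hi⟩ := hS _ (hφS i)
    have hξZ : ξ ∈ Z T := (mem_Z T).2 hξ
    have hξ0 : ξ ≠ 0 := fun h => by simpa [h] using norm_Z T hξZ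
    have h1 : ζ * ξ⁻¹ ∈ Z T := by
      rw [mem_Z, mul_pow, inv_pow, (mem_Z T).1 hζ, (mem_Z T).1 hξZ]; simp
    refine ⟨e ⟨_, hmS a (ζ * ξ⁻¹) k0 h1 hk0⟩, fun s hs => ?_⟩
    rw [hφe, hi, hind _ s (hsub hs), hind _ _ (hsub (ball_Z T hξZ hs)), G_rot T k0 hξ0]

theorem clo_exists (T : TB f) : ∃ T' : TB f, Clo T' := by
  obtain ⟨T', h, _⟩ := exists_clo T
  exact ⟨T', h⟩

end Crest.Agent.R257.Clo_214
end
end

-- ▼ part R257/FrBP6_808
section

/-!
R257 / FrBP6_808: existence of the input data `FrIn` of the frame.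

* `CovP S`        : the statement of `BPC_554.coverP` at the radii `S.r`;
* `exists_FrIn'`  : for given `T` (closed), tubes `U`, `S`, labels `L`, from `CovP S`.
-/

set_option autoImplicit false
set_option linter.unusedSectionVars false

open Polynomial Set Filter Topology Metric
open Crest.AlgGeometry.Germ

noncomputable section

namespace Crest.Agent.R257.FrBP_808

open Crest.Agent.R257.Defs_219 Crest.Agent.R257.AJ387 Crest.Agent.R257.T387
open Crest.Agent.R257.BP_258 Crest.Agent.R257.FrmF_547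
open Crest.Agent.R257.Gr1_157 Crest.Agent.R257.GrH_547

variable {f : (Fin 3 → ℂ) → ℂ} {T : TB f}

/-- finitely many canonical charts cover, with the radii of `S` -/
def CovP (S : Sh T) : Prop :=
  ∃ F : Finset (Ch T.m), (∀ c ∈ F, Ok S c) ∧ ∃ ε > 0, ∀ s y : ℂ, ‖s‖ < ε → ‖y‖ < ε →
    (s, y) ≠ 0 → ∃ c ∈ F, ∃ p : ℂ × ℂ, ‖p.1‖ ≤ S.r c ∧ ‖p.2‖ ≤ S.r c ∧ T.map c p = (s, y)

theorem CovP.mono {S : Sh T} (h : CovP S) (G : Finset (Ch T.m)) (hG : ∀ c ∈ G, Ok S c) :
    ∃ F : Finset (Ch T.m), G ⊆ F ∧ (∀ c ∈ F, Ok S c) ∧ ∃ ε > 0, ∀ s y : ℂ, ‖s‖ < ε → ‖y‖ < ε →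
    (s, y) ≠ 0 → ∃ c ∈ F, ∃ p : ℂ × ℂ, ‖p.1‖ ≤ S.r c ∧ ‖p.2‖ ≤ S.r c ∧ T.map c p = (s, y) := by
  classical
  obtain ⟨F₀, hF₀, ε, hε, hcov⟩ := h
  refine ⟨F₀ ∪ G, Finset.subset_union_right, ?_, ε, hε, fun s y a b d => ?_⟩
  · intro c hc
    rcases Finset.mem_union.1 hc with h | h
    · exact hF₀ c h
    · exact hG c h
  · obtain ⟨c, hc, p, hp⟩ := hcov s y a b d
    exact ⟨c, Finset.mem_union_left _ hc, p, hp⟩

theorem exists_vertex : ∃ v, v ∈ Vs T :=
  ⟨vx T ⟨0, T.m_pos⟩ 1, mem_Vs'.2 ⟨_, 1, T.one_mem_lev _, rfl⟩⟩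

variable {U : Tub T} {S : Sh T}

/-- **input data of the frame** -/
theorem exists_FrIn' [Fintype (II U)] (hf : Iso f) (hR : RetStmt U) (L : Lab U S)
    {nu : II U → ℤ} {n1 n2 : Ch T.m → Fin T.d → ℤ} (hJ : Jac L nu n1 n2) (hcovP : CovP S)
    (E₀ : II U) : ∃ D : FrIn L nu n1 n2, D.E₀ = E₀ := by
  classical
  choose cv h1 h2 jv h3 using fun E : II U => LabI_387.exists_vert L E
  obtain ⟨F, hsub, hok, hcov⟩ := hcovP.mono (Finset.univ.image cv ∪ (Vs T).image (ec S)) (by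
    intro c hc
    rcases Finset.mem_union.1 hc with h | h
    · obtain ⟨E, -, rfl⟩ := Finset.mem_image.1 h
      exact h1 E
    · obtain ⟨v, hv, rfl⟩ := Finset.mem_image.1 h
      exact LabI_387.ec_ok hv)
  have hmem : ∀ E, cv E ∈ F := fun E =>
    hsub (Finset.mem_union_left _ (Finset.mem_image_of_mem _ (Finset.mem_univ _)))
  have hedge : ∀ v ∈ Vs T, ec S v ∈ F := fun v hv =>
    hsub (Finset.mem_union_right _ (Finset.mem_image_of_mem _ hv))
  have hcl : ∀ E E', E ∈ cls (Mx L) E₀ → Mx L E E' ≠ 0 → E' ∈ cls (Mx L) E₀ :=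
    fun E E' h h' => cls_step h h'
  exact ⟨{ hf := hf, hR := hR, jac := hJ, ord := OrdA_578.ordStmt hf hR L, E₀ := E₀, F := F,
           ok := hok, vert := fun E => ⟨cv E, hmem E, h2 E, jv E, h3 E⟩, edge := hedge,
           cov := hcov
           cover := FrmG_547.frame_cover L hf hR hok hcov hcl (hmem E₀) (Or.inl (h3 E₀))
             (mem_cls E₀) }, rfl⟩

/-- **the frame exists**, with arbitrarily small radii -/
theorem exists_D' (hf : Iso f) (hC : Clo T) (hcovP : ∀ S : Sh T, CovP S) (b : Ch T.m → ℝ)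
    (hb : ∀ c, 0 < b c) : ∃ (S : Sh T) (L : Lab (Tb_941.tub T hC) S)
      (nu : II (Tb_941.tub T hC) → ℤ) (n1 n2 : Ch T.m → Fin T.d → ℤ),
      (∀ c, S.r c ≤ b c) ∧ Nonempty (FrIn L nu n1 n2) := by
  obtain ⟨S, hS⟩ := exists_Sh hC b hb
  have hR := Tb_941.retStmt (Tb_941.tub T hC)
  obtain ⟨L⟩ := Lab_931.nonempty_lab (U := Tb_941.tub T hC) S hR
  obtain ⟨nu, n1, n2, hJ⟩ := Vt8_558.jac hf hR S L
  obtain ⟨v, hv⟩ := exists_vertex (T := T)
  obtain ⟨E₀, -, -⟩ := e2_some L (LabI_387.ec_ok (S := S) hv) ⟨0, T.d_pos⟩ (v := vx T (S.ci v) v.1) rfl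
  obtain ⟨D, -⟩ := exists_FrIn' hf hR L hJ (hcovP S) E₀
  exact ⟨S, L, nu, n1, n2, hS, ⟨D⟩⟩

end Crest.Agent.R257.FrBP_808
end
end

-- ▼ part R257/FrBP7_808
section

/-!
R257 / FrBP7_808: existence of all data, with `MonoC` for the radii of `S`.
-/

set_option autoImplicit false
set_option linter.unusedSectionVars false

open Polynomial Set Filter Topology Metric
open Crest.AlgGeometry.Germ

noncomputable section

namespace Crest.Agent.R257.FrBP_808

open Crest.Agent.R257.Defs_219 Crest.Agent.R257.AJ387 Crest.Agent.R257.T387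
open Crest.Agent.R257.BP_258 Crest.Agent.R257.FrmF_547
open Crest.Agent.R257.Gr1_157 Crest.Agent.R257.GrH_547

variable {f : (Fin 3 → ℂ) → ℂ}

/-- a tame base with the closure property -/
theorem exists_clo (hf : Iso f) : ∃ T : TB f, Clo T := by
  obtain ⟨T₀, -⟩ := T0_939.exists_TB hf
  exact Clo_214.clo_exists T₀

variable {T : TB f}

theorem exists_monob (T : TB f) : ∃ b : Ch T.m → ℝ, (∀ c, 0 < b c) ∧
    ∀ c, T.Valid c → T.MonoC c (b c) := by
  classical
  refine ⟨fun c => if h : T.Valid c then Classical.choose (T.exists_monoC h) else 1,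
    fun c => ?_, fun c hc => ?_⟩
  · by_cases h : T.Valid c
    · simp only [h, dite_true]
      exact (Classical.choose_spec (T.exists_monoC h)).1
    · simp only [h, dite_false]
      exact one_pos
  · simp only [hc, dite_true]
    exact (Classical.choose_spec (T.exists_monoC hc)).2

theorem covP (S : Sh T) : CovP S := BPC_554.coverP S S.r S.pos

/-- **all data, with `MonoC`, radii `≤ b`** -/
theorem exists_E (hf : Iso f) (hC : Clo T) (b : Ch T.m → ℝ)
    (hb : ∀ c, 0 < b c) : ∃ (S : Sh T) (L : Lab (Tb_941.tub T hC) S)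
      (nu : II (Tb_941.tub T hC) → ℤ) (n1 n2 : Ch T.m → Fin T.d → ℤ),
      (∀ c, S.r c ≤ b c) ∧ (∀ c, T.Valid c → T.MonoC c (S.r c)) ∧ CovP S ∧
        Nonempty (FrIn L nu n1 n2) := by
  obtain ⟨b', hb', hm⟩ := exists_monob T
  obtain ⟨S, L, nu, n1, n2, hS, hD⟩ := exists_D' hf hC covP (fun c => min (b c) (b' c))
    (fun c => lt_min (hb c) (hb' c))
  exact ⟨S, L, nu, n1, n2, fun c => (hS c).trans (min_le_left _ _),
    fun c hc => (hm c hc).mono ((hS c).trans (min_le_right _ _)), covP S, hD⟩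

end Crest.Agent.R257.FrBP_808
end
end

-- ▼ part R257/NV_980

/-!
R257 / NV_980 (helper980): `NVStmt` of CLogDefs_68 (nearest branch vectors).

* `euler`  : `t h'(t) = (e + o(1)) h(t)`;
* `split`  : a monic polynomial with analytic coefficients whose roots are among the analytic
             functions `φ i` is a product of factors `X - φ i`;
* `LB φ F` : `|dF(v)| ≤ C |F|` for the velocity `v` of the nearest branch; closed under products;
* `nvStmt` : the statement.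
-/

set_option autoImplicit false
set_option linter.unusedSectionVars false

open Polynomial Set Filter Topology Metric
open Crest.Agent.R257.OrdL_578 Crest.Agent.R257.T387 Crest.Agent.R257.Sh_297

noncomputable section

namespace Crest.Agent.R257.NV_980






/-- log-bounded in the direction of the nearest branch -/
def LB {m : ℕ} (φ : Fin m → ℂ → ℂ) (F : ℂ × ℂ → ℂ) : Prop :=
  ∃ C : ℝ, ∀ᶠ q in 𝓝 (0 : ℂ × ℂ), DifferentiableAt ℂ F q ∧
    ∀ i, (∀ l, ‖q.2 - φ i q.1‖ ≤ ‖q.2 - φ l q.1‖) →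
      ‖fderiv ℂ F q (q.1, q.1 * deriv (φ i) q.1)‖ ≤ C * ‖F q‖

section LB

variable {m : ℕ} {φ : Fin m → ℂ → ℂ}


theorem LB.mul {F G : ℂ × ℂ → ℂ} (hF : LB φ F) (hG : LB φ G) : LB φ (fun q => F q * G q) := by
  obtain ⟨C, hC⟩ := hF
  obtain ⟨D, hD⟩ := hG
  refine ⟨C + D, ?_⟩
  filter_upwards [hC, hD] with q h1 h2
  refine ⟨h1.1.mul h2.1, fun i hi => ?_⟩
  rw [fderiv_fun_mul h1.1 h2.1]
  simp only [add_apply, smul_apply, smul_eq_mul]
  have h3 := h1.2 i hi
  have h4 := h2.2 i hi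
  calc _ ≤ ‖F q * (fderiv ℂ G q) (q.1, q.1 * deriv (φ i) q.1)‖ +
        ‖G q * (fderiv ℂ F q) (q.1, q.1 * deriv (φ i) q.1)‖ := norm_add_le _ _
    _ ≤ ‖F q‖ * (D * ‖G q‖) + ‖G q‖ * (C * ‖F q‖) := by
        rw [norm_mul, norm_mul]
        exact add_le_add (mul_le_mul_of_nonneg_left h4 (norm_nonneg _))
          (mul_le_mul_of_nonneg_left h3 (norm_nonneg _))
    _ = (C + D) * ‖F q * G q‖ := by rw [norm_mul]; ring

theorem LB.const (c : ℂ) : LB φ (fun _ => c) :=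
  ⟨0, Eventually.of_forall fun q => ⟨differentiableAt_const _, fun i _ => by simp⟩⟩

theorem LB.prod {ι : Type*} (s : Finset ι) {F : ι → ℂ × ℂ → ℂ} (h : ∀ i ∈ s, LB φ (F i)) :
    LB φ (fun q => ∏ i ∈ s, F i q) := by
  classical
  induction s using Finset.induction_on with
  | empty =>
    simp only [Finset.prod_empty]
    exact LB.const 1
  | insert a s ha ih =>
    have h1 : (fun q => ∏ i ∈ insert a s, F i q) = fun q => F a q * ∏ i ∈ s, F i q := by
      funext q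
      rw [Finset.prod_insert ha]
    rw [h1]
    exact (h a (Finset.mem_insert_self _ _)).mul (ih fun i hi => h i (Finset.mem_insert_of_mem hi))

theorem LB.pow {F : ℂ × ℂ → ℂ} (h : LB φ F) (n : ℕ) : LB φ (fun q => F q ^ n) := by
  have := LB.prod (Finset.range n) (F := fun _ => F) (fun _ _ => h)
  simpa using this

theorem LB.fst : LB φ Prod.fst :=
  ⟨1, Eventually.of_forall fun q => ⟨differentiableAt_fst, fun i _ => by
    rw [fderiv_fst]; simp⟩⟩




end LB

/-! ### Weierstrass data -/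






/-! ### the statement -/



end Crest.Agent.R257.NV_980
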