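import Crest.Agent.R257.UI5_939
import Mathlib
import Crest.Agent.R257.AJ4_387

-- ▼ part R257/NumA_488
section

/-!
Row 257 (S0395), leaf B-NUM, part A (helper488): derivations on the rings of germs; orders in one
variable.
-/

set_option autoImplicit false
set_option linter.unusedSectionVars false

open Set Filter Topology Metric
open Crest.Agent.R275
open Crest.Agent.R275.Loc2879

noncomputable section

namespace Crest.Agent.R257.Num488

universe u v

section Der

variable {E : Type u} [NormedAddCommGroup E] [NormedSpace ℂ E] {p : E}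

lemma an_fd {f : E → ℂ} (hf : AnalyticAt ℂ f p) (v : E) :
    AnalyticAt ℂ (fun x => fderiv ℂ f x v) p :=
  (ContinuousLinearMap.analyticAt (ContinuousLinearMap.apply ℂ ℂ v) _).comp hf.fderiv

/-- directional derivative of germs -/
def dfun (v : E) (x : OO p) : OO p :=
  gm (fun y => fderiv ℂ (exists_gm x).choose y v) (an_fd (exists_gm x).choose_spec.choose v)

lemma dfun_gm (v : E) {f : E → ℂ} (hf : AnalyticAt ℂ f p) :
    dfun v (gm f hf) = gm (fun y => fderiv ℂ f y v) (an_fd hf v) := by
  unfold dfun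
  rw [gm_eq_gm]
  have h := (exists_gm (gm f hf)).choose_spec.choose_spec
  rw [gm_eq_gm] at h
  have h2 : fderiv ℂ (exists_gm (gm f hf)).choose =ᶠ[𝓝 p] fderiv ℂ f :=
    Filter.EventuallyEq.fderiv h
  filter_upwards [h2] with x hx
  rw [hx]

/-- directional derivative as a derivation -/
def dd (v : E) : Derivation ℂ (OO p) (OO p) :=
  Derivation.mk'
    { toFun := dfun v
      map_add' := by
        intro x y
        obtain ⟨f, hf, rfl⟩ := exists_gm x
        obtain ⟨g, hg, rfl⟩ := exists_gm y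
        rw [gm_add, dfun_gm, dfun_gm, dfun_gm, gm_add, gm_eq_gm]
        filter_upwards [hf.eventually_analyticAt, hg.eventually_analyticAt] with x hx hy
        rw [fderiv_add hx.differentiableAt hy.differentiableAt]
        rfl
      map_smul' := by
        intro c x
        obtain ⟨f, hf, rfl⟩ := exists_gm x
        rw [RingHom.id_apply, Algebra.smul_def, Algebra.smul_def, Loc2879.algebraMap_apply, gm_mul,
          dfun_gm, dfun_gm, gm_mul, gm_eq_gm]
        filter_upwards [hf.eventually_analyticAt] with x hx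
        have h1 : ((fun _ => c) * f : E → ℂ) = fun y => c * f y := rfl
        rw [h1, fderiv_const_mul hx.differentiableAt]
        rfl }
    (by
      intro x y
      obtain ⟨f, hf, rfl⟩ := exists_gm x
      obtain ⟨g, hg, rfl⟩ := exists_gm y
      change dfun v (gm f hf * gm g hg) = gm f hf • dfun v (gm g hg) + gm g hg • dfun v (gm f hf)
      rw [gm_mul, dfun_gm, dfun_gm, dfun_gm, smul_eq_mul, smul_eq_mul, gm_mul, gm_mul, gm_add,
        gm_eq_gm]
      filter_upwards [hf.eventually_analyticAt, hg.eventually_analyticAt] with x hx hy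
      rw [fderiv_mul hx.differentiableAt hy.differentiableAt]
      simp)

lemma dd_gm (v : E) {f : E → ℂ} (hf : AnalyticAt ℂ f p) :
    dd v (gm f hf) = gm (fun y => fderiv ℂ f y v) (an_fd hf v) := dfun_gm v hf

lemma dd_add (v w : E) (x : OO p) : dd (v + w) x = dd v x + dd w x := by
  obtain ⟨f, hf, rfl⟩ := exists_gm x
  rw [dd_gm, dd_gm, dd_gm, gm_add, gm_eq_gm]
  exact Eventually.of_forall fun y => by simp

lemma dd_smul (c : ℂ) (v : E) (x : OO p) : dd (c • v) x = c • dd v x := by
  obtain ⟨f, hf, rfl⟩ := exists_gm x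
  rw [dd_gm, dd_gm, Algebra.smul_def, Loc2879.algebraMap_apply, gm_mul, gm_eq_gm]
  exact Eventually.of_forall fun y => by simp

/-- linear functions as germs -/
def lin (l : E →L[ℂ] ℂ) : OO (0 : E) := gm l (l.analyticAt 0)

lemma dd_lin (v : E) (l : E →L[ℂ] ℂ) : dd v (lin l) = algebraMap ℂ _ (l v) := by
  rw [lin, dd_gm, Loc2879.algebraMap_apply, gm_eq_gm]
  exact Eventually.of_forall fun y => by simp

lemma lin_add (l m : E →L[ℂ] ℂ) : lin (l + m) = lin l + lin m := by
  rw [lin, lin, lin, gm_add, gm_eq_gm]; exact Eventually.of_forall fun y => by simp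

lemma lin_smul (c : ℂ) (l : E →L[ℂ] ℂ) : lin (c • l) = c • lin l := by
  rw [lin, lin, Algebra.smul_def, Loc2879.algebraMap_apply, gm_mul, gm_eq_gm]
  exact Eventually.of_forall fun y => by simp

lemma lin_zero : lin (0 : E →L[ℂ] ℂ) = 0 := by
  rw [lin, gm_zero, gm_eq_gm]; exact Eventually.of_forall fun y => by simp

lemma lin_mem (l : E →L[ℂ] ℂ) : ¬ IsUnit (lin l) := by
  rw [lin, isUnit_gm]; simp

end Der

section One

/-- germs in one variable -/
abbrev A1 : Type := OO (0 : ℂ)

/-- the order of a germ in one variable -/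
def vv (x : A1) : ℕ∞ := IsDiscreteValuationRing.addVal A1 x

lemma vv_mul (x y : A1) : vv (x * y) = vv x + vv y := by
  unfold vv; exact (IsDiscreteValuationRing.addVal A1).map_mul x y

lemma vv_eq_top {x : A1} : vv x = ⊤ ↔ x = 0 := IsDiscreteValuationRing.addVal_eq_top_iff

lemma vv_unit {x : A1} (h : IsUnit x) : vv x = 0 := by
  obtain ⟨u, rfl⟩ := h
  exact IsDiscreteValuationRing.addVal_eq_zero_of_unit u

lemma vv_TT : vv (TT 0) = 1 := IsDiscreteValuationRing.addVal_uniformizer TT_irreducible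

lemma vv_pow (x : A1) (n : ℕ) : vv (x ^ n) = n * vv x := by
  unfold vv; rw [AddValuation.map_pow, nsmul_eq_mul]

lemma vv_TT_pow (n : ℕ) : vv (TT 0 ^ n) = n := by
  rw [vv_pow, vv_TT, mul_one]

lemma vv_TT_pow_mul (n : ℕ) {u : A1} (hu : IsUnit u) : vv (TT 0 ^ n * u) = n := by
  rw [vv_mul, vv_TT_pow, vv_unit hu, add_zero]


/-- the derivative -/
abbrev DD : Derivation ℂ A1 A1 := dd (1 : ℂ)

lemma DD_TT : DD (TT 0) = 1 := by
  unfold DD TT
  rw [dd_gm, gm_one, gm_eq_gm]
  exact Eventually.of_forall fun y => by simp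

theorem vv_DD {x : A1} (hx : ¬ IsUnit x) : vv (DD x) + 1 = vv x := by
  by_cases h0 : x = 0
  · subst h0
    rw [map_zero, vv_eq_top.2 rfl]; rfl
  obtain ⟨n, u, rfl⟩ := exists_pow_mul x h0
  rcases Nat.eq_zero_or_pos n with rfl | hn
  · exact absurd (by simp) hx
  obtain ⟨m, rfl⟩ : ∃ m, n = m + 1 := ⟨n - 1, by omega⟩
  have h1 : DD (TT 0 ^ (m + 1) * (u : A1)) =
      TT 0 ^ m * (((m + 1 : ℕ) : A1) * u + TT 0 * DD (u : A1)) := by
    rw [Derivation.leibniz, Derivation.leibniz_pow, DD_TT]
    simp only [smul_eq_mul, nsmul_eq_mul, Nat.add_sub_cancel, Nat.cast_add, Nat.cast_one]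
    ring
  have h2 : IsUnit (((m + 1 : ℕ) : A1) * u + TT 0 * DD (u : A1)) := by
    rw [Loc2879.isUnit_iff, map_add, map_mul, map_mul, map_natCast]
    have h3 : evp (0 : ℂ) (TT 0) = 0 := by
      by_contra h; exact TT_not_unit (Loc2879.isUnit_iff.2 h)
    have h4 : evp (0 : ℂ) (u : A1) ≠ 0 := Loc2879.isUnit_iff.1 u.isUnit
    rw [h3, zero_mul, add_zero]
    exact mul_ne_zero (by exact_mod_cast Nat.succ_ne_zero m) h4
  rw [h1, vv_TT_pow_mul m h2, vv_TT_pow_mul (m + 1) u.isUnit]
  push_cast; rfl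


end One

end Crest.Agent.R257.Num488
end
end

-- ▼ part R257/NumB_488
section

/-!
Row 257 (S0395), leaf B-NUM, part B (helper488): characters of split commutative algebras and
determinants; cokernels of endomorphisms of free modules over a discrete valuation ring.
-/

set_option autoImplicit false
set_option linter.unusedSectionVars false

open Polynomial

noncomputable section

namespace Crest.Agent.R257.Num488

universe u v w

section Lin

variable {K : Type u} {𝒜 : Type v} [Field K] [CommRing 𝒜] [Algebra K 𝒜]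

/-- multiplication by `c` -/
def ml (V : Type w) [AddCommGroup V] [Module K V] [Module 𝒜 V] [IsScalarTower K 𝒜 V] (c : 𝒜) :
    V →ₗ[K] V := Algebra.lsmul K K V c

lemma ml_apply (V : Type w) [AddCommGroup V] [Module K V] [Module 𝒜 V] [IsScalarTower K 𝒜 V]
    (c : 𝒜) (x : V) : ml (K := K) V c x = c • x := rfl

/-- every element of a simple module acts by scalars -/
lemma scalar_of_simple (S : Set 𝒜) (hS : Submodule.span K S = ⊤)
    (hs : ∀ s ∈ S, ∃ q : Multiset K, aeval s (q.map fun a => X - C a).prod = 0)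
    (U : Type w) [AddCommGroup U] [Module K U] [Module 𝒜 U] [IsScalarTower K 𝒜 U]
    [IsSimpleModule 𝒜 U] (c : 𝒜) : ∃ k : K, ∀ x : U, c • x = k • x := by
  classical
  have hc : c ∈ Submodule.span K S := by rw [hS]; trivial
  induction hc using Submodule.span_induction with
  | zero => exact ⟨0, fun x => by simp⟩
  | add a b _ _ ha hb =>
    obtain ⟨k, hk⟩ := ha
    obtain ⟨l, hl⟩ := hb
    exact ⟨k + l, fun x => by rw [add_smul, hk, hl, add_smul]⟩
  | smul r a _ ha =>
    obtain ⟨k, hk⟩ := ha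
    exact ⟨r * k, fun x => by rw [smul_assoc, hk, smul_smul]⟩
  | mem s hsS =>
    obtain ⟨q, hq⟩ := hs s hsS
    -- some factor is not injective
    by_contra hcon
    push Not at hcon
    have hinj : ∀ k : K, Function.Injective (fun x : U => (s - algebraMap K 𝒜 k) • x) := by
      intro k
      let T : U →ₗ[𝒜] U := LinearMap.lsmul 𝒜 U (s - algebraMap K 𝒜 k)
      rcases LinearMap.injective_or_eq_zero T with h | h
      · exact h
      · exfalso
        obtain ⟨x, hx⟩ := hcon k
        apply hx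
        have h1 : T x = 0 := by rw [h]; rfl
        have h2 : (s - algebraMap K 𝒜 k) • x = 0 := h1
        rw [sub_smul, sub_eq_zero, algebraMap_smul] at h2
        exact h2
    have hinj2 : ∀ q : Multiset K, Function.Injective
        (fun x : U => (aeval s (q.map fun a => X - C a).prod) • x) := by
      intro q
      induction q using Multiset.induction_on with
      | empty => simp only [Multiset.map_zero, Multiset.prod_zero, map_one, one_smul]; exact fun _ _ h => h
      | cons a q ih =>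
        simp only [Multiset.map_cons, Multiset.prod_cons, map_mul, mul_smul, map_sub, aeval_X,
          aeval_C]
        exact (hinj a).comp ih
    obtain ⟨x, hx⟩ : ∃ x : U, x ≠ 0 := by
      have : Nontrivial U := IsSimpleModule.nontrivial 𝒜 U
      exact exists_ne 0
    apply hx
    apply hinj2 q
    simp only
    rw [hq, zero_smul, zero_smul]

/-- the character of a simple module -/
lemma exists_char (S : Set 𝒜) (hS : Submodule.span K S = ⊤)
    (hs : ∀ s ∈ S, ∃ q : Multiset K, aeval s (q.map fun a => X - C a).prod = 0)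
    (U : Type w) [AddCommGroup U] [Module K U] [Module 𝒜 U] [IsScalarTower K 𝒜 U]
    [IsSimpleModule 𝒜 U] : ∃ χ : 𝒜 →ₐ[K] K, ∀ (c : 𝒜) (x : U), c • x = χ c • x := by
  classical
  choose χ hχ using scalar_of_simple S hS hs U
  have : Nontrivial U := IsSimpleModule.nontrivial 𝒜 U
  obtain ⟨x, hx⟩ : ∃ x : U, x ≠ 0 := exists_ne 0
  have huniq : ∀ {k l : K}, k • x = l • x → k = l := fun {k l} h =>
    smul_left_injective K hx h
  refine ⟨{ toFun := χ, map_one' := ?_, map_mul' := ?_, map_zero' := ?_, map_add' := ?_,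
            commutes' := ?_ }, hχ⟩
  · apply huniq; rw [← hχ, one_smul, one_smul]
  · intro a b
    apply huniq
    rw [← hχ, mul_smul, hχ b, hχ a, smul_smul]
  · apply huniq; rw [← hχ, zero_smul, zero_smul]
  · intro a b
    apply huniq
    rw [← hχ, add_smul, hχ a, hχ b, add_smul]
  · intro k
    apply huniq
    rw [← hχ, algebraMap_smul]
    rfl

theorem lin_chars (S : Set 𝒜) (hS : Submodule.span K S = ⊤)
    (hs : ∀ s ∈ S, ∃ q : Multiset K, aeval s (q.map fun a => X - C a).prod = 0) :
    ∀ (n : ℕ) (V : Type w) [AddCommGroup V] [Module K V] [Module 𝒜 V] [IsScalarTower K 𝒜 V]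
      [FiniteDimensional K V], Module.finrank K V = n →
      ∃ l : List (𝒜 →ₐ[K] K), ∀ c : 𝒜, LinearMap.det (ml (K := K) V c) = (l.map fun χ => χ c).prod := by
  intro n
  induction n using Nat.strong_induction_on with
  | _ n ih =>
  intro V _ _ _ _ _ hn
  rcases Nat.eq_zero_or_pos n with h0 | h0
  · refine ⟨[], fun c => ?_⟩
    have : Subsingleton V := Module.finrank_zero_iff.1 (hn.trans h0)
    rw [List.map_nil, List.prod_nil]
    have h1 : ml (K := K) V c = LinearMap.id := Subsingleton.elim _ _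
    rw [h1, LinearMap.det_id]
  · have hnt : Nontrivial V := Module.nontrivial_of_finrank_pos (R := K) (by omega)
    have hart : IsNoetherian 𝒜 V := isNoetherian_of_tower K inferInstance
    obtain ⟨W, hW⟩ : ∃ W : Submodule 𝒜 V, IsCoatom W := by
      rcases eq_top_or_exists_le_coatom (⊥ : Submodule 𝒜 V) with h | ⟨W, hW, _⟩
      · exact absurd h bot_ne_top
      · exact ⟨W, hW⟩
    have hsimple : IsSimpleModule 𝒜 (V ⧸ W) := isSimpleModule_iff_isCoatom.2 hW
    obtain ⟨χ, hχ⟩ := exists_char (K := K) S hS hs (V ⧸ W)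
    -- the submodule
    have hlt : Module.finrank K (W.restrictScalars K) < n := by
      rw [← hn]
      refine Submodule.finrank_lt (fun h => hW.1 ?_)
      exact (Submodule.restrictScalars_eq_top_iff K 𝒜 V).1 h
    have htow : IsScalarTower K 𝒜 W := ⟨fun a b x => Subtype.ext (smul_assoc a b (x : V))⟩
    have hfin : FiniteDimensional K W := inferInstanceAs (FiniteDimensional K (W.restrictScalars K))
    have hlt' : Module.finrank K W < n := hlt
    obtain ⟨l, hl⟩ := ih (Module.finrank K W) hlt' W rfl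
    refine ⟨l ++ List.replicate (Module.finrank K (V ⧸ W)) χ, fun c => ?_⟩
    have he : (W.restrictScalars K) ≤ (W.restrictScalars K).comap (ml (K := K) V c) := by
      intro x hx
      exact W.smul_mem c hx
    rw [LinearMap.det_eq_det_mul_det (W.restrictScalars K) _ he, List.map_append, List.prod_append,
      ← hl c]
    congr 1
    have h2 : (W.restrictScalars K).mapQ (W.restrictScalars K) (ml (K := K) V c) he =
        χ c • (LinearMap.id : (V ⧸ W.restrictScalars K) →ₗ[K] _) := by
      ext x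
      simp only [LinearMap.coe_comp, Function.comp_apply, Submodule.mkQ_apply,
        Submodule.mapQ_apply, LinearMap.smul_apply, LinearMap.id_coe, id_eq]
      exact hχ c (Submodule.Quotient.mk x)
    rw [h2, LinearMap.det_smul, LinearMap.det_id, mul_one, List.map_replicate, List.prod_replicate]
    rfl

end Lin

section Smith

variable {A : Type u} {M : Type v} [CommRing A] [IsDomain A] [IsPrincipalIdealRing A]
  [AddCommGroup M] [Module A M] [Module.Free A M] [Module.Finite A M]

/-- the cokernel of an endomorphism of a free module over a principal ideal domain -/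
theorem coker_det (T : M →ₗ[A] M) (hT : Function.Injective T) :
    ∃ (ι : Type v) (_ : Fintype ι) (a : ι → A), Associated (LinearMap.det T) (∏ i, a i) ∧
      (∀ i, a i ≠ 0) ∧
      Nonempty ((M ⧸ LinearMap.range T) ≃ₗ[A] ∀ i, A ⧸ Ideal.span {a i}) := by
  classical
  let ι := Module.Free.ChooseBasisIndex A M
  let b : Module.Basis ι A M := Module.Free.chooseBasis A M
  let e : M ≃ₗ[A] LinearMap.range T := LinearEquiv.ofInjective T hT
  have h : Module.finrank A (LinearMap.range T) = Module.finrank A M := e.finrank_eq.symm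
  refine ⟨ι, inferInstance, Submodule.smithNormalFormCoeffs b h, ?_,
    fun i => Submodule.smithNormalFormCoeffs_ne_zero b h i,
    ⟨Submodule.quotientEquivPiSpan _ b h⟩⟩
  let b' := Submodule.smithNormalFormTopBasis b h
  let bN := Submodule.smithNormalFormBotBasis b h
  rw [← Matrix.det_diagonal, ← LinearMap.det_toLin b']
  let e2 : M ≃ₗ[A] M := (b'.equiv bN (Equiv.refl _)).trans e.symm
  refine (LinearMap.associated_det_of_eq_comp e2 _ _ ?_).symm
  have key : (Matrix.toLin b' b' (Matrix.diagonal (Submodule.smithNormalFormCoeffs b h))) =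
      T ∘ₗ e2.toLinearMap := by
    refine b'.ext fun i => ?_
    rw [Matrix.toLin_self]
    have h1 : T (e2 (b' i)) = (bN i : M) := by
      have h2 : e2 (b' i) = e.symm (bN i) := by
        simp only [e2, LinearEquiv.trans_apply, Module.Basis.equiv_apply, Equiv.refl_apply]
      rw [h2]
      have h3 : (e (e.symm (bN i)) : M) = T (e.symm (bN i)) := rfl
      rw [← h3, LinearEquiv.apply_symm_apply]
    rw [LinearMap.comp_apply, LinearEquiv.coe_coe, h1, Submodule.smithNormalFormBotBasis_def]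
    rw [Finset.sum_eq_single i]
    · rw [Matrix.diagonal_apply_eq]
    · intro j _ hj
      rw [Matrix.diagonal_apply_ne _ hj, zero_smul]
    · intro hi; exact absurd (Finset.mem_univ _) hi
  intro x
  rw [key]; rfl

end Smith

end Crest.Agent.R257.Num488
end
end

-- ▼ part R257/NumC_488
section

/-!
Row 257 (S0395), leaf B-NUM, part C (helper488): complex dimensions of cokernels.
-/

set_option autoImplicit false
set_option linter.unusedSectionVars false

open Set Filter Topology Metric
open Crest.Agent.R275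
open Crest.Agent.R275.Loc2879

noncomputable section

namespace Crest.Agent.R257.Num488

universe u v w

/-- complex dimension -/
abbrev dl (V : Type v) [AddCommGroup V] [Module ℂ V] : ℕ∞ := Module.length ℂ V

section Gen

variable {V : Type v} [AddCommGroup V] [Module ℂ V]

/-- dimension of the cokernel of a composition -/
theorem coker_comp (S T : V →ₗ[ℂ] V) (hT : Function.Injective T) :
    dl (V ⧸ LinearMap.range (T ∘ₗ S)) = dl (V ⧸ LinearMap.range S) + dl (V ⧸ LinearMap.range T) := by
  have h1 : LinearMap.range S ≤ (LinearMap.range (T ∘ₗ S)).comap T := by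
    rintro _ ⟨x, rfl⟩
    exact ⟨x, rfl⟩
  have h2 : LinearMap.range (T ∘ₗ S) ≤ LinearMap.range T := by
    rintro _ ⟨x, rfl⟩
    exact ⟨S x, rfl⟩
  refine Module.length_eq_add_of_exact ((LinearMap.range S).mapQ _ T h1)
    (Submodule.factor h2) ?_ (Submodule.factor_surjective h2) ?_
  · rw [← LinearMap.ker_eq_bot, LinearMap.ker_eq_bot']
    intro m hm
    obtain ⟨x, rfl⟩ := Submodule.Quotient.mk_surjective _ m
    rw [Submodule.mapQ_apply, Submodule.Quotient.mk_eq_zero] at hm
    obtain ⟨y, hy⟩ := hm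
    rw [Submodule.Quotient.mk_eq_zero]
    exact ⟨y, hT hy⟩
  · intro m
    obtain ⟨x, rfl⟩ := Submodule.Quotient.mk_surjective _ m
    have hf : Submodule.factor h2 (Submodule.Quotient.mk x) = Submodule.Quotient.mk x := rfl
    rw [hf, Submodule.Quotient.mk_eq_zero]
    constructor
    · rintro ⟨y, rfl⟩
      exact ⟨Submodule.Quotient.mk y, by rw [Submodule.mapQ_apply]⟩
    · rintro ⟨n, hn⟩
      obtain ⟨y, rfl⟩ := Submodule.Quotient.mk_surjective _ n
      rw [Submodule.mapQ_apply, Submodule.Quotient.eq] at hn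
      obtain ⟨z, hz⟩ := hn
      refine ⟨y - S z, ?_⟩
      rw [map_sub]
      rw [LinearMap.comp_apply] at hz
      rw [hz]; abel

end Gen

section Ring

variable {R : Type u} [CommRing R] [Algebra ℂ R]

/-- multiplication as a complex linear map -/
abbrev mu (x : R) : R →ₗ[ℂ] R := LinearMap.mulLeft ℂ x

lemma range_mu (x : R) : LinearMap.range (mu x) = (Ideal.span {x}).restrictScalars ℂ := by
  ext y
  rw [LinearMap.mem_range, Submodule.restrictScalars_mem, Ideal.mem_span_singleton']
  constructor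
  · rintro ⟨z, rfl⟩; exact ⟨z, by rw [LinearMap.mulLeft_apply, mul_comm]⟩
  · rintro ⟨z, rfl⟩; exact ⟨z, by rw [LinearMap.mulLeft_apply, mul_comm]⟩

lemma dl_range_mu (x : R) : dl (R ⧸ LinearMap.range (mu x)) = dl (R ⧸ Ideal.span {x}) := by
  have e1 : (R ⧸ LinearMap.range (mu x)) ≃ₗ[ℂ] (R ⧸ (Ideal.span {x}).restrictScalars ℂ) :=
    Submodule.quotEquivOfEq _ _ (range_mu x)
  exact (e1.trans (Submodule.Quotient.restrictScalarsEquiv ℂ (Ideal.span {x}))).length_eq

/-- multiplicativity for a non zero divisor -/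
theorem dl_mul (x y : R) (hx : Function.Injective fun z => x * z) :
    dl (R ⧸ Ideal.span {x * y}) = dl (R ⧸ Ideal.span {x}) + dl (R ⧸ Ideal.span {y}) := by
  rw [← dl_range_mu, ← dl_range_mu, ← dl_range_mu]
  have h : mu (x * y) = mu x ∘ₗ mu y := by
    ext z; simp
  rw [h, coker_comp (mu y) (mu x) hx, add_comm]

lemma dl_of_isUnit (x : R) (hx : IsUnit x) : dl (R ⧸ Ideal.span {x}) = 0 := by
  rw [Ideal.span_singleton_eq_top.2 hx]
  exact Module.length_eq_zero

end Ring

section One

/-- evaluation as an algebra homomorphism -/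
def evA : A1 →ₐ[ℂ] ℂ := { evp (0 : ℂ) with commutes' := fun _ => rfl }

lemma ker_evA : RingHom.ker evA = Ideal.span {TT (0 : ℂ)} := by
  ext x
  rw [RingHom.mem_ker, Ideal.mem_span_singleton]
  have h1 : evA x = evp (0 : ℂ) x := rfl
  rw [h1]
  constructor
  · intro h
    exact TT_dvd fun hu => Loc2879.isUnit_iff.1 hu h
  · rintro ⟨y, rfl⟩
    rw [map_mul]
    have h3 : evp (0 : ℂ) (TT 0) = 0 := by
      by_contra h; exact TT_not_unit (Loc2879.isUnit_iff.2 h)
    rw [h3, zero_mul]

lemma dl_TT : dl (A1 ⧸ Ideal.span {TT (0 : ℂ)}) = 1 := by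
  have hs : Function.Surjective evA := fun c => ⟨algebraMap ℂ A1 c, rfl⟩
  have e1 : (A1 ⧸ RingHom.ker evA) ≃ₐ[ℂ] ℂ := Ideal.quotientKerAlgEquivOfSurjective hs
  have e2 := e1.toLinearEquiv.length_eq
  rw [ker_evA] at e2
  rw [dl, e2, Module.length_eq_finrank, Module.finrank_self, Nat.cast_one]

theorem dl_A1 {a : A1} (ha : a ≠ 0) : dl (A1 ⧸ Ideal.span {a}) = vv a := by
  obtain ⟨n, u, rfl⟩ := exists_pow_mul a ha
  rw [vv_TT_pow_mul n u.isUnit, dl_mul _ _ (mul_right_injective₀ (pow_ne_zero _ TT_ne_zero)),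
    dl_of_isUnit _ u.isUnit, add_zero]
  induction n with
  | zero => rw [pow_zero, dl_of_isUnit _ isUnit_one]; rfl
  | succ n ih =>
    rw [pow_succ, dl_mul _ _ (mul_right_injective₀ (pow_ne_zero _ TT_ne_zero)), dl_TT,
      ih (mul_ne_zero (pow_ne_zero _ TT_ne_zero) u.isUnit.ne_zero)]
    push_cast; rfl

variable {M : Type v} [AddCommGroup M] [Module A1 M] [Module ℂ M] [IsScalarTower ℂ A1 M]
  [Module.Free A1 M] [Module.Finite A1 M]

lemma vv_assoc {x y : A1} (h : Associated x y) : vv x = vv y := by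
  obtain ⟨u, rfl⟩ := h
  rw [vv_mul, vv_unit u.isUnit, add_zero]

lemma vv_prod {ι : Type*} (s : Finset ι) (a : ι → A1) : vv (∏ i ∈ s, a i) = ∑ i ∈ s, vv (a i) := by
  classical
  induction s using Finset.induction_on with
  | empty => rw [Finset.prod_empty, Finset.sum_empty, vv_unit isUnit_one]
  | insert i s hi ih => rw [Finset.prod_insert hi, Finset.sum_insert hi, vv_mul, ih]

/-- **cokernel of an endomorphism of a free module over `A1`** -/
theorem dl_coker (T : M →ₗ[A1] M) (hT : Function.Injective T) :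
    dl (M ⧸ LinearMap.range T) = vv (LinearMap.det T) := by
  obtain ⟨ι, _, a, h1, h2, ⟨e⟩⟩ := coker_det T hT
  rw [vv_assoc h1, vv_prod]
  have h3 := (e.restrictScalars ℂ).length_eq
  rw [dl, h3, Module.length_pi_of_fintype]
  exact Finset.sum_congr rfl fun i _ => dl_A1 (h2 i)

/-- a finite dimensional cokernel forces a non-zero determinant -/
theorem det_ne_zero_of_injective (T : M →ₗ[A1] M) (hT : Function.Injective T) :
    LinearMap.det T ≠ 0 := by
  obtain ⟨ι, _, a, h1, h2, _⟩ := coker_det T hT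
  obtain ⟨u, hu⟩ := h1
  intro h
  rw [h, zero_mul] at hu
  exact (Finset.prod_ne_zero_iff.2 fun i _ => h2 i) hu.symm

end One

end Crest.Agent.R257.Num488
end
end

-- ▼ part R257/NumD_488
section

/-!
Row 257 (S0395), leaf B-NUM, part D (helper488): Newton-Puiseux: a monic polynomial over the germs
in one variable splits after `z = τ ^ N`.
-/

set_option autoImplicit false
set_option linter.unusedSectionVars false

open Set Filter Topology Metric Polynomial
open Crest.Agent.R275
open Crest.Agent.R275.Loc2879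

noncomputable section

namespace Crest.Agent.R257.Num488

universe u v w

/-- the substitution `z = τ ^ N` -/
def kap (N : ℕ) (hN : N ≠ 0) : A1 →+* A1 :=
  pull (fun w : ℂ => w ^ N) (analyticAt_id.pow N) (by simp [hN])

lemma kap_gm {N : ℕ} (hN : N ≠ 0) {f : ℂ → ℂ} (hf : AnalyticAt ℂ f 0) :
    ∃ h, kap N hN (gm f hf) = gm (fun w => f (w ^ N)) h :=
  ⟨AnalyticAt.comp (g := f) (f := fun w : ℂ => w ^ N) (by simpa [hN] using hf)
    (analyticAt_id.pow N), rfl⟩

lemma kap_algebraMap {N : ℕ} (hN : N ≠ 0) (c : ℂ) :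
    kap N hN (algebraMap ℂ A1 c) = algebraMap ℂ A1 c := rfl

lemma kap_TT {N : ℕ} (hN : N ≠ 0) : kap N hN (TT 0) = TT 0 ^ N := by
  obtain ⟨h, e⟩ := kap_gm hN (f := fun w => w - 0) (analyticAt_id.sub analyticAt_const)
  rw [TT, e, gm_pow, gm_eq_gm]
  exact Eventually.of_forall fun w => by simp

lemma vv_kap {N : ℕ} (hN : N ≠ 0) (x : A1) : vv (kap N hN x) = N * vv x := by
  by_cases hx : x = 0
  · subst hx
    rw [map_zero, vv_eq_top.2 rfl, ENat.mul_top]
    exact_mod_cast hN
  · obtain ⟨n, u, rfl⟩ := exists_pow_mul x hx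
    rw [map_mul, map_pow, kap_TT, ← pow_mul, vv_TT_pow_mul _ (u.isUnit.map (kap N hN)),
      vv_TT_pow_mul _ u.isUnit]
    push_cast; rfl

lemma kap_injective {N : ℕ} (hN : N ≠ 0) : Function.Injective (kap N hN) := by
  rw [injective_iff_map_eq_zero]
  intro x hx
  have h := vv_kap hN x
  rw [hx, vv_eq_top.2 rfl] at h
  by_contra h0
  obtain ⟨n, u, rfl⟩ := exists_pow_mul x h0
  rw [vv_TT_pow_mul _ u.isUnit] at h
  have h2 : ((N * n : ℕ) : ℕ∞) = ⊤ := by rw [h]; push_cast; rfl
  exact ENat.natCast_ne_top _ h2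

lemma kap_kap {N M : ℕ} (hN : N ≠ 0) (hM : M ≠ 0) (x : A1) :
    kap M hM (kap N hN x) = kap (N * M) (mul_ne_zero hN hM) x := by
  obtain ⟨f, hf, rfl⟩ := exists_gm x
  obtain ⟨h1, e1⟩ := kap_gm hN hf
  obtain ⟨h2, e2⟩ := kap_gm hM h1
  obtain ⟨h3, e3⟩ := kap_gm (mul_ne_zero hN hM) hf
  rw [e1, e2, e3, gm_eq_gm]
  exact Eventually.of_forall fun w => by
    simp only
    rw [← pow_mul, mul_comm]


/-! ### polynomials over germs and families of polynomials -/

lemma gm_sum' {ι : Type*} (s : Finset ι) (f : ι → ℂ → ℂ) (h : ∀ i, AnalyticAt ℂ (f i) 0) :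
    ∃ h', ∑ i ∈ s, (gm (f i) (h i) : A1) = gm (fun x => ∑ i ∈ s, f i x) h' := by
  classical
  induction s using Finset.induction_on with
  | empty =>
    refine ⟨by simpa using analyticAt_const, ?_⟩
    rw [Finset.sum_empty, gm_zero, gm_eq_gm]
    exact Eventually.of_forall (fun x => by simp)
  | insert i s hi ih =>
    obtain ⟨h1, e1⟩ := ih
    refine ⟨by simpa only [Finset.sum_insert hi] using (h i).fun_add h1, ?_⟩
    rw [Finset.sum_insert hi, e1, gm_add, gm_eq_gm]
    exact Eventually.of_forall (fun x => by simp [Finset.sum_insert hi])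

/-- the family `F` represents the polynomial `P` -/
structure Rep (P : A1[X]) (F : ℂ → ℂ[X]) : Prop where
  deg : ∃ n, ∀ a, (F a).natDegree ≤ n
  an : ∀ i, AnalyticAt ℂ (fun a => (F a).coeff i) 0
  eq : ∀ i, gm (fun a => (F a).coeff i) (an i) = P.coeff i

namespace Rep

variable {P Q : A1[X]} {F G : ℂ → ℂ[X]}

lemma add (hP : Rep P F) (hQ : Rep Q G) : Rep (P + Q) (fun a => F a + G a) := by
  have han : ∀ i, AnalyticAt ℂ (fun a => (F a + G a).coeff i) 0 := by
    intro i; simp only [coeff_add]; exact (hP.an i).add (hQ.an i)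
  refine ⟨?_, han, fun i => ?_⟩
  · obtain ⟨n, hn⟩ := hP.deg
    obtain ⟨m, hm⟩ := hQ.deg
    exact ⟨max n m, fun a => (natDegree_add_le _ _).trans (max_le_max (hn a) (hm a))⟩
  · rw [coeff_add, ← hP.eq, ← hQ.eq, gm_add, gm_eq_gm]
    exact Eventually.of_forall fun a => by simp

lemma mul (hP : Rep P F) (hQ : Rep Q G) : Rep (P * Q) (fun a => F a * G a) := by
  have han : ∀ i, AnalyticAt ℂ (fun a => (F a * G a).coeff i) 0 := by
    intro i
    simp only [coeff_mul]
    exact Finset.analyticAt_fun_sum _ fun x _ => (hP.an _).mul (hQ.an _)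
  refine ⟨?_, han, fun i => ?_⟩
  · obtain ⟨n, hn⟩ := hP.deg
    obtain ⟨m, hm⟩ := hQ.deg
    exact ⟨n + m, fun a => natDegree_mul_le.trans (add_le_add (hn a) (hm a))⟩
  · rw [coeff_mul]
    have h1 : ∀ x : ℕ × ℕ, P.coeff x.1 * Q.coeff x.2 =
        gm (fun a => (F a).coeff x.1 * (G a).coeff x.2) ((hP.an _).mul (hQ.an _)) := by
      intro x
      rw [← hP.eq, ← hQ.eq, gm_mul]; rfl
    rw [Finset.sum_congr rfl fun x _ => h1 x]
    obtain ⟨h', e⟩ := gm_sum' (Finset.HasAntidiagonal.antidiagonal i)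
      (fun (x : ℕ × ℕ) a => (F a).coeff x.1 * (G a).coeff x.2)
      (fun x => (hP.an _).mul (hQ.an _))
    rw [e, gm_eq_gm]
    exact Eventually.of_forall fun a => by simp only [coeff_mul]

lemma deriv (hP : Rep P F) : Rep (derivative P) (fun a => derivative (F a)) := by
  have han : ∀ i, AnalyticAt ℂ (fun a => (derivative (F a)).coeff i) 0 := by
    intro i
    simp only [coeff_derivative]
    exact (hP.an _).mul analyticAt_const
  refine ⟨?_, han, fun i => ?_⟩
  · obtain ⟨n, hn⟩ := hP.deg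
    exact ⟨n, fun a => (natDegree_derivative_le _).trans ((Nat.sub_le _ _).trans (hn a))⟩
  · have h1 : ((i : A1) + 1) = gm (fun _ : ℂ => ((i : ℂ) + 1)) analyticAt_const := by
      have := algebraMap_apply (p := (0 : ℂ)) ((i : ℂ) + 1)
      rw [← this]; simp
    rw [coeff_derivative, ← hP.eq, h1, gm_mul, gm_eq_gm]
    exact Eventually.of_forall fun a => by simp [coeff_derivative]

lemma unique (hP : Rep P F) (hQ : Rep P G) : ∀ᶠ a in 𝓝 (0 : ℂ), F a = G a := by
  obtain ⟨n, hn⟩ := hP.deg
  obtain ⟨m, hm⟩ := hQ.deg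
  have h1 : ∀ i ∈ Finset.range (max n m + 1), ∀ᶠ a in 𝓝 (0 : ℂ), (F a).coeff i = (G a).coeff i := by
    intro i _
    exact gm_eq_gm.1 ((hP.eq i).trans (hQ.eq i).symm)
  filter_upwards [(Finset.eventually_all _).2 h1] with a ha
  ext i
  by_cases hi : i < max n m + 1
  · exact ha i (Finset.mem_range.2 hi)
  · rw [coeff_eq_zero_of_natDegree_lt (by have := hn a; omega),
      coeff_eq_zero_of_natDegree_lt (by have := hm a; omega)]

lemma ext (hP : Rep P F) (hQ : Rep Q G) (h : ∀ᶠ a in 𝓝 (0 : ℂ), F a = G a) : P = Q := by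
  refine Polynomial.ext fun i => ?_
  rw [← hP.eq, ← hQ.eq, gm_eq_gm]
  filter_upwards [h] with a ha
  rw [ha]

lemma const {f : ℂ → ℂ} (hf : AnalyticAt ℂ f 0) : Rep (C (gm f hf)) (fun a => C (f a)) := by
  have han : ∀ i, AnalyticAt ℂ (fun a => (C (f a)).coeff i) 0 := by
    intro i
    simp only [coeff_C]
    split_ifs
    · exact hf
    · exact analyticAt_const
  refine ⟨⟨0, fun a => by simp⟩, han, fun i => ?_⟩
  rw [coeff_C]
  split_ifs with h
  · rw [gm_eq_gm]; exact Eventually.of_forall fun a => by simp [h]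
  · rw [gm_zero, gm_eq_gm]; exact Eventually.of_forall fun a => by simp [coeff_C, h]

lemma var : Rep X (fun _ => X) := by
  refine ⟨⟨1, fun a => by simp⟩, fun i => analyticAt_const, fun i => ?_⟩
  rw [coeff_X (R := A1)]
  split_ifs with h
  · rw [gm_one, gm_eq_gm]; exact Eventually.of_forall fun a => by simp [coeff_X, h]
  · rw [gm_zero, gm_eq_gm]; exact Eventually.of_forall fun a => by simp [coeff_X, h]

lemma one : Rep 1 (fun _ => 1) := by
  have h := const (f := fun _ => (1 : ℂ)) analyticAt_const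
  simp only [map_one] at h
  exact h

lemma neg (hP : Rep P F) : Rep (-P) (fun a => -F a) := by
  have h := (const (f := fun _ => (-1 : ℂ)) analyticAt_const).mul hP
  have h1 : (gm (fun _ : ℂ => (-1 : ℂ)) analyticAt_const : A1) = -1 := by
    rw [gm_one, gm_neg, gm_eq_gm]; exact Eventually.of_forall fun a => rfl
  rw [h1] at h
  rw [map_neg, map_one] at h
  have h2 : (-1 : A1[X]) * P = -P := by ring
  rw [h2] at h
  simp only [map_neg, map_one, neg_mul, one_mul] at h
  exact h

lemma sub (hP : Rep P F) (hQ : Rep Q G) : Rep (P - Q) (fun a => F a - G a) := by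
  simp only [sub_eq_add_neg]; exact hP.add hQ.neg

lemma prod {ι : Type*} (s : Finset ι) (P : ι → A1[X]) (F : ι → ℂ → ℂ[X])
    (h : ∀ i, Rep (P i) (F i)) : Rep (∏ i ∈ s, P i) (fun a => ∏ i ∈ s, F i a) := by
  classical
  induction s using Finset.induction_on with
  | empty => simpa using one
  | insert i s hi ih => simpa only [Finset.prod_insert hi] using (h i).mul ih

lemma sum {ι : Type*} (s : Finset ι) (P : ι → A1[X]) (F : ι → ℂ → ℂ[X])
    (h : ∀ i, Rep (P i) (F i)) : Rep (∑ i ∈ s, P i) (fun a => ∑ i ∈ s, F i a) := by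
  classical
  induction s using Finset.induction_on with
  | empty =>
    have h := const (f := fun _ => (0 : ℂ)) analyticAt_const
    simp only [map_zero] at h
    have h1 : (gm (fun _ : ℂ => (0 : ℂ)) analyticAt_const : A1) = 0 := rfl
    rw [h1, map_zero] at h
    simpa using h
  | insert i s hi ih => simpa only [Finset.sum_insert hi] using (h i).add ih

lemma pow (hP : Rep P F) (n : ℕ) : Rep (P ^ n) (fun a => F a ^ n) := by
  induction n with
  | zero => simpa using one
  | succ n ih => simp only [pow_succ]; exact ih.mul hP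

end Rep

lemma exists_rep (P : A1[X]) : ∃ F, Rep P F := by
  choose f hf hfP using fun i => exists_gm (P.coeff i)
  have h := Rep.sum (Finset.range (P.natDegree + 1)) (fun i => C (P.coeff i) * X ^ i)
    (fun i a => C (f i a) * X ^ i) (fun i => by
      rw [← hfP i]; exact (Rep.const (hf i)).mul (Rep.var.pow i))
  rw [← P.as_sum_range_C_mul_X_pow] at h
  exact ⟨_, h⟩

lemma exists_rep_monic {P : A1[X]} (hP : P.Monic) :
    ∃ F, Rep P F ∧ ∀ a, (F a).Monic ∧ (F a).natDegree = P.natDegree := by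
  choose f hf hfP using fun i => exists_gm (P.coeff i)
  have h := Rep.sum (Finset.range P.natDegree) (fun i => C (P.coeff i) * X ^ i)
    (fun i a => C (f i a) * X ^ i) (fun i => by
      rw [← hfP i]; exact (Rep.const (hf i)).mul (Rep.var.pow i))
  have h2 := (Rep.var.pow P.natDegree).add h
  have h3 : X ^ P.natDegree + ∑ i ∈ Finset.range P.natDegree, C (P.coeff i) * X ^ i = P :=
    hP.as_sum.symm
  rw [h3] at h2
  refine ⟨_, h2, fun a => ?_⟩
  have hdeg : (∑ i ∈ Finset.range P.natDegree, C (f i a) * X ^ i : ℂ[X]).degree < P.natDegree := by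
    refine (degree_sum_le _ _).trans_lt ?_
    rw [Finset.sup_lt_iff (by exact WithBot.bot_lt_coe _)]
    intro i hi
    exact (degree_C_mul_X_pow_le _ _).trans_lt (by exact_mod_cast Finset.mem_range.1 hi)
  refine ⟨monic_X_pow_add hdeg, ?_⟩
  have h4 : (X ^ P.natDegree + ∑ i ∈ Finset.range P.natDegree, C (f i a) * X ^ i : ℂ[X]).degree =
      P.natDegree := by
    rw [degree_add_eq_left_of_degree_lt (by rw [degree_X_pow]; exact hdeg), degree_X_pow]
  exact natDegree_eq_of_degree_eq_some h4

end Crest.Agent.R257.Num488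
end
end

-- ▼ part R257/NumE_488
section

/-!
Row 257 (S0395), leaf B-NUM, part E (helper488): Newton-Puiseux, main statement.
-/

set_option autoImplicit false
set_option linter.unusedSectionVars false

open Set Filter Topology Metric Polynomial
open Crest.Agent.R275
open Crest.Agent.R275.Loc2879
open Crest.Agent.R257.AJ387

noncomputable section

namespace Crest.Agent.R257.Num488

universe u v w

/-- `P` is a product of linear factors after `z = τ ^ N` -/
def SplitN (N : ℕ) (hN : N ≠ 0) (P : A1[X]) : Prop :=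
  ∃ q : Multiset A1, P.map (kap N hN) = (q.map fun a => X - C a).prod

lemma SplitN.mul {N : ℕ} {hN : N ≠ 0} {P Q : A1[X]} (hP : SplitN N hN P) (hQ : SplitN N hN Q) :
    SplitN N hN (P * Q) := by
  obtain ⟨q, hq⟩ := hP
  obtain ⟨r, hr⟩ := hQ
  exact ⟨q + r, by rw [Polynomial.map_mul, hq, hr, Multiset.map_add, Multiset.prod_add]⟩

lemma SplitN.trans {N M : ℕ} {hN : N ≠ 0} (hM : M ≠ 0) {P : A1[X]} (hP : SplitN N hN P) :
    SplitN (N * M) (mul_ne_zero hN hM) P := by
  obtain ⟨q, hq⟩ := hP
  refine ⟨q.map (kap M hM), ?_⟩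
  have h1 : P.map (kap (N * M) (mul_ne_zero hN hM)) = (P.map (kap N hN)).map (kap M hM) := by
    rw [Polynomial.map_map]
    congr 1
    ext1 x
    exact (kap_kap hN hM x).symm
  rw [h1, hq, Polynomial.map_multiset_prod, Multiset.map_map, Multiset.map_map]
  congr 1
  refine Multiset.map_congr rfl fun a _ => ?_
  simp

lemma SplitN.congr {N M : ℕ} {hN : N ≠ 0} {hM : M ≠ 0} (h : N = M) {P : A1[X]}
    (hP : SplitN N hN P) : SplitN M hM P := by subst h; exact hP

lemma rep_kap {P : A1[X]} {F : ℂ → ℂ[X]} (h : Rep P F) {N : ℕ} (hN : N ≠ 0) :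
    Rep (P.map (kap N hN)) (fun w => F (w ^ N)) := by
  have han : ∀ i, AnalyticAt ℂ (fun w => (F (w ^ N)).coeff i) 0 := fun i =>
    AnalyticAt.comp (g := fun a => (F a).coeff i) (f := fun w : ℂ => w ^ N)
      (by simpa [hN] using h.an i) (analyticAt_id.pow N)
  obtain ⟨n, hn⟩ := h.deg
  refine ⟨⟨n, fun a => hn _⟩, han, fun i => ?_⟩
  rw [coeff_map, ← h.eq]
  rfl

theorem split_sep {P U V : A1[X]} (hP : P.Monic) {r : A1} (hr : r ≠ 0)
    (h : U * P + V * derivative P = C r) : ∃ (N : ℕ) (hN : N ≠ 0), SplitN N hN P := by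
  classical
  obtain ⟨F, hF, hFm⟩ := exists_rep_monic hP
  obtain ⟨G, hG⟩ := exists_rep U
  obtain ⟨H, hH⟩ := exists_rep V
  obtain ⟨ρ, hρ, rfl⟩ := exists_gm r
  set d := P.natDegree with hd
  have e1 := ((hG.mul hF).add (hH.mul hF.deriv))
  rw [h] at e1
  have e2 := (Rep.const hρ).unique e1
  have e3 : ∀ᶠ a in 𝓝 (0 : ℂ), a ≠ 0 → ρ a ≠ 0 := by
    rcases hρ.eventually_eq_zero_or_eventually_ne_zero with h0 | h0
    · exact absurd (gm_eq_zero.2 h0) hr
    · rw [eventually_nhdsWithin_iff] at h0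
      exact h0
  have e4 : ∀ᶠ a in 𝓝 (0 : ℂ), ∀ i ∈ Finset.range (d + 1), AnalyticAt ℂ (fun a => (F a).coeff i) a := by
    rw [Finset.eventually_all]
    exact fun i _ => (hF.an i).eventually_analyticAt
  obtain ⟨r₁, hr₁, hball⟩ := Metric.eventually_nhds_iff.1 (e2.and (e3.and e4))
  have hmem : ∀ p ∈ BD r₁ 1, dist p.1 (0 : ℂ) < r₁ := by
    intro p hp
    rw [dist_zero_right]; exact hp.1
  let 𝒟 : Data d r₁ 1 :=
    { P := fun p => F p.1
      h₁ := hr₁
      h₂ := one_pos
      monic := fun p _ => (hFm p.1).1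
      deg := fun p _ => (hFm p.1).2
      an := by
        intro i p hp
        by_cases hi : i < d + 1
        · have h1 := (hball (hmem p hp)).2.2 i (Finset.mem_range.2 hi)
          exact AnalyticAt.comp (g := fun a => (F a).coeff i) (f := Prod.fst) h1 analyticAt_fst
        · have h1 : (fun p : ℂ × ℂ => (F p.1).coeff i) = fun _ => 0 := by
            funext p
            exact coeff_eq_zero_of_natDegree_lt (by rw [(hFm p.1).2]; omega)
          rw [h1]; exact analyticAt_const
      nodup := by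
        intro p hp hne
        obtain ⟨h1, h2, _⟩ := hball (hmem p hp)
        have h3 := h2 (left_ne_zero_of_mul hne)
        refine Polynomial.nodup_roots ?_
        refine ⟨C (ρ p.1)⁻¹ * G p.1, C (ρ p.1)⁻¹ * H p.1, ?_⟩
        have h4 : C (ρ p.1)⁻¹ * G p.1 * F p.1 + C (ρ p.1)⁻¹ * H p.1 * derivative (F p.1) =
            C (ρ p.1)⁻¹ * (G p.1 * F p.1 + H p.1 * derivative (F p.1)) := by ring
        rw [h4, ← h1, ← C_mul, inv_mul_cancel₀ h3, C_1] }
  obtain ⟨ζ, hζ, hζP⟩ := 𝒟.abhyankar_jung
  have hN : d.factorial ≠ 0 := Nat.factorial_ne_zero d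
  refine ⟨d.factorial, hN, ?_⟩
  have h0 : ((0 : ℂ), (0 : ℂ)) ∈ Data.KD d.factorial r₁ 1 := by
    refine ⟨?_, ?_⟩
    · simp only [norm_zero, zero_pow hN]; exact hr₁
    · simp only [norm_zero, zero_pow hN]; exact one_pos
  have hz : ∀ j, AnalyticAt ℂ (fun w : ℂ => ζ j (w, 0)) 0 := fun j =>
    AnalyticAt.comp (g := ζ j) (f := fun w : ℂ => (w, (0 : ℂ))) (hζ j _ h0)
      (analyticAt_id.prod analyticAt_const)
  have hrep : Rep (∏ j : Fin d, (X - C (gm (fun w : ℂ => ζ j (w, 0)) (hz j))))
      (fun w => ∏ j : Fin d, (X - C (ζ j (w, 0)))) :=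
    Rep.prod _ _ _ fun j => Rep.var.sub (Rep.const (hz j))
  have hnear : ∀ᶠ w in 𝓝 (0 : ℂ), ((w, 0) : ℂ × ℂ) ∈ Data.KD d.factorial r₁ 1 := by
    have hc : Tendsto (fun w : ℂ => ((w, 0) : ℂ × ℂ)) (𝓝 0) (𝓝 (0, 0)) := by
      have : Continuous fun w : ℂ => ((w, 0) : ℂ × ℂ) := by fun_prop
      exact this.tendsto 0
    exact hc ((Data.isOpen_KD _ _ _).mem_nhds h0)
  have hfin : P.map (kap d.factorial hN) = ∏ j : Fin d, (X - C (gm (fun w : ℂ => ζ j (w, 0)) (hz j))) := by
    refine (rep_kap hF hN).ext hrep ?_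
    filter_upwards [hnear] with w hw
    exact hζP _ hw
  refine ⟨Finset.univ.val.map fun j : Fin d => gm (fun w : ℂ => ζ j (w, 0)) (hz j), ?_⟩
  rw [hfin, Multiset.map_map]
  rfl

/-- **Newton-Puiseux** -/
theorem puiseux (P : A1[X]) (hP : P.Monic) : ∃ (N : ℕ) (hN : N ≠ 0), SplitN N hN P := by
  classical
  induction' hn : P.natDegree using Nat.strong_induction_on with n ih generalizing P
  rcases Nat.eq_zero_or_pos n with h0 | h0
  · have h1 : P = 1 := eq_one_of_monic_natDegree_zero hP (hn.trans h0)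
    exact ⟨1, one_ne_zero, 0, by rw [h1]; simp⟩
  let K := FractionRing A1
  have hne : (P.map (algebraMap A1 K)) ≠ 0 := (hP.map _).ne_zero
  have hnu : ¬ IsUnit (P.map (algebraMap A1 K)) := by
    intro hu
    have := natDegree_eq_zero_of_isUnit hu
    rw [hP.natDegree_map] at this
    omega
  obtain ⟨q, hqm, hqi, hqd⟩ := Polynomial.exists_monic_irreducible_factor _ hnu
  obtain ⟨Q, hQ⟩ := IsIntegrallyClosed.eq_map_mul_C_of_dvd K hP hqd
  rw [hqm.leadingCoeff, C_1, mul_one] at hQ
  have hinj : Function.Injective (algebraMap A1 K) := IsFractionRing.injective A1 K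
  have hQm : Q.Monic := by
    refine monic_of_injective hinj ?_
    rw [hQ]; exact hqm
  have hQd : Q ∣ P := by
    rw [← map_dvd_map _ hinj hQm, hQ]; exact hqd
  obtain ⟨P', rfl⟩ := hQd
  have hP' : P'.Monic := hQm.of_mul_monic_left hP
  have hQpos : 0 < Q.natDegree := by
    rw [← hQm.natDegree_map (algebraMap A1 K), hQ]
    exact hqi.natDegree_pos
  have hdeg : P'.natDegree < n := by
    rw [← hn, hQm.natDegree_mul hP']; omega
  obtain ⟨N₁, hN₁, h₁⟩ := ih _ hdeg P' hP' rfl
  -- the irreducible factor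
  have hc1 : CharZero A1 := charZero_of_injective_algebraMap (algebraMap ℂ A1).injective
  have hc2 : CharZero K := charZero_of_injective_algebraMap hinj
  have hsep : q.Separable := hqi.separable
  obtain ⟨u, w, huw⟩ := hsep
  obtain ⟨bu, hbu, hU⟩ := IsLocalization.integerNormalization_spec (nonZeroDivisors A1) u
  obtain ⟨bw, hbw, hW⟩ := IsLocalization.integerNormalization_spec (nonZeroDivisors A1) w
  set U := IsLocalization.integerNormalization (nonZeroDivisors A1) u
  set W := IsLocalization.integerNormalization (nonZeroDivisors A1) w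
  have hr : bu * bw ≠ 0 := mul_ne_zero (nonZeroDivisors.ne_zero hbu) (nonZeroDivisors.ne_zero hbw)
  have key : (C bw * U) * Q + (C bu * W) * derivative Q = C (bu * bw) := by
    apply Polynomial.map_injective (algebraMap A1 K) hinj
    simp only [Polynomial.map_add, Polynomial.map_mul, map_C, hU, hW, hQ, ← derivative_map,
      Algebra.smul_def]
    have h1 : ∀ x : A1, (algebraMap A1 K[X] x : K[X]) = C (algebraMap A1 K x) := fun x => rfl
    rw [h1, h1, map_mul, C_mul]
    linear_combination (C (algebraMap A1 K bu) * C (algebraMap A1 K bw)) * huw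
  obtain ⟨N₂, hN₂, h₂⟩ := split_sep hQm hr key
  refine ⟨N₂ * N₁, mul_ne_zero hN₂ hN₁, ?_⟩
  refine SplitN.mul (h₂.trans hN₁) ?_
  exact (h₁.trans hN₂).congr (mul_comm _ _)

/-- several polynomials at once -/
theorem puiseux_list {ι : Type*} (s : Finset ι) (P : ι → A1[X]) (hP : ∀ i, (P i).Monic) :
    ∃ (N : ℕ) (hN : N ≠ 0), ∀ i ∈ s, SplitN N hN (P i) := by
  classical
  induction s using Finset.induction_on with
  | empty => exact ⟨1, one_ne_zero, by simp⟩
  | insert i s hi ih =>
    obtain ⟨N, hN, h⟩ := ih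
    obtain ⟨M, hM, h'⟩ := puiseux (P i) (hP i)
    refine ⟨N * M, mul_ne_zero hN hM, fun j hj => ?_⟩
    rcases Finset.mem_insert.1 hj with rfl | hj
    · exact (h'.trans hN).congr (mul_comm _ _)
    · exact (h j hj).trans hM

end Crest.Agent.R257.Num488
end
end

-- ▼ part R257/NumF_488
section

/-!
Row 257 (S0395), leaf B-NUM, part F (helper488): a finite free algebra over the germs in one
variable has finitely many "branches"; the determinant of a multiplication is the product of its
values on the branches.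
-/

set_option autoImplicit false
set_option linter.unusedSectionVars false

open Set Filter Topology Metric Polynomial
open Crest.Agent.R275
open Crest.Agent.R275.Loc2879
open scoped TensorProduct

noncomputable section

namespace Crest.Agent.R257.Num488

universe u v w

/-- the field of fractions -/
abbrev KK : Type := FractionRing A1

/-- the field of fractions as an algebra through `z = τ ^ N` -/
def Kt (N : ℕ) (_hN : N ≠ 0) : Type := KK

section

variable (N : ℕ) (hN : N ≠ 0)

instance : Field (Kt N hN) := inferInstanceAs (Field KK)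

/-- the embedding of the germs in `τ` -/
def jj : A1 →+* Kt N hN := algebraMap A1 KK

lemma jj_injective : Function.Injective (jj N hN) := IsFractionRing.injective A1 KK

instance : Algebra A1 (Kt N hN) := ((jj N hN).comp (kap N hN)).toAlgebra

lemma algebraMap_Kt (x : A1) : algebraMap A1 (Kt N hN) x = jj N hN (kap N hN x) := rfl

lemma exists_jj_of_root {P : A1[X]} (hP : P.Monic) {x : Kt N hN} (hx : P.eval₂ (jj N hN) x = 0) :
    ∃ y, jj N hN y = x := by
  have h1 : IsIntegral A1 (show KK from x) := ⟨P, hP, hx⟩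
  obtain ⟨y, hy⟩ := IsIntegrallyClosed.isIntegral_iff.1 h1
  exact ⟨y, hy⟩

end

variable {M : Type} [CommRing M] [Algebra A1 M] [Module.Finite A1 M] [Module.Free A1 M]

theorem branches : ∃ (N : ℕ) (hN : N ≠ 0) (l : List (M →+* A1)),
    (∀ φ ∈ l, ∀ x : A1, φ (algebraMap A1 M x) = kap N hN x) ∧
    ∀ c : M, kap N hN (LinearMap.det (LinearMap.mulLeft A1 c)) = (l.map fun φ => φ c).prod := by
  classical
  obtain ⟨ι, hι, b⟩ : ∃ (ι : Type) (_ : Fintype ι), Nonempty (Module.Basis ι A1 M) :=
    ⟨Module.Free.ChooseBasisIndex A1 M, inferInstance, ⟨Module.Free.chooseBasis A1 M⟩⟩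
  obtain ⟨b⟩ := b
  -- integrality
  have hint : ∀ m : M, ∃ P : A1[X], P.Monic ∧ aeval m P = 0 := fun m =>
    Algebra.IsIntegral.isIntegral (R := A1) m
  choose P hPm hP0 using hint
  obtain ⟨N, hN, hsplit⟩ := puiseux_list (Finset.univ : Finset ι) (fun i => P (b i))
    (fun i => hPm (b i))
  let K' := Kt N hN
  let 𝒜 := K' ⊗[A1] M
  let inc : M →+* 𝒜 := (Algebra.TensorProduct.includeRight : M →ₐ[A1] 𝒜).toRingHom
  have hev : ∀ (m : M) (Q : A1[X]), aeval m Q = 0 → aeval (inc m) (Q.map (algebraMap A1 K')) = 0 := by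
    intro m Q hQ
    rw [aeval_map_algebraMap]
    have h1 : inc m = (Algebra.TensorProduct.includeRight : M →ₐ[A1] 𝒜) m := rfl
    rw [h1, aeval_algHom_apply, hQ, map_zero]
  let S : Set 𝒜 := Set.range fun i => inc (b i)
  have hS : Submodule.span K' S = ⊤ := by
    have h1 := (b.baseChange K').span_eq
    rw [← h1]
    congr 1
    ext x
    constructor
    · rintro ⟨i, rfl⟩; exact ⟨i, by rw [Module.Basis.baseChange_apply]; rfl⟩
    · rintro ⟨i, rfl⟩; exact ⟨i, by rw [Module.Basis.baseChange_apply]; rfl⟩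
  have hs : ∀ s ∈ S, ∃ q : Multiset K', aeval s (q.map fun a => X - C a).prod = 0 := by
    rintro _ ⟨i, rfl⟩
    obtain ⟨q, hq⟩ := hsplit i (Finset.mem_univ i)
    refine ⟨q.map (jj N hN), ?_⟩
    have h2 : (P (b i)).map (algebraMap A1 K') = ((q.map (jj N hN)).map fun a => X - C a).prod := by
      have h3 : (P (b i)).map (algebraMap A1 K') = ((P (b i)).map (kap N hN)).map (jj N hN) := by
        rw [Polynomial.map_map]; rfl
      rw [h3, hq, Polynomial.map_multiset_prod, Multiset.map_map, Multiset.map_map]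
      congr 1
      refine Multiset.map_congr rfl fun a _ => ?_
      simp
    rw [← h2]
    exact hev _ _ (hP0 _)
  obtain ⟨l, hl⟩ := lin_chars (K := K') S hS hs _ 𝒜 rfl
  -- the branches
  have hbr : ∀ χ : 𝒜 →ₐ[K'] K', ∃ φ : M →+* A1, ∀ m, jj N hN (φ m) = χ (inc m) := by
    intro χ
    have hex : ∀ m : M, ∃ y, jj N hN y = χ (inc m) := by
      intro m
      refine exists_jj_of_root N hN ((hPm m).map (kap N hN)) ?_
      rw [eval₂_map]
      have h1 := hev m _ (hP0 m)
      have h2 : aeval (χ (inc m)) ((P m).map (algebraMap A1 K')) = 0 := by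
        rw [aeval_algHom_apply, h1, map_zero]
      rw [aeval_map_algebraMap, aeval_def] at h2
      exact h2
    choose f hf using hex
    refine ⟨{ toFun := f, map_one' := ?_, map_mul' := ?_, map_zero' := ?_, map_add' := ?_ }, hf⟩
    · apply jj_injective N hN; rw [hf]; simp
    · intro x y; apply jj_injective N hN; rw [hf]; simp [hf]
    · apply jj_injective N hN; rw [hf]; simp
    · intro x y; apply jj_injective N hN; rw [hf]; simp [hf]
  choose br hbr' using hbr
  refine ⟨N, hN, l.map br, ?_, ?_⟩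
  · intro φ hφ x
    obtain ⟨χ, _, rfl⟩ := List.mem_map.1 hφ
    apply jj_injective N hN
    rw [hbr']
    have h1 : inc (algebraMap A1 M x) = algebraMap K' 𝒜 (algebraMap A1 K' x) := by
      have h2 : inc (algebraMap A1 M x) = algebraMap A1 𝒜 x :=
        (Algebra.TensorProduct.includeRight : M →ₐ[A1] 𝒜).commutes x
      rw [h2, IsScalarTower.algebraMap_apply A1 K' 𝒜]
    rw [h1, AlgHom.commutes]
    rfl
  · intro c
    apply jj_injective N hN
    rw [map_list_prod, List.map_map, List.map_map]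
    have h1 : (ml (K := K') 𝒜 (inc c)) = (LinearMap.mulLeft A1 c).baseChange K' := by
      ext x
      change (ml (K := K') 𝒜 (inc c)) ((1 : K') ⊗ₜ[A1] x) =
        (LinearMap.mulLeft A1 c).baseChange K' ((1 : K') ⊗ₜ[A1] x)
      rw [ml_apply, LinearMap.baseChange_tmul, LinearMap.mulLeft_apply, smul_eq_mul]
      change ((1 : K') ⊗ₜ[A1] c : 𝒜) * ((1 : K') ⊗ₜ[A1] x) = _
      rw [Algebra.TensorProduct.tmul_mul_tmul, one_mul]
    have h2 := hl (inc c)
    rw [h1, LinearMap.det_baseChange, algebraMap_Kt] at h2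
    rw [h2]
    congr 1
    refine List.map_congr_left fun χ _ => ?_
    simp [hbr']

end Crest.Agent.R257.Num488
end
end

-- ▼ part R257/NumG_488
section

/-!
Row 257 (S0395), leaf B-NUM, part G (helper488): the coordinate `T` is a non zero divisor modulo
`(a,b)` as soon as `(a,b,T)` has finite colength; curves `{a = b = 0}` in three variables.
-/

set_option autoImplicit false
set_option linter.unusedSectionVars false

open Set Filter Topology Metric
open Crest.Agent.R275
open Crest.Agent.R275.Loc2879 hiding AA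
open Crest.Agent.R257.UI939

noncomputable section

namespace Crest.Agent.R257.Num488

universe u v w

lemma evp_xB {n : ℕ} (i : Fin n) : evp (0 : Fin n → ℂ) (xB i) = 0 := by
  by_contra h
  exact xB_not_unit i (Loc2879.isUnit_iff.2 h)

lemma dd_xB {n : ℕ} (i : Fin n) (v : Fin n → ℂ) : dd v (xB i) = algebraMap ℂ _ (v i) := by
  exact dd_lin v (ContinuousLinearMap.proj (R := ℂ) (φ := fun _ : Fin n => ℂ) i)

lemma xB_ne_zero {n : ℕ} (i : Fin n) : xB i ≠ 0 := by
  intro h
  have h1 := dd_xB i (Pi.single i 1)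
  rw [h, map_zero, Pi.single_eq_same, map_one] at h1
  exact zero_ne_one h1

theorem relprime_of_fin {a b : BB 2} (h : Module.Finite ℂ (BB 2 ⧸ Ideal.span {a, b})) :
    IsRelPrime a b := by
  intro d hda hdb
  by_contra hd
  set k := Module.finrank ℂ (BB 2 ⧸ Ideal.span {a, b}) with hk
  have hle : Ideal.span {a, b} ≤ Ideal.span {d} := by
    rw [Ideal.span_le]
    intro x hx
    simp only [mem_insert_iff, mem_singleton_iff] at hx
    rcases hx with rfl | rfl
    · exact Ideal.mem_span_singleton.2 hda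
    · exact Ideal.mem_span_singleton.2 hdb
  have hJ := JJ_le_of_finrank (A := BB 2) xB (fun i => xB_not_unit i) (Ideal.span {a, b})
  have hpow : ∀ i : Fin 2, d ∣ xB i ^ k := by
    intro i
    refine Ideal.mem_span_singleton.1 (hle (hJ (Ideal.subset_span ⟨Pi.single i k, by simp [hk], ?_⟩)))
    unfold mon
    rw [Finset.prod_eq_single i]
    · rw [Pi.single_eq_same]
    · intro j _ hj; rw [Pi.single_eq_of_ne hj, pow_zero]
    · intro hi; exact absurd (Finset.mem_univ _) hi
  have hd0 : d ≠ 0 := by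
    rintro rfl
    exact pow_ne_zero k (xB_ne_zero 0) (zero_dvd_iff.1 (hpow 0))
  obtain ⟨q, hq, hqd⟩ := WfDvdMonoid.exists_irreducible_factor hd hd0
  have hp : Prime q := hq.prime
  have h0 : q ∣ xB (0 : Fin 2) := hp.dvd_of_dvd_pow (hqd.trans (hpow 0))
  have h1 : q ∣ xB (1 : Fin 2) := hp.dvd_of_dvd_pow (hqd.trans (hpow 1))
  have hqe : evp (0 : Fin 2 → ℂ) q = 0 := by
    by_contra h; exact hq.not_isUnit (Loc2879.isUnit_iff.2 h)
  obtain ⟨s, hs⟩ := h0
  have hsu : IsUnit s := by
    rw [Loc2879.isUnit_iff]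
    intro h
    have e1 := congrArg (fun x => evp (0 : Fin 2 → ℂ) (dd (Pi.single 0 1) x)) hs
    simp only [dd_xB, Pi.single_eq_same, Derivation.leibniz, smul_eq_mul, map_add, map_mul, hqe, h,
      zero_mul, add_zero, map_one] at e1
    exact one_ne_zero e1
  obtain ⟨t, ht⟩ : xB (0 : Fin 2) ∣ xB (1 : Fin 2) := by
    obtain ⟨u, rfl⟩ := hsu
    have : q = xB (0 : Fin 2) * ((u⁻¹ : (BB 2)ˣ) : BB 2) := by rw [hs, Units.mul_inv_cancel_right]
    exact Dvd.dvd.trans ⟨_, this⟩ h1
  have e2 := congrArg (fun x => evp (0 : Fin 2 → ℂ) (dd (Pi.single 1 1) x)) ht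
  simp only [dd_xB, Pi.single_eq_same, Derivation.leibniz, smul_eq_mul, map_add, map_mul, evp_xB,
    zero_mul, map_one, zero_add] at e2
  simp at e2

theorem syz {a b : BB 2} (h : IsRelPrime a b) {u v : BB 2} (huv : u * a + v * b = 0) :
    ∃ s, u = b * s ∧ v = -(a * s) := by
  by_cases ha : a = 0
  · subst ha
    have hb : IsUnit b := h (dvd_zero b) dvd_rfl
    obtain ⟨b', rfl⟩ := hb
    refine ⟨(b'⁻¹ : (BB 2)ˣ) * u, by rw [Units.mul_inv_cancel_left], ?_⟩
    rw [mul_zero, zero_add] at huv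
    rw [zero_mul, neg_zero]
    exact (mul_eq_zero.1 huv).resolve_right b'.ne_zero
  · have h1 : a ∣ v * b := ⟨-u, by linear_combination huv⟩
    have h2 : a ∣ v := h.dvd_of_dvd_mul_right h1
    obtain ⟨s, rfl⟩ := h2
    refine ⟨-s, ?_, by ring⟩
    have h3 : a * (u + b * s) = 0 := by linear_combination huv
    have h4 := (mul_eq_zero.1 h3).resolve_left ha
    linear_combination h4

/-- `res0` as an algebra homomorphism -/
def res0A : AA 2 →ₐ[ℂ] BB 2 := { res0 2 with commutes' := fun _ => rfl }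


lemma res0A_surj : Function.Surjective res0A := fun x => ⟨emb 2 x, res0_emb x⟩

lemma fin_res {a b : AA 2} (h : Module.Finite ℂ (AA 2 ⧸ Ideal.span {a, b, Tv 2})) :
    Module.Finite ℂ (BB 2 ⧸ Ideal.span {res0 2 a, res0 2 b}) := by
  let f : AA 2 →ₐ[ℂ] (BB 2 ⧸ Ideal.span {res0 2 a, res0 2 b}) :=
    (Ideal.Quotient.mkₐ ℂ _).comp res0A
  have hf : ∀ x ∈ Ideal.span {a, b, Tv 2}, f x = 0 := by
    intro x hx
    refine Submodule.span_induction (p := fun x _ => f x = 0) ?_ (map_zero f) ?_ ?_ hx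
    · intro y hy
      simp only [mem_insert_iff, mem_singleton_iff] at hy
      change Ideal.Quotient.mk _ (res0 2 y) = 0
      rw [Ideal.Quotient.eq_zero_iff_mem]
      rcases hy with rfl | rfl | rfl
      · exact Ideal.subset_span (by simp)
      · exact Ideal.subset_span (by simp)
      · rw [res0_T]; exact Ideal.zero_mem _
    · intro y z _ _ hy hz; rw [map_add, hy, hz, add_zero]
    · intro c y _ hy; rw [smul_eq_mul, map_mul, hy, mul_zero]
  refine Module.Finite.of_surjective (Ideal.Quotient.liftₐ _ f hf).toLinearMap ?_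
  intro y
  obtain ⟨y, rfl⟩ := Ideal.Quotient.mk_surjective y
  obtain ⟨x, rfl⟩ := res0A_surj y
  exact ⟨Ideal.Quotient.mk _ x, rfl⟩

theorem reg_T {a b : AA 2} (h : Module.Finite ℂ (AA 2 ⧸ Ideal.span {a, b, Tv 2})) {m : AA 2}
    (hm : Tv 2 * m ∈ Ideal.span {a, b}) : m ∈ Ideal.span {a, b} := by
  have hrp := relprime_of_fin (fin_res h)
  obtain ⟨u, v, huv⟩ := Ideal.mem_span_pair.1 hm
  have h1 : res0 2 u * res0 2 a + res0 2 v * res0 2 b = 0 := by
    rw [← map_mul, ← map_mul, ← map_add, huv, map_mul, res0_T, zero_mul]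
  obtain ⟨s, hs1, hs2⟩ := syz hrp h1
  obtain ⟨a1, ha⟩ := split_T' a
  obtain ⟨b1, hb⟩ := split_T' b
  obtain ⟨u1, hu⟩ := split_T' u
  obtain ⟨v1, hv⟩ := split_T' v
  rw [hs1, map_mul] at hu
  rw [hs2, map_neg, map_mul] at hv
  -- `u = b s + T u'`, `v = - a s + T v'`
  have hu2 : u = b * emb 2 s + Tv 2 * (u1 - b1 * emb 2 s) := by
    linear_combination hu - (emb 2 s) * hb
  have hv2 : v = -(a * emb 2 s) + Tv 2 * (v1 + a1 * emb 2 s) := by
    linear_combination hv + (emb 2 s) * ha
  have hT : Tv 2 ≠ 0 := by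
    intro h0
    have h2 := dd_gm (p := (0 : (Fin 2 → ℂ) × ℂ)) ((0, 1) : (Fin 2 → ℂ) × ℂ)
      (f := Prod.snd) analyticAt_snd
    have h3 : (gm (p := (0 : (Fin 2 → ℂ) × ℂ)) Prod.snd analyticAt_snd) = 0 := h0
    rw [h3, map_zero] at h2
    have h4 := congrArg (evp (0 : (Fin 2 → ℂ) × ℂ)) h2
    rw [map_zero, evp_gm] at h4
    have h5 : fderiv ℂ (Prod.snd : (Fin 2 → ℂ) × ℂ → ℂ) 0 = ContinuousLinearMap.snd ℂ _ _ :=
      fderiv_snd
    rw [h5] at h4
    simp at h4
  have key : Tv 2 * m = Tv 2 * ((u1 - b1 * emb 2 s) * a + (v1 + a1 * emb 2 s) * b) := by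
    rw [← huv]
    linear_combination a * hu2 + b * hv2
  rw [mul_left_cancel₀ hT key]
  exact Ideal.mem_span_pair.2 ⟨_, _, rfl⟩

end Crest.Agent.R257.Num488
end
end

-- ▼ part R257/NumH_488

/-!
Row 257 (S0395), leaf B-NUM, part H (helper488): branches of the curve `{a = b = 0}` and
intersection multiplicities with it.
-/

set_option autoImplicit false
set_option linter.unusedSectionVars false

open Set Filter Topology Metric
open Crest.Agent.R275
open Crest.Agent.R275.Loc2879 hiding AA
open Crest.Agent.R257.UI939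

noncomputable section

namespace Crest.Agent.R257.Num488

universe u v w

/-- the branches of the curve with ideal `I` -/
structure Curve (R : Type) [CommRing R] [Algebra ℂ R] (I : Ideal R) where
  N : ℕ
  hN : N ≠ 0
  l : List (R →+* A1)
  ker : ∀ φ ∈ l, ∀ x ∈ I, φ x = 0
  cst : ∀ φ ∈ l, ∀ c : ℂ, φ (algebraMap ℂ R c) = algebraMap ℂ A1 c
  reg : ∀ c, (∀ φ ∈ l, φ c ≠ 0) ↔ dl (R ⧸ (I ⊔ Ideal.span {c})) ≠ ⊤
  nzd : ∀ c, (∀ φ ∈ l, φ c ≠ 0) → ∀ m, c * m ∈ I → m ∈ I
  sum : ∀ c, (∀ φ ∈ l, φ c ≠ 0) →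
    (N : ℕ∞) * dl (R ⧸ (I ⊔ Ideal.span {c})) = (l.map fun φ => vv (φ c)).sum

section QQ

variable {R : Type u} [CommRing R] [Algebra ℂ R]

lemma dl_quot_quot (I : Ideal R) (c : R) :
    dl ((R ⧸ I) ⧸ Ideal.span {Ideal.Quotient.mk I c}) = dl (R ⧸ (I ⊔ Ideal.span {c})) := by
  have e := (DoubleQuot.quotQuotEquivQuotSupₐ ℂ I (Ideal.span {c})).toLinearEquiv.length_eq
  rw [Ideal.map_span, Set.image_singleton] at e
  exact e

end QQ

section Tors

variable {M : Type} [CommRing M] [Algebra A1 M] [Algebra ℂ M] [IsScalarTower ℂ A1 M]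
  [Module.Finite A1 M] [Module.Free A1 M]

lemma range_mulLeft_A (c : M) :
    dl (M ⧸ LinearMap.range (LinearMap.mulLeft A1 c)) = dl (M ⧸ Ideal.span {c}) := by
  have h : (LinearMap.range (LinearMap.mulLeft A1 c)).restrictScalars ℂ =
      (Ideal.span {c}).restrictScalars ℂ := by
    ext y
    simp only [Submodule.restrictScalars_mem, LinearMap.mem_range, Ideal.mem_span_singleton',
      LinearMap.mulLeft_apply]
    constructor
    · rintro ⟨z, rfl⟩; exact ⟨z, mul_comm _ _⟩
    · rintro ⟨z, rfl⟩; exact ⟨z, mul_comm _ _⟩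
  have e1 : (M ⧸ (LinearMap.range (LinearMap.mulLeft A1 c)).restrictScalars ℂ) ≃ₗ[ℂ]
      (M ⧸ (Ideal.span {c}).restrictScalars ℂ) := Submodule.quotEquivOfEq _ _ h
  exact (((Submodule.Quotient.restrictScalarsEquiv ℂ
    (LinearMap.range (LinearMap.mulLeft A1 c))).symm.trans e1).trans
    (Submodule.Quotient.restrictScalarsEquiv ℂ (Ideal.span {c}))).length_eq

/-- a finite dimensional module is killed by a non-zero germ -/
lemma exists_annihilator (V : Type v) [AddCommGroup V] [Module A1 V] [Module ℂ V]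
    [IsScalarTower ℂ A1 V] [Module.Finite ℂ V] : ∃ a : A1, a ≠ 0 ∧ ∀ x : V, a • x = 0 := by
  have hsc : SMulCommClass A1 ℂ V := ⟨fun a c x => by
    rw [← algebraMap_smul A1 c x, ← algebraMap_smul A1 c (a • x), smul_smul, smul_smul, mul_comm]⟩
  let ρ : A1 →ₗ[ℂ] (V →ₗ[ℂ] V) :=
    { toFun := fun a => { toFun := fun x => a • x
                          map_add' := fun x y => smul_add _ _ _
                          map_smul' := fun c x => smul_comm _ _ _ }
      map_add' := fun a b => by ext x; exact add_smul _ _ _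
      map_smul' := fun c a => by ext x; exact smul_assoc _ _ _ }
  by_contra hcon
  push Not at hcon
  have hinj : Function.Injective ρ := by
    rw [← LinearMap.ker_eq_bot, LinearMap.ker_eq_bot']
    intro a ha
    by_contra h0
    obtain ⟨x, hx⟩ := hcon a h0
    exact hx (LinearMap.congr_fun ha x)
  have hfin : Module.Finite ℂ A1 := Module.Finite.of_injective ρ hinj
  set n := Module.finrank ℂ A1
  have h1 : dl (A1 ⧸ Ideal.span {(TT (0 : ℂ)) ^ (n + 1)}) = ((n + 1 : ℕ) : ℕ∞) := by
    rw [dl_A1 (pow_ne_zero _ TT_ne_zero), vv_TT_pow]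
  have h2 : dl (A1 ⧸ Ideal.span {(TT (0 : ℂ)) ^ (n + 1)}) ≤ dl A1 :=
    Module.length_le_of_surjective (Ideal.Quotient.mkₐ ℂ _).toLinearMap Ideal.Quotient.mk_surjective
  rw [h1, dl, Module.length_eq_finrank] at h2
  have h3 : n + 1 ≤ n := by exact_mod_cast h2
  omega

lemma finite_of_dl {V : Type v} [AddCommGroup V] [Module ℂ V] (h : dl V ≠ ⊤) :
    Module.Finite ℂ V := by
  rw [Module.length_ne_top_iff] at h
  have := (isFiniteLength_iff_isNoetherian_isArtinian.1 h).1
  infer_instance

lemma dl_ne_top {V : Type v} [AddCommGroup V] [Module ℂ V] [Module.Finite ℂ V] : dl V ≠ ⊤ := by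
  rw [dl, Module.length_eq_finrank]; exact ENat.natCast_ne_top _

theorem injective_of_coker (T : M →ₗ[A1] M) (h : dl (M ⧸ LinearMap.range T) ≠ ⊤) :
    Function.Injective T := by
  have hf := finite_of_dl h
  obtain ⟨a, ha, hk⟩ := exists_annihilator (M ⧸ LinearMap.range T)
  have hsub : ∀ x : M, a • x ∈ LinearMap.range T := by
    intro x
    have := hk (Submodule.Quotient.mk x)
    rw [← Submodule.Quotient.mk_smul, Submodule.Quotient.mk_eq_zero] at this
    exact this
  let b := Module.Free.chooseBasis A1 M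
  choose y hy using fun i => hsub (b i)
  let U : M →ₗ[A1] M := b.constr A1 y
  have hTU : T ∘ₗ U = a • LinearMap.id := by
    refine b.ext fun i => ?_
    rw [LinearMap.comp_apply, Module.Basis.constr_basis, hy, LinearMap.smul_apply, LinearMap.id_apply]
  have hdet : LinearMap.det T * LinearMap.det U = a ^ Module.finrank A1 M := by
    rw [← LinearMap.det_comp, hTU, LinearMap.det_smul, LinearMap.det_id, mul_one]
  have hT : LinearMap.det T ≠ 0 := by
    intro h0
    rw [h0, zero_mul] at hdet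
    exact pow_ne_zero _ ha hdet.symm
  rw [← LinearMap.ker_eq_bot]
  by_contra hne
  exact hT (LinearMap.det_eq_zero_iff_ker_ne_bot.2 hne)

lemma det_ne_zero_iff (T : M →ₗ[A1] M) : LinearMap.det T ≠ 0 ↔ Function.Injective T := by
  rw [← LinearMap.ker_eq_bot, Ne, LinearMap.det_eq_zero_iff_ker_ne_bot, not_not]

end Tors

section Main

variable (a b : AA 2)

/-- the algebra of the curve -/
def MM : Type := AA 2 ⧸ Ideal.span {a, b}

instance : CommRing (MM a b) := inferInstanceAs (CommRing (AA 2 ⧸ Ideal.span {a, b}))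
instance : Algebra ℂ (MM a b) := inferInstanceAs (Algebra ℂ (AA 2 ⧸ Ideal.span {a, b}))
instance : Module (AA 2) (MM a b) := inferInstanceAs (Module (AA 2) (AA 2 ⧸ Ideal.span {a, b}))
instance : Algebra A1 (MM a b) := ((Ideal.Quotient.mk (Ideal.span {a, b})).comp (par 2)).toAlgebra
instance : IsScalarTower ℂ A1 (MM a b) := IsScalarTower.of_algebraMap_eq fun _ => rfl

/-- the quotient map -/
def qq : AA 2 →+* MM a b := Ideal.Quotient.mk (Ideal.span {a, b})

lemma qq_surj : Function.Surjective (qq a b) := Ideal.Quotient.mk_surjective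

lemma qq_eq_zero {x : AA 2} : qq a b x = 0 ↔ x ∈ Ideal.span {a, b} :=
  Ideal.Quotient.eq_zero_iff_mem

lemma smul_MM (x : A1) (y : AA 2) : x • qq a b y = qq a b (par 2 x * y) := by
  rw [Algebra.smul_def]; rfl

lemma par_TT : par 2 (TT 0) = Tv 2 := by
  rw [TT, par, pull_gm, Tv, gm_eq_gm]
  exact Eventually.of_forall fun p => by simp

lemma span_triple (c : AA 2) : Ideal.span {a, b} ⊔ Ideal.span {c} = Ideal.span {a, b, c} := by
  rw [← Ideal.span_union]
  congr 1
  ext x; simp; tauto

variable {a b}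

theorem finite_MM (h : Module.Finite ℂ (AA 2 ⧸ Ideal.span {a, b, Tv 2})) :
    Module.Finite A1 (MM a b) := by
  classical
  have hFG : FG (RingHom.id (AA 2)) (MM a b) := by
    refine ⟨1, fun _ => (1 : MM a b), fun m => ?_⟩
    obtain ⟨x, rfl⟩ := qq_surj a b m
    refine ⟨fun _ => x, ?_⟩
    simp only [Finset.univ_unique, Fin.default_eq_zero, RingHom.id_apply, Finset.sum_const,
      Finset.card_singleton, one_smul]
    have h5 : x • (1 : MM a b) = qq a b (x * 1) := rfl
    rw [h5, mul_one]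
  have hX : ∀ i : Fin 2, ¬ IsUnit (Xv i) := by
    intro i; rw [Xv, isUnit_gm]; simp
  have hJ := JJ_le_of_finrank (A := AA 2) Xv hX (Ideal.span {a, b, Tv 2})
  set k := Module.finrank ℂ (AA 2 ⧸ Ideal.span {a, b, Tv 2}) with hk
  have hpow : ∀ i : Fin 2, Xv i ^ k ∈ Ideal.span {a, b, Tv 2} := by
    intro i
    refine hJ (Ideal.subset_span ⟨Pi.single i k, by simp [hk], ?_⟩)
    unfold mon
    rw [Finset.prod_eq_single i]
    · rw [Pi.single_eq_same]
    · intro j _ hj; rw [Pi.single_eq_of_ne hj, pow_zero]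
    · intro hi; exact absurd (Finset.mem_univ _) hi
  obtain ⟨n, g, hg⟩ := fin_all hFG (fun i => ⟨k, fun m => by
    obtain ⟨x, rfl⟩ := qq_surj a b m
    have h1 := hpow i
    rw [← span_triple, Submodule.mem_sup] at h1
    obtain ⟨y, hy, z, hz, hyz⟩ := h1
    obtain ⟨t, rfl⟩ := Ideal.mem_span_singleton'.1 hz
    refine ⟨qq a b (t * x), ?_⟩
    have h2 : ∀ (p q : AA 2), p • qq a b q = qq a b (p * q) := fun p q => rfl
    rw [h2, h2, ← hyz, add_mul, map_add]
    have h3 : qq a b (y * x) = 0 := (qq_eq_zero a b).2 (Ideal.mul_mem_right _ _ hy)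
    rw [h3, zero_add]
    congr 1; ring⟩)
  refine ⟨⟨Finset.univ.image g, ?_⟩⟩
  rw [eq_top_iff]
  intro m _
  obtain ⟨c, hc⟩ := hg m
  rw [hc]
  refine Submodule.sum_mem _ fun i _ => ?_
  have h4 : par 2 (c i) • g i = c i • g i := by
    obtain ⟨x, hx⟩ := qq_surj a b (g i)
    rw [← hx, smul_MM]; rfl
  rw [h4]
  exact Submodule.smul_mem _ _ (Submodule.subset_span (by simp))

theorem free_MM (h : Module.Finite ℂ (AA 2 ⧸ Ideal.span {a, b, Tv 2})) :
    Module.Free A1 (MM a b) := by
  have h1 := finite_MM h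
  have hT : ∀ n : ℕ, ∀ m : AA 2, Tv 2 ^ n * m ∈ Ideal.span {a, b} → m ∈ Ideal.span {a, b} := by
    intro n
    induction n with
    | zero => intro m hm; simpa using hm
    | succ n ih =>
      intro m hm
      refine ih _ (reg_T h ?_)
      rwa [← mul_assoc, ← pow_succ']
  have h2 : Module.IsTorsionFree A1 (MM a b) := by
    rw [Module.isTorsionFree_iff_smul_eq_zero]
    intro x m hxm
    by_cases hx : x = 0
    · exact Or.inl hx
    · right
      obtain ⟨y, rfl⟩ := qq_surj a b m
      obtain ⟨n, u, rfl⟩ := exists_pow_mul x hx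
      rw [smul_MM, qq_eq_zero, map_mul, map_pow, par_TT, mul_assoc] at hxm
      have h3 := hT n _ hxm
      rw [qq_eq_zero]
      have h4 : y = par 2 ((u⁻¹ : A1ˣ) : A1) * (par 2 (u : A1) * y) := by
        rw [← mul_assoc, ← map_mul, Units.inv_mul, map_one, one_mul]
      rw [h4]
      exact Ideal.mul_mem_left _ _ h3
  exact Module.free_iff_isTorsionFree.2 h2

end Main

end Crest.Agent.R257.Num488
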