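import Mathlib
import Crest.Agent.R257.Ord_757
import Crest.Agent.R257.HoE_843
import Crest.Agent.R257.ExD_121
import Crest.Agent.R257.BPDefs_258
import Crest.Agent.R257.HoT_843
import Crest.Agent.R257.T7_387
import Crest.Agent.R257.T8_387

-- ▼ part R257/OrdK1_82
section

/-!
# Row 257 (S0395), task C-ORDK (helper82), file 1: divergence on boxes and the kill

* `Box a b ρ p₀`   : `(ρ/2)^a ≤ |p.1 - p₀.1| < ρ^a`, `(ρ/2)^b ≤ |p.2 - p₀.2| < ρ^b`;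
* `box_div`        : `F ≥ c ρ^(-2a-2b)` on the boxes at `p₀`  ⇒  `∫_W F = ∞` for every `W ∈ 𝓝 p₀`;
* `kill`           : `v = μ H'`, `∫ |v|² w < ∞`, `|μ|² w ≥ c ρ^(-2a-2b)` on the boxes ⇒ `H' p₀ = 0`;
* `kill_max`       : the same with `w = e^(-Φ) den`, `Φ` at most a maximum of linear forms.
-/

set_option autoImplicit false

noncomputable section

open Set Filter Topology MeasureTheory Metric
open scoped ENNReal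

namespace Crest.Agent.R257.OrdK_82

/-- the box of scale `ρ` at `p₀` in the direction `(a, b)` -/
def Box (a b ρ : ℝ) (p₀ : ℂ × ℂ) : Set (ℂ × ℂ) :=
  {p | ((ρ / 2) ^ a ≤ ‖p.1 - p₀.1‖ ∧ ‖p.1 - p₀.1‖ < ρ ^ a) ∧
    ((ρ / 2) ^ b ≤ ‖p.2 - p₀.2‖ ∧ ‖p.2 - p₀.2‖ < ρ ^ b)}

/-- one factor -/
def Ann (a ρ : ℝ) (z₀ : ℂ) : Set ℂ := {z | (ρ / 2) ^ a ≤ ‖z - z₀‖ ∧ ‖z - z₀‖ < ρ ^ a}

theorem Box_eq (a b ρ : ℝ) (p₀ : ℂ × ℂ) : Box a b ρ p₀ = Ann a ρ p₀.1 ×ˢ Ann b ρ p₀.2 := rfl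

theorem Ann_eq (a ρ : ℝ) (z₀ : ℂ) : Ann a ρ z₀ = ball z₀ (ρ ^ a) \ ball z₀ ((ρ / 2) ^ a) := by
  ext z
  simp only [Ann, Set.mem_ofPred_eq, Set.mem_sdiff, mem_ball, dist_eq_norm, not_lt]
  exact and_comm

theorem meas_Ann (a ρ : ℝ) (z₀ : ℂ) : MeasurableSet (Ann a ρ z₀) := by
  rw [Ann_eq]; exact measurableSet_ball.diff measurableSet_ball

theorem meas_Box (a b ρ : ℝ) (p₀ : ℂ × ℂ) : MeasurableSet (Box a b ρ p₀) :=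
  (meas_Ann a ρ p₀.1).prod (meas_Ann b ρ p₀.2)

/-- the volume constant -/
def kA (a : ℝ) : ℝ := Real.pi * (1 - (1 / 2 : ℝ) ^ (2 * a))

theorem kA_pos {a : ℝ} (ha : 0 < a) : 0 < kA a := by
  have h : (1 / 2 : ℝ) ^ (2 * a) < 1 :=
    Real.rpow_lt_one (by norm_num) (by norm_num) (by linarith)
  unfold kA
  have := Real.pi_pos
  apply mul_pos this
  linarith

theorem vol_Ann {a ρ : ℝ} (ha : 0 < a) (hρ : 0 < ρ) (z₀ : ℂ) :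
    volume (Ann a ρ z₀) = ENNReal.ofReal (kA a * ρ ^ (2 * a)) := by
  have h1 : (ρ / 2) ^ a ≤ ρ ^ a := Real.rpow_le_rpow (by linarith) (by linarith) ha.le
  have h2 : ball z₀ ((ρ / 2) ^ a) ⊆ ball z₀ (ρ ^ a) := ball_subset_ball h1
  have e1 : ∀ r : ℝ, 0 ≤ r → volume (ball z₀ r) = ENNReal.ofReal (Real.pi * r ^ 2) := by
    intro r hr
    rw [Complex.volume_ball, ENNReal.ofReal_mul Real.pi_pos.le, mul_comm,
      ENNReal.ofReal_pow hr]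
    congr 1
    rw [← NNReal.coe_real_pi, ENNReal.ofReal_coe_nnreal]
  rw [Ann_eq, measure_sdiff h2 measurableSet_ball.nullMeasurableSet
    (by rw [e1 _ (by positivity)]; exact ENNReal.ofReal_ne_top), e1 _ (by positivity),
    e1 _ (by positivity), ← ENNReal.ofReal_sub _ (by positivity)]
  congr 1
  unfold kA
  have e2 : (ρ ^ a) ^ 2 = ρ ^ (2 * a) := by
    rw [← Real.rpow_natCast (ρ ^ a) 2, ← Real.rpow_mul hρ.le]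
    congr 1; push_cast; ring
  have e3 : ((ρ / 2) ^ a) ^ 2 = ρ ^ (2 * a) * (1 / 2 : ℝ) ^ (2 * a) := by
    rw [← Real.rpow_natCast ((ρ / 2) ^ a) 2, ← Real.rpow_mul (by positivity),
      ← Real.mul_rpow hρ.le (by norm_num)]
    congr 1
    · ring
    · push_cast; ring
  rw [e2, e3]; ring

theorem vol_Box {a b ρ : ℝ} (ha : 0 < a) (hb : 0 < b) (hρ : 0 < ρ) (p₀ : ℂ × ℂ) :
    volume (Box a b ρ p₀) = ENNReal.ofReal (kA a * kA b * ρ ^ (2 * a + 2 * b)) := by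
  rw [Box_eq, Measure.volume_eq_prod, Measure.prod_prod, vol_Ann ha hρ, vol_Ann hb hρ,
    ← ENNReal.ofReal_mul (by have := kA_pos ha; positivity)]
  congr 1
  rw [Real.rpow_add hρ]; ring

/-- boxes are in small neighbourhoods -/
theorem Box_subset {a b : ℝ} (ha : 0 < a) (hb : 0 < b) {p₀ : ℂ × ℂ} {W : Set (ℂ × ℂ)}
    (hW : W ∈ 𝓝 p₀) : ∃ ρ₀ > 0, ∀ ρ, 0 < ρ → ρ ≤ ρ₀ → Box a b ρ p₀ ⊆ W := by
  obtain ⟨ε, hε, hεW⟩ := Metric.mem_nhds_iff.1 hW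
  have hta : Tendsto (fun ρ : ℝ => ρ ^ a) (𝓝[>] 0) (𝓝 0) := by
    have := (Real.continuousAt_rpow_const 0 a (Or.inr ha.le)).tendsto
    rw [Real.zero_rpow ha.ne'] at this
    exact this.mono_left nhdsWithin_le_nhds
  have htb : Tendsto (fun ρ : ℝ => ρ ^ b) (𝓝[>] 0) (𝓝 0) := by
    have := (Real.continuousAt_rpow_const 0 b (Or.inr hb.le)).tendsto
    rw [Real.zero_rpow hb.ne'] at this
    exact this.mono_left nhdsWithin_le_nhds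
  have h1 : ∀ᶠ ρ : ℝ in 𝓝[>] 0, ρ ^ a < ε ∧ ρ ^ b < ε :=
    (hta.eventually (gt_mem_nhds hε)).and (htb.eventually (gt_mem_nhds hε))
  obtain ⟨ρ₀, hρ₀, h2⟩ := (mem_nhdsGT_iff_exists_Ioc_subset (a := (0 : ℝ))).1 h1
  refine ⟨ρ₀, hρ₀, fun ρ hρ hρρ p hp => hεW ?_⟩
  have h3 := h2 ⟨hρ, hρρ⟩
  rw [mem_ball, Prod.dist_eq, max_lt_iff, dist_eq_norm, dist_eq_norm]
  exact ⟨hp.1.2.trans h3.1, hp.2.2.trans h3.2⟩

/-- boxes of dyadic scales are disjoint -/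
theorem Box_disj {a b : ℝ} (ha : 0 < a) (p₀ : ℂ × ℂ) {ρ₀ : ℝ} (hρ₀ : 0 < ρ₀) :
    Pairwise (Function.onFun Disjoint fun k : ℕ => Box a b (ρ₀ * (1 / 2) ^ k) p₀) := by
  have key : ∀ k l : ℕ, k < l → Disjoint (Box a b (ρ₀ * (1 / 2) ^ k) p₀)
      (Box a b (ρ₀ * (1 / 2) ^ l) p₀) := by
    intro k l hkl
    rw [Set.disjoint_left]
    intro p hp hq
    have h1 := hp.1.1
    have h2 := hq.1.2
    have h3 : (ρ₀ * (1 / 2) ^ l) ≤ (ρ₀ * (1 / 2) ^ k) / 2 := by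
      have h4 : ((1 : ℝ) / 2) ^ l ≤ (1 / 2) ^ (k + 1) :=
        pow_le_pow_of_le_one (by norm_num) (by norm_num) hkl
      calc ρ₀ * (1 / 2) ^ l ≤ ρ₀ * (1 / 2) ^ (k + 1) := mul_le_mul_of_nonneg_left h4 hρ₀.le
        _ = _ := by ring
    have h5 : (ρ₀ * (1 / 2) ^ l) ^ a ≤ ((ρ₀ * (1 / 2) ^ k) / 2) ^ a :=
      Real.rpow_le_rpow (by positivity) h3 ha.le
    linarith
  intro k l hkl
  rcases lt_or_gt_of_ne hkl with h | h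
  · exact key k l h
  · exact (key l k h).symm

/-- **divergence on boxes** -/
theorem box_div {a b : ℝ} (ha : 0 < a) (hb : 0 < b) {p₀ : ℂ × ℂ} {W : Set (ℂ × ℂ)}
    (hW : ∃ ρ₁ > 0, ∀ ρ, 0 < ρ → ρ ≤ ρ₁ → Box a b ρ p₀ ⊆ W) {F : ℂ × ℂ → ℝ≥0∞} {c : ℝ} (hc : 0 < c)
    (hF : ∃ ρ₁ > 0, ∀ ρ, 0 < ρ → ρ ≤ ρ₁ → ∀ p ∈ Box a b ρ p₀,
      ENNReal.ofReal (c * ρ ^ (-(2 * a + 2 * b))) ≤ F p) :
    ∫⁻ p in W, F p = ⊤ := by
  obtain ⟨ρ₁, hρ₁, h1⟩ := hW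
  obtain ⟨ρ₂, hρ₂, h2⟩ := hF
  set ρ₀ := min ρ₁ ρ₂ with hρ₀
  have hρ₀p : 0 < ρ₀ := lt_min hρ₁ hρ₂
  set A : ℕ → Set (ℂ × ℂ) := fun k => Box a b (ρ₀ * (1 / 2) ^ k) p₀ with hA
  have hsc : ∀ k : ℕ, 0 < ρ₀ * (1 / 2) ^ k ∧ ρ₀ * (1 / 2) ^ k ≤ ρ₀ := by
    intro k
    refine ⟨by positivity, ?_⟩
    have : ((1 : ℝ) / 2) ^ k ≤ 1 := pow_le_one₀ (by norm_num) (by norm_num)
    nlinarith
  have hsub : (⋃ k, A k) ⊆ W := by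
    refine iUnion_subset fun k => h1 _ (hsc k).1 ((hsc k).2.trans (min_le_left _ _))
  set κ : ℝ := c * (kA a * kA b) with hκ
  have hκp : 0 < κ := mul_pos hc (mul_pos (kA_pos ha) (kA_pos hb))
  have hlow : ∀ k, ENNReal.ofReal κ ≤ ∫⁻ p in A k, F p := by
    intro k
    set ρ := ρ₀ * (1 / 2) ^ k with hρ
    have hρp : 0 < ρ := (hsc k).1
    calc ENNReal.ofReal κ = ENNReal.ofReal (c * ρ ^ (-(2 * a + 2 * b))) * volume (A k) := by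
          rw [hA]
          simp only
          rw [vol_Box ha hb hρp, ← ENNReal.ofReal_mul (by positivity)]
          congr 1
          rw [hκ]
          have : ρ ^ (-(2 * a + 2 * b)) * ρ ^ (2 * a + 2 * b) = 1 := by
            rw [← Real.rpow_add hρp]; simp
          calc c * (kA a * kA b) = c * (kA a * kA b) * 1 := by ring
            _ = c * (kA a * kA b) * (ρ ^ (-(2 * a + 2 * b)) * ρ ^ (2 * a + 2 * b)) := by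
                rw [this]
            _ = _ := by ring
      _ = ∫⁻ _ in A k, ENNReal.ofReal (c * ρ ^ (-(2 * a + 2 * b))) := by
          rw [setLIntegral_const]
      _ ≤ ∫⁻ p in A k, F p := by
          refine setLIntegral_mono' (meas_Box _ _ _ _) fun p hp => ?_
          exact h2 ρ hρp ((hsc k).2.trans (min_le_right _ _)) p hp
  have h3 : ∫⁻ p in ⋃ k, A k, F p = ∑' k, ∫⁻ p in A k, F p :=
    lintegral_iUnion (fun k => meas_Box _ _ _ _) (Box_disj ha p₀ hρ₀p) F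
  have h4 : ∑' _ : ℕ, ENNReal.ofReal κ = ⊤ :=
    ENNReal.tsum_const_eq_top_of_ne_zero (by simpa using hκp)
  have h5 : (⊤ : ℝ≥0∞) ≤ ∫⁻ p in W, F p := by
    calc (⊤ : ℝ≥0∞) = ∑' _ : ℕ, ENNReal.ofReal κ := h4.symm
      _ ≤ ∑' k, ∫⁻ p in A k, F p := ENNReal.tsum_le_tsum hlow
      _ = ∫⁻ p in ⋃ k, A k, F p := h3.symm
      _ ≤ ∫⁻ p in W, F p := lintegral_mono_set hsub
  exact top_le_iff.1 h5

/-- the boxes avoid the axes through `p₀` -/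
theorem Box_ne {a b ρ : ℝ} (hρ : 0 < ρ) {p₀ p : ℂ × ℂ} (hp : p ∈ Box a b ρ p₀) :
    0 < ‖p.1 - p₀.1‖ ∧ 0 < ‖p.2 - p₀.2‖ := by
  have h1 : 0 < (ρ / 2) ^ a := by positivity
  have h2 : 0 < (ρ / 2) ^ b := by positivity
  exact ⟨h1.trans_le hp.1.1, h2.trans_le hp.2.1⟩

/-- an eventual property off the axes holds on small boxes -/
theorem box_ev {a b : ℝ} (ha : 0 < a) (hb : 0 < b) {p₀ : ℂ × ℂ} {P : ℂ × ℂ → Prop}
    (h : ∀ᶠ p in 𝓝 p₀, p.1 ≠ p₀.1 → p.2 ≠ p₀.2 → P p) :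
    ∃ ρ₀ > 0, ∀ ρ, 0 < ρ → ρ ≤ ρ₀ → ∀ p ∈ Box a b ρ p₀, P p := by
  obtain ⟨ρ₀, h0, h1⟩ := Box_subset ha hb h
  refine ⟨ρ₀, h0, fun ρ hρ hρρ p hp => ?_⟩
  have h2 := Box_ne hρ hp
  exact h1 ρ hρ hρρ hp (sub_ne_zero.1 (norm_pos_iff.1 h2.1)) (sub_ne_zero.1 (norm_pos_iff.1 h2.2))

/-- powers on the boxes, lower bound -/
theorem ann_rpow {a : ℝ} (ha : 0 < a) (s : ℝ) : ∃ κ > 0, ∀ ρ, 0 < ρ → ∀ x : ℝ,
    (ρ / 2) ^ a ≤ x → x < ρ ^ a → κ * ρ ^ (a * s) ≤ x ^ s := by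
  refine ⟨min 1 ((1 / 2 : ℝ) ^ (a * s)), lt_min one_pos (by positivity), fun ρ hρ x h1 h2 => ?_⟩
  have hx : 0 < x := lt_of_lt_of_le (by positivity) h1
  rcases le_or_gt 0 s with hs | hs
  · calc min 1 ((1 / 2 : ℝ) ^ (a * s)) * ρ ^ (a * s) ≤ (1 / 2 : ℝ) ^ (a * s) * ρ ^ (a * s) := by
          gcongr; exact min_le_right _ _
      _ = ((ρ / 2) ^ a) ^ s := by
          rw [← Real.rpow_mul (by positivity), ← Real.mul_rpow (by norm_num) hρ.le]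
          congr 1; ring
      _ ≤ x ^ s := Real.rpow_le_rpow (by positivity) h1 hs
  · calc min 1 ((1 / 2 : ℝ) ^ (a * s)) * ρ ^ (a * s) ≤ 1 * ρ ^ (a * s) := by
          gcongr; exact min_le_left _ _
      _ = (ρ ^ a) ^ s := by rw [one_mul, ← Real.rpow_mul hρ.le]
      _ ≤ x ^ s := Real.rpow_le_rpow_of_nonpos hx h2.le hs.le

/-- monomials on the boxes, lower bound -/
theorem box_rpow {a b : ℝ} (ha : 0 < a) (hb : 0 < b) (s t : ℝ) : ∃ κ > 0, ∀ ρ, 0 < ρ →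
    ∀ p₀ : ℂ × ℂ, ∀ p ∈ Box a b ρ p₀,
      κ * ρ ^ (a * s + b * t) ≤ ‖p.1 - p₀.1‖ ^ s * ‖p.2 - p₀.2‖ ^ t := by
  obtain ⟨κ₁, h1, h2⟩ := ann_rpow ha s
  obtain ⟨κ₂, h3, h4⟩ := ann_rpow hb t
  refine ⟨κ₁ * κ₂, mul_pos h1 h3, fun ρ hρ p₀ p hp => ?_⟩
  have h5 := h2 ρ hρ _ hp.1.1 hp.1.2
  have h6 := h4 ρ hρ _ hp.2.1 hp.2.2
  calc κ₁ * κ₂ * ρ ^ (a * s + b * t) = (κ₁ * ρ ^ (a * s)) * (κ₂ * ρ ^ (b * t)) := by
        rw [Real.rpow_add hρ]; ring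
    _ ≤ _ := mul_le_mul h5 h6 (by positivity) (by positivity)

/-- **kill**, general form: a function `μ H` which is square integrable with a weight `w` such that
`|μ|² w` is not integrable on the boxes at `p₀` has `H p₀ = 0` -/
theorem kill {a b : ℝ} (ha : 0 < a) (hb : 0 < b) {p₀ : ℂ × ℂ} {U : Set (ℂ × ℂ)}
    (hU : ∀ᶠ p in 𝓝 p₀, p.1 ≠ p₀.1 → p.2 ≠ p₀.2 → p ∈ U) {v μ H : ℂ × ℂ → ℂ} {w : ℂ × ℂ → ℝ}
    (hH : ContinuousAt H p₀)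
    (hv : ∀ᶠ p in 𝓝 p₀, p.1 ≠ p₀.1 → p.2 ≠ p₀.2 → v p = μ p * H p) {c : ℝ} (hc : 0 < c)
    (hw : ∃ ρ₁ > 0, ∀ ρ, 0 < ρ → ρ ≤ ρ₁ → ∀ p ∈ Box a b ρ p₀,
      c * ρ ^ (-(2 * a + 2 * b)) ≤ ‖μ p‖ ^ 2 * w p)
    (hL : ∫⁻ p in U, ENNReal.ofReal (‖v p‖ ^ 2 * w p) ≠ ⊤) : H p₀ = 0 := by
  by_contra hne
  apply hL
  have hpos : 0 < ‖H p₀‖ := norm_pos_iff.2 hne
  have hH1 : ∀ᶠ p in 𝓝 p₀, ‖H p₀‖ / 2 ≤ ‖H p‖ :=
    (hH.norm.eventually (lt_mem_nhds (by linarith : ‖H p₀‖ / 2 < ‖H p₀‖))).mono fun p hp => le_of_lt hp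
  obtain ⟨r1, hr1, k1⟩ := box_ev ha hb hU
  obtain ⟨r2, hr2, k2⟩ := box_ev ha hb hv
  obtain ⟨r3, hr3, k3⟩ := box_ev ha hb (P := fun p => ‖H p₀‖ / 2 ≤ ‖H p‖)
    (hH1.mono fun p hp _ _ => hp)
  obtain ⟨r4, hr4, k4⟩ := hw
  refine box_div ha hb (W := U) ⟨r1, hr1, fun ρ hρ h p hp => k1 ρ hρ h p hp⟩
    (c := (‖H p₀‖ / 2) ^ 2 * c) (by positivity)
    ⟨min r2 (min r3 r4), lt_min hr2 (lt_min hr3 hr4), fun ρ hρ h p hp => ?_⟩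
  have e2 := k2 ρ hρ (h.trans (min_le_left _ _)) p hp
  have e3 := k3 ρ hρ (h.trans ((min_le_right _ _).trans (min_le_left _ _))) p hp
  have e4 := k4 ρ hρ (h.trans ((min_le_right _ _).trans (min_le_right _ _))) p hp
  refine ENNReal.ofReal_le_ofReal ?_
  have e5 : 0 ≤ ‖μ p‖ ^ 2 * w p := le_trans (by positivity) e4
  have e6 : (‖H p₀‖ / 2) ^ 2 ≤ ‖H p‖ ^ 2 := pow_le_pow_left₀ (by positivity) e3 2
  calc (‖H p₀‖ / 2) ^ 2 * c * ρ ^ (-(2 * a + 2 * b))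
      = (‖H p₀‖ / 2) ^ 2 * (c * ρ ^ (-(2 * a + 2 * b))) := by ring
    _ ≤ ‖H p‖ ^ 2 * (‖μ p‖ ^ 2 * w p) := mul_le_mul e6 e4 (by positivity) (by positivity)
    _ = ‖v p‖ ^ 2 * w p := by rw [e2, norm_mul]; ring

/-- the linear form `x log |α|² + y log |β|²` -/
def lin (x y : ℝ) (p₀ p : ℂ × ℂ) : ℝ :=
  x * Real.log (‖p.1 - p₀.1‖ ^ 2) + y * Real.log (‖p.2 - p₀.2‖ ^ 2)

theorem exp_lin {x y : ℝ} {p₀ p : ℂ × ℂ} (h1 : 0 < ‖p.1 - p₀.1‖) (h2 : 0 < ‖p.2 - p₀.2‖) :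
    Real.exp (-lin x y p₀ p) = ‖p.1 - p₀.1‖ ^ (-2 * x) * ‖p.2 - p₀.2‖ ^ (-2 * y) := by
  unfold lin
  rw [Real.rpow_def_of_pos h1, Real.rpow_def_of_pos h2, ← Real.exp_add, Real.log_pow, Real.log_pow]
  congr 1
  push_cast
  ring

/-- **kill** for the weight `e^(-Φ) den`, `Φ` at most a maximum of two linear forms -/
theorem kill_max {a b : ℝ} (ha : 0 < a) (hb : 0 < b) {p₀ : ℂ × ℂ} {U : Set (ℂ × ℂ)}
    (hU : ∀ᶠ p in 𝓝 p₀, p.1 ≠ p₀.1 → p.2 ≠ p₀.2 → p ∈ U) {v μ H : ℂ × ℂ → ℂ}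
    {Φ den : ℂ × ℂ → ℝ} (hH : ContinuousAt H p₀)
    (hv : ∀ᶠ p in 𝓝 p₀, p.1 ≠ p₀.1 → p.2 ≠ p₀.2 → v p = μ p * H p)
    {m n ν ν' x₁ y₁ x₂ y₂ C c₁ c₂ : ℝ} (hc₁ : 0 < c₁) (hc₂ : 0 < c₂)
    (hμ : ∀ᶠ p in 𝓝 p₀, p.1 ≠ p₀.1 → p.2 ≠ p₀.2 →
      c₁ * (‖p.1 - p₀.1‖ ^ m * ‖p.2 - p₀.2‖ ^ n) ≤ ‖μ p‖)
    (hd : ∀ᶠ p in 𝓝 p₀, p.1 ≠ p₀.1 → p.2 ≠ p₀.2 →
      c₂ * (‖p.1 - p₀.1‖ ^ (-2 * ν - 2) * ‖p.2 - p₀.2‖ ^ (-2 * ν' - 2)) ≤ den p)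
    (hΦ : ∀ᶠ p in 𝓝 p₀, p.1 ≠ p₀.1 → p.2 ≠ p₀.2 →
      Φ p ≤ max (lin x₁ y₁ p₀ p) (lin x₂ y₂ p₀ p) + C)
    (h1 : a * m + b * n ≤ a * x₁ + b * y₁ + a * ν + b * ν')
    (h2 : a * m + b * n ≤ a * x₂ + b * y₂ + a * ν + b * ν')
    (hL : ∫⁻ p in U, ENNReal.ofReal (‖v p‖ ^ 2 * Real.exp (-Φ p) * den p) ≠ ⊤) : H p₀ = 0 := by
  obtain ⟨r1, hr1, k1⟩ := box_ev ha hb hμ
  obtain ⟨r2, hr2, k2⟩ := box_ev ha hb hd
  obtain ⟨r3, hr3, k3⟩ := box_ev ha hb hΦ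
  obtain ⟨κ₁, hκ₁, l1⟩ := box_rpow ha hb m n
  obtain ⟨κ₂, hκ₂, l2⟩ := box_rpow ha hb (-2 * ν - 2) (-2 * ν' - 2)
  obtain ⟨κ₃, hκ₃, l3⟩ := box_rpow ha hb (-2 * x₁) (-2 * y₁)
  obtain ⟨κ₄, hκ₄, l4⟩ := box_rpow ha hb (-2 * x₂) (-2 * y₂)
  refine kill ha hb hU hH hv (w := fun p => Real.exp (-Φ p) * den p)
    (c := (c₁ * κ₁) ^ 2 * ((min κ₃ κ₄ * Real.exp (-C)) * (c₂ * κ₂))) (by positivity)
    ⟨min 1 (min r1 (min r2 r3)), by positivity, fun ρ hρ h p hp => ?_⟩ (by simpa [mul_assoc] using hL)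
  have hρ1 : ρ ≤ 1 := h.trans (min_le_left _ _)
  have e1 := k1 ρ hρ (h.trans ((min_le_right _ _).trans (min_le_left _ _))) p hp
  have e2 := k2 ρ hρ (h.trans ((min_le_right _ _).trans ((min_le_right _ _).trans
    (min_le_left _ _)))) p hp
  have e3 := k3 ρ hρ (h.trans ((min_le_right _ _).trans ((min_le_right _ _).trans
    (min_le_right _ _)))) p hp
  obtain ⟨n1, n2⟩ := Box_ne hρ hp
  have f1 := l1 ρ hρ p₀ p hp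
  have f2 := l2 ρ hρ p₀ p hp
  have f3 := l3 ρ hρ p₀ p hp
  have f4 := l4 ρ hρ p₀ p hp
  set P : ℝ := a * m + b * n with hP
  set y : ℝ := P - a * ν - b * ν' with hy
  -- the weight
  have g3 : min κ₃ κ₄ * Real.exp (-C) * ρ ^ (-2 * y) ≤ Real.exp (-Φ p) := by
    have q1 : ρ ^ (-2 * y) ≤ ρ ^ (a * (-2 * x₁) + b * (-2 * y₁)) :=
      Real.rpow_le_rpow_of_exponent_ge hρ hρ1 (by rw [hy]; linarith)
    have q2 : ρ ^ (-2 * y) ≤ ρ ^ (a * (-2 * x₂) + b * (-2 * y₂)) :=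
      Real.rpow_le_rpow_of_exponent_ge hρ hρ1 (by rw [hy]; linarith)
    have q3 : min κ₃ κ₄ * ρ ^ (-2 * y) ≤ Real.exp (-lin x₁ y₁ p₀ p) := by
      rw [exp_lin n1 n2]
      refine le_trans ?_ f3
      exact mul_le_mul (min_le_left _ _) q1 (by positivity) hκ₃.le
    have q4 : min κ₃ κ₄ * ρ ^ (-2 * y) ≤ Real.exp (-lin x₂ y₂ p₀ p) := by
      rw [exp_lin n1 n2]
      refine le_trans ?_ f4
      exact mul_le_mul (min_le_right _ _) q2 (by positivity) hκ₄.le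
    have q5 : min κ₃ κ₄ * ρ ^ (-2 * y) ≤
        Real.exp (-max (lin x₁ y₁ p₀ p) (lin x₂ y₂ p₀ p)) := by
      rcases max_cases (lin x₁ y₁ p₀ p) (lin x₂ y₂ p₀ p) with h | h
      · rw [h.1]; exact q3
      · rw [h.1]; exact q4
    calc min κ₃ κ₄ * Real.exp (-C) * ρ ^ (-2 * y)
        = min κ₃ κ₄ * ρ ^ (-2 * y) * Real.exp (-C) := by ring
      _ ≤ Real.exp (-max (lin x₁ y₁ p₀ p) (lin x₂ y₂ p₀ p)) * Real.exp (-C) :=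
          mul_le_mul_of_nonneg_right q5 (Real.exp_pos _).le
      _ = Real.exp (-max (lin x₁ y₁ p₀ p) (lin x₂ y₂ p₀ p) + -C) := (Real.exp_add _ _).symm
      _ ≤ _ := Real.exp_le_exp.2 (by linarith)
  have g1 : c₁ * κ₁ * ρ ^ P ≤ ‖μ p‖ := by
    refine le_trans ?_ e1
    rw [mul_assoc]
    exact mul_le_mul_of_nonneg_left f1 hc₁.le
  have g2 : c₂ * κ₂ * ρ ^ (a * (-2 * ν - 2) + b * (-2 * ν' - 2)) ≤ den p := by
    refine le_trans ?_ e2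
    rw [mul_assoc]
    exact mul_le_mul_of_nonneg_left f2 hc₂.le
  have g1' : (c₁ * κ₁ * ρ ^ P) ^ 2 ≤ ‖μ p‖ ^ 2 := pow_le_pow_left₀ (by positivity) g1 2
  calc (c₁ * κ₁) ^ 2 * ((min κ₃ κ₄ * Real.exp (-C)) * (c₂ * κ₂)) * ρ ^ (-(2 * a + 2 * b))
      = (c₁ * κ₁ * ρ ^ P) ^ 2 * ((min κ₃ κ₄ * Real.exp (-C) * ρ ^ (-2 * y)) *
          (c₂ * κ₂ * ρ ^ (a * (-2 * ν - 2) + b * (-2 * ν' - 2)))) := by
        have t1 : (ρ ^ P) ^ 2 * (ρ ^ (-2 * y) * ρ ^ (a * (-2 * ν - 2) + b * (-2 * ν' - 2))) =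
            ρ ^ (-(2 * a + 2 * b)) := by
          rw [← Real.rpow_natCast (ρ ^ P) 2, ← Real.rpow_mul hρ.le, ← Real.rpow_add hρ,
            ← Real.rpow_add hρ]
          congr 1
          rw [hy]
          push_cast
          ring
        rw [← t1]
        ring
    _ ≤ ‖μ p‖ ^ 2 * (Real.exp (-Φ p) * den p) := by
        refine mul_le_mul g1' ?_ (by positivity) (by positivity)
        exact mul_le_mul g3 g2 (by positivity) (Real.exp_pos _).le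

end Crest.Agent.R257.OrdK_82
end
end

-- ▼ part R257/OrdK2_82
section

/-!
# Row 257 (S0395), task C-ORDK (helper82), file 2: orders from `L²` bounds, averages, frames

* `order_L2`  : `v` analytic at `(0,z)`, `∫ |v|² w < ∞`, `w ≥ c |p.1|^(-2r-2)` ⇒ `v = p.1^n H`, `r < n`;
* `avg_L2`    : averages of functions with `L²` bounds;
* `den_low`   : lower bound of the density `den2 f (F.th c)` in a frame;
* `order_frame`, `lo_frame`, `ex_frame` : orders of `g` along a component;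
* `kill_node`, `kill_fst`, `kill_snd`   : `H p₀ ≠ 0` for the quotient `H` of `g` by the monomial.
-/

set_option autoImplicit false
set_option linter.unusedSectionVars false

noncomputable section

open Set Filter Topology MeasureTheory
open scoped ENNReal

namespace Crest.Agent.R257.OrdK_82

open Crest.AlgGeometry.Germ
open Crest.Agent.R257.Ord_757 Crest.Agent.R257.HoE_843
open Crest.Agent.R257.Defs_219 Crest.Agent.R257.Fr_808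

/-! ### orders along `p.1 = 0` -/

/-- **`L²` ⇒ order** at a point `(0, z)`, `z ≠ 0` -/
theorem order_L2 {z : ℂ} (hz : z ≠ 0) {U : Set (ℂ × ℂ)}
    (hU : ∀ᶠ p in 𝓝 ((0 : ℂ), z), p.1 ≠ 0 → p.2 ≠ 0 → p ∈ U) {v : ℂ × ℂ → ℂ}
    (hv : AnalyticAt ℂ v (0, z)) {w : ℂ × ℂ → ℝ} {r c : ℝ} (hc : 0 < c)
    (hw : ∀ᶠ p in 𝓝 ((0 : ℂ), z), p.1 ≠ 0 → p.2 ≠ 0 → c * ‖p.1‖ ^ (-2 * r - 2) ≤ w p)
    (hL : ∫⁻ p in U, ENNReal.ofReal (‖v p‖ ^ 2 * w p) ≠ ⊤) :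
    ∃ (n : ℕ) (H : ℂ × ℂ → ℂ), r < n ∧ AnalyticAt ℂ H (0, z) ∧
      ∀ᶠ p in 𝓝 ((0 : ℂ), z), v p = p.1 ^ n * H p := by
  rcases lt_or_ge r 0 with hr | hr
  · exact ⟨0, v, by exact_mod_cast hr, hv, Eventually.of_forall fun p => by simp⟩
  have h2 : ∀ᶠ p : ℂ × ℂ in 𝓝 ((0 : ℂ), z), p.2 ≠ 0 :=
    continuousAt_snd.eventually_ne hz
  obtain ⟨V, hV, hVo, hzV⟩ := eventually_nhds_iff.1
    (hU.and (hw.and (h2.and hv.eventually_analyticAt)))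
  have hLV : ∫⁻ p in V ∩ {p | p.1 ≠ 0}, ENNReal.ofReal (‖v p‖ ^ 2 * ‖p.1‖ ^ (-2 * r - 2)) < ⊤ := by
    have hms : MeasurableSet (V ∩ {p : ℂ × ℂ | p.1 ≠ 0}) :=
      hVo.measurableSet.inter (isOpen_ne.preimage continuous_fst).measurableSet
    calc ∫⁻ p in V ∩ {p | p.1 ≠ 0}, ENNReal.ofReal (‖v p‖ ^ 2 * ‖p.1‖ ^ (-2 * r - 2))
        ≤ ∫⁻ p in V ∩ {p | p.1 ≠ 0}, ENNReal.ofReal c⁻¹ * ENNReal.ofReal (‖v p‖ ^ 2 * w p) := by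
          refine setLIntegral_mono' hms fun p hp => ?_
          obtain ⟨-, q2, q3, -⟩ := hV p hp.1
          have q4 := q2 hp.2 q3
          rw [← ENNReal.ofReal_mul (by positivity)]
          refine ENNReal.ofReal_le_ofReal ?_
          have q5 : ‖p.1‖ ^ (-2 * r - 2) ≤ c⁻¹ * w p := by
            rw [← div_eq_inv_mul, le_div_iff₀ hc]
            linarith
          calc ‖v p‖ ^ 2 * ‖p.1‖ ^ (-2 * r - 2) ≤ ‖v p‖ ^ 2 * (c⁻¹ * w p) :=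
                mul_le_mul_of_nonneg_left q5 (by positivity)
            _ = c⁻¹ * (‖v p‖ ^ 2 * w p) := by ring
      _ = ENNReal.ofReal c⁻¹ * ∫⁻ p in V ∩ {p | p.1 ≠ 0}, ENNReal.ofReal (‖v p‖ ^ 2 * w p) :=
          lintegral_const_mul' _ _ ENNReal.ofReal_ne_top
      _ ≤ ENNReal.ofReal c⁻¹ * ∫⁻ p in U, ENNReal.ofReal (‖v p‖ ^ 2 * w p) := by
          gcongr
          intro p hp
          obtain ⟨q1, -, q3, -⟩ := hV p hp.1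
          exact q1 hp.2 q3
      _ < ⊤ := ENNReal.mul_lt_top ENNReal.ofReal_lt_top (lt_top_iff_ne_top.2 hL)
  have hvd : ∀ p ∈ V, DifferentiableAt ℂ v p := fun p hp => (hV p hp).2.2.2.differentiableAt
  obtain ⟨H, hH, hvH⟩ := ord_fst hVo r (f := v)
    (fun p hp => (hvd p hp.1).differentiableWithinAt)
    (fun a ha => ⟨V, hVo.mem_nhds ha, hLV⟩)
  have hHan : AnalyticAt ℂ H (0, z) :=
    Crest.Agent.R266.SCV.analyticOnNhd_of_differentiableOn hVo hH _ hzV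
  have hfl : (0 : ℤ) ≤ ⌊r⌋ := Int.floor_nonneg.2 hr
  obtain ⟨n, hn⟩ := Int.eq_ofNat_of_zero_le (show (0 : ℤ) ≤ ⌊r⌋ + 1 by omega)
  refine ⟨n, H, ?_, hHan, ?_⟩
  · have h3 := Int.lt_floor_add_one r
    have h4 : ((⌊r⌋ + 1 : ℤ) : ℝ) = (n : ℝ) := by rw [hn]; simp
    push_cast at h4
    linarith
  · have h5 : ∀ p ∈ V, v p = p.1 ^ n * H p := by
      intro p hp
      by_contra hne
      have h6 : ContinuousAt (fun q => v q - q.1 ^ n * H q) p :=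
        (hvd p hp).continuousAt.sub ((continuousAt_fst.pow _).mul
          ((hH.differentiableAt (hVo.mem_nhds hp)).continuousAt))
      have h7 := h6.eventually_ne (sub_ne_zero.2 hne)
      obtain ⟨q, hq1, hq2, hq3⟩ := ((freq1 p).and_eventually (h7.and (hVo.mem_nhds hp))).exists
      apply hq2
      rw [hvH q hq3 hq1, hn]
      simp
    filter_upwards [hVo.mem_nhds hzV] with p hp using h5 p hp

/-! ### averages -/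

/-- **averages** -/
theorem avg_L2 {ι : Type*} (s : Finset ι) {U : Set (ℂ × ℂ)} (hU : MeasurableSet U)
    {v : ι → ℂ × ℂ → ℂ} {w : ι → ℂ × ℂ → ℝ} {w₀ : ℂ × ℂ → ℝ} (hw0 : ∀ p ∈ U, 0 ≤ w₀ p)
    (hw : ∀ i ∈ s, ∀ p ∈ U, w₀ p ≤ w i p)
    (hm : ∀ i ∈ s, AEMeasurable (fun p => ENNReal.ofReal (‖v i p‖ ^ 2 * w i p))
      (volume.restrict U))
    (hL : ∀ i ∈ s, ∫⁻ p in U, ENNReal.ofReal (‖v i p‖ ^ 2 * w i p) ≠ ⊤) (c : ℂ) :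
    ∫⁻ p in U, ENNReal.ofReal (‖c * ∑ i ∈ s, v i p‖ ^ 2 * w₀ p) ≠ ⊤ := by
  have h1 : ∫⁻ p in U, ENNReal.ofReal (‖c * ∑ i ∈ s, v i p‖ ^ 2 * w₀ p) ≤
      ∫⁻ p in U, ENNReal.ofReal (‖c‖ ^ 2 * s.card) *
        ∑ i ∈ s, ENNReal.ofReal (‖v i p‖ ^ 2 * w i p) := by
    refine setLIntegral_mono' hU fun p hp => ?_
    have hs : ∀ i ∈ s, 0 ≤ ‖v i p‖ ^ 2 * w i p := fun i hi =>
      mul_nonneg (by positivity) ((hw0 p hp).trans (hw i hi p hp))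
    rw [← ENNReal.ofReal_sum_of_nonneg hs, ← ENNReal.ofReal_mul (by positivity)]
    refine ENNReal.ofReal_le_ofReal ?_
    have e1 : ‖∑ i ∈ s, v i p‖ ^ 2 ≤ s.card * ∑ i ∈ s, ‖v i p‖ ^ 2 := by
      calc ‖∑ i ∈ s, v i p‖ ^ 2 ≤ (∑ i ∈ s, ‖v i p‖) ^ 2 :=
            pow_le_pow_left₀ (norm_nonneg _) (norm_sum_le _ _) 2
        _ ≤ s.card * ∑ i ∈ s, ‖v i p‖ ^ 2 := sq_sum_le_card_mul_sum_sq
    have e2 : (∑ i ∈ s, ‖v i p‖ ^ 2) * w₀ p ≤ ∑ i ∈ s, ‖v i p‖ ^ 2 * w i p := by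
      rw [Finset.sum_mul]
      exact Finset.sum_le_sum fun i hi =>
        mul_le_mul_of_nonneg_left (hw i hi p hp) (by positivity)
    calc ‖c * ∑ i ∈ s, v i p‖ ^ 2 * w₀ p = ‖c‖ ^ 2 * (‖∑ i ∈ s, v i p‖ ^ 2 * w₀ p) := by
          rw [norm_mul]; ring
      _ ≤ ‖c‖ ^ 2 * ((s.card * ∑ i ∈ s, ‖v i p‖ ^ 2) * w₀ p) := by
          gcongr
          exact hw0 p hp
      _ = ‖c‖ ^ 2 * s.card * ((∑ i ∈ s, ‖v i p‖ ^ 2) * w₀ p) := by ring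
      _ ≤ _ := mul_le_mul_of_nonneg_left e2 (by positivity)
  refine ne_top_of_le_ne_top ?_ h1
  rw [lintegral_const_mul' _ _ ENNReal.ofReal_ne_top, lintegral_finsetSum' _ hm]
  exact ENNReal.mul_ne_top ENNReal.ofReal_ne_top (ENNReal.sum_ne_top.2 hL)

/-! ### the density in a frame -/

variable {f : E3 → ℂ} (F : Frame f)




/-- powers of the second coordinate are bounded below near `(·, b)`, `b ≠ 0` -/
theorem rpow_low {X : Type*} [TopologicalSpace X] {x : X → ℂ} {q : X} (hx : ContinuousAt x q)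
    (hq : x q ≠ 0) (s : ℝ) : ∃ κ > 0, ∀ᶠ p in 𝓝 q, κ ≤ ‖x p‖ ^ s := by
  have h1 : ContinuousAt (fun p => ‖x p‖ ^ s) q :=
    hx.norm.rpow_const (Or.inl (norm_ne_zero_iff.2 hq))
  have h2 : 0 < ‖x q‖ ^ s := Real.rpow_pos_of_pos (norm_pos_iff.2 hq) s
  refine ⟨‖x q‖ ^ s / 2, by positivity, ?_⟩
  exact (h1.eventually (lt_mem_nhds (by linarith : ‖x q‖ ^ s / 2 < ‖x q‖ ^ s))).mono
    fun p hp => le_of_lt hp





end Crest.Agent.R257.OrdK_82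
end
end

-- ▼ part R257/OrdK4_82
section

/-!
# Row 257 (S0395), task C-ORDK (helper82), file 4: orders and kills in the language of `BPDefs_258`

* `order_L2'`  : orders at any point `(0, z)`;
* `dn_low`     : lower bound of `dn²`;
* `log_le_max` : `y₁ log|α|² + y₂ log|β|² + t log(|α|^(2b) + |β|^(2a))` is at most a maximum of two forms;
* `bp_order`   : order along `{α = 0}`;
* `bp_kill`    : kill at the origin of a chart, direction `(a, b)`.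
-/

set_option autoImplicit false
set_option linter.unusedSectionVars false

noncomputable section

open Set Filter Topology MeasureTheory
open scoped ENNReal

namespace Crest.Agent.R257.OrdK_82

open Crest.AlgGeometry.Germ
open Crest.Agent.R257.Ord_757 Crest.Agent.R257.T387 Crest.Agent.R257.BP_258

/-- **`L²` ⇒ order** at any point `(0, z)` -/
theorem order_L2' {z : ℂ} {U : Set (ℂ × ℂ)}
    (hU : ∀ᶠ p in 𝓝 ((0 : ℂ), z), p.1 ≠ 0 → p ∈ U) {v : ℂ × ℂ → ℂ}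
    (hv : AnalyticAt ℂ v (0, z)) {w : ℂ × ℂ → ℝ} {r c : ℝ} (hc : 0 < c)
    (hw : ∀ᶠ p in 𝓝 ((0 : ℂ), z), p.1 ≠ 0 → c * ‖p.1‖ ^ (-2 * r - 2) ≤ w p)
    (hL : ∫⁻ p in U, ENNReal.ofReal (‖v p‖ ^ 2 * w p) ≠ ⊤) :
    ∃ (n : ℕ) (H : ℂ × ℂ → ℂ), r < n ∧ AnalyticAt ℂ H (0, z) ∧
      ∀ᶠ p in 𝓝 ((0 : ℂ), z), v p = p.1 ^ n * H p := by
  have hT : Tendsto (fun p : ℂ × ℂ => ((p.1, p.2 - 1 + z) : ℂ × ℂ)) (𝓝 ((0 : ℂ), (1 : ℂ)))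
      (𝓝 ((0 : ℂ), z)) := by
    have : Continuous (fun p : ℂ × ℂ => ((p.1, p.2 - 1 + z) : ℂ × ℂ)) := by fun_prop
    exact this.tendsto' _ _ (by simp)
  have hT' : Tendsto (fun p : ℂ × ℂ => ((p.1, p.2 + 1 - z) : ℂ × ℂ)) (𝓝 ((0 : ℂ), z))
      (𝓝 ((0 : ℂ), (1 : ℂ))) := by
    have : Continuous (fun p : ℂ × ℂ => ((p.1, p.2 + 1 - z) : ℂ × ℂ)) := by fun_prop
    exact this.tendsto' _ _ (by simp)
  set τ : ℂ × ℂ → ℂ × ℂ := fun p => (p.1, p.2 - 1 + z) with hτ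
  have hτe : τ = fun p => p + ((0 : ℂ), z - 1) := by
    funext p; simp only [hτ]; ext <;> simp; ring
  have hv' : AnalyticAt ℂ (v ∘ τ) ((0 : ℂ), (1 : ℂ)) := by
    refine AnalyticAt.comp (g := v) (f := τ) ?_
      (analyticAt_fst.prod ((analyticAt_snd.sub analyticAt_const).add analyticAt_const))
    simpa [hτ] using hv
  have hL' : ∫⁻ p in τ ⁻¹' U, ENNReal.ofReal (‖(v ∘ τ) p‖ ^ 2 * (w ∘ τ) p) ≠ ⊤ := by
    have : (volume : Measure (ℂ × ℂ)).IsAddRightInvariant := by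
      rw [Measure.volume_eq_prod]; infer_instance
    have hmp : MeasurePreserving τ (volume : Measure (ℂ × ℂ)) volume := by
      rw [hτe]; exact measurePreserving_add_right _ _
    have hem : MeasurableEmbedding τ := by
      rw [hτe]; exact measurableEmbedding_addRight _
    have := hmp.setLIntegral_comp_preimage_emb hem
      (fun p => ENNReal.ofReal (‖v p‖ ^ 2 * w p)) U
    show ∫⁻ p in τ ⁻¹' U, (fun p => ENNReal.ofReal (‖v p‖ ^ 2 * w p)) (τ p) ≠ ⊤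
    rw [this]
    exact hL
  obtain ⟨n, H, h1, h2, h3⟩ := order_L2 (z := 1) one_ne_zero (U := τ ⁻¹' U)
    ((hT.eventually hU).mono fun p hp n1 _ => hp n1) hv' (w := w ∘ τ) hc
    ((hT.eventually hw).mono fun p hp n1 _ => hp n1) hL'
  refine ⟨n, fun p => H (p.1, p.2 + 1 - z), h1, ?_, ?_⟩
  · refine AnalyticAt.comp (g := H) (f := fun p : ℂ × ℂ => ((p.1, p.2 + 1 - z) : ℂ × ℂ)) ?_
      (analyticAt_fst.prod ((analyticAt_snd.add analyticAt_const).sub analyticAt_const))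
    simpa using h2
  · filter_upwards [hT'.eventually h3] with p hp
    have e : τ (p.1, p.2 + 1 - z) = p := by
      simp only [hτ]
      ext
      · rfl
      · show p.2 + 1 - z - 1 + z = p.2
        ring
    have hp' : v (τ (p.1, p.2 + 1 - z)) = p.1 ^ n * H (p.1, p.2 + 1 - z) := hp
    rwa [e] at hp'

variable {f : (Fin 3 → ℂ) → ℂ} {T : TB f} {U : Tub T} {S : Sh T} {L : Lab U S}

theorem gen_of (c : Ch T.m) {p : ℂ × ℂ} (h1 : p.1 ≠ 0) (h2 : p.2 ≠ 0) : T.Gen c p := by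
  cases c
  · exact ⟨h1, h2⟩
  · exact ⟨h1, h2⟩
  · exact h1

theorem zp_sq {x : ℝ} (hx : 0 < x) (k : ℤ) :
    (x ^ (-k - 1)) ^ 2 = x ^ (-2 * (k : ℝ) - 2) := by
  rw [← Real.rpow_intCast, ← Real.rpow_natCast, ← Real.rpow_mul hx.le]
  congr 1
  push_cast
  ring

/-- lower bound of the density -/
theorem dn_low {nu : II U → ℤ} {n1 n2 : Ch T.m → Fin T.d → ℤ} (J : Jac L nu n1 n2) {c : Ch T.m}
    (hc : Ok S c) (j : Fin T.d) : ∃ κ > 0, ∀ p : ℂ × ℂ, ‖p.1‖ ≤ S.r c → ‖p.2‖ ≤ S.r c →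
      p.1 ≠ 0 → p.2 ≠ 0 →
      κ * (‖p.1‖ ^ (-2 * (n1 c j : ℝ) - 2) * ‖p.2‖ ^ (-2 * (n2 c j : ℝ) - 2)) ≤
        dn S c j p ^ 2 := by
  obtain ⟨K, hK, h⟩ := J.bd c hc j
  refine ⟨(K ^ 2)⁻¹, by positivity, fun p h1 h2 n1' n2' => ?_⟩
  obtain ⟨-, -, h3⟩ := h p h1 h2 (gen_of c n1' n2')
  have hp1 : 0 < ‖p.1‖ := norm_pos_iff.2 n1'
  have hp2 : 0 < ‖p.2‖ := norm_pos_iff.2 n2'
  have h4 : (‖p.1‖ ^ (-n1 c j - 1) * ‖p.2‖ ^ (-n2 c j - 1)) ^ 2 ≤ (K * dn S c j p) ^ 2 :=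
    pow_le_pow_left₀ (by positivity) h3 2
  rw [mul_pow, mul_pow, zp_sq hp1, zp_sq hp2] at h4
  rw [inv_mul_le_iff₀ (by positivity)]
  exact h4

/-- lower bound of the density, vertex charts -/
theorem dn_low_v {nu : II U → ℤ} {n1 n2 : Ch T.m → Fin T.d → ℤ} (J : Jac L nu n1 n2)
    {c : Ch T.m} (hc : Ok S c) (hv : IsV c) (j : Fin T.d) :
    ∃ κ > 0, ∀ p : ℂ × ℂ, ‖p.1‖ ≤ S.r c → ‖p.2‖ ≤ S.r c → p.1 ≠ 0 →
      κ * ‖p.1‖ ^ (-2 * (n1 c j : ℝ) - 2) ≤ dn S c j p ^ 2 := by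
  obtain ⟨K, hK, h⟩ := J.bd c hc j
  have hn2 := J.vert c hc hv j
  refine ⟨(K ^ 2)⁻¹, by positivity, fun p h1 h2 n1' => ?_⟩
  have hg : T.Gen c p := by
    cases c with
    | edge i k k' => exact absurd hv (by simp [IsV])
    | leg i => exact absurd hv (by simp [IsV])
    | vert i k w => exact n1'
  obtain ⟨-, -, h3⟩ := h p h1 h2 hg
  have hp1 : 0 < ‖p.1‖ := norm_pos_iff.2 n1'
  rw [hn2] at h3
  have h4 : (‖p.1‖ ^ (-n1 c j - 1)) ^ 2 ≤ (K * dn S c j p) ^ 2 := by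
    refine pow_le_pow_left₀ (by positivity) ?_ 2
    simpa using h3
  rw [mul_pow, zp_sq hp1] at h4
  rw [inv_mul_le_iff₀ (by positivity)]
  exact h4

/-- the kink function is at most a maximum of two linear forms -/
theorem log_le_max {y₁ y₂ t : ℝ} (ht : 0 ≤ t) (a b : ℕ) {p : ℂ × ℂ} (h1 : p.1 ≠ 0) (h2 : p.2 ≠ 0) :
    y₁ * Real.log (‖p.1‖ ^ 2) + y₂ * Real.log (‖p.2‖ ^ 2) +
      t * Real.log (‖p.1‖ ^ (2 * b) + ‖p.2‖ ^ (2 * a)) ≤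
    max (lin (y₁ + t * b) y₂ (0, 0) p) (lin y₁ (y₂ + t * a) (0, 0) p) + t * Real.log 2 := by
  have hp1 : 0 < ‖p.1‖ := norm_pos_iff.2 h1
  have hp2 : 0 < ‖p.2‖ := norm_pos_iff.2 h2
  have e1 : lin (y₁ + t * b) y₂ (0, 0) p = y₁ * Real.log (‖p.1‖ ^ 2) + y₂ * Real.log (‖p.2‖ ^ 2) +
      t * Real.log (‖p.1‖ ^ (2 * b)) := by
    unfold lin
    simp only [sub_zero]
    rw [pow_mul ‖p.1‖ 2 b, Real.log_pow (‖p.1‖ ^ 2) b]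
    ring
  have e2 : lin y₁ (y₂ + t * a) (0, 0) p = y₁ * Real.log (‖p.1‖ ^ 2) + y₂ * Real.log (‖p.2‖ ^ 2) +
      t * Real.log (‖p.2‖ ^ (2 * a)) := by
    unfold lin
    simp only [sub_zero]
    rw [pow_mul ‖p.2‖ 2 a, Real.log_pow (‖p.2‖ ^ 2) a]
    ring
  rw [e1, e2]
  rcases le_total (‖p.1‖ ^ (2 * b)) (‖p.2‖ ^ (2 * a)) with h | h
  · have h3 : Real.log (‖p.1‖ ^ (2 * b) + ‖p.2‖ ^ (2 * a)) ≤
        Real.log (‖p.2‖ ^ (2 * a)) + Real.log 2 := by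
      rw [← Real.log_mul (by positivity) (by norm_num)]
      exact Real.log_le_log (by positivity) (by linarith)
    have h4 := mul_le_mul_of_nonneg_left h3 ht
    have h5 := le_max_right (y₁ * Real.log (‖p.1‖ ^ 2) + y₂ * Real.log (‖p.2‖ ^ 2) +
      t * Real.log (‖p.1‖ ^ (2 * b))) (y₁ * Real.log (‖p.1‖ ^ 2) + y₂ * Real.log (‖p.2‖ ^ 2) +
      t * Real.log (‖p.2‖ ^ (2 * a)))
    linarith
  · have h3 : Real.log (‖p.1‖ ^ (2 * b) + ‖p.2‖ ^ (2 * a)) ≤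
        Real.log (‖p.1‖ ^ (2 * b)) + Real.log 2 := by
      rw [← Real.log_mul (by positivity) (by norm_num)]
      exact Real.log_le_log (by positivity) (by linarith)
    have h4 := mul_le_mul_of_nonneg_left h3 ht
    have h5 := le_max_left (y₁ * Real.log (‖p.1‖ ^ 2) + y₂ * Real.log (‖p.2‖ ^ 2) +
      t * Real.log (‖p.1‖ ^ (2 * b))) (y₁ * Real.log (‖p.1‖ ^ 2) + y₂ * Real.log (‖p.2‖ ^ 2) +
      t * Real.log (‖p.2‖ ^ (2 * a)))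
    linarith

/-- **orders in a chart**: at `(0, z)`, `z ≠ 0` or `c` a vertex chart -/
theorem bp_order {nu : II U → ℤ} {n1 n2 : Ch T.m → Fin T.d → ℤ} (J : Jac L nu n1 n2) {c : Ch T.m}
    (hc : Ok S c) (j : Fin T.d) {z : ℂ} (hz : z ≠ 0 ∨ IsV c) (hzr : ‖z‖ < S.r c)
    {O : Set (ℂ × ℂ)} (hO : ∀ᶠ p in 𝓝 ((0 : ℂ), z), T.Gen c p → p ∈ O) {v : ℂ × ℂ → ℂ}
    (hv : AnalyticAt ℂ v (0, z)) {Φ : ℂ × ℂ → ℝ} {y C : ℝ}
    (hΦ : ∀ᶠ p in 𝓝 ((0 : ℂ), z), T.Gen c p → Φ p ≤ y * Real.log (‖p.1‖ ^ 2) + C)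
    (hL : ∫⁻ p in O, ENNReal.ofReal (‖v p‖ ^ 2 * Real.exp (-Φ p) * dn S c j p ^ 2) ≠ ⊤) :
    ∃ (n : ℕ) (H : ℂ × ℂ → ℂ), y + n1 c j < n ∧ AnalyticAt ℂ H (0, z) ∧
      ∀ᶠ p in 𝓝 ((0 : ℂ), z), v p = p.1 ^ n * H p := by
  have hr1 : ∀ᶠ p : ℂ × ℂ in 𝓝 ((0 : ℂ), z), ‖p.1‖ ≤ S.r c ∧ ‖p.2‖ ≤ S.r c := by
    have e1 : ∀ᶠ p : ℂ × ℂ in 𝓝 ((0 : ℂ), z), ‖p.1‖ < S.r c :=
      (continuousAt_fst.norm.eventually (gt_mem_nhds (by simpa using S.pos c)))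
    have e2 : ∀ᶠ p : ℂ × ℂ in 𝓝 ((0 : ℂ), z), ‖p.2‖ < S.r c :=
      (continuousAt_snd.norm.eventually (gt_mem_nhds (by simpa using hzr)))
    filter_upwards [e1, e2] with p h1 h2 using ⟨h1.le, h2.le⟩
  -- generic points near `(0,z)`
  have hgen : ∀ᶠ p : ℂ × ℂ in 𝓝 ((0 : ℂ), z), p.1 ≠ 0 → T.Gen c p := by
    rcases hz with hz | hz
    · filter_upwards [continuousAt_snd.eventually_ne (x := ((0 : ℂ), z)) (y := (0 : ℂ)) hz]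
        with p hp n1' using gen_of c n1' hp
    · refine Eventually.of_forall fun p hp => ?_
      cases c with
      | edge i k k' => exact absurd hz (by simp [IsV])
      | leg i => exact absurd hz (by simp [IsV])
      | vert i k w => exact hp
  have hden : ∃ κ > 0, ∀ᶠ p : ℂ × ℂ in 𝓝 ((0 : ℂ), z), p.1 ≠ 0 →
      κ * ‖p.1‖ ^ (-2 * (n1 c j : ℝ) - 2) ≤ dn S c j p ^ 2 := by
    by_cases hV : IsV c
    · obtain ⟨κ, hκ, h⟩ := dn_low_v J hc hV j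
      exact ⟨κ, hκ, hr1.mono fun p hp n1' => h p hp.1 hp.2 n1'⟩
    · have hz' : z ≠ 0 := hz.resolve_right hV
      obtain ⟨κ, hκ, h⟩ := dn_low J hc j
      obtain ⟨κ', hκ', h2⟩ := rpow_low (x := fun p : ℂ × ℂ => p.2) (q := ((0 : ℂ), z))
        continuousAt_snd hz' (-2 * (n2 c j : ℝ) - 2)
      refine ⟨κ * κ', by positivity, ?_⟩
      filter_upwards [hr1, h2,
        continuousAt_snd.eventually_ne (x := ((0 : ℂ), z)) (y := (0 : ℂ)) hz'] with p q1 q2 q3 n1'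
      refine le_trans ?_ (h p q1.1 q1.2 n1' q3)
      calc κ * κ' * ‖p.1‖ ^ (-2 * (n1 c j : ℝ) - 2)
          = κ * (‖p.1‖ ^ (-2 * (n1 c j : ℝ) - 2) * κ') := by ring
        _ ≤ _ := by gcongr
  obtain ⟨κ, hκ, hd⟩ := hden
  refine order_L2' (U := O) (v := v) (w := fun p => Real.exp (-Φ p) * dn S c j p ^ 2)
    (r := y + n1 c j) (c := Real.exp (-C) * κ) ?_ hv (by positivity) ?_
    (by simpa [mul_assoc] using hL)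
  · filter_upwards [hO, hgen] with p h1 h2 n1' using h1 (h2 n1')
  · filter_upwards [hd, hΦ, hgen] with p q1 q2 q3 n1'
    have hp : 0 < ‖p.1‖ := norm_pos_iff.2 n1'
    have e1 : Real.exp (-C) * ‖p.1‖ ^ (-2 * y) ≤ Real.exp (-Φ p) := by
      rw [Real.rpow_def_of_pos hp, ← Real.exp_add]
      refine Real.exp_le_exp.2 ?_
      have := q2 (q3 n1')
      rw [Real.log_pow] at this
      push_cast at this
      linarith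
    calc Real.exp (-C) * κ * ‖p.1‖ ^ (-2 * (y + (n1 c j : ℝ)) - 2)
        = (Real.exp (-C) * ‖p.1‖ ^ (-2 * y)) * (κ * ‖p.1‖ ^ (-2 * (n1 c j : ℝ) - 2)) := by
          rw [show -2 * (y + (n1 c j : ℝ)) - 2 = -2 * y + (-2 * (n1 c j : ℝ) - 2) by ring,
            Real.rpow_add hp]
          ring
      _ ≤ _ := mul_le_mul e1 (q1 n1') (by positivity) (Real.exp_pos _).le

/-- **kill at the origin of a chart**, direction `(a, b)` : if `g - κ₀ α^m₁ β^m₂` has the `L²` bound and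
`g = α^m₁ β^m₂ H`, then `H (0,0) = κ₀` -/
theorem bp_kill {nu : II U → ℤ} {n1 n2 : Ch T.m → Fin T.d → ℤ} (J : Jac L nu n1 n2) {c : Ch T.m}
    (hc : Ok S c) (j : Fin T.d) {a b : ℕ} (ha : 0 < a) (hb : 0 < b)
    {O : Set (ℂ × ℂ)} (hO : ∀ᶠ p in 𝓝 ((0 : ℂ), (0 : ℂ)), p.1 ≠ 0 → p.2 ≠ 0 → p ∈ O)
    {u H : ℂ × ℂ → ℂ} {m₁ m₂ : ℕ} {κ₀ : ℂ} (hH : ContinuousAt H (0, 0))
    (hu : ∀ᶠ p in 𝓝 ((0 : ℂ), (0 : ℂ)), p.1 ≠ 0 → p.2 ≠ 0 → u p = p.1 ^ m₁ * p.2 ^ m₂ * H p)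
    {D : ℂ × ℂ → ℂ}
    (hD : ∀ᶠ p in 𝓝 ((0 : ℂ), (0 : ℂ)), p.1 ≠ 0 → p.2 ≠ 0 → D p = κ₀ * (p.1 ^ m₁ * p.2 ^ m₂))
    {Φ : ℂ × ℂ → ℝ} {y₁ y₂ t C : ℝ} (ht : 0 ≤ t)
    (hΦ : ∀ᶠ p in 𝓝 ((0 : ℂ), (0 : ℂ)), p.1 ≠ 0 → p.2 ≠ 0 →
      Φ p ≤ y₁ * Real.log (‖p.1‖ ^ 2) + y₂ * Real.log (‖p.2‖ ^ 2) +
        t * Real.log (‖p.1‖ ^ (2 * b) + ‖p.2‖ ^ (2 * a)) + C)
    (hm : (a : ℝ) * m₁ + b * m₂ ≤ a * (y₁ + n1 c j) + b * (y₂ + n2 c j) + a * b * t)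
    (hL : ∫⁻ p in O, ENNReal.ofReal (‖u p - D p‖ ^ 2 * Real.exp (-Φ p) *
      dn S c j p ^ 2) ≠ ⊤) :
    H (0, 0) = κ₀ := by
  obtain ⟨k, hk, hd⟩ := dn_low J hc j
  have hr1 : ∀ᶠ p : ℂ × ℂ in 𝓝 ((0 : ℂ), (0 : ℂ)), ‖p.1‖ ≤ S.r c ∧ ‖p.2‖ ≤ S.r c := by
    have e1 : ∀ᶠ p : ℂ × ℂ in 𝓝 ((0 : ℂ), (0 : ℂ)), ‖p.1‖ < S.r c :=
      (continuousAt_fst.norm.eventually (gt_mem_nhds (by simpa using S.pos c)))
    have e2 : ∀ᶠ p : ℂ × ℂ in 𝓝 ((0 : ℂ), (0 : ℂ)), ‖p.2‖ < S.r c :=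
      (continuousAt_snd.norm.eventually (gt_mem_nhds (by simpa using S.pos c)))
    filter_upwards [e1, e2] with p h1 h2 using ⟨h1.le, h2.le⟩
  have ha' : (0 : ℝ) < a := by exact_mod_cast ha
  have hb' : (0 : ℝ) < b := by exact_mod_cast hb
  have key : (fun p => H p - κ₀) ((0 : ℂ), (0 : ℂ)) = 0 := by
    refine kill_max ha' hb' (p₀ := ((0 : ℂ), (0 : ℂ))) (U := O) (v := fun p => u p - D p)
      (μ := fun p => p.1 ^ m₁ * p.2 ^ m₂) (H := fun p => H p - κ₀) (Φ := Φ)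
      (den := fun p => dn S c j p ^ 2) hO (hH.sub continuousAt_const) ?_
      (m := m₁) (n := m₂) (ν := n1 c j) (ν' := n2 c j) (x₁ := y₁ + t * b) (y₁ := y₂)
      (x₂ := y₁) (y₂ := y₂ + t * a) (C := t * Real.log 2 + C) (c₁ := 1) (c₂ := k) one_pos hk
      ?_ ?_ ?_ ?_ ?_ hL
    · filter_upwards [hu, hD] with p h1 h2 n1' n2'
      rw [h1 n1' n2', h2 n1' n2']; ring
    · refine Eventually.of_forall fun p _ _ => ?_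
      simp only [sub_zero, one_mul, Real.rpow_natCast, norm_mul, norm_pow]
      exact le_rfl
    · filter_upwards [hr1] with p h1 n1' n2'
      simpa only [sub_zero] using hd p h1.1 h1.2 n1' n2'
    · filter_upwards [hΦ] with p h1 n1' n2'
      have h2 := log_le_max (y₁ := y₁) (y₂ := y₂) ht a b n1' n2'
      have h3 := h1 n1' n2'
      linarith
    · nlinarith [hm]
    · nlinarith [hm]
  exact sub_eq_zero.1 key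

end Crest.Agent.R257.OrdK_82
end
end

-- ▼ part R257/OrdK5_82

/-!
# Row 257 (S0395), task C-ORDK (helper82), file 5: from the Hörmander step `hoT` to orders and kills

* `HT S g V D Φ ρ₁` : the conclusion of `HoT_843.hoT`;
* `HT.l2`    : the averaged `L²` bound for `g ∘ th` on an open set of generic points;
* `HT.order` : order along `{α = 0}` at `(0, z)`;
* `HT.kill`  : kill at the origin of a chart;
* `rot_le`, `rot_mono` : the local hypotheses from the action of the rotations on the charts.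
-/

set_option autoImplicit false
set_option linter.unusedSectionVars false

noncomputable section

open Set Filter Topology MeasureTheory
open scoped ENNReal

namespace Crest.Agent.R257.OrdK_82

open Crest.AlgGeometry.Germ
open Crest.Agent.R257.Ord_757 Crest.Agent.R257.T387 Crest.Agent.R257.BP_258
open Crest.Agent.R257.HoT_843 Crest.Agent.R257.AJ387
open Polynomial (nthRootsFinset)

variable {f : (Fin 3 → ℂ) → ℂ} {T : TB f}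

/-- the output of the Hörmander step -/
structure HT (S : Sh T) (g V D : (Fin 3 → ℂ) → ℂ) (Φ : (Fin 3 → ℂ) → ℝ) (ρ₁ : ℝ) : Prop where
  an : AnalyticAt ℂ g 0
  pos : 0 < ρ₁
  avg : ∀ c, T.Valid c → ∀ j, ∀ p ∈ Ogs S c ρ₁, g (T.th c (S.ζ c j) p) =
    1 / T.N * ∑ ξ ∈ nthRootsFinset T.N (1 : ℂ), V (rot ξ (wc S c j p))
  hol : ∀ c, T.Valid c → ∀ j, ∀ ξ : ℂ, ξ ^ T.N = 1 →
    DifferentiableOn ℂ (fun p => V (rot ξ (wc S c j p))) (Ogs S c ρ₁)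
  bd : ∀ c, T.Valid c → ∀ j,
    (∀ p ∈ Ogs S c ρ₁, ∀ i, (T.map c p).2 ≠ T.φ i ((T.map c p).1 ^ T.M)) → ∀ ξ : ℂ, ξ ^ T.N = 1 →
    ∫⁻ p in Ogs S c ρ₁, ENNReal.ofReal (‖V (rot ξ (wc S c j p)) - D (rot ξ (wc S c j p))‖ ^ 2 *
      Real.exp (-Φ (rot ξ (wc S c j p))) * dn S c j p ^ 2) ≠ ⊤

/-- the conclusion of `hoT` gives `HT` -/
theorem HT.of_hoT {S : Sh T} {D : (Fin 3 → ℂ) → ℂ} {Φ : (Fin 3 → ℂ) → ℝ} {ρ₀ : ℝ}
    (h : ∃ (g V : (Fin 3 → ℂ) → ℂ) (ρ₁ : ℝ) (K : ℝ≥0∞), AnalyticAt ℂ g 0 ∧ 0 < ρ₁ ∧ ρ₁ ≤ ρ₀ ∧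
      K ≠ ∞ ∧
      (∃ G : (Fin 3 → ℂ) → ℂ, DifferentiableOn ℂ G (OtK_331.Pd ![T.rz, ρ₁, ρ₁]) ∧
        ∀ u, V u = G u / u 1 ^ (T.N - 1)) ∧
      ∀ c, T.Valid c → ∀ j,
        (∀ p ∈ Ogs S c ρ₁, g (T.th c (S.ζ c j) p) =
          1 / T.N * ∑ ξ ∈ nthRootsFinset T.N (1 : ℂ), V (rot ξ (wc S c j p))) ∧
        ∀ ξ : ℂ, ξ ^ T.N = 1 →
          DifferentiableOn ℂ (fun p => V (rot ξ (wc S c j p))) (Ogs S c ρ₁) ∧
          ((∀ p ∈ Ogs S c ρ₁, ∀ i, (T.map c p).2 ≠ T.φ i ((T.map c p).1 ^ T.M)) →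
          ∫⁻ p in Ogs S c ρ₁, ENNReal.ofReal (‖V (rot ξ (wc S c j p)) -
            D (rot ξ (wc S c j p))‖ ^ 2 * Real.exp (-Φ (rot ξ (wc S c j p))) *
              dn S c j p ^ 2) ≤ K)) :
    ∃ (g V : (Fin 3 → ℂ) → ℂ) (ρ₁ : ℝ), ρ₁ ≤ ρ₀ ∧ HT S g V D Φ ρ₁ := by
  obtain ⟨g, V, ρ₁, K, h1, h2, h3, h4, -, h5⟩ := h
  exact ⟨g, V, ρ₁, h3, h1, h2, fun c hc j => (h5 c hc j).1,
    fun c hc j ξ hξ => ((h5 c hc j).2 ξ hξ).1,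
    fun c hc j hoff ξ hξ => ne_top_of_le_ne_top h4 (((h5 c hc j).2 ξ hξ).2 hoff)⟩

/-- off the branches, from `MonoC` -/
theorem off_of_mono {S : Sh T} {c : Ch T.m} (h : T.MonoC c (S.r c)) (ρ₁ : ℝ) :
    ∀ p ∈ Ogs S c ρ₁, ∀ i, (T.map c p).2 ≠ T.φ i ((T.map c p).1 ^ T.M) :=
  fun _ hp i => h.ne ⟨hp.1.1, hp.1.2.1⟩ hp.1.2.2.1 i

variable {S : Sh T}

/-- the density is continuous at the generic points -/
theorem dn_cont {c : Ch T.m} (hc : T.Valid c) (j : Fin T.d) {p : ℂ × ℂ} (h1 : ‖p.1‖ < 2 * S.r c)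
    (h2 : ‖p.2‖ < 2 * S.r c) (hg : T.Gen c p) : ContinuousAt (dn S c j) p := by
  have hm := (S.sheets c hc).map_an (p := p) ⟨h1, h2⟩
  have hm1 : AnalyticAt ℂ (fun q => (T.map c q).1) p := analyticAt_fst.comp hm
  have hm2 : AnalyticAt ℂ (fun q => (T.map c q).2) p := analyticAt_snd.comp hm
  have ht := (S.sheets c hc).th_an j (p := p) ⟨h1, h2⟩
  have hf := (S.sheets c hc).f_an j (p := p) ⟨h1, h2⟩
  have e1 : ContinuousAt (fun q => coordDeriv f 0 (T.th c (S.ζ c j) q)) p := by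
    have h3 : ContinuousAt (fun q => fderiv ℂ f (T.th c (S.ζ c j) q)) p :=
      ContinuousAt.comp (g := fderiv ℂ f) hf.fderiv.continuousAt ht.continuousAt
    exact h3.clm_apply continuousAt_const
  have e2 : ContinuousAt (Jm T c) p := by
    unfold Jm
    have a1 := hm1.fderiv.continuousAt
    have a2 := hm2.fderiv.continuousAt
    exact ((a1.clm_apply continuousAt_const).mul (a2.clm_apply continuousAt_const)).sub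
      ((a1.clm_apply continuousAt_const).mul (a2.clm_apply continuousAt_const))
  have hne : coordDeriv f 0 (T.th c (S.ζ c j) p) ≠ 0 := cd_ne S hc h1 h2 hg j
  unfold dn
  exact ((hm1.continuousAt.norm.pow _).mul e2.norm).div e1.norm (norm_ne_zero_iff.2 hne)

/-- **the averaged `L²` bound** -/
theorem HT.l2 {g V D : (Fin 3 → ℂ) → ℂ} {Φ : (Fin 3 → ℂ) → ℝ} {ρ₁ : ℝ} (h : HT S g V D Φ ρ₁)
    {c : Ch T.m} (hc : T.Valid c) (j : Fin T.d)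
    (hoff : ∀ p ∈ Ogs S c ρ₁, ∀ i, (T.map c p).2 ≠ T.φ i ((T.map c p).1 ^ T.M))
    {W : Set (ℂ × ℂ)} (hW : IsOpen W) (hWO : W ⊆ Ogs S c ρ₁) {d : ℂ → ℂ × ℂ → ℂ}
    (hd : ∀ ξ : ℂ, ξ ^ T.N = 1 → ContinuousOn (d ξ) W)
    (hD : ∀ ξ : ℂ, ξ ^ T.N = 1 → ∀ p ∈ W, D (rot ξ (wc S c j p)) = d ξ p) {Ψ : ℂ × ℂ → ℝ}
    (hΨ : ContinuousOn Ψ W)
    (hΦ : ∀ ξ : ℂ, ξ ^ T.N = 1 → ∀ p ∈ W, Φ (rot ξ (wc S c j p)) ≤ Ψ p) :
    ∫⁻ p in W, ENNReal.ofReal (‖g (T.th c (S.ζ c j) p) -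
      1 / T.N * ∑ ξ ∈ nthRootsFinset T.N (1 : ℂ), d ξ p‖ ^ 2 * Real.exp (-Ψ p) *
        dn S c j p ^ 2) ≠ ⊤ := by
  have hroot : ∀ ξ ∈ nthRootsFinset T.N (1 : ℂ), ξ ^ T.N = 1 := fun ξ hξ => by
    rwa [Polynomial.mem_nthRootsFinset T.N_pos] at hξ
  have e : ∫⁻ p in W, ENNReal.ofReal (‖g (T.th c (S.ζ c j) p) -
      1 / T.N * ∑ ξ ∈ nthRootsFinset T.N (1 : ℂ), d ξ p‖ ^ 2 * Real.exp (-Ψ p) *
        dn S c j p ^ 2) =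
      ∫⁻ p in W, ENNReal.ofReal (‖(1 / T.N : ℂ) * ∑ ξ ∈ nthRootsFinset T.N (1 : ℂ),
        (V (rot ξ (wc S c j p)) - d ξ p)‖ ^ 2 * (Real.exp (-Ψ p) * dn S c j p ^ 2)) := by
    refine setLIntegral_congr_fun hW.measurableSet fun p hp => ?_
    rw [h.avg c hc j p (hWO hp), Finset.sum_sub_distrib, mul_sub, mul_assoc]
  rw [e]
  have hV : ∀ ξ : ℂ, ξ ^ T.N = 1 → ContinuousOn (fun p => V (rot ξ (wc S c j p)) - d ξ p) W :=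
    fun ξ hξ => ((h.hol c hc j ξ hξ).continuousOn.mono hWO).sub (hd ξ hξ)
  have hdn : ContinuousOn (fun p => Real.exp (-Ψ p) * dn S c j p ^ 2) W := by
    refine (Real.continuous_exp.comp_continuousOn hΨ.neg).mul (ContinuousOn.pow ?_ 2)
    intro p hp
    obtain ⟨b1, b2⟩ := Og_lt S (hWO hp).1
    exact (dn_cont hc j b1 b2 (hWO hp).1.2.2.1).continuousWithinAt
  refine avg_L2 (nthRootsFinset T.N (1 : ℂ)) hW.measurableSet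
    (v := fun ξ p => V (rot ξ (wc S c j p)) - d ξ p)
    (w := fun _ p => Real.exp (-Ψ p) * dn S c j p ^ 2)
    (w₀ := fun p => Real.exp (-Ψ p) * dn S c j p ^ 2) (fun p _ => by positivity)
    (fun _ _ _ _ => le_rfl) (fun ξ hξ => ?_) (fun ξ hξ => ?_) _
  · refine ContinuousOn.aemeasurable ?_ hW.measurableSet
    exact ENNReal.continuous_ofReal.comp_continuousOn (((hV ξ (hroot ξ hξ)).norm.pow 2).mul hdn)
  · refine ne_top_of_le_ne_top (h.bd c hc j hoff ξ (hroot ξ hξ)) ?_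
    refine (setLIntegral_mono' hW.measurableSet (g := fun p => ENNReal.ofReal
      (‖V (rot ξ (wc S c j p)) - D (rot ξ (wc S c j p))‖ ^ 2 *
      Real.exp (-Φ (rot ξ (wc S c j p))) * dn S c j p ^ 2)) fun p hp => ?_).trans
      (lintegral_mono_set hWO)
    refine ENNReal.ofReal_le_ofReal ?_
    rw [hD ξ (hroot ξ hξ) p hp, ← mul_assoc]
    refine mul_le_mul_of_nonneg_right ?_ (by positivity)
    refine mul_le_mul_of_nonneg_left ?_ (by positivity)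
    exact Real.exp_le_exp.2 (neg_le_neg (hΦ ξ (hroot ξ hξ) p hp))

/-- small generic points -/
theorem ogs_ev {c : Ch T.m} (hc : T.Valid c) {p₀ : ℂ × ℂ} (h1 : ‖p₀.1‖ < S.r c)
    (h2 : ‖p₀.2‖ < S.r c) (h0 : T.map c p₀ = 0) {ρ₁ : ℝ} (hρ : 0 < ρ₁) :
    ∀ᶠ p in 𝓝 p₀, T.Gen c p → p ∈ Ogs S c ρ₁ := by
  have hr := S.pos c
  have hm := ((S.sheets c hc).map_an (p := p₀) ⟨by linarith, by linarith⟩).continuousAt
  have e1 : ∀ᶠ p : ℂ × ℂ in 𝓝 p₀, ‖p.1‖ < S.r c :=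
    continuousAt_fst.norm.eventually (gt_mem_nhds h1)
  have e2 : ∀ᶠ p : ℂ × ℂ in 𝓝 p₀, ‖p.2‖ < S.r c :=
    continuousAt_snd.norm.eventually (gt_mem_nhds h2)
  have e3 : ∀ᶠ p : ℂ × ℂ in 𝓝 p₀, ‖(T.map c p).1‖ < ρ₁ := by
    refine hm.fst.norm.eventually (gt_mem_nhds ?_)
    show ‖(T.map c p₀).1‖ < ρ₁
    rw [h0]; simpa using hρ
  have e4 : ∀ᶠ p : ℂ × ℂ in 𝓝 p₀, ‖(T.map c p).2‖ < ρ₁ := by
    refine hm.snd.norm.eventually (gt_mem_nhds ?_)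
    show ‖(T.map c p₀).2‖ < ρ₁
    rw [h0]; simpa using hρ
  filter_upwards [e1, e2, e3, e4] with p a1 a2 a3 a4 hg
  exact ⟨⟨a1, a2, hg, a3⟩, a4⟩

/-- `g ∘ th` is analytic at the special fibre -/
theorem HT.an_th {g V D : (Fin 3 → ℂ) → ℂ} {Φ : (Fin 3 → ℂ) → ℝ} {ρ₁ : ℝ} (h : HT S g V D Φ ρ₁)
    {c : Ch T.m} (hc : T.Valid c) (j : Fin T.d) {p₀ : ℂ × ℂ} (h1 : ‖p₀.1‖ < S.r c)
    (h2 : ‖p₀.2‖ < S.r c) (h0 : T.map c p₀ = 0) :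
    AnalyticAt ℂ (fun p => g (T.th c (S.ζ c j) p)) p₀ := by
  have hr := S.pos c
  have hb : p₀ ∈ AJ387.BD (2 * S.r c) (2 * S.r c) := ⟨by linarith, by linarith⟩
  have e : T.th c (S.ζ c j) p₀ = 0 := by
    rw [(S.sheets c hc).th_zero hc j hb, ← T.map_eq_zero hc]
    exact h0
  exact h.an.comp_of_eq ((S.sheets c hc).th_an j hb) e

/-- **orders** at `(0, z)` -/
theorem HT.order {U : Tub T} {L : Lab U S} {nu : II U → ℤ} {n1 n2 : Ch T.m → Fin T.d → ℤ}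
    (J : Jac L nu n1 n2) {g V D : (Fin 3 → ℂ) → ℂ} {Φ : (Fin 3 → ℂ) → ℝ} {ρ₁ : ℝ}
    (h : HT S g V D Φ ρ₁) {c : Ch T.m} (hc : Ok S c) (j : Fin T.d)
    (hoff : ∀ p ∈ Ogs S c ρ₁, ∀ i, (T.map c p).2 ≠ T.φ i ((T.map c p).1 ^ T.M))
    {z : ℂ} (hz : z ≠ 0 ∨ IsV c) (hzr : ‖z‖ < S.r c) (h0 : T.map c (0, z) = 0)
    {d : ℂ → ℂ × ℂ → ℂ} (hd : ∀ ξ : ℂ, ξ ^ T.N = 1 → AnalyticAt ℂ (d ξ) (0, z))
    (hD : ∀ ξ : ℂ, ξ ^ T.N = 1 → ∀ᶠ p in 𝓝 ((0 : ℂ), z), T.Gen c p →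
      D (rot ξ (wc S c j p)) = d ξ p) {y C : ℝ}
    (hΦ : ∀ ξ : ℂ, ξ ^ T.N = 1 → ∀ᶠ p in 𝓝 ((0 : ℂ), z), T.Gen c p →
      Φ (rot ξ (wc S c j p)) ≤ y * Real.log (‖p.1‖ ^ 2) + C) :
    ∃ (n : ℕ) (H : ℂ × ℂ → ℂ), y + n1 c j < n ∧ AnalyticAt ℂ H (0, z) ∧
      ∀ᶠ p in 𝓝 ((0 : ℂ), z), g (T.th c (S.ζ c j) p) -
        1 / T.N * ∑ ξ ∈ nthRootsFinset T.N (1 : ℂ), d ξ p = p.1 ^ n * H p := by
  have hroot : ∀ ξ ∈ nthRootsFinset T.N (1 : ℂ), ξ ^ T.N = 1 := fun ξ hξ => by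
    rwa [Polynomial.mem_nthRootsFinset T.N_pos] at hξ
  have hall : ∀ᶠ p in 𝓝 ((0 : ℂ), z), ∀ ξ ∈ nthRootsFinset T.N (1 : ℂ),
      AnalyticAt ℂ (d ξ) p ∧ (T.Gen c p → D (rot ξ (wc S c j p)) = d ξ p ∧
        Φ (rot ξ (wc S c j p)) ≤ y * Real.log (‖p.1‖ ^ 2) + C) := by
    rw [Filter.eventually_all_finset]
    intro ξ hξ
    filter_upwards [(hd ξ (hroot ξ hξ)).eventually_analyticAt, hD ξ (hroot ξ hξ),
      hΦ ξ (hroot ξ hξ)] with p q1 q2 q3 using ⟨q1, fun hg => ⟨q2 hg, q3 hg⟩⟩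
  have hogs := ogs_ev (S := S) hc.1 (p₀ := ((0 : ℂ), z)) (by simpa using S.pos c) hzr h0 h.pos
  obtain ⟨A, hA, hAo, hA0⟩ := eventually_nhds_iff.1 (hall.and hogs)
  set W : Set (ℂ × ℂ) := A ∩ {p | T.Gen c p} with hW
  have hWo : IsOpen W := hAo.inter (isOpen_gen c)
  have hroot' : ∀ ξ : ℂ, ξ ^ T.N = 1 → ξ ∈ nthRootsFinset T.N (1 : ℂ) := fun ξ hξ => by
    rwa [Polynomial.mem_nthRootsFinset T.N_pos]
  have h1 : ∀ p ∈ W, p.1 ≠ 0 := by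
    rintro p ⟨-, hg⟩
    revert hg
    cases c with
    | edge i k k' => exact fun h => h.1
    | leg i => exact fun h => h.1
    | vert i k w₀ => exact fun h => h
  have hΨ : ContinuousOn (fun p : ℂ × ℂ => y * Real.log (‖p.1‖ ^ 2) + C) W := by
    intro p hp
    have : ‖p.1‖ ^ 2 ≠ 0 := pow_ne_zero _ (norm_ne_zero_iff.2 (h1 p hp))
    exact ((continuousAt_const.mul ((continuousAt_fst.norm.pow 2).log this)).add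
      continuousAt_const).continuousWithinAt
  have key := h.l2 hc.1 j hoff hWo (fun p hp => (hA p hp.1).2 hp.2) (d := d)
    (fun ξ hξ p hp => (((hA p hp.1).1 ξ (hroot' ξ hξ)).1.continuousAt).continuousWithinAt)
    (fun ξ hξ p hp => (((hA p hp.1).1 ξ (hroot' ξ hξ)).2 hp.2).1) hΨ
    (fun ξ hξ p hp => (((hA p hp.1).1 ξ (hroot' ξ hξ)).2 hp.2).2)
  refine bp_order J hc j hz hzr (O := W) ?_ ?_ (Φ := fun p => y * Real.log (‖p.1‖ ^ 2) + C)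
    (Eventually.of_forall fun p _ => le_rfl) key
  · filter_upwards [hAo.mem_nhds hA0] with p hp hg using ⟨hp, hg⟩
  · refine (h.an_th hc.1 j (by simpa using S.pos c) hzr h0).sub (analyticAt_const.mul ?_)
    exact Finset.analyticAt_fun_sum _ fun ξ hξ => hd ξ (hroot ξ hξ)

/-- orders, no data -/
theorem HT.order0 {U : Tub T} {L : Lab U S} {nu : II U → ℤ} {n1 n2 : Ch T.m → Fin T.d → ℤ}
    (J : Jac L nu n1 n2) {g V D : (Fin 3 → ℂ) → ℂ} {Φ : (Fin 3 → ℂ) → ℝ} {ρ₁ : ℝ}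
    (h : HT S g V D Φ ρ₁) {c : Ch T.m} (hc : Ok S c) (j : Fin T.d)
    (hoff : ∀ p ∈ Ogs S c ρ₁, ∀ i, (T.map c p).2 ≠ T.φ i ((T.map c p).1 ^ T.M))
    {z : ℂ} (hz : z ≠ 0 ∨ IsV c) (hzr : ‖z‖ < S.r c) (h0 : T.map c (0, z) = 0)
    (hD : ∀ ξ : ℂ, ξ ^ T.N = 1 → ∀ᶠ p in 𝓝 ((0 : ℂ), z), T.Gen c p →
      D (rot ξ (wc S c j p)) = 0) {y C : ℝ}
    (hΦ : ∀ ξ : ℂ, ξ ^ T.N = 1 → ∀ᶠ p in 𝓝 ((0 : ℂ), z), T.Gen c p →
      Φ (rot ξ (wc S c j p)) ≤ y * Real.log (‖p.1‖ ^ 2) + C) :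
    ∃ (n : ℕ) (H : ℂ × ℂ → ℂ), y + n1 c j < n ∧ AnalyticAt ℂ H (0, z) ∧
      ∀ᶠ p in 𝓝 ((0 : ℂ), z), g (T.th c (S.ζ c j) p) = p.1 ^ n * H p := by
  obtain ⟨n, H, h1, h2, h3⟩ := h.order J hc j hoff hz hzr h0 (d := fun _ _ => 0)
    (fun _ _ => analyticAt_const) hD hΦ
  refine ⟨n, H, h1, h2, ?_⟩
  filter_upwards [h3] with p hp
  rw [← hp]
  simp

/-- orders with data of order `m ≤ y + n1` -/
theorem HT.exact {U : Tub T} {L : Lab U S} {nu : II U → ℤ} {n1 n2 : Ch T.m → Fin T.d → ℤ}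
    (J : Jac L nu n1 n2) {g V D : (Fin 3 → ℂ) → ℂ} {Φ : (Fin 3 → ℂ) → ℝ} {ρ₁ : ℝ}
    (h : HT S g V D Φ ρ₁) {c : Ch T.m} (hc : Ok S c) (j : Fin T.d)
    (hoff : ∀ p ∈ Ogs S c ρ₁, ∀ i, (T.map c p).2 ≠ T.φ i ((T.map c p).1 ^ T.M))
    {z : ℂ} (hz : z ≠ 0 ∨ IsV c) (hzr : ‖z‖ < S.r c) (h0 : T.map c (0, z) = 0)
    {m : ℕ} {e : ℂ → ℂ × ℂ → ℂ} (he : ∀ ξ : ℂ, ξ ^ T.N = 1 → AnalyticAt ℂ (e ξ) (0, z))
    (hD : ∀ ξ : ℂ, ξ ^ T.N = 1 → ∀ᶠ p in 𝓝 ((0 : ℂ), z), T.Gen c p →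
      D (rot ξ (wc S c j p)) = p.1 ^ m * e ξ p) {y C : ℝ} (hm : (m : ℝ) ≤ y + n1 c j)
    (hΦ : ∀ ξ : ℂ, ξ ^ T.N = 1 → ∀ᶠ p in 𝓝 ((0 : ℂ), z), T.Gen c p →
      Φ (rot ξ (wc S c j p)) ≤ y * Real.log (‖p.1‖ ^ 2) + C) :
    ∃ H : ℂ × ℂ → ℂ, AnalyticAt ℂ H (0, z) ∧
      (∀ᶠ p in 𝓝 ((0 : ℂ), z), g (T.th c (S.ζ c j) p) = p.1 ^ m * H p) ∧
      H (0, z) = 1 / T.N * ∑ ξ ∈ nthRootsFinset T.N (1 : ℂ), e ξ (0, z) := by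
  have hroot : ∀ ξ ∈ nthRootsFinset T.N (1 : ℂ), ξ ^ T.N = 1 := fun ξ hξ => by
    rwa [Polynomial.mem_nthRootsFinset T.N_pos] at hξ
  obtain ⟨n, H, h1, h2, h3⟩ := h.order J hc j hoff hz hzr h0 (d := fun ξ p => p.1 ^ m * e ξ p)
    (fun ξ hξ => (analyticAt_fst.pow _).mul (he ξ hξ)) hD hΦ
  have hmn : m < n := by exact_mod_cast hm.trans_lt h1
  refine ⟨fun p => 1 / T.N * ∑ ξ ∈ nthRootsFinset T.N (1 : ℂ), e ξ p + p.1 ^ (n - m) * H p,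
    ?_, ?_, ?_⟩
  · exact (analyticAt_const.mul (Finset.analyticAt_fun_sum _ fun ξ hξ => he ξ (hroot ξ hξ))).add
      ((analyticAt_fst.pow _).mul h2)
  · filter_upwards [h3] with p hp
    have e1 : p.1 ^ n = p.1 ^ m * p.1 ^ (n - m) := by rw [← pow_add, Nat.add_sub_cancel' hmn.le]
    have e2 : ∑ ξ ∈ nthRootsFinset T.N (1 : ℂ), p.1 ^ m * e ξ p =
      p.1 ^ m * ∑ ξ ∈ nthRootsFinset T.N (1 : ℂ), e ξ p := by rw [Finset.mul_sum]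
    rw [e2, e1] at hp
    linear_combination hp
  · show 1 / (T.N : ℂ) * ∑ ξ ∈ nthRootsFinset T.N (1 : ℂ), e ξ (0, z) +
      (0 : ℂ) ^ (n - m) * H (0, z) = _
    rw [zero_pow (by omega), zero_mul, add_zero]

/-- **kills** at the origin of a chart -/
theorem HT.kill {U : Tub T} {L : Lab U S} {nu : II U → ℤ} {n1 n2 : Ch T.m → Fin T.d → ℤ}
    (J : Jac L nu n1 n2) {g V D : (Fin 3 → ℂ) → ℂ} {Φ : (Fin 3 → ℂ) → ℝ} {ρ₁ : ℝ}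
    (h : HT S g V D Φ ρ₁) {c : Ch T.m} (hc : Ok S c) (j : Fin T.d)
    (hoff : ∀ p ∈ Ogs S c ρ₁, ∀ i, (T.map c p).2 ≠ T.φ i ((T.map c p).1 ^ T.M))
    {a b : ℕ} (ha : 0 < a) (hb : 0 < b) {m₁ m₂ : ℕ} {κ : ℂ → ℂ}
    (hD : ∀ ξ : ℂ, ξ ^ T.N = 1 → ∀ᶠ p in 𝓝 ((0 : ℂ), (0 : ℂ)), p.1 ≠ 0 → p.2 ≠ 0 →
      D (rot ξ (wc S c j p)) = κ ξ * (p.1 ^ m₁ * p.2 ^ m₂)) {y₁ y₂ t C : ℝ} (ht : 0 ≤ t)
    (hΦ : ∀ ξ : ℂ, ξ ^ T.N = 1 → ∀ᶠ p in 𝓝 ((0 : ℂ), (0 : ℂ)), p.1 ≠ 0 → p.2 ≠ 0 →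
      Φ (rot ξ (wc S c j p)) ≤ y₁ * Real.log (‖p.1‖ ^ 2) + y₂ * Real.log (‖p.2‖ ^ 2) +
        t * Real.log (‖p.1‖ ^ (2 * b) + ‖p.2‖ ^ (2 * a)) + C)
    (hm : (a : ℝ) * m₁ + b * m₂ ≤ a * (y₁ + n1 c j) + b * (y₂ + n2 c j) + a * b * t)
    {H : ℂ × ℂ → ℂ} (hH : ContinuousAt H (0, 0))
    (hu : ∀ᶠ p in 𝓝 ((0 : ℂ), (0 : ℂ)), p.1 ≠ 0 → p.2 ≠ 0 →
      g (T.th c (S.ζ c j) p) = p.1 ^ m₁ * p.2 ^ m₂ * H p) :
    H (0, 0) = 1 / T.N * ∑ ξ ∈ nthRootsFinset T.N (1 : ℂ), κ ξ := by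
  have hroot : ∀ ξ ∈ nthRootsFinset T.N (1 : ℂ), ξ ^ T.N = 1 := fun ξ hξ => by
    rwa [Polynomial.mem_nthRootsFinset T.N_pos] at hξ
  have hroot' : ∀ ξ : ℂ, ξ ^ T.N = 1 → ξ ∈ nthRootsFinset T.N (1 : ℂ) := fun ξ hξ => by
    rwa [Polynomial.mem_nthRootsFinset T.N_pos]
  set Ψ : ℂ × ℂ → ℝ := fun p => y₁ * Real.log (‖p.1‖ ^ 2) + y₂ * Real.log (‖p.2‖ ^ 2) +
        t * Real.log (‖p.1‖ ^ (2 * b) + ‖p.2‖ ^ (2 * a)) + C with hΨd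
  have hall : ∀ᶠ p in 𝓝 ((0 : ℂ), (0 : ℂ)), ∀ ξ ∈ nthRootsFinset T.N (1 : ℂ),
      (p.1 ≠ 0 → p.2 ≠ 0 → D (rot ξ (wc S c j p)) = κ ξ * (p.1 ^ m₁ * p.2 ^ m₂) ∧
        Φ (rot ξ (wc S c j p)) ≤ Ψ p) := by
    rw [Filter.eventually_all_finset]
    intro ξ hξ
    filter_upwards [hD ξ (hroot ξ hξ), hΦ ξ (hroot ξ hξ)] with p q2 q3 n1' n2'
      using ⟨q2 n1' n2', q3 n1' n2'⟩
  have h0 : T.map c (0, 0) = 0 := by
    rw [T.map_eq_zero hc.1]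
    cases c with
    | edge i k k' => right; rfl
    | leg i => rfl
    | vert i k w₀ => rfl
  have hr := S.pos c
  have hogs := ogs_ev (S := S) hc.1 (p₀ := ((0 : ℂ), (0 : ℂ))) (by simpa using hr)
    (by simpa using hr) h0 h.pos
  obtain ⟨A, hA, hAo, hA0⟩ := eventually_nhds_iff.1 (hall.and hogs)
  have hG : IsOpen {p : ℂ × ℂ | p.1 ≠ 0 ∧ p.2 ≠ 0} :=
    (isOpen_ne.preimage continuous_fst).inter (isOpen_ne.preimage continuous_snd)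
  set W : Set (ℂ × ℂ) := A ∩ {p | p.1 ≠ 0 ∧ p.2 ≠ 0} with hW
  have hWo : IsOpen W := hAo.inter hG
  have hΨ : ContinuousOn Ψ W := by
    rintro p ⟨-, hp1, hp2⟩
    have e1 : ‖p.1‖ ^ 2 ≠ 0 := pow_ne_zero _ (norm_ne_zero_iff.2 hp1)
    have e2 : ‖p.2‖ ^ 2 ≠ 0 := pow_ne_zero _ (norm_ne_zero_iff.2 hp2)
    have e3 : ‖p.1‖ ^ (2 * b) + ‖p.2‖ ^ (2 * a) ≠ 0 := by
      have := norm_pos_iff.2 hp1
      positivity
    exact ((((continuousAt_const.mul ((continuousAt_fst.norm.pow 2).log e1)).add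
      (continuousAt_const.mul ((continuousAt_snd.norm.pow 2).log e2))).add
      (continuousAt_const.mul (((continuousAt_fst.norm.pow _).add
        (continuousAt_snd.norm.pow _)).log e3))).add continuousAt_const).continuousWithinAt
  have key := h.l2 hc.1 j hoff hWo (fun p hp => (hA p hp.1).2 (gen_of c hp.2.1 hp.2.2))
    (d := fun ξ p => κ ξ * (p.1 ^ m₁ * p.2 ^ m₂))
    (fun ξ hξ => by fun_prop)
    (fun ξ hξ p hp => ((hA p hp.1).1 ξ (hroot' ξ hξ) hp.2.1 hp.2.2).1) hΨ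
    (fun ξ hξ p hp => ((hA p hp.1).1 ξ (hroot' ξ hξ) hp.2.1 hp.2.2).2)
  refine bp_kill J hc j ha hb (O := W) ?_ hH hu
    (D := fun p => 1 / T.N * ∑ ξ ∈ nthRootsFinset T.N (1 : ℂ), κ ξ * (p.1 ^ m₁ * p.2 ^ m₂))
    (Eventually.of_forall fun p _ _ => ?_) (Φ := Ψ) ht
    (Eventually.of_forall fun p _ _ => le_rfl) hm key
  · filter_upwards [hAo.mem_nhds hA0] with p hp h1 h2 using ⟨hp, h1, h2⟩
  · rw [← Finset.sum_mul, mul_assoc]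

/-! ### the rotations -/

/-- a common constant for all rotations -/
theorem unif {P : ℂ → ℝ → Prop} (hmono : ∀ ξ C C', C ≤ C' → P ξ C → P ξ C')
    (h : ∀ ξ : ℂ, ξ ^ T.N = 1 → ∃ C, P ξ C) : ∃ C, ∀ ξ : ℂ, ξ ^ T.N = 1 → P ξ C := by
  classical
  have h' : ∀ ξ : ℂ, ∃ C, ξ ^ T.N = 1 → P ξ C := fun ξ => by
    by_cases hξ : ξ ^ T.N = 1
    · obtain ⟨C, hC⟩ := h ξ hξ; exact ⟨C, fun _ => hC⟩
    · exact ⟨0, fun h => absurd h hξ⟩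
  choose C hC using h'
  obtain ⟨M, hM⟩ := ((nthRootsFinset T.N (1 : ℂ)).image C).bddAbove
  refine ⟨M, fun ξ hξ => hmono ξ _ _ (hM ?_) (hC ξ hξ)⟩
  rw [Finset.mem_coe, Finset.mem_image]
  exact ⟨ξ, (Polynomial.mem_nthRootsFinset T.N_pos (1 : ℂ)).2 hξ, rfl⟩

/-- the chart `(c, j)`, rotated by `ξ`, is the chart `(c', j')` up to `(a, b)` -/
structure RotC (S : Sh T) (ξ : ℂ) (c : Ch T.m) (j : Fin T.d) (c' : Ch T.m) (j' : Fin T.d)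
    (a b : ℂ) : Prop where
  isV : IsV c' ↔ IsV c
  na : ‖a‖ = 1
  nb : ‖b‖ = 1
  eq : ∀ p : ℂ × ℂ, ‖p.1‖ < 2 * min (S.r c) (S.r c') → ‖p.2‖ < 2 * min (S.r c) (S.r c') →
    rot ξ (wc S c j p) = wc S c' j' (a * p.1, b * p.2)

theorem gen_iff_ne {c : Ch T.m} (hV : ¬ IsV c) (p : ℂ × ℂ) : T.Gen c p ↔ p.1 ≠ 0 ∧ p.2 ≠ 0 := by
  cases c with
  | edge i k k' => exact Iff.rfl
  | leg i => exact Iff.rfl
  | vert i k w₀ => exact absurd trivial hV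

theorem gen_iff_v {c : Ch T.m} (hV : IsV c) (p : ℂ × ℂ) : T.Gen c p ↔ p.1 ≠ 0 := by
  cases c with
  | edge i k k' => exact absurd hV (by simp [IsV])
  | leg i => exact absurd hV (by simp [IsV])
  | vert i k w₀ => exact Iff.rfl

theorem RotC.gen {ξ : ℂ} {c c' : Ch T.m} {j j' : Fin T.d} {a b : ℂ} (h : RotC S ξ c j c' j' a b)
    {p : ℂ × ℂ} (hp : T.Gen c p) : T.Gen c' (a * p.1, b * p.2) := by
  have ha : a ≠ 0 := norm_ne_zero_iff.1 (by rw [h.na]; exact one_ne_zero)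
  have hb : b ≠ 0 := norm_ne_zero_iff.1 (by rw [h.nb]; exact one_ne_zero)
  by_cases hV : IsV c
  · rw [gen_iff_v hV] at hp
    rw [gen_iff_v (h.isV.2 hV)]
    exact mul_ne_zero ha hp
  · rw [gen_iff_ne hV] at hp
    rw [gen_iff_ne fun h' => hV (h.isV.1 h')]
    exact ⟨mul_ne_zero ha hp.1, mul_ne_zero hb hp.2⟩

/-- transport of local properties by rotations -/
theorem RotC.ev {ξ : ℂ} {c c' : Ch T.m} {j j' : Fin T.d} {a b : ℂ} (h : RotC S ξ c j c' j' a b)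
    {p₀ : ℂ × ℂ} (h1 : ‖p₀.1‖ < 2 * min (S.r c) (S.r c'))
    (h2 : ‖p₀.2‖ < 2 * min (S.r c) (S.r c')) {P : (Fin 3 → ℂ) → ℂ × ℂ → Prop}
    (hP : ∀ᶠ p in 𝓝 ((a * p₀.1, b * p₀.2) : ℂ × ℂ), T.Gen c' p → P (wc S c' j' p) p) :
    ∀ᶠ p in 𝓝 p₀, T.Gen c p → P (rot ξ (wc S c j p)) (a * p.1, b * p.2) := by
  have hT : Tendsto (fun p : ℂ × ℂ => ((a * p.1, b * p.2) : ℂ × ℂ)) (𝓝 p₀)
      (𝓝 ((a * p₀.1, b * p₀.2) : ℂ × ℂ)) := by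
    have : Continuous (fun p : ℂ × ℂ => ((a * p.1, b * p.2) : ℂ × ℂ)) := by fun_prop
    exact this.tendsto _
  have e1 : ∀ᶠ p : ℂ × ℂ in 𝓝 p₀, ‖p.1‖ < 2 * min (S.r c) (S.r c') :=
    continuousAt_fst.norm.eventually (gt_mem_nhds h1)
  have e2 : ∀ᶠ p : ℂ × ℂ in 𝓝 p₀, ‖p.2‖ < 2 * min (S.r c) (S.r c') :=
    continuousAt_snd.norm.eventually (gt_mem_nhds h2)
  filter_upwards [hT.eventually hP, e1, e2] with p q1 q2 q3 hg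
  rw [h.eq p q2 q3]
  exact q1 (h.gen hg)

theorem map_fst_zero (c : Ch T.m) (z : ℂ) : (T.map c (0, z)).1 = 0 := by
  cases c with
  | edge i k k' => exact zero_mul _
  | leg i => rfl
  | vert i k w₀ => rfl

/-- small generic points, first coordinate only -/
theorem og_ev {c : Ch T.m} (hc : T.Valid c) {p₀ : ℂ × ℂ} (h1 : ‖p₀.1‖ < S.r c)
    (h2 : ‖p₀.2‖ < S.r c) (h0 : (T.map c p₀).1 = 0) {ρ₁ : ℝ} (hρ : 0 < ρ₁) :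
    ∀ᶠ p in 𝓝 p₀, T.Gen c p → p ∈ Og (S := S) c ρ₁ := by
  have hr := S.pos c
  have hm := ((S.sheets c hc).map_an (p := p₀) ⟨by linarith, by linarith⟩).continuousAt
  have e1 : ∀ᶠ p : ℂ × ℂ in 𝓝 p₀, ‖p.1‖ < S.r c :=
    continuousAt_fst.norm.eventually (gt_mem_nhds h1)
  have e2 : ∀ᶠ p : ℂ × ℂ in 𝓝 p₀, ‖p.2‖ < S.r c :=
    continuousAt_snd.norm.eventually (gt_mem_nhds h2)
  have e3 : ∀ᶠ p : ℂ × ℂ in 𝓝 p₀, ‖(T.map c p).1‖ < ρ₁ := by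
    refine hm.fst.norm.eventually (gt_mem_nhds ?_)
    show ‖(T.map c p₀).1‖ < ρ₁
    rw [h0]; simpa using hρ
  filter_upwards [e1, e2, e3] with p a1 a2 a3 hg
  exact ⟨a1, a2, hg, a3⟩

/-- the upper bound of `Φ` for the rotated chart -/
theorem RotC.le {ξ : ℂ} {c c' : Ch T.m} {j j' : Fin T.d} {a b : ℂ} (h : RotC S ξ c j c' j' a b)
    (hc' : T.Valid c') {z : ℂ} (hz : ‖z‖ < S.r c) (hz' : ‖z‖ < S.r c') {Φ : (Fin 3 → ℂ) → ℝ}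
    {ρ₀ Y₁ Y₂ C : ℝ} (hρ : 0 < ρ₀) (hY : z ≠ 0 ∨ Y₂ = 0)
    (hup : ∀ p ∈ Og (S := S) c' ρ₀, Φ (wc S c' j' p) ≤ Y₁ * Real.log (‖p.1‖ ^ 2) +
      Y₂ * Real.log (‖p.2‖ ^ 2) + C) :
    ∃ C', ∀ᶠ p in 𝓝 ((0 : ℂ), z), T.Gen c p →
      Φ (rot ξ (wc S c j p)) ≤ Y₁ * Real.log (‖p.1‖ ^ 2) + C' := by
  have hmin : 0 < min (S.r c) (S.r c') := lt_min (S.pos c) (S.pos c')
  have hzm : ‖z‖ < min (S.r c) (S.r c') := lt_min hz hz'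
  have hbz : ‖b * z‖ < S.r c' := by rw [norm_mul, h.nb, one_mul]; exact hz'
  have e1 := og_ev (S := S) hc' (p₀ := ((0 : ℂ), b * z)) (by simpa using S.pos c') hbz
    (map_fst_zero c' _) hρ
  have e2 := h.ev (p₀ := ((0 : ℂ), z)) (by simpa using hmin) (by linarith)
    (P := fun x q => Φ x ≤ Y₁ * Real.log (‖q.1‖ ^ 2) + Y₂ * Real.log (‖q.2‖ ^ 2) + C) (by
      rw [mul_zero]
      filter_upwards [e1] with p hp hg using hup p (hp hg))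
  simp only [norm_mul, h.na, h.nb, one_mul] at e2
  have e3 : ∃ C'', ∀ᶠ p in 𝓝 ((0 : ℂ), z), Y₂ * Real.log (‖p.2‖ ^ 2) ≤ C'' := by
    rcases hY with hY | hY
    · have hc2 : ContinuousAt (fun p : ℂ × ℂ => Y₂ * Real.log (‖p.2‖ ^ 2)) ((0 : ℂ), z) :=
        continuousAt_const.mul ((continuousAt_snd.norm.pow 2).log
          (pow_ne_zero _ (norm_ne_zero_iff.2 hY)))
      exact ⟨Y₂ * Real.log (‖z‖ ^ 2) + 1, (hc2.eventually (gt_mem_nhds (lt_add_one _))).mono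
        fun p hp => hp.le⟩
    · exact ⟨0, Eventually.of_forall fun p => by rw [hY, zero_mul]⟩
  obtain ⟨C'', e3⟩ := e3
  refine ⟨C'' + C, ?_⟩
  filter_upwards [e2, e3] with p q1 q2 hg
  have := q1 hg
  linarith

/-- **orders off the data** -/
theorem HT.lo {U : Tub T} {L : Lab U S} {nu : II U → ℤ} {n1 n2 : Ch T.m → Fin T.d → ℤ}
    (J : Jac L nu n1 n2) {g V D : (Fin 3 → ℂ) → ℂ} {Φ : (Fin 3 → ℂ) → ℝ} {ρ₁ : ℝ}
    (h : HT S g V D Φ ρ₁) {c : Ch T.m} (hc : Ok S c) (j : Fin T.d)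
    (hoff : ∀ p ∈ Ogs S c ρ₁, ∀ i, (T.map c p).2 ≠ T.φ i ((T.map c p).1 ^ T.M))
    {z : ℂ} (hz : z ≠ 0 ∨ IsV c) (hzr : ‖z‖ < S.r c) (h0 : T.map c (0, z) = 0)
    (hD : ∀ ξ : ℂ, ξ ^ T.N = 1 → ∀ᶠ p in 𝓝 ((0 : ℂ), z), T.Gen c p →
      D (rot ξ (wc S c j p)) = 0) {ρ₀ C Y₁ Y₂ : ℝ} (hρ : 0 < ρ₀)
    (hY : IsV c → Y₂ = 0)
    (hrot : ∀ ξ : ℂ, ξ ^ T.N = 1 → ∃ c' j' a b, T.Valid c' ∧ ‖z‖ < S.r c' ∧
      RotC S ξ c j c' j' a b ∧ ∀ p ∈ Og (S := S) c' ρ₀, Φ (wc S c' j' p) ≤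
        Y₁ * Real.log (‖p.1‖ ^ 2) + Y₂ * Real.log (‖p.2‖ ^ 2) + C) :
    ∃ (n : ℕ) (H : ℂ × ℂ → ℂ), Y₁ + n1 c j < n ∧ AnalyticAt ℂ H (0, z) ∧
      ∀ᶠ p in 𝓝 ((0 : ℂ), z), g (T.th c (S.ζ c j) p) = p.1 ^ n * H p := by
  obtain ⟨C', hC'⟩ := unif (T := T) (P := fun ξ C' => ∀ᶠ p in 𝓝 ((0 : ℂ), z), T.Gen c p →
      Φ (rot ξ (wc S c j p)) ≤ Y₁ * Real.log (‖p.1‖ ^ 2) + C')
    (fun ξ C₁ C₂ hC hP => hP.mono fun p hp hg => (hp hg).trans (by linarith))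
    (fun ξ hξ => by
      obtain ⟨c', j', a, b, h1, h2, h3, h4⟩ := hrot ξ hξ
      exact h3.le h1 hzr h2 hρ (hz.imp_right hY) h4)
  exact h.order0 J hc j hoff hz hzr h0 hD hC'

/-- the bound at a kill for the rotated chart -/
theorem RotC.le_kill {ξ : ℂ} {c c' : Ch T.m} {j j' : Fin T.d} {a b : ℂ}
    (h : RotC S ξ c j c' j' a b) (hc' : T.Valid c') {Φ : (Fin 3 → ℂ) → ℝ} {Ψ : ℝ → ℝ → ℝ}
    {ρ₀ r₁ : ℝ} (hρ : 0 < ρ₀) (hr₁ : 0 < r₁)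
    (hup : ∀ p ∈ Og (S := S) c' ρ₀, ‖p.1‖ < r₁ → ‖p.2‖ < r₁ →
      Φ (wc S c' j' p) ≤ Ψ ‖p.1‖ ‖p.2‖) :
    ∀ᶠ p in 𝓝 ((0 : ℂ), (0 : ℂ)), p.1 ≠ 0 → p.2 ≠ 0 →
      Φ (rot ξ (wc S c j p)) ≤ Ψ ‖p.1‖ ‖p.2‖ := by
  have hmin : 0 < min (S.r c) (S.r c') := lt_min (S.pos c) (S.pos c')
  have e1 := og_ev (S := S) hc' (p₀ := ((0 : ℂ), (0 : ℂ))) (by simpa using S.pos c')
    (by simpa using S.pos c') (map_fst_zero c' _) hρ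
  have e3 : ∀ᶠ p : ℂ × ℂ in 𝓝 ((0 : ℂ), (0 : ℂ)), ‖p.1‖ < r₁ :=
    continuousAt_fst.norm.eventually (gt_mem_nhds (by simpa using hr₁))
  have e4 : ∀ᶠ p : ℂ × ℂ in 𝓝 ((0 : ℂ), (0 : ℂ)), ‖p.2‖ < r₁ :=
    continuousAt_snd.norm.eventually (gt_mem_nhds (by simpa using hr₁))
  have e2 := h.ev (p₀ := ((0 : ℂ), (0 : ℂ))) (by simpa using hmin) (by simpa using hmin)
    (P := fun x q => Φ x ≤ Ψ ‖q.1‖ ‖q.2‖) (by
      simp only [mul_zero]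
      filter_upwards [e1, e3, e4] with p q1 q2 q3 hg using hup p (q1 hg) q2 q3)
  simp only [norm_mul, h.na, h.nb, one_mul] at e2
  filter_upwards [e2] with p hp n1 n2 using hp (gen_of c n1 n2)

/-- the data at a kill for the rotated chart -/
theorem RotC.dat_kill {ξ : ℂ} {c c' : Ch T.m} {j j' : Fin T.d} {a b : ℂ}
    (h : RotC S ξ c j c' j' a b) {D : (Fin 3 → ℂ) → ℂ} {m₁ m₂ : ℕ}
    (hD : ∀ᶠ p in 𝓝 ((0 : ℂ), (0 : ℂ)), T.Gen c' p →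
      D (wc S c' j' p) = p.1 ^ m₁ * p.2 ^ m₂) :
    ∀ᶠ p in 𝓝 ((0 : ℂ), (0 : ℂ)), p.1 ≠ 0 → p.2 ≠ 0 →
      D (rot ξ (wc S c j p)) = (a ^ m₁ * b ^ m₂) * (p.1 ^ m₁ * p.2 ^ m₂) := by
  have hmin : 0 < min (S.r c) (S.r c') := lt_min (S.pos c) (S.pos c')
  have e2 := h.ev (p₀ := ((0 : ℂ), (0 : ℂ))) (by simpa using hmin) (by simpa using hmin)
    (P := fun x q => D x = q.1 ^ m₁ * q.2 ^ m₂) (by simpa only [mul_zero] using hD)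
  filter_upwards [e2] with p hp n1 n2
  rw [hp (gen_of c n1 n2)]
  ring

/-- average of `1` over the rotations -/
theorem avg_one : (1 / T.N : ℂ) * ∑ _ξ ∈ nthRootsFinset T.N (1 : ℂ), (1 : ℂ) = 1 := by
  have h1 : (nthRootsFinset T.N (1 : ℂ)).card = T.N :=
    (Complex.isPrimitiveRoot_exp T.N T.N_pos.ne').card_nthRootsFinset
  rw [Finset.sum_const, h1, nsmul_eq_mul, mul_one]
  have : (T.N : ℂ) ≠ 0 := Nat.cast_ne_zero.2 T.N_pos.ne'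
  field_simp

/-- **kills**, with data equal to `α ^ m₁ * β ^ m₂` in all rotated charts and exponents killing the
rotations -/
theorem HT.kill_rot {U : Tub T} {L : Lab U S} {nu : II U → ℤ} {n1 n2 : Ch T.m → Fin T.d → ℤ}
    (J : Jac L nu n1 n2) {g V D : (Fin 3 → ℂ) → ℂ} {Φ : (Fin 3 → ℂ) → ℝ} {ρ₁ : ℝ}
    (h : HT S g V D Φ ρ₁) {c : Ch T.m} (hc : Ok S c) (j : Fin T.d)
    (hoff : ∀ p ∈ Ogs S c ρ₁, ∀ i, (T.map c p).2 ≠ T.φ i ((T.map c p).1 ^ T.M))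
    {a b : ℕ} (ha : 0 < a) (hb : 0 < b) {m₁ m₂ : ℕ} {y₁ y₂ t C ρ₀ r₁ : ℝ} (ht : 0 ≤ t)
    (hρ : 0 < ρ₀) (hr₁ : 0 < r₁)
    (hrot : ∀ ξ : ℂ, ξ ^ T.N = 1 → ∃ c' j' a' b', T.Valid c' ∧ RotC S ξ c j c' j' a' b' ∧
      a' ^ m₁ * b' ^ m₂ = 1 ∧
      (∀ᶠ p in 𝓝 ((0 : ℂ), (0 : ℂ)), T.Gen c' p → D (wc S c' j' p) = p.1 ^ m₁ * p.2 ^ m₂) ∧
      ∀ p ∈ Og (S := S) c' ρ₀, ‖p.1‖ < r₁ → ‖p.2‖ < r₁ → Φ (wc S c' j' p) ≤
        y₁ * Real.log (‖p.1‖ ^ 2) + y₂ * Real.log (‖p.2‖ ^ 2) +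
          t * Real.log (‖p.1‖ ^ (2 * b) + ‖p.2‖ ^ (2 * a)) + C)
    (hm : (a : ℝ) * m₁ + b * m₂ ≤ a * (y₁ + n1 c j) + b * (y₂ + n2 c j) + a * b * t)
    {H : ℂ × ℂ → ℂ} (hH : ContinuousAt H (0, 0))
    (hu : ∀ᶠ p in 𝓝 ((0 : ℂ), (0 : ℂ)), p.1 ≠ 0 → p.2 ≠ 0 →
      g (T.th c (S.ζ c j) p) = p.1 ^ m₁ * p.2 ^ m₂ * H p) :
    H (0, 0) = 1 := by
  rw [h.kill J hc j hoff ha hb (κ := fun _ => 1) ?_ ht (C := C) ?_ hm hH hu]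
  · exact avg_one
  · intro ξ hξ
    obtain ⟨c', j', a', b', h1, h2, h3, h4, h5⟩ := hrot ξ hξ
    filter_upwards [h2.dat_kill h4] with p hp n1' n2'
    rw [hp n1' n2', h3]
  · intro ξ hξ
    obtain ⟨c', j', a', b', h1, h2, h3, h4, h5⟩ := hrot ξ hξ
    exact h2.le_kill h1 (Ψ := fun x y => y₁ * Real.log (x ^ 2) + y₂ * Real.log (y ^ 2) +
      t * Real.log (x ^ (2 * b) + y ^ (2 * a)) + C) hρ hr₁ h5

end Crest.Agent.R257.OrdK_82
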