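import Crest.Agent.R273.Dir0_73
import Crest.Agent.R271.Rd8_692
import Crest.Agent.R276.Area_448
import Crest.Agent.R276.OTS_189
import Crest.Agent.R273.OTX_34
import Crest.Agent.R276.LPsh_29
import Crest.Agent.R271.G3a_792
import Crest.Agent.R271.RExt2_747
import Crest.Agent.R271.Null_821

-- ▼ part R257/OtKA_331
section

/-!
# Row 257, leaf D-OT (helper331), file A: the Riemann domain `{x ∈ P(R) | ∂₀h ≠ 0}` with the
coordinates `(h, x₁, …, xₙ)`
-/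

set_option autoImplicit false
set_option linter.unusedSectionVars false

noncomputable section

open Set Filter Topology MeasureTheory
open scoped ENNReal

namespace Crest.Agent.R257.OtK_331

open Crest.Agent.R271 Crest.Agent.R271.Ho51 Crest.Agent.R273.Dir73

variable {n : ℕ}

/-- polydisc -/
def Pd {m : ℕ} (R : Fin m → ℝ) : Set (Fin m → ℂ) := {x | ∀ i, ‖x i‖ < R i}

lemma isOpen_Pd {m : ℕ} (R : Fin m → ℝ) : IsOpen (Pd R) := by
  have : Pd R = ⋂ i, {x : Fin m → ℂ | ‖x i‖ < R i} := by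
    ext x; simp [Pd]
  rw [this]
  exact isOpen_iInter_of_finite fun i =>
    isOpen_lt (continuous_apply i).norm continuous_const

/-- derivative in the direction of the coordinate `0` -/
def d0 (h : (Fin (n + 1) → ℂ) → ℂ) (x : Fin (n + 1) → ℂ) : ℂ := fderiv ℂ h x (Pi.single 0 1)

/-- a holomorphic function on a polydisc -/
structure Dat (n : ℕ) where
  /-- the radii -/
  R : Fin (n + 1) → ℝ
  /-- the function -/
  h : (Fin (n + 1) → ℂ) → ℂ
  hol : DifferentiableOn ℂ h (Pd R)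

namespace Dat

variable (d : Dat n)

/-- the open set where `∂₀ h ≠ 0` -/
def U : Set (Fin (n + 1) → ℂ) := {x | x ∈ Pd d.R ∧ d0 d.h x ≠ 0}

lemma an {x : Fin (n + 1) → ℂ} (hx : x ∈ Pd d.R) : AnalyticAt ℂ d.h x :=
  Crest.Agent.R266.SCV.analyticOnNhd_of_differentiableOn (isOpen_Pd d.R) d.hol _ hx

lemma an_d0 {x : Fin (n + 1) → ℂ} (hx : x ∈ Pd d.R) : AnalyticAt ℂ (d0 d.h) x := by
  have h1 := (d.an hx).fderiv
  exact (ContinuousLinearMap.analyticAt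
    (ContinuousLinearMap.apply ℂ ℂ (Pi.single 0 1 : Fin (n + 1) → ℂ)) _).comp h1

lemma cont_d0 : ContinuousOn (d0 d.h) (Pd d.R) := fun _ hx => (d.an_d0 hx).continuousAt.continuousWithinAt

lemma isOpen_U : IsOpen d.U := by
  have : d.U = Pd d.R ∩ (d0 d.h) ⁻¹' {0}ᶜ := by
    ext x; simp [U]
  rw [this]
  exact d.cont_d0.isOpen_inter_preimage (isOpen_Pd d.R) isOpen_compl_singleton

/-- the coordinate map -/
def Θ (x : Fin (n + 1) → ℂ) : Fin (n + 1) → ℂ := Fin.cons (d.h x) (Fin.tail x)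



lemma tail_Θ (x : Fin (n + 1) → ℂ) : Fin.tail (d.Θ x) = Fin.tail x := rfl

/-- the derivative of the coordinate map -/
def L (x : Fin (n + 1) → ℂ) : (Fin (n + 1) → ℂ) →L[ℂ] (Fin (n + 1) → ℂ) :=
  ContinuousLinearMap.pi fun i => Fin.cases (motive := fun _ => (Fin (n + 1) → ℂ) →L[ℂ] ℂ)
    (fderiv ℂ d.h x) (fun j => ContinuousLinearMap.proj (R := ℂ) j.succ) i

lemma L_zero (x v : Fin (n + 1) → ℂ) : d.L x v 0 = fderiv ℂ d.h x v := rfl

lemma L_succ (x v : Fin (n + 1) → ℂ) (j : Fin n) : d.L x v j.succ = v j.succ := rfl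

lemma hasStrict {x : Fin (n + 1) → ℂ} (hx : x ∈ Pd d.R) :
    HasStrictFDerivAt d.Θ (d.L x) x := by
  rw [hasStrictFDerivAt_pi']
  intro i
  refine Fin.cases ?_ (fun j => ?_) i
  · exact (d.an hx).hasStrictFDerivAt
  · exact (ContinuousLinearMap.proj (R := ℂ) (φ := fun _ : Fin (n + 1) => ℂ) j.succ).hasStrictFDerivAt

lemma det_L (x : Fin (n + 1) → ℂ) : (d.L x).det = d0 d.h x := by
  have h1 : (d.L x).det = (LinearMap.toMatrix' ((d.L x : (Fin (n + 1) → ℂ) →L[ℂ] (Fin (n + 1) → ℂ)) :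
      (Fin (n + 1) → ℂ) →ₗ[ℂ] (Fin (n + 1) → ℂ))).det := by
    rw [LinearMap.det_toMatrix']
  rw [h1, Matrix.det_of_isUpperTriangular, Fin.prod_univ_succ]
  · have h2 : ∀ j : Fin n, (LinearMap.toMatrix' ((d.L x : (Fin (n + 1) → ℂ) →L[ℂ] (Fin (n + 1) → ℂ)) :
      (Fin (n + 1) → ℂ) →ₗ[ℂ] (Fin (n + 1) → ℂ))) j.succ j.succ = 1 := by
      intro j
      rw [LinearMap.toMatrix'_apply]
      show d.L x _ j.succ = 1
      rw [L_succ]
      simp
    simp only [h2, Finset.prod_const_one, mul_one]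
    rw [LinearMap.toMatrix'_apply]
    show d.L x _ 0 = _
    rw [L_zero]
    rfl
  · intro i j hij
    rw [LinearMap.toMatrix'_apply]
    revert hij
    refine Fin.cases ?_ (fun k => ?_) i
    · intro h
      exact absurd h (by simp)
    · intro h
      show d.L x _ k.succ = 0
      rw [L_succ]
      have : k.succ ≠ j := fun he => by
        rw [he] at h
        exact lt_irrefl _ h
      simp [this]

/-- the derivative as an equivalence -/
def Le {x : Fin (n + 1) → ℂ} (hx : x ∈ d.U) : (Fin (n + 1) → ℂ) ≃L[ℂ] (Fin (n + 1) → ℂ) :=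
  (d.L x).toContinuousLinearEquivOfDetNeZero (by rw [det_L]; exact hx.2)

lemma coe_Le {x : Fin (n + 1) → ℂ} (hx : x ∈ d.U) :
    (d.Le hx : (Fin (n + 1) → ℂ) →L[ℂ] (Fin (n + 1) → ℂ)) = d.L x :=
  ContinuousLinearMap.coe_toContinuousLinearEquivOfDetNeZero _ _

lemma hasStrict' {x : Fin (n + 1) → ℂ} (hx : x ∈ d.U) :
    HasStrictFDerivAt d.Θ (d.Le hx : (Fin (n + 1) → ℂ) →L[ℂ] (Fin (n + 1) → ℂ)) x := by
  rw [coe_Le]; exact d.hasStrict hx.1

lemma lh : IsLocalHomeomorphOn d.Θ d.U := by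
  refine IsLocalHomeomorphOn.mk _ _ fun x hx => ?_
  refine ⟨(d.hasStrict' hx).toOpenPartialHomeomorph d.Θ,
    (d.hasStrict' hx).mem_toOpenPartialHomeomorph_source, ?_⟩
  intro y _
  rw [(d.hasStrict' hx).toOpenPartialHomeomorph_coe]

end Dat

/-- the Riemann domain -/
def MM (d : Dat n) : Type := d.U

section inst

variable {d : Dat n}

instance : TopologicalSpace (MM d) := inferInstanceAs (TopologicalSpace d.U)

instance : T2Space (MM d) := inferInstanceAs (T2Space d.U)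

instance : SecondCountableTopology (MM d) :=
  TopologicalSpace.Subtype.secondCountableTopology d.U

/-- the inclusion -/
def MM.v (x : MM d) : Fin (n + 1) → ℂ := x.1

lemma MM.mem (x : MM d) : x.v ∈ d.U := x.2

lemma MM.ext {x y : MM d} (h : x.v = y.v) : x = y := Subtype.ext h

/-- points of `MM d` -/
def mk (x : Fin (n + 1) → ℂ) (hx : x ∈ d.U) : MM d := ⟨x, hx⟩

lemma v_mk (x : Fin (n + 1) → ℂ) (hx : x ∈ d.U) : (mk x hx).v = x := rfl

lemma mk_v (x : MM d) : mk x.v x.mem = x := rfl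

lemma oe_v : IsOpenEmbedding (MM.v : MM d → _) := d.isOpen_U.isOpenEmbedding_subtypeVal

lemma cont_v : Continuous (MM.v : MM d → _) := oe_v.continuous

instance : RDom (n + 1) (MM d) where
  p := fun x => d.Θ x.v
  hp := by
    rw [isLocalHomeomorph_iff_isLocalHomeomorphOn_univ]
    exact d.lh.comp oe_v.isLocalHomeomorph.isLocalHomeomorphOn fun x _ => x.mem

lemma cp_MM (x : MM d) : cp x = d.Θ x.v := rfl

lemma hasStrict_symm {e : OpenPartialHomeomorph (MM d) (Fin (n + 1) → ℂ)} (he : IsCh e)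
    {x : MM d} (hx : x ∈ e.source) :
    HasStrictFDerivAt (MM.v ∘ e.symm)
      ((d.Le x.mem).symm : (Fin (n + 1) → ℂ) →L[ℂ] (Fin (n + 1) → ℂ)) (cp x) := by
  have h0 : (MM.v ∘ e.symm) (cp x) = x.v := by
    simp only [Function.comp_apply]; rw [he.symm_cp hx]
  refine HasStrictFDerivAt.of_local_left_inverse (f := d.Θ) ?_ ?_ ?_
  · exact cont_v.continuousAt.comp (e.symm.continuousAt (by simpa using he.cp_mem hx))
  · rw [h0]; exact d.hasStrict' x.mem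
  · filter_upwards [e.open_target.mem_nhds (he.cp_mem hx)] with z hz
    exact he.cp_symm hz

/-- holomorphic functions on the open set give holomorphic functions on the Riemann domain -/
lemma hol_v {G : (Fin (n + 1) → ℂ) → ℂ} (hG : DifferentiableOn ℂ G d.U) :
    Ho51.Hol (fun x : MM d => G x.v) := by
  refine hol_of_local fun x => ⟨ch x, isCh_ch x, mem_ch x, ?_⟩
  have h1 := (hasStrict_symm (isCh_ch x) (mem_ch x)).hasFDerivAt.differentiableAt
  have h0 : (MM.v ∘ (ch x).symm) (cp x) = x.v := by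
    simp only [Function.comp_apply]; rw [(isCh_ch x).symm_cp (mem_ch x)]
  have h2 : DifferentiableAt ℂ G ((MM.v ∘ (ch x).symm) (cp x)) := by
    rw [h0]; exact hG.differentiableAt (d.isOpen_U.mem_nhds x.mem)
  exact h2.comp (cp x) h1

open Classical in
/-- extension by zero -/
def ex (F : MM d → ℂ) (x : Fin (n + 1) → ℂ) : ℂ := if hx : x ∈ d.U then F (mk x hx) else 0

lemma ex_v (F : MM d → ℂ) (x : MM d) : ex F x.v = F x := by
  unfold ex
  rw [dif_pos x.mem, mk_v]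


lemma diff_ex {F : MM d → ℂ} (hF : Ho51.Hol F) : DifferentiableOn ℂ (ex F) d.U := by
  intro x hx
  set y : MM d := mk x hx with hy
  have he := isCh_ch y
  have h1 : DifferentiableAt ℂ (F ∘ (ch y).symm) (cp y) :=
    (hF _ he).differentiableAt ((ch y).open_target.mem_nhds (he.cp_mem (mem_ch y)))
  have h2 : DifferentiableAt ℂ ((F ∘ (ch y).symm) ∘ d.Θ) x := by
    refine DifferentiableAt.comp x ?_ (d.hasStrict hx.1).hasFDerivAt.differentiableAt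
    exact h1
  refine (h2.congr_of_eventuallyEq ?_).differentiableWithinAt
  have h3 : MM.v '' (ch y).source ∈ 𝓝 x :=
    (oe_v.isOpenMap _ (ch y).open_source).mem_nhds ⟨y, mem_ch y, rfl⟩
  filter_upwards [h3] with w hw
  obtain ⟨u, hu, rfl⟩ := hw
  rw [ex_v]
  simp only [Function.comp_apply]
  rw [← cp_MM, he.symm_cp hu]

/-! ### measures -/

variable [MeasurableSpace (MM d)] [BorelSpace (MM d)] {μ : Measure (MM d)}

lemma det_symm {x : Fin (n + 1) → ℂ} (hx : x ∈ d.U) :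
    ((d.Le hx).symm : (Fin (n + 1) → ℂ) →L[ℂ] (Fin (n + 1) → ℂ)).det = (d0 d.h x)⁻¹ := by
  have h1 : ((d.Le hx).symm : (Fin (n + 1) → ℂ) →L[ℂ] (Fin (n + 1) → ℂ)).det *
      (d.Le hx : (Fin (n + 1) → ℂ) →L[ℂ] (Fin (n + 1) → ℂ)).det = 1 := by
    simp only [ContinuousLinearMap.det]
    rw [← LinearMap.det_comp]
    have : (((d.Le hx).symm : (Fin (n + 1) → ℂ) →L[ℂ] (Fin (n + 1) → ℂ)) :
        (Fin (n + 1) → ℂ) →ₗ[ℂ] (Fin (n + 1) → ℂ)) ∘ₗ
        ((d.Le hx : (Fin (n + 1) → ℂ) →L[ℂ] (Fin (n + 1) → ℂ)) :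
        (Fin (n + 1) → ℂ) →ₗ[ℂ] (Fin (n + 1) → ℂ)) = LinearMap.id := by
      ext v i
      simp
    rw [this, LinearMap.det_id]
  rw [d.coe_Le, d.det_L] at h1
  exact eq_inv_of_mul_eq_one_left h1

theorem lint_MM (hμ : IsLeb μ) {G : (Fin (n + 1) → ℂ) → ℝ≥0∞}
    (hG : Measurable (fun x : MM d => G x.v)) :
    ∫⁻ x : MM d, G x.v ∂μ = ∫⁻ x in d.U, G x * ENNReal.ofReal (‖d0 d.h x‖ ^ 2) := by
  have hc : Continuous (fun x : MM d => d0 d.h x.v) :=
    (d.cont_d0.mono fun _ h => h.1).comp_continuous cont_v fun x => x.mem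
  have hne : ∀ x : MM d, d0 d.h x.v ≠ 0 := fun x => x.mem.2
  have hdet : (fun x : MM d => ((d.Le x.mem).symm :
      (Fin (n + 1) → ℂ) →L[ℂ] (Fin (n + 1) → ℂ)).det) = fun x => (d0 d.h x.v)⁻¹ := by
    funext x; exact det_symm x.mem
  have h1 := Crest.Agent.R276.Area_448.area (q := MM.v) (q' := fun x : MM d =>
      ((d.Le x.mem).symm : (Fin (n + 1) → ℂ) →L[ℂ] (Fin (n + 1) → ℂ))) hμ
      (fun x => hasStrict_symm (isCh_ch x) (mem_ch x)) (by rw [hdet]; exact hc.inv₀ hne)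
      (f := fun x : MM d => G x.v * ENNReal.ofReal (‖d0 d.h x.v‖ ^ 2))
      (hG.mul (hc.norm.pow 2).measurable.ennreal_ofReal)
  have h2 : ∀ x : MM d, G x.v * ENNReal.ofReal (‖d0 d.h x.v‖ ^ 2) * ENNReal.ofReal
      (‖((d.Le x.mem).symm : (Fin (n + 1) → ℂ) →L[ℂ] (Fin (n + 1) → ℂ)).det‖ ^ 2) = G x.v := by
    intro x
    rw [det_symm, mul_assoc, ← ENNReal.ofReal_mul (by positivity), norm_inv, ← mul_pow,
      mul_inv_cancel₀ (norm_ne_zero_iff.2 (hne x)), one_pow, ENNReal.ofReal_one, mul_one]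
  simp only [h2] at h1
  rw [h1, ← lintegral_indicator d.isOpen_U.measurableSet]
  refine lintegral_congr fun η => ?_
  have h3 : {x : MM d | ((d.Le x.mem).symm :
      (Fin (n + 1) → ℂ) →L[ℂ] (Fin (n + 1) → ℂ)).det ≠ 0} = univ := by
    ext x
    simp only [mem_ofPred_eq, mem_univ, iff_true]
    rw [det_symm]
    exact inv_ne_zero (hne x)
  rw [h3]
  simp only [indicator_univ]
  by_cases hη : η ∈ d.U
  · rw [indicator_of_mem hη, tsum_eq_single (⟨mk η hη, rfl⟩ : {x : MM d // MM.v x = η})]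
    · rfl
    · rintro ⟨y, hy⟩ hne'
      exact absurd (Subtype.ext (MM.ext hy)) hne'
  · rw [indicator_of_notMem hη, ENNReal.tsum_eq_zero]
    rintro ⟨y, hy⟩
    exact absurd (hy ▸ y.mem) hη

end inst

/-! ### the slice `h = 0` -/

section slice

variable {d : Dat n}

lemma ell_zero (z : Fin (n + 1) → ℂ) : ell 0 z = z 0 := by
  simp [ell]

lemma ell_MM (x : MM d) : ell 0 (cp x) = d.h x.v := by
  rw [ell_zero]; rfl

lemma cons_of {z : Fin (n + 1) → ℂ} {x' : Fin n → ℂ} (h : Fin.tail z = x') :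
    (Fin.cons (z 0) x' : Fin (n + 1) → ℂ) = z := by
  rw [← h, Fin.cons_self_tail]

/-- the points of the slice above `x'` -/
def fibEquiv (d : Dat n) (x' : Fin n → ℂ) :
    {y : Hs (MM d) 0 // cp y = x'} ≃
      {z : ℂ // (Fin.cons z x' : Fin (n + 1) → ℂ) ∈ d.U ∧ d.h (Fin.cons z x') = 0} where
  toFun := fun y => ⟨(ι y.1).v 0, by
    have h2 : (Fin.cons ((ι y.1).v 0) x' : Fin (n + 1) → ℂ) = (ι y.1).v := cons_of y.2
    rw [h2]
    exact ⟨(ι y.1).mem, by rw [← ell_MM]; exact ell_ι y.1⟩⟩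
  invFun := fun z => ⟨mkHs (mk (Fin.cons z.1 x') z.2.1) (by rw [ell_MM, v_mk]; exact z.2.2), by
    rw [cp_Hs, ι_mkHs, cp_MM, Dat.tail_Θ, v_mk, Fin.tail_cons]⟩
  left_inv := fun y => by
    apply Subtype.ext
    apply Hs_ext
    rw [ι_mkHs]
    apply MM.ext
    rw [v_mk]
    exact cons_of y.2
  right_inv := fun z => by
    apply Subtype.ext
    rfl

/-- sheet integral over `{h = 0, ∂₀h ≠ 0}` -/
def Sh (d : Dat n) (G : (Fin (n + 1) → ℂ) → ℝ≥0∞) : ℝ≥0∞ :=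
  ∫⁻ x' : Fin n → ℂ, ∑' z : {z : ℂ // (Fin.cons z x' : Fin (n + 1) → ℂ) ∈ d.U ∧
    d.h (Fin.cons z x') = 0}, G (Fin.cons z.1 x')

theorem lint_slice [MeasurableSpace (Hs (MM d) 0)] [BorelSpace (Hs (MM d) 0)]
    {μD : Measure (Hs (MM d) 0)} (hμD : IsLeb μD) {G : (Fin (n + 1) → ℂ) → ℝ≥0∞}
    (hG : Measurable (fun y : Hs (MM d) 0 => G (ι y).v)) :
    ∫⁻ y : Hs (MM d) 0, G (ι y).v ∂μD = Sh d G := by
  rw [Rd692.lintegral_eq_fibre hμD hG]
  unfold Sh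
  refine lintegral_congr fun x' => ?_
  rw [← (fibEquiv d x').tsum_eq]
  refine tsum_congr fun y => ?_
  show G (ι y.1).v = G (Fin.cons ((ι y.1).v 0) x')
  rw [cons_of (z := (ι y.1).v) (show Fin.tail (ι y.1).v = x' from y.2)]

end slice

end Crest.Agent.R257.OtK_331
end
end

-- ▼ part R257/OtKB_331
section

/-!
# Row 257, leaf D-OT (helper331), file B: Ohsawa–Takegoshi with a continuous log-psh weight, and the
`L^{2/p}` version, on a Riemann domain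
-/

set_option autoImplicit false
set_option linter.unusedSectionVars false

noncomputable section

open Set Filter Topology MeasureTheory
open scoped ENNReal

namespace Crest.Agent.R257.OtK_331

open Crest.Agent.R271 Crest.Agent.R271.Ho51 Crest.Agent.R273.Dir73 Crest.Agent.R273.OTA_34
  Crest.Agent.R273.OTD_34 Crest.Agent.R273.OTU_34 Crest.Agent.R276.EngU_29
  Crest.Agent.R276.OTS_189

variable {n : ℕ} {M : Type*} [TopologicalSpace M] [RDom (n + 1) M] {a : Fin (n + 1) → ℂ}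
variable [T2Space M] [SecondCountableTopology M] [MeasurableSpace M] [BorelSpace M]
  {μ : Measure M} [MeasurableSpace (Hs M a)] [BorelSpace (Hs M a)] {μD : Measure (Hs M a)}
  {ρ Φ Ψ : M → ℝ}

/-- the tube hypothesis of `otb` for a continuous weight -/
lemma tubeB_of (hμ : IsLeb μ) (hμD : IsLeb μD) (hρ : Continuous ρ)
    (hcpt : ∀ t : ℝ, IsCompact {x | ρ x ≤ t}) {f : M → ℂ} (hf : Continuous f)
    (hΦ : Continuous Φ) (hΨ : Continuous Ψ) {b : M → ℝ} (hb : Continuous b)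
    (hb0 : ∀ x, 0 ≤ b x) {δ : ℝ} (hδ : 0 < δ) :
    TubeB μ (fun x => ell a (cp x)) f Ψ Φ ρ (fun x => Real.log (b x + δ))
      (ENNReal.ofReal Real.pi * ∫⁻ y : Hs M a,
        ENNReal.ofReal (‖f (ι y)‖ ^ 2 * Real.exp (-Φ (ι y))) / ENNReal.ofReal (b (ι y)) ∂μD) := by
  intro c φ _ hφu K' hK'
  set v : M → ℝ := fun x => ‖f x‖ ^ 2 * Real.exp (-(Φ x + Ψ x + Real.log (b x + δ))) with hv
  have hbd : ∀ x, 0 < b x + δ := fun x => by have := hb0 x; linarith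
  have hlog : Continuous fun x => Real.log (b x + δ) :=
    (hb.add continuous_const).log fun x => (hbd x).ne'
  have hvc : Continuous v := (hf.norm.pow 2).mul
    (Real.continuous_exp.comp ((hΦ.add hΨ).add hlog).neg)
  set κ : M → ℝ := fun x => max 0 (min 1 (c + 1 - ρ x)) with hκ
  have hκc : Continuous κ :=
    continuous_const.max (continuous_const.min (continuous_const.sub hρ))
  have hκs : HasCompactSupport κ := by
    refine HasCompactSupport.intro (hcpt (c + 1)) fun x hx => ?_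
    have h1 : c + 1 < ρ x := not_le.1 hx
    simp only [hκ]
    rw [max_eq_left]
    exact (min_le_right _ _).trans (by linarith)
  have h1 := tube_le (a := a) hμ hμD hΨ hvc (fun x => by simp only [hv]; positivity) hκc hκs
    (fun x => le_max_left _ _) (fun x => max_le zero_le_one (min_le_left _ _))
    (A := {x | ρ x ≤ c}) (fun x hx => by
      have hx' : ρ x ≤ c := hx
      simp only [hκ]
      rw [min_eq_left (by linarith), max_eq_right zero_le_one])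
    (K' := K') (by
      refine lt_of_le_of_lt (mul_le_mul_right (lintegral_mono fun y => ?_) _) hK'
      have e1 : v (ι y) * Real.exp (Ψ (ι y)) =
          ‖f (ι y)‖ ^ 2 * Real.exp (-Φ (ι y)) * (b (ι y) + δ)⁻¹ := by
        simp only [hv]
        rw [show -(Φ (ι y) + Ψ (ι y) + Real.log (b (ι y) + δ)) =
          -Φ (ι y) + (-Ψ (ι y)) + (-Real.log (b (ι y) + δ)) by ring, Real.exp_add, Real.exp_add,
          Real.exp_neg (Real.log _), Real.exp_log (hbd _), Real.exp_neg (Ψ _)]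
        field_simp
      rw [e1, ENNReal.ofReal_mul (by positivity), div_eq_mul_inv,
        ENNReal.ofReal_inv_of_pos (hbd _)]
      refine mul_le_mul_right (ENNReal.inv_le_inv.2 (ENNReal.ofReal_le_ofReal (by linarith))) _)
  filter_upwards [h1] with ε hε
  refine le_trans ?_ hε
  have hset : tube (fun x => ell a (cp x)) Ψ ρ c ε ⊆
      {x | ρ x ≤ c} ∩ {x | ‖ell a (cp x)‖ ^ 2 ≤ ε ^ 2 * Real.exp (Ψ x)} := fun x hx => ⟨hx.2, hx.1⟩
  refine le_trans ?_ (lintegral_mono_set hset)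
  have hm : MeasurableSet (tube (fun x => ell a (cp x)) Ψ ρ c ε) := by
    have h2 : Continuous (fun x : M => ‖ell a (cp x)‖ ^ 2) :=
      ((continuous_ell a).comp cp_cont).norm.pow 2
    have h3 : IsClosed {x : M | ‖ell a (cp x)‖ ^ 2 ≤ ε ^ 2 * Real.exp (Ψ x)} :=
      isClosed_le h2 (continuous_const.mul (Real.continuous_exp.comp hΨ))
    exact (h3.inter (isClosed_le hρ continuous_const)).measurableSet
  refine setLIntegral_mono' hm fun x hx => ?_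
  apply ENNReal.ofReal_le_ofReal
  simp only [hv]
  have := hφu x hx.2
  gcongr

/-- **Ohsawa–Takegoshi with a continuous log-psh weight** -/
theorem ot_cont (hμ : IsLeb μ) (hμD : IsLeb μD) (hρ : Sm ρ)
    (hcpt : ∀ t : ℝ, IsCompact {x | ρ x ≤ t}) (hL : ∀ x w, nsq w ≤ Levi ρ x w) {f : M → ℂ}
    (hf : Hol f) (hΨ : Sm Ψ) (hΦ : Sm Φ) (hs : ∀ x, ‖ell a (cp x)‖ ^ 2 ≤ Real.exp (Ψ x))
    (hΨ0 : ∀ x w, 0 ≤ Levi Ψ x w) (hΦΨ : ∀ x w, Levi Ψ x w ≤ Levi Φ x w) {b : M → ℝ}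
    (hb : LPsh b) (hbc : Continuous b) {K : ℝ≥0∞} (hKt : K ≠ ∞)
    (hK : ∫⁻ y : Hs M a, ENNReal.ofReal (‖f (ι y)‖ ^ 2 * Real.exp (-Φ (ι y))) /
      ENNReal.ofReal (b (ι y)) ∂μD ≤ K) :
    ∃ F : M → ℂ, Hol F ∧ (∀ x, ell a (cp x) = 0 → F x = f x) ∧
      ∫⁻ x, ENNReal.ofReal (‖F x‖ ^ 2 * Real.exp (-(Φ x + Ψ x))) / ENNReal.ofReal (b x) ∂μ ≤
          ENNReal.ofReal (Cot 1 * Real.pi) * K := by
  have hf' := hol_of _ hf
  obtain ⟨F, hF, hFf, hFb⟩ := otb (h := fun x => ell a (cp x)) (f := f) (Ψ := Ψ) (Φ := Φ)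
    (ρ := ρ) (a := 1) (K := ENNReal.ofReal Real.pi * ∫⁻ y : Hs M a,
        ENNReal.ofReal (‖f (ι y)‖ ^ 2 * Real.exp (-Φ (ι y))) / ENNReal.ofReal (b (ι y)) ∂μD)
    hμ hρ hcpt hL (Crest.Agent.R273.OTX_34.hol_ell a) hf' hΨ hΦ hs one_pos le_rfl hΨ0
    (fun x w => by rw [one_mul]; exact hΦΨ x w) hb
    (ENNReal.mul_ne_top ENNReal.ofReal_ne_top (ne_top_of_le_ne_top hKt hK))
    (fun δ hδ => tubeB_of hμ hμD hρ.continuous hcpt hf'.sm.continuous hΦ.continuous hΨ.continuous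
      hbc hb.nonneg hδ)
  refine ⟨F, hF, hFf, hFb.trans ?_⟩
  rw [ENNReal.ofReal_mul (Crest.Agent.R273.OTE_34.Cot_nonneg 1), mul_assoc]
  gcongr

/-! ### the `L^{2/p}` version, `q = 1/p` -/

/-- the weight `‖G‖^{2(1-q)}` -/
def bq (q : ℝ) (G : M → ℂ) (x : M) : ℝ := ‖G x‖ ^ (2 * (1 - q))

/-- the `L^{2q}` integral -/
def Nq (μ : Measure M) (q : ℝ) (Θ : M → ℝ) (G : M → ℂ) : ℝ≥0∞ :=
  ∫⁻ x, ENNReal.ofReal (‖G x‖ ^ (2 * q) * Real.exp (-Θ x)) ∂μ

/-- the pointwise inequality behind the Hölder step -/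
lemma holder_pt {q : ℝ} (hq0 : 0 < q) (hq1 : q ≤ 1) {A B E : ℝ} (hA : 0 ≤ A) (hB : 0 ≤ B)
    (hE : 0 < E) (h : ENNReal.ofReal (A ^ 2 * E) / ENNReal.ofReal (B ^ (2 * (1 - q))) ≠ ∞) :
    ENNReal.ofReal (A ^ (2 * q) * E) ≤
      (ENNReal.ofReal (A ^ 2 * E) / ENNReal.ofReal (B ^ (2 * (1 - q)))) ^ q *
        (ENNReal.ofReal (B ^ (2 * q) * E)) ^ (1 - q) := by
  rcases eq_or_lt_of_le hA with hA0 | hA0
  · rw [← hA0, Real.zero_rpow (by positivity)]
    simp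
  rcases eq_or_lt_of_le hB with hB0 | hB0
  · -- `B = 0`
    rcases eq_or_lt_of_le hq1 with hq | hq
    · rw [hq]
      simp only [mul_one, sub_self, mul_zero, Real.rpow_zero, ENNReal.ofReal_one, div_one,
        ENNReal.rpow_one, ENNReal.rpow_zero]
      apply ENNReal.ofReal_le_ofReal
      rw [show (2 : ℝ) = ((2 : ℕ) : ℝ) by norm_num, Real.rpow_natCast]
    · exfalso
      apply h
      rw [← hB0, Real.zero_rpow (by
        have : 0 < 1 - q := by linarith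
        positivity)]
      rw [ENNReal.ofReal_zero]
      exact ENNReal.div_zero (by simpa using (by positivity : 0 < A ^ 2 * E))
  · have h1 : 0 < B ^ (2 * (1 - q)) := Real.rpow_pos_of_pos hB0 _
    rw [← ENNReal.ofReal_div_of_pos h1, ENNReal.ofReal_rpow_of_nonneg (by positivity) hq0.le,
      ENNReal.ofReal_rpow_of_nonneg (by positivity) (by linarith), ← ENNReal.ofReal_mul (by positivity)]
    apply ENNReal.ofReal_le_ofReal
    apply le_of_eq
    rw [Real.div_rpow (by positivity) (by positivity), Real.mul_rpow (by positivity) hE.le,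
      Real.mul_rpow (by positivity) hE.le, ← Real.rpow_mul hB0.le, ← Real.rpow_mul hB0.le,
      ← Real.rpow_natCast A 2, ← Real.rpow_mul hA0.le]
    push_cast
    have h2 : E = E ^ q * E ^ (1 - q) := by
      rw [← Real.rpow_add hE]; simp
    have h3 : 2 * (1 - q) * q = 2 * q * (1 - q) := by ring
    have h4 : (B ^ (2 * q * (1 - q))) ≠ 0 := (Real.rpow_pos_of_pos hB0 _).ne'
    rw [h3]
    field_simp
    rw [← h2]

/-- one step of the iteration -/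
lemma step_le {q : ℝ} (hq0 : 0 < q) (hq1 : q ≤ 1) {Θ : M → ℝ} (hΘ : Continuous Θ) {G F : M → ℂ}
    (hG : Continuous G) (hF : Continuous F) {T : ℝ≥0∞} (hT : T ≠ ∞)
    (h : ∫⁻ x, ENNReal.ofReal (‖F x‖ ^ 2 * Real.exp (-Θ x)) / ENNReal.ofReal (bq q G x) ∂μ ≤ T) :
    Nq μ q Θ F ≤ T ^ q * (Nq μ q Θ G) ^ (1 - q) := by
  have hm1 : AEMeasurable (fun x => ENNReal.ofReal (‖F x‖ ^ 2 * Real.exp (-Θ x)) /
      ENNReal.ofReal (bq q G x)) μ := by
    have h1 : Measurable (fun x => bq q G x) := hG.norm.measurable.pow_const _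
    exact ((((hF.norm.pow 2).mul (Real.continuous_exp.comp hΘ.neg)).measurable.ennreal_ofReal).div
      h1.ennreal_ofReal).aemeasurable
  have hm2 : AEMeasurable (fun x => ENNReal.ofReal (‖G x‖ ^ (2 * q) * Real.exp (-Θ x))) μ := by
    have h1 : Measurable (fun x => ‖G x‖ ^ (2 * q)) := hG.norm.measurable.pow_const _
    exact ((h1.mul (Real.continuous_exp.comp hΘ.neg).measurable).ennreal_ofReal).aemeasurable
  have hae : ∀ᵐ x ∂μ, ENNReal.ofReal (‖F x‖ ^ 2 * Real.exp (-Θ x)) /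
      ENNReal.ofReal (bq q G x) < ∞ :=
    ae_lt_top' hm1 (ne_top_of_le_ne_top hT h)
  calc Nq μ q Θ F
      ≤ ∫⁻ x, (ENNReal.ofReal (‖F x‖ ^ 2 * Real.exp (-Θ x)) / ENNReal.ofReal (bq q G x)) ^ q *
        (ENNReal.ofReal (‖G x‖ ^ (2 * q) * Real.exp (-Θ x))) ^ (1 - q) ∂μ := by
        refine lintegral_mono_ae ?_
        filter_upwards [hae] with x hx
        exact holder_pt hq0 hq1 (norm_nonneg _) (norm_nonneg _) (Real.exp_pos _) hx.ne
    _ ≤ (∫⁻ x, ENNReal.ofReal (‖F x‖ ^ 2 * Real.exp (-Θ x)) / ENNReal.ofReal (bq q G x) ∂μ) ^ q *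
        (Nq μ q Θ G) ^ (1 - q) :=
        ENNReal.lintegral_mul_norm_pow_le hm1 hm2 hq0.le (by linarith) (by ring)
    _ ≤ _ := by gcongr

/-- the infimum trick -/
lemma inf_trick {q : ℝ} (hq0 : 0 < q) (hq1 : q ≤ 1) {T : ℝ≥0∞} (hT : T ≠ ∞) {S : Set ℝ≥0∞}
    (h0 : ∃ x ∈ S, x ≠ ∞) (hS : ∀ x ∈ S, x ≠ ∞ → ∃ y ∈ S, y ≤ T ^ q * x ^ (1 - q)) {T' : ℝ≥0∞}
    (hT' : T < T') : ∃ x ∈ S, x ≤ T' := by
  by_contra hcon
  push Not at hcon
  set A := sInf S with hA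
  have hAT' : T' ≤ A := le_sInf fun x hx => (hcon x hx).le
  obtain ⟨x0, hx0, hx0t⟩ := h0
  have hAt : A ≠ ∞ := ne_top_of_le_ne_top hx0t (sInf_le hx0)
  have hA0 : A ≠ 0 := (lt_of_le_of_lt zero_le (hT'.trans_le hAT')).ne'
  have h1 : T ^ q * A ^ (1 - q) < A := by
    calc T ^ q * A ^ (1 - q) < A ^ q * A ^ (1 - q) := by
          refine ENNReal.mul_lt_mul_left ?_ ?_ (ENNReal.rpow_lt_rpow (hT'.trans_le hAT') hq0)
          · exact (ENNReal.rpow_pos (pos_iff_ne_zero.2 hA0) hAt).ne'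
          · exact ENNReal.rpow_ne_top_of_nonneg (by linarith) hAt
      _ = A := by
          rw [← ENNReal.rpow_add _ _ hA0 hAt]
          simp
  have hc : Continuous fun x : ℝ≥0∞ => T ^ q * x ^ (1 - q) :=
    (ENNReal.continuous_const_mul (ENNReal.rpow_ne_top_of_nonneg hq0.le hT)).comp
      (ENNReal.continuous_rpow_const)
  have h2 : ∀ᶠ x in 𝓝 A, T ^ q * x ^ (1 - q) < A := hc.continuousAt.eventually_lt_const h1
  have h3 : ∀ᶠ x in 𝓝[≥] A, T ^ q * x ^ (1 - q) < A := nhdsWithin_le_nhds h2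
  obtain ⟨u, hu, hub⟩ := (mem_nhdsGE_iff_exists_Ico_subset' (hAt.lt_top)).1 h3
  obtain ⟨x, hx, hxu⟩ := sInf_lt_iff.1 (show sInf S < u from hu)
  obtain ⟨y, hy, hyx⟩ := hS x hx (hxu.trans_le le_top).ne
  have h4 := hub ⟨sInf_le hx, hxu⟩
  exact absurd (sInf_le hy) (not_le.2 (lt_of_le_of_lt hyx h4))

/-- pointwise bound on the slice -/
lemma slice_pt {q : ℝ} (hq0 : 0 < q) (hq1 : q ≤ 1) {A E : ℝ} (hA : 0 ≤ A) (hE : 0 < E) :
    ENNReal.ofReal (A ^ 2 * E) / ENNReal.ofReal (A ^ (2 * (1 - q))) ≤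
      ENNReal.ofReal (A ^ (2 * q) * E) := by
  rcases eq_or_lt_of_le hA with hA0 | hA0
  · rw [← hA0]
    simp
  · have h1 : 0 < A ^ (2 * (1 - q)) := Real.rpow_pos_of_pos hA0 _
    rw [← ENNReal.ofReal_div_of_pos h1]
    apply ENNReal.ofReal_le_ofReal
    apply le_of_eq
    rw [div_eq_iff h1.ne', mul_right_comm, ← Real.rpow_add hA0, ← Real.rpow_natCast A 2]
    congr 2
    push_cast
    ring

/-- **`L^{2/p}` Ohsawa–Takegoshi on a Riemann domain** (`q = 1/p`).  `C` is a class of holomorphic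
functions which is stable under the `L²` step. -/
theorem otp (hμ : IsLeb μ) (hμD : IsLeb μD) (hρ : Sm ρ)
    (hcpt : ∀ t : ℝ, IsCompact {x | ρ x ≤ t}) (hL : ∀ x w, nsq w ≤ Levi ρ x w)
    (hΨ : Sm Ψ) (hΦ : Sm Φ) (hs : ∀ x, ‖ell a (cp x)‖ ^ 2 ≤ Real.exp (Ψ x))
    (hΨ0 : ∀ x w, 0 ≤ Levi Ψ x w) (hΦΨ : ∀ x w, Levi Ψ x w ≤ Levi Φ x w) {q : ℝ} (hq0 : 0 < q)
    (hq1 : q ≤ 1) (C : (M → ℂ) → Prop) (hCh : ∀ G, C G → Hol G)
    (hC : ∀ G F, C G → Hol F → ∫⁻ x, ENNReal.ofReal (‖F x‖ ^ 2 * Real.exp (-(Φ x + Ψ x))) /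
      ENNReal.ofReal (bq q G x) ∂μ ≠ ∞ → C F) {G0 : M → ℂ} (hG0 : C G0)
    (hN0 : Nq μ q (fun x => Φ x + Ψ x) G0 ≠ ∞) {K : ℝ≥0∞} (hKt : K ≠ ∞)
    (hK : ∫⁻ y : Hs M a, ENNReal.ofReal (‖G0 (ι y)‖ ^ (2 * q) * Real.exp (-Φ (ι y))) ∂μD ≤ K)
    {K' : ℝ≥0∞} (hK' : ENNReal.ofReal (Cot 1 * Real.pi) * K < K') :
    ∃ F : M → ℂ, C F ∧ (∀ x, ell a (cp x) = 0 → F x = G0 x) ∧
      Nq μ q (fun x => Φ x + Ψ x) F ≤ K' := by
  have hT : ENNReal.ofReal (Cot 1 * Real.pi) * K ≠ ∞ :=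
    ENNReal.mul_ne_top ENNReal.ofReal_ne_top hKt
  obtain ⟨x, ⟨F, hF, hF0, rfl⟩, hx⟩ := inf_trick hq0 hq1 hT
    (S := {x | ∃ G : M → ℂ, C G ∧ (∀ x, ell a (cp x) = 0 → G x = G0 x) ∧
      Nq μ q (fun x => Φ x + Ψ x) G = x})
    ⟨_, ⟨G0, hG0, fun _ _ => rfl, rfl⟩, hN0⟩ (by
      rintro _ ⟨G, hG, hGG, rfl⟩ -
      have hGh := hCh G hG
      have hGc : Continuous G := (hol_of _ hGh).sm.continuous
      have hbc : Continuous (bq q G) := by
        unfold bq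
        exact hGc.norm.rpow_const fun x => Or.inr (by linarith)
      obtain ⟨F, hF, hFf, hFb⟩ := ot_cont (f := G) (b := bq q G) (K := K) hμ hμD hρ hcpt hL hGh
        hΨ hΦ hs hΨ0 hΦΨ (LPsh.of_hol_rpow hGh (by linarith)) hbc hKt (by
          refine le_trans (lintegral_mono fun y => ?_) hK
          have h1 : G (ι y) = G0 (ι y) := hGG _ (ell_ι y)
          unfold bq
          rw [h1]
          exact slice_pt hq0 hq1 (norm_nonneg _) (Real.exp_pos _))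
      have hCF : C F := hC G F hG hF (ne_top_of_le_ne_top hT hFb)
      refine ⟨_, ⟨F, hCF, fun x hx => (hFf x hx).trans (hGG x hx), rfl⟩, ?_⟩
      exact step_le hq0 hq1 (hΦ.continuous.add hΨ.continuous) hGc (hol_of _ hF).sm.continuous
        hT hFb) hK'
  exact ⟨F, hF, hF0, hx⟩

end Crest.Agent.R257.OtK_331
end
end

-- ▼ part R257/OtKC_331
section

/-!
# Row 257, leaf D-OT (helper331), file C: the exhaustion of `MM d`
-/

set_option autoImplicit false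
set_option linter.unusedSectionVars false

noncomputable section

open Set Filter Topology MeasureTheory
open scoped ENNReal

namespace Crest.Agent.R257.OtK_331

open Crest.Agent.R271 Crest.Agent.R271.Ho51 Crest.Agent.R273.Dir73 Crest.Agent.R273.OTA_34
open Crest.Agent.R271.W792 (lev dsq nS nT lg)

section gen

variable {n : ℕ} {M : Type*} [TopologicalSpace M] [RDom n M]

/-- `(R² - |f|²)⁻¹` is smooth and psh -/
lemma sm_inv {f : M → ℂ} (hf : W792.Hol f) {R : ℝ} (hR : ∀ x, ‖f x‖ ^ 2 < R) (k : ℕ) :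
    Sm (fun x => ((R - ‖f x‖ ^ 2) ^ k)⁻¹) := by
  have h1 : Sm (fun x => ‖f x‖ ^ 2) := W792.Hol.sm_normSq hf.sm
  refine Sm.comp_at (g := fun t : ℝ => ((R - t) ^ k)⁻¹) h1 fun x => ?_
  have h2 : R - ‖f x‖ ^ 2 ≠ 0 := by have := hR x; linarith
  exact (contDiffAt_const.sub contDiffAt_id).pow k |>.inv (pow_ne_zero _ h2)

lemma lev_inv_nonneg {f : M → ℂ} (hf : W792.Hol f) {R : ℝ} (hR : ∀ x, ‖f x‖ ^ 2 < R) (x : M)
    (w : Fin n → ℂ) : 0 ≤ lev (fun x => (R - ‖f x‖ ^ 2)⁻¹) x w := by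
  have h1 : Sm (fun x => ‖f x‖ ^ 2) := W792.Hol.sm_normSq hf.sm
  have hx := hR x
  have hpos : 0 < R - ‖f x‖ ^ 2 := by linarith
  have hg' : ∀ᶠ t in 𝓝 (‖f x‖ ^ 2), HasDerivAt (fun t : ℝ => (R - t)⁻¹)
      ((fun t : ℝ => ((R - t) ^ 2)⁻¹) t) t := by
    filter_upwards [gt_mem_nhds hx] with t ht
    have h0 : HasDerivAt (fun t : ℝ => R - t) (-1) t := by
      simpa using (hasDerivAt_id' t).const_sub R
    have h5 := h0.fun_inv (by linarith : R - t ≠ 0)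
    simpa [one_div] using h5
  have hg'' : HasDerivAt (fun t : ℝ => ((R - t) ^ 2)⁻¹) (2 / (R - ‖f x‖ ^ 2) ^ 3)
      (‖f x‖ ^ 2) := by
    have h0 : HasDerivAt (fun t : ℝ => R - t) (-1) (‖f x‖ ^ 2) := by
      simpa using (hasDerivAt_id' _).const_sub R
    have h5 := (h0.fun_pow 2).fun_inv (pow_ne_zero 2 hpos.ne')
    have h6 : 2 / (R - ‖f x‖ ^ 2) ^ 3 = -(((2 : ℕ) : ℝ) * (R - ‖f x‖ ^ 2) ^ (2 - 1) * -1) /
        ((R - ‖f x‖ ^ 2) ^ 2) ^ 2 := by
      have := hpos.ne'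
      push_cast
      field_simp
    rw [h6]
    exact h5
  rw [W792.lev_comp h1 x hg' hg'' w (sm_inv hf hR 2), W792.lev_normSq hf]
  have := W792.dsq_nonneg (fun x => ‖f x‖ ^ 2) x w
  positivity

end gen

variable {n : ℕ} {d : Dat n}

/-- coordinates are holomorphic on `MM d` -/
lemma hol_co (i : Fin (n + 1)) : W792.Hol (fun x : MM d => x.v i) := by
  refine hol_of _ (hol_v (G := fun x => x i) ?_)
  exact (differentiable_apply i).differentiableOn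

lemma hol_h : W792.Hol (fun x : MM d => d.h x.v) :=
  hol_of _ (hol_v (d.hol.mono fun _ h => h.1))

lemma hol_d0 : W792.Hol (fun x : MM d => d0 d.h x.v) :=
  hol_of _ (hol_v fun x hx => (d.an_d0 hx.1).differentiableAt.differentiableWithinAt)

lemma hol_d0i : W792.Hol (fun x : MM d => (d0 d.h x.v)⁻¹) :=
  hol_of _ (hol_v (G := fun x => (d0 d.h x)⁻¹) fun x hx =>
    ((d.an_d0 hx.1).differentiableAt.inv hx.2).differentiableWithinAt)

lemma hol_cp (i : Fin (n + 1)) : W792.Hol (fun x : MM d => cp x i) := by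
  refine Fin.cases ?_ (fun j => ?_) i
  · exact hol_h
  · exact hol_co j.succ

/-- the holomorphic functions entering the exhaustion -/
def fe (d : Dat n) : Option (Fin (n + 1)) → MM d → ℂ
  | none => fun x => (d0 d.h x.v)⁻¹
  | some i => fun x => cp x i

lemma hol_fe (i : Option (Fin (n + 1))) : W792.Hol (fe d i) := by
  cases i with
  | none => exact hol_d0i
  | some i => exact hol_cp i

/-- the exhaustion -/
def rh (d : Dat n) (x : MM d) : ℝ :=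
  nS (fe d) x + ∑ i, (d.R i ^ 2 - ‖x.v i‖ ^ 2)⁻¹

lemma lt_R (i : Fin (n + 1)) (x : MM d) : ‖x.v i‖ ^ 2 < d.R i ^ 2 :=
  pow_lt_pow_left₀ (x.mem.1 i) (norm_nonneg _) two_ne_zero

lemma sm_inv1 (i : Fin (n + 1)) : Sm (fun x : MM d => (d.R i ^ 2 - ‖x.v i‖ ^ 2)⁻¹) := by
  simpa using sm_inv (hol_co i) (lt_R i) 1

lemma sm_rh : Sm (rh d) := by
  unfold rh
  exact (W792.sm_nS fun i => (hol_fe i).sm).add (Sm.sum fun i _ => sm_inv1 i)

lemma levi_rh (x : MM d) (w : Fin (n + 1) → ℂ) : nsq w ≤ Levi (rh d) x w := by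
  rw [W792.Levi_eq_lev sm_rh]
  unfold rh
  rw [W792.lev_add (W792.sm_nS fun i => (hol_fe i).sm) (Sm.sum fun i _ => sm_inv1 i),
    W792.lev_sum _ (fun i _ => sm_inv1 i), W792.lev_nS hol_fe]
  have h1 : 0 ≤ ∑ i, lev (fun x : MM d => (d.R i ^ 2 - ‖x.v i‖ ^ 2)⁻¹) x w :=
    Finset.sum_nonneg fun i _ => lev_inv_nonneg (hol_co i) (lt_R i) x w
  have h2 : nT (fe d) x w = ‖D (fe d none) x w‖ ^ 2 + nsq w := by
    unfold nT nsq
    rw [Fintype.sum_option]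
    congr 1
    refine Finset.sum_congr rfl fun i _ => ?_
    show ‖D (fun x : MM d => cp x i) x w‖ ^ 2 = _
    rw [G792.D_coord]
  rw [h2]
  have h3 : 0 ≤ ‖D (fe d none) x w‖ ^ 2 := by positivity
  linarith

/-- sublevel sets are compact -/
lemma compact_rh (c : ℝ) : IsCompact {x : MM d | rh d x ≤ c} := by
  -- the bounds on a sublevel set
  have hinv : ∀ (x : MM d) i, 0 < (d.R i ^ 2 - ‖x.v i‖ ^ 2)⁻¹ := fun x i =>
    inv_pos.2 (by have := lt_R i x; linarith)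
  have hns : ∀ x : MM d, ‖(d0 d.h x.v)⁻¹‖ ^ 2 ≤ nS (fe d) x := by
    intro x
    unfold nS
    exact Finset.single_le_sum (f := fun j => ‖fe d j x‖ ^ 2) (fun j _ => by positivity)
      (Finset.mem_univ none)
  have hnn : ∀ x : MM d, 0 ≤ nS (fe d) x := fun x => W792.nS_nonneg _ _
  have hs0 : ∀ x : MM d, 0 ≤ ∑ i, (d.R i ^ 2 - ‖x.v i‖ ^ 2)⁻¹ := fun x =>
    Finset.sum_nonneg fun i _ => (hinv x i).le
  set c' : ℝ := max c 1 with hc'
  have hc0 : 0 < c' := lt_of_lt_of_le one_pos (le_max_right _ _)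
  have hcc : c ≤ c' := le_max_left _ _
  -- the closed set in `ℂⁿ⁺¹`
  set A : Set (Fin (n + 1) → ℂ) := {x | ∀ i, ‖x i‖ ≤ |d.R i|} ∩ {x | ∀ i, ‖x i‖ ^ 2 ≤ d.R i ^ 2 - c'⁻¹}
    with hA
  have hAc : IsCompact A := by
    have h1 : IsCompact {x : Fin (n + 1) → ℂ | ∀ i, ‖x i‖ ≤ |d.R i|} := by
      have : {x : Fin (n + 1) → ℂ | ∀ i, ‖x i‖ ≤ |d.R i|} =
          Set.pi univ fun i => Metric.closedBall (0 : ℂ) |d.R i| := by
        ext x; simp [Set.mem_pi]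
      rw [this]
      exact isCompact_univ_pi fun i => isCompact_closedBall _ _
    refine h1.inter_right ?_
    rw [show {x : Fin (n + 1) → ℂ | ∀ i, ‖x i‖ ^ 2 ≤ d.R i ^ 2 - c'⁻¹} =
      ⋂ i, {x : Fin (n + 1) → ℂ | ‖x i‖ ^ 2 ≤ d.R i ^ 2 - c'⁻¹} by ext x; simp]
    exact isClosed_iInter fun i => isClosed_le ((continuous_apply i).norm.pow 2) continuous_const
  by_cases hR : ∀ i, 0 < d.R i
  swap
  · -- empty domain
    push Not at hR
    obtain ⟨i, hi⟩ := hR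
    have : {x : MM d | rh d x ≤ c} = ∅ := by
      ext x
      simp only [mem_ofPred_eq, mem_empty_iff_false, iff_false]
      intro _
      have h1 := x.mem.1 i
      have h2 := norm_nonneg (x.v i)
      linarith
    rw [this]
    exact isCompact_empty
  have hAP : A ⊆ Pd d.R := by
    intro x hx i
    have h1 := hx.2 i
    have h2 : 0 < c'⁻¹ := inv_pos.2 hc0
    exact lt_of_pow_lt_pow_left₀ 2 (hR i).le (by linarith)
  have hBc : IsCompact (A ∩ {x | (c' + 1)⁻¹ ≤ ‖d0 d.h x‖ ^ 2}) := by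
    have h1 : ContinuousOn (fun x => ‖d0 d.h x‖ ^ 2) A := ((d.cont_d0.mono hAP).norm.pow 2)
    have h2 := h1.preimage_isClosed_of_isClosed hAc.isClosed (isClosed_Ici (a := (c' + 1)⁻¹))
    exact hAc.of_isClosed_subset h2 inter_subset_left
  have hBU : A ∩ {x | (c' + 1)⁻¹ ≤ ‖d0 d.h x‖ ^ 2} ⊆ d.U := by
    rintro x ⟨hx1, hx2⟩
    refine ⟨hAP hx1, fun h0 => ?_⟩
    have hx2' : (c' + 1)⁻¹ ≤ ‖d0 d.h x‖ ^ 2 := hx2
    rw [h0] at hx2'
    have : 0 < (c' + 1)⁻¹ := inv_pos.2 (by linarith)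
    simp at hx2'
    linarith
  have hpre : IsCompact (MM.v ⁻¹' (A ∩ {x | (c' + 1)⁻¹ ≤ ‖d0 d.h x‖ ^ 2}) : Set (MM d)) := by
    rw [(oe_v (d := d)).isEmbedding.isInducing.isCompact_iff, Set.image_preimage_eq_of_subset]
    · exact hBc
    · intro x hx
      exact ⟨mk x (hBU hx), rfl⟩
  refine hpre.of_isClosed_subset (isClosed_le sm_rh.continuous continuous_const) ?_
  intro x hx
  have hx' : rh d x ≤ c := hx
  unfold rh at hx'
  refine ⟨⟨fun i => ?_, fun i => ?_⟩, ?_⟩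
  · exact (x.mem.1 i).le.trans (le_abs_self _)
  · have h1 : (d.R i ^ 2 - ‖x.v i‖ ^ 2)⁻¹ ≤ c' := by
      have h2 := Finset.single_le_sum (f := fun j => (d.R j ^ 2 - ‖x.v j‖ ^ 2)⁻¹)
        (fun j _ => (hinv x j).le) (Finset.mem_univ i)
      have h3 := hnn x
      linarith
    have h4 := lt_R i x
    have h5 := inv_anti₀ (hinv x i) h1
    rw [inv_inv] at h5
    show ‖x.v i‖ ^ 2 ≤ d.R i ^ 2 - c'⁻¹
    linarith
  · have h1 : ‖(d0 d.h x.v)⁻¹‖ ^ 2 ≤ c' + 1 := by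
      have h2 := hns x
      have h3 := hs0 x
      linarith
    have h4 : 0 < ‖(d0 d.h x.v)⁻¹‖ ^ 2 := by
      have := norm_pos_iff.2 (inv_ne_zero x.mem.2)
      positivity
    have h5 := inv_anti₀ h4 h1
    rw [norm_inv, inv_pow, inv_inv] at h5
    exact h5

end Crest.Agent.R257.OtK_331
end
end

-- ▼ part R257/OtKD_331

/-!
# Row 257, leaf D-OT (helper331), file D: `L^{2/p}` extension from `{h = 0, ∂₀h ≠ 0}` in a polydisc
-/

set_option autoImplicit false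
set_option linter.unusedSectionVars false

noncomputable section

open Set Filter Topology MeasureTheory
open scoped ENNReal

namespace Crest.Agent.R257.OtK_331

open Crest.Agent.R271 Crest.Agent.R271.Ho51 Crest.Agent.R273.Dir73 Crest.Agent.R273.OTA_34
open Crest.Agent.R271.W792 (lev dsq nS nT lg)
open Crest.Agent.R273.OTD_34 (Cot)

variable {n : ℕ}

lemma convex_Pd {m : ℕ} (R : Fin m → ℝ) : Convex ℝ (Pd R) := by
  have : Pd R = Set.pi univ fun i => Metric.ball (0 : ℂ) (R i) := by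
    ext x; simp [Pd, Set.mem_pi]
  rw [this]
  exact convex_pi fun i _ => convex_ball _ _

/-- `∂₀h` is nowhere locally zero -/
lemma not_loc_zero (d : Dat n) (h1 : ∃ x ∈ Pd d.R, d0 d.h x ≠ 0) {a : Fin (n + 1) → ℂ}
    (ha : a ∈ Pd d.R) : ¬ ∀ᶠ z in 𝓝 a, d0 d.h z = 0 := by
  intro hev
  obtain ⟨x, hx, hne⟩ := h1
  have h2 : AnalyticOnNhd ℂ (d0 d.h) (Pd d.R) := fun z hz => d.an_d0 hz
  have h3 := h2.eqOn_zero_of_preconnected_of_eventuallyEq_zero
    (convex_Pd d.R).isPreconnected ha hev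
  exact hne (h3 hx)

/-- the complement of `U` in the polydisc is a null set -/
lemma null_compl (d : Dat n) (h1 : ∃ x ∈ Pd d.R, d0 d.h x ≠ 0) :
    volume (Pd d.R \ d.U) = 0 := by
  refine measure_null_of_locally_null _ fun a ha => ?_
  have haP : a ∈ Pd d.R := ha.1
  obtain ⟨r, hr, hae⟩ := Local821.eventually_null_zero
    (volume : Measure (Fin (n + 1) → ℂ)) (d.an_d0 haP)
    (Filter.not_eventually.1 (not_loc_zero d h1 haP))
  rw [ae_restrict_iff' Metric.isOpen_ball.measurableSet, ae_iff] at hae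
  refine ⟨Metric.ball a r ∩ (Pd d.R \ d.U), ?_, ?_⟩
  · exact inter_mem (mem_nhdsWithin_of_mem_nhds (Metric.ball_mem_nhds a hr)) self_mem_nhdsWithin
  · refine measure_mono_null ?_ hae
    rintro z ⟨hz1, hz2, hz3⟩
    simp only [mem_ofPred_eq, Classical.not_imp, not_not]
    refine ⟨hz1, ?_⟩
    by_contra h
    exact hz3 ⟨hz2, h⟩

lemma lint_Pd (d : Dat n) (h1 : ∃ x ∈ Pd d.R, d0 d.h x ≠ 0) (G : (Fin (n + 1) → ℂ) → ℝ≥0∞) :
    ∫⁻ x in Pd d.R, G x = ∫⁻ x in d.U, G x := by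
  have hsub : d.U ⊆ Pd d.R := fun x hx => hx.1
  have h2 : d.U =ᵐ[volume] Pd d.R := by
    refine Filter.EventuallyEq.symm ?_
    refine (ae_eq_set.2 ⟨null_compl d h1, ?_⟩)
    rw [sdiff_eq_empty.2 hsub]
    exact measure_empty
  exact (setLIntegral_congr h2).symm

/-- the weight -/
def wt (d : Dat n) (r : ℝ) (F : (Fin (n + 1) → ℂ) → ℂ) (δ : ℝ) (c : ℕ)
    (x : Fin (n + 1) → ℂ) : ℝ :=
  ((‖d.h x‖ ^ 2 + r ^ 2) ^ 2)⁻¹ * ((‖F x‖ ^ 2 + δ) ^ c)⁻¹

section wts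

variable {d : Dat n} {r : ℝ} {F : (Fin (n + 1) → ℂ) → ℂ} {δ : ℝ} {c : ℕ}

/-- `log (|h|² + r²)` -/
def Ps (d : Dat n) (r : ℝ) (x : MM d) : ℝ := lg (fun (_ : Unit) (x : MM d) => d.h x.v) (r ^ 2) x

/-- `log |∂₀h|²` -/
def L0 (d : Dat n) (x : MM d) : ℝ := lg (fun (_ : Unit) (x : MM d) => d0 d.h x.v) 0 x

/-- `log (|F|² + δ)` -/
def LF (d : Dat n) (F : (Fin (n + 1) → ℂ) → ℂ) (δ : ℝ) (x : MM d) : ℝ :=
  lg (fun (_ : Unit) (x : MM d) => F x.v) δ x

lemma Ps_eq (x : MM d) : Ps d r x = Real.log (‖d.h x.v‖ ^ 2 + r ^ 2) := by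
  simp [Ps, lg, nS]

lemma L0_eq (x : MM d) : L0 d x = Real.log (‖d0 d.h x.v‖ ^ 2) := by
  simp [L0, lg, nS]

lemma LF_eq (x : MM d) : LF d F δ x = Real.log (‖F x.v‖ ^ 2 + δ) := by
  simp [LF, lg, nS]

lemma hol_F (hF : DifferentiableOn ℂ F (Pd d.R)) : W792.Hol (fun x : MM d => F x.v) :=
  hol_of _ (hol_v (hF.mono fun _ h => h.1))

lemma pos_Ps (hr : 0 < r) (x : MM d) :
    0 < nS (fun (_ : Unit) (x : MM d) => d.h x.v) x + r ^ 2 := by
  have := W792.nS_nonneg (fun (_ : Unit) (x : MM d) => d.h x.v) x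
  positivity

lemma pos_L0 (x : MM d) :
    0 < nS (fun (_ : Unit) (x : MM d) => d0 d.h x.v) x + 0 := by
  have h1 : nS (fun (_ : Unit) (x : MM d) => d0 d.h x.v) x = ‖d0 d.h x.v‖ ^ 2 := by
    simp [nS]
  rw [h1, add_zero]
  have := norm_pos_iff.2 x.mem.2
  positivity

lemma pos_LF (hδ : 0 < δ) (x : MM d) :
    0 < nS (fun (_ : Unit) (x : MM d) => F x.v) x + δ := by
  have := W792.nS_nonneg (fun (_ : Unit) (x : MM d) => F x.v) x
  positivity

lemma sm_Ps (hr : 0 < r) : Sm (Ps d r) := W792.sm_lg (fun _ => hol_h.sm) (pos_Ps hr)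

lemma sm_L0 : Sm (L0 d) := W792.sm_lg (fun _ => hol_d0.sm) pos_L0

lemma sm_LF (hF : DifferentiableOn ℂ F (Pd d.R)) (hδ : 0 < δ) : Sm (LF d F δ) :=
  W792.sm_lg (fun _ => (hol_F hF).sm) (pos_LF hδ)

/-- the weight `Φ` -/
def Ph (d : Dat n) (r : ℝ) (F : (Fin (n + 1) → ℂ) → ℂ) (δ : ℝ) (c : ℕ) (x : MM d) : ℝ :=
  Ps d r x + (L0 d x + (c : ℝ) * LF d F δ x)

lemma sm_cLF (hF : DifferentiableOn ℂ F (Pd d.R)) (hδ : 0 < δ) :
    Sm (fun x : MM d => (c : ℝ) * LF d F δ x) := (Sm.const _).mulR (sm_LF hF hδ)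

lemma sm_Ph (hr : 0 < r) (hF : DifferentiableOn ℂ F (Pd d.R)) (hδ : 0 < δ) :
    Sm (Ph d r F δ c) := (sm_Ps hr).add (sm_L0.add (sm_cLF hF hδ))

lemma levi_Ps (hr : 0 < r) (x : MM d) (w : Fin (n + 1) → ℂ) : 0 ≤ Levi (Ps d r) x w := by
  rw [W792.Levi_eq_lev (sm_Ps hr)]
  exact W792.lev_lg_nonneg (fun _ => hol_h) (by positivity) (pos_Ps hr) x w

lemma levi_Ph (hr : 0 < r) (hF : DifferentiableOn ℂ F (Pd d.R)) (hδ : 0 < δ) (x : MM d)
    (w : Fin (n + 1) → ℂ) : Levi (Ps d r) x w ≤ Levi (Ph d r F δ c) x w := by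
  have h1 : Sm (fun x : MM d => L0 d x + (c : ℝ) * LF d F δ x) := sm_L0.add (sm_cLF hF hδ)
  have h2 : Levi (Ph d r F δ c) x w =
      Levi (Ps d r) x w + Levi (fun x : MM d => L0 d x + (c : ℝ) * LF d F δ x) x w :=
    Levi_add (sm_Ps hr) h1 x w
  have h3 : Levi (fun x : MM d => L0 d x + (c : ℝ) * LF d F δ x) x w =
      Levi (L0 d) x w + Levi (fun x : MM d => (c : ℝ) * LF d F δ x) x w :=
    Levi_add sm_L0 (sm_cLF hF hδ) x w
  have h4 : 0 ≤ Levi (L0 d) x w := by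
    rw [W792.Levi_eq_lev sm_L0]
    exact W792.lev_lg_nonneg (fun _ => hol_d0) le_rfl pos_L0 x w
  have h5 : 0 ≤ Levi (fun x : MM d => (c : ℝ) * LF d F δ x) x w := by
    rw [W792.Levi_eq_lev (sm_cLF hF hδ), W792.lev_const_mul (sm_LF hF hδ)]
    have := W792.lev_lg_nonneg (fun (_ : Unit) => hol_F hF) hδ.le (pos_LF hδ) x w
    exact mul_nonneg (Nat.cast_nonneg _) this
  rw [h2, h3]
  linarith

lemma exp_Ph (hr : 0 < r) (hδ : 0 < δ) (x : MM d) : Real.exp (-Ph d r F δ c x) =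
    (‖d.h x.v‖ ^ 2 + r ^ 2)⁻¹ * ((‖d0 d.h x.v‖ ^ 2)⁻¹ * ((‖F x.v‖ ^ 2 + δ) ^ c)⁻¹) := by
  have h1 : 0 < ‖d.h x.v‖ ^ 2 + r ^ 2 := by positivity
  have h2 : 0 < ‖d0 d.h x.v‖ ^ 2 := by
    have := norm_pos_iff.2 x.mem.2
    positivity
  have h3 : 0 < ‖F x.v‖ ^ 2 + δ := by positivity
  unfold Ph
  rw [Ps_eq, L0_eq, LF_eq, neg_add, neg_add, Real.exp_add, Real.exp_add, Real.exp_neg, Real.exp_neg,
    Real.exp_neg, Real.exp_log h1, Real.exp_log h2, mul_comm (c : ℝ), Real.exp_mul,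
    Real.exp_log h3, Real.rpow_natCast]

lemma exp_PhPs (hr : 0 < r) (hδ : 0 < δ) (x : MM d) :
    Real.exp (-(Ph d r F δ c x + Ps d r x)) = (‖d0 d.h x.v‖ ^ 2)⁻¹ * wt d r F δ c x.v := by
  have h1 : 0 < ‖d.h x.v‖ ^ 2 + r ^ 2 := by positivity
  rw [neg_add, Real.exp_add, exp_Ph hr hδ, Ps_eq, Real.exp_neg, Real.exp_log h1]
  unfold wt
  rw [pow_two (‖d.h x.v‖ ^ 2 + r ^ 2), mul_inv]
  ring

end wts

/-- the class of functions which extend to the polydisc -/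
def Cl (d : Dat n) (G : MM d → ℂ) : Prop :=
  ∃ G' : (Fin (n + 1) → ℂ) → ℂ, DifferentiableOn ℂ G' (Pd d.R) ∧ ∀ x : MM d, G x = G' x.v

lemma Cl.hol {d : Dat n} {G : MM d → ℂ} (h : Cl d G) : Ho51.Hol G := by
  obtain ⟨G', h1, h2⟩ := h
  have : G = fun x => G' x.v := funext h2
  rw [this]
  exact hol_v (h1.mono fun _ h => h.1)

section main

variable {d : Dat n} {r : ℝ} {F : (Fin (n + 1) → ℂ) → ℂ} {δ : ℝ} {c : ℕ} {q : ℝ}
  [MeasurableSpace (MM d)] [BorelSpace (MM d)] {μ : Measure (MM d)}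

lemma wt_pos (hr : 0 < r) (hδ : 0 < δ) (x : Fin (n + 1) → ℂ) : 0 < wt d r F δ c x := by
  unfold wt
  positivity

lemma wt_cont (hr : 0 < r) (hF : DifferentiableOn ℂ F (Pd d.R)) (hδ : 0 < δ) :
    ContinuousOn (wt d r F δ c) (Pd d.R) := by
  unfold wt
  refine ContinuousOn.mul ?_ ?_
  · refine ContinuousOn.inv₀ (((d.hol.continuousOn.norm.pow 2).add continuousOn_const).pow 2) ?_
    intro x _
    have : 0 < ‖d.h x‖ ^ 2 + r ^ 2 := by positivity
    positivity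
  · refine ContinuousOn.inv₀ (((hF.continuousOn.norm.pow 2).add continuousOn_const).pow c) ?_
    intro x _
    have : 0 < ‖F x‖ ^ 2 + δ := by positivity
    positivity

lemma Nq_eq (hμ : IsLeb μ) (h1 : ∃ x ∈ Pd d.R, d0 d.h x ≠ 0) (hr : 0 < r) (hδ : 0 < δ)
    {G : MM d → ℂ}
    {G' : (Fin (n + 1) → ℂ) → ℂ} (hG : Continuous G) (hG' : ∀ x : MM d, G x = G' x.v)
    (hc : Continuous fun x : MM d => Ph d r F δ c x + Ps d r x) :
    Nq μ q (fun x => Ph d r F δ c x + Ps d r x) G =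
      ∫⁻ x in Pd d.R, ENNReal.ofReal (‖G' x‖ ^ (2 * q) * wt d r F δ c x) := by
  unfold Nq
  set g : (Fin (n + 1) → ℂ) → ℝ≥0∞ := fun x => ENNReal.ofReal (‖G' x‖ ^ (2 * q) *
    ((‖d0 d.h x‖ ^ 2)⁻¹ * wt d r F δ c x)) with hg
  have e1 : (fun x : MM d => ENNReal.ofReal (‖G x‖ ^ (2 * q) *
      Real.exp (-(Ph d r F δ c x + Ps d r x)))) = fun x : MM d => g x.v := by
    funext x
    simp only [hg]
    rw [exp_PhPs hr hδ, hG']
  have hm : Measurable (fun x : MM d => ENNReal.ofReal (‖G x‖ ^ (2 * q) *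
      Real.exp (-(Ph d r F δ c x + Ps d r x)))) := by
    have h2 : Measurable (fun x => ‖G x‖ ^ (2 * q)) := hG.norm.measurable.pow_const _
    exact (h2.mul (Real.continuous_exp.comp hc.neg).measurable).ennreal_ofReal
  rw [e1] at hm
  rw [lint_Pd d h1, show (fun x : MM d => ENNReal.ofReal (‖G x‖ ^ (2 * q) *
      Real.exp (-(Ph d r F δ c x + Ps d r x)))) = fun x : MM d => g x.v from e1]
  refine (lint_MM hμ hm).trans ?_
  refine setLIntegral_congr_fun d.isOpen_U.measurableSet fun x hx => ?_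
  have h3 : 0 < ‖d0 d.h x‖ ^ 2 := by
    have := norm_pos_iff.2 hx.2
    positivity
  have h4 := wt_pos (d := d) (F := F) (c := c) hr hδ x
  simp only [hg]
  rw [← ENNReal.ofReal_mul (by positivity)]
  congr 1
  have h5 := h3.ne'
  calc ‖G' x‖ ^ (2 * q) * ((‖d0 d.h x‖ ^ 2)⁻¹ * wt d r F δ c x) * ‖d0 d.h x‖ ^ 2
      = ‖G' x‖ ^ (2 * q) * wt d r F δ c x * ((‖d0 d.h x‖ ^ 2)⁻¹ * ‖d0 d.h x‖ ^ 2) := by ring
    _ = _ := by rw [inv_mul_cancel₀ h5, mul_one]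

/-- the class is stable under the `L²` step -/
lemma Cl_step (hμ : IsLeb μ) (h1 : ∃ x ∈ Pd d.R, d0 d.h x ≠ 0) (hr : 0 < r) (hδ : 0 < δ)
    (hF : DifferentiableOn ℂ F (Pd d.R)) (hq1 : q ≤ 1) {G F' : MM d → ℂ} (hG : Cl d G)
    (hF' : Ho51.Hol F')
    (hint : ∫⁻ x, ENNReal.ofReal (‖F' x‖ ^ 2 * Real.exp (-(Ph d r F δ c x + Ps d r x))) /
      ENNReal.ofReal (bq q G x) ∂μ ≠ ∞) : Cl d F' := by
  have hGh := hG.hol
  obtain ⟨G', hG', hGG⟩ := hG
  have hc : Continuous fun x : MM d => Ph d r F δ c x + Ps d r x :=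
    (sm_Ph hr hF hδ).continuous.add (sm_Ps hr).continuous
  have hFc : Continuous F' := (hol_of _ hF').sm.continuous
  have hGc : Continuous G := (hol_of _ hGh).sm.continuous
  set g0 : (Fin (n + 1) → ℂ) → ℝ≥0∞ := fun x => ENNReal.ofReal (‖ex F' x‖ ^ 2 *
    ((‖d0 d.h x‖ ^ 2)⁻¹ * wt d r F δ c x)) / ENNReal.ofReal (‖G' x‖ ^ (2 * (1 - q))) with hg0
  have e1 : (fun x : MM d => ENNReal.ofReal (‖F' x‖ ^ 2 *
      Real.exp (-(Ph d r F δ c x + Ps d r x))) / ENNReal.ofReal (bq q G x)) =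
      fun x : MM d => g0 x.v := by
    funext x
    simp only [hg0]
    rw [exp_PhPs hr hδ, ex_v]
    unfold bq
    rw [hGG]
  have hm : Measurable (fun x : MM d => ENNReal.ofReal (‖F' x‖ ^ 2 *
      Real.exp (-(Ph d r F δ c x + Ps d r x))) / ENNReal.ofReal (bq q G x)) := by
    have h2 : Measurable (fun x => bq q G x) := hGc.norm.measurable.pow_const _
    exact (((hFc.norm.pow 2).mul (Real.continuous_exp.comp hc.neg)).measurable.ennreal_ofReal).div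
      h2.ennreal_ofReal
  rw [e1] at hm
  rw [show (fun x : MM d => ENNReal.ofReal (‖F' x‖ ^ 2 *
      Real.exp (-(Ph d r F δ c x + Ps d r x))) / ENNReal.ofReal (bq q G x)) =
      fun x : MM d => g0 x.v from e1] at hint
  have hint : ∫⁻ x in d.U, g0 x * ENNReal.ofReal (‖d0 d.h x‖ ^ 2) ≠ ∞ :=
    (lint_MM hμ hm) ▸ hint
  obtain ⟨g, hg, hgf⟩ := RExt747.riemann_ext (f := ex F') (D := d0 d.h) (U := Pd d.R) (isOpen_Pd d.R)
    (fun z hz => d.an_d0 hz) (fun a ha => not_loc_zero d h1 ha)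
    ((diff_ex hF').mono fun z hz => ⟨hz.1, hz.2⟩) (by
      intro a ha
      obtain ⟨W, hWn, hWc, hWP⟩ := exists_mem_nhds_isCompact_mapsTo
        (f := (id : (Fin (n + 1) → ℂ) → _)) (x := a) continuous_id ((isOpen_Pd d.R).mem_nhds ha)
      have hWP' : W ⊆ Pd d.R := fun z hz => hWP hz
      have haW : a ∈ W := mem_of_mem_nhds hWn
      obtain ⟨z0, hz0, hz0m⟩ := hWc.exists_isMinOn ⟨a, haW⟩ ((wt_cont (c := c) hr hF hδ).mono hWP')
      set m := wt d r F δ c z0 with hm0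
      have hmpos : 0 < m := wt_pos hr hδ z0
      have hmle : ∀ z ∈ W, m ≤ wt d r F δ c z := fun z hz => hz0m hz
      have hbc : ContinuousOn (fun z => ‖G' z‖ ^ (2 * (1 - q))) W :=
        (hG'.continuousOn.mono hWP').norm.rpow_const fun _ _ => Or.inr (by linarith)
      obtain ⟨z1, hz1, hz1m⟩ := hWc.exists_isMaxOn ⟨a, haW⟩ hbc
      set B := max (‖G' z1‖ ^ (2 * (1 - q))) 1 with hB
      have hBpos : 0 < B := lt_of_lt_of_le one_pos (le_max_right _ _)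
      have hBle : ∀ z ∈ W, ‖G' z‖ ^ (2 * (1 - q)) ≤ B := fun z hz => (hz1m hz).trans (le_max_left _ _)
      refine ⟨W, hWn, ?_⟩
      have hWm : MeasurableSet (W ∩ {z | d0 d.h z ≠ 0}) := by
        have h2 : W ∩ {z | d0 d.h z ≠ 0} = W ∩ d.U := by
          ext z
          simp only [mem_inter_iff, mem_ofPred_eq, Dat.U]
          constructor
          · rintro ⟨h3, h4⟩
            exact ⟨h3, hWP' h3, h4⟩
          · rintro ⟨h3, _, h4⟩
            exact ⟨h3, h4⟩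
        rw [h2]
        exact hWc.measurableSet.inter d.isOpen_U.measurableSet
      have hpt : ∀ z ∈ W ∩ {z | d0 d.h z ≠ 0}, ‖ex F' z‖ₑ ^ 2 ≤ ENNReal.ofReal (B / m) *
          (g0 z * ENNReal.ofReal (‖d0 d.h z‖ ^ 2)) := by
        rintro z ⟨hz, hz'⟩
        have hdpos : 0 < ‖d0 d.h z‖ ^ 2 := by
          have := norm_pos_iff.2 hz'
          positivity
        have h5 : ENNReal.ofReal (‖ex F' z‖ ^ 2 * ((‖d0 d.h z‖ ^ 2)⁻¹ * m)) / ENNReal.ofReal B ≤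
            g0 z := by
          simp only [hg0]
          refine ENNReal.div_le_div (ENNReal.ofReal_le_ofReal ?_)
            (ENNReal.ofReal_le_ofReal (hBle z hz))
          have := hmle z hz
          gcongr
        calc ‖ex F' z‖ₑ ^ 2 = ENNReal.ofReal (‖ex F' z‖ ^ 2) := by
              rw [← ofReal_norm, ENNReal.ofReal_pow (norm_nonneg _)]
          _ = ENNReal.ofReal (B / m) * (ENNReal.ofReal (‖ex F' z‖ ^ 2 *
              ((‖d0 d.h z‖ ^ 2)⁻¹ * m)) / ENNReal.ofReal B * ENNReal.ofReal (‖d0 d.h z‖ ^ 2)) := by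
              rw [← ENNReal.ofReal_div_of_pos hBpos, ← ENNReal.ofReal_mul (by positivity),
                ← ENNReal.ofReal_mul (by positivity)]
              congr 1
              have h6 := hdpos.ne'
              have h7 : ‖ex F' z‖ ^ 2 = ‖ex F' z‖ ^ 2 * (B / m * (m / B)) *
                  ((‖d0 d.h z‖ ^ 2)⁻¹ * ‖d0 d.h z‖ ^ 2) := by
                rw [inv_mul_cancel₀ h6, div_mul_div_cancel₀ hmpos.ne', div_self hBpos.ne']
                ring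
              refine h7.trans ?_
              ring
          _ ≤ _ := by gcongr
      calc ∫⁻ z in W ∩ {z | d0 d.h z ≠ 0}, ‖ex F' z‖ₑ ^ 2
          ≤ ∫⁻ z in W ∩ {z | d0 d.h z ≠ 0}, ENNReal.ofReal (B / m) *
          (g0 z * ENNReal.ofReal (‖d0 d.h z‖ ^ 2)) :=
            setLIntegral_mono' hWm hpt
        _ = ENNReal.ofReal (B / m) * ∫⁻ z in W ∩ {z | d0 d.h z ≠ 0},
          (g0 z * ENNReal.ofReal (‖d0 d.h z‖ ^ 2)) :=
            lintegral_const_mul' _ _ ENNReal.ofReal_ne_top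
        _ ≤ ENNReal.ofReal (B / m) * ∫⁻ z in d.U,
          (g0 z * ENNReal.ofReal (‖d0 d.h z‖ ^ 2)) := by
            gcongr
            rintro z ⟨hz1, hz2⟩
            exact ⟨hWP' hz1, hz2⟩
        _ < ⊤ := ENNReal.mul_lt_top ENNReal.ofReal_lt_top hint.lt_top)
  refine ⟨g, hg, fun x => ?_⟩
  rw [hgf x.v x.mem.1 x.mem.2, ex_v]

end main

lemma Sh_const_mul (d : Dat n) {a : ℝ≥0∞} (ha : a ≠ ∞) (g : (Fin (n + 1) → ℂ) → ℝ≥0∞) :
    Sh d (fun x => a * g x) = a * Sh d g := by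
  unfold Sh
  rw [← lintegral_const_mul' _ _ ha]
  refine lintegral_congr fun x' => ?_
  rw [ENNReal.tsum_mul_left]

lemma Sh_congr (d : Dat n) {g g' : (Fin (n + 1) → ℂ) → ℝ≥0∞}
    (h : ∀ x ∈ d.U, d.h x = 0 → g x = g' x) : Sh d g = Sh d g' := by
  unfold Sh
  refine lintegral_congr fun x' => tsum_congr fun z => h _ z.2.1 z.2.2

/-- **(D2)** `L^{2q}` extension from `{h = 0, ∂₀h ≠ 0}` to the polydisc, `0 < q ≤ 1` -/
theorem d2 (d : Dat n) (h1 : ∃ x ∈ Pd d.R, d0 d.h x ≠ 0) {r : ℝ} (hr : 0 < r)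
    {F : (Fin (n + 1) → ℂ) → ℂ} (hF : DifferentiableOn ℂ F (Pd d.R)) {δ : ℝ} (hδ : 0 < δ) (c : ℕ)
    {q : ℝ} (hq0 : 0 < q) (hq1 : q ≤ 1) {G0 : (Fin (n + 1) → ℂ) → ℂ}
    (hG0 : DifferentiableOn ℂ G0 (Pd d.R))
    (hN0 : ∫⁻ x in Pd d.R, ENNReal.ofReal (‖G0 x‖ ^ (2 * q) * wt d r F δ c x) ≠ ∞)
    {K : ℝ≥0∞} (hKt : K ≠ ∞)
    (hK : Sh d (fun x => ENNReal.ofReal (‖G0 x‖ ^ (2 * q) *
      ((‖d0 d.h x‖ ^ 2)⁻¹ * ((‖F x‖ ^ 2 + δ) ^ c)⁻¹))) ≤ K)
    {K' : ℝ≥0∞} (hK' : ENNReal.ofReal (Cot 1 * Real.pi * (r ^ 2)⁻¹) * K < K') :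
    ∃ G : (Fin (n + 1) → ℂ) → ℂ, DifferentiableOn ℂ G (Pd d.R) ∧
      (∀ x ∈ d.U, d.h x = 0 → G x = G0 x) ∧
      ∫⁻ x in Pd d.R, ENNReal.ofReal (‖G x‖ ^ (2 * q) * wt d r F δ c x) ≤ K' := by
  let _ : MeasurableSpace (MM d) := borel _
  have _ : BorelSpace (MM d) := ⟨rfl⟩
  let _ : MeasurableSpace (Hs (MM d) 0) := borel _
  have _ : BorelSpace (Hs (MM d) 0) := ⟨rfl⟩
  obtain ⟨μ, hμ⟩ := exists_leb (M := MM d)
  obtain ⟨μD, hμD⟩ := exists_leb (M := Hs (MM d) 0)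
  have hC0 : 0 ≤ Cot 1 := Crest.Agent.R273.OTE_34.Cot_nonneg 1
  have hc : Continuous fun x : MM d => Ph d r F δ c x + Ps d r x :=
    (sm_Ph hr hF hδ).continuous.add (sm_Ps hr).continuous
  set G0' : MM d → ℂ := fun x => G0 x.v with hG0'
  have hCl : Cl d G0' := ⟨G0, hG0, fun _ => rfl⟩
  have hG0c : Continuous G0' := (hol_of _ hCl.hol).sm.continuous
  -- the slice integral
  have hsl : ∫⁻ y : Hs (MM d) 0, ENNReal.ofReal (‖G0' (ι y)‖ ^ (2 * q) *
      Real.exp (-Ph d r F δ c (ι y))) ∂μD ≤ ENNReal.ofReal ((r ^ 2)⁻¹) * K := by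
    set g : (Fin (n + 1) → ℂ) → ℝ≥0∞ := fun x => ENNReal.ofReal (‖G0 x‖ ^ (2 * q) *
      ((‖d.h x‖ ^ 2 + r ^ 2)⁻¹ * ((‖d0 d.h x‖ ^ 2)⁻¹ * ((‖F x‖ ^ 2 + δ) ^ c)⁻¹))) with hg
    have e1 : (fun y : Hs (MM d) 0 => ENNReal.ofReal (‖G0' (ι y)‖ ^ (2 * q) *
      Real.exp (-Ph d r F δ c (ι y)))) = fun y : Hs (MM d) 0 => g (ι y).v := by
      funext y
      simp only [hg, hG0']
      rw [exp_Ph hr hδ]
    have hm : Measurable (fun y : Hs (MM d) 0 => g (ι y).v) := by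
      rw [← e1]
      have h2 : Measurable (fun y : Hs (MM d) 0 => ‖G0' (ι y)‖ ^ (2 * q)) :=
        (hG0c.comp continuous_ι).norm.measurable.pow_const _
      exact (h2.mul (Real.continuous_exp.comp ((sm_Ph hr hF hδ).continuous.comp
        continuous_ι).neg).measurable).ennreal_ofReal
    rw [show (fun y : Hs (MM d) 0 => ENNReal.ofReal (‖G0' (ι y)‖ ^ (2 * q) *
      Real.exp (-Ph d r F δ c (ι y)))) = fun y : Hs (MM d) 0 => g (ι y).v from e1,
      lint_slice hμD hm, Sh_congr d (g' := fun x => ENNReal.ofReal ((r ^ 2)⁻¹) *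
        ENNReal.ofReal (‖G0 x‖ ^ (2 * q) *
          ((‖d0 d.h x‖ ^ 2)⁻¹ * ((‖F x‖ ^ 2 + δ) ^ c)⁻¹))) ?_,
      Sh_const_mul d ENNReal.ofReal_ne_top]
    · gcongr
    · intro x _ hx
      simp only [hg]
      rw [hx, ← ENNReal.ofReal_mul (by positivity)]
      congr 1
      rw [norm_zero]
      ring
  obtain ⟨G, ⟨G', hG', hGG⟩, hG0eq, hGN⟩ := otp (a := (0 : Fin (n + 1) → ℂ)) hμ hμD (ρ := rh d)
    sm_rh compact_rh levi_rh (Ψ := Ps d r) (Φ := Ph d r F δ c) (sm_Ps hr) (sm_Ph hr hF hδ)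
    (fun x => by
      rw [ell_MM, Ps_eq, Real.exp_log (by positivity)]
      have : 0 ≤ r ^ 2 := by positivity
      linarith)
    (levi_Ps hr) (levi_Ph hr hF hδ) hq0 hq1 (Cl d) (fun G hG => hG.hol)
    (fun G F' hG hF' hint => Cl_step hμ h1 hr hδ hF hq1 hG hF' hint) hCl
    (by rw [Nq_eq hμ h1 hr hδ hG0c (fun _ => rfl) hc]; exact hN0)
    (K := ENNReal.ofReal ((r ^ 2)⁻¹) * K) (ENNReal.mul_ne_top ENNReal.ofReal_ne_top hKt) hsl
    (K' := K') (by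
      rw [← mul_assoc, ← ENNReal.ofReal_mul (by positivity)]
      exact hK')
  refine ⟨G', hG', fun x hx hx0 => ?_, ?_⟩
  · have h2 := hG0eq (mk x hx) (by rw [ell_MM]; exact hx0)
    rw [hGG] at h2
    exact h2
  · have hGc : Continuous G := (hol_of _ (Cl.hol ⟨G', hG', hGG⟩)).sm.continuous
    rw [Nq_eq hμ h1 hr hδ hGc hGG hc] at hGN
    exact hGN

end Crest.Agent.R257.OtK_331
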