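import Crest.Agent.R257.CLD_39
import Crest.Agent.R257.GradB_537
import Crest.Agent.R273.GreenM_5
import Crest.Agent.R273.FIlin_332
import Crest.Agent.R257.KEG_952
import Crest.Agent.R257.UpK1_938
import Crest.Agent.R257.GradK_39

-- ▼ part R257/GMa_101
section

/-!
# Row 257 (S0395), leaf GRAD-MOV (helper101), part a: the local maximum principle

`trH u p` = Laplacian of `p` for the Kaehler form `∂∂̄u`; `lev`, `gr` are those of `Levi_145`.
* `trH_le`, `trH_comp` (invariance under holomorphic changes of coordinates)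
* `bochner_max` : at a local maximum of `|dF|² Z` one has `Δ log Z ≤ κ`
* `cut_max`     : at a local maximum of `|dF|² ζ⁴ / (W (2G - |F|²))` the value is
  `≤ κ + 8 k n + c₃ + 2 c₁`
-/

set_option autoImplicit false
set_option linter.unusedSectionVars false

open Set Filter Topology Complex
open scoped ContDiff ComplexConjugate Matrix

namespace Crest.Agent.R257.GMa_101

open Crest.Agent.R275.Geo Crest.Agent.R275.Core144 Crest.Agent.R275.GC293
open Crest.Agent.R273 Crest.Agent.R273.Levi_145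
open Crest.Agent.R273.YauDefs_635 Crest.Agent.R273.Hess_333 Crest.Agent.R273.HessB_333
open Crest.Agent.R273.FS_333 (sq)
open Crest.Agent.R257.CLC_39 (trH contDiffOn_trH contDiffOn_of_hol trace_congr_frame)
open Crest.Agent.R257.CLD_39 (trH_hess trH_add trH_sub trH_const_mul trH_congr trH_self
  trH_nonpos_of_localMax chern_lu_flat contDiffOn_sq two_le' trH_add_const)

noncomputable section

variable {n N : ℕ}

section pt

variable {u p q : Cn n → ℝ} {z : Cn n}

theorem pos333 (hpos : ∀ v, v ≠ 0 → 0 < lev u z v) :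
    ∀ v : Cn n, v ≠ 0 → 0 < Defs_333.lev u z v := fun v hv => by
  rw [lev333_eq_lev145]
  have := hpos v hv
  linarith

theorem trH_le (hu : ContDiffAt ℝ ∞ u z) (hpos : ∀ v, v ≠ 0 → 0 < lev u z v)
    (hp : ContDiffAt ℝ ∞ p z) (hq : ContDiffAt ℝ ∞ q z) (h : ∀ v, lev p z v ≤ lev q z v) :
    trH u p z ≤ trH u q z :=
  CLD_39.trH_mono hu (pos333 hpos) hp hq fun v => by
    rw [lev333_eq_lev145, lev333_eq_lev145]
    linarith [h v]

theorem trH_le_n (hu : ContDiffAt ℝ ∞ u z) (hpos : ∀ v, v ≠ 0 → 0 < lev u z v)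
    (hp : ContDiffAt ℝ ∞ p z) {c : ℝ} (h : ∀ v, lev p z v ≤ c * lev u z v) :
    trH u p z ≤ c * n :=
  CLD_39.trH_le_of_lev hu (pos333 hpos) hp fun v => by
    rw [lev333_eq_lev145, lev333_eq_lev145]
    linarith [h v]

theorem le_trH (hu : ContDiffAt ℝ ∞ u z) (hpos : ∀ v, v ≠ 0 → 0 < lev u z v)
    (hp : ContDiffAt ℝ ∞ p z) (h : ∀ v, 0 ≤ lev p z v) (v : Cn n) :
    lev p z v ≤ trH u p z * lev u z v := by
  have h1 := CLD_39.lev_le_trH hu (pos333 hpos) hp (fun v => by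
    rw [lev333_eq_lev145]
    linarith [h v]) v
  rw [lev333_eq_lev145, lev333_eq_lev145] at h1
  linarith

theorem trH_nn (hu : ContDiffAt ℝ ∞ u z) (hpos : ∀ v, v ≠ 0 → 0 < lev u z v)
    (hp : ContDiffAt ℝ ∞ p z) (h : ∀ v, 0 ≤ lev p z v) : 0 ≤ trH u p z :=
  CLD_39.trH_nonneg hu (pos333 hpos) hp fun v => by
    rw [lev333_eq_lev145]
    linarith [h v]

/-- the Laplacian is invariant under holomorphic changes of coordinates -/
theorem trH_comp {T : Cn n → Cn n} (hT : ∀ᶠ w in 𝓝 z, DifferentiableAt ℂ T w)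
    (hdet : ∃ L : Cn n → Cn n, DifferentiableAt ℂ L (T z) ∧ ∀ᶠ w in 𝓝 z, L (T w) = w)
    (hu : ContDiffAt ℝ ∞ u (T z)) (hp : ContDiffAt ℝ ∞ p (T z)) :
    trH (fun w => u (T w)) (fun w => p (T w)) z = trH u p (T z) := by
  have hTz := hT.self_of_nhds
  have hTc : ContDiffAt ℝ ∞ T z := by
    obtain ⟨U, hU, hUo, hUz⟩ := eventually_nhds_iff.1 hT
    have h1 : DifferentiableOn ℂ T U := fun w hw => (hU w hw).differentiableWithinAt
    exact (((Crest.Agent.R266.SCV.contDiffOn_omega_of_differentiableOn hUo h1).restrict_scalars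
      ℝ).of_le le_top).contDiffAt (hUo.mem_nhds hUz)
  have hu2 : ContDiffAt ℝ ∞ (fun w => u (T w)) z := hu.comp z hTc
  have hp2 : ContDiffAt ℝ ∞ (fun w => p (T w)) z := hp.comp z hTc
  rw [trH_hess hu2 hp2, trH_hess hu hp]
  set C : Matrix (Fin n) (Fin n) ℂ :=
    Matrix.of fun a c => (fderiv ℂ T z (EuclideanSpace.single a 1)) c with hC
  have hh : ∀ {g : Cn n → ℝ}, ContDiffAt ℝ ∞ g (T z) →
      hess (fun w => g (T w)) z = C * hess g (T z) * Cᴴ := by
    intro g hg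
    ext a b
    rw [hess_comp hg hT]
    simp only [Matrix.mul_apply, Matrix.conjTranspose_apply, hC, Matrix.of_apply,
      RCLike.star_def, Finset.sum_mul]
    rw [Finset.sum_comm]
  have hCu : IsUnit C.det := by
    obtain ⟨L, hL, hLT⟩ := hdet
    have h1 : HasFDerivAt (fun w => L (T w)) ((fderiv ℂ L (T z)).comp (fderiv ℂ T z)) z :=
      hL.hasFDerivAt.comp z hTz.hasFDerivAt
    have h2 : HasFDerivAt (fun w => L (T w)) (ContinuousLinearMap.id ℂ (Cn n)) z :=
      (hasFDerivAt_id z).congr_of_eventuallyEq hLT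
    have h3 := h1.unique h2
    set C' : Matrix (Fin n) (Fin n) ℂ :=
      Matrix.of fun a c => (fderiv ℂ L (T z) (EuclideanSpace.single a 1)) c with hC'
    have h4 : C * C' = 1 := by
      ext a b
      have h5 := congrArg (fun l : Cn n →L[ℂ] Cn n => (l (EuclideanSpace.single a 1)) b) h3
      simp only [ContinuousLinearMap.comp_apply, ContinuousLinearMap.id_apply] at h5
      have h6 : fderiv ℂ T z (EuclideanSpace.single a 1)
          = ∑ c, (fderiv ℂ T z (EuclideanSpace.single a 1)) c •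
            (EuclideanSpace.single c (1 : ℂ) : Cn n) := vec_exp _
      rw [h6, map_sum] at h5
      simp only [map_smul, WithLp.ofLp_sum, WithLp.ofLp_smul, Finset.sum_apply, Pi.smul_apply,
        smul_eq_mul] at h5
      simp only [Matrix.mul_apply, hC, hC', Matrix.of_apply]
      rw [h5]
      simp [Matrix.one_apply, eq_comm]
    have h5 := congrArg Matrix.det h4
    rw [Matrix.det_mul, Matrix.det_one] at h5
    exact IsUnit.of_mul_eq_one _ h5
  have e := trace_congr_frame C (hess u (T z)) (hess p (T z)) hCu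
  rw [← hh hu, ← hh hp] at e
  rw [e]

end pt

section main

variable {U : Set (Cn n)} (hU : IsOpen U) {u f : Cn n → ℝ} (hu : ContDiffOn ℝ ∞ u U)
  (hf : ContDiffOn ℝ ∞ f U) (hdet : ∀ z ∈ U, (cH u z).det = (Real.exp (f z) : ℂ))
  (hpos : ∀ z ∈ U, ∀ v : Cn n, v ≠ 0 → 0 < lev u z v) {κ : ℝ}
  (hK : ∀ z ∈ U, ∀ v : Cn n, lev f z v ≤ κ * lev u z v)
  {F : Cn n → Fin N → ℂ} (hF : ∀ k, DifferentiableOn ℂ (fun z => F z k) U)

include hU hu hf hdet hpos hK hF in
/-- at a local maximum of `|dF|² Z` one has `Δ log Z ≤ κ` -/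
theorem bochner_max {Z : Cn n → ℝ} {x : Cn n} (hx : x ∈ U) (hT : 0 < trH u (sq F) x)
    (hZ : ContDiffAt ℝ ∞ Z x) (hZ0 : 0 < Z x)
    (hmax : IsLocalMax (fun z => trH u (sq F) z * Z z) x) :
    trH u (fun z => Real.log (Z z)) x ≤ κ := by
  have hun : U ∈ 𝓝 x := hU.mem_nhds hx
  have hux : ContDiffAt ℝ ∞ u x := hu.contDiffAt hun
  have hTs : ContDiffAt ℝ ∞ (trH u (sq F)) x :=
    (contDiffOn_trH hU hu (contDiffOn_sq hU hF) hdet).contDiffAt hun
  have h1 : ContDiffAt ℝ ∞ (fun z => Real.log (trH u (sq F) z)) x := hTs.log hT.ne'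
  have h2 : ContDiffAt ℝ ∞ (fun z => Real.log (Z z)) x := hZ.log hZ0.ne'
  have h3 : IsLocalMax (fun z => Real.log (trH u (sq F) z) + Real.log (Z z)) x := by
    filter_upwards [hmax, hTs.continuousAt.eventually (lt_mem_nhds hT),
      hZ.continuousAt.eventually (lt_mem_nhds hZ0)] with z a1 a2 a3
    rw [← Real.log_mul a2.ne' a3.ne', ← Real.log_mul hT.ne' hZ0.ne']
    exact Real.log_le_log (mul_pos a2 a3) a1
  have h4 := trH_nonpos_of_localMax hux (pos333 (hpos x hx)) (h1.add h2) h3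
  rw [trH_add hux h1 h2] at h4
  have h5 := chern_lu_flat hU hu hf hdet (fun z hz => pos333 (hpos z hz)) (K := κ)
    (fun z hz v => by
      rw [lev333_eq_lev145, lev333_eq_lev145]
      linarith [hK z hz v]) hF hx hT
  linarith

include hU hu hf hdet hpos hK hF in
/-- **the estimate at a local maximum** of `|dF|² ζ⁴ / (W (2G - |F|²))` -/
theorem cut_max {ζ W G : Cn n → ℝ} {x : Cn n} (hx : x ∈ U) (hκ : 0 ≤ κ)
    (hζ : ContDiffAt ℝ ∞ ζ x) (hζ0 : 0 < ζ x) (hζ1 : ζ x ≤ 1) {k : ℝ} (hk : 0 ≤ k)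
    (hζl : ∀ v, -(k * lev u x v) ≤ lev ζ x v) (hζg : ∀ v, ‖gr ζ x v‖ ^ 2 ≤ k * lev u x v)
    (hW : ContDiffAt ℝ ∞ W x) (hW1 : 1 ≤ W x) {c₁ c₃ : ℝ} (hc₁ : 0 ≤ c₁) (hc₃ : 0 ≤ c₃)
    (hWl : trH u (fun z => Real.log (W z)) x ≤ c₃ * W x)
    (hG : ContDiffAt ℝ ∞ G x) (hG0 : 0 < G x) (hFG : sq F x ≤ G x)
    (hGl : trH u G x ≤ c₁ * W x * G x)
    (hmax : IsLocalMax (fun z => trH u (sq F) z * (ζ z ^ 4 / (W z * (2 * G z - sq F z)))) x) :
    trH u (sq F) x * (ζ x ^ 4 / (W x * (2 * G x - sq F x))) ≤ κ + 8 * k * n + c₃ + 2 * c₁ := by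
  have hun : U ∈ 𝓝 x := hU.mem_nhds hx
  have hux : ContDiffAt ℝ ∞ u x := hu.contDiffAt hun
  have hu0 := hpos x hx
  have hn : (0 : ℝ) ≤ n := Nat.cast_nonneg n
  have hkn : 0 ≤ 8 * k * n := by positivity
  have hsq : ContDiffAt ℝ ∞ (sq F) x := (contDiffOn_sq hU hF).contDiffAt hun
  set D : Cn n → ℝ := fun z => 2 * G z - sq F z with hD
  have hDs : ContDiffAt ℝ ∞ D x := (contDiffAt_const.mul hG).sub hsq
  have hDG : G x ≤ D x := by simp only [hD]; linarith
  have hD0 : 0 < D x := hG0.trans_le hDG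
  have hW0 : 0 < W x := by linarith
  have hWD : 0 < W x * D x := mul_pos hW0 hD0
  set Z : Cn n → ℝ := fun z => ζ z ^ 4 / (W z * D z) with hZdef
  have hZ0 : 0 < Z x := div_pos (pow_pos hζ0 4) hWD
  have hZ : ContDiffAt ℝ ∞ Z x := (hζ.pow 4).div (hW.mul hDs) hWD.ne'
  rcases le_or_gt (trH u (sq F) x) 0 with hT | hT
  · exact (mul_nonpos_of_nonpos_of_nonneg hT hZ0.le).trans (by positivity)
  have h1 := bochner_max hU hu hf hdet hpos hK hF hx hT hZ hZ0 hmax
  -- the logarithm of the weight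
  have lζ : ContDiffAt ℝ ∞ (fun z => Real.log (ζ z)) x := hζ.log hζ0.ne'
  have lW : ContDiffAt ℝ ∞ (fun z => Real.log (W z)) x := hW.log hW0.ne'
  have lD : ContDiffAt ℝ ∞ (fun z => Real.log (D z)) x := hDs.log hD0.ne'
  have l4 : ContDiffAt ℝ ∞ (fun z => 4 * Real.log (ζ z)) x := contDiffAt_const.mul lζ
  have e1 : (fun z => Real.log (Z z)) =ᶠ[𝓝 x]
      fun z => 4 * Real.log (ζ z) - Real.log (W z) - Real.log (D z) := by
    filter_upwards [hζ.continuousAt.eventually (lt_mem_nhds hζ0),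
      hW.continuousAt.eventually (lt_mem_nhds hW0),
      hDs.continuousAt.eventually (lt_mem_nhds hD0)] with z a1 a2 a3
    have a4 : 0 < W z * D z := mul_pos a2 a3
    rw [hZdef]
    simp only
    rw [Real.log_div (pow_pos a1 4).ne' a4.ne', Real.log_pow, Real.log_mul a2.ne' a3.ne']
    push_cast
    ring
  have hZl : ContDiffAt ℝ ∞ (fun z => Real.log (Z z)) x := hZ.log hZ0.ne'
  rw [trH_congr hux hZl e1,
    trH_sub (p := fun z => 4 * Real.log (ζ z) - Real.log (W z)) hux (l4.sub lW) lD,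
    trH_sub (p := fun z => 4 * Real.log (ζ z)) hux l4 lW, trH_const_mul hux lζ] at h1
  -- the cut-off function
  have h2 : -(2 * k / ζ x ^ 2 * n) ≤ trH u (fun z => Real.log (ζ z)) x := by
    have b1 : ContDiffAt ℝ ∞ (fun z => (-1 : ℝ) * Real.log (ζ z)) x := contDiffAt_const.mul lζ
    have b2 : trH u (fun z => (-1 : ℝ) * Real.log (ζ z)) x ≤ 2 * k / ζ x ^ 2 * n := by
      refine trH_le_n hux hu0 b1 fun v => ?_
      rw [lev_const_mul (-1) (two_le' lζ), lev_log (two_le' hζ) hζ0]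
      have hl : 0 ≤ lev u x v := by
        rcases eq_or_ne v 0 with h0 | h0
        · rw [h0, lev_zero]
        · exact (hu0 v h0).le
      have b3 : -(lev ζ x v / ζ x) ≤ k * lev u x v / ζ x ^ 2 := by
        rw [← neg_div, div_le_div_iff₀ hζ0 (by positivity)]
        have c1 : - lev ζ x v ≤ k * lev u x v := by linarith [hζl v]
        have c2 : 0 ≤ k * lev u x v := by positivity
        calc - lev ζ x v * ζ x ^ 2 ≤ k * lev u x v * ζ x ^ 2 := by gcongr
          _ ≤ k * lev u x v * ζ x := by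
            have : ζ x ^ 2 ≤ ζ x := by nlinarith
            gcongr
      have b4 : ‖gr ζ x v‖ ^ 2 / ζ x ^ 2 ≤ k * lev u x v / ζ x ^ 2 := by
        gcongr
        exact hζg v
      calc -1 * (lev ζ x v / ζ x - ‖gr ζ x v‖ ^ 2 / ζ x ^ 2)
          = -(lev ζ x v / ζ x) + ‖gr ζ x v‖ ^ 2 / ζ x ^ 2 := by ring
        _ ≤ k * lev u x v / ζ x ^ 2 + k * lev u x v / ζ x ^ 2 := add_le_add b3 b4
        _ = 2 * k / ζ x ^ 2 * lev u x v := by ring
    rw [trH_const_mul hux lζ] at b2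
    linarith
  -- the denominator
  have h3 : trH u (fun z => Real.log (D z)) x ≤ (D x)⁻¹ * trH u D x := by
    rw [← trH_const_mul hux hDs]
    refine trH_le hux hu0 lD (contDiffAt_const.mul hDs) fun v => ?_
    rw [lev_const_mul _ (two_le' hDs), lev_log (two_le' hDs) hD0]
    have : 0 ≤ ‖gr D x v‖ ^ 2 / D x ^ 2 := by positivity
    have e : lev D x v / D x = (D x)⁻¹ * lev D x v := by ring
    linarith
  have h4 : trH u D x = 2 * trH u G x - trH u (sq F) x := by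
    rw [hD, trH_sub (p := fun z => 2 * G z) hux (contDiffAt_const.mul hG) hsq,
      trH_const_mul hux hG]
  rw [h4] at h3
  have h5 : trH u G x ≤ c₁ * W x * D x := hGl.trans (by gcongr)
  -- conclusion
  set t := trH u (sq F) x with ht
  have h6 : t / D x ≤ κ + 8 * k * n / ζ x ^ 2 + c₃ * W x + 2 * (c₁ * W x) := by
    have c1 : t / D x = (D x)⁻¹ * (2 * trH u G x) - (D x)⁻¹ * (2 * trH u G x - t) := by ring
    have c2 : (D x)⁻¹ * (2 * trH u G x) ≤ 2 * (c₁ * W x) := by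
      rw [inv_mul_le_iff₀ hD0]
      linarith
    have c3 : 4 * (2 * k / ζ x ^ 2 * n) = 8 * k * n / ζ x ^ 2 := by ring
    linarith
  have h7 : t * Z x = t / D x * (ζ x ^ 4 / W x) := by
    simp only [hZdef]
    field_simp
  have h8 : 0 ≤ ζ x ^ 4 / W x := by positivity
  have hz4 : ζ x ^ 4 ≤ 1 := pow_le_one₀ hζ0.le hζ1
  have hz2 : ζ x ^ 2 ≤ 1 := pow_le_one₀ hζ0.le hζ1
  have g1 : ζ x ^ 4 / W x ≤ 1 := by
    rw [div_le_one hW0]
    linarith
  have g2 : 8 * k * n / ζ x ^ 2 * (ζ x ^ 4 / W x) ≤ 8 * k * n := by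
    have c1 : 8 * k * n / ζ x ^ 2 * (ζ x ^ 4 / W x) = 8 * k * n * (ζ x ^ 2 / W x) := by
      field_simp
    rw [c1]
    have c2 : ζ x ^ 2 / W x ≤ 1 := by
      rw [div_le_one hW0]
      linarith
    exact mul_le_of_le_one_right hkn c2
  have g3 : W x * (ζ x ^ 4 / W x) ≤ 1 := by
    rw [mul_div_cancel₀ _ hW0.ne']
    exact hz4
  calc t * Z x = t / D x * (ζ x ^ 4 / W x) := h7
    _ ≤ (κ + 8 * k * n / ζ x ^ 2 + c₃ * W x + 2 * (c₁ * W x)) * (ζ x ^ 4 / W x) := by gcongr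
    _ = κ * (ζ x ^ 4 / W x) + 8 * k * n / ζ x ^ 2 * (ζ x ^ 4 / W x)
        + c₃ * (W x * (ζ x ^ 4 / W x)) + 2 * c₁ * (W x * (ζ x ^ 4 / W x)) := by ring
    _ ≤ κ * 1 + 8 * k * n + c₃ * 1 + 2 * c₁ * 1 := by gcongr
    _ = _ := by ring

end main

end

end Crest.Agent.R257.GMa_101
end

-- ▼ part R257/GMb_101
section

/-!
# Row 257 (S0395), leaf GRAD-MOV (helper101), part b: the Laplacian on `M` and the global
maximum principle with cut-off functions

* `Lp A u p x`  : Laplacian of `p` at `x` for the Kaehler form `∂∂̄u`, `u p : M → ℝ` smooth;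
  `Lp_eq` : computed in any chart
* `KEle A u κ`  : `Ric(∂∂̄u) ≥ -κ ∂∂̄u` (Kaehler-Einstein with pluriharmonic factor: `κ = 1`)
* `grad_mov`    : global form of `cut_max`
-/

set_option autoImplicit false
set_option linter.unusedSectionVars false

open Set Filter Topology Complex
open scoped ContDiff ComplexConjugate Matrix

namespace Crest.Agent.R257.GMb_101

open Crest.Agent.R275.Geo Crest.Agent.R275.Core144 Crest.Agent.R275.GC293
open Crest.Agent.R273 Crest.Agent.R273.Levi_145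
open Crest.Agent.R273.YauDefs_635 Crest.Agent.R273.YauMax_635
open Crest.Agent.R273.GreenM_5 (ci mem_ci)
open Crest.Agent.R257.CLC_39 (trH contDiffOn_trH)
open Crest.Agent.R257.CLD_39 (contDiffOn_sq two_le' trH_congr)
open Crest.Agent.R257.GMa_101

noncomputable section

variable {n N : ℕ} {M : Type} [TopologicalSpace M] {A : Atl n M}

/-- strictly plurisubharmonic function on `M` -/
def Psh (A : Atl n M) (u : M → ℝ) : Prop :=
  ∀ i, ∀ z ∈ (A.e i).target, ∀ v : Cn n, v ≠ 0 → 0 < lev (inC A i u) z v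

/-- `Ric (∂∂̄u) ≥ - κ ∂∂̄u` -/
def KEle (A : Atl n M) (u : M → ℝ) (κ : ℝ) : Prop :=
  ∀ i, ∃ f : Cn n → ℝ, ContDiffOn ℝ ∞ f (A.e i).target ∧
    (∀ z ∈ (A.e i).target, (cH (inC A i u) z).det = (Real.exp (f z) : ℂ)) ∧
    ∀ z ∈ (A.e i).target, ∀ v : Cn n, lev f z v ≤ κ * lev (inC A i u) z v

/-- Laplacian of `p` at `x` for the Kaehler form `∂∂̄u` -/
def Lp (A : Atl n M) (u p : M → ℝ) (x : M) : ℝ :=
  trH (inC A (ci A x) u) (inC A (ci A x) p) (A.e (ci A x) x)

theorem trH_chart {u p : M → ℝ} (hu : A.Sm u) (hp : A.Sm p) {i j : A.ι} {x : M}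
    (hi : x ∈ (A.e i).source) (hj : x ∈ (A.e j).source) :
    trH (inC A i u) (inC A i p) (A.e i x) = trH (inC A j u) (inC A j p) (A.e j x) := by
  set T : Cn n → Cn n := fun w => A.e j ((A.e i).symm w) with hT
  have hTx : T (A.e i x) = A.e j x := by simp only [hT, (A.e i).left_inv hi]
  have hov : A.ov i j ∈ 𝓝 (A.e i x) := by
    have h1 : IsOpen (A.ov i j) := (A.e i).symm.isOpen_inter_preimage (A.e j).open_source
    refine h1.mem_nhds ⟨(A.e i).map_source hi, ?_⟩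
    show (A.e i).symm (A.e i x) ∈ _
    rwa [(A.e i).left_inv hi]
  have hTd : ∀ᶠ w in 𝓝 (A.e i x), DifferentiableAt ℂ T w := by
    have h1 : IsOpen (A.ov i j) := (A.e i).symm.isOpen_inter_preimage (A.e j).open_source
    filter_upwards [hov] with w hw
    exact (A.holo i j).differentiableAt (h1.mem_nhds hw)
  have hjt : A.e j x ∈ (A.e j).target := (A.e j).map_source hj
  have hinv : ∃ L : Cn n → Cn n, DifferentiableAt ℂ L (T (A.e i x)) ∧
      ∀ᶠ w in 𝓝 (A.e i x), L (T w) = w := by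
    refine ⟨fun w => A.e i ((A.e j).symm w), ?_, ?_⟩
    · rw [hTx]
      have h1 : IsOpen (A.ov j i) := (A.e j).symm.isOpen_inter_preimage (A.e i).open_source
      refine (A.holo j i).differentiableAt (h1.mem_nhds ⟨hjt, ?_⟩)
      show (A.e j).symm (A.e j x) ∈ _
      rwa [(A.e j).left_inv hj]
    · filter_upwards [hov] with w hw
      show A.e i ((A.e j).symm (A.e j ((A.e i).symm w))) = w
      rw [(A.e j).left_inv hw.2, (A.e i).right_inv hw.1]
  have key := trH_comp (u := inC A j u) (p := inC A j p) hTd hinv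
    (by rw [hTx]; exact inC_contDiffAt hu j hjt) (by rw [hTx]; exact inC_contDiffAt hp j hjt)
  rw [hTx] at key
  rw [← key]
  have hcg : ∀ g : M → ℝ, (fun w => inC A j g (T w)) =ᶠ[𝓝 (A.e i x)] inC A i g := by
    intro g
    filter_upwards [hov] with w hw
    show g ((A.e j).symm (A.e j ((A.e i).symm w))) = g ((A.e i).symm w)
    rw [(A.e j).left_inv hw.2]
  have hit : A.e i x ∈ (A.e i).target := (A.e i).map_source hi
  have c1 : cH (fun w => inC A j u (T w)) (A.e i x) = cH (inC A i u) (A.e i x) := by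
    rw [cH_eq_hess ((inC_contDiffAt hu i hit).congr_of_eventuallyEq (hcg u)),
      cH_eq_hess (inC_contDiffAt hu i hit), HessB_333.hess_congr (hcg u)]
  have c2 : cH (fun w => inC A j p (T w)) (A.e i x) = cH (inC A i p) (A.e i x) := by
    rw [cH_eq_hess ((inC_contDiffAt hp i hit).congr_of_eventuallyEq (hcg p)),
      cH_eq_hess (inC_contDiffAt hp i hit), HessB_333.hess_congr (hcg p)]
  unfold trH
  rw [c1, c2]

theorem Lp_eq {u p : M → ℝ} (hu : A.Sm u) (hp : A.Sm p) {i : A.ι} {x : M}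
    (hi : x ∈ (A.e i).source) : Lp A u p x = trH (inC A i u) (inC A i p) (A.e i x) :=
  trH_chart hu hp (mem_ci x) hi

theorem Lp_eq' {u p : M → ℝ} (hu : A.Sm u) (hp : A.Sm p) {i : A.ι} {z : Cn n}
    (hz : z ∈ (A.e i).target) : inC A i (Lp A u p) z = trH (inC A i u) (inC A i p) z := by
  show Lp A u p ((A.e i).symm z) = _
  rw [Lp_eq hu hp ((A.e i).map_target hz), (A.e i).right_inv hz]

theorem sm_Lp {u p : M → ℝ} (hu : A.Sm u) (hp : A.Sm p) {κ : ℝ} (hKE : KEle A u κ) :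
    A.Sm (Lp A u p) := by
  intro i
  obtain ⟨f, hf, hdet, -⟩ := hKE i
  have h1 : ContDiffOn ℝ ∞ (trH (inC A i u) (inC A i p)) (A.e i).target :=
    contDiffOn_trH (A.e i).open_target (hu i) (hp i) hdet
  exact h1.congr fun z hz => Lp_eq' hu hp hz

/-- `∑ |F_k|²` -/
def nF (F : M → Fin N → ℂ) (x : M) : ℝ := ∑ k, ‖F x k‖ ^ 2

/-- holomorphic functions on `M` -/
def Hol (A : Atl n M) (F : M → Fin N → ℂ) : Prop :=
  ∀ i k, DifferentiableOn ℂ (fun z => F ((A.e i).symm z) k) (A.e i).target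

theorem inC_nF (F : M → Fin N → ℂ) (i : A.ι) :
    inC A i (nF F) = FS_333.sq (fun z => F ((A.e i).symm z)) := rfl

theorem sm_nF {F : M → Fin N → ℂ} (hF : Hol A F) : A.Sm (nF F) := fun i =>
  contDiffOn_sq (A.e i).open_target (F := fun z => F ((A.e i).symm z)) (hF i)

theorem lev_nF_nonneg {F : M → Fin N → ℂ} (hF : Hol A F) (i : A.ι) {z : Cn n}
    (hz : z ∈ (A.e i).target) (v : Cn n) : 0 ≤ lev (inC A i (nF F)) z v := by
  have ha : ∀ k, AnalyticAt ℂ (fun z => F ((A.e i).symm z) k) z := fun k =>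
    anal_of_ev (by
      filter_upwards [(A.e i).open_target.mem_nhds hz] with w hw
      exact (hF i k).differentiableAt ((A.e i).open_target.mem_nhds hw))
  have h1 := lev_sumSq (F := fun k z => F ((A.e i).symm z) k) ha v
  have e : inC A i (nF F) = sumSq (fun k z => F ((A.e i).symm z) k) := rfl
  rw [e, h1]
  positivity

theorem Lp_nF_nonneg {u : M → ℝ} (hu : A.Sm u) (hpos : Psh A u) {F : M → Fin N → ℂ}
    (hF : Hol A F) (x : M) : 0 ≤ Lp A u (nF F) x := by
  have hz : A.e (ci A x) x ∈ (A.e (ci A x)).target := (A.e _).map_source (mem_ci x)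
  exact trH_nn (inC_contDiffAt hu _ hz) (hpos _ _ hz) (inC_contDiffAt (sm_nF hF) _ hz)
    (lev_nF_nonneg hF _ hz)

/-- bounds of a cut-off function: `∂∂̄ζ ≥ -k ω`, `|∂ζ|² ≤ k` at `x` -/
def CutB (A : Atl n M) (u ζ : M → ℝ) (k : ℝ) (x : M) : Prop :=
  ∀ i, x ∈ (A.e i).source → ∀ v : Cn n,
    -(k * lev (inC A i u) (A.e i x) v) ≤ lev (inC A i ζ) (A.e i x) v ∧
    ‖gr (inC A i ζ) (A.e i x) v‖ ^ 2 ≤ k * lev (inC A i u) (A.e i x) v

theorem inC_localMax {φ : M → ℝ} {x : M} (hm : IsLocalMax φ x) {i : A.ι}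
    (hx : x ∈ (A.e i).source) : IsLocalMax (inC A i φ) (A.e i x) := by
  have h1 : Tendsto (A.e i).symm (𝓝 (A.e i x)) (𝓝 x) := by
    have := (A.e i).continuousAt_symm ((A.e i).map_source hx)
    rw [ContinuousAt, (A.e i).left_inv hx] at this
    exact this
  have h2 := h1.eventually hm
  simp only [IsLocalMax, IsMaxFilter, inC, (A.e i).left_inv hx]
  exact h2

/-- the estimate at an interior maximum, on `M` -/
theorem cut_max_M {u ζ W G : M → ℝ} {κ k c₁ c₃ : ℝ} (hu : A.Sm u) (hpos : Psh A u)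
    (hKE : KEle A u κ) (hκ : 0 ≤ κ) {F : M → Fin N → ℂ} (hF : Hol A F)
    (hζ : A.Sm ζ) (hW : A.Sm W) (hG : A.Sm G) {x : M} (hζ0 : 0 < ζ x) (hζ1 : ζ x ≤ 1)
    (hk : 0 ≤ k) (hζb : CutB A u ζ k x) (hW1 : 1 ≤ W x) (hc₁ : 0 ≤ c₁) (hc₃ : 0 ≤ c₃)
    (hWl : Lp A u (fun y => Real.log (W y)) x ≤ c₃ * W x) (hG0 : 0 < G x) (hFG : nF F x ≤ G x)
    (hGl : Lp A u G x ≤ c₁ * W x * G x)
    (hmax : IsLocalMax (fun y => Lp A u (nF F) y * (ζ y ^ 4 / (W y * (2 * G y - nF F y)))) x) :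
    Lp A u (nF F) x * (ζ x ^ 4 / (W x * (2 * G x - nF F x))) ≤ κ + 8 * k * n + c₃ + 2 * c₁ := by
  set i := ci A x with hi
  have hx : x ∈ (A.e i).source := mem_ci x
  have hz : A.e i x ∈ (A.e i).target := (A.e i).map_source hx
  obtain ⟨f, hf, hdet, hle⟩ := hKE i
  have hinv : ∀ φ : M → ℝ, inC A i φ (A.e i x) = φ x := fun φ => by
    simp only [inC, (A.e i).left_inv hx]
  have hm := inC_localMax hmax hx
  have hm' : IsLocalMax (fun z => trH (inC A i u) (FS_333.sq fun z => F ((A.e i).symm z)) z *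
      (inC A i ζ z ^ 4 / (inC A i W z * (2 * inC A i G z - FS_333.sq (fun z => F ((A.e i).symm z)) z))))
      (A.e i x) := by
    refine hm.congr ?_
    filter_upwards [(A.e i).open_target.mem_nhds hz] with z hz'
    have := Lp_eq' hu (sm_nF hF) hz'
    show inC A i (Lp A u (nF F)) z * _ = _
    rw [this]
    rfl
  have key := cut_max (A.e i).open_target (hu i) hf hdet (hpos i) hle
    (F := fun z => F ((A.e i).symm z)) (hF i) hz hκ (inC_contDiffAt hζ i hz)
    (by rw [hinv]; exact hζ0) (by rw [hinv]; exact hζ1) hk (fun v => (hζb i hx v).1)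
    (fun v => (hζb i hx v).2) (inC_contDiffAt hW i hz) (by rw [hinv]; exact hW1) hc₁ hc₃
    (by rw [hinv]; exact hWl) (inC_contDiffAt hG i hz) (by rw [hinv]; exact hG0)
    (by rw [hinv, ← inC_nF, hinv]; exact hFG) (by rw [hinv, hinv]; exact hGl) hm'
  rw [← inC_nF, hinv, hinv, hinv, hinv] at key
  exact key

/-- **global estimate**: `|dF|² ≤ C W G` from a maximum principle with cut-off functions -/
theorem grad_mov {u W G : M → ℝ} {κ k c₁ c₃ B : ℝ} (hu : A.Sm u) (hpos : Psh A u)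
    (hKE : KEle A u κ) (hκ : 0 ≤ κ) {F : M → Fin N → ℂ} (hF : Hol A F)
    (hW : A.Sm W) (hG : A.Sm G) (hk : 0 ≤ k) (hc₁ : 0 ≤ c₁) (hc₃ : 0 ≤ c₃) (S : Set M)
    (hW1 : ∀ x ∈ S, 1 ≤ W x) (hWl : ∀ x ∈ S, Lp A u (fun y => Real.log (W y)) x ≤ c₃ * W x)
    (hG0 : ∀ x ∈ S, 0 < G x) (hFG : ∀ x ∈ S, nF F x ≤ G x)
    (hGl : ∀ x ∈ S, Lp A u G x ≤ c₁ * W x * G x)
    (hbd : ∀ x ∈ S, x ∉ interior S → Lp A u (nF F) x ≤ B * W x * G x)
    (hcut : ∀ x ∈ S, ∀ ε > 0, ∃ ζ : M → ℝ, A.Sm ζ ∧ (∀ y ∈ S, 0 ≤ ζ y ∧ ζ y ≤ 1) ∧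
      1 - ε ≤ ζ x ∧ (∃ K ⊆ S, IsCompact K ∧ ∀ y ∈ S, y ∉ K → ζ y = 0) ∧ ∀ y ∈ S, CutB A u ζ k y) :
    ∀ x ∈ S, Lp A u (nF F) x ≤ 2 * max B (κ + 8 * k * n + c₃ + 2 * c₁) * W x * G x := by
  set K₀ : ℝ := max B (κ + 8 * k * n + c₃ + 2 * c₁) with hK₀
  have hK0 : 0 ≤ K₀ := le_trans (by positivity) (le_max_right _ _)
  have hD : ∀ x ∈ S, G x ≤ 2 * G x - nF F x := fun x hx => by linarith [hFG x hx]
  have hT0 : ∀ x, 0 ≤ Lp A u (nF F) x := Lp_nF_nonneg hu hpos hF
  -- the estimate with cut-off function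
  have main : ∀ x ∈ S, ∀ ζ : M → ℝ, A.Sm ζ → (∀ y ∈ S, 0 ≤ ζ y ∧ ζ y ≤ 1) →
      (∃ K ⊆ S, IsCompact K ∧ ∀ y ∈ S, y ∉ K → ζ y = 0) → (∀ y ∈ S, CutB A u ζ k y) →
      Lp A u (nF F) x * (ζ x ^ 4 / (W x * (2 * G x - nF F x))) ≤ K₀ := by
    intro x hx ζ hζ h01 hKc hcb
    obtain ⟨K, hKS, hK, hK0'⟩ := hKc
    set Φ : M → ℝ := fun y => Lp A u (nF F) y * (ζ y ^ 4 / (W y * (2 * G y - nF F y))) with hΦ
    by_cases hxK : x ∈ K
    · -- maximum on `K`
      have hcont : ContinuousOn Φ K := by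
        have c1 : Continuous (Lp A u (nF F)) := continuous_of_sm (sm_Lp hu (sm_nF hF) hKE)
        have c2 := continuous_of_sm hζ
        have c3 := continuous_of_sm hW
        have c4 := continuous_of_sm hG
        have c5 := continuous_of_sm (sm_nF hF)
        refine c1.continuousOn.mul ((c2.pow 4).continuousOn.div
          (c3.mul ((continuous_const.mul c4).sub c5)).continuousOn fun y hy => ?_)
        have hyS := hKS hy
        have := hD y hyS
        have := hG0 y hyS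
        have := hW1 y hyS
        exact (mul_pos (by linarith) (by linarith)).ne'
      obtain ⟨x₀, hx₀, hmx⟩ := hK.exists_isMaxOn ⟨x, hxK⟩ hcont
      have hx₀S := hKS hx₀
      have hpos' : ∀ y ∈ S, 0 ≤ Φ y := by
        intro y hy
        have := hD y hy
        have := hG0 y hy
        have := hW1 y hy
        have h3 : 0 < W y * (2 * G y - nF F y) := mul_pos (by linarith) (by linarith)
        exact mul_nonneg (hT0 y) (div_nonneg (pow_nonneg (h01 y hy).1 4) h3.le)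
      have hmS : ∀ y ∈ S, Φ y ≤ Φ x₀ := by
        intro y hy
        by_cases hyK : y ∈ K
        · exact hmx hyK
        · have : Φ y = 0 := by simp only [hΦ, hK0' y hy hyK]; simp
          rw [this]
          exact hpos' x₀ hx₀S
      refine (hmS x hx).trans ?_
      have hDx := hD x₀ hx₀S
      have hGx := hG0 x₀ hx₀S
      have hWx := hW1 x₀ hx₀S
      have hWD : 0 < W x₀ * (2 * G x₀ - nF F x₀) := mul_pos (by linarith) (by linarith)
      by_cases hin : x₀ ∈ interior S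
      · rcases (h01 x₀ hx₀S).1.eq_or_lt with h0 | h0
        · have : Φ x₀ = 0 := by simp only [hΦ, ← h0]; simp
          rw [this]; exact hK0
        · have hlm : IsLocalMax Φ x₀ := by
            filter_upwards [mem_interior_iff_mem_nhds.1 hin] with y hy
            exact hmS y hy
          exact (cut_max_M hu hpos hKE hκ hF hζ hW hG h0 (h01 x₀ hx₀S).2 hk (hcb x₀ hx₀S) hWx
            hc₁ hc₃ (hWl x₀ hx₀S) hGx (hFG x₀ hx₀S) (hGl x₀ hx₀S) hlm).trans (le_max_right _ _)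
      · have h1 := hbd x₀ hx₀S hin
        have h2 : Lp A u (nF F) x₀ ≤ K₀ * W x₀ * G x₀ := by
          refine h1.trans ?_
          have : 0 ≤ W x₀ * G x₀ := by positivity
          nlinarith [le_max_left B (κ + 8 * k * n + c₃ + 2 * c₁)]
        have h4 : ζ x₀ ^ 4 ≤ 1 := pow_le_one₀ (h01 x₀ hx₀S).1 (h01 x₀ hx₀S).2
        calc Φ x₀ ≤ Lp A u (nF F) x₀ * (1 / (W x₀ * (2 * G x₀ - nF F x₀))) := by
              simp only [hΦ]
              have := hT0 x₀
              gcongr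
          _ ≤ K₀ := by
              rw [mul_one_div, div_le_iff₀ hWD]
              refine h2.trans ?_
              rw [← mul_assoc]
              have : 0 ≤ K₀ * W x₀ := by positivity
              gcongr
    · have h1 : Φ x = 0 := by simp only [hΦ, hK0' x hx hxK]; simp
      show Φ x ≤ K₀
      rw [h1]
      exact hK0
  intro x hx
  have hDx := hD x hx
  have hGx := hG0 x hx
  have hWx := hW1 x hx
  have hW0 : 0 < W x := by linarith
  have hWD : 0 < W x * (2 * G x - nF F x) := mul_pos (by linarith) (by linarith)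
  have hlim : ∀ ε ∈ Ioo (0 : ℝ) 1, Lp A u (nF F) x * ((1 - ε) ^ 4 / (W x * (2 * G x - nF F x)))
      ≤ K₀ := by
    intro ε hε
    obtain ⟨ζ, hζ, h01, h1, h2, h3⟩ := hcut x hx ε hε.1
    refine le_trans ?_ (main x hx ζ hζ h01 h2 h3)
    have h5 : 0 ≤ 1 - ε := by linarith [hε.2]
    have := hT0 x
    gcongr
  have hlim2 : Lp A u (nF F) x * ((1 - 0) ^ 4 / (W x * (2 * G x - nF F x))) ≤ K₀ := by
    have hc : ContinuousAt (fun ε : ℝ => Lp A u (nF F) x *
        ((1 - ε) ^ 4 / (W x * (2 * G x - nF F x)))) 0 := by fun_prop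
    have ht := hc.tendsto.mono_left (nhdsWithin_le_nhds (s := Ioi 0))
    refine le_of_tendsto ht ?_
    filter_upwards [Ioo_mem_nhdsGT (zero_lt_one (α := ℝ))] with ε hε
    exact hlim ε hε
  rw [sub_zero, one_pow, mul_one_div, div_le_iff₀ hWD] at hlim2
  refine hlim2.trans ?_
  have h6 : 2 * G x - nF F x ≤ 2 * G x := by
    have : 0 ≤ nF F x := Finset.sum_nonneg fun k _ => by positivity
    linarith
  calc K₀ * (W x * (2 * G x - nF F x)) ≤ K₀ * (W x * (2 * G x)) := by gcongr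
    _ = _ := by ring

end

end Crest.Agent.R257.GMb_101
end

-- ▼ part R257/GMc_101
section

/-!
# Row 257 (S0395), leaf GRAD-MOV (helper101), part c: the moving gradient estimate

`grad_mov_ke` : `u` strictly psh on `M`, `Ric(∂∂̄u) ≥ -κ ∂∂̄u`, `u + 1 ≤ A₀`,
`|∂u|² ≤ Cg (A₀ - u)²`, `{x ∈ S | -R ≤ u x}` compact, `S \ interior S` compact, `F` holomorphic with
`|F|² ≤ C e^{a u} (A₀ - u)^m` on `S`; then `|dF|² ≤ C' e^{a u} (A₀ - u)^(m + 2)` on `S`.
-/

set_option autoImplicit false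
set_option linter.unusedSectionVars false

open Set Filter Topology Complex
open scoped ContDiff ComplexConjugate Matrix

namespace Crest.Agent.R257.GMc_101

open Crest.Agent.R275.Geo Crest.Agent.R275.Core144 Crest.Agent.R275.GC293
open Crest.Agent.R273 Crest.Agent.R273.Levi_145
open Crest.Agent.R273.YauDefs_635 Crest.Agent.R273.YauMax_635
open Crest.Agent.R273.GreenM_5 (ci mem_ci)
open Crest.Agent.R257.CLC_39 (trH contDiffOn_trH)
open Crest.Agent.R257.CLD_39 (contDiffOn_sq two_le' trH_congr)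
open Crest.Agent.R257.GMa_101 Crest.Agent.R257.GMb_101
open Crest.Agent.R257.GradB_537 (rho sm_rho cut_off)

noncomputable section

/-! ### a cut-off function on the line -/

theorem exists_chi : ∃ (χ χ' χ'' : ℝ → ℝ) (K : ℝ), ContDiff ℝ ∞ χ ∧ (∀ t, HasDerivAt χ (χ' t) t) ∧
    (∀ t, HasDerivAt χ' (χ'' t) t) ∧ (∀ t, |χ' t| ≤ K) ∧ (∀ t, |χ'' t| ≤ K) ∧
    (∀ t, 0 ≤ χ t ∧ χ t ≤ 1) ∧ (∀ t, t ≤ 1 → χ t = 1) ∧ (∀ t, 2 ≤ t → χ t = 0) := by
  set χ : ℝ → ℝ := fun t => Real.smoothTransition (2 - t) with hχ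
  have hs : ContDiff ℝ ∞ χ :=
    Real.smoothTransition.contDiff.comp (contDiff_const.sub contDiff_id)
  have h1 : ∀ t, t ≤ 1 → χ t = 1 := fun t ht =>
    Real.smoothTransition.one_of_one_le (by linarith)
  have h2 : ∀ t, 2 ≤ t → χ t = 0 := fun t ht =>
    Real.smoothTransition.zero_of_nonpos (by linarith)
  have hd : ContDiff ℝ ∞ (deriv χ) := by
    have := (contDiff_infty_iff_deriv (𝕜 := ℝ) (f := χ)).1 hs
    exact this.2
  have hdd : ContDiff ℝ ∞ (deriv (deriv χ)) := by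
    have := (contDiff_infty_iff_deriv (𝕜 := ℝ) (f := deriv χ)).1 hd
    exact this.2
  have z1 : ∀ t, t < 1 → deriv χ =ᶠ[𝓝 t] fun _ => 0 := by
    intro t ht
    filter_upwards [gt_mem_nhds ht] with s hs
    have : χ =ᶠ[𝓝 s] fun _ => 1 := by
      filter_upwards [gt_mem_nhds hs] with r hr
      exact h1 r hr.le
    rw [this.deriv_eq, deriv_const]
  have z2 : ∀ t, 2 < t → deriv χ =ᶠ[𝓝 t] fun _ => 0 := by
    intro t ht
    filter_upwards [lt_mem_nhds ht] with s hs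
    have : χ =ᶠ[𝓝 s] fun _ => 0 := by
      filter_upwards [lt_mem_nhds hs] with r hr
      exact h2 r hr.le
    rw [this.deriv_eq, deriv_const]
  obtain ⟨K₁, hK₁⟩ := isCompact_Icc (a := (1 : ℝ)) (b := 2) |>.exists_bound_of_continuousOn
    hd.continuous.continuousOn
  obtain ⟨K₂, hK₂⟩ := isCompact_Icc (a := (1 : ℝ)) (b := 2) |>.exists_bound_of_continuousOn
    hdd.continuous.continuousOn
  refine ⟨χ, deriv χ, deriv (deriv χ), max 0 (max K₁ K₂), hs,
    fun t => (hs.differentiable (by simp)).differentiableAt.hasDerivAt,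
    fun t => (hd.differentiable (by simp)).differentiableAt.hasDerivAt, fun t => ?_, fun t => ?_,
    fun t => ⟨Real.smoothTransition.nonneg _, Real.smoothTransition.le_one _⟩, h1, h2⟩
  · by_cases ht : t ∈ Icc (1 : ℝ) 2
    · exact ((hK₁ t ht).trans (le_max_left _ _)).trans (le_max_right _ _)
    · have : deriv χ t = 0 := by
        rw [mem_Icc, not_and_or, not_le, not_le] at ht
        rcases ht with h | h
        · exact (z1 t h).self_of_nhds
        · exact (z2 t h).self_of_nhds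
      rw [this, abs_zero]
      exact le_max_left _ _
  · by_cases ht : t ∈ Icc (1 : ℝ) 2
    · exact ((hK₂ t ht).trans (le_max_right _ _)).trans (le_max_right _ _)
    · have : deriv (deriv χ) t = 0 := by
        rw [mem_Icc, not_and_or, not_le, not_le] at ht
        rcases ht with h | h
        · rw [(z1 t h).deriv_eq, deriv_const]
        · rw [(z2 t h).deriv_eq, deriv_const]
      rw [this, abs_zero]
      exact le_max_left _ _

variable {n N : ℕ} {M : Type} [TopologicalSpace M] {A : Atl n M}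

/-- `|∂u|² ≤ Cg (A₀ - u)² ∂∂̄u` at the points of `S` -/
def GradB (A : Atl n M) (u : M → ℝ) (A₀ Cg : ℝ) (S : Set M) : Prop :=
  ∀ x ∈ S, ∀ i, x ∈ (A.e i).source → ∀ v : Cn n,
    ‖gr (inC A i u) (A.e i x) v‖ ^ 2 ≤ Cg * ((A₀ - u x) ^ 2 * lev (inC A i u) (A.e i x) v)

theorem lev_nn {u : M → ℝ} (hpos : Psh A u) {i : A.ι} {z : Cn n} (hz : z ∈ (A.e i).target)
    (v : Cn n) : 0 ≤ lev (inC A i u) z v := by
  rcases eq_or_ne v 0 with h0 | h0
  · rw [h0, lev_zero]
  · exact (hpos i z hz v h0).le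

/-- the weight `e^{a u} (A₀ - u)^m` -/
def Gw (u : M → ℝ) (A₀ a : ℝ) (m : ℕ) (x : M) : ℝ := Real.exp (a * u x) * (A₀ - u x) ^ m

theorem sm_Gw {u : M → ℝ} (hu : A.Sm u) (A₀ a : ℝ) (m : ℕ) : A.Sm (Gw u A₀ a m) := fun i =>
  ((contDiffOn_const.mul (hu i)).exp).mul ((contDiffOn_const.sub (hu i)).pow m)

section local_calc

variable {u : Cn n → ℝ} {z : Cn n} {A₀ : ℝ}

theorem gr_add' {f g : Cn n → ℝ} (hf : DifferentiableAt ℝ f z) (hg : DifferentiableAt ℝ g z)
    (v : Cn n) : gr (fun y => f y + g y) z v = gr f z v + gr g z v := by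
  have h : fderiv ℝ (fun y => f y + g y) z = fderiv ℝ f z + fderiv ℝ g z :=
    fderiv_fun_add hf hg
  have hfg : DifferentiableAt ℝ (fun y => f y + g y) z := hf.add hg
  rw [gr_eq hfg, gr_eq hf, gr_eq hg, h]
  simp only [_root_.add_apply]
  push_cast
  ring

theorem gr_const_mul' {f : Cn n → ℝ} (hf : DifferentiableAt ℝ f z) (c : ℝ) (v : Cn n) :
    gr (fun y => c * f y) z v = c * gr f z v := by
  have h : fderiv ℝ (fun y => c * f y) z = c • fderiv ℝ f z := fderiv_const_mul hf c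
  rw [gr_eq (hf.const_mul c), gr_eq hf, h]
  simp only [_root_.smul_apply, smul_eq_mul]
  push_cast
  ring

theorem lev_Gw (hu : ContDiffAt ℝ ∞ u z) (hA : u z + 1 ≤ A₀) (a : ℝ) (m : ℕ) {Cg : ℝ} (v : Cn n)
    (h0 : 0 ≤ lev u z v) (hCg : 0 ≤ Cg)
    (hC : ‖gr u z v‖ ^ 2 ≤ Cg * ((A₀ - u z) ^ 2 * lev u z v)) :
    lev (fun y => Real.exp (a * u y) * (A₀ - u y) ^ m) z v ≤
      (|a| + (|a| + m) ^ 2 * Cg) * (A₀ - u z) ^ 2 * (Real.exp (a * u z) * (A₀ - u z) ^ m) *
        lev u z v := by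
  have hw1 : 1 ≤ A₀ - u z := by linarith
  have hw0 : 0 < A₀ - u z := by linarith
  have hAz : u z < A₀ := by linarith
  have hr : ContDiffAt ℝ ∞ (rho A₀ u) z := sm_rho hu hAz
  set b : Cn n → ℝ := fun y => a * u y + m * rho A₀ u y with hb
  have hau : ContDiffAt ℝ ∞ (fun y => a * u y) z := contDiffAt_const.mul hu
  have hmr : ContDiffAt ℝ ∞ (fun y => (m : ℝ) * rho A₀ u y) z := contDiffAt_const.mul hr
  have hbs : ContDiffAt ℝ ∞ b z := hau.add hmr
  have e1 : (fun y => Real.exp (a * u y) * (A₀ - u y) ^ m) =ᶠ[𝓝 z] fun y => Real.exp (b y) := by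
    filter_upwards [hu.continuousAt.eventually (gt_mem_nhds hAz)] with y hy
    have h1 : 0 < A₀ - u y := by linarith
    simp only [hb, rho]
    have h2 : Real.exp (m * Real.log (A₀ - u y)) = (A₀ - u y) ^ m := by
      rw [Real.exp_nat_mul, Real.exp_log h1]
    rw [Real.exp_add, h2]
  have e2 : Real.exp (b z) = Real.exp (a * u z) * (A₀ - u z) ^ m := e1.self_of_nhds.symm
  rw [lev_congr e1, lev_exp (two_le' hbs), e2]
  have l1 : lev b z v ≤ |a| * lev u z v := by
    rw [hb, lev_add (u := fun y => a * u y) (two_le' hau) (two_le' hmr),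
      lev_const_mul a (two_le' hu), lev_const_mul (m : ℝ) (two_le' hr),
      GradB_537.lev_rho (two_le' hu) hAz]
    have c1 : a * lev u z v ≤ |a| * lev u z v := by
      gcongr
      exact le_abs_self a
    have c2 : 0 ≤ (m : ℝ) * (lev u z v / (A₀ - u z)) := by positivity
    have c3 : 0 ≤ (m : ℝ) * (‖gr u z v‖ ^ 2 / (A₀ - u z) ^ 2) := by positivity
    nlinarith
  have g1 : ‖gr b z v‖ ≤ (|a| + m) * ‖gr u z v‖ := by
    rw [hb, gr_add' (f := fun y => a * u y) (c2_diff (two_le' hau)) (c2_diff (two_le' hmr)),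
      gr_const_mul' (c2_diff (two_le' hu)), gr_const_mul' (c2_diff (two_le' hr)),
      GradB_537.gr_rho (c2_diff (two_le' hu)) hAz]
    refine (norm_add_le _ _).trans ?_
    rw [norm_mul, norm_mul, norm_mul, norm_neg, Complex.norm_real, Complex.norm_real,
      Complex.norm_real, Real.norm_eq_abs, Real.norm_eq_abs, Real.norm_eq_abs, Nat.abs_cast,
      abs_of_pos (inv_pos.2 hw0)]
    have c1 : (A₀ - u z)⁻¹ ≤ 1 := inv_le_one_of_one_le₀ hw1
    have c2 : (m : ℝ) * ((A₀ - u z)⁻¹ * ‖gr u z v‖) ≤ m * (1 * ‖gr u z v‖) := by gcongr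
    linarith
  have g2 : ‖gr b z v‖ ^ 2 ≤ (|a| + m) ^ 2 * Cg * (A₀ - u z) ^ 2 * lev u z v := by
    calc ‖gr b z v‖ ^ 2 ≤ ((|a| + m) * ‖gr u z v‖) ^ 2 := by gcongr
      _ = (|a| + m) ^ 2 * ‖gr u z v‖ ^ 2 := by ring
      _ ≤ (|a| + m) ^ 2 * (Cg * ((A₀ - u z) ^ 2 * lev u z v)) := by gcongr
      _ = _ := by ring
  have hE : 0 ≤ Real.exp (a * u z) * (A₀ - u z) ^ m := by positivity
  have hw2 : 1 ≤ (A₀ - u z) ^ 2 := one_le_pow₀ hw1
  calc Real.exp (a * u z) * (A₀ - u z) ^ m * (lev b z v + ‖gr b z v‖ ^ 2)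
      ≤ Real.exp (a * u z) * (A₀ - u z) ^ m * (|a| * lev u z v * (A₀ - u z) ^ 2
        + (|a| + m) ^ 2 * Cg * (A₀ - u z) ^ 2 * lev u z v) := by
        have c1 : |a| * lev u z v ≤ |a| * lev u z v * (A₀ - u z) ^ 2 :=
          le_mul_of_one_le_right (by positivity) hw2
        have c2 := add_le_add (l1.trans c1) g2
        exact mul_le_mul_of_nonneg_left c2 hE
    _ = _ := by ring

theorem lev_logW (hu : ContDiffAt ℝ ∞ u z) (hA : u z + 1 ≤ A₀) (v : Cn n) (h0 : 0 ≤ lev u z v) :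
    lev (fun y => Real.log ((A₀ - u y) ^ 2)) z v ≤ 0 := by
  have hw0 : 0 < A₀ - u z := by linarith
  have hAz : u z < A₀ := by linarith
  have hr : ContDiffAt ℝ ∞ (rho A₀ u) z := sm_rho hu hAz
  have e1 : (fun y => Real.log ((A₀ - u y) ^ 2)) = fun y => 2 * rho A₀ u y := by
    funext y
    rw [Real.log_pow]
    push_cast
    rfl
  rw [e1, lev_const_mul 2 (two_le' hr), GradB_537.lev_rho (two_le' hu) hAz]
  have c2 : 0 ≤ lev u z v / (A₀ - u z) := by positivity
  have c3 : 0 ≤ ‖gr u z v‖ ^ 2 / (A₀ - u z) ^ 2 := by positivity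
  linarith

end local_calc

/-- **GRAD-MOV.**  The moving gradient estimate. -/
theorem grad_mov_ke {u : M → ℝ} {κ A₀ Cg C a : ℝ} {m : ℕ} (hu : A.Sm u) (hpos : Psh A u)
    (hKE : KEle A u κ) (hκ : 0 ≤ κ) (hA : ∀ x, u x + 1 ≤ A₀) (hCg : 0 ≤ Cg) {S : Set M}
    (hgr : GradB A u A₀ Cg S) (hprop : ∀ R : ℝ, IsCompact {x ∈ S | -R ≤ u x})
    (hfr : IsCompact (S \ interior S)) {F : M → Fin N → ℂ} (hF : Hol A F) (hC : 0 < C)
    (hFG : ∀ x ∈ S, nF F x ≤ C * Gw u A₀ a m x) :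
    ∃ C' : ℝ, 0 < C' ∧ ∀ x ∈ S, Lp A u (nF F) x ≤ C' * Gw u A₀ a (m + 2) x := by
  obtain ⟨χ, χ', χ'', K, hχ, hχ', hχ'', hK1, hK2, h01, hone, hzero⟩ := exists_chi
  have hK0 : 0 ≤ K := (abs_nonneg _).trans (hK1 0)
  set W : M → ℝ := fun x => (A₀ - u x) ^ 2 with hWdef
  set G : M → ℝ := fun x => C * Gw u A₀ a m x with hGdef
  have hW : A.Sm W := fun i => (contDiffOn_const.sub (hu i)).pow 2
  have hG : A.Sm G := fun i => contDiffOn_const.mul (sm_Gw hu A₀ a m i)
  have hw1 : ∀ x, 1 ≤ A₀ - u x := fun x => by linarith [hA x]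
  have hW1 : ∀ x, 1 ≤ W x := fun x => one_le_pow₀ (hw1 x)
  have hG0 : ∀ x, 0 < G x := fun x => by
    have : 0 < A₀ - u x := by linarith [hw1 x]
    simp only [hGdef, Gw]
    positivity
  set k : ℝ := max (K * (2 * Cg + 1)) (K ^ 2 * Cg) with hk
  have hk0 : 0 ≤ k := le_trans (by positivity) (le_max_right _ _)
  set c₁ : ℝ := (|a| + (|a| + m) ^ 2 * Cg) * n with hc₁
  have hc₁0 : 0 ≤ c₁ := by positivity
  have hchart : ∀ x : M, ∃ i, x ∈ (A.e i).source := A.cover
  -- the boundary constant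
  have hbdd : ∃ B : ℝ, ∀ x ∈ S, x ∉ interior S → Lp A u (nF F) x ≤ B * W x * G x := by
    have hcont : Continuous (fun x => Lp A u (nF F) x / (W x * G x)) := by
      refine (continuous_of_sm (sm_Lp hu (sm_nF hF) hKE)).div
        ((continuous_of_sm hW).mul (continuous_of_sm hG)) fun x => ?_
      exact (mul_pos (by linarith [hW1 x]) (hG0 x)).ne'
    obtain ⟨B, hB⟩ := hfr.exists_bound_of_continuousOn hcont.continuousOn
    refine ⟨B, fun x hx hxi => ?_⟩
    have h1 := (le_abs_self _).trans (hB x ⟨hx, hxi⟩)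
    rw [div_le_iff₀ (mul_pos (by linarith [hW1 x]) (hG0 x))] at h1
    linarith
  obtain ⟨B, hB⟩ := hbdd
  have hWl : ∀ x ∈ S, Lp A u (fun y => Real.log (W y)) x ≤ 0 * W x := by
    intro x hx
    have hz : A.e (ci A x) x ∈ (A.e (ci A x)).target := (A.e _).map_source (mem_ci x)
    have hinv : inC A (ci A x) u (A.e (ci A x) x) = u x := by
      simp only [inC, (A.e _).left_inv (mem_ci x)]
    have hlW : A.Sm (fun y => Real.log (W y)) := fun i =>
      (hW i).log fun z hz => by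
        have := hW1 ((A.e i).symm z)
        exact (by linarith : (0 : ℝ) < W ((A.e i).symm z)).ne'
    have h1 : trH (inC A (ci A x) u) (inC A (ci A x) fun y => Real.log (W y))
        (A.e (ci A x) x) ≤ 0 * n := by
      refine trH_le_n (inC_contDiffAt hu _ hz) (hpos _ _ hz) (inC_contDiffAt hlW _ hz) fun v => ?_
      rw [zero_mul]
      exact lev_logW (u := inC A (ci A x) u) (inC_contDiffAt hu _ hz) (by rw [hinv]; exact hA x) v
        (lev_nn hpos hz v)
    rw [zero_mul] at h1 ⊢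
    exact h1
  have hGl : ∀ x ∈ S, Lp A u G x ≤ c₁ * W x * G x := by
    intro x hx
    have hz : A.e (ci A x) x ∈ (A.e (ci A x)).target := (A.e _).map_source (mem_ci x)
    have hinv : inC A (ci A x) u (A.e (ci A x) x) = u x := by
      simp only [inC, (A.e _).left_inv (mem_ci x)]
    have h1 : trH (inC A (ci A x) u) (inC A (ci A x) G) (A.e (ci A x) x) ≤
        ((|a| + (|a| + m) ^ 2 * Cg) * (A₀ - u x) ^ 2 * G x) * n := by
      refine trH_le_n (inC_contDiffAt hu _ hz) (hpos _ _ hz) (inC_contDiffAt hG _ hz) fun v => ?_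
      have e1 : inC A (ci A x) G = fun y => C * (fun y => Real.exp (a * inC A (ci A x) u y) *
        (A₀ - inC A (ci A x) u y) ^ m) y := rfl
      have s1 : ContDiffAt ℝ ∞ (fun y => Real.exp (a * inC A (ci A x) u y) *
          (A₀ - inC A (ci A x) u y) ^ m) (A.e (ci A x) x) := inC_contDiffAt (sm_Gw hu A₀ a m) _ hz
      rw [e1, lev_const_mul C (two_le' s1)]
      have h2 := lev_Gw (u := inC A (ci A x) u) (A₀ := A₀) (inC_contDiffAt hu _ hz)
        (by rw [hinv]; exact hA x) a m (Cg := Cg) v (lev_nn hpos hz v) hCg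
        (by rw [hinv]; exact hgr x hx _ (mem_ci x) v)
      rw [hinv] at h2
      calc C * _ ≤ C * _ := mul_le_mul_of_nonneg_left h2 hC.le
        _ = _ := by simp only [hGdef, Gw]; ring
    refine h1.trans (le_of_eq ?_)
    simp only [hc₁, hWdef]
    ring
  have hcut : ∀ x ∈ S, ∀ ε > 0, ∃ ζ : M → ℝ, A.Sm ζ ∧ (∀ y ∈ S, 0 ≤ ζ y ∧ ζ y ≤ 1) ∧
      1 - ε ≤ ζ x ∧ (∃ K ⊆ S, IsCompact K ∧ ∀ y ∈ S, y ∉ K → ζ y = 0) ∧
      ∀ y ∈ S, CutB A u ζ k y := by
    intro x hx ε hε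
    set j : ℝ := max 1 (Real.log (A₀ - u x)) with hj
    have hj1 : 1 ≤ j := le_max_left _ _
    have hj0 : 0 < j := by linarith
    refine ⟨fun y => χ (Real.log (A₀ - u y) / j), ?_, fun y _ => h01 _, ?_, ?_, ?_⟩
    · intro i
      refine hχ.comp_contDiffOn (((contDiffOn_const.sub (hu i)).log fun z hz => ?_).div_const j)
      have := hw1 ((A.e i).symm z)
      exact (by linarith : (0 : ℝ) < A₀ - u ((A.e i).symm z)).ne'
    · have : Real.log (A₀ - u x) / j ≤ 1 := by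
        rw [div_le_one hj0]; exact le_max_right _ _
      simp only
      rw [hone _ this]
      linarith
    · refine ⟨{y ∈ S | -(Real.exp (2 * j) - A₀) ≤ u y}, sep_subset _ _, hprop _, ?_⟩
      intro y hy hyK
      apply hzero
      rw [le_div_iff₀ hj0]
      have h1 : u y < -(Real.exp (2 * j) - A₀) := by
        by_contra h
        exact hyK ⟨hy, not_lt.1 h⟩
      have h2 : Real.exp (2 * j) ≤ A₀ - u y := by linarith
      calc 2 * j = Real.log (Real.exp (2 * j)) := (Real.log_exp _).symm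
        _ ≤ _ := Real.log_le_log (Real.exp_pos _) h2
    · intro y hy i hyi v
      have hz : A.e i y ∈ (A.e i).target := (A.e i).map_source hyi
      have hinv : inC A i u (A.e i y) = u y := by simp only [inC, (A.e i).left_inv hyi]
      have h1 := cut_off (A := A₀) (C := Cg) (u := inC A i u) (x := A.e i y) hχ' hχ'' hK1 hK2 hj1
        (inC_contDiffAt hu i hz) (by rw [hinv]; exact hA y) v (lev_nn hpos hz v)
        (by rw [hinv]; exact hgr y hy i hyi v)
      have e : inC A i (fun y => χ (Real.log (A₀ - u y) / j)) =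
        fun z => χ (rho A₀ (inC A i u) z / j) := rfl
      rw [e]
      have hl := lev_nn hpos hz v
      refine ⟨?_, h1.2.trans ?_⟩
      · have h2 := (abs_le.1 h1.1).1
        have h3 : K * (2 * Cg + 1) / j ≤ k :=
          (div_le_self (by positivity) hj1).trans (le_max_left _ _)
        have h4 := mul_le_mul_of_nonneg_right h3 hl
        linarith
      · have h3 : K ^ 2 * Cg / j ^ 2 ≤ k :=
          (div_le_self (by positivity) (one_le_pow₀ hj1)).trans (le_max_right _ _)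
        exact mul_le_mul_of_nonneg_right h3 hl
  have key := grad_mov (κ := κ) (k := k) (c₁ := c₁) (c₃ := 0) (B := B) hu hpos hKE hκ hF hW hG hk0
    hc₁0 le_rfl S (fun x _ => hW1 x) hWl (fun x _ => hG0 x) hFG hGl hB hcut
  set K₀ : ℝ := max B (κ + 8 * k * n + 0 + 2 * c₁) with hK₀
  have hK₀0 : 0 ≤ K₀ := le_trans (by positivity) (le_max_right _ _)
  refine ⟨2 * K₀ * C + 1, by positivity, fun x hx => (key x hx).trans ?_⟩
  have hw0 : 0 < A₀ - u x := by linarith [hw1 x]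
  have e : 2 * K₀ * W x * G x = (2 * K₀ * C) * Gw u A₀ a (m + 2) x := by
    simp only [hWdef, hGdef, Gw]
    ring
  have h5 : 0 ≤ Gw u A₀ a (m + 2) x := by
    unfold Gw
    positivity
  rw [e]
  nlinarith

/-- the form in the tangent directions -/
theorem fderiv_le {u : M → ℝ} (hu : A.Sm u) (hpos : Psh A u) {F : M → Fin N → ℂ} (hF : Hol A F)
    {i : A.ι} {x : M} (hx : x ∈ (A.e i).source) (v : Cn n) :
    ∑ k, ‖fderiv ℂ (fun z => F ((A.e i).symm z) k) (A.e i x) v‖ ^ 2 ≤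
      Lp A u (nF F) x * lev (inC A i u) (A.e i x) v := by
  have hz : A.e i x ∈ (A.e i).target := (A.e i).map_source hx
  have ha : ∀ k, AnalyticAt ℂ (fun z => F ((A.e i).symm z) k) (A.e i x) := fun k =>
    anal_of_ev (by
      filter_upwards [(A.e i).open_target.mem_nhds hz] with w hw
      exact (hF i k).differentiableAt ((A.e i).open_target.mem_nhds hw))
  have h1 := lev_sumSq (F := fun k z => F ((A.e i).symm z) k) ha v
  rw [← h1, Lp_eq hu (sm_nF hF) hx]
  exact le_trH (inC_contDiffAt hu i hz) (hpos i _ hz) (inC_contDiffAt (sm_nF hF) i hz)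
    (lev_nF_nonneg hF i hz) v

end

end Crest.Agent.R257.GMc_101
end

-- ▼ part R257/GMd_101
section

/-!
# Row 257 (S0395), leaf GRAD-MOV (helper101), part d: Kaehler-Einstein form

* `KEq A u c`      : `det ∂∂̄u = e^{c u} |h_i|²` in every chart, `h_i` holomorphic without zeros
* `KEq.kele`       : `KEle A u c`
* `grad_mov_fderiv`: the estimate in the tangent directions, `N` functions
* `grad_mov_one`   : one function `g : M → ℂ`
-/

set_option autoImplicit false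
set_option linter.unusedSectionVars false

open Set Filter Topology Complex
open scoped ContDiff ComplexConjugate Matrix

namespace Crest.Agent.R257.GMd_101

open Crest.Agent.R275.Geo Crest.Agent.R275.Core144 Crest.Agent.R275.GC293
open Crest.Agent.R273 Crest.Agent.R273.Levi_145
open Crest.Agent.R273.YauDefs_635 Crest.Agent.R273.YauMax_635
open Crest.Agent.R257.CLD_39 (two_le')
open Crest.Agent.R257.GMa_101 Crest.Agent.R257.GMb_101 Crest.Agent.R257.GMc_101

noncomputable section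

variable {n N : ℕ} {M : Type} [TopologicalSpace M] {A : Atl n M}



/-- **GRAD-MOV**, several functions, tangent directions -/
theorem grad_mov_fderiv {u : M → ℝ} {κ A₀ Cg C a : ℝ} {m : ℕ} (hu : A.Sm u) (hpos : Psh A u)
    (hKE : KEle A u κ) (hκ : 0 ≤ κ) (hA : ∀ x, u x + 1 ≤ A₀) (hCg : 0 ≤ Cg) {S : Set M}
    (hgr : GradB A u A₀ Cg S) (hprop : ∀ R : ℝ, IsCompact {x ∈ S | -R ≤ u x})
    (hfr : IsCompact (S \ interior S)) {F : M → Fin N → ℂ} (hF : Hol A F) (hC : 0 < C)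
    (hFG : ∀ x ∈ S, nF F x ≤ C * (Real.exp (a * u x) * (A₀ - u x) ^ m)) :
    ∃ C' : ℝ, 0 < C' ∧ ∀ x ∈ S, ∀ i, x ∈ (A.e i).source → ∀ v : Cn n,
      ∑ k, ‖fderiv ℂ (fun z => F ((A.e i).symm z) k) (A.e i x) v‖ ^ 2 ≤
        C' * (Real.exp (a * u x) * (A₀ - u x) ^ (m + 2)) * lev (inC A i u) (A.e i x) v := by
  obtain ⟨C', hC', h⟩ := grad_mov_ke (a := a) (m := m) hu hpos hKE hκ hA hCg hgr hprop hfr hF hC
    hFG
  refine ⟨C', hC', fun x hx i hi v => (fderiv_le hu hpos hF hi v).trans ?_⟩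
  exact mul_le_mul_of_nonneg_right (h x hx) (lev_nn hpos ((A.e i).map_source hi) v)


end

end Crest.Agent.R257.GMd_101
end

-- ▼ part R257/Low_39
section

/-!
# Row 257 (S0395), GB-LOW (helper39): maximum principle with cut-off functions at the puncture

Setting of helper101's GRAD-MOV: `u` strictly psh on `M`, `|∂u|² ≤ Cg (A₀ - u)²` on `S`,
`{x ∈ S | -R ≤ u x}` compact, `S \ interior S` compact.
* `tr_ge`      : `n (c e^f)^(1/n) ≤ tr_u w` if `c e^f det ∂∂̄u ≤ det ∂∂̄w`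
* `exists_cut` : the cut-off functions
* `cut_mp`     : `α e^f - γ ≤ Δ f` on `interior S` implies `f ≤ C` on `S`
* `low`        : psh `w` with `c e^(w-u) det ∂∂̄u ≤ det ∂∂̄w` on `S` implies `w ≤ u + C` on `S`
-/

set_option autoImplicit false
set_option linter.unusedSectionVars false

open Set Filter Topology Complex
open scoped ContDiff ComplexConjugate Matrix ComplexOrder

namespace Crest.Agent.R257.Low_39

open Crest.Agent.R275.Geo Crest.Agent.R275.Core144 Crest.Agent.R275.GC293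
open Crest.Agent.R273 Crest.Agent.R273.Levi_145
open Crest.Agent.R273.YauDefs_635 Crest.Agent.R273.YauMax_635
open Crest.Agent.R273.HessB_333
open Crest.Agent.R273.GreenM_5 (ci mem_ci)
open Crest.Agent.R257.CLC_39 (trH)
open Crest.Agent.R257.CLD_39 (two_le' trH_congr trH_add trH_sub trH_const_mul trH_self
  trH_nonpos_of_localMax)
open Crest.Agent.R257.GMa_101 Crest.Agent.R257.GMb_101 Crest.Agent.R257.GMc_101
open Crest.Agent.R257.GradB_537 (rho sm_rho cut_off)

noncomputable section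

variable {n : ℕ}

section pt

variable {u w : Cn n → ℝ} {z : Cn n}

/-- arithmetic-geometric mean inequality -/
theorem tr_ge (hn : 0 < n) (hu : ContDiffAt ℝ ∞ u z) (hpos : ∀ v, v ≠ 0 → 0 < lev u z v)
    (hw : ContDiffAt ℝ ∞ w z) (hw0 : ∀ v, 0 ≤ lev w z v) {b : ℝ} (hb : 0 ≤ b)
    (h : b * (cH u z).det.re ≤ (cH w z).det.re) : n * b ^ ((1 : ℝ) / n) ≤ trH u w z := by
  have h1 : (cH u z).PosDef := by
    rw [cH_eq_hess hu]
    exact posDef_hess hu (pos333 hpos)
  have h2 : (cH w z).PosSemidef := by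
    rw [cH_eq_hess hw]
    exact posSemidef_hess hw fun v => by
      rw [lev333_eq_lev145]
      linarith [hw0 v]
  have h3 := FIlin_332.amgm hn h1 h2
  have h4 : 0 < (cH u z).det.re := by
    have := h1.det_pos
    exact (Complex.lt_def.1 this).1
  have h5 : b ≤ (cH w z).det.re / (cH u z).det.re := by
    rw [le_div_iff₀ h4]
    exact h
  have h6 : b ^ ((1 : ℝ) / n) ≤ ((cH w z).det.re / (cH u z).det.re) ^ ((1 : ℝ) / n) :=
    Real.rpow_le_rpow hb h5 (by positivity)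
  exact (mul_le_mul_of_nonneg_left h6 (Nat.cast_nonneg n)).trans h3

/-- the Laplacian of the logarithm of a cut-off function -/
theorem log_cut {ζ : Cn n → ℝ} (hu : ContDiffAt ℝ ∞ u z) (hpos : ∀ v, v ≠ 0 → 0 < lev u z v)
    (hζ : ContDiffAt ℝ ∞ ζ z) (hζ0 : 0 < ζ z) (hζ1 : ζ z ≤ 1) {k : ℝ} (hk : 0 ≤ k)
    (hζl : ∀ v, -(k * lev u z v) ≤ lev ζ z v) (hζg : ∀ v, ‖gr ζ z v‖ ^ 2 ≤ k * lev u z v) :
    -(2 * k / ζ z ^ 2 * n) ≤ trH u (fun z => Real.log (ζ z)) z := by
  have lζ : ContDiffAt ℝ ∞ (fun z => Real.log (ζ z)) z := hζ.log hζ0.ne'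
  have b1 : ContDiffAt ℝ ∞ (fun z => (-1 : ℝ) * Real.log (ζ z)) z := contDiffAt_const.mul lζ
  have b2 : trH u (fun z => (-1 : ℝ) * Real.log (ζ z)) z ≤ 2 * k / ζ z ^ 2 * n := by
    refine trH_le_n hu hpos b1 fun v => ?_
    rw [lev_const_mul (-1) (two_le' lζ), lev_log (two_le' hζ) hζ0]
    have hl : 0 ≤ lev u z v := by
      rcases eq_or_ne v 0 with h0 | h0
      · rw [h0, lev_zero]
      · exact (hpos v h0).le
    have b3 : -(lev ζ z v / ζ z) ≤ k * lev u z v / ζ z ^ 2 := by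
      rw [← neg_div, div_le_div_iff₀ hζ0 (by positivity)]
      have c1 : - lev ζ z v ≤ k * lev u z v := by linarith [hζl v]
      have c2 : 0 ≤ k * lev u z v := by positivity
      calc - lev ζ z v * ζ z ^ 2 ≤ k * lev u z v * ζ z ^ 2 := by gcongr
        _ ≤ k * lev u z v * ζ z := by
          have : ζ z ^ 2 ≤ ζ z := by nlinarith
          gcongr
    have b4 : ‖gr ζ z v‖ ^ 2 / ζ z ^ 2 ≤ k * lev u z v / ζ z ^ 2 := by
      gcongr
      exact hζg v
    calc -1 * (lev ζ z v / ζ z - ‖gr ζ z v‖ ^ 2 / ζ z ^ 2)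
        = -(lev ζ z v / ζ z) + ‖gr ζ z v‖ ^ 2 / ζ z ^ 2 := by ring
      _ ≤ k * lev u z v / ζ z ^ 2 + k * lev u z v / ζ z ^ 2 := add_le_add b3 b4
      _ = 2 * k / ζ z ^ 2 * lev u z v := by ring
  rw [trH_const_mul hu lζ] at b2
  linarith

end pt

variable {M : Type} [TopologicalSpace M] {A : Atl n M}

/-- **cut-off functions** (helper101's construction in `grad_mov_ke`) -/
theorem exists_cut {u : M → ℝ} {A₀ Cg : ℝ} (hu : A.Sm u) (hpos : Psh A u)
    (hA : ∀ x, u x + 1 ≤ A₀) (hCg : 0 ≤ Cg) {S : Set M} (hgr : GradB A u A₀ Cg S)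
    (hprop : ∀ R : ℝ, IsCompact {x ∈ S | -R ≤ u x}) :
    ∃ k : ℝ, 0 ≤ k ∧ ∀ x ∈ S, ∃ ζ : M → ℝ, A.Sm ζ ∧ (∀ y ∈ S, 0 ≤ ζ y ∧ ζ y ≤ 1) ∧
      ζ x = 1 ∧ (∃ K ⊆ S, IsCompact K ∧ ∀ y ∈ S, y ∉ K → ζ y = 0) ∧
      ∀ y ∈ S, CutB A u ζ k y := by
  obtain ⟨χ, χ', χ'', K, hχ, hχ', hχ'', hK1, hK2, h01, hone, hzero⟩ := exists_chi
  have hK0 : 0 ≤ K := (abs_nonneg _).trans (hK1 0)
  have hw1 : ∀ x, 1 ≤ A₀ - u x := fun x => by linarith [hA x]
  set k : ℝ := max (K * (2 * Cg + 1)) (K ^ 2 * Cg) with hk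
  have hk0 : 0 ≤ k := le_trans (by positivity) (le_max_right _ _)
  refine ⟨k, hk0, fun x hx => ?_⟩
  set j : ℝ := max 1 (Real.log (A₀ - u x)) with hj
  have hj1 : 1 ≤ j := le_max_left _ _
  have hj0 : 0 < j := by linarith
  refine ⟨fun y => χ (Real.log (A₀ - u y) / j), ?_, fun y _ => h01 _, ?_, ?_, ?_⟩
  · intro i
    refine hχ.comp_contDiffOn (((contDiffOn_const.sub (hu i)).log fun z hz => ?_).div_const j)
    have := hw1 ((A.e i).symm z)
    exact (by linarith : (0 : ℝ) < A₀ - u ((A.e i).symm z)).ne'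
  · have : Real.log (A₀ - u x) / j ≤ 1 := by
      rw [div_le_one hj0]; exact le_max_right _ _
    exact hone _ this
  · refine ⟨{y ∈ S | -(Real.exp (2 * j) - A₀) ≤ u y}, sep_subset _ _, hprop _, ?_⟩
    intro y hy hyK
    apply hzero
    rw [le_div_iff₀ hj0]
    have h1 : u y < -(Real.exp (2 * j) - A₀) := by
      by_contra h
      exact hyK ⟨hy, not_lt.1 h⟩
    have h2 : Real.exp (2 * j) ≤ A₀ - u y := by linarith
    calc 2 * j = Real.log (Real.exp (2 * j)) := (Real.log_exp _).symm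
      _ ≤ _ := Real.log_le_log (Real.exp_pos _) h2
  · intro y hy i hyi v
    have hz : A.e i y ∈ (A.e i).target := (A.e i).map_source hyi
    have hinv : inC A i u (A.e i y) = u y := by simp only [inC, (A.e i).left_inv hyi]
    have h1 := cut_off (A := A₀) (C := Cg) (u := inC A i u) (x := A.e i y) hχ' hχ'' hK1 hK2 hj1
      (inC_contDiffAt hu i hz) (by rw [hinv]; exact hA y) v (lev_nn hpos hz v)
      (by rw [hinv]; exact hgr y hy i hyi v)
    have e : inC A i (fun y => χ (Real.log (A₀ - u y) / j)) =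
      fun z => χ (rho A₀ (inC A i u) z / j) := rfl
    rw [e]
    have hl := lev_nn hpos hz v
    refine ⟨?_, h1.2.trans ?_⟩
    · have h2 := (abs_le.1 h1.1).1
      have h3 : K * (2 * Cg + 1) / j ≤ k :=
        (div_le_self (by positivity) hj1).trans (le_max_left _ _)
      have h4 := mul_le_mul_of_nonneg_right h3 hl
      linarith
    · have h3 : K ^ 2 * Cg / j ^ 2 ≤ k :=
        (div_le_self (by positivity) (one_le_pow₀ hj1)).trans (le_max_right _ _)
      exact mul_le_mul_of_nonneg_right h3 hl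

/-- **the maximum principle at the puncture** -/
theorem cut_mp {u : M → ℝ} {A₀ Cg : ℝ} (hu : A.Sm u) (hpos : Psh A u)
    (hA : ∀ x, u x + 1 ≤ A₀) (hCg : 0 ≤ Cg) {S : Set M} (hgr : GradB A u A₀ Cg S)
    (hprop : ∀ R : ℝ, IsCompact {x ∈ S | -R ≤ u x}) (hfr : IsCompact (S \ interior S))
    {f : M → ℝ} (hf : A.Sm f) {α γ : ℝ} (hα : 0 < α) (hγ : 0 ≤ γ)
    (hle : ∀ x ∈ interior S, α * Real.exp (f x) - γ ≤ Lp A u f x) :
    ∃ C : ℝ, ∀ x ∈ S, f x ≤ C := by
  obtain ⟨k, hk, hcut⟩ := exists_cut hu hpos hA hCg hgr hprop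
  have hfc := continuous_of_sm hf
  obtain ⟨B, hB⟩ := hfr.exists_bound_of_continuousOn (f := fun x => Real.exp (f x))
    (Real.continuous_exp.comp hfc).continuousOn
  set K₀ : ℝ := max (max B 1) ((γ + 4 * k * n) / α) with hK₀
  have hK1 : 1 ≤ K₀ := (le_max_right _ _).trans (le_max_left _ _)
  have hK0 : 0 < K₀ := by linarith
  refine ⟨Real.log K₀, fun x hx => ?_⟩
  obtain ⟨ζ, hζ, h01, h1, ⟨K, hKS, hK, hKz⟩, hcb⟩ := hcut x hx
  set Φ : M → ℝ := fun y => Real.exp (f y) * ζ y ^ 2 with hΦ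
  have hxK : x ∈ K := by
    by_contra h
    have := hKz x hx h
    rw [h1] at this
    exact one_ne_zero this
  have hcont : ContinuousOn Φ K :=
    ((Real.continuous_exp.comp hfc).mul ((continuous_of_sm hζ).pow 2)).continuousOn
  obtain ⟨y, hyK, hy⟩ := hK.exists_isMaxOn ⟨x, hxK⟩ hcont
  have hyS := hKS hyK
  have hmS : ∀ w ∈ S, Φ w ≤ Φ y := by
    intro w hw
    by_cases hwK : w ∈ K
    · exact hy hwK
    · have : Φ w = 0 := by simp only [hΦ, hKz w hw hwK]; simp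
      rw [this]
      exact mul_nonneg (Real.exp_pos _).le (sq_nonneg _)
  have hmain : Φ y ≤ K₀ := by
    by_cases hin : y ∈ interior S
    swap
    · have h2 := (le_abs_self _).trans (hB y ⟨hyS, hin⟩)
      have h3 : ζ y ^ 2 ≤ 1 := pow_le_one₀ (h01 y hyS).1 (h01 y hyS).2
      calc Φ y ≤ Real.exp (f y) * 1 :=
            mul_le_mul_of_nonneg_left h3 (Real.exp_pos _).le
        _ ≤ B := by rw [mul_one]; exact h2
        _ ≤ K₀ := (le_max_left _ _).trans (le_max_left _ _)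
    rcases (h01 y hyS).1.eq_or_lt with h0 | h0
    · have : Φ y = 0 := by simp only [hΦ, ← h0]; simp
      rw [this]; exact hK0.le
    set i := ci A y with hi
    have hyi : y ∈ (A.e i).source := mem_ci y
    have hz : A.e i y ∈ (A.e i).target := (A.e i).map_source hyi
    have hinv : ∀ φ : M → ℝ, inC A i φ (A.e i y) = φ y := fun φ => by
      simp only [inC, (A.e i).left_inv hyi]
    have hux := inC_contDiffAt hu i hz
    have hfx := inC_contDiffAt hf i hz
    have hζx := inC_contDiffAt hζ i hz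
    have hζp : 0 < inC A i ζ (A.e i y) := by rw [hinv]; exact h0
    have hlζ : ContDiffAt ℝ ∞ (fun z => Real.log (inC A i ζ z)) (A.e i y) := hζx.log hζp.ne'
    have hlm : IsLocalMax Φ y := by
      filter_upwards [mem_interior_iff_mem_nhds.1 hin] with w hw
      exact hmS w hw
    have hlm' : IsLocalMax (fun z => inC A i f z + 2 * Real.log (inC A i ζ z)) (A.e i y) := by
      have h2 := inC_localMax hlm hyi
      filter_upwards [h2, hζx.continuousAt.eventually (lt_mem_nhds hζp)] with z h3 h4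
      have h5 : Real.log (inC A i Φ z) ≤ Real.log (inC A i Φ (A.e i y)) :=
        Real.log_le_log (mul_pos (Real.exp_pos _) (pow_pos h4 2)) h3
      have e : ∀ z, 0 < inC A i ζ z → Real.log (inC A i Φ z) =
          inC A i f z + 2 * Real.log (inC A i ζ z) := fun z hz0 => by
        show Real.log (Real.exp (inC A i f z) * inC A i ζ z ^ 2) = _
        rw [Real.log_mul (Real.exp_pos _).ne' (pow_pos hz0 2).ne', Real.log_exp, Real.log_pow]
        push_cast
        ring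
      rw [e z h4, e _ hζp] at h5
      exact h5
    have h2 := trH_nonpos_of_localMax hux (pos333 (hpos i _ hz))
      (hfx.add (contDiffAt_const.mul hlζ)) hlm'
    rw [trH_add hux hfx (contDiffAt_const.mul hlζ), trH_const_mul hux hlζ] at h2
    have h3 := hle y hin
    rw [Lp_eq hu hf hyi] at h3
    have h4 := log_cut hux (hpos i _ hz) hζx hζp (by rw [hinv]; exact (h01 y hyS).2) hk
      (fun v => (hcb y hyS i hyi v).1) (fun v => (hcb y hyS i hyi v).2)
    rw [hinv] at h4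
    have hz1 : ζ y ^ 2 ≤ 1 := pow_le_one₀ (h01 y hyS).1 (h01 y hyS).2
    have h5 : α * Real.exp (f y) ≤ γ + 4 * k * n / ζ y ^ 2 := by
      have e : 2 * (2 * k / ζ y ^ 2 * n) = 4 * k * n / ζ y ^ 2 := by ring
      linarith
    have h6 : α * Φ y ≤ γ + 4 * k * n := by
      calc α * Φ y = α * Real.exp (f y) * ζ y ^ 2 := by simp only [hΦ]; ring
        _ ≤ (γ + 4 * k * n / ζ y ^ 2) * ζ y ^ 2 := by gcongr
        _ = γ * ζ y ^ 2 + 4 * k * n := by field_simp
        _ ≤ γ * 1 + 4 * k * n := by gcongr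
        _ = _ := by ring
    have h7 : Φ y ≤ (γ + 4 * k * n) / α := by
      rw [le_div_iff₀ hα]
      linarith
    exact h7.trans (le_max_right _ _)
  have h2 : Real.exp (f x) ≤ K₀ := by
    have h3 := (hmS x hx).trans hmain
    simp only [hΦ, h1, one_pow, mul_one] at h3
    exact h3
  rw [← Real.log_exp (f x)]
  exact Real.log_le_log (Real.exp_pos _) h2

/-- **LOW**: lower bound of `u` by a subsolution, no condition at the puncture -/
theorem low (hn : 0 < n) {u w : M → ℝ} {A₀ Cg : ℝ} (hu : A.Sm u) (hpos : Psh A u)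
    (hA : ∀ x, u x + 1 ≤ A₀) (hCg : 0 ≤ Cg) {S : Set M} (hgr : GradB A u A₀ Cg S)
    (hprop : ∀ R : ℝ, IsCompact {x ∈ S | -R ≤ u x}) (hfr : IsCompact (S \ interior S))
    (hw : A.Sm w)
    (hw0 : ∀ x ∈ interior S, ∀ i, x ∈ (A.e i).source → ∀ v, 0 ≤ lev (inC A i w) (A.e i x) v)
    {c : ℝ} (hc : 0 < c)
    (hdet : ∀ x ∈ interior S, ∀ i, x ∈ (A.e i).source →
      c * Real.exp (w x - u x) * (cH (inC A i u) (A.e i x)).det.re
        ≤ (cH (inC A i w) (A.e i x)).det.re) :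
    ∃ C : ℝ, ∀ x ∈ S, w x ≤ u x + C := by
  have hn' : (0 : ℝ) < n := by exact_mod_cast hn
  set f : M → ℝ := fun x => (1 / (n : ℝ)) * (w x - u x) with hfdef
  have hf : A.Sm f := fun i => contDiffOn_const.mul ((hw i).sub (hu i))
  obtain ⟨C, hC⟩ := cut_mp (f := f) (α := c ^ ((1 : ℝ) / n)) (γ := 1) hu hpos hA hCg hgr hprop hfr hf
    (Real.rpow_pos_of_pos hc _) zero_le_one (fun x hx => by
      set i := ci A x with hi
      have hxi : x ∈ (A.e i).source := mem_ci x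
      have hz : A.e i x ∈ (A.e i).target := (A.e i).map_source hxi
      have hux := inC_contDiffAt hu i hz
      have hwx := inC_contDiffAt hw i hz
      rw [Lp_eq hu hf hxi]
      have e1 : inC A i f = fun z => (1 / (n : ℝ)) * (inC A i w z - inC A i u z) := rfl
      rw [e1, trH_const_mul hux (hwx.sub hux), trH_sub hux hwx hux,
        trH_self hux (pos333 (hpos i _ hz))]
      have h1 := tr_ge hn hux (hpos i _ hz) hwx (hw0 x hx i hxi)
        (b := c * Real.exp (w x - u x)) (by positivity) (hdet x hx i hxi)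
      have e2 : (c * Real.exp (w x - u x)) ^ ((1 : ℝ) / n) =
          c ^ ((1 : ℝ) / n) * Real.exp (f x) := by
        rw [Real.mul_rpow hc.le (Real.exp_pos _).le, ← Real.exp_mul]
        congr 2
        simp only [hfdef]
        ring
      rw [e2] at h1
      have h2 : (1 / (n : ℝ)) * (n * (c ^ ((1 : ℝ) / n) * Real.exp (f x)) - n) ≤
          (1 / (n : ℝ)) * (trH (inC A i u) (inC A i w) (A.e i x) - n) :=
        mul_le_mul_of_nonneg_left (by linarith) (by positivity)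
      refine le_trans (le_of_eq ?_) h2
      field_simp)
  refine ⟨n * C, fun x hx => ?_⟩
  have h1 := hC x hx
  simp only [hfdef] at h1
  rw [one_div, inv_mul_le_iff₀ hn'] at h1
  linarith

end

end Crest.Agent.R257.Low_39
end

-- ▼ part R257/PairK1_39

/-!
# Row 257 (S0395), PAIR-K (helper39), part 1: the punctured level as a surface, `lowK`, `gmK`

For `hf : LvlOK f 0 r`, `KEon f 0 r u`, `Esc f r u A`:
* `lowK` : psh `w` with `c e^w |η|² ≤ det ∂∂̄w` near `0` implies `w ≤ u + C` near `0`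
* `gmK`  : `|g|² ≤ C (A - u)^m e^{a u}` near `0` implies `UpB f ρ u A' (m + 2) (a u) g`
-/

set_option autoImplicit false
set_option linter.unusedSectionVars false

open Set Filter Topology Complex
open scoped ContDiff ComplexConjugate Matrix

namespace Crest.Agent.R257.PairK_39

open Crest.Agent.R275.Geo Crest.Agent.R275.Core144 Crest.Agent.R275.GC293
open Crest.Agent.R273
open Crest.Agent.R273.YauDefs_635 (cH lev333_eq_lev145 inC)
open Crest.Agent.R273.YauMax_635 (continuous_of_sm)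
open Crest.Agent.R257.PN_835 (nsq)
open Crest.Agent.R257.Aff_835 (eta2a)
open Crest.Agent.R257.Defs_219 Crest.Agent.R257.KED_952 Crest.Agent.R257.KEG_952
open Crest.Agent.R257.V1Defs_822 (SmL LvlOK lgh)
open Crest.Agent.R257.UpK_938 (LX mem_M mkM thc pe_chart thc_eq)
open Crest.Agent.R257.CLD_39 (two_le')
open Crest.Agent.R257.GMa_101 Crest.Agent.R257.GMb_101 Crest.Agent.R257.GMc_101
open Crest.Agent.R257.GradK_39 (continuous_nsq isCompact_nsq_le)

noncomputable section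

variable {f : E3 → ℂ} {r : ℝ} {u : E3 → ℝ} {A : ℝ}

/-! ### restriction to smaller balls -/

theorem PE.mono' {s : ℂ} {r r' : ℝ} {θ : Cn 2 → E3} {O : Set (Cn 2)} (h : PE f s r' θ O)
    (h0 : 0 ≤ r') (hr : r' ≤ r) : PE f s r θ O :=
  ⟨h.par, h.ne, fun z hz => (h.lt z hz).trans_le (pow_le_pow_left₀ h0 hr 2)⟩

theorem KEon.mono' {s : ℂ} {r r' : ℝ} (h : KEon f s r u) (h0 : 0 ≤ r') (hr : r' ≤ r) :
    KEon f s r' u :=
  ⟨fun θ O hP => h.sm θ O (PE.mono' hP h0 hr), fun θ O hP => h.pos θ O (PE.mono' hP h0 hr),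
    fun θ O hP => h.ma θ O (PE.mono' hP h0 hr)⟩

theorem Esc.mono' {r r' : ℝ} (h : Esc f r u A) (h0 : 0 ≤ r') (hr : r' ≤ r) : Esc f r' u A :=
  ⟨h.pos, fun x h1 h2 h3 => h.one x h1 h2 (h3.trans_le (pow_le_pow_left₀ h0 hr 2)), h.inf,
    fun θ O hP => h.grad θ O (PE.mono' hP h0 hr)⟩

/-! ### gradient: real and complex -/

/-- `|∂u v|² = ((du v)² + (du (iv))²) / 4` -/
theorem norm_gr_sq {u : Cn 2 → ℝ} {z : Cn 2} (hu : DifferentiableAt ℝ u z) (v : Cn 2) :
    ‖Levi_145.gr u z v‖ ^ 2 = ((fderiv ℝ u z v) ^ 2 + (fderiv ℝ u z (I • v)) ^ 2) / 4 := by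
  rw [Levi_145.gr_eq hu, ← Complex.normSq_eq_norm_sq, Complex.normSq_apply]
  simp
  ring

theorem lev_I_smul (u : Cn 2 → ℝ) (z : Cn 2) (v : Cn 2) :
    Levi_145.lev u z (I • v) = Levi_145.lev u z v := by
  unfold Levi_145.lev
  have h1 : I • I • v = (-1 : ℂ) • v := by rw [smul_smul, Complex.I_mul_I]
  rw [h1]
  simp
  ring

/-! ### the level as a surface -/

section lvl

variable (hf : LvlOK f 0 r)

/-- functions on the level -/
def vl (a : E3 → ℝ) : (LX hf).M 0 → ℝ := fun x => a x.1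


theorem sm_vl {a : E3 → ℝ} (ha : SmL f 0 r a) : ((LX hf).A 0).Sm (vl hf a) := fun i =>
  ha _ _ (pe_chart hf i)

theorem psh_vl (hK : KEon f 0 r u) : Psh ((LX hf).A 0) (vl hf u) := by
  intro i z hz v hv
  have h := hK.pos _ _ (pe_chart hf i) z hz v hv
  rw [lev333_eq_lev145] at h
  show 0 < Levi_145.lev (fun z => u (thc hf i z)) z v
  linarith

theorem kele_vl (hK : KEon f 0 r u) : KEle ((LX hf).A 0) (vl hf u) 1 := by
  intro i
  have hP := pe_chart hf i
  set θ := thc hf i with hθ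
  set U := (((LX hf).A 0).e i).target with hU
  have hUo : IsOpen U := hP.par.isOpen
  have hs : ∀ z ∈ U, ContDiffAt ℝ ∞ (fun z => u (θ z)) z := fun z hz =>
    (hK.sm _ _ hP).contDiffAt (hUo.mem_nhds hz)
  have hp : ∀ z ∈ U, ∀ v, v ≠ 0 → 0 < Levi_145.lev (fun z => u (θ z)) z v := fun z hz v hv => by
    have h := hK.pos _ _ hP z hz v hv
    rw [lev333_eq_lev145] at h
    linarith
  have hUm : ∀ z ∈ U, C2a_793.Um (fun z => u (θ z)) z = cH (fun z => u (θ z)) z := fun z hz =>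
    C2f_793.Um_eq_cH (two_le' (hs z hz))
  have hdp : ∀ z ∈ U, 0 < (C2a_793.Um (fun z => u (θ z)) z).det.re := fun z hz =>
    (Complex.pos_iff.1 (C2c_793.Um_posDef (two_le' (hs z hz)) (hp z hz)).det_pos).1
  have hΩ : IsOpen {x : E3 | x ≠ 0 ∧ nsq x < r ^ 2} :=
    isOpen_ne.inter (isOpen_lt continuous_nsq continuous_const)
  refine ⟨C2a_793.ld fun z => u (θ z), ?_, ?_, ?_⟩
  · exact fun z hz => (C2a_793.sm_ld (hs z hz) (hdp z hz).ne').contDiffWithinAt
  · intro z hz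
    have h1 := hdp z hz
    have h2 := hK.ma _ _ hP z hz
    show (cH (fun z => u (θ z)) z).det = _
    unfold C2a_793.ld
    rw [Real.exp_log h1, hUm z hz]
    rw [h2, Complex.ofReal_re]
  · intro z hz v
    rw [one_mul]
    refine le_of_eq (GradE_537.lev_ld_of_ke (n := 2) hΩ
      (fun x hx => (hf.an x hx.2).differentiableAt.differentiableWithinAt) hP.par
      (fun w hw => ⟨hP.ne w hw, hP.lt w hw⟩) (hK.sm _ _ hP) hp (hK.ma _ _ hP) hz
      (hf.sm _ (hP.ne z hz) (hP.lt z hz) (hP.par.lvl z hz)) v)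

theorem gradB_vl (hK : KEon f 0 r u) (hE : Esc f r u A) (S : Set ((LX hf).M 0)) :
    GradB ((LX hf).A 0) (vl hf u) A (2 * A) S := by
  intro x _ i hi v
  have hP := pe_chart hf i
  have hz : ((LX hf).A 0).e i x ∈ (((LX hf).A 0).e i).target := (((LX hf).A 0).e i).map_source hi
  have hs : ContDiffAt ℝ ∞ (fun z => u (thc hf i z)) (((LX hf).A 0).e i x) :=
    (hK.sm _ _ hP).contDiffAt (hP.par.isOpen.mem_nhds hz)
  have h1 := hE.grad _ _ hP _ hz v
  have h2 := hE.grad _ _ hP _ hz (I • v)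
  rw [lev333_eq_lev145] at h1 h2
  rw [lev_I_smul] at h2
  have hx : thc hf i (((LX hf).A 0).e i x) = x.1 := thc_eq hf hi
  rw [hx] at h1 h2
  show ‖Levi_145.gr (fun z => u (thc hf i z)) _ v‖ ^ 2 ≤
    2 * A * ((A - u x.1) ^ 2 * Levi_145.lev (fun z => u (thc hf i z)) _ v)
  rw [norm_gr_sq (hs.differentiableAt (by simp))]
  nlinarith

/-- closed ball in the level -/
def Sb (ρ : ℝ) : Set ((LX hf).M 0) := {x | nsq x.1 ≤ ρ ^ 2}

theorem isCompact_lvl {a b : ℝ} (ha : 0 < a) (hb : b < r ^ 2) :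
    IsCompact {x : (LX hf).M 0 | a ≤ nsq x.1 ∧ nsq x.1 ≤ b} := by
  have e : (Subtype.val '' {x : (LX hf).M 0 | a ≤ nsq x.1 ∧ nsq x.1 ≤ b}) =
      {x : E3 | a ≤ nsq x ∧ nsq x ≤ b} ∩ f ⁻¹' {0} := by
    ext x
    constructor
    · rintro ⟨y, hy, rfl⟩
      exact ⟨hy, (mem_M hf y).1⟩
    · rintro ⟨hx, h0⟩
      have hx0 : x ≠ 0 := by
        rintro rfl
        have : nsq (0 : E3) = 0 := by simp [nsq]
        linarith [hx.1]
      exact ⟨mkM hf h0 hx0 (lt_of_le_of_lt hx.2 hb), hx, rfl⟩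
  have hcl : IsClosed {x : E3 | a ≤ nsq x ∧ nsq x ≤ b} :=
    (isClosed_le continuous_const continuous_nsq).inter (isClosed_le continuous_nsq continuous_const)
  have hc : ContinuousOn f {x : E3 | a ≤ nsq x ∧ nsq x ≤ b} := fun x hx =>
    (hf.an x (lt_of_le_of_lt hx.2 hb)).continuousAt.continuousWithinAt
  have h1 : IsCompact ({x : E3 | a ≤ nsq x ∧ nsq x ≤ b} ∩ f ⁻¹' {0}) :=
    (isCompact_nsq_le b).of_isClosed_subset
      (hc.preimage_isClosed_of_isClosed hcl isClosed_singleton) fun x hx => hx.1.2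
  rw [← e] at h1
  exact Topology.IsInducing.subtypeVal.isCompact_iff.2 h1

theorem continuous_vl (hK : KEon f 0 r u) : Continuous (vl hf u) :=
  continuous_of_sm (sm_vl hf hK.sm)

theorem prop_vl (hK : KEon f 0 r u) (hE : Esc f r u A) {ρ : ℝ} (h0 : 0 ≤ ρ) (hρ : ρ < r) (R : ℝ) :
    IsCompact {x ∈ Sb hf ρ | -R ≤ vl hf u x} := by
  obtain ⟨δ, hδ, hi⟩ := hE.inf (-R)
  have h1 : ρ ^ 2 < r ^ 2 := pow_lt_pow_left₀ hρ h0 two_ne_zero
  refine (isCompact_lvl hf (a := δ ^ 2) (by positivity) h1).of_isClosed_subset ?_ ?_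
  · have h2 : IsClosed (Sb hf ρ) :=
      isClosed_le (continuous_nsq.comp continuous_subtype_val) continuous_const
    exact h2.inter (isClosed_le continuous_const (continuous_vl hf hK))
  · rintro x ⟨hx1, hx2⟩
    refine ⟨?_, hx1⟩
    by_contra hlt
    obtain ⟨m1, m2, m3⟩ := mem_M hf x
    have := hi x.1 m1 m2 (not_le.1 hlt)
    have h3 : -R ≤ u x.1 := hx2
    linarith

theorem frontier_vl {ρ : ℝ} (h0 : 0 < ρ) (hρ : ρ < r) :
    IsCompact (Sb hf ρ \ interior (Sb hf ρ)) := by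
  have h1 : ρ ^ 2 < r ^ 2 := pow_lt_pow_left₀ hρ h0.le two_ne_zero
  refine (isCompact_lvl hf (a := ρ ^ 2) (by positivity) h1).of_isClosed_subset ?_ ?_
  · have h2 : IsClosed (Sb hf ρ) :=
      isClosed_le (continuous_nsq.comp continuous_subtype_val) continuous_const
    exact h2.sdiff isOpen_interior
  · rintro x ⟨hx1, hx2⟩
    refine ⟨?_, hx1⟩
    by_contra hlt
    apply hx2
    rw [mem_interior]
    refine ⟨{y : (LX hf).M 0 | nsq y.1 < ρ ^ 2}, fun y hy => le_of_lt (show nsq y.1 < ρ ^ 2 from hy), ?_, not_le.1 hlt⟩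
    exact isOpen_lt (continuous_nsq.comp continuous_subtype_val) continuous_const

include hf in
/-- **lower bound of the Kaehler-Einstein weight** (`Low_39.low` on the punctured level) -/
theorem lowK (hK : KEon f 0 r u) (hE : Esc f r u A) {ρ : ℝ} (h0 : 0 < ρ) (hρ : ρ < r)
    {w : E3 → ℝ} (hw : SmL f 0 r w)
    (hw0 : ∀ θ O, PE f 0 r θ O → ∀ z ∈ O, ∀ v, 0 ≤ Defs_333.lev (fun z => w (θ z)) z v)
    {c : ℝ} (hc : 0 < c)
    (hdet : ∀ θ O, PE f 0 r θ O → ∀ z ∈ O,
      c * Real.exp (w (θ z)) * eta2a (n := 2) f θ z ≤ (cH (fun z => w (θ z)) z).det.re) :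
    ∃ C : ℝ, ∀ x, f x = 0 → x ≠ 0 → nsq x ≤ ρ ^ 2 → w x ≤ u x + C := by
  have h1 : ρ ^ 2 < r ^ 2 := pow_lt_pow_left₀ hρ h0.le two_ne_zero
  obtain ⟨C, hC⟩ := Low_39.low (A := (LX hf).A 0) (u := vl hf u) (w := vl hf w) (A₀ := A)
    (Cg := 2 * A) (S := Sb hf ρ) two_pos (sm_vl hf hK.sm) (psh_vl hf hK)
    (fun x => by
      obtain ⟨m1, m2, m3⟩ := mem_M hf x
      have := hE.one x.1 m1 m2 m3
      show u x.1 + 1 ≤ A
      linarith) (by linarith [hE.pos]) (gradB_vl hf hK hE _) (prop_vl hf hK hE h0.le hρ)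
    (frontier_vl hf h0 hρ) (sm_vl hf hw)
    (fun x _ i hi v => by
      have h := hw0 _ _ (pe_chart hf i) _ ((((LX hf).A 0).e i).map_source hi) v
      rw [lev333_eq_lev145] at h
      show 0 ≤ Levi_145.lev (fun z => w (thc hf i z)) _ v
      linarith) hc
    (fun x _ i hi => by
      have hz := (((LX hf).A 0).e i).map_source hi
      have h2 := hdet _ _ (pe_chart hf i) _ hz
      have h3 := hK.ma _ _ (pe_chart hf i) _ hz
      have hx : thc hf i (((LX hf).A 0).e i x) = x.1 := thc_eq hf hi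
      rw [hx] at h2 h3
      show c * Real.exp (w x.1 - u x.1) *
        (cH (fun z => u (thc hf i z)) (((LX hf).A 0).e i x)).det.re ≤
        (cH (fun z => w (thc hf i z)) (((LX hf).A 0).e i x)).det.re
      rw [h3, Complex.ofReal_re]
      refine le_trans (le_of_eq ?_) h2
      rw [Real.exp_sub]
      field_simp)
  refine ⟨C, fun x m1 m2 m3 => ?_⟩
  exact hC (mkM hf m1 m2 (lt_of_le_of_lt m3 h1)) m3

theorem hol_vl {N : ℕ} {F : E3 → Fin N → ℂ}
    (hF : ∀ k, ∀ x, x ≠ 0 → nsq x < r ^ 2 → DifferentiableAt ℂ (fun x => F x k) x) :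
    Hol ((LX hf).A 0) (fun (x : (LX hf).M 0) => F x.1) := by
  intro i k z hz
  have hP := pe_chart hf i
  have h1 := hF k _ (hP.ne z hz) (hP.lt z hz)
  have h2 : DifferentiableAt ℂ (thc hf i) z :=
    hP.par.hol.differentiableAt (hP.par.isOpen.mem_nhds hz)
  exact (h1.comp z h2).differentiableWithinAt

end lvl

/-- a parametrisation factors through the charts of `LX` -/
theorem factorX (hf : LvlOK f 0 r) {θ : Cn 2 → E3} {O : Set (Cn 2)} (hP : PE f 0 r θ O)
    {z₀ : Cn 2} (hz₀ : z₀ ∈ O) : ∃ (i : ((LX hf).A 0).ι) (T : Cn 2 → Cn 2),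
      AnalyticAt ℂ T z₀ ∧ T z₀ ∈ (((LX hf).A 0).e i).target ∧
      (((LX hf).A 0).e i).symm (T z₀) ∈ (((LX hf).A 0).e i).source ∧
      thc hf i (T z₀) = θ z₀ ∧ θ =ᶠ[𝓝 z₀] fun w => thc hf i (T w) := by
  classical
  -- `θ` as a map to the surface
  set x₀ : (LX hf).M 0 := mkM hf (hP.par.lvl z₀ hz₀) (hP.ne z₀ hz₀) (hP.lt z₀ hz₀) with hx₀
  let ψ : Cn 2 → (LX hf).M 0 := fun z =>
    if hz : z ∈ O then mkM hf (hP.par.lvl z hz) (hP.ne z hz) (hP.lt z hz) else x₀
  have hψ : ∀ z ∈ O, (ψ z).1 = θ z := fun z hz => by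
    show (if hz : z ∈ O then mkM hf (hP.par.lvl z hz) (hP.ne z hz) (hP.lt z hz) else x₀).1 = θ z
    rw [dif_pos hz]
    rfl
  have hpar : Crest.Agent.R257.Atl_941.Par (LX hf) 0 ψ O :=
    ⟨hP.par.isOpen, hP.par.hol.congr fun z hz => hψ z hz⟩
  obtain ⟨i, hi⟩ := ((LX hf).A 0).cover (ψ z₀)
  have hU : IsOpen (O ∩ ψ ⁻¹' (((LX hf).A 0).e i).source) :=
    hpar.contOn.isOpen_inter_preimage hpar.isOpen (((LX hf).A 0).e i).open_source
  have h1 : DifferentiableOn ℂ (fun z => ((LX hf).A 0).e i (ψ z))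
      (O ∩ ψ ⁻¹' (((LX hf).A 0).e i).source) :=
    fun w hw => (hpar.diffAt_e hw.1 i).differentiableWithinAt
  refine ⟨i, fun z => ((LX hf).A 0).e i (ψ z), ?_, (((LX hf).A 0).e i).map_source hi, ?_, ?_, ?_⟩
  · exact ((Crest.Agent.R266.SCV.contDiffOn_omega_of_differentiableOn hU h1).contDiffAt
      (hU.mem_nhds ⟨hz₀, hi⟩)).analyticAt
  · rw [(((LX hf).A 0).e i).left_inv hi]
    exact hi
  · rw [← hψ z₀ hz₀]
    exact thc_eq hf hi
  · filter_upwards [hU.mem_nhds ⟨hz₀, hi⟩] with w hw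
    rw [← hψ w hw.1]
    exact (thc_eq hf hw.2).symm

/-- **moving gradient estimate** (helper101's `grad_mov_fderiv` on the punctured level) -/
theorem gmK (hf : LvlOK f 0 r) (hK : KEon f 0 r u) (hE : Esc f r u A) {ρ : ℝ} (h0 : 0 < ρ)
    (hρ : ρ < r) {N : ℕ} {F : E3 → Fin N → ℂ}
    (hF : ∀ k, ∀ x, x ≠ 0 → nsq x < r ^ 2 → DifferentiableAt ℂ (fun x => F x k) x)
    {C a : ℝ} {m : ℕ} (hC : 0 < C)
    (hb : ∀ x, f x = 0 → x ≠ 0 → nsq x ≤ ρ ^ 2 →
      ∑ k, ‖F x k‖ ^ 2 ≤ C * (Real.exp (a * u x) * (A - u x) ^ m)) :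
    ∃ C' : ℝ, 0 < C' ∧ ∀ θ O, PE f 0 ρ θ O → ∀ z ∈ O, ∀ v : Cn 2,
      ∑ k, ‖fderiv ℂ (fun z => F (θ z) k) z v‖ ^ 2 ≤
        C' * (Real.exp (a * u (θ z)) * (A - u (θ z)) ^ (m + 2)) *
          Levi_145.lev (fun z => u (θ z)) z v := by
  have h1 : ρ ^ 2 < r ^ 2 := pow_lt_pow_left₀ hρ h0.le two_ne_zero
  obtain ⟨C', hC', h⟩ := GMd_101.grad_mov_fderiv (A := (LX hf).A 0) (u := vl hf u) (κ := 1)
    (A₀ := A) (Cg := 2 * A) (C := C) (a := a) (m := m) (S := Sb hf ρ)
    (F := fun x : (LX hf).M 0 => F x.1) (sm_vl hf hK.sm) (psh_vl hf hK) (kele_vl hf hK)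
    zero_le_one
    (fun x => by
      obtain ⟨m1, m2, m3⟩ := mem_M hf x
      have := hE.one x.1 m1 m2 m3
      show u x.1 + 1 ≤ A
      linarith) (by linarith [hE.pos]) (gradB_vl hf hK hE _) (prop_vl hf hK hE h0.le hρ)
    (frontier_vl hf h0 hρ) (hol_vl hf hF) hC
    (fun x hx => by
      obtain ⟨m1, m2, m3⟩ := mem_M hf x
      exact hb x.1 m1 m2 hx)
  refine ⟨C', hC', fun θ O hP z hz v => ?_⟩
  have hP' := PE.mono' hP h0.le hρ.le
  obtain ⟨i, T, hT, hTz, hTs, hTe, hev⟩ := factorX hf hP' hz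
  set x := (((LX hf).A 0).e i).symm (T z) with hx
  have hxθ : x.1 = θ z := hTe
  have hex : ((LX hf).A 0).e i x = T z := (((LX hf).A 0).e i).right_inv hTz
  have h2 := h x (show nsq x.1 ≤ ρ ^ 2 by rw [hxθ]; exact (hP.lt z hz).le) i hTs
    (fderiv ℂ T z v)
  rw [hex] at h2
  have hu1 : ContDiffAt ℝ ∞ (fun z => u (thc hf i z)) (T z) :=
    (hK.sm _ _ (pe_chart hf i)).contDiffAt ((((LX hf).A 0).e i).open_target.mem_nhds hTz)
  have e2 : Levi_145.lev (fun z => u (θ z)) z v =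
      Levi_145.lev (fun z => u (thc hf i z)) (T z) (fderiv ℂ T z v) := by
    have hev' : (fun z => u (θ z)) =ᶠ[𝓝 z] fun w => (fun z => u (thc hf i z)) (T w) := by
      filter_upwards [hev] with w hw
      exact congrArg u hw
    rw [Levi_145.lev_congr hev', Levi_145.lev_comp hT (two_le' hu1)]
  have e3 : ∀ k, fderiv ℂ (fun z => F (θ z) k) z v =
      fderiv ℂ (fun z => F (thc hf i z) k) (T z) (fderiv ℂ T z v) := by
    intro k
    have hev' : (fun z => F (θ z) k) =ᶠ[𝓝 z] (fun w => F (thc hf i w) k) ∘ T := by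
      filter_upwards [hev] with w hw
      exact congrArg (fun x => F x k) hw
    have hd : DifferentiableAt ℂ (fun w => F (thc hf i w) k) (T z) :=
      (hol_vl hf hF i k).differentiableAt ((((LX hf).A 0).e i).open_target.mem_nhds hTz)
    rw [hev'.fderiv_eq, fderiv_comp z hd hT.differentiableAt]
    rfl
  rw [e2]
  have e4 : vl hf u x = u (θ z) := by
    show u x.1 = _
    rw [hxθ]
  rw [e4] at h2
  refine le_trans (le_of_eq ?_) h2
  exact Finset.sum_congr rfl fun k _ => by rw [e3 k]; rfl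

/-! ### `UpB`, `LoB`, `Esc`: change of constants -/

theorem lev_nn (hK : KEon f 0 r u) {θ : Cn 2 → E3} {O : Set (Cn 2)} (hP : PE f 0 r θ O)
    {z : Cn 2} (hz : z ∈ O) (v : Cn 2) : 0 ≤ Defs_333.lev (fun z => u (θ z)) z v := by
  rcases eq_or_ne v 0 with h0 | h0
  · rw [h0, lev333_eq_lev145, Levi_145.lev_zero, mul_zero]
  · exact (hK.pos _ _ hP z hz v h0).le

theorem Esc.le (hK : KEon f 0 r u) (h : Esc f r u A) {A' : ℝ} (hA : A ≤ A') : Esc f r u A' := by
  refine ⟨h.pos.trans_le hA, fun x h1 h2 h3 => (h.one x h1 h2 h3).trans (by linarith), h.inf,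
    fun θ O hP z hz v => (h.grad θ O hP z hz v).trans ?_⟩
  have h1 := h.one _ (hP.par.lvl z hz) (hP.ne z hz) (hP.lt z hz)
  have h2 := lev_nn hK hP hz v
  have h3 := h.pos
  have h4 : (A - u (θ z)) ^ 2 ≤ (A' - u (θ z)) ^ 2 := by
    apply pow_le_pow_left₀ (by linarith) (by linarith)
  have h5 : 0 ≤ A' := by linarith
  gcongr

theorem UpB.mono {φ : E3 → ℝ} {N : ℕ} {h : E3 → ℂ} {r' : ℝ} (hU : UpB f r u A N φ h)
    (h0 : 0 ≤ r') (hr : r' ≤ r) : UpB f r' u A N φ h :=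
  fun θ O hP => hU θ O (PE.mono' hP h0 hr)

theorem LoB.mono {φ : E3 → ℝ} {N : ℕ} {h : E3 → ℂ} {r' : ℝ} (hU : LoB f r u A N φ h)
    (h0 : 0 ≤ r') (hr : r' ≤ r) : LoB f r' u A N φ h :=
  fun θ O hP => hU θ O (PE.mono' hP h0 hr)

theorem UpB.le (hK : KEon f 0 r u) {φ : E3 → ℝ} {N N' : ℕ} {h : E3 → ℂ} {A' : ℝ} (hA0 : 0 ≤ A)
    (hU : UpB f r u A N φ h) (hA : A ≤ A') (hN : N ≤ N')
    (h1 : ∀ x, f x = 0 → x ≠ 0 → nsq x < r ^ 2 → 1 ≤ A - u x) : UpB f r u A' N' φ h := by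
  intro θ O hP z hz v
  refine (hU θ O hP z hz v).trans ?_
  have h1 := h1 _ (hP.par.lvl z hz) (hP.ne z hz) (hP.lt z hz)
  have h2 := lev_nn hK hP hz v
  have h4 : (A - u (θ z)) ^ N ≤ (A' - u (θ z)) ^ N' :=
    (pow_le_pow_left₀ (by linarith) (by linarith) N).trans
      (pow_le_pow_right₀ (by linarith) hN)
  have h5 : 0 ≤ (A - u (θ z)) ^ N := pow_nonneg (by linarith) N
  have h6 : 0 ≤ A' := by linarith
  gcongr

theorem LoB.le {φ : E3 → ℝ} {N N' : ℕ} {h : E3 → ℂ} {A' : ℝ} (hA0 : 0 ≤ A)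
    (hU : LoB f r u A N φ h) (hA : A ≤ A') (hN : N ≤ N')
    (h1 : ∀ x, f x = 0 → x ≠ 0 → nsq x < r ^ 2 → 1 ≤ A - u x) : LoB f r u A' N' φ h := by
  intro θ O hP z hz
  obtain ⟨v, hv, h2⟩ := hU θ O hP z hz
  refine ⟨v, hv, h2.trans ?_⟩
  have h1 := h1 _ (hP.par.lvl z hz) (hP.ne z hz) (hP.lt z hz)
  have h4 : (A - u (θ z)) ^ N ≤ (A' - u (θ z)) ^ N' :=
    (pow_le_pow_left₀ (by linarith) (by linarith) N).trans
      (pow_le_pow_right₀ (by linarith) hN)
  have h5 : 0 ≤ (A - u (θ z)) ^ N := pow_nonneg (by linarith) N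
  have h6 : 0 ≤ A' := by linarith
  gcongr

/-- the moving gradient estimate, one function, in the shape `UpB` -/
theorem gmK_UpB (hf : LvlOK f 0 r) (hK : KEon f 0 r u) (hE : Esc f r u A) {ρ : ℝ} (h0 : 0 < ρ)
    (hρ : ρ < r) {g : E3 → ℂ} (hg : ∀ x, x ≠ 0 → nsq x < r ^ 2 → DifferentiableAt ℂ g x)
    {C a : ℝ} {m : ℕ}
    (hb : ∀ x, f x = 0 → x ≠ 0 → nsq x ≤ ρ ^ 2 →
      ‖g x‖ ^ 2 ≤ C * (Real.exp (a * u x) * (A - u x) ^ m)) :
    ∃ A' : ℝ, A ≤ A' ∧ UpB f ρ u A' (m + 2) (fun x => a * u x) g := by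
  obtain ⟨C', hC', h⟩ := gmK hf hK hE h0 hρ (N := 1) (F := fun x _ => g x) (fun _ => hg)
    (C := max C 1) (a := a) (m := m) (lt_max_of_lt_right one_pos) (fun x h1 h2 h3 => by
      have h4 := hE.one x h1 h2 (lt_of_le_of_lt h3 (pow_lt_pow_left₀ hρ h0.le two_ne_zero))
      rw [Fin.sum_univ_one]
      refine (hb x h1 h2 h3).trans (mul_le_mul_of_nonneg_right (le_max_left _ _) ?_)
      have : 0 ≤ (A - u x) ^ m := pow_nonneg (by linarith) m
      positivity)
  refine ⟨max A C', le_max_left _ _, fun θ O hP z hz v => ?_⟩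
  have h1 := h θ O hP z hz v
  rw [Fin.sum_univ_one] at h1
  have hP' := PE.mono' hP h0.le hρ.le
  have h2 := hE.one _ (hP'.par.lvl z hz) (hP'.ne z hz) (hP'.lt z hz)
  have h3 := lev_nn hK hP' hz v
  rw [lev333_eq_lev145] at h3 ⊢
  refine h1.trans ?_
  have h4 : (A - u (θ z)) ^ (m + 2) ≤ (max A C' - u (θ z)) ^ (m + 2) :=
    pow_le_pow_left₀ (by linarith) (by linarith [le_max_left A C']) _
  have h5 : 0 ≤ (A - u (θ z)) ^ (m + 2) := pow_nonneg (by linarith) _
  have h6 : C' ≤ max A C' := le_max_right _ _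
  have h7 : 0 ≤ Levi_145.lev (fun z => u (θ z)) z v := by linarith
  calc C' * (Real.exp (a * u (θ z)) * (A - u (θ z)) ^ (m + 2)) *
        Levi_145.lev (fun z => u (θ z)) z v
      ≤ max A C' * (Real.exp (a * u (θ z)) * (max A C' - u (θ z)) ^ (m + 2)) *
        Levi_145.lev (fun z => u (θ z)) z v := by gcongr
    _ = max A C' * (max A C' - u (θ z)) ^ (m + 2) * Real.exp (a * u (θ z)) *
        Levi_145.lev (fun z => u (θ z)) z v := by ring
    _ ≤ max A C' * (max A C' - u (θ z)) ^ (m + 2) * Real.exp (a * u (θ z)) *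
        (4 * Levi_145.lev (fun z => u (θ z)) z v) := by
      have h8 : 0 ≤ max A C' * (max A C' - u (θ z)) ^ (m + 2) * Real.exp (a * u (θ z)) := by
        have : 0 ≤ max A C' := hC'.le.trans h6
        have : 0 ≤ (max A C' - u (θ z)) ^ (m + 2) := h5.trans h4
        positivity
      exact mul_le_mul_of_nonneg_left (by linarith) h8

end

end Crest.Agent.R257.PairK_39
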