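import Crest.Agent.R257.LcxA_759
import Crest.Agent.R257.LcN_980
import Crest.Agent.R257.Tay_812
import Crest.Agent.R257.CNS_939
import Crest.Agent.R257.Inv_939
import Crest.Agent.R257.LcxDefs_759

-- ▼ part R257/LcxB_759
section

/-!
R257 / LcxB_759 (helper759): Taylor's formula for plane germs with the coefficients `cf`, uniqueness.
-/

set_option autoImplicit false
set_option linter.unusedSimpArgs false

open Topology Filter Set Asymptotics
open scoped Nat
open Crest.AlgGeometry.Germ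

noncomputable section

namespace Crest.Agent.R257.LcxB_759

open Crest.Agent.R257.Defs_219 Crest.Agent.R257.LCDefs_472 Crest.Agent.R257.LcxDefs_759
open Crest.Agent.R257.LcxA_759
open Finset.HasAntidiagonal (antidiagonal)

/-- the homogeneous part of degree `m` of the Taylor series at `x` -/
def hp (m : ℕ) (f : (Fin 2 → ℂ) → ℂ) (x y : Fin 2 → ℂ) : ℂ :=
  ∑ a ∈ antidiagonal m, y 0 ^ a.1 * y 1 ^ a.2 * nd 1 a.2 (nd 0 a.1 f) x

theorem sum_shift (m : ℕ) (g : ℕ → ℕ → ℂ) :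
    (∑ a ∈ antidiagonal m, ((a.1 : ℂ) + 1) * g (a.1 + 1) a.2) +
      (∑ a ∈ antidiagonal m, ((a.2 : ℂ) + 1) * g a.1 (a.2 + 1)) =
    (m + 1) * ∑ a ∈ antidiagonal (m + 1), g a.1 a.2 := by
  have k1 : (m + 1 : ℂ) * (∑ a ∈ antidiagonal (m + 1), g a.1 a.2) =
      (∑ a ∈ antidiagonal (m + 1), (a.1 : ℂ) * g a.1 a.2) +
      ∑ a ∈ antidiagonal (m + 1), ((a.2 : ℂ) * g a.1 a.2) := by
    rw [Finset.mul_sum, ← Finset.sum_add_distrib]
    refine Finset.sum_congr rfl fun a ha => ?_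
    have : (a.1 : ℂ) + a.2 = m + 1 := by
      have := Finset.HasAntidiagonal.mem_antidiagonal.1 ha
      exact_mod_cast this
    rw [← this]; ring
  rw [k1]
  congr 1
  · rw [Finset.Nat.sum_antidiagonal_succ]
    simp
  · rw [Finset.Nat.sum_antidiagonal_succ']
    simp

theorem hp_succ {f : (Fin 2 → ℂ) → ℂ} {x : Fin 2 → ℂ} (hf : AnalyticAt ℂ f x) (m : ℕ)
    (y : Fin 2 → ℂ) : y 0 * hp m (coordDeriv f 0) x y + y 1 * hp m (coordDeriv f 1) x y =
      (m + 1) * hp (m + 1) f x y := by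
  have e0 : ∀ a b, nd 1 b (nd 0 a (coordDeriv f 0)) x =
      ((a : ℂ) + 1) * nd 1 b (nd 0 (a + 1) f) x := fun a b => by
    rw [(nd_congr (nd_cd hf 0 a) 1 b).self_of_nhds,
      (nd_const_mul (an_nd hf 0 (a + 1)) _ 1 b).self_of_nhds]
  have e1 : ∀ a b, nd 1 b (nd 0 a (coordDeriv f 1)) x =
      ((b : ℂ) + 1) * nd 1 (b + 1) (nd 0 a f) x := fun a b => by
    rw [(nd_congr (nd_cd_comm hf 0 1 a) 1 b).self_of_nhds, (nd_cd (an_nd hf 0 a) 1 b).self_of_nhds]
  unfold hp
  rw [← sum_shift m fun a b => y 0 ^ a * y 1 ^ b * nd 1 b (nd 0 a f) x, Finset.mul_sum,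
    Finset.mul_sum]
  congr 1
  · refine Finset.sum_congr rfl fun a _ => ?_
    rw [e0]; ring
  · refine Finset.sum_congr rfl fun a _ => ?_
    rw [e1]; ring

theorem iter_hp {x : Fin 2 → ℂ} (y : Fin 2 → ℂ) (m : ℕ) : ∀ f : (Fin 2 → ℂ) → ℂ,
    AnalyticAt ℂ f x → iteratedFDeriv ℂ m f x (fun _ => y) = (m ! : ℂ) * hp m f x y := by
  induction m with
  | zero =>
    intro f hf
    rw [iteratedFDeriv_zero_apply]
    simp [hp, nd]
  | succ m ih =>
    intro f hf
    rw [LcN_980.iter_succ hf, Fin.sum_univ_two, ih _ (an_cd hf 0), ih _ (an_cd hf 1)]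
    have := hp_succ hf m y
    rw [Nat.factorial_succ]
    push_cast
    linear_combination (m ! : ℂ) * this

theorem triangle (n : ℕ) (g : ℕ → ℕ → ℂ) :
    ∑ m ∈ Finset.range n, ∑ a ∈ antidiagonal m, g a.1 a.2 =
      ∑ i ∈ Finset.range n, ∑ j ∈ Finset.range (n - i), g i j := by
  induction n with
  | zero => simp
  | succ n ih =>
    rw [Finset.sum_range_succ, ih, Finset.sum_range_succ (fun i =>
      ∑ j ∈ Finset.range (n + 1 - i), g i j) n, Finset.Nat.sum_antidiagonal_eq_sum_range_succ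
      (fun i j => g i j) n, Finset.sum_range_succ (fun k => g k (n - k)) n]
    have h1 : ∀ i ∈ Finset.range n, ∑ j ∈ Finset.range (n + 1 - i), g i j =
        ∑ j ∈ Finset.range (n - i), g i j + g i (n - i) := by
      intro i hi
      have h2 : n + 1 - i = (n - i) + 1 := by
        have := Finset.mem_range.1 hi
        omega
      rw [h2, Finset.sum_range_succ]
    rw [Finset.sum_congr rfl h1, Finset.sum_add_distrib]
    have h3 : n + 1 - n = 1 := by omega
    rw [h3]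
    simp
    ring

/-- **Taylor's formula** -/
theorem tay_cf {g : (Fin 2 → ℂ) → ℂ} (hg : AnalyticAt ℂ g 0) (n : ℕ) : Tay n g (cf g) := by
  obtain ⟨p, hp'⟩ := id hg
  obtain ⟨r, hr⟩ := id hp'
  have q : ∀ m y, p m (fun _ => y) = hp m g 0 y := fun m y => by
    have h1 := hr.factorial_smul y m
    rw [iter_hp y m g hg] at h1
    have h2 : (m ! : ℂ) ≠ 0 := by exact_mod_cast Nat.factorial_ne_zero m
    have h3 : (m ! : ℂ) * p m (fun _ => y) = (m ! : ℂ) * hp m g 0 y := by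
      rw [← h1]; simp
    exact mul_left_cancel₀ h2 h3
  have := hp'.isBigO_sub_partialSum_pow (n + 1)
  unfold Tay
  refine this.congr_left fun y => ?_
  rw [zero_add, FormalMultilinearSeries.partialSum]
  simp only [q]
  congr 1
  unfold hp
  rw [triangle (n + 1) fun a b => y 0 ^ a * y 1 ^ b * nd 1 b (nd 0 a g) 0]
  refine Finset.sum_congr rfl fun i _ => Finset.sum_congr rfl fun j _ => ?_
  unfold cf
  ring



end Crest.Agent.R257.LcxB_759
end
end

-- ▼ part R257/Par1_771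
section

/-!
R257 / Par1_771 (leaf LCX5): weighted orders of germs and lower bounds for colengths.

`WtB w d g` : `|g x| ≤ C s^d` on the boxes `|x_i| ≤ s^{w_i}`;
`wln w v`   : restriction of germs to the curve `t ↦ (v_i t^{w_i})`;
`FF w k`    : germs whose restrictions to all these curves have order `≥ k`;
`wt_lower`  : `#S ≤ dim O/(G) + Σ_j #T_j`.
-/

set_option autoImplicit false
set_option linter.unusedSectionVars false

open Set Filter Topology
open Crest.AlgGeometry.Germ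
open Crest.Agent.R275.Loc2879
open Crest.Agent.R257.Uni554
open Crest.Agent.R257.Tay_812

noncomputable section

namespace Crest.Agent.R257.Par1_771

variable {n : ℕ}

/-- weighted order at least `d`, analytic version -/
def WtB (w : Fin n → ℕ) (d : ℕ) (g : (Fin n → ℂ) → ℂ) : Prop :=
  ∃ C s₀ : ℝ, 0 < s₀ ∧ ∀ s : ℝ, 0 < s → s ≤ s₀ → ∀ x : Fin n → ℂ, (∀ i, ‖x i‖ ≤ s ^ w i) →
    ‖g x‖ ≤ C * s ^ d

/-- weighted curves -/
def cv (w : Fin n → ℕ) (v : Fin n → ℂ) (t : ℂ) : Fin n → ℂ := fun i => v i * t ^ w i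

lemma cv_an (w : Fin n → ℕ) (v : Fin n → ℂ) (t : ℂ) : AnalyticAt ℂ (cv w v) t := by
  unfold cv
  refine AnalyticAt.pi fun i => ?_
  exact analyticAt_const.mul (analyticAt_id.pow _)

lemma cv_zero {w : Fin n → ℕ} (hw : ∀ i, 0 < w i) (v : Fin n → ℂ) :
    cv w v 0 = (0 : Fin n → ℂ) := by
  funext i
  simp [cv, (hw i).ne']

/-- restriction to a weighted curve -/
def wln {w : Fin n → ℕ} (hw : ∀ i, 0 < w i) (v : Fin n → ℂ) : On n →+* OO (0 : ℂ) :=
  pull (cv w v) (cv_an w v 0) (cv_zero hw v)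

/-- the weight filtration -/
def FF {w : Fin n → ℕ} (hw : ∀ i, 0 < w i) (k : ℕ) : Ideal (On n) :=
  ⨅ v, (Ideal.span {TT (0 : ℂ) ^ k}).comap (wln hw v)

lemma mem_FF {w : Fin n → ℕ} {hw : ∀ i, 0 < w i} {k : ℕ} {b : On n} :
    b ∈ FF hw k ↔ ∀ v, TT (0 : ℂ) ^ k ∣ wln hw v b := by
  simp only [FF, Ideal.mem_iInf, Ideal.mem_comap, Ideal.mem_span_singleton]

lemma FF_mul {w : Fin n → ℕ} {hw : ∀ i, 0 < w i} {k l : ℕ} {a b : On n}
    (ha : a ∈ FF hw k) (hb : b ∈ FF hw l) : a * b ∈ FF hw (k + l) := by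
  rw [mem_FF] at *
  intro v
  rw [map_mul, pow_add]
  exact mul_dvd_mul (ha v) (hb v)

lemma FF_anti {w : Fin n → ℕ} {hw : ∀ i, 0 < w i} {k l : ℕ} (h : k ≤ l) {a : On n}
    (ha : a ∈ FF hw l) : a ∈ FF hw k := by
  rw [mem_FF] at *
  exact fun v => (pow_dvd_pow _ h).trans (ha v)

lemma wln_Xo {w : Fin n → ℕ} (hw : ∀ i, 0 < w i) (v : Fin n → ℂ) (i : Fin n) :
    wln hw v (Xo i) = algebraMap ℂ (OO (0 : ℂ)) (v i) * TT (0 : ℂ) ^ w i := by
  rw [wln, Xo, pull_gm, TT, Crest.Agent.R275.Loc2879.algebraMap_apply]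
  have h1 : ∀ k : ℕ, (gm (fun w : ℂ => w - 0) (analyticAt_id.sub analyticAt_const) :
      OO (0 : ℂ)) ^ k = gm (fun t : ℂ => t ^ k) (analyticAt_id.pow k) := by
    intro k
    induction k with
    | zero =>
      rw [pow_zero, ← map_one (algebraMap ℂ (OO (0 : ℂ))),
        Crest.Agent.R275.Loc2879.algebraMap_apply, gm_eq_gm]
      exact Eventually.of_forall fun t => by simp
    | succ k ih =>
      rw [pow_succ, ih, gm_mul, gm_eq_gm]
      refine Eventually.of_forall fun t => ?_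
      simp [pow_succ]
  rw [h1, gm_mul, gm_eq_gm]
  exact Eventually.of_forall fun t => rfl

lemma wln_algebraMap {w : Fin n → ℕ} (hw : ∀ i, 0 < w i) (v : Fin n → ℂ) (c : ℂ) :
    wln hw v (algebraMap ℂ (On n) c) = algebraMap ℂ (OO (0 : ℂ)) c := by
  rw [wln, Crest.Agent.R275.Loc2879.algebraMap_apply, pull_gm,
    Crest.Agent.R275.Loc2879.algebraMap_apply, gm_eq_gm]
  exact Eventually.of_forall (fun t => rfl)


/-- the `K`-th power of the maximal ideal has weighted order at least `K` -/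
lemma max_pow_le {w : Fin n → ℕ} (hw : ∀ i, 0 < w i) (K : ℕ) {b : On n}
    (hb : b ∈ IsLocalRing.maximalIdeal (On n) ^ K) : b ∈ FF hw K := by
  rw [mem_FF]
  intro v
  have h1 : (IsLocalRing.maximalIdeal (On n)).map (wln hw v) ≤ Ideal.span {TT (0 : ℂ)} := by
    rw [Ideal.map_le_iff_le_comap]
    intro a ha
    rw [Ideal.mem_comap, Ideal.mem_span_singleton]
    obtain ⟨q, hq⟩ := had a
    have h2 : evp 0 a = 0 := by
      by_contra hne
      exact (IsLocalRing.mem_maximalIdeal _).1 ha (Crest.Agent.R275.Loc2879.isUnit_iff.2 hne)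
    rw [hq, h2, map_zero, zero_add, map_sum]
    refine Finset.dvd_sum fun i _ => ?_
    rw [map_mul, wln_Xo]
    exact ((dvd_pow_self _ (hw i).ne').mul_left _).mul_right _
  have h2 : ((IsLocalRing.maximalIdeal (On n)) ^ K).map (wln hw v) ≤
      Ideal.span {TT (0 : ℂ) ^ K} := by
    rw [Ideal.map_pow, ← Ideal.span_singleton_pow]
    exact Ideal.pow_right_mono h1 K
  exact Ideal.mem_span_singleton.1 (h2 (Ideal.mem_map_of_mem _ hb))

/-! ### polynomials -/

/-- the weight of an exponent -/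
def wt (w : Fin n → ℕ) (α : Fin n →₀ ℕ) : ℕ := ∑ i, w i * α i

/-- a polynomial restricted to a weighted curve -/
def wlp (w : Fin n → ℕ) (v : Fin n → ℂ) : MvPolynomial (Fin n) ℂ →ₐ[ℂ] Polynomial ℂ :=
  MvPolynomial.aeval fun i => Polynomial.C (v i) * Polynomial.X ^ w i

lemma wln_aeval {w : Fin n → ℕ} (hw : ∀ i, 0 < w i) (v : Fin n → ℂ)
    (p : MvPolynomial (Fin n) ℂ) :
    wln hw v (MvPolynomial.aeval Xo p) = Polynomial.aeval (TT (0 : ℂ)) (wlp w v p) := by
  induction p using MvPolynomial.induction_on with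
  | C a =>
    rw [MvPolynomial.algHom_C, wlp, MvPolynomial.algHom_C, wln_algebraMap,
      Polynomial.algebraMap_apply, Polynomial.aeval_C]
    rfl
  | add p q hp hq => rw [map_add, map_add, hp, hq, map_add, map_add]
  | mul_X p i hp =>
    rw [map_mul, map_mul, hp, map_mul, map_mul, MvPolynomial.aeval_X, wln_Xo]
    congr 1
    rw [wlp, MvPolynomial.aeval_X, map_mul, map_pow, Polynomial.aeval_X, Polynomial.aeval_C]

lemma wlp_eq (w : Fin n → ℕ) (v : Fin n → ℂ) (p : MvPolynomial (Fin n) ℂ) :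
    wlp w v p = ∑ d ∈ p.support,
      Polynomial.C (p.coeff d * ∏ i, v i ^ d i) * Polynomial.X ^ wt w d := by
  conv_lhs => rw [p.as_sum]
  rw [map_sum]
  refine Finset.sum_congr rfl fun d _ => ?_
  rw [wlp, MvPolynomial.aeval_monomial, Finsupp.prod_fintype _ _ (fun i => pow_zero _)]
  simp only [mul_pow, Finset.prod_mul_distrib, ← pow_mul, Finset.prod_pow_eq_pow_sum]
  rw [Polynomial.C_mul, map_prod]
  simp only [Polynomial.C_pow, Polynomial.algebraMap_apply, Algebra.algebraMap_self,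
    RingHom.id_apply, wt]
  ring

/-- the part of weight `j` of a polynomial -/
def wc (w : Fin n → ℕ) (j : ℕ) (p : MvPolynomial (Fin n) ℂ) : MvPolynomial (Fin n) ℂ :=
  ∑ d ∈ p.support with wt w d = j, MvPolynomial.monomial d (p.coeff d)

lemma coeff_wc (w : Fin n → ℕ) (j : ℕ) (p : MvPolynomial (Fin n) ℂ) {α : Fin n →₀ ℕ}
    (h : wt w α = j) : (wc w j p).coeff α = p.coeff α := by
  classical
  rw [wc, MvPolynomial.coeff_sum]
  simp only [MvPolynomial.coeff_monomial]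
  by_cases hα : α ∈ p.support
  · rw [Finset.sum_eq_single α]
    · simp
    · intro b _ hb; rw [if_neg hb]
    · intro hh
      exact absurd (Finset.mem_filter.2 ⟨hα, h⟩) hh
  · rw [Finset.sum_eq_zero, MvPolynomial.notMem_support_iff.1 hα]
    intro b hb
    have : b ≠ α := fun e => hα (e ▸ (Finset.mem_filter.1 hb).1)
    rw [if_neg this]

lemma coeff_wlp (w : Fin n → ℕ) (v : Fin n → ℂ) (p : MvPolynomial (Fin n) ℂ) (j : ℕ) :
    (wlp w v p).coeff j = MvPolynomial.eval v (wc w j p) := by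
  classical
  rw [wlp_eq, Polynomial.finsetSum_coeff, wc, map_sum, Finset.sum_filter]
  refine Finset.sum_congr rfl fun d _ => ?_
  rw [Polynomial.coeff_C_mul_X_pow, MvPolynomial.eval_monomial,
    Finsupp.prod_fintype _ _ (fun i => pow_zero _)]
  by_cases h : j = wt w d
  · rw [if_pos h, if_pos h.symm]
  · rw [if_neg h, if_neg (fun h' => h h'.symm)]

/-- the coefficients of low weight of a polynomial in `FF K` vanish -/
lemma coeff_eq_zero {w : Fin n → ℕ} {hw : ∀ i, 0 < w i} {K : ℕ} {p : MvPolynomial (Fin n) ℂ}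
    (hp : MvPolynomial.aeval Xo p ∈ FF hw K) {α : Fin n →₀ ℕ} (hα : wt w α < K) :
    p.coeff α = 0 := by
  rw [← coeff_wc w (wt w α) p rfl]
  have h0 : wc w (wt w α) p = 0 := by
    apply MvPolynomial.funext
    intro v
    have h1 := mem_FF.1 hp v
    rw [wln_aeval] at h1
    obtain ⟨q, hq⟩ := X_pow_dvd K _ h1
    rw [← coeff_wlp, hq, Polynomial.coeff_X_pow_mul', if_neg (by omega), map_zero]
  rw [h0, MvPolynomial.coeff_zero]

lemma aeval_monomial_mem {w : Fin n → ℕ} (hw : ∀ i, 0 < w i) (α : Fin n →₀ ℕ) (c : ℂ) :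
    MvPolynomial.aeval (Xo (n := n)) (MvPolynomial.monomial α c) ∈ FF hw (wt w α) := by
  rw [mem_FF]
  intro v
  rw [wln_aeval, wlp, MvPolynomial.aeval_monomial,
    Finsupp.prod_fintype _ _ (fun i => pow_zero _)]
  simp only [mul_pow, Finset.prod_mul_distrib, ← pow_mul, Finset.prod_pow_eq_pow_sum]
  rw [map_mul, map_mul, map_pow, Polynomial.aeval_X]
  exact ((Dvd.intro_left _ rfl).mul_left _)

/-- every germ is a polynomial supported in weights `< K`, modulo weighted order `≥ K` -/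
lemma exists_low {w : Fin n → ℕ} (hw : ∀ i, 0 < w i) (K : ℕ) (b : On n) :
    ∃ p : MvPolynomial (Fin n) ℂ, (∀ α ∈ p.support, wt w α < K) ∧
      b - MvPolynomial.aeval Xo p ∈ FF hw K := by
  classical
  obtain ⟨p, hp⟩ := exists_poly K b
  refine ⟨∑ d ∈ p.support with wt w d < K, MvPolynomial.monomial d (p.coeff d), ?_, ?_⟩
  · intro α hα
    by_contra hcon
    rw [MvPolynomial.mem_support_iff, MvPolynomial.coeff_sum] at hα
    apply hα
    refine Finset.sum_eq_zero fun d hd => ?_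
    rw [MvPolynomial.coeff_monomial, if_neg]
    rintro rfl
    exact hcon (Finset.mem_filter.1 hd).2
  · have h1 : p = ∑ d ∈ p.support with wt w d < K, MvPolynomial.monomial d (p.coeff d) +
        ∑ d ∈ p.support with ¬ wt w d < K, MvPolynomial.monomial d (p.coeff d) := by
      rw [Finset.sum_filter_add_sum_filter_not]
      exact p.as_sum
    have h2 : b - MvPolynomial.aeval Xo
        (∑ d ∈ p.support with wt w d < K, MvPolynomial.monomial d (p.coeff d)) =
        (b - MvPolynomial.aeval Xo p) + MvPolynomial.aeval Xo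
        (∑ d ∈ p.support with ¬ wt w d < K, MvPolynomial.monomial d (p.coeff d)) := by
      nth_rewrite 3 [h1]
      rw [map_add]
      ring
    rw [h2]
    refine Ideal.add_mem _ (max_pow_le hw K hp) ?_
    rw [map_sum]
    refine Ideal.sum_mem _ fun d hd => ?_
    exact FF_anti (not_lt.1 (Finset.mem_filter.1 hd).2) (aeval_monomial_mem hw _ _)

end Crest.Agent.R257.Par1_771
end
end

-- ▼ part R257/Par2_771
section

/-!
R257 / Par2_771 (leaf LCX5): the lower bound for colengths by weights.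
-/

set_option autoImplicit false
set_option linter.unusedSectionVars false

open Set Filter Topology
open Crest.AlgGeometry.Germ
open Crest.Agent.R275.Loc2879
open Crest.Agent.R257.Uni554
open Crest.Agent.R257.Tay_812
open Crest.Agent.R257.Par1_771

noncomputable section

namespace Crest.Agent.R257.Par2_771

variable {n m : ℕ}

/-- the polynomial with given coefficients on `S` -/
def PS (S : Finset (Fin n →₀ ℕ)) : (S → ℂ) →ₗ[ℂ] MvPolynomial (Fin n) ℂ :=
  ∑ α : S, (MvPolynomial.monomial (R := ℂ) (α : Fin n →₀ ℕ)).comp (LinearMap.proj α)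

theorem coeff_PS (S : Finset (Fin n →₀ ℕ)) (c : S → ℂ) (α : S) :
    (PS S c).coeff (α : Fin n →₀ ℕ) = c α := by
  classical
  simp only [PS, LinearMap.sum_apply, LinearMap.comp_apply, LinearMap.proj_apply,
    MvPolynomial.coeff_sum, MvPolynomial.coeff_monomial]
  rw [Finset.sum_eq_single α]
  · simp
  · intro β _ hβ
    rw [if_neg (fun h => hβ (Subtype.ext h))]
  · intro h; exact absurd (Finset.mem_univ _) h

/-- **lower bound for the colength by weights** -/
theorem wt_lower {w : Fin n → ℕ} (hw : ∀ i, 0 < w i) (G : Fin m → On n) (J : Ideal (On n))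
    (hJ : ∀ a ∈ J, ∃ c : Fin m → On n, a = ∑ j, c j * G j) [Module.Finite ℂ (On n ⧸ J)]
    {K : ℕ} {d : Fin m → ℕ} (hd : ∀ j, d j ≤ K) (hG : ∀ j, G j ∈ FF hw (d j))
    (S : Finset (Fin n →₀ ℕ)) (hS : ∀ α ∈ S, wt w α < K) (T : Fin m → Finset (Fin n →₀ ℕ))
    (hT : ∀ j α, wt w α + d j < K → α ∈ T j) :
    S.card ≤ Module.finrank ℂ (On n ⧸ J) + ∑ j, (T j).card := by
  classical
  let A : (S → ℂ) →ₗ[ℂ] On n := (MvPolynomial.aeval Xo).toLinearMap ∘ₗ PS S
  let q : On n →ₗ[ℂ] (On n ⧸ J) := (Ideal.Quotient.mkₐ ℂ J).toLinearMap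
  let π : On n →ₗ[ℂ] (On n ⧸ (FF hw K)) := (Ideal.Quotient.mkₐ ℂ (FF hw K)).toLinearMap
  have hq : ∀ a, q a = 0 ↔ a ∈ J := fun a => Ideal.Quotient.eq_zero_iff_mem
  have hπ : ∀ a, π a = 0 ↔ a ∈ FF hw K := fun a => Ideal.Quotient.eq_zero_iff_mem
  set L := LinearMap.ker (q ∘ₗ A) with hL
  let u : (Σ j : Fin m, T j) → (On n ⧸ (FF hw K)) := fun p =>
    π (MvPolynomial.aeval Xo (MvPolynomial.monomial (p.2 : Fin n →₀ ℕ) (1 : ℂ)) * G p.1)
  set W := Submodule.span ℂ (Set.range u) with hW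
  have hLW : ∀ c ∈ L, π (A c) ∈ W := by
    intro c hc
    have h1 : A c ∈ J := (hq _).1 hc
    obtain ⟨a, ha⟩ := hJ _ h1
    rw [ha, map_sum]
    refine Submodule.sum_mem _ fun j _ => ?_
    obtain ⟨p, hp, hr⟩ := exists_low hw (K - d j) (a j)
    have e1 : a j * G j = (a j - MvPolynomial.aeval Xo p) * G j +
        ∑ α ∈ p.support, p.coeff α •
          (MvPolynomial.aeval Xo (MvPolynomial.monomial α (1 : ℂ)) * G j) := by
      have e2 : (MvPolynomial.aeval Xo p : On n) =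
          ∑ α ∈ p.support, p.coeff α • MvPolynomial.aeval Xo (MvPolynomial.monomial α (1 : ℂ)) := by
        conv_lhs => rw [p.as_sum]
        rw [map_sum]
        refine Finset.sum_congr rfl fun α _ => ?_
        rw [← map_smul, MvPolynomial.smul_monomial, smul_eq_mul, mul_one]
      simp only [← smul_mul_assoc]
      rw [← Finset.sum_mul, ← e2]
      ring
    have e3 : (a j - MvPolynomial.aeval Xo p) * G j ∈ FF hw K := by
      have := FF_mul hr (hG j)
      rwa [Nat.sub_add_cancel (hd j)] at this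
    rw [e1, map_add, (hπ _).2 e3, zero_add, map_sum]
    refine Submodule.sum_mem _ fun α hα => ?_
    rw [map_smul]
    refine Submodule.smul_mem _ _ (Submodule.subset_span ⟨⟨j, ⟨α, hT j α ?_⟩⟩, rfl⟩)
    have := hp α hα
    omega
  have hWf : Module.Finite ℂ W := Module.Finite.span_of_finite ℂ (Set.finite_range u)
  have hWc : Module.finrank ℂ W ≤ ∑ j, (T j).card := by
    have h1 := finrank_range_le_card (R := ℂ) u
    have h2 : Fintype.card (Σ j : Fin m, T j) = ∑ j, (T j).card := by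
      rw [Fintype.card_sigma]
      exact Finset.sum_congr rfl fun j _ => Fintype.card_coe _
    rw [h2] at h1
    simpa [Set.finrank, hW] using h1
  let B : L →ₗ[ℂ] W := LinearMap.codRestrict W ((π ∘ₗ A) ∘ₗ L.subtype) fun c => hLW c c.2
  have hB : Function.Injective B := by
    rw [← LinearMap.ker_eq_bot, LinearMap.ker_eq_bot']
    intro c hc
    have h1 : π (A c) = 0 := congrArg Subtype.val hc
    have h2 : MvPolynomial.aeval Xo (PS S c.1) ∈ FF hw K := (hπ _).1 h1
    apply Subtype.ext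
    funext α
    have h3 := coeff_eq_zero h2 (hS α α.2)
    rw [coeff_PS] at h3
    exact h3
  have h3 : Module.finrank ℂ L ≤ ∑ j, (T j).card :=
    (LinearMap.finrank_le_finrank_of_injective hB).trans hWc
  have h4 := LinearMap.finrank_range_add_finrank_ker (q ∘ₗ A)
  have h5 : Module.finrank ℂ (LinearMap.range (q ∘ₗ A)) ≤ Module.finrank ℂ (On n ⧸ J) :=
    Submodule.finrank_le _
  have h6 : Module.finrank ℂ (S → ℂ) = S.card := by
    rw [Module.finrank_fintype_fun_eq_card, Fintype.card_coe]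
  rw [h6] at h4
  have h7 : Module.finrank ℂ (LinearMap.range (q ∘ₗ A)) + Module.finrank ℂ L = S.card := h4
  omega

/-! ### analytic criterion -/

/-- order of vanishing in one variable from a bound -/
lemma TT_pow_dvd {h : ℂ → ℂ} (hh : AnalyticAt ℂ h 0) {k : ℕ} {C : ℝ}
    (hb : ∀ᶠ t in 𝓝[≠] (0 : ℂ), ‖h t‖ ≤ C * ‖t‖ ^ k) : TT (0 : ℂ) ^ k ∣ (gm h hh : OO (0 : ℂ)) := by
  have h1 : (k : ℕ∞) ≤ analyticOrderAt h 0 := by
    by_contra hcon
    rw [not_le] at hcon
    obtain ⟨m, hm⟩ := ENat.ne_top_iff_exists.1 (ne_top_of_lt hcon)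
    rw [← hm] at hcon
    have hmk : m < k := by exact_mod_cast hcon
    obtain ⟨g, hg, hg0, hge⟩ := (hh.analyticOrderAt_eq_natCast (n := m)).1 hm.symm
    -- `‖g t‖ ≤ C ‖t‖^(k-m)`
    have h2 : ∀ᶠ t in 𝓝[≠] (0 : ℂ), ‖g t‖ ≤ C * ‖t‖ ^ (k - m) := by
      filter_upwards [hb, hge.filter_mono nhdsWithin_le_nhds, self_mem_nhdsWithin] with t h3 h4 h5
      have h5' : (0 : ℝ) < ‖t‖ := norm_pos_iff.2 h5
      rw [h4, sub_zero, norm_smul, norm_pow] at h3
      have h6 : ‖t‖ ^ k = ‖t‖ ^ m * ‖t‖ ^ (k - m) := by rw [← pow_add]; congr 1; omega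
      rw [h6] at h3
      have h7 : 0 < ‖t‖ ^ m := pow_pos h5' m
      have h8 : ‖t‖ ^ m * ‖g t‖ ≤ ‖t‖ ^ m * (C * ‖t‖ ^ (k - m)) := by linarith [h3]
      exact le_of_mul_le_mul_left h8 h7
    have h3 : Tendsto (fun t : ℂ => ‖g t‖) (𝓝[≠] 0) (𝓝 ‖g 0‖) :=
      (hg.continuousAt.norm.tendsto).mono_left nhdsWithin_le_nhds
    have h4 : Tendsto (fun t : ℂ => C * ‖t‖ ^ (k - m)) (𝓝[≠] 0) (𝓝 (C * ‖(0 : ℂ)‖ ^ (k - m))) :=
      ((continuous_const.mul (continuous_norm.pow _)).tendsto 0).mono_left nhdsWithin_le_nhds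
    have h5 := le_of_tendsto_of_tendsto h3 h4 h2
    rw [norm_zero, zero_pow (by omega), mul_zero] at h5
    exact hg0 (norm_le_zero_iff.1 h5)
  obtain ⟨g, hg, hge⟩ := (natCast_le_analyticOrderAt hh).1 h1
  have h2 : ∀ k : ℕ, (TT (0 : ℂ)) ^ k = (gm (fun t : ℂ => (t - 0) ^ k)
      ((analyticAt_id.sub analyticAt_const).pow k) : OO (0 : ℂ)) := by
    intro k
    induction k with
    | zero =>
      rw [pow_zero, ← map_one (algebraMap ℂ (OO (0 : ℂ))),
        Crest.Agent.R275.Loc2879.algebraMap_apply, gm_eq_gm]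
      exact Eventually.of_forall fun t => by simp
    | succ k ih =>
      rw [pow_succ, ih, TT, gm_mul, gm_eq_gm]
      refine Eventually.of_forall fun t => ?_
      simp [pow_succ]
  refine ⟨gm g hg, ?_⟩
  rw [h2, gm_mul, gm_eq_gm]
  filter_upwards [hge] with t ht
  rw [ht, smul_eq_mul]
  rfl

/-- the analytic weight bound implies the algebraic one -/
theorem mem_FF_of_WtB {w : Fin n → ℕ} (hw : ∀ i, 0 < w i) {d : ℕ} {g : (Fin n → ℂ) → ℂ}
    (hg : AnalyticAt ℂ g 0) (h : WtB w d g) : (gm g hg : On n) ∈ FF hw d := by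
  rw [mem_FF]
  intro v
  obtain ⟨C, s₀, hs₀, hb⟩ := h
  rw [wln, pull_gm]
  set M : ℝ := 1 + ∑ i, ‖v i‖ with hM
  have hM1 : 1 ≤ M := by
    have : 0 ≤ ∑ i, ‖v i‖ := Finset.sum_nonneg fun i _ => norm_nonneg _
    rw [hM]; linarith
  refine TT_pow_dvd (C := C * M ^ d) _ ?_
  have h1 : ∀ᶠ t in 𝓝 (0 : ℂ), M * ‖t‖ < s₀ := by
    have : Tendsto (fun t : ℂ => M * ‖t‖) (𝓝 0) (𝓝 (M * ‖(0 : ℂ)‖)) :=
      (continuous_const.mul continuous_norm).tendsto 0
    rw [norm_zero, mul_zero] at this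
    exact this.eventually (gt_mem_nhds hs₀)
  filter_upwards [h1.filter_mono nhdsWithin_le_nhds, self_mem_nhdsWithin] with t ht ht0
  have ht1 : 0 < M * ‖t‖ := mul_pos (by linarith) (norm_pos_iff.2 ht0)
  have h2 := hb (M * ‖t‖) ht1 ht.le (cv w v t) (fun i => by
    rw [cv, norm_mul, norm_pow, mul_pow]
    have h3 : ‖v i‖ ≤ M ^ w i := by
      have h4 : ‖v i‖ ≤ M := by
        have : ‖v i‖ ≤ ∑ i, ‖v i‖ :=
          Finset.single_le_sum (f := fun i => ‖v i‖) (fun i _ => norm_nonneg _) (Finset.mem_univ i)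
        rw [hM]; linarith
      exact h4.trans (le_self_pow₀ hM1 (hw i).ne')
    exact mul_le_mul_of_nonneg_right h3 (by positivity))
  calc ‖(g ∘ cv w v) t‖ ≤ C * (M * ‖t‖) ^ d := h2
    _ = C * M ^ d * ‖t‖ ^ d := by ring

end Crest.Agent.R257.Par2_771
end
end

-- ▼ part R257/Par3_771

/-!
R257 / Par3_771: `CountStmt` of `LcxDefs_759`, the lower bound of the Milnor number by weights.
-/

set_option autoImplicit false
set_option linter.unusedSectionVars false

open Set Filter Topology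
open Crest.AlgGeometry.Germ
open Crest.Agent.R275.Loc2879
open Crest.Agent.R257.Uni554
open Crest.Agent.R257.Defs_219 Crest.Agent.R257.LCDefs_472
open Crest.Agent.R257.Par1_771 Crest.Agent.R257.Par2_771

noncomputable section

namespace Crest.Agent.R257.Par3_771

variable {n : ℕ}

/-- Cauchy estimate in boxes -/
theorem wtB_cd {w : Fin n → ℕ} (hw : ∀ i, 0 < w i) {d : ℕ} {g : (Fin n → ℂ) → ℂ}
    (hg : AnalyticAt ℂ g 0) (h : WtB w d g) {j : Fin n} (hj : w j ≤ d) :
    WtB w (d - w j) (coordDeriv g j) := by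
  obtain ⟨C, s₀, hs₀, h⟩ := h
  obtain ⟨ρ, hρ, hρa⟩ : ∃ ρ > 0, ∀ x : Fin n → ℂ, ‖x‖ < ρ → AnalyticAt ℂ g x := by
    obtain ⟨ρ, hρ, h1⟩ := Metric.eventually_nhds_iff.1 hg.eventually_analyticAt
    exact ⟨ρ, hρ, fun x hx => h1 (by rwa [dist_zero_right])⟩
  refine ⟨C * 2 ^ d, min (s₀ / 2) (min (1 / 2) (ρ / 4)), by positivity, ?_⟩
  intro s hs hs1 x hx
  have hsa : s ≤ s₀ / 2 := hs1.trans (min_le_left _ _)
  have hsb : s ≤ 1 / 2 := hs1.trans ((min_le_right _ _).trans (min_le_left _ _))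
  have hsc : s ≤ ρ / 4 := hs1.trans ((min_le_right _ _).trans (min_le_right _ _))
  have h2s : ∀ i, (2 * s) ^ w i ≤ 2 * s := fun i =>
    pow_le_of_le_one (by positivity) (by linarith) (hw i).ne'
  have key : ∀ ζ : ℂ, ‖ζ‖ ≤ s ^ w j → ∀ i, ‖(x + ζ • (Pi.single j 1 : Fin n → ℂ)) i‖ ≤
      (2 * s) ^ w i := by
    intro ζ hζ i
    have h1 : (1 : ℝ) + 1 ≤ 2 ^ w i := by
      calc (1 : ℝ) + 1 = 2 ^ 1 := by norm_num
        _ ≤ 2 ^ w i := pow_le_pow_right₀ (by norm_num) (hw i)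
    rw [mul_pow]
    have hp : 0 ≤ s ^ w i := by positivity
    by_cases hij : i = j
    · subst hij
      simp only [Pi.add_apply, Pi.smul_apply, Pi.single_eq_same, smul_eq_mul, mul_one]
      calc ‖x i + ζ‖ ≤ ‖x i‖ + ‖ζ‖ := norm_add_le _ _
        _ ≤ s ^ w i + s ^ w i := add_le_add (hx i) hζ
        _ ≤ 2 ^ w i * s ^ w i := by nlinarith
    · simp only [Pi.add_apply, Pi.smul_apply, Pi.single_eq_of_ne hij, smul_eq_mul, mul_zero,
        add_zero]
      refine (hx i).trans ?_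
      nlinarith
  have hball : ∀ ζ : ℂ, ‖ζ‖ ≤ s ^ w j → ‖x + ζ • (Pi.single j 1 : Fin n → ℂ)‖ < ρ := by
    intro ζ hζ
    rw [pi_norm_lt_iff hρ]
    intro i
    refine (key ζ hζ i).trans_lt ?_
    refine (h2s i).trans_lt ?_
    linarith
  have hR : 0 < s ^ w j := by positivity
  have han : ∀ ζ : ℂ, ‖ζ‖ ≤ s ^ w j →
      AnalyticAt ℂ (fun ζ : ℂ => g (x + ζ • (Pi.single j 1 : Fin n → ℂ))) ζ := by
    intro ζ hζ
    have h1 : AnalyticAt ℂ (fun ζ : ℂ => x + ζ • (Pi.single j 1 : Fin n → ℂ)) ζ :=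
      analyticAt_const.add (analyticAt_id.smul analyticAt_const)
    exact AnalyticAt.comp (g := g) (hρa _ (hball ζ hζ)) h1
  have hd : DiffContOnCl ℂ (fun ζ : ℂ => g (x + ζ • (Pi.single j 1 : Fin n → ℂ)))
      (Metric.ball 0 (s ^ w j)) := by
    refine DifferentiableOn.diffContOnCl ?_
    rw [closure_ball _ hR.ne']
    intro ζ hζ
    exact (han ζ (by simpa using hζ)).differentiableAt.differentiableWithinAt
  have hC := Complex.norm_deriv_le_of_forall_mem_sphere_norm_le hR hd (C := C * (2 * s) ^ d)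
    (by
      intro ζ hζ
      refine h (2 * s) (by positivity) (by linarith) _ (key ζ ?_)
      have : ‖ζ‖ = s ^ w j := by simpa using hζ
      exact this.le)
  have hx0 : AnalyticAt ℂ g x := hρa x (by simpa using hball 0 (by simpa using hR.le))
  have hder : deriv (fun ζ : ℂ => g (x + ζ • (Pi.single j 1 : Fin n → ℂ))) 0 =
      coordDeriv g j x := by
    have h1 : HasDerivAt (fun ζ : ℂ => x + ζ • (Pi.single j 1 : Fin n → ℂ))
        (Pi.single j 1 : Fin n → ℂ) 0 := by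
      have := ((hasDerivAt_id (0 : ℂ)).smul_const (Pi.single j 1 : Fin n → ℂ)).const_add x
      simpa using this
    have h2 : HasFDerivAt g (fderiv ℂ g x) (x + (0 : ℂ) • (Pi.single j 1 : Fin n → ℂ)) := by
      rw [zero_smul, add_zero]
      exact hx0.differentiableAt.hasFDerivAt
    exact (h2.comp_hasDerivAt (0 : ℂ) h1).deriv
  rw [hder] at hC
  refine hC.trans (le_of_eq ?_)
  rw [div_eq_iff hR.ne', mul_pow, ← Nat.sub_add_cancel hj, pow_add s (d - w j) (w j),
    Nat.sub_add_cancel hj]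
  ring

/-- `BoxO` gives `WtB` -/
theorem wtB_of_boxO {w : Fin 3 → ℕ} (hw : ∀ i, 0 < w i) {d : ℕ} {g : E3 → ℂ}
    (h : LcxDefs_759.BoxO w d g) : WtB w d g := by
  obtain ⟨κ, K, s₀, hκ, hs₀, h⟩ := h
  set κ' : ℝ := min κ 1 with hκ'
  have h0 : 0 < κ' := lt_min hκ one_pos
  have h1 : κ' ≤ 1 := min_le_right _ _
  refine ⟨K / κ' ^ d, κ' * s₀, by positivity, ?_⟩
  intro s hs hs1 x hx
  have h2 : s / κ' ≤ s₀ := by
    rw [div_le_iff₀ h0]; linarith
  have h3 := h (s / κ') (by positivity) h2 x ?_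
  · refine h3.trans (le_of_eq ?_)
    rw [div_pow]; ring
  · intro i
    refine (hx i).trans ?_
    have h4 : s ^ w i = κ' ^ w i * (s / κ') ^ w i := by
      rw [← mul_pow, mul_div_cancel₀ _ h0.ne']
    rw [h4]
    have h5 : κ' ^ w i ≤ κ := (pow_le_of_le_one h0.le h1 (hw i).ne').trans (min_le_left _ _)
    exact mul_le_mul_of_nonneg_right h5 (by positivity)


/-! ### counting -/

/-- the exponent of a triple -/
def ex3 (a : ℕ × ℕ × ℕ) : Fin 3 →₀ ℕ := Finsupp.equivFunOnFinite.symm ![a.1, a.2.1, a.2.2]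

lemma ex3_inj : Function.Injective ex3 := by
  rintro ⟨a, b, c⟩ ⟨a', b', c'⟩ h
  have h1 := Finsupp.equivFunOnFinite.symm.injective h
  have h2 := congrFun h1 0
  have h3 := congrFun h1 1
  have h4 := congrFun h1 2
  simp at h2 h3 h4
  simp [h2, h3, h4]

lemma ex3_surj (α : Fin 3 →₀ ℕ) : ex3 (α 0, α 1, α 2) = α := by
  ext i
  fin_cases i <;> rfl

lemma wt_ex3 (w : Fin 3 → ℕ) (a : ℕ × ℕ × ℕ) :
    wt w (ex3 a) = w 0 * a.1 + w 1 * a.2.1 + w 2 * a.2.2 := by
  rw [wt, Fin.sum_univ_three]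
  rfl

/-- the finset counted by `cnt` -/
def cs (w : Fin 3 → ℕ) (N e : ℕ) : Finset (ℕ × ℕ × ℕ) :=
  (Finset.range (N / w 0 + 1) ×ˢ Finset.range (N / w 1 + 1) ×ˢ Finset.range (N / w 2 + 1)).filter
    fun a => w 0 * a.1 + w 1 * a.2.1 + w 2 * a.2.2 + e ≤ N

lemma mem_cs {w : Fin 3 → ℕ} (hw : ∀ i, 0 < w i) {N e : ℕ} {a : ℕ × ℕ × ℕ} :
    a ∈ cs w N e ↔ w 0 * a.1 + w 1 * a.2.1 + w 2 * a.2.2 + e ≤ N := by
  unfold cs
  rw [Finset.mem_filter, Finset.mem_product, Finset.mem_product, Finset.mem_range,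
    Finset.mem_range, Finset.mem_range]
  refine ⟨fun h => h.2, fun h => ⟨⟨?_, ?_, ?_⟩, h⟩⟩
  · rw [Nat.lt_succ_iff, Nat.le_div_iff_mul_le (hw 0)]; nlinarith
  · rw [Nat.lt_succ_iff, Nat.le_div_iff_mul_le (hw 1)]; nlinarith
  · rw [Nat.lt_succ_iff, Nat.le_div_iff_mul_le (hw 2)]; nlinarith

/-- the bound in the given coordinates -/
theorem count0 {w : Fin 3 → ℕ} {d N : ℕ} {f : E3 → ℂ} (hw : ∀ i, 0 < w i) (hwd : ∀ i, w i ≤ d)
    (hf : AnalyticAt ℂ f 0) (hfin : ColFin (par f)) (h : WtB w d f) :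
    LcxDefs_759.cnt w N 0 ≤ col (par f) + ∑ j, LcxDefs_759.cnt w N (d - w j) := by
  classical
  have ha : ∀ i, AnalyticAt ℂ (par f i) 0 := fun i => UI939.an_coordDeriv hf i
  rw [UI939.col_eq ha]
  have := (UI939.colFin_iff ha).1 hfin
  have h1 := wt_lower (n := 3) (m := 3) hw (fun j => gm (par f j) (ha j))
    (UI939.Idl (0 : Fin 3 → ℂ) (par f)) (fun a h => (UI939.mem_Idl ha).1 h) (K := N + 1)
    (d := fun j => min (d - w j) (N + 1)) (fun j => min_le_right _ _)
    (fun j => FF_anti (min_le_left _ _) (mem_FF_of_WtB hw (ha j) (wtB_cd hw hf h (hwd j))))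
    ((cs w N 0).image ex3)
    (by
      intro α hα
      obtain ⟨a, ha, rfl⟩ := Finset.mem_image.1 hα
      rw [wt_ex3]
      have := (mem_cs hw).1 ha
      omega)
    (fun j => (cs w N (d - w j)).image ex3)
    (by
      intro j α hα
      refine Finset.mem_image.2 ⟨(α 0, α 1, α 2), ?_, ex3_surj α⟩
      rw [mem_cs hw]
      rw [← ex3_surj α, wt_ex3] at hα
      dsimp only at hα ⊢
      rcases le_total (d - w j) (N + 1) with h2 | h2
      · rw [min_eq_left h2] at hα; omega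
      · rw [min_eq_right h2] at hα; omega)
  rw [Finset.card_image_of_injective _ ex3_inj] at h1
  simp only [Finset.card_image_of_injective _ ex3_inj] at h1
  exact h1

/-- **CountStmt** -/
theorem countStmt : LcxDefs_759.CountStmt := by
  intro w d N f A hw hwd hf hfin hB
  have hA : AnalyticAt ℂ (fun x : E3 => A x) 0 :=
    (A : E3 →L[ℂ] E3).analyticAt 0
  have hg : AnalyticAt ℂ (fun x : E3 => f (A x)) 0 :=
    AnalyticAt.comp (g := f) (f := fun x : E3 => A x) (by simpa using hf) hA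
  have h1 := UI939.inv (f := f) (g := fun x : E3 => f (A x)) (Phi := fun x : E3 => A x) hf hA
    (map_zero A) (by
      have : fderiv ℂ (fun x : E3 => A x) 0 = (A : E3 →L[ℂ] E3) :=
        (A : E3 →L[ℂ] E3).hasFDerivAt.fderiv
      rw [this]
      exact A.injective) (Eventually.of_forall fun x => rfl)
  have h2 := count0 (N := N) hw hwd hg (h1.1.2 hfin) (wtB_of_boxO hw hB)
  have h3 : col (par fun x : E3 => f (A x)) = col (par f) := h1.2
  rw [h3] at h2
  exact h2

end Crest.Agent.R257.Par3_771
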