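import Crest.Agent.R273.CLinE_933
import Crest.Agent.R273.StokesV_332
import Crest.Agent.R273.BKNe_37
import Crest.Agent.R257.GBLcut_844
import Crest.Agent.R273.SteinM_794
import Crest.Agent.R273.YauDefs_635
import Crest.Agent.R275.Dg1_199
import Crest.Agent.R257.Cmp2_101

-- ▼ part R257/RSA1_844
section

/-!
# R257 (S0395), part C, task RS-AN (helper844): compact Riemann surfaces, file 1

`M` with `A : Atl 1 M`.
* `J1`, `J1_self`, `J1_mul`, `dens1`    : the derivative of the change of charts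
* `kah P : Kah A`                       : a metric (`[Finite A.ι]`)
* `dn_iff`, `tn_iff`                    : transformation laws for `n = 1`
* `poisson_m`, `poisson`                : the Poisson equation for real densities
-/

set_option autoImplicit false
set_option linter.unusedSectionVars false

open Set Filter Topology Complex MeasureTheory
open scoped ContDiff Matrix ComplexConjugate ComplexOrder

namespace Crest.Agent.R257.RSA_844

open Crest.Agent.R275 Crest.Agent.R275.Geo Crest.Agent.R275.Core144 Crest.Agent.R275.EDR890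
open Crest.Agent.R275.SerG398 (dens lint)
open Crest.Agent.R273.Defs_333 Crest.Agent.R273.Vm_333 Crest.Agent.R273.Kah_333
open Crest.Agent.R273.Hess_333 Crest.Agent.R273.HessB_333 Crest.Agent.R273.HM_333
open Crest.Agent.R273.Vol_333 Crest.Agent.R273.Green_5 Crest.Agent.R273.GreenM_5
open Crest.Agent.R273.StokesV_332

noncomputable section

variable {M : Type} [TopologicalSpace M] {A : Atl 1 M}

/-- the derivative of the change of charts -/
def J1 (A : Atl 1 M) (i j : A.ι) (x : M) : ℂ := A.J i j x 0 0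

theorem J1_self (i : A.ι) {x : M} (hx : x ∈ (A.e i).source) : J1 A i i x = 1 := by
  have h := J_self (A := A) i hx
  have := congrFun (congrFun h 0) 0
  rw [Matrix.one_apply_eq] at this
  exact this

theorem J1_mul (i j k : A.ι) {x : M}
    (hx : x ∈ (A.e i).source ∩ (A.e j).source ∩ (A.e k).source) :
    J1 A i k x = J1 A j k x * J1 A i j x := by
  have h := J_mul (A := A) i j k hx
  have := congrFun (congrFun h 0) 0
  rw [Matrix.mul_apply, Fin.sum_univ_one] at this
  exact this.symm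

theorem J1_ne {i j : A.ι} {x : M} (hx : x ∈ (A.e i).source ∩ (A.e j).source) :
    J1 A i j x ≠ 0 := by
  have h := J1_mul (A := A) i j i (x := x) ⟨hx, hx.1⟩
  rw [J1_self i hx.1] at h
  exact right_ne_zero_of_mul (h ▸ one_ne_zero)

theorem dens1 (i j : A.ι) (x : M) : dens A i j x = ((‖J1 A i j x‖ ^ 2 : ℝ) : ℂ) := by
  unfold dens
  rw [Matrix.det_fin_one]
  rfl

theorem J1_smooth (i j : A.ι) :
    ContDiffOn ℝ ∞ (fun z => J1 A i j ((A.e i).symm z)) (A.ov i j) :=
  OmT75.J_smooth i j 0 0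

theorem holAt_J1 (i j : A.ι) : HolAt A i (A.e j).source (J1 A i j) := holAt_J i j 0 0

/-- densities for `n = 1` -/
theorem dn_iff {f : A.ι → M → ℂ} : Dn A f ↔ ∀ i j, ∀ x ∈ (A.e i).source ∩ (A.e j).source,
    f i x = ((‖J1 A i j x‖ ^ 2 : ℝ) : ℂ) * f j x := by
  constructor
  · intro h i j x hx
    rw [← dens1]
    exact h i j x hx
  · intro h i j x hx
    rw [dens1]
    exact h i j x hx

/-- `(1,1)` tensors for `n = 1` -/
theorem tn_iff {S : A.ι → M → Matrix (Fin 1) (Fin 1) ℂ} :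
    Tn A S ↔ ∀ i j, ∀ x ∈ (A.e i).source ∩ (A.e j).source,
      S i x 0 0 = ((‖J1 A i j x‖ ^ 2 : ℝ) : ℂ) * S j x 0 0 := by
  have e : ∀ i j x, ((Jm A i j x)ᵀ * S j x * (Jm A i j x).map conj) 0 0 =
      ((‖J1 A i j x‖ ^ 2 : ℝ) : ℂ) * S j x 0 0 := by
    intro i j x
    simp only [Matrix.mul_apply, Fin.sum_univ_one, Matrix.transpose_apply, Matrix.map_apply,
      Jm_apply]
    change J1 A i j x * S j x 0 0 * conj (J1 A i j x) = _
    have : ((‖J1 A i j x‖ ^ 2 : ℝ) : ℂ) = J1 A i j x * conj (J1 A i j x) := by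
      rw [Complex.mul_conj, Complex.normSq_eq_norm_sq]
    rw [this]
    ring
  constructor
  · intro h i j x hx
    rw [← e, ← h i j x hx]
  · intro h i j x hx
    ext a b
    rw [Subsingleton.elim a 0, Subsingleton.elim b 0, e]
    exact h i j x hx

theorem det1 (S : Matrix (Fin 1) (Fin 1) ℂ) : S.det = S 0 0 := Matrix.det_fin_one S

/-! ### a metric -/

theorem psi_sub (P : Part A) (k : A.ι) : tsupport (P.ψ k) ⊆ (A.e k).source := fun x hx => by
  have h := (P.χ_one k x hx).self_of_nhds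
  refine P.χ_sub k (subset_tsupport _ ?_)
  rw [Function.mem_support, h]
  exact one_ne_zero

/-- products of a cut-off function with a function which is smooth on the chart -/
theorem smAt_cut_mul {W : Type*} [NormedAddCommGroup W] [NormedSpace ℝ W] {i k : A.ι}
    {ψ : M → ℝ} (hψ : A.Sm ψ)
    (hs : tsupport ψ ⊆ (A.e k).source) {f : M → W}
    (hf : ContDiffOn ℝ ∞ (fun z => f ((A.e i).symm z)) (A.ov i k)) :
    A.SmAt i (fun x => ψ x • f x) := by
  intro z hz
  refine ContDiffAt.contDiffWithinAt ?_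
  by_cases hk : (A.e i).symm z ∈ (A.e k).source
  · have hz' : z ∈ A.ov i k := ⟨hz, hk⟩
    have h1 : ContDiffAt ℝ ∞ (fun z => f ((A.e i).symm z)) z :=
      hf.contDiffAt ((isOpen_ov (A := A) i k).mem_nhds hz')
    have h2 : ContDiffAt ℝ ∞ (fun z => ψ ((A.e i).symm z)) z :=
      (hψ i).contDiffAt ((A.e i).open_target.mem_nhds hz)
    exact h2.smul h1
  · have h1 : (A.e i).symm z ∉ tsupport ψ := fun h => hk (hs h)
    have h2 : ∀ᶠ y in 𝓝 ((A.e i).symm z), ψ y = 0 := by
      filter_upwards [(isClosed_tsupport ψ).isOpen_compl.mem_nhds h1] with y hy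
      exact image_eq_zero_of_notMem_tsupport hy
    have h3 : ∀ᶠ w in 𝓝 z, ψ ((A.e i).symm w) = 0 :=
      ((A.e i).continuousAt_symm hz).eventually h2
    refine (contDiffAt_const (c := (0 : W))).congr_of_eventuallyEq ?_
    filter_upwards [h3] with w hw
    rw [hw, zero_smul]

section met

variable [Finite A.ι] (P : Part A)

/-- the density of the metric -/
def gq (P : Part A) (i : A.ι) (x : M) : ℝ := ∑ᶠ k, P.ψ k x ^ 2 * ‖J1 A i k x‖ ^ 2

theorem gq_eq [Fintype A.ι] (i : A.ι) (x : M) :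
    gq P i x = ∑ k, P.ψ k x ^ 2 * ‖J1 A i k x‖ ^ 2 := finsum_eq_sum_of_fintype _

theorem smAt_gq (i : A.ι) : A.SmAt i (gq P i) := by
  have := Fintype.ofFinite A.ι
  have h1 : ∀ k, A.SmAt i (fun x => P.ψ k x • (P.ψ k x * ‖J1 A i k x‖ ^ 2)) := by
    intro k
    refine smAt_cut_mul (P.ψ_sm k) (psi_sub P k) ?_
    have h2 : ContDiffOn ℝ ∞ (fun z => P.ψ k ((A.e i).symm z)) (A.ov i k) :=
      (P.ψ_sm k i).mono fun z hz => hz.1
    exact h2.mul ((J1_smooth i k).norm_sq ℝ)
  have h2 : A.SmAt i (fun x => ∑ k, P.ψ k x • (P.ψ k x * ‖J1 A i k x‖ ^ 2)) :=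
    ContDiffOn.sum fun k _ => h1 k
  refine ContDiffOn.congr h2 fun z _ => ?_
  simp only [gq_eq, smul_eq_mul]
  exact Finset.sum_congr rfl fun k _ => by ring

theorem gq_tr {i j : A.ι} {x : M} (hx : x ∈ (A.e i).source ∩ (A.e j).source) :
    gq P i x = ‖J1 A i j x‖ ^ 2 * gq P j x := by
  have := Fintype.ofFinite A.ι
  rw [gq_eq, gq_eq, Finset.mul_sum]
  refine Finset.sum_congr rfl fun k _ => ?_
  by_cases hk : x ∈ (A.e k).source
  · rw [J1_mul i j k ⟨hx, hk⟩, norm_mul]
    ring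
  · have : P.ψ k x = 0 := image_eq_zero_of_notMem_tsupport fun h => hk (psi_sub P k h)
    rw [this]
    ring

theorem gq_pos {i : A.ι} {x : M} (hx : x ∈ (A.e i).source) : 0 < gq P i x := by
  have := Fintype.ofFinite A.ι
  rw [gq_eq]
  have h1 : ∃ k, P.ψ k x ≠ 0 := by
    by_contra hc
    simp only [not_exists, not_not] at hc
    have := P.sum_one x
    simp only [hc, finsum_zero] at this
    exact zero_ne_one this
  obtain ⟨k, hk⟩ := h1
  have hkx : x ∈ (A.e k).source := psi_sub P k (subset_tsupport _ hk)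
  refine Finset.sum_pos' (fun l _ => by positivity) ⟨k, Finset.mem_univ _, ?_⟩
  have h2 := J1_ne (A := A) ⟨hx, hkx⟩
  have h3 : 0 < ‖J1 A i k x‖ := norm_pos_iff.2 h2
  have h4 : 0 < P.ψ k x ^ 2 := by positivity
  positivity

/-- a Kaehler metric on the Riemann surface -/
def kah (P : Part A) : Kah A where
  g i x := Matrix.of fun _ _ => ((gq P i x : ℝ) : ℂ)
  sm i _ _ := Complex.ofRealCLM.contDiff.comp_contDiffOn (smAt_gq P i)
  pos i x hx := by
    have h0 := gq_pos P hx
    refine Matrix.PosDef.of_dotProduct_mulVec_pos ?_ ?_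
    · ext a b
      simp [Matrix.conjTranspose_apply]
    · intro v hv
      have h1 : v 0 ≠ 0 := fun h => hv (by
        ext a
        rw [Subsingleton.elim a 0, h]
        rfl)
      simp only [dotProduct, Matrix.mulVec, Fin.sum_univ_one, Pi.star_apply, Matrix.of_apply,
        RCLike.star_def]
      have h2 : conj (v 0) * (((gq P i x : ℝ) : ℂ) * v 0) =
          ((gq P i x * ‖v 0‖ ^ 2 : ℝ) : ℂ) := by
        push_cast
        rw [← Complex.conj_mul']
        ring
      rw [h2]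
      have h3 : 0 < ‖v 0‖ := norm_pos_iff.2 h1
      exact_mod_cast mul_pos h0 (by positivity)
  tr := tn_iff.2 fun i j x hx => by
    simp only [Matrix.of_apply]
    rw [gq_tr P hx]
    push_cast
    ring
  closed i z _ a b c := by
    rw [Subsingleton.elim c a]
  closed' i z _ a b c := by
    rw [Subsingleton.elim c b]


end met

/-! ### the Poisson equation -/

section poi

variable [T2Space M] [CompactSpace M] [Finite A.ι]

theorem lapK1 (K : Kah A) {u : M → ℝ} (hu : A.Sm u) {i : A.ι} {x : M}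
    (hx : x ∈ (A.e i).source) :
    hsf A u i x 0 0 = ((lapK K u x : ℝ) : ℂ) * K.g i x 0 0 := by
  have h1 := lapK_ofReal K hu x
  have h2 := trK_eq K (hsf_tn hu) hx
  rw [h1, h2]
  have h3 : K.g i x 0 0 ≠ 0 := by
    have := K_det_ne K hx
    rwa [det1] at this
  have h4 : ((K.g i x)⁻¹ * hsf A u i x).trace = (K.g i x 0 0)⁻¹ * hsf A u i x 0 0 := by
    rw [Matrix.trace_fin_one, Matrix.mul_apply, Fin.sum_univ_one]
    congr 1
    rw [Matrix.inv_def, Matrix.adjugate_fin_one, det1]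
    simp [Ring.inverse_eq_inv']
  rw [h4]
  field_simp

/-- solution up to a constant: `∂∂̄ v = q - m g` -/
theorem poisson_m [ConnectedSpace M] (K : Kah A) (P : Part A) {q : A.ι → M → ℝ}
    (hs : ∀ i, A.SmAt i (q i)) (hq : Dn A (fun i x => (q i x : ℂ))) :
    ∃ (v : M → ℝ) (m : ℝ), A.Sm v ∧ ∀ i, ∀ x ∈ (A.e i).source,
      hsf A v i x 0 0 = (q i x : ℂ) - (m : ℂ) * K.g i x 0 0 := by
  have hsc : ∀ i, A.SmAt i (fun x => (q i x : ℂ)) := fun i =>
    Complex.ofRealCLM.contDiff.comp_contDiffOn (hs i)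
  obtain ⟨v, m, hv, he⟩ := Crest.Agent.R273.CLin_933.lin_kah K P
    (sm_re (sm_fnD K hq hsc))
  refine ⟨v, m, hv, fun i x hx => ?_⟩
  have h3 : K.g i x 0 0 ≠ 0 := by
    have := K_det_ne K hx
    rwa [det1] at this
  have h4 : K.g i x 0 0 = (((K.g i x).det.re : ℝ) : ℂ) := by
    rw [det_real (K.pos i x hx).1, det1]
  have h5 : fnD K (fun i x => (q i x : ℂ)) x = ((q i x / (K.g i x).det.re : ℝ) : ℂ) := by
    rw [fnD_div K hq hx, ← det_real (K.pos i x hx).1]
    push_cast
    rfl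
  rw [lapK1 K hv hx, he x, h5, ofReal_re]
  rw [h4]
  have h6 : (K.g i x).det.re ≠ 0 := (det_re_pos (K.pos i x hx)).ne'
  have h7 : (((K.g i x).det.re : ℝ) : ℂ) ≠ 0 := by exact_mod_cast h6
  push_cast
  field_simp

end poi

end

end Crest.Agent.R257.RSA_844
end

-- ▼ part R257/RSA2_844
section

/-!
# R257 (S0395), part C, task RS-AN (helper844): compact Riemann surfaces, file 2

* `F01 A α`, `F10 A θ`, `H10 A θ` : smooth `(0,1)`-, `(1,0)`-forms, holomorphic `1`-forms
* `F01.stokes`                    : `∫ ∂α = 0`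
* `poisson`, `poissonC`           : `∂∂̄ u = q` if `∫ q = 0` (real, complex)
* `poisson_const`                 : the sign of the constant of `poisson_m`
* `dbar_dec`                      : `α = ∂̄u + conj θ`
-/

set_option autoImplicit false
set_option linter.unusedSectionVars false

open Set Filter Topology Complex MeasureTheory
open scoped ContDiff Matrix ComplexConjugate ComplexOrder

namespace Crest.Agent.R257.RSA_844

open Crest.Agent.R275 Crest.Agent.R275.Geo Crest.Agent.R275.Core144 Crest.Agent.R275.EDR890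
open Crest.Agent.R275.OmT75
open Crest.Agent.R275.SerG398 (dens lint)
open Crest.Agent.R273.Defs_333 Crest.Agent.R273.Vm_333 Crest.Agent.R273.Kah_333
open Crest.Agent.R273.Hess_333 Crest.Agent.R273.HessB_333 Crest.Agent.R273.HM_333
open Crest.Agent.R273.Vol_333 Crest.Agent.R273.Green_5 Crest.Agent.R273.GreenM_5
open Crest.Agent.R273.StokesV_332

noncomputable section

variable {M : Type} [TopologicalSpace M] [T2Space M] {A : Atl 1 M}

/-- smooth `(0,1)`-forms `α_i dz̄_i` -/
structure F01 (A : Atl 1 M) (α : A.ι → M → ℂ) : Prop where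
  sm : ∀ i, A.SmAt i (α i)
  tr : ∀ i j, ∀ x ∈ (A.e i).source ∩ (A.e j).source, α i x = conj (J1 A i j x) * α j x

/-- smooth `(1,0)`-forms `θ_i dz_i` -/
structure F10 (A : Atl 1 M) (θ : A.ι → M → ℂ) : Prop where
  sm : ∀ i, A.SmAt i (θ i)
  tr : ∀ i j, ∀ x ∈ (A.e i).source ∩ (A.e j).source, θ i x = J1 A i j x * θ j x

/-- holomorphic `1`-forms -/
structure H10 (A : Atl 1 M) (θ : A.ι → M → ℂ) : Prop where
  hol : ∀ i, HolAt A i univ (θ i)
  tr : ∀ i j, ∀ x ∈ (A.e i).source ∩ (A.e j).source, θ i x = J1 A i j x * θ j x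

theorem smAt_diff {i : A.ι} {f : M → ℂ} (hf : A.SmAt i f) {x : M} (hx : x ∈ (A.e i).source) :
    DifferentiableAt ℝ (fun z => f ((A.e i).symm z)) (A.e i x) :=
  (hf.contDiffAt ((A.e i).open_target.mem_nhds ((A.e i).map_source hx))).differentiableAt (by simp)



theorem F10.conjF {θ : A.ι → M → ℂ} (h : F10 A θ) : F01 A (fun i x => conj (θ i x)) :=
  ⟨fun i => Den.smAt_conj (h.sm i), fun i j x hx => by rw [h.tr i j x hx, map_mul]⟩

theorem F01.conjF {α : A.ι → M → ℂ} (h : F01 A α) : F10 A (fun i x => conj (α i x)) :=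
  ⟨fun i => Den.smAt_conj (h.sm i), fun i j x hx => by
    rw [h.tr i j x hx, map_mul, Complex.conj_conj]⟩

theorem smAt_db {i : A.ι} {f : M → ℂ} (hf : A.SmAt i f) : A.SmAt i (A.db i 0 f) :=
  Atl.SmAt.db hf 0

theorem f01_db {u : M → ℂ} (hu : A.Sm u) : F01 A (fun i x => A.db i 0 u x) where
  sm i := smAt_db (hu i)
  tr i j x hx := by
    have h := db_chain (A := A) (i := i) (j := j) (x := x) (f := u) (smAt_diff (hu j) hx.2) hx 0
    rw [Fin.sum_univ_one, smul_eq_mul] at h
    exact h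


theorem F01.add {α β : A.ι → M → ℂ} (h : F01 A α) (h' : F01 A β) :
    F01 A (fun i x => α i x + β i x) :=
  ⟨fun i => (h.sm i).add (h'.sm i), fun i j x hx => by rw [h.tr i j x hx, h'.tr i j x hx]; ring⟩

theorem F01.sub {α β : A.ι → M → ℂ} (h : F01 A α) (h' : F01 A β) :
    F01 A (fun i x => α i x - β i x) :=
  ⟨fun i => (h.sm i).sub (h'.sm i), fun i j x hx => by rw [h.tr i j x hx, h'.tr i j x hx]; ring⟩


theorem F01.sum {σ : Type*} (s : Finset σ) {α : σ → A.ι → M → ℂ} (h : ∀ t ∈ s, F01 A (α t)) :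
    F01 A (fun i x => ∑ t ∈ s, α t i x) :=
  ⟨fun i => ContDiffOn.sum fun t ht => (h t ht).sm i, fun i j x hx => by
    rw [Finset.mul_sum]
    exact Finset.sum_congr rfl fun t ht => (h t ht).tr i j x hx⟩

theorem F01.vd {α : A.ι → M → ℂ} (h : F01 A α) : VD10 A (fun i _ x => α i x) where
  sm i _ := h.sm i
  tr i j x hx b := by
    rw [Subsingleton.elim b 0, Fin.sum_univ_one, h.tr i j x hx, dens1]
    change J1 A i j x * (conj (J1 A i j x) * α j x) = _
    rw [← mul_assoc, Complex.mul_conj, Complex.normSq_eq_norm_sq]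

/-- the density `∂α` -/
theorem F01.dn {α : A.ι → M → ℂ} (h : F01 A α) : Dn A (fun i x => dl A i 0 (α i) x) := by
  rw [dn_iff]
  intro i j x hx
  have e1 : ∀ k, dl A k 0 (α k) x = conj (A.db k 0 (fun y => conj (α k y)) x) := by
    intro k
    have := dl_conj (A := A) k 0 (fun y => conj (α k y)) x
    simp only [Complex.conj_conj] at this
    exact this
  have hs := h.conjF
  have h1 : (fun y => conj (α i y)) =ᶠ[𝓝 x] fun y => J1 A i j y * conj (α j y) := by
    filter_upwards [((A.e i).open_source.inter (A.e j).open_source).mem_nhds hx] with y hy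
    exact hs.tr i j y hy
  have hJ : DifferentiableAt ℝ (fun z => J1 A i j ((A.e i).symm z)) (A.e i x) :=
    diffAt_of_ov (J1_smooth i j) hx
  have hcj : DifferentiableAt ℝ (fun z => conj (α j ((A.e j).symm z))) (A.e j x) :=
    smAt_diff (hs.sm j) hx.2
  have hci : DifferentiableAt ℝ (fun z => conj (α j ((A.e i).symm z))) (A.e i x) := by
    have hT : DifferentiableAt ℝ (fun z => A.e j ((A.e i).symm z)) (A.e i x) :=
      ((A.holo i j).differentiableAt ((isOpen_ov (A := A) i j).mem_nhds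
        (mem_ov hx))).restrictScalars ℝ
    have hv : A.e j ((A.e i).symm (A.e i x)) = A.e j x := by rw [(A.e i).left_inv hx.1]
    have h2 : DifferentiableAt ℝ ((fun z => conj (α j ((A.e j).symm z))) ∘
        fun z => A.e j ((A.e i).symm z)) (A.e i x) :=
      DifferentiableAt.comp _ (by rw [hv]; exact hcj) hT
    refine h2.congr_of_eventuallyEq ?_
    filter_upwards [(isOpen_ov (A := A) i j).mem_nhds (mem_ov hx)] with w hw
    simp only [Function.comp_apply]
    rw [(A.e j).left_inv hw.2]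
  have hJ0 : A.db i 0 (J1 A i j) x = 0 := (holAt_J1 i j).db_zero (A.e j).open_source hx.1 hx.2 0
  have h3 : A.db i 0 (fun y => conj (α j y)) x =
      conj (J1 A i j x) * A.db j 0 (fun y => conj (α j y)) x := by
    have h := db_chain (A := A) (i := i) (j := j) (x := x) (f := fun y => conj (α j y)) hcj hx 0
    rw [Fin.sum_univ_one, smul_eq_mul] at h
    exact h
  rw [e1 i, e1 j, Atl.db_congr hx.1 h1, db_mul hJ hci hx.1, hJ0, h3, zero_mul, zero_add]
  rw [map_mul, map_mul, Complex.conj_conj]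
  have e2 : ((‖J1 A i j x‖ ^ 2 : ℝ) : ℂ) = J1 A i j x * conj (J1 A i j x) := by
    rw [Complex.mul_conj, Complex.normSq_eq_norm_sq]
  rw [e2]
  ring

theorem F01.stokes [CompactSpace M] (P : Part A) {α : A.ι → M → ℂ} (h : F01 A α) :
    intD P (fun i x => dl A i 0 (α i) x) = 0 := by
  have h1 := stokes10_compact P h.vd
  simp only [Fin.sum_univ_one] at h1
  exact h1

theorem smAt_dlα {α : A.ι → M → ℂ} (h : F01 A α) (i : A.ι) :
    A.SmAt i (fun x => dl A i 0 (α i) x) := smAt_dl (h.sm i) 0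


/-- `∫ ∂∂̄u = 0` -/
theorem int_hm [CompactSpace M] (P : Part A) {u : M → ℂ} (hu : A.Sm u) :
    intD P (fun i x => hm A u i x 0 0) = 0 := (f01_db hu).stokes P

theorem smR {u : M → ℝ} (hu : A.Sm u) : A.Sm (fun x => (u x : ℂ)) := fun i =>
  Complex.ofRealCLM.contDiff.comp_contDiffOn (hu i)

theorem smAtR {u : M → ℝ} {i : A.ι} (hu : A.SmAt i u) : A.SmAt i (fun x => (u x : ℂ)) :=
  Complex.ofRealCLM.contDiff.comp_contDiffOn hu

theorem smAt_cmul {i : A.ι} (c : ℂ) {f : M → ℂ} (hf : A.SmAt i f) :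
    A.SmAt i (fun x => c * f x) := ContDiffOn.const_smul c hf

theorem int_hsf [CompactSpace M] (P : Part A) {u : M → ℝ} (hu : A.Sm u) :
    intD P (fun i x => hsf A u i x 0 0) = 0 := by
  rw [← int_hm P (smR hu)]
  refine intD_congr P fun i x hx => ?_
  rw [hm_ofReal u i hx]

section poi

variable [CompactSpace M]

/-- the volume -/
theorem int_g_pos [Nonempty M] (K : Kah A) (P : Part A) :
    0 < (intD P (fun i x => K.g i x 0 0)).re ∧ (intD P (fun i x => K.g i x 0 0)).im = 0 := by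
  have hd : Den A (fun i x => K.g i x 0 0) := ⟨fun i => K.sm i 0 0, by
    have h := tn_iff.1 K.tr
    intro i j x hx
    rw [dens1]
    exact h i j x hx⟩
  have hn : NonnegD A (fun i x => K.g i x 0 0) := fun i x hx => by
    have h1 := K.pos i x hx
    have h2 := det_re_pos h1
    have h3 := det_real h1.1
    rw [det1] at h2 h3
    refine ⟨h2.le, ?_⟩
    change (K.g i x 0 0).im = 0
    rw [← h3, ofReal_im]
  have h1 := intD_nonneg P hd hn isCompact_univ (offK_univ _)
  refine ⟨lt_of_le_of_ne h1.1 fun h0 => ?_, h1.2⟩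
  have h2 := eq_zero_of_intD P hd hn isCompact_univ (offK_univ _) h0.symm
  obtain ⟨x⟩ := ‹Nonempty M›
  obtain ⟨i, hi⟩ := A.cover x
  have h3 := h2 i x hi
  have h4 := det_re_pos (K.pos i x hi)
  rw [det1] at h4
  have h5 : K.g i x 0 0 = 0 := h3
  rw [h5] at h4
  simp at h4

/-- the constant in `poisson_m` -/
theorem poisson_const (K : Kah A) (P : Part A) {q : A.ι → M → ℝ}
    (hs : ∀ i, A.SmAt i (q i)) {v : M → ℝ} {m : ℝ} (hv : A.Sm v)
    (he : ∀ i, ∀ x ∈ (A.e i).source, hsf A v i x 0 0 = (q i x : ℂ) - (m : ℂ) * K.g i x 0 0) :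
    intD P (fun i x => (q i x : ℂ)) = (m : ℂ) * intD P (fun i x => K.g i x 0 0) := by
  have h1 := int_hsf P hv
  rw [intD_congr P (g := fun i x => (q i x : ℂ) - (m : ℂ) * K.g i x 0 0) he] at h1
  rw [intD_sub P (fun i => smAtR (hs i)) (fun i => smAt_cmul (m : ℂ) (K.sm i 0 0))
    isCompact_univ (offK_univ _) (offK_univ _), intD_smul P (m : ℂ) isCompact_univ
    (offK_univ _)] at h1
  exact sub_eq_zero.1 h1

variable [ConnectedSpace M] [Finite A.ι]

/-- **the Poisson equation** -/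
theorem poisson (P : Part A) {q : A.ι → M → ℝ}
    (hs : ∀ i, A.SmAt i (q i)) (hq : Dn A (fun i x => (q i x : ℂ)))
    (h0 : intD P (fun i x => (q i x : ℂ)) = 0) :
    ∃ v : M → ℝ, A.Sm v ∧ ∀ i, ∀ x ∈ (A.e i).source, hsf A v i x 0 0 = (q i x : ℂ) := by
  have hne : Nonempty M := inferInstance
  obtain ⟨v, m, hv, he⟩ := poisson_m (kah P) P hs hq
  have h1 := poisson_const (kah P) P hs hv he
  have h2 := (int_g_pos (kah P) P).1
  rw [h0] at h1
  have h3 : intD P (fun i x => (kah P).g i x 0 0) ≠ 0 := fun h => by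
    rw [h] at h2
    simp at h2
  have h4 : (m : ℂ) = 0 := (mul_eq_zero.1 h1.symm).resolve_right h3
  refine ⟨v, hv, fun i x hx => ?_⟩
  rw [he i x hx, h4, zero_mul, sub_zero]

/-- the Poisson equation, complex right hand side -/
theorem poissonC (P : Part A) {q : A.ι → M → ℂ}
    (hs : ∀ i, A.SmAt i (q i)) (hq : Dn A q) (h0 : intD P q = 0) :
    ∃ v : M → ℂ, A.Sm v ∧ ∀ i, ∀ x ∈ (A.e i).source, hm A v i x 0 0 = q i x := by
  have hre : ∀ i, A.SmAt i (fun x => (q i x).re) := fun i =>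
    Complex.reCLM.contDiff.comp_contDiffOn (hs i)
  have him : ∀ i, A.SmAt i (fun x => (q i x).im) := fun i =>
    Complex.imCLM.contDiff.comp_contDiffOn (hs i)
  have hd := dn_iff.1 hq
  have dre : Dn A (fun i x => (((q i x).re : ℝ) : ℂ)) := dn_iff.2 fun i j x hx => by
    rw [hd i j x hx, Complex.re_ofReal_mul]
    push_cast
    rfl
  have dim : Dn A (fun i x => (((q i x).im : ℝ) : ℂ)) := dn_iff.2 fun i j x hx => by
    rw [hd i j x hx, Complex.im_ofReal_mul]
    push_cast
    rfl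
  have hc : intD P (fun i x => conj (q i x)) = 0 := by
    rw [intD_conj P isCompact_univ (offK_univ _), h0, map_zero]
  have hsc : ∀ i, A.SmAt i (fun x => conj (q i x)) := fun i => Den.smAt_conj (hs i)
  have r1 : intD P (fun i x => (((q i x).re : ℝ) : ℂ)) = 0 := by
    have h1 : intD P (fun i x => (1 / 2 : ℂ) * (q i x + conj (q i x))) = 0 := by
      rw [intD_smul P (1 / 2 : ℂ) isCompact_univ (offK_univ _),
        intD_add P hs hsc isCompact_univ (offK_univ _) (offK_univ _), h0, hc]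
      simp
    rw [← h1]
    refine intD_congr P fun i x _ => ?_
    rw [Complex.add_conj]
    push_cast
    ring
  have r2 : intD P (fun i x => (((q i x).im : ℝ) : ℂ)) = 0 := by
    have h1 : intD P (fun i x => (-(I / 2) : ℂ) * (q i x - conj (q i x))) = 0 := by
      rw [intD_smul P (-(I / 2) : ℂ) isCompact_univ (offK_univ _),
        intD_sub P hs hsc isCompact_univ (offK_univ _) (offK_univ _), h0, hc]
      simp
    rw [← h1]
    refine intD_congr P fun i x _ => ?_
    rw [Complex.sub_conj]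
    push_cast
    have : I * I = -1 := I_mul_I
    linear_combination (((q i x).im : ℝ) : ℂ) * this
  obtain ⟨v1, s1, e1⟩ := poisson P hre dre r1
  obtain ⟨v2, s2, e2⟩ := poisson P him dim r2
  have t1 : ∀ i, A.SmAt i (fun x => (v1 x : ℂ)) := fun i => smAtR (s1 i)
  have t2 : ∀ i, A.SmAt i (fun x => (v2 x : ℂ)) := fun i => smAtR (s2 i)
  refine ⟨fun x => (v1 x : ℂ) + I * (v2 x : ℂ), fun i =>
    (t1 i).add ((t2 i).const_smul I), fun i x hx => ?_⟩
  have hz := (A.e i).map_source hx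
  have d1 : ∀ y ∈ (A.e i).source, A.db i 0 (fun x => (v1 x : ℂ) + I * (v2 x : ℂ)) y =
      A.db i 0 (fun x => (v1 x : ℂ)) y + I * A.db i 0 (fun x => (v2 x : ℂ)) y := by
    intro y hy
    have a1 := smAt_diff (t1 i) hy
    have a2 := smAt_diff (t2 i) hy
    unfold Atl.db dbj
    have e : fderiv ℝ (fun z => (v1 ((A.e i).symm z) : ℂ) + I * (v2 ((A.e i).symm z) : ℂ))
        (A.e i y) = fderiv ℝ (fun z => (v1 ((A.e i).symm z) : ℂ)) (A.e i y) +
          I • fderiv ℝ (fun z => (v2 ((A.e i).symm z) : ℂ)) (A.e i y) := by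
      have h1 : HasFDerivAt (fun z => (v1 ((A.e i).symm z) : ℂ) + I * (v2 ((A.e i).symm z) : ℂ))
          (fderiv ℝ (fun z => (v1 ((A.e i).symm z) : ℂ)) (A.e i y) +
          I • fderiv ℝ (fun z => (v2 ((A.e i).symm z) : ℂ)) (A.e i y)) (A.e i y) :=
        a1.hasFDerivAt.add (a2.hasFDerivAt.const_mul I)
      exact h1.fderiv
    rw [e]
    simp only [_root_.add_apply, _root_.smul_apply, smul_eq_mul]
    ring
  have b1 := smAt_diff (smAt_db (t1 i)) hx
  have b2 := smAt_diff (smAt_db (t2 i)) hx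
  have d2 : dl A i 0 (A.db i 0 (fun x => (v1 x : ℂ) + I * (v2 x : ℂ))) x =
      dl A i 0 (A.db i 0 (fun x => (v1 x : ℂ))) x +
        I * dl A i 0 (A.db i 0 (fun x => (v2 x : ℂ))) x := by
    have h1 : (fun z => A.db i 0 (fun x => (v1 x : ℂ) + I * (v2 x : ℂ)) ((A.e i).symm z)) =ᶠ[
        𝓝 (A.e i x)] fun z => A.db i 0 (fun x => (v1 x : ℂ)) ((A.e i).symm z) +
          I * A.db i 0 (fun x => (v2 x : ℂ)) ((A.e i).symm z) := by
      filter_upwards [(A.e i).open_target.mem_nhds hz] with z hz'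
      exact d1 _ ((A.e i).map_target hz')
    have h2 : HasFDerivAt (fun z => A.db i 0 (fun x => (v1 x : ℂ)) ((A.e i).symm z) +
          I * A.db i 0 (fun x => (v2 x : ℂ)) ((A.e i).symm z))
        (fderiv ℝ (fun z => A.db i 0 (fun x => (v1 x : ℂ)) ((A.e i).symm z)) (A.e i x) +
          I • fderiv ℝ (fun z => A.db i 0 (fun x => (v2 x : ℂ)) ((A.e i).symm z)) (A.e i x))
        (A.e i x) := b1.hasFDerivAt.add (b2.hasFDerivAt.const_mul I)
    unfold dl dj
    rw [h1.fderiv_eq, h2.fderiv]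
    simp only [_root_.add_apply, _root_.smul_apply, smul_eq_mul]
    ring
  have c1 := e1 i x hx
  have c2 := e2 i x hx
  rw [← hm_ofReal v1 i hx, hm_apply] at c1
  rw [← hm_ofReal v2 i hx, hm_apply] at c2
  rw [hm_apply, d2, c1, c2]
  have := Complex.re_add_im (q i x)
  rw [mul_comm I]
  exact this

/-- **Hodge decomposition of `(0,1)`-forms** -/
theorem dbar_dec (P : Part A) {α : A.ι → M → ℂ} (hα : F01 A α) :
    ∃ (u : M → ℂ) (θ : A.ι → M → ℂ), A.Sm u ∧ H10 A θ ∧
      ∀ i, ∀ x ∈ (A.e i).source, α i x = A.db i 0 u x + conj (θ i x) := by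
  obtain ⟨u, hu, he⟩ := poissonC P (fun i => smAt_dlα hα i) hα.dn (hα.stokes P)
  have hβ := hα.sub (f01_db hu)
  refine ⟨u, fun i x => conj (α i x - A.db i 0 u x), hu, ⟨fun i => ?_, hβ.conjF.tr⟩,
    fun i x hx => ?_⟩
  · refine Crest.Agent.R273.BKNe_37.holAt_of_db (hβ.conjF.sm i) fun x hx k => ?_
    rw [Subsingleton.elim k 0, db_conj]
    have b1 := smAt_diff (hα.sm i) hx
    have b2 := smAt_diff (smAt_db (hu i)) hx
    have e : dl A i 0 (fun y => α i y - A.db i 0 u y) x =
        dl A i 0 (α i) x - dl A i 0 (A.db i 0 u) x := by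
      unfold dl dj
      have h1 : HasFDerivAt (fun z => α i ((A.e i).symm z) - A.db i 0 u ((A.e i).symm z))
        (fderiv ℝ (fun z => α i ((A.e i).symm z)) (A.e i x) -
          fderiv ℝ (fun z => A.db i 0 u ((A.e i).symm z)) (A.e i x)) (A.e i x) :=
        b1.hasFDerivAt.sub b2.hasFDerivAt
      rw [h1.fderiv]
      simp only [_root_.sub_apply, smul_eq_mul]
      ring
    have h2 := he i x hx
    rw [hm_apply] at h2
    rw [e, h2, sub_self, map_zero]
  · simp only [Complex.conj_conj]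
    ring

end poi

end

end Crest.Agent.R257.RSA_844
end

-- ▼ part R257/RSA3_844
section

/-!
# R257 (S0395), part C, task RS-AN (helper844): compact Riemann surfaces, file 3

The cut-off logarithm `Gc R t = kap (t / R) log t`; `t (Gc R)' = Hc R`, `Hc R = 1` near `0`.
* `hess_Gc`  : `∂∂̄ Gc(|z - c|²) = (Hc R)'(|z - c|²)`
* `int_dHc`  : `∫ (Hc R)'(|z - c|²) = -π`
-/

set_option autoImplicit false
set_option linter.unusedSectionVars false

open Set Filter Topology Complex MeasureTheory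
open scoped ContDiff Matrix ComplexConjugate ComplexOrder

namespace Crest.Agent.R257.RSA_844

open Crest.Agent.R273 Crest.Agent.R275 Crest.Agent.R275.Geo Crest.Agent.R275.Core144
open Crest.Agent.R275.EDR890 Crest.Agent.R275.OmT75 Crest.Agent.R275.Tor812
open Crest.Agent.R275.SerG398 (dens lint)
open Crest.Agent.R273.Defs_333 Crest.Agent.R273.Vm_333 Crest.Agent.R273.Kah_333
open Crest.Agent.R273.Hess_333 Crest.Agent.R273.HessB_333 Crest.Agent.R273.HM_333
open Crest.Agent.R273.Vol_333 Crest.Agent.R273.Green_5 Crest.Agent.R273.GreenM_5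
open Crest.Agent.R273.StokesV_332
open Crest.Agent.R257.GBLcut_844

noncomputable section

/-! ### one real variable -/

/-- the cut-off logarithm -/
def Gc (R t : ℝ) : ℝ := kap (t / R) * Real.log t

/-- `t (Gc R)'` -/
def Hc (R t : ℝ) : ℝ := (t / R) * deriv kap (t / R) * Real.log t + kap (t / R)

variable {R t : ℝ}

theorem Gc_near (hR : 0 < R) (h : t ≤ R) : Gc R t = Real.log t := by
  unfold Gc
  rw [kap_one ((div_le_one hR).2 h), one_mul]

theorem Gc_far (hR : 0 < R) (h : 2 * R ≤ t) : Gc R t = 0 := by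
  unfold Gc
  rw [kap_zero ((le_div_iff₀ hR).2 h), zero_mul]

theorem Gc_sm (ht : t ≠ 0) : ContDiffAt ℝ ∞ (Gc R) t :=
  (kap_sm.contDiffAt.comp t (contDiffAt_id.div_const R)).mul (Real.contDiffAt_log.2 ht)

theorem dkap_near (hR : 0 < R) (h : t < R) : deriv kap (t / R) = 0 :=
  (dkap_off fun hm => absurd hm.1 (not_le.2 ((div_lt_one hR).2 h))).1

theorem dkap_far (hR : 0 < R) (h : 2 * R < t) : deriv kap (t / R) = 0 :=
  (dkap_off fun hm => absurd hm.2 (not_le.2 ((lt_div_iff₀ hR).2 h))).1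

theorem Hc_near (hR : 0 < R) (h : t < R) : Hc R =ᶠ[𝓝 t] fun _ => 1 := by
  filter_upwards [gt_mem_nhds h] with s hs
  unfold Hc
  rw [dkap_near hR hs, kap_one ((div_le_one hR).2 hs.le)]
  ring

theorem Hc_far (hR : 0 < R) (h : 2 * R < t) : Hc R =ᶠ[𝓝 t] fun _ => 0 := by
  filter_upwards [lt_mem_nhds h] with s hs
  unfold Hc
  rw [dkap_far hR hs, kap_zero ((le_div_iff₀ hR).2 hs.le)]
  ring

theorem Hc_sm (hR : 0 < R) : ContDiff ℝ ∞ (Hc R) := by
  rw [contDiff_iff_contDiffAt]
  intro t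
  by_cases h : t < R
  · exact contDiffAt_const.congr_of_eventuallyEq (Hc_near hR h)
  · have ht : t ≠ 0 := by
      rintro rfl
      exact h hR
    have h1 : ContDiffAt ℝ ∞ (fun s : ℝ => s / R) t := contDiffAt_id.div_const R
    have h2 : ContDiffAt ℝ ∞ (fun s : ℝ => deriv kap (s / R)) t := dkap_sm.contDiffAt.comp t h1
    have h3 : ContDiffAt ℝ ∞ (fun s : ℝ => kap (s / R)) t := kap_sm.contDiffAt.comp t h1
    exact ((h1.mul h2).mul (Real.contDiffAt_log.2 ht)).add h3

theorem dHc_sm (hR : 0 < R) : ContDiff ℝ ∞ (deriv (Hc R)) :=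
  (contDiff_infty_iff_deriv.1 (Hc_sm hR)).2

theorem hasDerivAt_Hc (hR : 0 < R) (t : ℝ) : HasDerivAt (Hc R) (deriv (Hc R) t) t :=
  ((Hc_sm hR).differentiable (by simp) t).hasDerivAt

theorem dHc_near (hR : 0 < R) (h : t < R) : deriv (Hc R) t = 0 := by
  rw [(Hc_near hR h).deriv_eq, deriv_const]

theorem dHc_far (hR : 0 < R) (h : 2 * R < t) : deriv (Hc R) t = 0 := by
  rw [(Hc_far hR h).deriv_eq, deriv_const]

theorem hasDerivAt_Gc (hR : 0 < R) (ht : 0 < t) : HasDerivAt (Gc R) (Hc R t / t) t := by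
  have h1 : HasDerivAt (fun s : ℝ => s / R) (1 / R) t := (hasDerivAt_id t).div_const R
  have h2 : HasDerivAt (fun s : ℝ => kap (s / R)) (deriv kap (t / R) * (1 / R)) t :=
    HasDerivAt.comp (h₂ := kap) (h := fun s : ℝ => s / R) t (hasDerivAt_kap (t / R)) h1
  have h3 := h2.mul (Real.hasDerivAt_log ht.ne')
  refine h3.congr_deriv ?_
  unfold Hc
  have := hR.ne'
  have := ht.ne'
  field_simp

theorem hasDerivAt_Gc' (hR : 0 < R) (ht : 0 < t) :
    HasDerivAt (fun s => Hc R s / s) (deriv (Hc R) t / t - Hc R t / t ^ 2) t := by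
  have h3 := (hasDerivAt_Hc hR t).div (hasDerivAt_id t) ht.ne'
  refine h3.congr_deriv ?_
  have := ht.ne'
  simp only [id]
  field_simp

/-! ### the Levi form -/

/-- for `n = 1` the Hessian is the Levi form -/
theorem hess_lev {u : Cn 1 → ℝ} {z : Cn 1} (hu : ContDiffAt ℝ ∞ u z) :
    hess u z 0 0 = ((Levi_145.lev u z (EuclideanSpace.single 0 1) : ℝ) : ℂ) := by
  have h1 := hq_real hu (EuclideanSpace.single 0 1)
  rw [YauDefs_635.lev333_eq_lev145] at h1
  unfold hq at h1
  simp only [Fin.sum_univ_one] at h1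
  have h2 : (EuclideanSpace.single 0 1 : Cn 1) 0 = 1 := by simp
  rw [h2, map_one, mul_one, mul_one] at h1
  rw [h1]
  congr 1
  ring

/-- the square of the distance to `c` -/
def rho (c z : Cn 1) : ℝ := ‖z 0 - c 0‖ ^ 2

theorem rho_eq (c z : Cn 1) : rho c z = ‖z - c‖ ^ 2 := by
  rw [EuclideanSpace.norm_sq_eq, Fin.sum_univ_one]
  rfl


theorem rho_pos {c z : Cn 1} (h : z ≠ c) : 0 < rho c z := by
  rw [rho_eq]
  have : 0 < ‖z - c‖ := norm_pos_iff.2 (sub_ne_zero.2 h)
  positivity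

theorem rho_self (c : Cn 1) : rho c c = 0 := by simp [rho]

theorem anal_coord (c z : Cn 1) : AnalyticAt ℂ (fun w : Cn 1 => w 0 - c 0) z :=
  ((EuclideanSpace.proj 0 : Cn 1 →L[ℂ] ℂ).analyticAt z).sub analyticAt_const

theorem rho_sm (c : Cn 1) : ContDiff ℝ ∞ (rho c) :=
  contDiff_iff_contDiffAt.2 fun z => Levi_145.c2_normSq (anal_coord c z) _

theorem continuous_rho (c : Cn 1) : Continuous (rho c) := (rho_sm c).continuous

theorem fderiv_coord (c z : Cn 1) (v : Cn 1) :
    fderiv ℂ (fun w : Cn 1 => w 0 - c 0) z v = v 0 := by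
  have h : HasFDerivAt (fun w : Cn 1 => w 0 - c 0) (EuclideanSpace.proj 0 : Cn 1 →L[ℂ] ℂ) z :=
    ((EuclideanSpace.proj 0 : Cn 1 →L[ℂ] ℂ).hasFDerivAt).sub_const _
  rw [h.fderiv]
  rfl

theorem lev_rho (c z v : Cn 1) : Levi_145.lev (rho c) z v = ‖v 0‖ ^ 2 := by
  have h := Levi_145.lev_normSq (anal_coord c z) v
  rw [fderiv_coord] at h
  exact h

theorem gr_rho (c z v : Cn 1) : ‖Levi_145.gr (rho c) z v‖ ^ 2 = rho c z * ‖v 0‖ ^ 2 := by
  have h := Levi_145.gr_sumSq (F := fun (_ : Fin 1) (w : Cn 1) => w 0 - c 0)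
    (fun _ => anal_coord c z) v
  have e : Levi_145.sumSq (fun (_ : Fin 1) (w : Cn 1) => w 0 - c 0) = rho c := by
    funext w
    simp [Levi_145.sumSq, rho]
  rw [e, Fin.sum_univ_one, fderiv_coord] at h
  rw [h, norm_mul, Complex.norm_conj, mul_pow]
  rfl

theorem hess_Gc (hR : 0 < R) {c z : Cn 1} (hz : z ≠ c) :
    hess (fun w => Gc R (rho c w)) z 0 0 = ((deriv (Hc R) (rho c z) : ℝ) : ℂ) := by
  have h0 := rho_pos hz
  have hs : ContDiffAt ℝ ∞ (fun w => Gc R (rho c w)) z :=
    (Gc_sm h0.ne').comp z (rho_sm c).contDiffAt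
  rw [hess_lev hs]
  congr 1
  rw [Levi_145.lev_comp_real (χ := Gc R) (χ' := fun s => Hc R s / s)
    (χ'' := deriv (Hc R) (rho c z) / rho c z - Hc R (rho c z) / rho c z ^ 2)
    (show ContDiffAt ℝ 2 (rho c) z from Levi_145.c2_normSq (anal_coord c z) 2)
    ((lt_mem_nhds h0).mono fun s hs => hasDerivAt_Gc hR hs) (hasDerivAt_Gc' hR h0),
    gr_rho, lev_rho]
  have h2 : (EuclideanSpace.single 0 1 : Cn 1) 0 = 1 := by simp
  rw [h2, norm_one]
  field_simp
  ring

/-! ### the integral -/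

theorem mp_c0 : MeasurePreserving (fun x : RI 1 → ℝ => (cc x : Cn 1) 0) volume volume := by
  have h1 := (volume_preserving_funUnique (Fin 1) ℂ).comp
    (Crest.Agent.R273.SteinM_794.mp_kap 1)
  exact h1

theorem me_c0 : MeasurableEmbedding (fun x : RI 1 → ℝ => (cc x : Cn 1) 0) :=
  (MeasurableEquiv.funUnique (Fin 1) ℂ).measurableEmbedding.comp
    (Crest.Agent.R273.SteinM_794.me_kap 1)

theorem int_ray (hR : 0 < R) : ∫ y in Ioi (0 : ℝ), y * deriv (Hc R) (y ^ 2) = - (1 / 2) := by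
  have hd : ∀ y : ℝ, HasDerivAt (fun y : ℝ => (1 / 2) * Hc R (y ^ 2))
      (y * deriv (Hc R) (y ^ 2)) y := by
    intro y
    have h1 : HasDerivAt (fun y : ℝ => y ^ 2) (2 * y) y := by simpa using hasDerivAt_pow 2 y
    have h2 := ((hasDerivAt_Hc hR (y ^ 2)).comp y h1).const_mul (1 / 2)
    refine h2.congr_deriv ?_
    ring
  have hc : Continuous fun y : ℝ => y * deriv (Hc R) (y ^ 2) :=
    continuous_id.mul ((dHc_sm hR).continuous.comp (continuous_pow 2))
  have hcs : HasCompactSupport fun y : ℝ => y * deriv (Hc R) (y ^ 2) := by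
    refine HasCompactSupport.of_support_subset_isCompact
      (isCompact_Icc (a := -(Real.sqrt (2 * R))) (b := Real.sqrt (2 * R))) ?_
    intro y hy
    by_contra hn
    apply hy
    have h1 : 2 * R < y ^ 2 := by
      by_contra h2
      exact hn (abs_le.1 (Real.abs_le_sqrt (not_lt.1 h2)))
    change y * deriv (Hc R) (y ^ 2) = 0
    rw [dHc_far hR h1, mul_zero]
  have hl : Tendsto (fun y : ℝ => (1 / 2) * Hc R (y ^ 2)) atTop (𝓝 0) := by
    refine tendsto_const_nhds.congr' ?_
    have h1 : Tendsto (fun y : ℝ => y ^ 2) atTop atTop := tendsto_pow_atTop (by norm_num)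
    filter_upwards [h1.eventually (eventually_gt_atTop (2 * R))] with y hy
    rw [(Hc_far hR hy).self_of_nhds, mul_zero]
  have h := integral_Ioi_of_hasDerivAt_of_tendsto' (a := 0) (fun y _ => hd y)
    (hc.integrable_of_hasCompactSupport hcs).integrableOn hl
  rw [h]
  have h0 : Hc R ((0 : ℝ) ^ 2) = 1 := by
    have : (0 : ℝ) ^ 2 < R := by simpa using hR
    exact (Hc_near hR this).self_of_nhds
  rw [h0]
  ring

theorem int_dHc (hR : 0 < R) (c : Cn 1) :
    ∫ x : RI 1 → ℝ, ((deriv (Hc R) (rho c (cc x)) : ℝ) : ℂ) = ((-Real.pi : ℝ) : ℂ) := by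
  rw [integral_complex_ofReal]
  congr 1
  have h1 : ∫ x : RI 1 → ℝ, deriv (Hc R) (rho c (cc x)) =
      ∫ z : ℂ, deriv (Hc R) (‖z - c 0‖ ^ 2) :=
    mp_c0.integral_comp me_c0 (fun z : ℂ => deriv (Hc R) (‖z - c 0‖ ^ 2))
  rw [h1, integral_sub_right_eq_self (fun z : ℂ => deriv (Hc R) (‖z‖ ^ 2)) (c 0),
    integral_fun_norm_addHaar volume (fun y : ℝ => deriv (Hc R) (y ^ 2)),
    Complex.finrank_real_complex]
  have h2 : (volume : Measure ℂ).real (Metric.ball 0 1) = Real.pi := by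
    rw [measureReal_def, Complex.volume_ball]
    simp
  rw [h2]
  have h3 : ∫ y in Ioi (0 : ℝ), y ^ (2 - 1) • deriv (Hc R) (y ^ 2) = - (1 / 2) := by
    rw [← int_ray hR]
    refine setIntegral_congr_fun measurableSet_Ioi fun y _ => ?_
    simp
  rw [h3]
  simp only [nsmul_eq_mul, smul_eq_mul]
  push_cast
  ring


/-! ### on the surface -/

variable {M : Type} [TopologicalSpace M] [T2Space M] {A : Atl 1 M}

open Crest.Agent.R275.Dg199 (SmN smN_iff sm_iff ev_symm ev_chart smN_const smAt_of_smN)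

theorem smN_hess {h : M → ℝ} {x : M} (hh : SmN A h x) {i : A.ι} (hx : x ∈ (A.e i).source) :
    ContDiffAt ℝ ∞ (fun z => h ((A.e i).symm z)) (A.e i x) := (smN_iff hx).1 hh

/-- transformation of the Hessian at a point where `h` is smooth -/
theorem hsf_trN {h : M → ℝ} {x : M} (hh : SmN A h x) {i j : A.ι}
    (hx : x ∈ (A.e i).source ∩ (A.e j).source) :
    hsf A h i x 0 0 = ((‖J1 A i j x‖ ^ 2 : ℝ) : ℂ) * hsf A h j x 0 0 := by
  have ho : IsOpen (A.ov i j) := isOpen_ov i j
  have hm : A.e i x ∈ A.ov i j := mem_ov hx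
  have h1 : hsf A h i x = (Jm A i j x)ᵀ * hsf A h j x * (Jm A i j x).map conj := by
    refine hess_tr (f := fun _ => (1 : ℂ)) hx (smN_hess hh hx.1) (smN_hess hh hx.2)
      (Eventually.of_forall fun w => differentiableAt_const _) one_ne_zero ?_
    filter_upwards [ho.mem_nhds hm] with w hw
    rw [(A.e j).left_inv hw.2]
    simp
  rw [h1]
  simp only [Matrix.mul_apply, Fin.sum_univ_one, Matrix.transpose_apply, Matrix.map_apply,
    Jm_apply]
  change J1 A i j x * hsf A h j x 0 0 * conj (J1 A i j x) = _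
  have : ((‖J1 A i j x‖ ^ 2 : ℝ) : ℂ) = J1 A i j x * conj (J1 A i j x) := by
    rw [Complex.mul_conj, Complex.normSq_eq_norm_sq]
  rw [this]
  ring

theorem hsf_realN {h : M → ℝ} {x : M} (hh : SmN A h x) {i : A.ι} (hx : x ∈ (A.e i).source) :
    hsf A h i x 0 0 = (((hsf A h i x 0 0).re : ℝ) : ℂ) := by
  have h1 := hess_symm (smN_hess hh hx) 0 0
  exact (Complex.conj_eq_iff_re.1 h1).symm

theorem hsf_smN {h : M → ℝ} {x : M} (hh : ∀ᶠ y in 𝓝 x, SmN A h y) {i : A.ι}
    (hx : x ∈ (A.e i).source) :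
    ContDiffAt ℝ ∞ (fun z => hsf A h i ((A.e i).symm z) 0 0) (A.e i x) := by
  have h1 := contDiffAt_hess (smN_hess hh.self_of_nhds hx) 0 0
  refine h1.congr_of_eventuallyEq ?_
  filter_upwards [(A.e i).open_target.mem_nhds ((A.e i).map_source hx)] with z hz
  rw [hsf_read h i hz]

/-- the density `∂∂̄ h` off the finite set `S` -/
def dq (A : Atl 1 M) (S : Set M) (h : M → ℝ) (i : A.ι) (x : M) : ℝ := by
  classical
  exact if x ∈ S then 0 else (hsf A h i x 0 0).re

variable {S : Set M} {h : M → ℝ}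

theorem dq_mem {i : A.ι} {x : M} (hx : x ∈ S) : dq A S h i x = 0 := by
  unfold dq
  rw [if_pos hx]

theorem dq_off {i : A.ι} {x : M} (hx : x ∉ S) : dq A S h i x = (hsf A h i x 0 0).re := by
  unfold dq
  rw [if_neg hx]

/-- `h` is smooth off `S` and harmonic near the points of `S` -/
structure HarmS (A : Atl 1 M) (S : Set M) (h : M → ℝ) : Prop where
  cl : IsClosed S
  sm : ∀ x, x ∉ S → SmN A h x
  harm : ∀ p ∈ S, ∃ i, p ∈ (A.e i).source ∧ ∀ᶠ x in 𝓝 p, x ∉ S → hsf A h i x 0 0 = 0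

theorem HarmS.smN (H : HarmS A S h) {x : M} (hx : x ∉ S) : ∀ᶠ y in 𝓝 x, SmN A h y := by
  filter_upwards [H.cl.isOpen_compl.mem_nhds hx] with y hy using H.sm y hy

theorem HarmS.zero (H : HarmS A S h) {p : M} (hp : p ∈ S) {i : A.ι} (hi : p ∈ (A.e i).source) :
    ∀ᶠ x in 𝓝 p, dq A S h i x = 0 := by
  obtain ⟨j, hj, h1⟩ := H.harm p hp
  filter_upwards [h1, (A.e i).open_source.mem_nhds hi, (A.e j).open_source.mem_nhds hj]
    with x h2 h3 h4
  by_cases hx : x ∈ S
  · exact dq_mem hx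
  · rw [dq_off hx, hsf_trN (H.sm x hx) ⟨h3, h4⟩, h2 hx]
    simp

theorem HarmS.dqC (H : HarmS A S h) {i : A.ι} {x : M} (hi : x ∈ (A.e i).source) (hx : x ∉ S) :
    ((dq A S h i x : ℝ) : ℂ) = hsf A h i x 0 0 := by
  rw [dq_off hx, ← hsf_realN (H.sm x hx) hi]

theorem HarmS.smAt (H : HarmS A S h) (i : A.ι) : A.SmAt i (dq A S h i) := by
  intro z hz
  refine ContDiffAt.contDiffWithinAt ?_
  have hs := (A.e i).map_target hz
  have hrz := (A.e i).right_inv hz
  by_cases hx : (A.e i).symm z ∈ S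
  · have h1 := ev_symm hs (H.zero hx hs)
    rw [hrz] at h1
    refine (contDiffAt_const (c := (0 : ℝ))).congr_of_eventuallyEq ?_
    filter_upwards [h1] with w hw
    exact hw
  · have h1 := hsf_smN (H.smN hx) hs
    rw [hrz] at h1
    have h2 : ContDiffAt ℝ ∞ (fun w => (hsf A h i ((A.e i).symm w) 0 0).re) z :=
      Complex.reCLM.contDiff.contDiffAt.comp z h1
    refine h2.congr_of_eventuallyEq ?_
    have h3 := ev_symm hs (H.cl.isOpen_compl.mem_nhds hx)
    rw [hrz] at h3
    filter_upwards [h3] with w hw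
    exact dq_off hw

theorem HarmS.dn (H : HarmS A S h) : Dn A (fun i x => (dq A S h i x : ℂ)) := by
  rw [dn_iff]
  intro i j x hx
  by_cases hS : x ∈ S
  · simp only [dq_mem hS]
    simp
  · rw [H.dqC hx.1 hS, H.dqC hx.2 hS]
    exact hsf_trN (H.sm x hS) hx

theorem HarmS.den (H : HarmS A S h) : Den A (fun i x => (dq A S h i x : ℂ)) :=
  ⟨fun i => smAtR (H.smAt i), H.dn⟩

/-! ### the cut-off logarithm on `M` -/

/-- `|z - e_j p| ≤ 2 r` lies in the chart `j` -/
structure Disc (A : Atl 1 M) (p : M) (j : A.ι) (r : ℝ) : Prop where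
  hr : 0 < r
  src : p ∈ (A.e j).source
  sub : Metric.closedBall (A.e j p) (2 * r) ⊆ (A.e j).target

variable {p : M} {j : A.ι} {r : ℝ}

theorem exists_disc {U : Set M} (hj : p ∈ (A.e j).source) (hU : U ∈ 𝓝 p) :
    ∃ r, Disc A p j r ∧ (A.e j).symm '' Metric.closedBall (A.e j p) (2 * r) ⊆ U := by
  have h1 : ∀ᶠ z in 𝓝 (A.e j p), (A.e j).symm z ∈ U ∧ z ∈ (A.e j).target := by
    filter_upwards [ev_symm hj hU, (A.e j).open_target.mem_nhds ((A.e j).map_source hj)]
      with z h1 h2 using ⟨h1, h2⟩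
  obtain ⟨r, hr, hrU⟩ := Metric.eventually_nhds_iff_ball.1 h1
  have hbc : Metric.closedBall (A.e j p) (2 * (r / 4)) ⊆ Metric.ball (A.e j p) r :=
    Metric.closedBall_subset_ball (by linarith)
  refine ⟨r / 4, ⟨by positivity, hj, fun z hz => (hrU z (hbc hz)).2⟩, ?_⟩
  rintro _ ⟨z, hz, rfl⟩
  exact (hrU z (hbc hz)).1

/-- the compact disc -/
def dk (A : Atl 1 M) (p : M) (j : A.ι) (r : ℝ) : Set M :=
  (A.e j).symm '' Metric.closedBall (A.e j p) (2 * r)

theorem Disc.cpt (D : Disc A p j r) : IsCompact (dk A p j r) :=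
  (isCompact_closedBall _ _).image_of_continuousOn ((A.e j).continuousOn_symm.mono D.sub)

theorem Disc.ksub (D : Disc A p j r) : dk A p j r ⊆ (A.e j).source := by
  rintro _ ⟨z, hz, rfl⟩
  exact (A.e j).map_target (D.sub hz)

theorem Disc.mem (D : Disc A p j r) {x : M} (hx : x ∈ (A.e j).source)
    (h : rho (A.e j p) (A.e j x) ≤ (2 * r) ^ 2) : x ∈ dk A p j r := by
  refine ⟨A.e j x, ?_, (A.e j).left_inv hx⟩
  rw [rho_eq] at h
  rw [Metric.mem_closedBall, dist_eq_norm]
  exact le_of_sq_le_sq h (by linarith [D.hr])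

/-- the cut-off logarithm of `|z - e_j p|²` -/
def lgf (A : Atl 1 M) (p : M) (j : A.ι) (r : ℝ) (x : M) : ℝ := by
  classical
  exact if x ∈ (A.e j).source then Gc (r ^ 2) (rho (A.e j p) (A.e j x)) else 0

theorem lgf_src {x : M} (hx : x ∈ (A.e j).source) :
    lgf A p j r x = Gc (r ^ 2) (rho (A.e j p) (A.e j x)) := by
  unfold lgf
  rw [if_pos hx]

theorem lgf_nsrc {x : M} (hx : x ∉ (A.e j).source) : lgf A p j r x = 0 := by
  unfold lgf
  rw [if_neg hx]

theorem Disc.lgf_off (D : Disc A p j r) {x : M} (hx : x ∉ dk A p j r) : lgf A p j r x = 0 := by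
  by_cases hs : x ∈ (A.e j).source
  · rw [lgf_src hs]
    have h1 : (2 * r) ^ 2 < rho (A.e j p) (A.e j x) := by
      by_contra hn
      exact hx (D.mem hs (not_lt.1 hn))
    have hr := D.hr
    exact Gc_far (by positivity) (by nlinarith)
  · exact lgf_nsrc hs

theorem rho_chart_pos {x : M} (hp : p ∈ (A.e j).source) (hx : x ∈ (A.e j).source) (h : x ≠ p) :
    0 < rho (A.e j p) (A.e j x) :=
  rho_pos fun he => h ((A.e j).injOn hx hp he)

theorem lgf_read {z : Cn 1} (hz : z ∈ (A.e j).target) :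
    lgf A p j r ((A.e j).symm z) = Gc (r ^ 2) (rho (A.e j p) z) := by
  rw [lgf_src ((A.e j).map_target hz), (A.e j).right_inv hz]

theorem Disc.smN (D : Disc A p j r) {x : M} (hx : x ≠ p) : SmN A (lgf A p j r) x := by
  by_cases hs : x ∈ (A.e j).source
  · rw [smN_iff hs]
    have h0 := rho_chart_pos D.src hs hx
    have h1 : ContDiffAt ℝ ∞ (fun z => Gc (r ^ 2) (rho (A.e j p) z)) (A.e j x) :=
      (Gc_sm h0.ne').comp _ (rho_sm _).contDiffAt
    refine h1.congr_of_eventuallyEq ?_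
    filter_upwards [(A.e j).open_target.mem_nhds ((A.e j).map_source hs)] with z hz
    exact lgf_read hz
  · have h1 : x ∉ dk A p j r := fun h => hs (D.ksub h)
    refine (smN_const (A := A) (0 : ℝ) x).congr ?_
    filter_upwards [D.cpt.isClosed.isOpen_compl.mem_nhds h1] with y hy
    exact D.lgf_off hy

theorem Disc.hsf_eq (D : Disc A p j r) {x : M} (hs : x ∈ (A.e j).source) (hx : x ≠ p) :
    hsf A (lgf A p j r) j x 0 0 =
      ((deriv (Hc (r ^ 2)) (rho (A.e j p) (A.e j x)) : ℝ) : ℂ) := by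
  have hr := D.hr
  have hne : A.e j x ≠ A.e j p := fun he => hx ((A.e j).injOn hs D.src he)
  rw [← hess_Gc (R := r ^ 2) (by positivity) hne]
  have h1 : (fun z => lgf A p j r ((A.e j).symm z)) =ᶠ[𝓝 (A.e j x)]
      fun z => Gc (r ^ 2) (rho (A.e j p) z) := by
    filter_upwards [(A.e j).open_target.mem_nhds ((A.e j).map_source hs)] with z hz
    exact lgf_read hz
  unfold hsf
  rw [hess_congr h1]

theorem ev_rho_lt (hp : p ∈ (A.e j).source) {ε : ℝ} (hε : 0 < ε) :
    ∀ᶠ x in 𝓝 p, rho (A.e j p) (A.e j x) < ε := by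
  have h1 : ∀ᶠ z in 𝓝 (A.e j p), rho (A.e j p) z < ε := by
    have := (continuous_rho (A.e j p)).continuousAt (x := A.e j p)
    refine this.eventually (gt_mem_nhds ?_)
    rwa [rho_self]
  exact ev_chart hp h1

theorem Disc.lgf_near (D : Disc A p j r) :
    ∀ᶠ x in 𝓝 p, lgf A p j r x = Real.log (rho (A.e j p) (A.e j x)) := by
  have hr := D.hr
  filter_upwards [ev_rho_lt D.src (ε := r ^ 2) (by positivity),
    (A.e j).open_source.mem_nhds D.src] with x h1 h2
  rw [lgf_src h2, Gc_near (by positivity) h1.le]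

theorem Disc.harm (D : Disc A p j r) : HarmS A {p} (lgf A p j r) where
  cl := isClosed_singleton
  sm x hx := D.smN hx
  harm q hq := by
    rw [mem_singleton_iff] at hq
    subst hq
    have hr := D.hr
    refine ⟨j, D.src, ?_⟩
    filter_upwards [ev_rho_lt D.src (ε := r ^ 2) (by positivity),
      (A.e j).open_source.mem_nhds D.src] with x h1 h2 h3
    rw [D.hsf_eq h2 h3, dHc_near (by positivity) h1, ofReal_zero]

theorem Disc.dq_eq (D : Disc A p j r) {x : M} (hs : x ∈ (A.e j).source) :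
    dq A {p} (lgf A p j r) j x = deriv (Hc (r ^ 2)) (rho (A.e j p) (A.e j x)) := by
  have hr := D.hr
  by_cases hx : x = p
  · subst hx
    rw [dq_mem (mem_singleton _), rho_self, dHc_near (by positivity) (by positivity)]
  · rw [dq_off (S := {p}) (x := x) hx, D.hsf_eq hs hx, ofReal_re]

theorem Disc.offK (D : Disc A p j r) :
    OffK A (fun i x => (dq A {p} (lgf A p j r) i x : ℂ)) (dk A p j r) := by
  intro i x hx hxK
  have hxp : x ∉ ({p} : Set M) := fun h => hxK (by
    rw [mem_singleton_iff] at h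
    subst h
    exact D.mem D.src (by rw [rho_self]; positivity))
  have h1 : hsf A (lgf A p j r) i x = hsf A (fun _ => (0 : ℝ)) i x := by
    unfold hsf
    refine hess_congr ?_
    have h2 := ev_symm hx (D.cpt.isClosed.isOpen_compl.mem_nhds hxK)
    filter_upwards [h2] with z hz
    exact D.lgf_off hz
  change ((dq A {p} (lgf A p j r) i x : ℝ) : ℂ) = 0
  rw [dq_off hxp, h1]
  have h3 : hsf A (fun _ => (0 : ℝ)) i x = 0 := by
    ext a b
    unfold hsf
    rw [hess_apply]
    have h4 : wd (true, b) (cu fun _ : Cn 1 => (0 : ℝ)) = fun _ => 0 := by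
      funext w
      exact wd_const _ _ _
    rw [h4, wd_const]
    rfl
  rw [h3]
  simp

/-- **the residue**: `∫ ∂∂̄ (cut-off log|z - z(p)|²) = -π` -/
theorem Disc.int (D : Disc A p j r) (P : Part A) :
    intD P (fun i x => (dq A {p} (lgf A p j r) i x : ℂ)) = ((-Real.pi : ℝ) : ℂ) := by
  have hr := D.hr
  rw [intD_local P D.harm.den D.cpt D.ksub D.offK, ← int_dHc (R := r ^ 2) (by positivity)
    (A.e j p)]
  unfold Crest.Agent.R275.SerG398.lint
  refine integral_congr_ae (Eventually.of_forall fun y => ?_)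
  change rd A j (fun x => ((dq A {p} (lgf A p j r) j x : ℝ) : ℂ)) y =
    ((deriv (Hc (r ^ 2)) (rho (A.e j p) (cc y)) : ℝ) : ℂ)
  unfold Geo.rd
  split_ifs with hy
  · have h2 := D.dq_eq ((A.e j).map_target hy)
    rw [(A.e j).right_inv hy] at h2
    exact congrArg (fun t : ℝ => (t : ℂ)) h2
  · have h1 : (2 * r) ^ 2 < rho (A.e j p) (cc y) := by
      by_contra hn
      apply hy
      apply D.sub
      rw [Metric.mem_closedBall, dist_eq_norm]
      rw [rho_eq] at hn
      exact le_of_sq_le_sq (not_lt.1 hn) (by linarith)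
    rw [dHc_far (by positivity) (by nlinarith), ofReal_zero]

end

end Crest.Agent.R257.RSA_844
end

-- ▼ part R257/RSA4_844

/-!
# R257 (S0395), part C, task RS-AN (helper844): compact Riemann surfaces, file 4

* `Crd A p τ`   : `τ` is a holomorphic coordinate at `p`, `τ p = 0`
* `exists_h2`   : a function with prescribed logarithmic poles, `∂∂̄ h = κ g` off the poles
* `rg`          : regularised maximum of `0` and `t`
* `exists_weight` : the weights with exact form `a_p log|τ_p|² - C` near `p`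
-/

set_option autoImplicit false
set_option linter.unusedSectionVars false

open Set Filter Topology Complex MeasureTheory
open scoped ContDiff Matrix ComplexConjugate ComplexOrder

namespace Crest.Agent.R257.RSA_844

open Crest.Agent.R273 Crest.Agent.R275 Crest.Agent.R275.Geo Crest.Agent.R275.Core144
open Crest.Agent.R275.EDR890 Crest.Agent.R275.OmT75 Crest.Agent.R275.Tor812
open Crest.Agent.R275.SerG398 (dens lint)
open Crest.Agent.R273.Defs_333 Crest.Agent.R273.Vm_333 Crest.Agent.R273.Kah_333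
open Crest.Agent.R273.Hess_333 Crest.Agent.R273.HessB_333 Crest.Agent.R273.HM_333
open Crest.Agent.R273.Vol_333 Crest.Agent.R273.Green_5 Crest.Agent.R273.GreenM_5
open Crest.Agent.R273.StokesV_332
open Crest.Agent.R275.Dg199 (SmN smN_iff sm_iff ev_symm ev_chart smN_const smAt_of_smN)

noncomputable section

/-! ### one complex variable -/

theorem eq_smul_e (z : Cn 1) : z = z 0 • (EuclideanSpace.single 0 1 : Cn 1) := by
  ext a
  rw [Subsingleton.elim a 0]
  simp

theorem fac {T : Cn 1 → ℂ} {c : Cn 1} (hT : AnalyticAt ℂ T c) (h0 : T c = 0) :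
    ∃ U : Cn 1 → ℂ, AnalyticAt ℂ U c ∧ U c = fderiv ℂ T c (EuclideanSpace.single 0 1) ∧
      ∀ z, T z = (z 0 - c 0) * U z := by
  set e : Cn 1 := EuclideanSpace.single 0 1 with he
  set L : ℂ →L[ℂ] Cn 1 := ContinuousLinearMap.toSpanSingleton ℂ e with hL
  have hLc : L (c 0) = c := (eq_smul_e c).symm
  have hLz : ∀ z : Cn 1, L (z 0) = z := fun z => (eq_smul_e z).symm
  set f : ℂ → ℂ := fun ζ => T (L ζ) with hf
  have hT' : AnalyticAt ℂ T (L (c 0)) := by rwa [hLc]
  have hfa : AnalyticAt ℂ f (c 0) := hT'.comp (L.analyticAt (c 0))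
  obtain ⟨p, hp⟩ := id hfa
  have hda : AnalyticAt ℂ (dslope f (c 0)) (c 0) := hp.has_fpower_series_dslope_fslope.analyticAt
  have hpr : AnalyticAt ℂ (fun z : Cn 1 => z 0) c :=
    (EuclideanSpace.proj 0 : Cn 1 →L[ℂ] ℂ).analyticAt c
  refine ⟨fun z => dslope f (c 0) (z 0), AnalyticAt.comp (g := dslope f (c 0))
    (f := fun z : Cn 1 => z 0) hda hpr, ?_, fun z => ?_⟩
  · show dslope f (c 0) (c 0) = _
    rw [dslope_same]
    have h1 : HasFDerivAt T (fderiv ℂ T c) (L (c 0)) := by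
      rw [hLc]
      exact hT.differentiableAt.hasFDerivAt
    have h2 : HasDerivAt f (fderiv ℂ T c (L 1)) (c 0) :=
      h1.comp_hasDerivAt (c 0) L.hasDerivAt
    rw [h2.deriv]
    congr 1
    rw [hL]
    simp
  · have h1 := sub_smul_dslope f (c 0) (z 0)
    have h2 : f (c 0) = 0 := by
      rw [hf]
      simp only [hLc, h0]
    have h3 : f (z 0) = T z := by
      rw [hf]
      simp only [hLz]
    rw [h2, h3, sub_zero, smul_eq_mul] at h1
    exact h1.symm

variable {M : Type} [TopologicalSpace M] {A : Atl 1 M}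

/-- a holomorphic coordinate at `p`, centred at `p` -/
structure Crd (A : Atl 1 M) (p : M) (τ : M → ℂ) : Prop where
  zero : τ p = 0
  ex : ∃ i, p ∈ (A.e i).source ∧ AnalyticAt ℂ (fun z => τ ((A.e i).symm z)) (A.e i p) ∧
    fderiv ℂ (fun z => τ ((A.e i).symm z)) (A.e i p) (EuclideanSpace.single 0 1) ≠ 0

theorem Crd.ana {p : M} {τ : M → ℂ} (H : Crd A p τ) {j : A.ι} (hj : p ∈ (A.e j).source) :
    AnalyticAt ℂ (fun z => τ ((A.e j).symm z)) (A.e j p) ∧
    fderiv ℂ (fun z => τ ((A.e j).symm z)) (A.e j p) (EuclideanSpace.single 0 1) ≠ 0 := by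
  obtain ⟨i, hi, h1, h2⟩ := H.ex
  have hm : A.e j p ∈ A.ov j i := mem_ov ⟨hj, hi⟩
  have ho : IsOpen (A.ov j i) := isOpen_ov j i
  have hg : AnalyticAt ℂ (fun z => A.e i ((A.e j).symm z)) (A.e j p) :=
    Crest.Agent.R266.SCV.analyticOnNhd_of_differentiableOn ho (A.holo j i) _ hm
  have hv : A.e i ((A.e j).symm (A.e j p)) = A.e i p := by rw [(A.e j).left_inv hj]
  have h1' : AnalyticAt ℂ (fun z => τ ((A.e i).symm z)) (A.e i ((A.e j).symm (A.e j p))) := by
    rwa [hv]
  have hc : AnalyticAt ℂ ((fun z => τ ((A.e i).symm z)) ∘ fun z => A.e i ((A.e j).symm z))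
      (A.e j p) := AnalyticAt.comp h1' hg
  have he : (fun z => τ ((A.e j).symm z)) =ᶠ[𝓝 (A.e j p)]
      ((fun z => τ ((A.e i).symm z)) ∘ fun z => A.e i ((A.e j).symm z)) := by
    filter_upwards [ho.mem_nhds hm] with z hz
    simp only [Function.comp_apply]
    rw [(A.e i).left_inv hz.2]
  refine ⟨hc.congr he.symm, ?_⟩
  rw [he.fderiv_eq, fderiv_comp (g := fun z => τ ((A.e i).symm z))
    (f := fun z => A.e i ((A.e j).symm z)) (A.e j p) h1'.differentiableAt hg.differentiableAt, hv]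
  have h3 : fderiv ℂ (fun z => A.e i ((A.e j).symm z)) (A.e j p) (EuclideanSpace.single 0 1) =
      J1 A j i p • (EuclideanSpace.single 0 1 : Cn 1) := by
    rw [eq_smul_e (fderiv ℂ (fun z => A.e i ((A.e j).symm z)) (A.e j p)
      (EuclideanSpace.single 0 1))]
    rfl
  rw [ContinuousLinearMap.comp_apply, h3, map_smul, smul_eq_mul]
  exact mul_ne_zero (J1_ne ⟨hj, hi⟩) h2

theorem Crd.fac {p : M} {τ : M → ℂ} (H : Crd A p τ) {j : A.ι} (hj : p ∈ (A.e j).source) :
    ∃ U : Cn 1 → ℂ, AnalyticAt ℂ U (A.e j p) ∧ U (A.e j p) ≠ 0 ∧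
      ∀ z, τ ((A.e j).symm z) = (z 0 - (A.e j p) 0) * U z := by
  obtain ⟨h1, h2⟩ := H.ana hj
  obtain ⟨U, a, b, c⟩ := RSA_844.fac h1 (by rw [(A.e j).left_inv hj, H.zero])
  exact ⟨U, a, by rw [b]; exact h2, c⟩

/-- the coordinate of a chart -/
theorem crd_chart {p : M} {j : A.ι} (hj : p ∈ (A.e j).source) :
    Crd A p (fun x => (A.e j x) 0 - (A.e j p) 0) where
  zero := sub_self _
  ex := by
    have he : (fun z => (A.e j ((A.e j).symm z)) 0 - (A.e j p) 0) =ᶠ[𝓝 (A.e j p)]
        fun z : Cn 1 => z 0 - (A.e j p) 0 := by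
      filter_upwards [(A.e j).open_target.mem_nhds ((A.e j).map_source hj)] with z hz
      rw [(A.e j).right_inv hz]
    refine ⟨j, hj, (anal_coord _ _).congr he.symm, ?_⟩
    rw [he.fderiv_eq, fderiv_coord]
    simp

variable [T2Space M]

/-- comparison of the logarithms of two coordinates -/
theorem Crd.log {p : M} {τ : M → ℂ} (H : Crd A p τ) {j : A.ι} (hj : p ∈ (A.e j).source) :
    ∃ B : M → ℝ, ∀ᶠ x in 𝓝 p, SmN A B x ∧ hsf A B j x 0 0 = 0 ∧
      (x ≠ p → Real.log (‖τ x‖ ^ 2) = Real.log (rho (A.e j p) (A.e j x)) + B x) := by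
  obtain ⟨U, hU, h0, hf⟩ := H.fac hj
  refine ⟨fun x => Real.log (‖U (A.e j x)‖ ^ 2), ?_⟩
  have e1 := ev_chart hj (hU.eventually_analyticAt.and (hU.continuousAt.eventually_ne h0))
  filter_upwards [e1, (A.e j).open_source.mem_nhds hj] with x h1 h2
  have hr : (fun z => Real.log (‖U (A.e j ((A.e j).symm z))‖ ^ 2)) =ᶠ[𝓝 (A.e j x)]
      fun z => Real.log (‖U z‖ ^ 2) := by
    filter_upwards [(A.e j).open_target.mem_nhds ((A.e j).map_source h2)] with z hz
    rw [(A.e j).right_inv hz]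
  have hd : ∀ᶠ w in 𝓝 (A.e j x), DifferentiableAt ℂ U w :=
    h1.1.eventually_analyticAt.mono fun w hw => hw.differentiableAt
  refine ⟨?_, ?_, fun h3 => ?_⟩
  · rw [smN_iff h2]
    have hs : ContDiffAt ℝ ∞ (fun z => Real.log (‖U z‖ ^ 2)) (A.e j x) := by
      refine ContDiffAt.log ?_ (by have := norm_pos_iff.2 h1.2; positivity)
      exact Levi_145.c2_normSq h1.1 _
    exact hs.congr_of_eventuallyEq hr
  · unfold hsf
    rw [hess_congr hr, hess_log_norm hd h1.2]
    rfl
  · have h4 := hf (A.e j x)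
    rw [(A.e j).left_inv h2] at h4
    have h5 : 0 < rho (A.e j p) (A.e j x) := rho_chart_pos hj h2 h3
    have h6 := norm_pos_iff.2 h1.2
    rw [h4, norm_mul, mul_pow]
    exact Real.log_mul h5.ne' (by positivity)

/-! ### functions with logarithmic poles -/

theorem hsf_addN {u v : M → ℝ} {x : M} (hu : SmN A u x) (hv : SmN A v x) {i : A.ι}
    (hx : x ∈ (A.e i).source) : hsf A (fun y => u y + v y) i x = hsf A u i x + hsf A v i x :=
  hess_add ((smN_iff hx).1 hu) ((smN_iff hx).1 hv)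


theorem hsf_smulN (c : ℝ) {u : M → ℝ} {x : M} (hu : SmN A u x) {i : A.ι}
    (hx : x ∈ (A.e i).source) : hsf A (fun y => c * u y) i x = (c : ℂ) • hsf A u i x :=
  hess_const_mul c ((smN_iff hx).1 hu)

theorem smN_smul (c : ℝ) {u : M → ℝ} {x : M} (hu : SmN A u x) : SmN A (fun y => c * u y) x :=
  Crest.Agent.R275.Dg199.SmN.smul (smN_const c x) hu


theorem hsf_const0 (c : ℝ) (i : A.ι) (x : M) : hsf A (fun _ => c) i x = 0 := by
  ext a b
  unfold hsf
  rw [hess_apply]
  have h4 : wd (true, b) (cu fun _ : Cn 1 => c) = fun _ => 0 := by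
    funext w
    exact wd_const _ _ _
  rw [h4, wd_const]
  rfl

theorem hsf_sumN {σ : Type*} (s : Finset σ) {u : σ → M → ℝ} {x : M} (hu : ∀ t ∈ s, SmN A (u t) x)
    {i : A.ι} (hx : x ∈ (A.e i).source) :
    hsf A (fun y => ∑ t ∈ s, u t y) i x = ∑ t ∈ s, hsf A (u t) i x := by
  classical
  induction s using Finset.induction_on with
  | empty =>
    simp only [Finset.sum_empty]
    exact hsf_const0 0 i x
  | insert a s ha ih =>
    simp only [Finset.sum_insert ha]
    rw [hsf_addN (hu a (Finset.mem_insert_self a s))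
      (Crest.Agent.R275.Dg199.SmN.sum fun t ht => hu t (Finset.mem_insert_of_mem ht)) hx,
      ih fun t ht => hu t (Finset.mem_insert_of_mem ht)]



/-- **functions with prescribed logarithmic poles** -/
theorem exists_h2 [CompactSpace M] [ConnectedSpace M] [Finite A.ι] (K : Kah A) (P : Part A)
    (S : Finset M) (b : M → ℝ) :
    ∃ (h : M → ℝ) (κ : ℝ), κ * (intD P (fun i x => K.g i x 0 0)).re = -Real.pi * ∑ p ∈ S, b p ∧
      (∀ x, x ∉ S → SmN A h x) ∧
      (∀ i, ∀ x ∈ (A.e i).source, x ∉ S → hsf A h i x 0 0 = (κ : ℂ) * K.g i x 0 0) ∧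
      ∀ p ∈ S, ∀ j, p ∈ (A.e j).source → ∃ B : M → ℝ, (∀ᶠ x in 𝓝 p, SmN A B x) ∧
        ∀ᶠ x in 𝓝 p, x ≠ p → h x = b p * Real.log (rho (A.e j p) (A.e j x)) + B x := by
  classical
  have hne : Nonempty M := inferInstance
  have hch : ∀ p : M, ∃ (j : A.ι) (r : ℝ), Disc A p j r := fun p => by
    obtain ⟨j, hj⟩ := A.cover p
    obtain ⟨r, hr, -⟩ := exists_disc (U := univ) hj univ_mem
    exact ⟨j, r, hr⟩
  choose j r hD using hch
  set q : A.ι → M → ℝ := fun i x => ∑ p ∈ S, (-b p) * dq A {p} (lgf A p (j p) (r p)) i x with hq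
  have hqs : ∀ i, A.SmAt i (q i) := fun i =>
    ContDiffOn.sum fun p _ => contDiffOn_const.mul ((hD p).harm.smAt i)
  have hqd : Dn A (fun i x => (q i x : ℂ)) := by
    rw [dn_iff]
    intro i k x hx
    simp only [hq]
    push_cast
    rw [Finset.mul_sum]
    refine Finset.sum_congr rfl fun p _ => ?_
    rw [dn_iff.1 (hD p).harm.dn i k x hx]
    push_cast
    ring
  obtain ⟨v, m, hv, he⟩ := poisson_m K P hqs hqd
  have hc := poisson_const K P hqs hv he
  have hqi : intD P (fun i x => (q i x : ℂ)) = ((Real.pi * ∑ p ∈ S, b p : ℝ) : ℂ) := by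
    have h1 : intD P (fun i x => (q i x : ℂ)) = intD P (fun i x => ∑ p ∈ S,
        ((-b p : ℝ) : ℂ) * (dq A {p} (lgf A p (j p) (r p)) i x : ℂ)) := by
      refine intD_congr P fun i x _ => ?_
      simp only [hq]
      push_cast
      rfl
    rw [h1, intD_sum P S (fun p _ i => smAt_cmul _ (smAtR ((hD p).harm.smAt i)))
      isCompact_univ (fun p _ => offK_univ _)]
    have h2 : ∀ p ∈ S, intD P (fun i x => ((-b p : ℝ) : ℂ) *
        (dq A {p} (lgf A p (j p) (r p)) i x : ℂ)) = ((Real.pi * b p : ℝ) : ℂ) := by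
      intro p _
      rw [intD_smul P _ isCompact_univ (offK_univ _), (hD p).int P]
      push_cast
      ring
    rw [Finset.sum_congr rfl h2]
    push_cast
    rw [Finset.mul_sum]
  set s : M → M → ℝ := fun p => lgf A p (j p) (r p) with hs
  have hsN : ∀ p x, x ≠ p → SmN A (fun y => b p * s p y) x := fun p x hx =>
    smN_smul (b p) ((hD p).smN hx)
  refine ⟨fun x => v x + ∑ p ∈ S, b p * s p x, -m, ?_, ?_, ?_, ?_⟩
  · rw [hqi] at hc
    have h1 := congrArg Complex.re hc
    rw [ofReal_re, Complex.re_ofReal_mul] at h1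
    linarith
  · intro x hx
    refine Crest.Agent.R275.Dg199.SmN.add (sm_iff.1 hv x)
      (Crest.Agent.R275.Dg199.SmN.sum fun p hp => hsN p x ?_)
    rintro rfl
    exact hx hp
  · intro i x hx hxS
    have hxp : ∀ p ∈ S, x ≠ p := by
      rintro p hp rfl
      exact hxS hp
    rw [hsf_addN (sm_iff.1 hv x) (Crest.Agent.R275.Dg199.SmN.sum fun p hp =>
      hsN p x (hxp p hp)) hx, hsf_sumN S (fun p hp => hsN p x (hxp p hp)) hx]
    have h1 : ∀ p ∈ S, hsf A (fun y => b p * s p y) i x =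
        ((b p : ℝ) : ℂ) • hsf A (s p) i x := fun p hp =>
      hsf_smulN (b p) ((hD p).smN (hxp p hp)) hx
    rw [Finset.sum_congr rfl h1, Matrix.add_apply, Matrix.sum_apply, he i x hx]
    simp only [hq, Matrix.smul_apply, smul_eq_mul]
    have h2 : ∀ p ∈ S, ((dq A {p} (lgf A p (j p) (r p)) i x : ℝ) : ℂ) =
        hsf A (s p) i x 0 0 := fun p hp => (hD p).harm.dqC hx (hxp p hp)
    push_cast
    have h3 : ∑ p ∈ S, -(b p : ℂ) * (dq A {p} (lgf A p (j p) (r p)) i x : ℂ) =
        -∑ p ∈ S, (b p : ℂ) * hsf A (s p) i x 0 0 := by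
      rw [← Finset.sum_neg_distrib]
      refine Finset.sum_congr rfl fun p hp => ?_
      rw [h2 p hp]
      ring
    rw [h3]
    ring
  · intro p hp k hk
    -- the chart `k` versus the chart `j p`
    have hcr : Crd A p (fun x => (A.e (j p) x) 0 - (A.e (j p) p) 0) := crd_chart (hD p).src
    obtain ⟨B, hB⟩ := hcr.log hk
    refine ⟨fun x => b p * B x + (v x + ∑ t ∈ S.erase p, b t * s t x), ?_, ?_⟩
    · have h1 : ∀ᶠ x in 𝓝 p, ∀ t ∈ S.erase p, x ≠ t := by
        rw [eventually_all_finset]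
        intro t ht
        exact isOpen_compl_singleton.mem_nhds (by
          rw [mem_compl_singleton_iff]
          rintro rfl
          exact (Finset.notMem_erase _ _) ht)
      filter_upwards [hB, h1] with x h2 h3
      exact Crest.Agent.R275.Dg199.SmN.add (smN_smul (b p) h2.1)
        (Crest.Agent.R275.Dg199.SmN.add (sm_iff.1 hv x)
          (Crest.Agent.R275.Dg199.SmN.sum fun t ht => hsN t x (h3 t ht)))
    · filter_upwards [hB, (hD p).lgf_near] with x h2 h3 h4
      have h5 := h2.2.2 h4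
      have h6 : Real.log (‖(A.e (j p) x) 0 - (A.e (j p) p) 0‖ ^ 2) = s p x := h3.symm
      rw [h6] at h5
      rw [← Finset.add_sum_erase S (fun t => b t * s t x) hp]
      rw [h5]
      ring

/-! ### regularised maximum of `0` and `t` -/

















end

end Crest.Agent.R257.RSA_844
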