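import Crest.Agent.R257.RSA_176
import Crest.Agent.R275.GAtl_293

-- ▼ part R257/RSB_176
section

/-!
# Row 257, part C, compactification of a finite covering of `ℂ ∖ S` (helper176), file B

`Cp T = X ∪ ends`, its topology and its charts (`secCh`: local sections, coordinate `pr`;
`endCh i`: the disc `D i` at the end `i`, coordinate `τ`).
-/

set_option autoImplicit false
set_option linter.unusedSectionVars false

open Set Filter Topology Metric

noncomputable section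

namespace Crest.Agent.R257.RS_176

lemma hasStrictDerivAt_endPr (c : Option ℂ) {m : ℕ} (hm : 0 < m) {τ : ℂ} (hτ : τ ≠ 0) :
    ∃ d ≠ 0, HasStrictDerivAt (endPr c m) d τ := by
  have h1 : HasStrictDerivAt (fun τ : ℂ => τ ^ m) ((m : ℂ) * τ ^ (m - 1)) τ :=
    hasStrictDerivAt_pow m τ
  have h0 : (m : ℂ) * τ ^ (m - 1) ≠ 0 :=
    mul_ne_zero (by exact_mod_cast hm.ne') (pow_ne_zero _ hτ)
  cases c with
  | none =>
    have h2 := (hasStrictDerivAt_inv (pow_ne_zero m hτ)).comp τ h1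
    exact ⟨_, mul_ne_zero (neg_ne_zero.2 (inv_ne_zero (pow_ne_zero _ (pow_ne_zero _ hτ)))) h0, h2⟩
  | some a => exact ⟨_, h0, h1.const_add a⟩

lemma map_nhds_endPr (c : Option ℂ) {m : ℕ} (hm : 0 < m) {τ : ℂ} (hτ : τ ≠ 0) :
    map (endPr c m) (𝓝 τ) = 𝓝 (endPr c m τ) := by
  obtain ⟨d, hd, h⟩ := hasStrictDerivAt_endPr c hm hτ
  exact h.map_nhds_eq hd

/-- a chart from a parametrisation -/
def mkCh {M : Type*} [TopologicalSpace M] (f : ℂ → M) (s : Set ℂ) (hs : IsOpen s)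
    (hinj : InjOn f s) (hmap : ∀ z ∈ s, map f (𝓝 z) = 𝓝 (f z)) : OpenPartialHomeomorph M ℂ :=
  (OpenPartialHomeomorph.ofContinuousOpenRestrict (hinj.toPartialEquiv f s)
    (fun z hz => (show ContinuousAt f z from (hmap z hz).le).continuousWithinAt)
    (by
      have : IsOpenMap (s.domRestrict f) := by
        rw [isOpenMap_iff_nhds_le]
        intro z
        have h1 : map (s.domRestrict f) (𝓝 z) = map f (map ((↑) : s → ℂ) (𝓝 z)) := by
          rw [Filter.map_map]; rfl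
        rw [h1, hs.isOpenEmbedding_subtypeVal.map_nhds_eq, hmap _ z.2]
        exact le_rfl
      exact this) hs).symm

section mkCh

variable {M : Type*} [TopologicalSpace M] {f : ℂ → M} {s : Set ℂ} {hs : IsOpen s}
    {hinj : InjOn f s} {hmap : ∀ z ∈ s, map f (𝓝 z) = 𝓝 (f z)}

@[simp] lemma mkCh_symm : ⇑(mkCh f s hs hinj hmap).symm = f := rfl

@[simp] lemma mkCh_target : (mkCh f s hs hinj hmap).target = s := rfl

@[simp] lemma mkCh_source : (mkCh f s hs hinj hmap).source = f '' s := rfl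

lemma mkCh_apply {z : ℂ} (hz : z ∈ s) : mkCh f s hs hinj hmap (f z) = z := by
  have := (mkCh f s hs hinj hmap).right_inv (x := z) hz
  simpa using this

end mkCh

namespace Srf

variable {X : Type} [TopologicalSpace X] (T : Srf X)

/-- a continuous lift of an open map is open -/
lemma map_nhds_lift [T2Space X] {g : ℂ → X} {p : ℂ → ℂ} {z : ℂ} (hg : ContinuousAt g z)
    (hp : ∀ᶠ y in 𝓝 z, T.pr (g y) = p y) (hm : map p (𝓝 z) = 𝓝 (p z)) :
    map g (𝓝 z) = 𝓝 (g z) := by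
  have hz : T.pr (g z) = p z := hp.self_of_nhds
  obtain ⟨r, hr, σ, h1, h2, h3, h4⟩ := T.sec (p z) (by rw [← hz]; exact T.pr_notMem _)
  obtain ⟨j, hj⟩ := h4 (g z) (by rw [hz]; exact mem_ball_self hr)
  rw [hz] at hj
  have hnb := section_image_nhds h1 h2 h3 h4 j (mem_ball_self hr)
  rw [hj] at hnb
  have hσ : map (σ j) (𝓝 (p z)) = 𝓝 (g z) := by
    apply le_antisymm
    · have : ContinuousAt (σ j) (p z) := (h1 j).continuousAt (ball_mem_nhds _ hr)
      have h := this.tendsto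
      rwa [hj] at h
    · intro u hu
      have h5 : ∀ᶠ y in 𝓝 (g z), σ j (T.pr y) ∈ u := by
        have hc : ContinuousAt T.pr (g z) := T.contPr.continuousAt
        have h := hc.tendsto
        rw [hz] at h
        exact h.eventually hu
      filter_upwards [h5, hnb] with y hy1 hy2
      rwa [hy2.2] at hy1
  have hev : g =ᶠ[𝓝 z] fun y => σ j (p y) := by
    filter_upwards [hg.eventually hnb, hp] with y hy1 hy2
    rw [← hy2, hy1.2]
  rw [Filter.map_congr hev]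
  change map (σ j ∘ p) (𝓝 z) = _
  rw [← Filter.map_map, hm, hσ]

/-- the punctured parameter disc -/
def Pn : Set ℂ := {τ | 0 < ‖τ‖ ∧ ‖τ‖ < T.ε}

lemma isOpen_Pn : IsOpen T.Pn := by
  have h1 : IsOpen {τ : ℂ | 0 < ‖τ‖} := isOpen_lt continuous_const continuous_norm
  have h2 : IsOpen {τ : ℂ | ‖τ‖ < T.ε} := isOpen_lt continuous_norm continuous_const
  exact h1.inter h2

lemma map_nhds_γ [T2Space X] (i : T.ι) {τ : ℂ} (hτ : τ ∈ T.Pn) :
    map (T.γ i) (𝓝 τ) = 𝓝 (T.γ i τ) := by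
  have hne : τ ≠ 0 := norm_pos_iff.1 hτ.1
  refine T.map_nhds_lift (p := endPr (T.c i) (T.m i))
    ((T.γ_cont i).continuousAt (T.isOpen_Pn.mem_nhds hτ)) ?_
    (map_nhds_endPr _ (T.mpos i) hne)
  filter_upwards [T.isOpen_Pn.mem_nhds hτ] with y hy
  exact T.pr_γ i y hy.1 hy.2

/-- the compactification -/
def Cp (T : Srf X) : Type := X ⊕ T.ι

/-- the inclusion of `X` -/
def jn (x : X) : T.Cp := Sum.inl x

/-- the ends -/
def en (i : T.ι) : T.Cp := Sum.inr i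

lemma jn_injective : Function.Injective T.jn := Sum.inl_injective

lemma en_injective : Function.Injective T.en := Sum.inr_injective

lemma jn_ne_en (x : X) (i : T.ι) : T.jn x ≠ T.en i := Sum.inl_ne_inr

lemma cases (p : T.Cp) : (∃ x, p = T.jn x) ∨ ∃ i, p = T.en i := by
  rcases p with x | i
  · exact Or.inl ⟨x, rfl⟩
  · exact Or.inr ⟨i, rfl⟩

instance : TopologicalSpace T.Cp where
  IsOpen U := IsOpen (T.jn ⁻¹' U) ∧
    ∀ i, T.en i ∈ U → ∃ δ > 0, ∀ τ : ℂ, 0 < ‖τ‖ → ‖τ‖ < δ → T.jn (T.γ i τ) ∈ U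
  isOpen_univ := ⟨isOpen_univ, fun _ _ => ⟨1, one_pos, fun _ _ _ => trivial⟩⟩
  isOpen_inter := by
    rintro U V ⟨h1, h2⟩ ⟨h3, h4⟩
    refine ⟨h1.inter h3, fun i hi => ?_⟩
    obtain ⟨δ, hδ, h5⟩ := h2 i hi.1
    obtain ⟨δ', hδ', h6⟩ := h4 i hi.2
    exact ⟨min δ δ', lt_min hδ hδ', fun τ h7 h8 => ⟨h5 τ h7 (h8.trans_le (min_le_left _ _)),
      h6 τ h7 (h8.trans_le (min_le_right _ _))⟩⟩
  isOpen_sUnion := by
    intro s hs
    refine ⟨?_, fun i hi => ?_⟩
    · rw [preimage_sUnion]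
      exact isOpen_biUnion fun U hU => (hs U hU).1
    · obtain ⟨U, hU, hi⟩ := hi
      obtain ⟨δ, hδ, h5⟩ := (hs U hU).2 i hi
      exact ⟨δ, hδ, fun τ h7 h8 => ⟨U, hU, h5 τ h7 h8⟩⟩

variable {T} in
lemma isOpen_Cp {U : Set T.Cp} : IsOpen U ↔ IsOpen (T.jn ⁻¹' U) ∧
    ∀ i, T.en i ∈ U → ∃ δ > 0, ∀ τ : ℂ, 0 < ‖τ‖ → ‖τ‖ < δ → T.jn (T.γ i τ) ∈ U := Iff.rfl

lemma isOpenEmbedding_jn : IsOpenEmbedding T.jn := by
  refine IsOpenEmbedding.of_continuous_injective_isOpenMap ?_ T.jn_injective ?_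
  · exact ⟨fun U hU => hU.1⟩
  · intro V hV
    refine isOpen_Cp.2 ⟨?_, fun i hi => ?_⟩
    · rwa [preimage_image_eq _ T.jn_injective]
    · obtain ⟨x, -, hx⟩ := hi
      exact absurd hx (T.jn_ne_en x i)

open Classical in
/-- the disc at the end `i` -/
def D (i : T.ι) (τ : ℂ) : T.Cp := if τ = 0 then T.en i else T.jn (T.γ i τ)

@[simp] lemma D_zero (i : T.ι) : T.D i 0 = T.en i := by simp [D]

lemma D_of_ne (i : T.ι) {τ : ℂ} (h : τ ≠ 0) : T.D i τ = T.jn (T.γ i τ) := by simp [D, h]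

lemma D_eq_iff {i i' : T.ι} {τ τ' : ℂ} (h : τ ∈ ball (0 : ℂ) T.ε) (h' : τ' ∈ ball (0 : ℂ) T.ε)
    (he : T.D i τ = T.D i' τ') : i = i' ∧ τ = τ' := by
  rw [mem_ball_zero_iff] at h h'
  by_cases h0 : τ = 0
  · by_cases h0' : τ' = 0
    · subst h0; subst h0'
      simp only [D_zero] at he
      exact ⟨T.en_injective he, rfl⟩
    · rw [h0, D_zero, T.D_of_ne i' h0'] at he
      exact absurd he.symm (T.jn_ne_en _ _)
  · by_cases h0' : τ' = 0
    · rw [h0', D_zero, T.D_of_ne i h0] at he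
      exact absurd he (T.jn_ne_en _ _)
    · rw [T.D_of_ne i h0, T.D_of_ne i' h0'] at he
      exact T.γ_inj i i' τ τ' (norm_pos_iff.2 h0) h (norm_pos_iff.2 h0') h' (T.jn_injective he)

lemma injOn_D (i : T.ι) : InjOn (T.D i) (ball 0 T.ε) := fun _ h _ h' he =>
  (T.D_eq_iff h h' he).2

lemma isOpen_D_image [T2Space X] (i : T.ι) {δ : ℝ} (hδ : δ ≤ T.ε) :
    IsOpen (T.D i '' ball 0 δ) := by
  refine isOpen_Cp.2 ⟨?_, fun i' hi' => ?_⟩
  · rw [isOpen_iff_mem_nhds]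
    rintro x ⟨τ, hτ, hx⟩
    rw [mem_ball_zero_iff] at hτ
    have h0 : τ ≠ 0 := by
      rintro rfl
      rw [D_zero] at hx
      exact T.jn_ne_en x i hx.symm
    rw [T.D_of_ne i h0] at hx
    have hx' : T.γ i τ = x := T.jn_injective hx
    have hP : τ ∈ T.Pn := ⟨norm_pos_iff.2 h0, hτ.trans_le hδ⟩
    rw [← hx', ← T.map_nhds_γ i hP]
    have hnb : {y : ℂ | y ≠ 0 ∧ y ∈ ball (0 : ℂ) δ} ∈ 𝓝 τ :=
      (isOpen_ne.inter isOpen_ball).mem_nhds ⟨h0, mem_ball_zero_iff.2 hτ⟩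
    rw [Filter.mem_map]
    filter_upwards [hnb] with y hy
    exact ⟨y, hy.2, T.D_of_ne i hy.1⟩
  · obtain ⟨τ, hτ, hx⟩ := hi'
    have h0 : τ = 0 := by
      by_contra h0
      rw [T.D_of_ne i h0] at hx
      exact T.jn_ne_en _ _ hx
    subst h0
    rw [D_zero] at hx
    have hi : i = i' := T.en_injective hx
    subst hi
    have hδ0 : 0 < δ := by simpa using hτ
    exact ⟨δ, hδ0, fun τ h1 h2 => ⟨τ, mem_ball_zero_iff.2 h2,
      T.D_of_ne i (norm_pos_iff.1 h1)⟩⟩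

lemma map_nhds_D [T2Space X] (i : T.ι) {τ : ℂ} (hτ : τ ∈ ball (0 : ℂ) T.ε) :
    map (T.D i) (𝓝 τ) = 𝓝 (T.D i τ) := by
  by_cases h0 : τ = 0
  · subst h0
    rw [D_zero]
    apply le_antisymm
    · intro U hU
      obtain ⟨V, hVU, hV, hi⟩ := mem_nhds_iff.1 hU
      obtain ⟨δ, hδ, h1⟩ := (isOpen_Cp.1 hV).2 i hi
      rw [Filter.mem_map]
      filter_upwards [ball_mem_nhds (0 : ℂ) hδ] with y hy
      rw [mem_ball_zero_iff] at hy
      apply hVU
      by_cases hy0 : y = 0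
      · rw [hy0, D_zero]; exact hi
      · rw [T.D_of_ne i hy0]
        exact h1 y (norm_pos_iff.2 hy0) hy
    · intro U hU
      obtain ⟨δ, hδ, h1⟩ := Metric.mem_nhds_iff.1 hU
      have hδ' : 0 < min δ T.ε := lt_min hδ T.εpos
      have h2 := T.isOpen_D_image i (min_le_right δ T.ε)
      refine mem_nhds_iff.2 ⟨_, ?_, h2, ⟨0, mem_ball_self hδ', T.D_zero i⟩⟩
      rintro _ ⟨y, hy, rfl⟩
      exact h1 (ball_subset_ball (min_le_left _ _) hy)
  · rw [mem_ball_zero_iff] at hτ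
    have hP : τ ∈ T.Pn := ⟨norm_pos_iff.2 h0, hτ⟩
    have hev : T.D i =ᶠ[𝓝 τ] fun y => T.jn (T.γ i y) := by
      filter_upwards [isOpen_ne.mem_nhds h0] with y hy using T.D_of_ne i hy
    rw [Filter.map_congr hev]
    change map (T.jn ∘ T.γ i) (𝓝 τ) = _
    rw [← Filter.map_map, T.map_nhds_γ i hP, T.isOpenEmbedding_jn.map_nhds_eq, T.D_of_ne i h0]

/-- the chart at the end `i` -/
def endCh [T2Space X] (i : T.ι) : OpenPartialHomeomorph T.Cp ℂ :=
  mkCh (T.D i) (ball 0 T.ε) isOpen_ball (T.injOn_D i) fun _ h => T.map_nhds_D i h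

/-- a local section -/
structure SecD where
  w : ℂ
  r : ℝ
  s : ℂ → X
  cont : ContinuousOn s (ball w r)
  sec : ∀ z ∈ ball w r, T.pr (s z) = z

lemma map_nhds_sec [T2Space X] (s : T.SecD) {z : ℂ} (hz : z ∈ ball s.w s.r) :
    map s.s (𝓝 z) = 𝓝 (s.s z) := by
  refine T.map_nhds_lift (p := id) (s.cont.continuousAt (isOpen_ball.mem_nhds hz)) ?_ (by simp)
  filter_upwards [isOpen_ball.mem_nhds hz] with y hy using s.sec y hy

lemma map_nhds_jsec [T2Space X] (s : T.SecD) {z : ℂ} (hz : z ∈ ball s.w s.r) :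
    map (fun z => T.jn (s.s z)) (𝓝 z) = 𝓝 (T.jn (s.s z)) := by
  change map (T.jn ∘ s.s) (𝓝 z) = _
  rw [← Filter.map_map, T.map_nhds_sec s hz, T.isOpenEmbedding_jn.map_nhds_eq]

lemma injOn_jsec (s : T.SecD) : InjOn (fun z => T.jn (s.s z)) (ball s.w s.r) := by
  intro z hz z' hz' h
  have := congrArg T.pr (T.jn_injective h)
  rwa [s.sec z hz, s.sec z' hz'] at this

/-- the chart of a local section -/
def secCh [T2Space X] (s : T.SecD) : OpenPartialHomeomorph T.Cp ℂ :=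
  mkCh (fun z => T.jn (s.s z)) (ball s.w s.r) isOpen_ball (T.injOn_jsec s)
    fun _ h => T.map_nhds_jsec s h

/-- every point lies on a local section -/
lemma exists_secD (x : X) : ∃ s : T.SecD, 0 < s.r ∧ s.w = T.pr x ∧ s.s (T.pr x) = x := by
  obtain ⟨r, hr, σ, h1, h2, h3, h4⟩ := T.sec (T.pr x) (T.pr_notMem x)
  obtain ⟨j, hj⟩ := h4 x (mem_ball_self hr)
  exact ⟨⟨T.pr x, r, σ j, h1 j, h2 j⟩, hr, rfl, hj⟩

end Srf

end Crest.Agent.R257.RS_176
end
end

-- ▼ part R257/RSC_176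
section

/-!
# Row 257, part C, compactification of a finite covering of `ℂ ∖ S` (helper176), file C

`Cp T` is Hausdorff, compact, connected.
-/

set_option autoImplicit false
set_option linter.unusedSectionVars false

open Set Filter Topology Metric

noncomputable section

namespace Crest.Agent.R257.RS_176

lemma endPr_away (c : Option ℂ) {m : ℕ} (hm : 0 < m) {z : ℂ} (hz : ∀ a, c = some a → z ≠ a) :
    ∃ δ > 0, ∃ ρ > 0, ∀ τ : ℂ, 0 < ‖τ‖ → ‖τ‖ < δ → ρ ≤ ‖endPr c m τ - z‖ := by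
  cases c with
  | none =>
    refine ⟨min 1 (‖z‖ + 1)⁻¹, lt_min one_pos (by positivity), 1, one_pos, fun τ h1 h2 => ?_⟩
    have h3 : ‖τ‖ < 1 := h2.trans_le (min_le_left _ _)
    have h4 : ‖τ‖ < (‖z‖ + 1)⁻¹ := h2.trans_le (min_le_right _ _)
    have h5 : ‖τ‖ ^ m ≤ ‖τ‖ := pow_le_of_le_one h1.le h3.le hm.ne'
    have h6 : 0 < ‖τ‖ ^ m := pow_pos h1 m
    have h7 : ‖z‖ + 1 ≤ (‖τ‖ ^ m)⁻¹ := by
      rw [le_inv_comm₀ (by positivity) h6]
      exact h5.trans h4.le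
    have h8 : ‖endPr none m τ‖ = (‖τ‖ ^ m)⁻¹ := by simp [endPr]
    have h9 := norm_sub_norm_le (endPr none m τ) z
    linarith
  | some a =>
    have hza : z ≠ a := hz a rfl
    have hd : 0 < ‖z - a‖ := norm_pos_iff.2 (sub_ne_zero.2 hza)
    refine ⟨min 1 (‖z - a‖ / 2), lt_min one_pos (by positivity), ‖z - a‖ / 2, by positivity,
      fun τ h1 h2 => ?_⟩
    have h3 : ‖τ‖ < 1 := h2.trans_le (min_le_left _ _)
    have h4 : ‖τ‖ < ‖z - a‖ / 2 := h2.trans_le (min_le_right _ _)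
    have h5 : ‖τ‖ ^ m ≤ ‖τ‖ := pow_le_of_le_one h1.le h3.le hm.ne'
    have h6 : endPr (some a) m τ - z = τ ^ m - (z - a) := by simp [endPr]; ring
    rw [h6]
    have h7 := norm_sub_norm_le (z - a) (τ ^ m)
    rw [norm_sub_rev (z - a) (τ ^ m), norm_pow] at h7
    linarith

namespace Srf

variable {X : Type} [TopologicalSpace X] (T : Srf X)

lemma sep_jn_en [T2Space X] (x : X) (i : T.ι) : ∃ U V : Set T.Cp, IsOpen U ∧ IsOpen V ∧
    T.jn x ∈ U ∧ T.en i ∈ V ∧ Disjoint U V := by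
  obtain ⟨δ, hδ, ρ, hρ, h⟩ := endPr_away (T.c i) (T.mpos i) (z := T.pr x)
    (fun a ha hx => T.pr_notMem x (hx ▸ T.c_mem i a ha))
  have hδ' : 0 < min δ T.ε := lt_min hδ T.εpos
  refine ⟨T.jn '' (T.pr ⁻¹' ball (T.pr x) ρ), T.D i '' ball 0 (min δ T.ε),
    T.isOpenEmbedding_jn.isOpenMap _ (isOpen_ball.preimage T.contPr),
    T.isOpen_D_image i (min_le_right _ _), ⟨x, mem_ball_self hρ, rfl⟩,
    ⟨0, mem_ball_self hδ', T.D_zero i⟩, ?_⟩
  rw [Set.disjoint_left]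
  rintro _ ⟨y, hy, rfl⟩ ⟨τ, hτ, hτy⟩
  rw [mem_ball_zero_iff] at hτ
  have h0 : τ ≠ 0 := by
    rintro rfl
    rw [D_zero] at hτy
    exact T.jn_ne_en y i hτy.symm
  rw [T.D_of_ne i h0] at hτy
  have h1 : T.γ i τ = y := T.jn_injective hτy
  have h2 := h τ (norm_pos_iff.2 h0) (hτ.trans_le (min_le_left _ _))
  rw [← T.pr_γ i τ (norm_pos_iff.2 h0) (hτ.trans_le (min_le_right _ _)), h1] at h2
  have h3 : dist (T.pr y) (T.pr x) < ρ := hy
  rw [dist_eq_norm] at h3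
  linarith

instance [T2Space X] : T2Space T.Cp := by
  refine ⟨fun p q hpq => ?_⟩
  rcases T.cases p with ⟨x, rfl⟩ | ⟨i, rfl⟩ <;> rcases T.cases q with ⟨y, rfl⟩ | ⟨j, rfl⟩
  · have hxy : x ≠ y := fun h => hpq (congrArg _ h)
    obtain ⟨U, V, hU, hV, hx, hy, hd⟩ := t2_separation hxy
    exact ⟨T.jn '' U, T.jn '' V, T.isOpenEmbedding_jn.isOpenMap _ hU,
      T.isOpenEmbedding_jn.isOpenMap _ hV, ⟨x, hx, rfl⟩, ⟨y, hy, rfl⟩,
      (disjoint_image_iff T.jn_injective).2 hd⟩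
  · exact T.sep_jn_en x j
  · obtain ⟨U, V, hU, hV, hx, hy, hd⟩ := T.sep_jn_en y i
    exact ⟨V, U, hV, hU, hy, hx, hd.symm⟩
  · refine ⟨T.D i '' ball 0 T.ε, T.D j '' ball 0 T.ε, T.isOpen_D_image i le_rfl,
      T.isOpen_D_image j le_rfl, ⟨0, mem_ball_self T.εpos, T.D_zero i⟩,
      ⟨0, mem_ball_self T.εpos, T.D_zero j⟩, ?_⟩
    rw [Set.disjoint_left]
    rintro _ ⟨τ, hτ, rfl⟩ ⟨τ', hτ', he⟩
    have := (T.D_eq_iff hτ' hτ he).1
    exact hpq (by rw [this])

lemma isCompact_pr_preimage {L : Set ℂ} (hL : IsCompact L) (hS : ∀ w ∈ L, w ∉ T.S) :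
    IsCompact (T.pr ⁻¹' L) := by
  have h : ∀ w ∈ L, ∃ U ∈ 𝓝 w, ∃ K : Set X, IsCompact K ∧ T.pr ⁻¹' U ⊆ K := by
    intro w hw
    obtain ⟨r, hr, σ, h1, h2, h3, h4⟩ := T.sec w (hS w hw)
    refine ⟨closedBall w (r / 2), closedBall_mem_nhds w (by positivity),
      ⋃ j, σ j '' closedBall w (r / 2), isCompact_iUnion fun j => ?_, fun x hx => ?_⟩
    · exact (isCompact_closedBall w (r / 2)).image_of_continuousOn
        ((h1 j).mono (closedBall_subset_ball (by linarith)))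
    · have hx' : T.pr x ∈ ball w r := closedBall_subset_ball (by linarith) hx
      obtain ⟨j, hj⟩ := h4 x hx'
      exact mem_iUnion.2 ⟨j, T.pr x, hx, hj⟩
  choose! U hU K hK hUK using h
  obtain ⟨t, ht, hLt⟩ := hL.elim_nhds_subcover U hU
  refine (t.isCompact_biUnion fun w hw => hK w (ht w hw)).of_isClosed_subset
    (hL.isClosed.preimage T.contPr) ?_
  intro x hx
  obtain ⟨w, hw, hxw⟩ := mem_iUnion₂.1 (hLt hx)
  exact mem_iUnion₂.2 ⟨w, hw, hUK w (ht w hw) hxw⟩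

lemma exists_delta : ∃ δ > 0, ∀ a ∈ T.S, ∀ x, ‖T.pr x - a‖ < δ →
    ∃ i τ, T.c i = some a ∧ 0 < ‖τ‖ ∧ ‖τ‖ < T.ε / 2 ∧ T.γ i τ = x := by
  have h1 : ∀ᶠ δ in 𝓝[>] (0 : ℝ), ∀ a ∈ T.S, ∀ x, ‖T.pr x - a‖ < δ →
    ∃ i τ, T.c i = some a ∧ 0 < ‖τ‖ ∧ ‖τ‖ < T.ε ∧ T.γ i τ = x := by
    rw [Finset.eventually_all]
    intro a ha
    obtain ⟨δ, hδ, h⟩ := T.cover_fin a ha
    filter_upwards [Ioo_mem_nhdsGT hδ] with δ' hδ' x hx
    exact h x (hx.trans hδ'.2)
  have h2 : ∀ᶠ δ in 𝓝[>] (0 : ℝ), ∀ i : T.ι, δ < (T.ε / 2) ^ T.m i := by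
    rw [eventually_all]
    intro i
    have := T.εpos
    exact mem_of_superset (Ioo_mem_nhdsGT (show (0 : ℝ) < (T.ε / 2) ^ T.m i by positivity))
      fun δ hδ => hδ.2
  obtain ⟨δ, h3, h4, h5⟩ := (h1.and (h2.and self_mem_nhdsWithin)).exists
  refine ⟨δ, h5, fun a ha x hx => ?_⟩
  obtain ⟨i, τ, hc, h6, h7, h8⟩ := h3 a ha x hx
  refine ⟨i, τ, hc, h6, ?_, h8⟩
  have h9 : T.pr x - a = τ ^ T.m i := by
    rw [← h8, T.pr_γ i τ h6 h7, hc]; simp [endPr]
  rw [h9, norm_pow] at hx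
  have := T.εpos
  exact lt_of_pow_lt_pow_left₀ _ (by positivity) (hx.trans (h4 i))

lemma exists_R : ∃ R : ℝ, ∀ x, R < ‖T.pr x‖ →
    ∃ i τ, T.c i = none ∧ 0 < ‖τ‖ ∧ ‖τ‖ < T.ε / 2 ∧ T.γ i τ = x := by
  obtain ⟨R, hR⟩ := T.cover_inf
  have h1 : ∀ᶠ R' in atTop (α := ℝ), ∀ x, R' < ‖T.pr x‖ →
    ∃ i τ, T.c i = none ∧ 0 < ‖τ‖ ∧ ‖τ‖ < T.ε ∧ T.γ i τ = x := by
    filter_upwards [eventually_ge_atTop R] with R' hR' x hx
    exact hR x (hR'.trans_lt hx)
  have h2 : ∀ᶠ R' in atTop (α := ℝ), ∀ i : T.ι, ((T.ε / 2) ^ T.m i)⁻¹ ≤ R' := by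
    rw [eventually_all]
    intro i
    exact eventually_ge_atTop _
  obtain ⟨R', h3, h4⟩ := (h1.and h2).exists
  refine ⟨R', fun x hx => ?_⟩
  obtain ⟨i, τ, hc, h6, h7, h8⟩ := h3 x hx
  refine ⟨i, τ, hc, h6, ?_, h8⟩
  have h9 : T.pr x = (τ ^ T.m i)⁻¹ := by
    rw [← h8, T.pr_γ i τ h6 h7, hc]; simp [endPr]
  rw [h9, norm_inv, norm_pow] at hx
  have := T.εpos
  have h10 : ((T.ε / 2) ^ T.m i)⁻¹ < (‖τ‖ ^ T.m i)⁻¹ := (h4 i).trans_lt hx
  have h11 := (inv_lt_inv₀ (by positivity) (pow_pos h6 _)).1 h10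
  exact lt_of_pow_lt_pow_left₀ _ (by positivity) h11

instance [T2Space X] : CompactSpace T.Cp := by
  obtain ⟨δ, hδ, h1⟩ := T.exists_delta
  obtain ⟨R, h2⟩ := T.exists_R
  set L : Set ℂ := closedBall 0 R ∩ (⋃ a ∈ T.S, ball a δ)ᶜ with hL
  have hLc : IsCompact L := (isCompact_closedBall _ _).inter_right
    (isOpen_biUnion fun _ _ => isOpen_ball).isClosed_compl
  have hLS : ∀ w ∈ L, w ∉ T.S := by
    intro w hw hwS
    exact hw.2 (mem_iUnion₂.2 ⟨w, hwS, mem_ball_self hδ⟩)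
  have hK1 : IsCompact (T.jn '' (T.pr ⁻¹' L)) :=
    (T.isCompact_pr_preimage hLc hLS).image T.isOpenEmbedding_jn.continuous
  have hε := T.εpos
  have hK2 : ∀ i, IsCompact (T.D i '' closedBall 0 (T.ε / 2)) := by
    intro i
    refine (isCompact_closedBall _ _).image_of_continuousOn fun τ hτ => ?_
    have : ContinuousAt (T.D i) τ :=
      (T.map_nhds_D i (closedBall_subset_ball (by linarith) hτ)).le
    exact this.continuousWithinAt
  refine ⟨?_⟩
  have hK := hK1.union (isCompact_iUnion hK2)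
  have hu : (univ : Set T.Cp) = T.jn '' (T.pr ⁻¹' L) ∪ ⋃ i, T.D i '' closedBall 0 (T.ε / 2) := by
    symm
    rw [eq_univ_iff_forall]
    intro p
    rcases T.cases p with ⟨x, rfl⟩ | ⟨i, rfl⟩
    · by_cases hx : T.pr x ∈ L
      · exact Or.inl ⟨x, hx, rfl⟩
      · right
        rw [hL, mem_inter_iff, not_and_or] at hx
        rcases hx with hx | hx
        · rw [mem_closedBall_zero_iff, not_le] at hx
          obtain ⟨i, τ, -, h3, h4, h5⟩ := h2 x hx
          refine mem_iUnion.2 ⟨i, τ, mem_closedBall_zero_iff.2 h4.le, ?_⟩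
          rw [T.D_of_ne i (norm_pos_iff.1 h3), h5]
        · rw [mem_compl_iff, not_not] at hx
          obtain ⟨a, ha, hxa⟩ := mem_iUnion₂.1 hx
          rw [mem_ball, dist_eq_norm] at hxa
          obtain ⟨i, τ, -, h3, h4, h5⟩ := h1 a ha x hxa
          refine mem_iUnion.2 ⟨i, τ, mem_closedBall_zero_iff.2 h4.le, ?_⟩
          rw [T.D_of_ne i (norm_pos_iff.1 h3), h5]
    · exact Or.inr (mem_iUnion.2 ⟨i, 0, mem_closedBall_self (by positivity), T.D_zero i⟩)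
  rw [hu]
  exact hK

lemma denseRange_jn : DenseRange T.jn := by
  intro p
  rw [_root_.mem_closure_iff]
  intro U hU hp
  rcases T.cases p with ⟨x, rfl⟩ | ⟨i, rfl⟩
  · exact ⟨_, hp, x, rfl⟩
  · obtain ⟨δ, hδ, h⟩ := (isOpen_Cp.1 hU).2 i hp
    have h1 : ‖((δ / 2 : ℝ) : ℂ)‖ = δ / 2 := by
      rw [Complex.norm_real, Real.norm_of_nonneg (by positivity)]
    exact ⟨_, h ((δ / 2 : ℝ) : ℂ) (by rw [h1]; positivity) (by rw [h1]; linarith), _, rfl⟩

instance [ConnectedSpace X] : ConnectedSpace T.Cp := by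
  have : PreconnectedSpace T.Cp :=
    T.denseRange_jn.preconnectedSpace T.isOpenEmbedding_jn.continuous
  have : Nonempty T.Cp := (‹ConnectedSpace X›.toNonempty).map T.jn
  exact ⟨inferInstance⟩

end Srf

end Crest.Agent.R257.RS_176
end
end

-- ▼ part R257/RSD_176

/-!
# Row 257, part C, compactification of a finite covering of `ℂ ∖ S` (helper176), file D

`Cp T` is a compact complex manifold of dimension one, and has a finite good atlas
(`exists_atl`), in which the local sections and the discs at the ends are holomorphic.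
-/

set_option autoImplicit false
set_option linter.unusedSectionVars false

open Set Filter Topology Metric
open scoped ContDiff Manifold

noncomputable section

namespace Crest.Agent.R257.RS_176

open Crest.Agent.R275.Geo Crest.Agent.R275.GC293

/-- `ℂ ≃ Cn 1` -/
def L1 : ℂ ≃L[ℂ] Cn 1 :=
  (ContinuousLinearEquiv.funUnique (Fin 1) ℂ ℂ).symm.trans (EuclideanSpace.equiv (Fin 1) ℂ).symm

@[simp] lemma L1_apply (z : ℂ) (i : Fin 1) : L1 z i = z := rfl

@[simp] lemma L1_symm_apply (v : Cn 1) : L1.symm v = v 0 := rfl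

namespace Srf

variable {X : Type} [TopologicalSpace X] (T : Srf X)

/-- the charts, with values in `ℂ` -/
def ch0 [T2Space X] (a : T.SecD ⊕ T.ι) : OpenPartialHomeomorph T.Cp ℂ :=
  Sum.elim T.secCh T.endCh a

/-- change of charts -/
lemma holo_ch0 [T2Space X] (a b : T.SecD ⊕ T.ι) :
    DifferentiableOn ℂ (fun z => T.ch0 b ((T.ch0 a).symm z))
      {z | z ∈ (T.ch0 a).target ∧ (T.ch0 a).symm z ∈ (T.ch0 b).source} := by
  have hopen : IsOpen {z | z ∈ (T.ch0 a).target ∧ (T.ch0 a).symm z ∈ (T.ch0 b).source} :=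
    (T.ch0 a).isOpen_inter_preimage_symm (T.ch0 b).open_source
  have hcont : ∀ z ∈ {z | z ∈ (T.ch0 a).target ∧ (T.ch0 a).symm z ∈ (T.ch0 b).source},
      ContinuousAt (fun z => T.ch0 b ((T.ch0 a).symm z)) z := by
    rintro z ⟨h1, h2⟩
    exact ContinuousAt.comp (f := (T.ch0 a).symm) ((T.ch0 b).continuousAt h2)
      ((T.ch0 a).continuousAt_symm h1)
  rcases a with s | i <;> rcases b with s' | i'
  · -- section, section
    refine differentiableOn_id.congr ?_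
    rintro z ⟨h1, ⟨z', h2, h3⟩⟩
    have h3' : T.jn (s'.s z') = T.jn (s.s z) := h3
    have h4 : z' = z := by
      have := congrArg T.pr (T.jn_injective h3')
      rwa [s'.sec z' h2, s.sec z h1] at this
    change (T.secCh s') (T.jn (s.s z)) = z
    rw [← h3', h4]
    rw [h4] at h2
    exact mkCh_apply h2
  · -- section, end
    intro z hz
    obtain ⟨h1, ⟨τ, h2, h3⟩⟩ := id hz
    have h3' : T.D i' τ = T.jn (s.s z) := h3
    have h5 : (T.endCh i') (T.jn (s.s z)) = τ := by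
      rw [← h3']; exact mkCh_apply h2
    have h0 : τ ≠ 0 := by
      rintro rfl
      rw [D_zero] at h3'
      exact T.jn_ne_en _ _ h3'.symm
    obtain ⟨d, hd, hder⟩ := hasStrictDerivAt_endPr (T.c i') (T.mpos i') h0
    have hev : ∀ᶠ y in 𝓝 z, endPr (T.c i') (T.m i') ((T.endCh i') (T.jn (s.s y))) = y := by
      filter_upwards [hopen.mem_nhds hz] with y hy
      obtain ⟨k1, ⟨τ', k2, k3⟩⟩ := hy
      have k3' : T.D i' τ' = T.jn (s.s y) := k3
      have k0 : τ' ≠ 0 := by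
        rintro rfl
        rw [D_zero] at k3'
        exact T.jn_ne_en _ _ k3'.symm
      have k5 : (T.endCh i') (T.jn (s.s y)) = τ' := by
        rw [← k3']; exact mkCh_apply k2
      rw [k5]
      rw [T.D_of_ne i' k0] at k3'
      have k6 := congrArg T.pr (T.jn_injective k3')
      rw [mem_ball_zero_iff] at k2
      rw [T.pr_γ i' τ' (norm_pos_iff.2 k0) k2, s.sec y k1] at k6
      exact k6
    have hc : ContinuousAt (fun z => (T.endCh i') (T.jn (s.s z))) z := hcont z hz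
    have := HasStrictDerivAt.hasDerivAt (HasStrictDerivAt.of_local_left_inverse
      (f := endPr (T.c i') (T.m i')) (g := fun z => (T.endCh i') (T.jn (s.s z))) (a := z) hc
      (by rw [h5]; exact hder) hd hev)
    exact this.differentiableAt.differentiableWithinAt
  · -- end, section
    intro τ hτ
    obtain ⟨h1, ⟨z, h2, h3⟩⟩ := id hτ
    have h3' : T.jn (s'.s z) = T.D i τ := h3
    have h0 : τ ≠ 0 := by
      rintro rfl
      rw [D_zero] at h3'
      exact T.jn_ne_en _ _ h3'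
    obtain ⟨d, hd, hder⟩ := hasStrictDerivAt_endPr (T.c i) (T.mpos i) h0
    have hev : (fun τ => (T.secCh s') (T.D i τ)) =ᶠ[𝓝 τ] endPr (T.c i) (T.m i) := by
      filter_upwards [hopen.mem_nhds hτ, isOpen_ne.mem_nhds h0] with y hy hy0
      obtain ⟨k1, ⟨z', k2, k3⟩⟩ := hy
      have k3' : T.jn (s'.s z') = T.D i y := k3
      rw [← k3']
      have k4 : (T.secCh s') (T.jn (s'.s z')) = z' := mkCh_apply k2
      rw [k4]
      have k1' : y ∈ ball (0 : ℂ) T.ε := k1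
      rw [mem_ball_zero_iff] at k1'
      rw [T.D_of_ne i hy0] at k3'
      have k6 := congrArg T.pr (T.jn_injective k3')
      rw [T.pr_γ i y (norm_pos_iff.2 hy0) k1', s'.sec z' k2] at k6
      exact k6
    exact (hder.hasDerivAt.differentiableAt.congr_of_eventuallyEq hev).differentiableWithinAt
  · -- end, end
    refine differentiableOn_id.congr ?_
    rintro τ ⟨h1, ⟨τ', h2, h3⟩⟩
    have h3' : T.D i' τ' = T.D i τ := h3
    obtain ⟨h4, h5⟩ := T.D_eq_iff h2 h1 h3'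
    subst h4; subst h5
    exact mkCh_apply (hmap := fun _ h => T.map_nhds_D _ h) h2

/-- the charts with values in `Cn 1` -/
def ch [T2Space X] (a : T.SecD ⊕ T.ι) : OpenPartialHomeomorph T.Cp (Cn 1) :=
  (T.ch0 a).transHomeomorph L1.toHomeomorph

@[simp] lemma ch_source [T2Space X] (a : T.SecD ⊕ T.ι) :
    (T.ch a).source = (T.ch0 a).source := rfl

lemma ch_apply [T2Space X] (a : T.SecD ⊕ T.ι) (p : T.Cp) : T.ch a p = L1 (T.ch0 a p) := rfl

lemma ch_symm_apply [T2Space X] (a : T.SecD ⊕ T.ι) (v : Cn 1) :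
    (T.ch a).symm v = (T.ch0 a).symm (L1.symm v) := rfl


lemma exists_mem_source [T2Space X] (p : T.Cp) : ∃ a, p ∈ (T.ch a).source := by
  rcases T.cases p with ⟨x, rfl⟩ | ⟨i, rfl⟩
  · obtain ⟨s, hr, hw, hx⟩ := T.exists_secD x
    refine ⟨Sum.inl s, T.pr x, ?_, ?_⟩
    · rw [← hw]; exact mem_ball_self hr
    · exact congrArg T.jn hx
  · exact ⟨Sum.inr i, 0, mem_ball_self T.εpos, T.D_zero i⟩

/-- the index of a chart at a point -/
def ix [T2Space X] (p : T.Cp) : T.SecD ⊕ T.ι := (T.exists_mem_source p).choose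

lemma mem_ix [T2Space X] (p : T.Cp) : p ∈ (T.ch (T.ix p)).source :=
  (T.exists_mem_source p).choose_spec

instance [T2Space X] : ChartedSpace (Cn 1) T.Cp where
  atlas := range T.ch
  chartAt p := T.ch (T.ix p)
  mem_chart_source p := T.mem_ix p
  chart_mem_atlas _ := mem_range_self _


instance [T2Space X] (k : ℕ∞ω) : IsManifold 𝓘(ℂ, Cn 1) k T.Cp := by
  refine isManifold_of_contDiffOn _ _ _ ?_
  rintro _ _ ⟨a, rfl⟩ ⟨b, rfl⟩
  have h1 : DifferentiableOn ℂ (fun z => T.ch0 b ((T.ch0 a).symm z))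
      {z | z ∈ (T.ch0 a).target ∧ (T.ch0 a).symm z ∈ (T.ch0 b).source} := T.holo_ch0 a b
  have hopen : IsOpen {z | z ∈ (T.ch0 a).target ∧ (T.ch0 a).symm z ∈ (T.ch0 b).source} :=
    (T.ch0 a).isOpen_inter_preimage_symm (T.ch0 b).open_source
  have h2 : ContDiffOn ℂ k (fun z => T.ch0 b ((T.ch0 a).symm z))
      {z | z ∈ (T.ch0 a).target ∧ (T.ch0 a).symm z ∈ (T.ch0 b).source} :=
    h1.contDiffOn hopen
  have h3 : ContDiffOn ℂ k (fun v : Cn 1 => L1 (T.ch0 b ((T.ch0 a).symm (L1.symm v))))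
      (L1.symm ⁻¹' {z | z ∈ (T.ch0 a).target ∧ (T.ch0 a).symm z ∈ (T.ch0 b).source}) := by
    refine L1.contDiff.comp_contDiffOn ?_
    exact h2.comp L1.symm.contDiff.contDiffOn (fun v hv => hv)
  refine h3.mono ?_
  rintro v ⟨hv, -⟩
  have hv' : v ∈ ((T.ch a).symm ≫ₕ T.ch b).source := hv
  rw [OpenPartialHomeomorph.trans_source] at hv'
  exact ⟨hv'.1, hv'.2⟩

/-- `A` is an atlas of the complex manifold `Cp T` -/
structure Compat [T2Space X] (A : Atl 1 T.Cp) : Prop where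
  out : ∀ a j, DifferentiableOn ℂ (fun z => A.e j ((T.ch0 a).symm z))
    {z | z ∈ (T.ch0 a).target ∧ (T.ch0 a).symm z ∈ (A.e j).source}
  inn : ∀ a j, DifferentiableOn ℂ (fun v => T.ch0 a ((A.e j).symm v))
    {v | v ∈ (A.e j).target ∧ (A.e j).symm v ∈ (T.ch0 a).source}

lemma compat_goodAtl [T2Space X] (G : Crest.Agent.R275.GC293.GoodCover (Cn 1) T.Cp) :
    T.Compat (goodAtl G) := by
  have key : ∀ j : Fin G.n, ∃ b, T.ch b = G.e j := fun j => G.e_mem j
  constructor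
  · suffices H : ∀ a (j : Fin G.n), DifferentiableOn ℂ (fun z => G.ch j ((T.ch0 a).symm z))
        {z | z ∈ (T.ch0 a).target ∧ (T.ch0 a).symm z ∈ (G.ch j).source} from fun a j => H a j
    intro a j
    obtain ⟨b, hb⟩ := key j
    have hsub : ∀ p ∈ (G.ch j).source, p ∈ (T.ch0 b).source := by
      intro p hp
      rw [G.ch_source] at hp
      have h1 : p ∈ (G.e j).source := cball_subset_source _ _ _ hp
      rwa [← hb] at h1
    have h2 : DifferentiableOn ℂ (fun z => aff (G.e j (G.c j)) G.r G.r_pos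
        (L1 (T.ch0 b ((T.ch0 a).symm z))))
        {z | z ∈ (T.ch0 a).target ∧ (T.ch0 a).symm z ∈ (T.ch0 b).source} :=
      (differentiable_aff _ _ _).comp_differentiableOn
        (L1.differentiable.comp_differentiableOn (T.holo_ch0 a b))
    refine (h2.mono fun z hz => ⟨hz.1, hsub _ hz.2⟩).congr fun z _ => ?_
    have h3 : G.e j ((T.ch0 a).symm z) = L1 (T.ch0 b ((T.ch0 a).symm z)) := by
      rw [← hb]; rfl
    rw [G.ch_apply, h3]
  · suffices H : ∀ a (j : Fin G.n), DifferentiableOn ℂ (fun v => T.ch0 a ((G.ch j).symm v))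
        {v | v ∈ (G.ch j).target ∧ (G.ch j).symm v ∈ (T.ch0 a).source} from fun a j => H a j
    intro a j
    obtain ⟨b, hb⟩ := key j
    have h2 : DifferentiableOn ℂ (fun v => T.ch0 a ((T.ch0 b).symm
        (L1.symm ((aff (G.e j (G.c j)) G.r G.r_pos).symm v))))
        ((fun v => L1.symm ((aff (G.e j (G.c j)) G.r G.r_pos).symm v)) ⁻¹'
          {z | z ∈ (T.ch0 b).target ∧ (T.ch0 b).symm z ∈ (T.ch0 a).source}) :=
      (T.holo_ch0 b a).comp (L1.symm.differentiable.comp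
        (differentiable_aff_symm _ _ _)).differentiableOn fun v hv => hv
    have hsymm : ∀ v, (G.ch j).symm v = (T.ch0 b).symm
        (L1.symm ((aff (G.e j (G.c j)) G.r G.r_pos).symm v)) := by
      intro v
      rw [G.ch_symm_apply, ← hb]
      rfl
    refine (h2.mono fun v hv => ⟨?_, ?_⟩).congr fun v _ => ?_
    · have h3 : v ∈ (G.ch j).target := hv.1
      rw [G.ch_target] at h3
      have h4 := G.ball_sub_target j h3
      have h5 : (G.e j).target = (T.ch b).target := by rw [hb]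
      rw [h5] at h4
      exact h4
    · have h3 : (G.ch j).symm v ∈ (T.ch0 a).source := hv.2
      rwa [hsymm] at h3
    · rw [hsymm]

/-- **the compactification has a finite good atlas**, subordinate to any given open cover -/
theorem exists_atl [T2Space X] {κ : Type*} (O : κ → Set T.Cp) (hO : ∀ k, IsOpen (O k))
    (hOc : ∀ x, ∃ k, x ∈ O k) : ∃ A : Atl 1 T.Cp, GoodA A ∧ Nonempty (Part A) ∧ Finite A.ι ∧
      T.Compat A ∧ ∀ i, ∃ k, (A.e i).source ⊆ O k := by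
  obtain ⟨G, h1, h2, h3, h4⟩ := exists_goodAtl (m := 1) (M := T.Cp) O hO hOc
  exact ⟨goodAtl G, h1, h2, h3, T.compat_goodAtl G, h4⟩

end Srf

end Crest.Agent.R257.RS_176
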