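import Crest.Agent.R257.RSA5_844
import Crest.Agent.R257.RSE_176
import Crest.Agent.R257.RsnD_843
import Crest.Agent.R257.Cpt2_419

-- ▼ part R257/RSA6_844
section

/-!
# R257 (S0395), part C, task RS-AN (helper844): compact Riemann surfaces, file 6

Divisors of degree `0`.
* `Ld A D f`    : `f` is smooth and zero-free off the support of `D`, `f = τ_p^(D p) * (unit)` near `p`
* `exists_ld`   : `∑ D = 0 ⟹ ∃ f, Ld A D f`
* `exists_mero` : (A4)
-/

set_option autoImplicit false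
set_option linter.unusedSectionVars false

open Set Filter Topology Complex MeasureTheory
open scoped ContDiff Matrix ComplexConjugate ComplexOrder

namespace Crest.Agent.R257.RSA_844

open Crest.Agent.R273 Crest.Agent.R275 Crest.Agent.R275.Geo Crest.Agent.R275.Core144
open Crest.Agent.R275.EDR890 Crest.Agent.R275.OmT75
open Crest.Agent.R273.Map_835
open Crest.Agent.R257.GBLcut_844
open Crest.Agent.R275.Dg199 (SmN smN_iff sm_iff ev_symm ev_chart smN_const smAt_of_smN)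

noncomputable section

variable {M : Type} [TopologicalSpace M] {A : Atl 1 M}

/-! ### punctured neighbourhoods -/

theorem neBot_ne (A : Atl 1 M) (x : M) : (𝓝[≠] x).NeBot := by
  obtain ⟨i, hi⟩ := A.cover x
  rw [neBot_iff]
  intro hb
  have h1 : ∀ᶠ y in 𝓝 x, y = x := by
    have h2 : ∀ᶠ y in 𝓝[≠] x, False := by rw [hb]; exact Filter.eventually_bot
    rw [eventually_nhdsWithin_iff] at h2
    filter_upwards [h2] with y hy
    by_contra hne
    exact hy hne
  have h3 : ∀ᶠ z in 𝓝 (A.e i x), z = A.e i x := by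
    filter_upwards [ev_symm hi h1, (A.e i).open_target.mem_nhds ((A.e i).map_source hi)]
      with z h4 h5
    rw [← (A.e i).right_inv h5, h4]
  have h6 : ∀ᶠ z in 𝓝[≠] (A.e i x), False := by
    rw [eventually_nhdsWithin_iff]
    filter_upwards [h3] with z hz hz'
    exact hz' hz
  have h7 : (𝓝[≠] (A.e i x)).NeBot := inferInstance
  exact h7.ne (Filter.eventually_false_iff_eq_bot.1 h6)

theorem eq_punct (A : Atl 1 M) {f g : M → ℂ} {x : M} (hf : ContinuousAt f x)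
    (hg : ContinuousAt g x) (h : ∀ᶠ y in 𝓝 x, y ≠ x → f y = g y) : f =ᶠ[𝓝 x] g := by
  have := neBot_ne A x
  have h1 : f =ᶠ[𝓝[≠] x] g := by
    rw [Filter.EventuallyEq, eventually_nhdsWithin_iff]
    exact h
  have h2 : f x = g x := by
    have a1 := (hf.tendsto.mono_left (nhdsWithin_le_nhds (s := {x}ᶜ)))
    have a2 := (hg.tendsto.mono_left (nhdsWithin_le_nhds (s := {x}ᶜ)))
    exact tendsto_nhds_unique_of_eventuallyEq a1 a2 h1
  filter_upwards [h] with y hy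
  by_cases hyx : y = x
  · rw [hyx, h2]
  · exact hy hyx

/-! ### coordinates -/

theorem Crd.hol {p : M} {τ : M → ℂ} (H : Crd A p τ) : HolN A τ p := fun _ hi => (H.ana hi).1

theorem HolN.continuousAt {f : M → ℂ} {x : M} (h : HolN A f x) : ContinuousAt f x :=
  h.smN.continuousAt

theorem Crd.ne {p : M} {τ : M → ℂ} (H : Crd A p τ) : ∀ᶠ x in 𝓝 p, x ≠ p → τ x ≠ 0 := by
  obtain ⟨j, hj⟩ := A.cover p
  obtain ⟨U, hU, h0, hf⟩ := H.fac hj
  filter_upwards [ev_chart hj (hU.continuousAt.eventually_ne h0),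
    (A.e j).open_source.mem_nhds hj] with x h1 h2 h3
  have h4 := hf (A.e j x)
  rw [(A.e j).left_inv h2] at h4
  rw [h4]
  refine mul_ne_zero (fun h5 => ?_) h1
  have h6 : A.e j x = A.e j p := by
    rw [eq_smul_e (A.e j x), eq_smul_e (A.e j p), sub_eq_zero.1 h5]
  exact h3 ((A.e j).injOn h2 hj h6)

theorem Crd.cmp {p : M} {τ τ' : M → ℂ} (H : Crd A p τ) (H' : Crd A p τ') :
    ∃ v : M → ℂ, HolN A v p ∧ v p ≠ 0 ∧ ∀ᶠ x in 𝓝 p, τ x = τ' x * v x := by
  obtain ⟨j, hj⟩ := A.cover p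
  obtain ⟨U, hU, h0, hf⟩ := H.fac hj
  obtain ⟨U', hU', h0', hf'⟩ := H'.fac hj
  refine ⟨fun x => U (A.e j x) / U' (A.e j x), ?_, div_ne_zero h0 h0', ?_⟩
  · refine holN_of hj ?_
    refine (hU.div hU' h0').congr ?_
    filter_upwards [(A.e j).open_target.mem_nhds ((A.e j).map_source hj)] with z hz
    rw [(A.e j).right_inv hz]
    rfl
  · filter_upwards [ev_chart hj (hU'.continuousAt.eventually_ne h0'),
      (A.e j).open_source.mem_nhds hj] with x h1 h2
    have h3 := hf (A.e j x)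
    have h4 := hf' (A.e j x)
    rw [(A.e j).left_inv h2] at h3 h4
    rw [h3, h4]
    field_simp

theorem Crd.map {p : M} {g g' : M → M} (hg : HolMap A A g) (hg' : HolMap A A g')
    (hgg : ∀ x, g' (g x) = x) {τ : M → ℂ} (H : Crd A (g p) τ) : Crd A p (fun x => τ (g x)) where
  zero := H.zero
  ex := by
    obtain ⟨i, hi⟩ := A.cover p
    obtain ⟨j, hj⟩ := A.cover (g p)
    obtain ⟨h1, h2⟩ := H.ana hj
    have hv := rd_val (p := g) (j := j) hi
    have hr := hg.analyticAt (mem_dm hi hj)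
    rw [← hv] at h1
    refine ⟨i, hi, (AnalyticAt.comp h1 hr).congr (read_map hg τ hi hj).symm, ?_⟩
    rw [(read_map hg τ hi hj).fderiv_eq, fderiv_comp _ h1.differentiableAt hr.differentiableAt, hv,
      ContinuousLinearMap.comp_apply,
      eq_smul_e (fderiv ℂ (Map_835.rd A A g i j) (A.e i p) (EuclideanSpace.single 0 1)),
      map_smul, smul_eq_mul]
    refine mul_ne_zero ?_ h2
    change j1 A g i j p ≠ 0
    intro h0
    have h3 := j1_comp hg' hg hi hj (l := i) (by rw [hgg]; exact hi)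
    have e : (fun y => g' (g y)) = fun y => y := funext hgg
    rw [e, j1_self hi, h0, zero_mul] at h3
    exact one_ne_zero h3

/-- the coordinate of the chosen chart -/
def ct (A : Atl 1 M) (p x : M) : ℂ := (A.e (ch A p) x) 0 - (A.e (ch A p) p) 0

theorem crd_ct (A : Atl 1 M) (p : M) : Crd A p (ct A p) := crd_chart (mem_ch A p)

theorem ev_ne {S : Finset M} [T2Space M] (p : M) : ∀ᶠ x in 𝓝 p, x ≠ p → x ∉ S := by
  classical
  have h1 : ∀ᶠ x in 𝓝 p, ∀ t ∈ S.erase p, x ≠ t := by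
    rw [eventually_all_finset]
    intro t ht
    exact isOpen_compl_singleton.mem_nhds (by
      rw [mem_compl_singleton_iff]
      rintro rfl
      exact (Finset.notMem_erase _ _) ht)
  filter_upwards [h1] with x hx hxp hxS
  exact hx x (Finset.mem_erase.2 ⟨hxp, hxS⟩) rfl

/-! ### smooth functions with a divisor -/

/-- `f = ct_p ^ D * u` near `p`, `u` smooth, `u p ≠ 0` -/
structure Rp (A : Atl 1 M) (D : ℤ) (f : M → ℂ) (p : M) (u : M → ℂ) : Prop where
  sm : ∀ᶠ x in 𝓝 p, SmN A u x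
  ne : u p ≠ 0
  eq : ∀ᶠ x in 𝓝 p, x ≠ p → f x = ct A p x ^ D * u x

/-- `f` is a smooth function with the divisor `D` -/
def Ld (A : Atl 1 M) (D : M → ℤ) (f : M → ℂ) : Prop := ∀ p, ∃ u, Rp A (D p) f p u

theorem Rp.cont {D : ℤ} {f : M → ℂ} {p : M} {u : M → ℂ} (h : Rp A D f p u) :
    ContinuousAt u p := h.sm.self_of_nhds.continuousAt

theorem Rp.evne {D : ℤ} {f : M → ℂ} {p : M} {u : M → ℂ} (h : Rp A D f p u) :
    ∀ᶠ x in 𝓝 p, u x ≠ 0 := h.cont.eventually_ne h.ne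

theorem SmNinv {u : M → ℂ} {x : M} (h : SmN A u x) (h0 : u x ≠ 0) :
    SmN A (fun y => (u y)⁻¹) x := Crest.Agent.R275.Dg199.SmN.inv h h0

/-- from an arbitrary coordinate -/
theorem rp_of {D : ℤ} {f : M → ℂ} {p : M} {u τ : M → ℂ} (hτ : Crd A p τ)
    (sm : ∀ᶠ x in 𝓝 p, SmN A u x) (ne : u p ≠ 0)
    (eq : ∀ᶠ x in 𝓝 p, x ≠ p → f x = τ x ^ D * u x) : ∃ u', Rp A D f p u' := by
  obtain ⟨v, hv, hv0, hve⟩ := hτ.cmp (crd_ct A p)
  refine ⟨fun x => v x ^ D * u x, ?_, mul_ne_zero (zpow_ne_zero _ hv0) ne, ?_⟩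
  · filter_upwards [sm, hv.eventually, hv.continuousAt.eventually_ne hv0] with x h1 h2 h3
    exact (h2.zpow h3 D).smN.mul h1
  · filter_upwards [eq, hve] with x h1 h2 h3
    rw [h1 h3, h2, mul_zpow, mul_assoc]


theorem Rp.mul {D D' : ℤ} {f f' : M → ℂ} {p : M} {u u' : M → ℂ} (h : Rp A D f p u)
    (h' : Rp A D' f' p u') : Rp A (D + D') (fun x => f x * f' x) p (fun x => u x * u' x) where
  sm := by
    filter_upwards [h.sm, h'.sm] with x h1 h2 using h1.mul h2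
  ne := mul_ne_zero h.ne h'.ne
  eq := by
    filter_upwards [h.eq, h'.eq, (crd_ct A p).ne] with x h1 h2 h3 h4
    rw [h1 h4, h2 h4, zpow_add₀ (h3 h4)]
    ring

theorem Rp.inv {D : ℤ} {f : M → ℂ} {p : M} {u : M → ℂ} (h : Rp A D f p u) :
    Rp A (-D) (fun x => (f x)⁻¹) p (fun x => (u x)⁻¹) where
  sm := by
    filter_upwards [h.sm, h.evne] with x h1 h2 using SmNinv h1 h2
  ne := inv_ne_zero h.ne
  eq := by
    filter_upwards [h.eq] with x h1 h4
    rw [h1 h4, mul_inv, zpow_neg]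

theorem rp_one (p : M) : Rp A 0 (fun _ => 1) p (fun _ => 1) where
  sm := Eventually.of_forall fun x => smN_const 1 x
  ne := one_ne_zero
  eq := Eventually.of_forall fun x _ => by simp

theorem Ld.mul {D D' : M → ℤ} {f f' : M → ℂ} (h : Ld A D f) (h' : Ld A D' f') :
    Ld A (fun p => D p + D' p) (fun x => f x * f' x) := fun p => by
  obtain ⟨u, hu⟩ := h p
  obtain ⟨u', hu'⟩ := h' p
  exact ⟨_, hu.mul hu'⟩

theorem Ld.inv {D : M → ℤ} {f : M → ℂ} (h : Ld A D f) :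
    Ld A (fun p => -D p) (fun x => (f x)⁻¹) := fun p => by
  obtain ⟨u, hu⟩ := h p
  exact ⟨_, hu.inv⟩

theorem ld_one : Ld A (fun _ => 0) (fun _ => 1) := fun p => ⟨_, rp_one p⟩

theorem Ld.congrD {D D' : M → ℤ} {f : M → ℂ} (h : Ld A D f) (e : ∀ p, D p = D' p) : Ld A D' f :=
  fun p => by rw [← e p]; exact h p

theorem Ld.pow {D : M → ℤ} {f : M → ℂ} (h : Ld A D f) (m : ℕ) :
    Ld A (fun p => m * D p) (fun x => f x ^ m) := by
  induction m with
  | zero => simpa using (ld_one (A := A))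
  | succ m ih =>
    have h1 := (ih.mul h).congrD (D' := fun p => ((m + 1 : ℕ) : ℤ) * D p) fun p => by
      push_cast
      ring
    simpa [pow_succ] using h1

theorem Ld.zpow {D : M → ℤ} {f : M → ℂ} (h : Ld A D f) (m : ℤ) :
    Ld A (fun p => m * D p) (fun x => f x ^ m) := by
  cases m with
  | ofNat m => simpa using h.pow m
  | negSucc m =>
    have h1 := (h.pow (m + 1)).inv.congrD (D' := fun p => Int.negSucc m * D p) fun p => by
      rw [Int.negSucc_eq]
      push_cast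
      ring
    simpa [zpow_negSucc] using h1

theorem ld_prod {σ : Type*} (s : Finset σ) {D : σ → M → ℤ} {f : σ → M → ℂ}
    (h : ∀ t ∈ s, Ld A (D t) (f t)) : Ld A (fun p => ∑ t ∈ s, D t p) (fun x => ∏ t ∈ s, f t x) := by
  classical
  induction s using Finset.induction_on with
  | empty => simpa using (ld_one (A := A))
  | insert a s ha ih =>
    have h1 := (h a (Finset.mem_insert_self a s)).mul
      (ih fun t ht => h t (Finset.mem_insert_of_mem ht))
    refine fun p => ?_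
    obtain ⟨u, hu⟩ := h1 p
    refine ⟨u, ?_⟩
    simpa [Finset.sum_insert ha, Finset.prod_insert ha] using hu

/-! ### two points of a disc -/

/-- `p - q` -/
def dd (p q : M) : M → ℤ := by
  classical
  exact fun x => (if x = p then 1 else 0) - (if x = q then 1 else 0)

theorem dd_self (p x : M) : dd p p x = 0 := by
  unfold dd
  simp

/-- `p - q` is the divisor of a smooth function -/
def Rl (A : Atl 1 M) (p q : M) : Prop := ∃ f, Ld A (dd p q) f

theorem Rl.refl (p : M) : Rl A p p := ⟨_, ld_one.congrD fun x => (dd_self p x).symm⟩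

theorem Rl.symm {p q : M} (h : Rl A p q) : Rl A q p := by
  obtain ⟨f, hf⟩ := h
  exact ⟨_, hf.inv.congrD fun x => by unfold dd; ring⟩

theorem Rl.trans {p q r : M} (h : Rl A p q) (h' : Rl A q r) : Rl A p r := by
  obtain ⟨f, hf⟩ := h
  obtain ⟨f', hf'⟩ := h'
  exact ⟨_, (hf.mul hf').congrD fun x => by unfold dd; ring⟩

/-- the ratio has positive real part -/
theorem slit_ratio {a b c z : ℂ} {r : ℝ} (ha : ‖a - c‖ < r / 4) (hb : ‖b - c‖ < r / 4)
    (hz : r ≤ ‖z - c‖) : (z - a) / (z - b) ∈ slitPlane := by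
  have hr : 0 < r := by
    have := norm_nonneg (a - c)
    linarith
  have h1 : 3 / 4 * r < ‖z - b‖ := by
    have h2 : z - c = (z - b) + (b - c) := by ring
    have h3 := norm_add_le (z - b) (b - c)
    rw [← h2] at h3
    linarith
  have hne : z - b ≠ 0 := by
    intro h
    rw [h, norm_zero] at h1
    linarith
  have h2 : ‖(z - a) / (z - b) - 1‖ < 1 := by
    have e : (z - a) / (z - b) - 1 = ((b - c) - (a - c)) / (z - b) := by
      field_simp
      ring
    rw [e, norm_div, div_lt_one (by linarith)]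
    have h3 := norm_sub_le (b - c) (a - c)
    linarith
  left
  have h3 : |((z - a) / (z - b) - 1).re| < 1 := (abs_re_le_norm _).trans_lt h2
  rw [sub_re, one_re] at h3
  linarith [(abs_lt.1 h3).1]

variable [T2Space M]

/-- the function with the divisor `p - q` in a disc -/
def fpq (A : Atl 1 M) (o : M) (j : A.ι) (r : ℝ) (a b : ℂ) (x : M) : ℂ := by
  classical
  exact if x ∈ (A.e j).source then Complex.exp ((kap (rho (A.e j o) (A.e j x) / r ^ 2) : ℝ) *
    Complex.log (((A.e j x) 0 - a) / ((A.e j x) 0 - b))) else 1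

theorem fpq_src {o : M} {j : A.ι} {r : ℝ} {a b : ℂ} {x : M} (hx : x ∈ (A.e j).source) :
    fpq A o j r a b x = Complex.exp ((kap (rho (A.e j o) (A.e j x) / r ^ 2) : ℝ) *
      Complex.log (((A.e j x) 0 - a) / ((A.e j x) 0 - b))) := by
  unfold fpq
  rw [if_pos hx]

theorem fpq_near {o : M} {j : A.ι} {r : ℝ} (D : Disc A o j r) {a b : ℂ} {x : M}
    (hx : x ∈ (A.e j).source) (h : rho (A.e j o) (A.e j x) ≤ r ^ 2) (ha : (A.e j x) 0 ≠ a)
    (hb : (A.e j x) 0 ≠ b) :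
    fpq A o j r a b x = ((A.e j x) 0 - a) / ((A.e j x) 0 - b) := by
  have hr := D.hr
  rw [fpq_src hx, kap_one ((div_le_one (by positivity)).2 h), ofReal_one, one_mul,
    Complex.exp_log (div_ne_zero (sub_ne_zero.2 ha) (sub_ne_zero.2 hb))]

theorem fpq_far {o : M} {j : A.ι} {r : ℝ} (D : Disc A o j r) {a b : ℂ} {x : M}
    (hx : x ∉ dk A o j r) : fpq A o j r a b x = 1 := by
  have hr := D.hr
  by_cases hs : x ∈ (A.e j).source
  · have h1 : (2 * r) ^ 2 < rho (A.e j o) (A.e j x) := by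
      by_contra hn
      exact hx (D.mem hs (not_lt.1 hn))
    rw [fpq_src hs, kap_zero, ofReal_zero, zero_mul, Complex.exp_zero]
    rw [le_div_iff₀ (by positivity)]
    nlinarith
  · unfold fpq
    rw [if_neg hs]

/-- the coordinate function minus a constant is holomorphic on the chart -/
theorem holN_co {j : A.ι} (a : ℂ) {x : M} (hx : x ∈ (A.e j).source) :
    HolN A (fun y => (A.e j y) 0 - a) x := by
  refine holN_of hx ?_
  have h1 : AnalyticAt ℂ (fun z : Cn 1 => z 0 - a) (A.e j x) :=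
    ((EuclideanSpace.proj 0 : Cn 1 →L[ℂ] ℂ).analyticAt _).sub analyticAt_const
  refine h1.congr ?_
  filter_upwards [(A.e j).open_target.mem_nhds ((A.e j).map_source hx)] with z hz
  rw [(A.e j).right_inv hz]

theorem co_ne {j : A.ι} {x y : M} (hx : x ∈ (A.e j).source) (hy : y ∈ (A.e j).source)
    (h : x ≠ y) : (A.e j x) 0 ≠ (A.e j y) 0 := by
  intro h5
  have h6 : A.e j x = A.e j y := by
    rw [eq_smul_e (A.e j x), eq_smul_e (A.e j y), h5]
  exact h ((A.e j).injOn hx hy h6)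

theorem rl_disc {o : M} {j : A.ι} {r : ℝ} (D : Disc A o j r) {p q : M}
    (hp : p ∈ (A.e j).source) (hp' : rho (A.e j o) (A.e j p) < (r / 4) ^ 2)
    (hq : q ∈ (A.e j).source) (hq' : rho (A.e j o) (A.e j q) < (r / 4) ^ 2) : Rl A p q := by
  classical
  have hr := D.hr
  by_cases hpq : p = q
  · subst hpq
    exact Rl.refl p
  set a : ℂ := (A.e j p) 0 with ha
  set b : ℂ := (A.e j q) 0 with hb
  set c : ℂ := (A.e j o) 0 with hc
  have hac : ‖a - c‖ < r / 4 := lt_of_pow_lt_pow_left₀ 2 (by positivity) hp'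
  have hbc : ‖b - c‖ < r / 4 := lt_of_pow_lt_pow_left₀ 2 (by positivity) hq'
  have hsm4 : (r / 4) ^ 2 < r ^ 2 := by nlinarith [sq_nonneg r]
  set f := fpq A o j r a b with hf
  -- the formula near the points of the inner disc
  have hin : ∀ x ∈ (A.e j).source, rho (A.e j o) (A.e j x) < r ^ 2 →
      ∀ᶠ y in 𝓝 x, y ≠ p → y ≠ q → f y = ((A.e j y) 0 - a) * ((A.e j y) 0 - b)⁻¹ := by
    intro x hx h
    have h1 : ∀ᶠ y in 𝓝 x, rho (A.e j o) (A.e j y) < r ^ 2 :=
      ((continuous_rho (A.e j o)).continuousAt.comp ((A.e j).continuousAt hx)).eventually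
        (gt_mem_nhds h)
    filter_upwards [h1, (A.e j).open_source.mem_nhds hx] with y h2 h3 h4 h5
    rw [hf, fpq_near D h3 h2.le (co_ne h3 hp h4) (co_ne h3 hq h5), div_eq_mul_inv]
  refine ⟨f, fun x => ?_⟩
  by_cases hxp : x = p
  · subst hxp
    have e : dd x q x = 1 := by
      unfold dd
      rw [if_pos rfl, if_neg hpq]
      norm_num
    rw [e]
    have hba : a - b ≠ 0 := sub_ne_zero.2 (co_ne hp hq hpq)
    refine rp_of (τ := fun y => (A.e j y) 0 - (A.e j x) 0)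
      (u := fun y => ((A.e j y) 0 - b)⁻¹) (crd_chart hp) ?_ (inv_ne_zero hba) ?_
    · have h1 : HolN A (fun y => ((A.e j y) 0 - b)⁻¹) x := (holN_co b hp).inv hba
      exact h1.eventually.mono fun y hy => hy.smN
    · filter_upwards [hin x hp (hp'.trans hsm4), isOpen_ne.mem_nhds hpq] with y h1 h2 h3
      rw [h1 h3 h2, zpow_one]
  by_cases hxq : x = q
  · subst hxq
    have e : dd p x x = -1 := by
      unfold dd
      rw [if_neg hxp, if_pos rfl]
      norm_num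
    rw [e]
    have hba : b - a ≠ 0 := sub_ne_zero.2 (co_ne hq hp hxp)
    refine rp_of (τ := fun y => (A.e j y) 0 - (A.e j x) 0)
      (u := fun y => (A.e j y) 0 - a) (crd_chart hq) ?_ hba ?_
    · exact (holN_co a hq).eventually.mono fun y hy => hy.smN
    · filter_upwards [hin x hq (hq'.trans hsm4), isOpen_ne.mem_nhds hxp] with y h1 h2 h3
      rw [h1 h2 h3, zpow_neg_one, mul_comm]
  · have e : dd p q x = 0 := by
      unfold dd
      rw [if_neg hxp, if_neg hxq]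
      norm_num
    rw [e]
    have hne : f x ≠ 0 := by
      rw [hf]
      unfold fpq
      split_ifs
      · exact Complex.exp_ne_zero _
      · exact one_ne_zero
    refine ⟨f, ?_, hne, Eventually.of_forall fun y _ => by simp⟩
    -- smoothness off `p`, `q`
    have key : ∀ y, y ≠ p → y ≠ q → SmN A f y := by
      intro y hyp hyq
      by_cases hy : y ∈ (A.e j).source
      · by_cases hyr : rho (A.e j o) (A.e j y) < r ^ 2
        · have h1 : HolN A (fun y => ((A.e j y) 0 - a) * ((A.e j y) 0 - b)⁻¹) y :=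
            (holN_co a hy).mul ((holN_co b hy).inv (sub_ne_zero.2 (co_ne hy hq hyq)))
          refine h1.smN.congr ?_
          filter_upwards [hin y hy hyr, isOpen_ne.mem_nhds hyp, isOpen_ne.mem_nhds hyq]
            with z h2 h3 h4 using h2 h3 h4
        · rw [not_lt] at hyr
          have hz : r ≤ ‖(A.e j y) 0 - c‖ := by
            by_contra hn
            rw [not_le] at hn
            have : rho (A.e j o) (A.e j y) < r ^ 2 := by
              unfold rho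
              have h0 := norm_nonneg ((A.e j y) 0 - c)
              nlinarith
            linarith
          have hsl := slit_ratio hac hbc hz
          have hbne : (A.e j y) 0 - b ≠ 0 := sub_ne_zero.2 (co_ne hy hq hyq)
          have hana : AnalyticAt ℂ (fun z : Cn 1 => Complex.log ((z 0 - a) / (z 0 - b)))
              (A.e j y) := by
            have g1 : AnalyticAt ℂ (fun z : Cn 1 => z 0 - a) (A.e j y) :=
              ((EuclideanSpace.proj 0 : Cn 1 →L[ℂ] ℂ).analyticAt _).sub analyticAt_const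
            have g2 : AnalyticAt ℂ (fun z : Cn 1 => z 0 - b) (A.e j y) :=
              ((EuclideanSpace.proj 0 : Cn 1 →L[ℂ] ℂ).analyticAt _).sub analyticAt_const
            exact (g1.div g2 hbne).clog hsl
          rw [smN_iff hy]
          have h1 : ContDiffAt ℝ ∞ (fun z : Cn 1 => Complex.log ((z 0 - a) / (z 0 - b)))
              (A.e j y) := (hana.contDiffAt (n := ∞)).restrict_scalars ℝ
          have h2 : ContDiffAt ℝ ∞ (fun z : Cn 1 => ((kap (rho (A.e j o) z / r ^ 2) : ℝ) : ℂ))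
              (A.e j y) :=
            Complex.ofRealCLM.contDiff.contDiffAt.comp _
              (kap_sm.contDiffAt.comp _ ((rho_sm _).contDiffAt.div_const _))
          have h3 := (Complex.contDiff_exp (𝕜 := ℝ) (n := ∞)).contDiffAt.comp (A.e j y) (h2.mul h1)
          refine h3.congr_of_eventuallyEq ?_
          filter_upwards [(A.e j).open_target.mem_nhds ((A.e j).map_source hy)] with z hz
          rw [hf, fpq_src ((A.e j).map_target hz), (A.e j).right_inv hz]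
          rfl
      · have h1 : y ∉ dk A o j r := fun h => hy (D.ksub h)
        refine (smN_const (A := A) (1 : ℂ) y).congr ?_
        filter_upwards [D.cpt.isClosed.isOpen_compl.mem_nhds h1] with z hz
        exact fpq_far D hz
    filter_upwards [isOpen_ne.mem_nhds hxp, isOpen_ne.mem_nhds hxq] with y h1 h2
    exact key y h1 h2

theorem rl_nhds (A : Atl 1 M) (o : M) : ∃ V ∈ 𝓝 o, ∀ p ∈ V, ∀ q ∈ V, Rl A p q := by
  obtain ⟨j, hj⟩ := A.cover o
  obtain ⟨r, hD, -⟩ := exists_disc (U := univ) hj univ_mem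
  have hr := hD.hr
  refine ⟨{x | x ∈ (A.e j).source ∧ rho (A.e j o) (A.e j x) < (r / 4) ^ 2}, ?_, ?_⟩
  · filter_upwards [ev_rho_lt hj (ε := (r / 4) ^ 2) (by positivity),
      (A.e j).open_source.mem_nhds hj] with x h1 h2 using ⟨h2, h1⟩
  · exact fun p hp q hq => rl_disc hD hp.1 hp.2 hq.1 hq.2

theorem rl_all [PreconnectedSpace M] (A : Atl 1 M) (p q : M) : Rl A p q := by
  have hcl : IsClopen {x | Rl A p x} := by
    constructor
    · rw [← isOpen_compl_iff, isOpen_iff_mem_nhds]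
      intro x hx
      obtain ⟨V, hV, h⟩ := rl_nhds A x
      filter_upwards [hV] with y hy hy'
      exact hx (Rl.trans hy' (h y hy x (mem_of_mem_nhds hV)))
    · rw [isOpen_iff_mem_nhds]
      intro x hx
      obtain ⟨V, hV, h⟩ := rl_nhds A x
      filter_upwards [hV] with y hy
      exact Rl.trans hx (h x (mem_of_mem_nhds hV) y hy)
  rcases isClopen_iff.1 hcl with h | h
  · have : p ∈ {x | Rl A p x} := Rl.refl p
    rw [h] at this
    exact absurd this (notMem_empty _)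
  · have : q ∈ {x | Rl A p x} := by rw [h]; exact mem_univ _
    exact this

/-- divisors of degree `0` are divisors of smooth functions -/
theorem exists_ld [PreconnectedSpace M] (A : Atl 1 M) (S : Finset M) (D : M → ℤ)
    (hD : ∀ p, p ∉ S → D p = 0) (h0 : ∑ p ∈ S, D p = 0) : ∃ f, Ld A D f := by
  classical
  rcases S.eq_empty_or_nonempty with hS | ⟨p₀, hp₀⟩
  · exact ⟨_, ld_one.congrD fun p => (hD p (by rw [hS]; exact Finset.notMem_empty p)).symm⟩
  · have h1 : ∀ p : M, ∃ f, Ld A (dd p p₀) f := fun p => rl_all A p p₀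
    choose f hf using h1
    refine ⟨_, (ld_prod S fun p _ => (hf p).zpow (D p)).congrD fun x => ?_⟩
    unfold dd
    simp only [mul_sub, Finset.sum_sub_distrib, mul_ite, mul_one, mul_zero]
    have e1 : (∑ p ∈ S, if x = p₀ then D p else 0) = 0 := by
      by_cases hx : x = p₀
      · simp [hx, h0]
      · simp [hx]
    have e2 : (∑ p ∈ S, if x = p then D p else 0) = D x := by
      rw [Finset.sum_ite_eq]
      split_ifs with hx
      · rfl
      · exact (hD x hx).symm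
    rw [e1, e2, sub_zero]

end

end Crest.Agent.R257.RSA_844
end

-- ▼ part R257/RSA7_844
section

/-!
# R257 (S0395), part C, task RS-AN (helper844): compact Riemann surfaces, file 7

* `exists_mero` : (A4) meromorphic functions with a given invariant divisor of degree `0`
-/

set_option autoImplicit false
set_option linter.unusedSectionVars false

open Set Filter Topology Complex MeasureTheory
open scoped ContDiff Matrix ComplexConjugate ComplexOrder

namespace Crest.Agent.R257.RSA_844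

open Crest.Agent.R273 Crest.Agent.R275 Crest.Agent.R275.Geo Crest.Agent.R275.Core144
open Crest.Agent.R275.EDR890 Crest.Agent.R275.OmT75
open Crest.Agent.R273.Map_835
open Crest.Agent.R275.Dg199 (SmN smN_iff sm_iff ev_symm ev_chart smN_const smAt_of_smN)

noncomputable section

variable {M : Type} [TopologicalSpace M] [T2Space M] {A : Atl 1 M}

/-! ### logarithmic derivatives -/

theorem smN_diff {u : M → ℂ} {x : M} (h : SmN A u x) {i : A.ι} (hi : x ∈ (A.e i).source) :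
    DifferentiableAt ℝ (fun z => u ((A.e i).symm z)) (A.e i x) :=
  ((smN_iff hi).1 h).differentiableAt (by simp)

theorem db_mulN {u v : M → ℂ} {x : M} (hu : SmN A u x) (hv : SmN A v x) {i : A.ι}
    (hi : x ∈ (A.e i).source) :
    A.db i 0 (fun y => u y * v y) x = A.db i 0 u x * v x + u x * A.db i 0 v x :=
  db_mul (smN_diff hu hi) (smN_diff hv hi) hi

/-- multiplication with a holomorphic function does not change the logarithmic derivative -/
theorem ldb_hol {u u' g : M → ℂ} {x : M} (hu' : SmN A u' x) (hg : HolN A g x)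
    (hg0 : g x ≠ 0) (h0 : u' x ≠ 0) (he : u =ᶠ[𝓝 x] fun y => g y * u' y) {i : A.ι}
    (hi : x ∈ (A.e i).source) : A.db i 0 u x / u x = A.db i 0 u' x / u' x := by
  rw [Atl.db_congr hi he, db_mulN hg.smN hu' hi, hg.db hi, he.self_of_nhds]
  simp only
  field_simp
  ring

/-- two representations of the same function at nearby points -/
theorem Rp.near {D : M → ℤ} {S : Finset M} (hD : ∀ p, p ∉ S → D p = 0) {f : M → ℂ} {p : M}
    {u : M → ℂ} (h : Rp A (D p) f p u) : ∀ᶠ x in 𝓝 p, ∀ v, Rp A (D x) f x v → x ≠ p →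
      v =ᶠ[𝓝 x] fun y => ct A p y ^ D p * u y := by
  filter_upwards [ev_ne (S := S) p, h.sm, h.eq.eventually_nhds, (crd_ct A p).hol.eventually,
    (crd_ct A p).ne] with x h1 h2 h3 h4 h5 v hv hxp
  have hDx : D x = 0 := hD x (h1 hxp)
  have hc : HolN A (fun y => ct A p y ^ D p) x := h4.zpow (h5 hxp) _
  refine eq_punct A hv.cont (hc.continuousAt.mul h2.continuousAt) ?_
  filter_upwards [hv.eq, h3, isOpen_ne.mem_nhds hxp] with y h6 h7 h8 h9
  have h10 := h6 h9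
  rw [hDx, zpow_zero, one_mul] at h10
  rw [← h10, h7 h8]

theorem Rp.uniq {D : ℤ} {f : M → ℂ} {p : M} {u v : M → ℂ} (h : Rp A D f p u)
    (h' : Rp A D f p v) : u =ᶠ[𝓝 p] v := by
  refine eq_punct A h.cont h'.cont ?_
  filter_upwards [h.eq, h'.eq, (crd_ct A p).ne] with x h1 h2 h3 h4
  have h5 := (h1 h4).symm.trans (h2 h4)
  exact mul_left_cancel₀ (zpow_ne_zero _ (h3 h4)) h5

section ld

variable {D : M → ℤ} {f : M → ℂ}

/-- the chosen local unit -/
def un (h : Ld A D f) (p : M) : M → ℂ := (h p).choose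

theorem un_rp (h : Ld A D f) (p : M) : Rp A (D p) f p (un h p) := (h p).choose_spec

/-- the form `∂̄f / f` -/
def lf (h : Ld A D f) (i : A.ι) (x : M) : ℂ := A.db i 0 (un h x) x / un h x x

theorem lf_near {S : Finset M} (hD : ∀ p, p ∉ S → D p = 0) (h : Ld A D f) (p : M) :
    ∀ᶠ x in 𝓝 p, ∀ i, x ∈ (A.e i).source →
      lf h i x = A.db i 0 (un h p) x / un h p x := by
  filter_upwards [(un_rp h p).near hD, (un_rp h p).sm, (un_rp h p).evne,
    (crd_ct A p).hol.eventually, (crd_ct A p).ne] with x h1 h2 h3 h4 h5 i hi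
  by_cases hxp : x = p
  · subst hxp
    rfl
  · exact ldb_hol h2 (h4.zpow (h5 hxp) _) (zpow_ne_zero _ (h5 hxp)) h3
      (h1 _ (un_rp h x) hxp) hi

theorem lf_F01 {S : Finset M} (hD : ∀ p, p ∉ S → D p = 0) (h : Ld A D f) : F01 A (lf h) where
  sm i := by
    intro z hz
    refine ContDiffAt.contDiffWithinAt ?_
    have hs := (A.e i).map_target hz
    have hrz := (A.e i).right_inv hz
    set p := (A.e i).symm z with hp
    have h1 := ev_symm hs (lf_near hD h p)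
    have h2 := ev_symm hs (un_rp h p).sm
    have h3 := (un_rp h p).sm.self_of_nhds
    have h4 : ContDiffAt ℝ ∞ (fun w => un h p ((A.e i).symm w)) (A.e i p) := (smN_iff hs).1 h3
    have h5 : ContDiffAt ℝ ∞ (fun w => A.db i 0 (un h p) ((A.e i).symm w)) (A.e i p) := by
      have h6 : ContDiffAt ℝ ∞ (dbj 0 fun w => un h p ((A.e i).symm w)) (A.e i p) :=
        contDiffAt_wd h4 (true, 0)
      refine h6.congr_of_eventuallyEq ?_
      filter_upwards [(A.e i).open_target.mem_nhds ((A.e i).map_source hs)] with w hw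
      unfold Atl.db
      rw [(A.e i).right_inv hw]
    have h7 : un h p ((A.e i).symm (A.e i p)) ≠ 0 := by
      rw [(A.e i).left_inv hs]
      exact (un_rp h p).ne
    have h8 := h5.mul (h4.inv h7)
    rw [hrz] at h8 h1
    refine h8.congr_of_eventuallyEq ?_
    filter_upwards [h1, (A.e i).open_target.mem_nhds hz] with w hw hwt
    rw [hw i ((A.e i).map_target hwt), div_eq_mul_inv]
    rfl
  tr i j x hx := by
    have h3 := (un_rp h x).sm.self_of_nhds
    have h4 := db_chain (A := A) (i := i) (j := j) (x := x) (f := un h x) (smN_diff h3 hx.2) hx 0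
    rw [Fin.sum_univ_one, smul_eq_mul] at h4
    unfold lf
    rw [h4]
    change conj (J1 A i j x) * _ / _ = _
    ring

/-- the composition with an automorphism -/
theorem Rp.map {g g' : M → M} (hg : HolMap A A g) (hg' : HolMap A A g')
    (hgg : ∀ x, g' (g x) = x) {k : ℤ} {F : M → ℂ} {p : M} {u : M → ℂ} (h : Rp A k F (g p) u) :
    ∃ v : M → ℂ, HolN A v p ∧ v p ≠ 0 ∧ Rp A k (fun x => F (g x)) p (fun x => v x ^ k * u (g x)) := by
  obtain ⟨v, hv, hv0, hve⟩ := (Crd.map hg hg' hgg (crd_ct A (g p))).cmp (crd_ct A p)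
  refine ⟨v, hv, hv0, ?_, mul_ne_zero (zpow_ne_zero _ hv0) h.ne, ?_⟩
  · filter_upwards [ev_map hg h.sm, hv.eventually, hv.continuousAt.eventually_ne hv0]
      with x h1 h2 h3
    exact (h2.zpow h3 k).smN.mul (smN_map hg h1)
  · filter_upwards [ev_map hg h.eq, hve] with x h1 h2 h3
    have h4 : g x ≠ g p := fun h5 => h3 (by rw [← hgg x, h5, hgg])
    rw [h1 h4, h2, mul_zpow, mul_assoc]

theorem Ld.map {g g' : M → M} (hg : HolMap A A g) (hg' : HolMap A A g')
    (hgg : ∀ x, g' (g x) = x) (h : Ld A D f) : Ld A (fun p => D (g p)) (fun x => f (g x)) := by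
  intro p
  obtain ⟨u, hu⟩ := h (g p)
  obtain ⟨v, -, -, hv⟩ := Rp.map hg hg' hgg hu
  exact ⟨_, hv⟩

end ld

section act

variable {Γ : Type} [Group Γ] [Fintype Γ] [MulAction Γ M]

theorem lf_inv {D : M → ℤ} {f : M → ℂ} (hΓ : HolAct A Γ) (h : Ld A D f)
    (hD : ∀ (γ : Γ) p, D (γ • p) = D p) (hf : ∀ (γ : Γ) x, f (γ • x) = f x) :
    InvA A Γ (lf h) := by
  intro γ i j x hi hj
  change lf h i x = conj (j1 A (fun y => γ • y) i j x) * lf h j (γ • x)
  have h1 := un_rp h (γ • x)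
  have hgg : ∀ y : M, γ⁻¹ • (γ • y) = y := fun y => inv_smul_smul γ y
  obtain ⟨v, hv, hv0, h2⟩ := Rp.map (g := fun y => γ • y) (g' := fun y => γ⁻¹ • y)
    (hΓ γ) (hΓ γ⁻¹) hgg h1
  rw [hD γ x] at h2
  have h3 : Rp A (D x) f x (fun y => v y ^ D x * un h (γ • x) (γ • y)) := by
    have e : (fun y => f (γ • y)) = f := funext fun y => hf γ y
    rw [e] at h2
    exact h2
  have h4 := (un_rp h x).uniq h3
  have h5 : SmN A (fun y => un h (γ • x) (γ • y)) x :=
    smN_map (hΓ γ) h1.sm.self_of_nhds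
  have h6 := ldb_hol h5 (hv.zpow hv0 _) (zpow_ne_zero _ hv0) h1.ne h4 hi
  unfold lf
  rw [h6, db_map (hΓ γ) hi hj (smN_diff h1.sm.self_of_nhds hj)]
  ring

/-- **(A4)** meromorphic functions with an invariant divisor of degree `0` -/
theorem exists_mero [CompactSpace M] [ConnectedSpace M] [Finite A.ι] (P : Part A)
    (hΓ : HolAct A Γ) (hno : NoH A Γ) (S : Finset M) (hS : ∀ (γ : Γ), ∀ p ∈ S, γ • p ∈ S)
    (D : M → ℤ) (hD : ∀ (γ : Γ) p, D (γ • p) = D p) (h0 : ∑ p ∈ S, D p = 0) :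
    ∃ f : M → ℂ, (∀ (γ : Γ), ∀ x, x ∉ S → f (γ • x) = f x) ∧
      (∀ x, x ∉ S → f x ≠ 0 ∧ HolN A f x) ∧
      ∀ p ∈ S, ∀ τ, Crd A p τ → ∃ u : M → ℂ, HolN A u p ∧ u p ≠ 0 ∧
        ∀ᶠ x in 𝓝 p, x ≠ p → f x = τ x ^ ((Fintype.card Γ : ℤ) * D p) * u x := by
  classical
  -- restrict the divisor to `S`
  set D₀ : M → ℤ := fun p => if p ∈ S then D p else 0 with hD₀
  have hSγ : ∀ (γ : Γ) p, γ • p ∈ S ↔ p ∈ S := fun γ p => by
    constructor
    · intro h
      have := hS γ⁻¹ _ h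
      rwa [inv_smul_smul] at this
    · exact hS γ p
  have hD₀γ : ∀ (γ : Γ) p, D₀ (γ • p) = D₀ p := fun γ p => by
    rw [hD₀]
    simp only [hSγ, hD]
  have h00 : ∑ p ∈ S, D₀ p = 0 := by
    rw [← h0]
    exact Finset.sum_congr rfl fun p hp => by rw [hD₀]; simp only [if_pos hp]
  obtain ⟨f₀, hf₀⟩ := exists_ld A S D₀ (fun p hp => by rw [hD₀]; simp only [if_neg hp]) h00
  -- the product over the group
  set E : M → ℤ := fun p => (Fintype.card Γ : ℤ) * D₀ p with hE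
  set f₁ : M → ℂ := fun x => ∏ γ : Γ, f₀ (γ • x) with hf₁
  have hES : ∀ p, p ∉ S → E p = 0 := fun p hp => by rw [hE, hD₀]; simp only [if_neg hp, mul_zero]
  have hLd : Ld A E f₁ := by
    have h1 := ld_prod (A := A) (Finset.univ : Finset Γ) (D := fun γ p => D₀ (γ • p))
      (f := fun γ x => f₀ (γ • x)) fun γ _ =>
        Ld.map (g := fun y => γ • y) (g' := fun y => γ⁻¹ • y) (hΓ γ) (hΓ γ⁻¹)
          (fun y => inv_smul_smul γ y) hf₀
    refine h1.congrD fun p => ?_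
    simp only [hD₀γ, Finset.sum_const, Finset.card_univ, hE, nsmul_eq_mul]
  have hEγ : ∀ (γ : Γ) p, E (γ • p) = E p := fun γ p => by rw [hE]; simp only [hD₀γ]
  have hf₁γ : ∀ (γ : Γ) x, f₁ (γ • x) = f₁ x := fun δ x => by
    rw [hf₁]
    refine Fintype.prod_equiv (Equiv.mulRight δ) _ _ fun γ => ?_
    rw [Equiv.coe_mulRight, mul_smul]
  obtain ⟨v, hv, hvγ, hve⟩ := dbar_inv P hΓ hno (lf_F01 hES hLd) (lf_inv hΓ hLd hEγ hf₁γ)
  -- the local units
  set U : M → M → ℂ := fun p x => un hLd p x * Complex.exp (-v x) with hU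
  have hexp : ∀ x, SmN A (fun y => Complex.exp (-v y)) x := fun x => by
    obtain ⟨i, hi⟩ := A.cover x
    rw [smN_iff hi]
    exact (Complex.contDiff_exp (𝕜 := ℝ) (n := ∞)).contDiffAt.comp _
      ((smN_iff hi).1 (sm_iff.1 hv x)).neg
  have hUsm : ∀ p, ∀ᶠ x in 𝓝 p, SmN A (U p) x := fun p => by
    filter_upwards [(un_rp hLd p).sm] with x h1 using h1.mul (hexp x)
  have hdbexp : ∀ x i, x ∈ (A.e i).source → A.db i 0 (fun y => Complex.exp (-v y)) x =
      -A.db i 0 v x * Complex.exp (-v x) := by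
    intro x i hi
    have h1 := smN_diff (sm_iff.1 hv x) hi
    have h2 : HasFDerivAt (fun z => Complex.exp (-v ((A.e i).symm z)))
        (Complex.exp (-v ((A.e i).symm (A.e i x))) •
          -fderiv ℝ (fun z => v ((A.e i).symm z)) (A.e i x)) (A.e i x) :=
      h1.hasFDerivAt.neg.cexp
    unfold Atl.db dbj
    rw [h2.fderiv, (A.e i).left_inv hi]
    simp only [_root_.smul_apply, _root_.neg_apply, smul_eq_mul]
    ring
  have hUhol : ∀ p, ∀ᶠ x in 𝓝 p, HolN A (U p) x := by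
    intro p
    obtain ⟨i, hi⟩ := A.cover p
    have h1 : ∀ᶠ x in 𝓝 p, A.db i 0 (U p) x = 0 := by
      filter_upwards [lf_near hES hLd p, (un_rp hLd p).sm, (un_rp hLd p).evne,
        (A.e i).open_source.mem_nhds hi] with x h2 h3 h4 h5
      have h6 := hve i x h5
      rw [h2 i h5] at h6
      change A.db i 0 (fun y => un hLd p y * Complex.exp (-v y)) x = 0
      rw [db_mulN h3 (hexp x) h5, hdbexp x i h5, ← h6]
      field_simp
      ring
    exact (holN_of_db hi (hUsm p) h1).eventually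
  have hU0 : ∀ p, U p p ≠ 0 := fun p => mul_ne_zero (un_rp hLd p).ne (Complex.exp_ne_zero _)
  have hRp : ∀ p, Rp A (E p) (fun x => f₁ x * Complex.exp (-v x)) p (U p) := fun p => by
    refine ⟨hUsm p, hU0 p, ?_⟩
    filter_upwards [(un_rp hLd p).eq] with x h1 h2
    rw [h1 h2, mul_assoc]
  -- the function
  refine ⟨fun x => U x x, ?_, ?_, ?_⟩
  · intro γ x hx
    have h1 := hRp (γ • x)
    obtain ⟨w, hw, hw0, h2⟩ := Rp.map (g := fun y => γ • y) (g' := fun y => γ⁻¹ • y)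
      (hΓ γ) (hΓ γ⁻¹) (fun y => inv_smul_smul γ y) h1
    rw [hEγ γ x] at h2
    have e : (fun y => f₁ (γ • y) * Complex.exp (-v (γ • y))) =
        fun y => f₁ y * Complex.exp (-v y) := funext fun y => by rw [hf₁γ, hvγ]
    rw [e] at h2
    have h3 := ((hRp x).uniq h2).self_of_nhds
    simp only at h3
    rw [hES x hx, zpow_zero, one_mul] at h3
    exact h3.symm
  · intro x hx
    refine ⟨hU0 x, (hUhol x).self_of_nhds.congr ?_⟩
    filter_upwards [(hRp x).near hES] with y h1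
    by_cases hyx : y = x
    · rw [hyx]
    · have h2 := (h1 (U y) (hRp y) hyx).self_of_nhds
      simp only at h2
      rw [h2, hES x hx, zpow_zero, one_mul]
  · intro p hp τ hτ
    obtain ⟨w, hw, hw0, hwe⟩ := (crd_ct A p).cmp hτ
    have hEp : E p = (Fintype.card Γ : ℤ) * D p := by
      rw [hE, hD₀]
      simp only [if_pos hp]
    refine ⟨fun x => w x ^ E p * U p x, (hw.zpow hw0 _).mul (hUhol p).self_of_nhds,
      mul_ne_zero (zpow_ne_zero _ hw0) (hU0 p), ?_⟩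
    filter_upwards [(hRp p).near hES, hwe] with x h1 h2 h3
    have h4 := (h1 (U x) (hRp x) h3).self_of_nhds
    simp only at h4
    rw [h4, h2, mul_zpow, hEp]
    ring

end act

end

end Crest.Agent.R257.RSA_844
end

-- ▼ part R257/Rsn1_980
section

/-!
# R257 (S0395), part C, task C-RSN (helper980), file 1: holomorphic curves and forms

`HC A c z`    : the curve `c : ℂ → M` is holomorphic at `z`;
`pe A θ c z`  : the coefficient of `c^* θ` at `z`.
-/

set_option autoImplicit false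
set_option linter.unusedSectionVars false

open Set Filter Topology Complex MeasureTheory
open scoped ContDiff Matrix ComplexConjugate ComplexOrder

namespace Crest.Agent.R257.Rsn1_980

open Crest.Agent.R273 Crest.Agent.R275 Crest.Agent.R275.Geo Crest.Agent.R275.Core144
open Crest.Agent.R273.Map_835 Crest.Agent.R257.RSA_844

noncomputable section

variable {M : Type} [TopologicalSpace M] {A : Atl 1 M}

/-- holomorphic curves -/
structure HC (A : Atl 1 M) (c : ℂ → M) (z : ℂ) : Prop where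
  cont : ContinuousAt c z
  hol : ∀ j, c z ∈ (A.e j).source → DifferentiableAt ℂ (fun y => A.e j (c y)) z

/-- the coefficient of `c^* θ` -/
def pe (A : Atl 1 M) (θ : A.ι → M → ℂ) (c : ℂ → M) (z : ℂ) : ℂ :=
  θ (ch A (c z)) (c z) * deriv (fun y => (A.e (ch A (c z)) (c y)) 0) z

variable {c c' : ℂ → M} {z : ℂ} {θ : A.ι → M → ℂ}

theorem HC.congr (h : HC A c z) (he : c' =ᶠ[𝓝 z] c) : HC A c' z where
  cont := h.cont.congr he.symm
  hol j hj := by
    rw [he.eq_of_nhds] at hj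
    exact (h.hol j hj).congr_of_eventuallyEq (he.fun_comp (A.e j))

theorem coord_hasDeriv {F : ℂ → Cn 1} (h : DifferentiableAt ℂ F z) :
    HasDerivAt (fun y => F y 0) (deriv F z 0) z := by
  exact (EuclideanSpace.proj (𝕜 := ℂ) (0 : Fin 1)).hasFDerivAt.comp_hasDerivAt z h.hasDerivAt

/-- chain rule for one-dimensional maps -/
theorem chain1 {F : ℂ → Cn 1} {G : Cn 1 → Cn 1} (hF : DifferentiableAt ℂ F z)
    (hG : DifferentiableAt ℂ G (F z)) :
    deriv (fun y => (G (F y)) 0) z =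
      (fderiv ℂ G (F z) (EuclideanSpace.single 0 1)) 0 * deriv (fun y => (F y) 0) z := by
  have h1 : HasDerivAt (fun y => G (F y)) (fderiv ℂ G (F z) (deriv F z)) z :=
    hG.hasFDerivAt.comp_hasDerivAt z hF.hasDerivAt
  have h2 := coord_hasDeriv (h1.differentiableAt)
  rw [h2.deriv, h1.deriv, (coord_hasDeriv hF).deriv]
  conv_lhs => rw [eq_smul_e (deriv F z), map_smul]
  simp [mul_comm]

theorem HC.deriv_chg (h : HC A c z) {i j : A.ι} (hi : c z ∈ (A.e i).source)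
    (hj : c z ∈ (A.e j).source) :
    deriv (fun y => (A.e j (c y)) 0) z = J1 A i j (c z) * deriv (fun y => (A.e i (c y)) 0) z := by
  have h1 := h.hol i hi
  have h2 : DifferentiableAt ℂ (fun w => A.e j ((A.e i).symm w)) (A.e i (c z)) :=
    (ana_trans hi hj).differentiableAt
  have h3 := chain1 (F := fun y => A.e i (c y)) (G := fun w => A.e j ((A.e i).symm w)) h1 h2
  have he : (fun y => (A.e j ((A.e i).symm (A.e i (c y)))) 0) =ᶠ[𝓝 z]
      fun y => (A.e j (c y)) 0 := by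
    filter_upwards [h.cont.eventually ((A.e i).open_source.mem_nhds hi)] with y hy
    rw [(A.e i).left_inv hy]
  rw [← he.deriv_eq, h3]
  rfl

/-- `pe` in any chart -/
theorem pe_eq (hθ : ∀ i j, ∀ x ∈ (A.e i).source ∩ (A.e j).source, θ i x = J1 A i j x * θ j x)
    (h : HC A c z) {j : A.ι} (hj : c z ∈ (A.e j).source) :
    pe A θ c z = θ j (c z) * deriv (fun y => (A.e j (c y)) 0) z := by
  have hi := mem_ch A (c z)
  unfold pe
  rw [h.deriv_chg hi hj, hθ (ch A (c z)) j (c z) ⟨hi, hj⟩]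
  ring

theorem pe_congr (he : c' =ᶠ[𝓝 z] c) : pe A θ c' z = pe A θ c z := by
  unfold pe
  rw [he.eq_of_nhds]
  congr 1
  refine Filter.EventuallyEq.deriv_eq ?_
  filter_upwards [he] with y hy
  rw [hy]

theorem HC.comp {φ : ℂ → ℂ} (h : HC A c (φ z)) (hφ : DifferentiableAt ℂ φ z) :
    HC A (fun y => c (φ y)) z where
  cont := ContinuousAt.comp (f := φ) (g := c) h.cont hφ.continuousAt
  hol j hj := DifferentiableAt.comp z (f := φ) (g := fun y => A.e j (c y)) (h.hol j hj) hφ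

theorem pe_comp {φ : ℂ → ℂ} (h : HC A c (φ z)) (hφ : DifferentiableAt ℂ φ z) :
    pe A θ (fun y => c (φ y)) z = pe A θ c (φ z) * deriv φ z := by
  unfold pe
  have h1 := (coord_hasDeriv (h.hol _ (mem_ch A (c (φ z))))).comp z hφ.hasDerivAt
  have h2 := h1.deriv
  simp only [Function.comp_def] at h2
  rw [h2, (coord_hasDeriv (h.hol _ (mem_ch A (c (φ z))))).deriv, mul_assoc]

theorem HC.map {p : M → M} (hp : HolMap A A p) (h : HC A c z) : HC A (fun y => p (c y)) z where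
  cont := hp.cont.continuousAt.comp h.cont
  hol j hj := by
    obtain ⟨i, hi⟩ := A.cover (c z)
    have h1 := h.hol i hi
    have h2 := hp.diffAt (mem_dm hi hj)
    have h3 := DifferentiableAt.comp z (f := fun y => A.e i (c y)) (g := rd A A p i j) h2 h1
    refine h3.congr_of_eventuallyEq ?_
    filter_upwards [h.cont.eventually ((A.e i).open_source.mem_nhds hi)] with y hy
    simp only [Map_835.rd, Function.comp_apply]
    rw [(A.e i).left_inv hy]

variable {Γ : Type} [Group Γ] [MulAction Γ M]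

theorem pe_inv (hΓ : HolAct A Γ) (hθ : H10 A θ) (hinv : InvH A Γ θ) (h : HC A c z) (γ : Γ) :
    pe A θ (fun y => γ • c y) z = pe A θ c z := by
  obtain ⟨i, hi⟩ := A.cover (c z)
  obtain ⟨j, hj⟩ := A.cover (γ • c z)
  rw [pe_eq hθ.tr (h.map (hΓ γ)) hj, pe_eq hθ.tr h hi, hinv γ i j (c z) hi hj]
  have h1 := h.hol i hi
  have h2 := (hΓ γ).diffAt (mem_dm hi hj)
  have h3 := chain1 (F := fun y => A.e i (c y)) (G := rd A A (fun y => γ • y) i j) h1 h2
  have he : (fun y => (rd A A (fun y => γ • y) i j (A.e i (c y))) 0) =ᶠ[𝓝 z]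
      fun y => (A.e j (γ • c y)) 0 := by
    filter_upwards [h.cont.eventually ((A.e i).open_source.mem_nhds hi)] with y hy
    simp only [Map_835.rd]
    rw [(A.e i).left_inv hy]
  rw [← he.deriv_eq, h3]
  simp only [Jp, Matrix.of_apply]
  ring

/-- `pe` is holomorphic along holomorphic curves -/
theorem pe_an (hθ : H10 A θ) (h : ∀ᶠ y in 𝓝 z, HC A c y) : AnalyticAt ℂ (pe A θ c) z := by
  obtain ⟨j, hj⟩ := A.cover (c z)
  have hz := h.self_of_nhds
  have hsrc : ∀ᶠ y in 𝓝 z, c y ∈ (A.e j).source :=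
    hz.cont.eventually ((A.e j).open_source.mem_nhds hj)
  have he : (fun y => θ j (c y) * deriv (fun u => (A.e j (c u)) 0) y) =ᶠ[𝓝 z] pe A θ c := by
    filter_upwards [h, hsrc] with y h1 h2
    exact (pe_eq hθ.tr h1 h2).symm
  refine AnalyticAt.congr ?_ he
  have hF : AnalyticAt ℂ (fun u => (A.e j (c u)) 0) z := by
    rw [Complex.analyticAt_iff_eventually_differentiableAt]
    filter_upwards [h, hsrc] with y h1 h2
    exact (coord_hasDeriv (h1.hol j h2)).differentiableAt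
  refine AnalyticAt.mul ?_ hF.deriv
  rw [Complex.analyticAt_iff_eventually_differentiableAt]
  filter_upwards [h, hsrc] with y h1 h2
  have h3 := (hθ.hol j).diffAt isOpen_univ h2 (mem_univ _)
  have h4 := DifferentiableAt.comp y (f := fun u => A.e j (c u))
    (g := fun w => θ j ((A.e j).symm w)) h3 (h1.hol j h2)
  refine h4.congr_of_eventuallyEq ?_
  filter_upwards [h1.cont.eventually ((A.e j).open_source.mem_nhds h2)] with u hu
  simp only [Function.comp_apply]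
  rw [(A.e j).left_inv hu]

end

end Crest.Agent.R257.Rsn1_980
end

-- ▼ part R257/Rsn2_980
section

/-!
# R257 (S0395), part C, task C-RSN (helper980), file 2: the compactification

Charts of `T.Cp` as holomorphic curves; the coefficient `gf T A θ : X → ℂ` of a form `θ` in the
coordinate `pr`; the coordinate at an end.
-/

set_option autoImplicit false
set_option linter.unusedSectionVars false

open Set Filter Topology Metric
open scoped ContDiff

namespace Crest.Agent.R257.Rsn1_980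

open Crest.Agent.R273 Crest.Agent.R275 Crest.Agent.R275.Geo Crest.Agent.R275.Core144
open Crest.Agent.R273.Map_835 Crest.Agent.R257.RSA_844 Crest.Agent.R257.RS_176
open Crest.Agent.R257.Rsn_843

noncomputable section

variable {X : Type} [TopologicalSpace X] [T2Space X] {T : Srf X}

/-- uniqueness of local sections -/
theorem sec_ev {σ σ' : ℂ → X} {w : ℂ} (h1 : ContinuousAt σ w) (h1' : ContinuousAt σ' w)
    (h2 : ∀ᶠ z in 𝓝 w, T.pr (σ z) = z) (h2' : ∀ᶠ z in 𝓝 w, T.pr (σ' z) = z)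
    (he : σ w = σ' w) : σ =ᶠ[𝓝 w] σ' := by
  have hw : T.pr (σ w) = w := h2.self_of_nhds
  obtain ⟨r, hr, τ, a1, a2, a3, a4⟩ := T.sec w (by rw [← hw]; exact T.pr_notMem _)
  obtain ⟨j, hj⟩ := a4 (σ w) (by rw [hw]; exact mem_ball_self hr)
  rw [hw] at hj
  have hnb := Srf.section_image_nhds a1 a2 a3 a4 j (mem_ball_self hr)
  rw [hj] at hnb
  have b1 := h1.eventually hnb
  have b2 := h1'.eventually (by rw [← he]; exact hnb)
  filter_upwards [b1, b2, h2, h2'] with z c1 c2 c3 c4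
  rw [← c1.2, ← c2.2, c3, c4]

variable {A : Atl 1 T.Cp} (hC : T.Compat A)

theorem hc_ch0 (hC : T.Compat A) (a : T.SecD ⊕ T.ι) {z : ℂ} (hz : z ∈ (T.ch0 a).target) :
    HC A (T.ch0 a).symm z where
  cont := (T.ch0 a).continuousAt_symm hz
  hol j hj := (hC.out a j).differentiableAt
    (((T.ch0 a).isOpen_inter_preimage_symm (A.e j).open_source).mem_nhds ⟨hz, hj⟩)

/-- the inverse change of charts -/
theorem inn_diff (hC : T.Compat A) (a : T.SecD ⊕ T.ι) (j : A.ι) {p : T.Cp}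
    (ha : p ∈ (T.ch0 a).source) (hj : p ∈ (A.e j).source) :
    DifferentiableAt ℂ (fun v => T.ch0 a ((A.e j).symm v)) (A.e j p) := by
  refine (hC.inn a j).differentiableAt
    (((A.e j).isOpen_inter_preimage_symm (T.ch0 a).open_source).mem_nhds ⟨?_, ?_⟩)
  · exact (A.e j).map_source hj
  · rw [mem_preimage, (A.e j).left_inv hj]; exact ha

theorem inn_ana (hC : T.Compat A) (a : T.SecD ⊕ T.ι) (j : A.ι) {p : T.Cp}
    (ha : p ∈ (T.ch0 a).source) (hj : p ∈ (A.e j).source) :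
    AnalyticAt ℂ (fun v => T.ch0 a ((A.e j).symm v)) (A.e j p) := by
  have h := Crest.Agent.R266.SCV.analyticOnNhd_of_differentiableOn
    ((A.e j).isOpen_inter_preimage_symm (T.ch0 a).open_source) (hC.inn a j)
  refine h _ ⟨(A.e j).map_source hj, ?_⟩
  rw [mem_preimage, (A.e j).left_inv hj]; exact ha

theorem deriv_mul_one (hC : T.Compat A) (a : T.SecD ⊕ T.ι) {z : ℂ} (hz : z ∈ (T.ch0 a).target)
    {j : A.ι} (hj : (T.ch0 a).symm z ∈ (A.e j).source) :
    fderiv ℂ (fun v => T.ch0 a ((A.e j).symm v)) (A.e j ((T.ch0 a).symm z))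
      (EuclideanSpace.single 0 1) * deriv (fun y => (A.e j ((T.ch0 a).symm y)) 0) z = 1 := by
  have h1 := (hc_ch0 hC a hz).hol j hj
  have h2 := inn_diff hC a j ((T.ch0 a).map_target hz) hj
  have h3 := h2.hasFDerivAt.comp_hasDerivAt z (f := fun y => A.e j ((T.ch0 a).symm y))
    h1.hasDerivAt
  have he : (fun y => T.ch0 a ((A.e j).symm (A.e j ((T.ch0 a).symm y)))) =ᶠ[𝓝 z] id := by
    filter_upwards [(T.ch0 a).open_target.mem_nhds hz,
      (hc_ch0 hC a hz).cont.eventually ((A.e j).open_source.mem_nhds hj)] with y h4 h5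
    rw [(A.e j).left_inv h5, (T.ch0 a).right_inv h4]
    rfl
  have h4 := h3.deriv
  have h5 : deriv ((fun v => T.ch0 a ((A.e j).symm v)) ∘ fun y => A.e j ((T.ch0 a).symm y)) z
      = 1 := by
    have : deriv (fun y => T.ch0 a ((A.e j).symm (A.e j ((T.ch0 a).symm y)))) z = 1 := by
      rw [he.deriv_eq]; exact deriv_id z
    exact this
  rw [h5, eq_smul_e (deriv (fun y => A.e j ((T.ch0 a).symm y)) z), map_smul, smul_eq_mul] at h4
  rw [(coord_hasDeriv h1).deriv, mul_comm]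
  exact h4.symm

theorem pe_ne (hC : T.Compat A) {θ : A.ι → T.Cp → ℂ} (hθ : H10 A θ) (a : T.SecD ⊕ T.ι) {z : ℂ}
    (hz : z ∈ (T.ch0 a).target) (h0 : pe A θ (T.ch0 a).symm z = 0) {j : A.ι}
    (hj : (T.ch0 a).symm z ∈ (A.e j).source) : θ j ((T.ch0 a).symm z) = 0 := by
  rw [pe_eq hθ.tr (hc_ch0 hC a hz) hj] at h0
  exact (mul_eq_zero.1 h0).resolve_right (right_ne_zero_of_mul
    (by rw [deriv_mul_one hC a hz hj]; exact one_ne_zero))

/-- the coordinate at an end -/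
theorem crd_end (hC : T.Compat A) (i : T.ι) : Crd A (T.en i) (T.ch0 (Sum.inr i)) := by
  have h0 : (0 : ℂ) ∈ (T.ch0 (Sum.inr i)).target := mem_ball_self T.εpos
  have hs : (T.ch0 (Sum.inr i)).symm 0 = T.en i := T.D_zero i
  have hsrc : T.en i ∈ (T.ch0 (Sum.inr i)).source := by
    rw [← hs]; exact (T.ch0 (Sum.inr i)).map_target h0
  constructor
  · rw [← hs, (T.ch0 (Sum.inr i)).right_inv h0]
  · obtain ⟨j, hj⟩ := A.cover (T.en i)
    refine ⟨j, hj, inn_ana hC _ j hsrc hj, ?_⟩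
    have hj' : (T.ch0 (Sum.inr i)).symm 0 ∈ (A.e j).source := by rw [hs]; exact hj
    have h1 := deriv_mul_one hC (Sum.inr i) h0 hj'
    rw [hs] at h1
    exact left_ne_zero_of_mul (by rw [h1]; exact one_ne_zero)

/-- holomorphic functions read in the charts of `T` -/
theorem holN_ch0 (hC : T.Compat A) {f : T.Cp → ℂ} (a : T.SecD ⊕ T.ι) {z : ℂ}
    (hz : z ∈ (T.ch0 a).target) (hf : HolN A f ((T.ch0 a).symm z)) :
    AnalyticAt ℂ (fun y => f ((T.ch0 a).symm y)) z := by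
  rw [Complex.analyticAt_iff_eventually_differentiableAt]
  have h1 := (hc_ch0 hC a hz).cont.eventually hf.eventually
  filter_upwards [h1, (T.ch0 a).open_target.mem_nhds hz] with y h2 h3
  obtain ⟨j, hj⟩ := A.cover ((T.ch0 a).symm y)
  have h4 := (hc_ch0 hC a h3).hol j hj
  have h5 := DifferentiableAt.comp y (f := fun u => A.e j ((T.ch0 a).symm u))
    (g := fun v => f ((A.e j).symm v)) (h2 j hj).differentiableAt h4
  refine h5.congr_of_eventuallyEq ?_
  filter_upwards [(hc_ch0 hC a h3).cont.eventually ((A.e j).open_source.mem_nhds hj)] with u hu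
  simp only [Function.comp_apply]
  rw [(A.e j).left_inv hu]

/-! ### the coefficient of a form -/

/-- the chosen section -/
def sx (T : Srf X) (x : X) : T.SecD := (T.exists_secD x).choose

theorem sx_r (x : X) : 0 < (sx T x).r := (T.exists_secD x).choose_spec.1
theorem sx_w (x : X) : (sx T x).w = T.pr x := (T.exists_secD x).choose_spec.2.1
theorem sx_s (x : X) : (sx T x).s (T.pr x) = x := (T.exists_secD x).choose_spec.2.2

theorem sx_mem (x : X) : T.pr x ∈ ball (sx T x).w (sx T x).r := by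
  rw [sx_w]; exact mem_ball_self (sx_r x)

/-- the coefficient of `θ` in the coordinate `pr` -/
def gf (T : Srf X) (A : Atl 1 T.Cp) (θ : A.ι → T.Cp → ℂ) (x : X) : ℂ :=
  pe A θ (fun z => T.jn ((sx T x).s z)) (T.pr x)

theorem gf_sec (θ : A.ι → T.Cp → ℂ) {σ : ℂ → X} {w : ℂ}
    (h1 : ContinuousAt σ w) (h2 : ∀ᶠ z in 𝓝 w, T.pr (σ z) = z) :
    gf T A θ (σ w) = pe A θ (fun z => T.jn (σ z)) w := by
  have hw : T.pr (σ w) = w := h2.self_of_nhds
  have hm := sx_mem (T := T) (σ w)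
  rw [hw] at hm
  unfold gf
  rw [hw]
  refine pe_congr ?_
  have h3 : (sx T (σ w)).s =ᶠ[𝓝 w] σ := by
    refine sec_ev (T := T) ((sx T (σ w)).cont.continuousAt (isOpen_ball.mem_nhds hm)) h1 ?_ h2 ?_
    · filter_upwards [isOpen_ball.mem_nhds hm] with z hz using (sx T (σ w)).sec z hz
    · have := sx_s (T := T) (σ w)
      rwa [hw] at this
  filter_upwards [h3] with z hz
  rw [hz]

/-- the curve of a local section -/
theorem hc_sec (hC : T.Compat A) {σ : ℂ → X} {w : ℂ} (h1 : ContinuousAt σ w)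
    (h2 : ∀ᶠ z in 𝓝 w, T.pr (σ z) = z) : HC A (fun z => T.jn (σ z)) w := by
  have hw : T.pr (σ w) = w := h2.self_of_nhds
  have hm := sx_mem (T := T) (σ w)
  rw [hw] at hm
  refine (hc_ch0 hC (Sum.inl (sx T (σ w))) hm).congr ?_
  have h3 : (sx T (σ w)).s =ᶠ[𝓝 w] σ := by
    refine sec_ev (T := T) ((sx T (σ w)).cont.continuousAt (isOpen_ball.mem_nhds hm)) h1 ?_ h2 ?_
    · filter_upwards [isOpen_ball.mem_nhds hm] with z hz using (sx T (σ w)).sec z hz
    · have := sx_s (T := T) (σ w)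
      rwa [hw] at this
  filter_upwards [h3] with z hz
  rw [← hz]
  rfl

theorem gf_hol (hC : T.Compat A) {θ : A.ι → T.Cp → ℂ} (hθ : H10 A θ) :
    HolX T.pr (gf T A θ) := by
  intro w₀ ρ σ hρ hσ hs
  have hev : ∀ w ∈ ball w₀ ρ, ∀ᶠ z in 𝓝 w, T.pr (σ z) = z := fun w hw => by
    filter_upwards [isOpen_ball.mem_nhds hw] with z hz using hs z hz
  have h1 : (pe A θ fun z => T.jn (σ z)) =ᶠ[𝓝 w₀] gf T A θ ∘ σ := by
    filter_upwards [ball_mem_nhds w₀ hρ] with w hw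
    exact (gf_sec θ (hσ.continuousAt (isOpen_ball.mem_nhds hw)) (hev w hw)).symm
  refine AnalyticAt.congr (pe_an hθ ?_) h1
  filter_upwards [ball_mem_nhds w₀ hρ] with w hw
  exact hc_sec hC (hσ.continuousAt (isOpen_ball.mem_nhds hw)) (hev w hw)

/-- the disc at an end through a local section -/
theorem D_ev (i : T.ι) {τ : ℂ} (hτ : τ ∈ T.Pn) :
    T.D i =ᶠ[𝓝 τ] fun y => T.jn ((sx T (T.γ i τ)).s (endPr (T.c i) (T.m i) y)) := by
  set s := sx T (T.γ i τ)
  have hpr := T.pr_γ i τ hτ.1 hτ.2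
  have hmem : T.pr (T.γ i τ) ∈ ball s.w s.r := sx_mem (T.γ i τ)
  have hsx : s.s (T.pr (T.γ i τ)) = T.γ i τ := sx_s (T.γ i τ)
  have hsrc : T.jn (T.γ i τ) ∈ (T.secCh s).source := T.mem_secCh_source hmem hsx
  have hc : ContinuousAt (fun y => T.jn (T.γ i y)) τ :=
    T.isOpenEmbedding_jn.continuous.continuousAt.comp
      ((T.γ_cont i).continuousAt (T.isOpen_Pn.mem_nhds hτ))
  filter_upwards [hc.eventually ((T.secCh s).open_source.mem_nhds hsrc),
    T.isOpen_Pn.mem_nhds hτ] with y hy hyP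
  obtain ⟨u, hu, he⟩ := hy
  have he1 : s.s u = T.γ i y := T.jn_injective he
  have he2 : endPr (T.c i) (T.m i) y = u := by
    rw [← T.pr_γ i y hyP.1 hyP.2, ← he1, s.sec u hu]
  rw [he2, he1, T.D_of_ne i (norm_pos_iff.1 hyP.1)]

/-- the form at an end -/
theorem pe_end (hC : T.Compat A) {θ : A.ι → T.Cp → ℂ} (i : T.ι) {τ : ℂ} (hτ : τ ∈ T.Pn) :
    pe A θ (T.D i) τ = gf T A θ (T.γ i τ) * deriv (endPr (T.c i) (T.m i)) τ := by
  have hpr := T.pr_γ i τ hτ.1 hτ.2
  have hmem : T.pr (T.γ i τ) ∈ ball (sx T (T.γ i τ)).w (sx T (T.γ i τ)).r := sx_mem (T.γ i τ)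
  obtain ⟨d, hd, hder⟩ := hasStrictDerivAt_endPr (T.c i) (T.mpos i) (norm_pos_iff.1 hτ.1)
  rw [pe_congr (D_ev i hτ)]
  have h1 : HC A (fun z => T.jn ((sx T (T.γ i τ)).s z)) (endPr (T.c i) (T.m i) τ) := by
    rw [← hpr]
    exact hc_ch0 hC (Sum.inl (sx T (T.γ i τ))) hmem
  rw [pe_comp (c := fun z => T.jn ((sx T (T.γ i τ)).s z)) (φ := endPr (T.c i) (T.m i)) h1
    hder.hasDerivAt.differentiableAt]
  unfold gf
  rw [hpr]

/-- if the coefficient vanishes, so does the form -/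
theorem form_zero (hC : T.Compat A) {θ : A.ι → T.Cp → ℂ} (hθ : H10 A θ)
    (h0 : ∀ x, gf T A θ x = 0) : ∀ j, ∀ p ∈ (A.e j).source, θ j p = 0 := by
  intro j p hp
  rcases T.cases p with ⟨x, rfl⟩ | ⟨i, rfl⟩
  · have hs : (T.ch0 (Sum.inl (sx T x))).symm (T.pr x) = T.jn x := congrArg T.jn (sx_s x)
    rw [← hs]
    refine pe_ne hC hθ (Sum.inl (sx T x)) (sx_mem x) (h0 x) (by rw [hs]; exact hp)
  · have hs : (T.ch0 (Sum.inr i)).symm 0 = T.en i := T.D_zero i
    have hz : (0 : ℂ) ∈ (T.ch0 (Sum.inr i)).target := mem_ball_self T.εpos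
    rw [← hs]
    refine pe_ne hC hθ (Sum.inr i) hz ?_ (by rw [hs]; exact hp)
    have han : AnalyticAt ℂ (pe A θ (T.D i)) 0 := by
      refine pe_an hθ ?_
      filter_upwards [(T.ch0 (Sum.inr i)).open_target.mem_nhds hz] with y hy
      exact hc_ch0 hC (Sum.inr i) hy
    have hev : ∀ᶠ τ in 𝓝[≠] (0 : ℂ), pe A θ (T.D i) τ = 0 := by
      filter_upwards [self_mem_nhdsWithin,
        mem_nhdsWithin_of_mem_nhds (ball_mem_nhds (0 : ℂ) T.εpos)] with τ h1 h2
      have hτ : τ ∈ T.Pn := ⟨norm_pos_iff.2 h1, mem_ball_zero_iff.1 h2⟩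
      rw [pe_end hC i hτ, h0, zero_mul]
    have h1 := han.continuousAt.continuousWithinAt.tendsto (s := {0}ᶜ)
    have h2 : Tendsto (pe A θ (T.D i)) (𝓝[≠] 0) (𝓝 0) :=
      tendsto_const_nhds.congr' (hev.mono fun _ h => h.symm)
    exact tendsto_nhds_unique h1 h2

end

end Crest.Agent.R257.Rsn1_980
end

-- ▼ part R257/Rsn3_980
section

/-!
# R257 (S0395), part C, task C-RSN (helper980), file 3: ends and fibres

`bq c q` : the point `q` of the disc over `c : Option ℂ`;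
`ends`   : points over small `q` lie on the ends over `c`;
`Fs`     : fibre sums of a locally constant function.
-/

set_option autoImplicit false
set_option linter.unusedSectionVars false

open Set Filter Topology Metric

namespace Crest.Agent.R257.Rsn1_980

open Crest.Agent.R257.RS_176 Crest.Agent.R257.Rsn_843 Crest.Agent.R257.Wt_258

noncomputable section

/-- the point `q` of the disc over `c` -/
def bq (c : Option ℂ) (q : ℂ) : ℂ :=
  match c with
  | some a => a + q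
  | none => q⁻¹

theorem endPr_bq (c : Option ℂ) (m : ℕ) (τ : ℂ) : endPr c m τ = bq c (τ ^ m) := by
  cases c <;> rfl

theorem bq_inj {c : Option ℂ} {q q' : ℂ} (h : bq c q = bq c q') : q = q' := by
  rcases c with _ | a
  · exact inv_injective h
  · exact add_left_cancel h

theorem bq_cont {c : Option ℂ} {q : ℂ} (hq : q ≠ 0) : ContinuousAt (bq c) q := by
  rcases c with _ | a
  · exact continuousAt_inv₀ hq
  · exact (continuous_const.add continuous_id).continuousAt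

/-- admissible centres -/
def Vc (S : Finset ℂ) (c : Option ℂ) : Prop := ∀ a, c = some a → a ∈ S

theorem bq_notMem {S : Finset ℂ} {r : ℝ} (h : Sep S r) {c : Option ℂ} (hc : Vc S c) {q : ℂ}
    (h0 : q ≠ 0) (hq : ‖q‖ ≤ r) : bq c q ∉ S := by
  intro hm
  have hr := h.pos
  rcases c with _ | a
  · have h1 := h.inf _ hm
    have h2 : ‖bq none q‖ = ‖q‖⁻¹ := norm_inv q
    have h3 : r⁻¹ ≤ ‖q‖⁻¹ := inv_anti₀ (norm_pos_iff.2 h0) hq
    linarith
  · have ha := hc a rfl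
    have hne : a ≠ a + q := by
      intro h1
      exact h0 (by simpa using h1)
    have h1 := h.sep a ha _ hm hne
    have h2 : ‖a - bq (some a) q‖ = ‖q‖ := by
      change ‖a - (a + q)‖ = _
      rw [sub_add_cancel_left, norm_neg]
    have h3 : 2 * r ≤ ‖q‖ := by rw [← h2]; exact h1
    linarith

/-- the `m`-th roots of `q` -/
theorem exists_roots {m : ℕ} (hm : 0 < m) {q : ℂ} (hq : q ≠ 0) :
    ∃ s : Finset ℂ, s.card = m ∧ ∀ τ, τ ∈ s ↔ τ ^ m = q := by
  classical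
  have hp := Complex.isPrimitiveRoot_exp m hm.ne'
  refine ⟨(Polynomial.nthRoots m q).toFinset, ?_, fun τ => ?_⟩
  · rw [Multiset.toFinset_card_of_nodup (hp.nthRoots_nodup hq), hp.card_nthRoots, if_pos]
    exact IsAlgClosed.exists_pow_nat_eq q hm
  · rw [Multiset.mem_toFinset, Polynomial.mem_nthRoots hm]

variable {X : Type} [TopologicalSpace X] [T2Space X] (T : Srf X)

theorem vc_c (i : T.ι) : Vc T.S (T.c i) := fun a h => T.c_mem i a h

theorem pr_bq (i : T.ι) {τ : ℂ} (h1 : 0 < ‖τ‖) (h2 : ‖τ‖ < T.ε) :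
    T.pr (T.γ i τ) = bq (T.c i) (τ ^ T.m i) := by
  rw [T.pr_γ i τ h1 h2, endPr_bq]

/-- points over small `q` lie on the ends -/
theorem ends {η : ℝ} (hη : 0 < η) : ∃ δ > 0, (∀ i, δ < η ^ T.m i) ∧ ∀ c, Vc T.S c → ∀ q : ℂ, q ≠ 0 → ‖q‖ < δ →
    ∀ x, T.pr x = bq c q → ∃ i τ, T.c i = c ∧ 0 < ‖τ‖ ∧ ‖τ‖ < η ∧ ‖τ‖ < T.ε ∧
      τ ^ T.m i = q ∧ T.γ i τ = x := by
  obtain ⟨δ₁, hδ₁, h1⟩ := T.exists_delta
  obtain ⟨R, hR⟩ := T.exists_R
  have h2 : ∀ᶠ δ in 𝓝[>] (0 : ℝ), ∀ i : T.ι, δ < η ^ T.m i := by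
    rw [eventually_all]
    intro i
    exact mem_of_superset (Ioo_mem_nhdsGT (show (0 : ℝ) < η ^ T.m i by positivity))
      fun δ hδ => hδ.2
  have h3 : ∀ᶠ δ in 𝓝[>] (0 : ℝ), δ < δ₁ :=
    mem_of_superset (Ioo_mem_nhdsGT hδ₁) fun δ hδ => hδ.2
  have h4 : ∀ᶠ δ in 𝓝[>] (0 : ℝ), δ < (|R| + 1)⁻¹ :=
    mem_of_superset (Ioo_mem_nhdsGT (show (0 : ℝ) < (|R| + 1)⁻¹ by positivity))
      fun δ hδ => hδ.2
  obtain ⟨δ, a1, a2, a3, a4⟩ := (h2.and (h3.and (h4.and self_mem_nhdsWithin))).exists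
  have hδ : 0 < δ := a4
  refine ⟨δ, hδ, a1, fun c hc q h0 hq x hx => ?_⟩
  have key : ∀ i τ, T.c i = c → 0 < ‖τ‖ → ‖τ‖ < T.ε / 2 → T.γ i τ = x →
      ∃ i τ, T.c i = c ∧ 0 < ‖τ‖ ∧ ‖τ‖ < η ∧ ‖τ‖ < T.ε ∧ τ ^ T.m i = q ∧ T.γ i τ = x := by
    intro i τ b1 b2 b3 b4
    have b5 : ‖τ‖ < T.ε := b3.trans (by linarith [T.εpos])
    have b6 := pr_bq T i b2 b5
    rw [b4, hx, b1] at b6
    have b7 : q = τ ^ T.m i := bq_inj b6
    refine ⟨i, τ, b1, b2, ?_, b5, b7.symm, b4⟩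
    rw [b7, norm_pow] at hq
    exact lt_of_pow_lt_pow_left₀ _ hη.le (hq.trans (a1 i))
  rcases c with _ | a
  · have h5 : R < ‖T.pr x‖ := by
      rw [hx]
      change R < ‖q⁻¹‖
      rw [norm_inv]
      have h6 : |R| + 1 < ‖q‖⁻¹ :=
        (lt_inv_comm₀ (by positivity) (norm_pos_iff.2 h0)).2 (hq.trans a3)
      linarith [le_abs_self R]
    obtain ⟨i, τ, b1, b2, b3, b4⟩ := hR x h5
    exact key i τ b1 b2 b3 b4
  · have h5 : ‖T.pr x - a‖ < δ₁ := by
      rw [hx]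
      change ‖a + q - a‖ < δ₁
      rw [add_sub_cancel_left]
      exact hq.trans a2
    obtain ⟨i, τ, b1, b2, b3, b4⟩ := h1 a (hc a rfl) x h5
    exact key i τ b1 b2 b3 b4

/-- holomorphic functions are continuous -/
theorem holX_cont {f : X → ℂ} (hf : HolX T.pr f) : Continuous f := by
  rw [continuous_iff_continuousAt]
  intro x
  obtain ⟨r, hr, σ, h1, h2, h3, h4⟩ := T.sec (T.pr x) (T.pr_notMem x)
  obtain ⟨j, hj⟩ := h4 x (mem_ball_self hr)
  have hnb := Srf.section_image_nhds h1 h2 h3 h4 j (mem_ball_self hr)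
  rw [hj] at hnb
  have hc : ContinuousAt (f ∘ σ j) (T.pr x) := (hf _ r (σ j) hr (h1 j) (h2 j)).continuousAt
  have hc2 : ContinuousAt (fun y => (f ∘ σ j) (T.pr y)) x :=
    ContinuousAt.comp (f := T.pr) (g := f ∘ σ j) hc T.contPr.continuousAt
  refine hc2.congr ?_
  filter_upwards [hnb] with y hy
  simp only [Function.comp_apply]
  rw [hy.2]

/-- the number of sheets at an end -/
theorem m_le_n {n : ℕ} (hn : ∀ w, {x | T.pr x = w}.ncard ≤ n) (i : T.ι) : T.m i ≤ n := by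
  have hε := T.εpos
  have hτn : ‖((T.ε / 2 : ℝ) : ℂ)‖ = T.ε / 2 := by
    rw [Complex.norm_real, Real.norm_of_nonneg (by positivity)]
  have h0 : ((T.ε / 2 : ℝ) : ℂ) ≠ 0 := by
    rw [← norm_pos_iff, hτn]; positivity
  set τ₀ : ℂ := ((T.ε / 2 : ℝ) : ℂ)
  obtain ⟨s, hs, hmem⟩ := exists_roots (T.mpos i) (pow_ne_zero (T.m i) h0)
  have hnorm : ∀ τ ∈ s, 0 < ‖τ‖ ∧ ‖τ‖ < T.ε := by
    intro τ hτ
    have h1 := congrArg norm ((hmem τ).1 hτ)
    rw [norm_pow, norm_pow] at h1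
    have h2 := (pow_left_inj₀ (norm_nonneg _) (norm_nonneg _) (T.mpos i).ne').1 h1
    rw [h2, hτn]
    constructor <;> linarith
  have hw : bq (T.c i) (τ₀ ^ T.m i) ∉ T.S := by
    have h1 := T.pr_notMem (T.γ i τ₀)
    rwa [pr_bq T i (by rw [hτn]; positivity) (by rw [hτn]; linarith)] at h1
  refine le_trans ?_ (hn (bq (T.c i) (τ₀ ^ T.m i)))
  have hcard : (s : Set ℂ).ncard = T.m i := by rw [Set.ncard_coe_finset, hs]
  refine hcard.symm.le.trans ?_
  refine Set.ncard_le_ncard_of_injOn (T.γ i) ?_ ?_ (T.fib_finite hw)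
  · intro τ hτ
    have hτ' : τ ∈ s := hτ
    change T.pr (T.γ i τ) = _
    rw [pr_bq T i (hnorm τ hτ').1 (hnorm τ hτ').2, (hmem τ).1 hτ']
  · intro τ hτ τ' hτ' he
    have a : τ ∈ s := hτ
    have b : τ' ∈ s := hτ'
    exact (T.γ_inj i i τ τ' (hnorm τ a).1 (hnorm τ a).2 (hnorm τ' b).1 (hnorm τ' b).2 he).2

/-- ramification indices along a homeomorphism over a rotation -/
theorem m_le_σ (g : X ≃ₜ X) {χ : ℂ} (hg : ∀ x, T.pr (g x) = χ * T.pr x) (i : T.ι) :
    T.m i ≤ T.m (T.σE g i) := by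
  obtain ⟨δ, hδ, hδε, h1⟩ := T.σE_spec g i T.εpos
  have hτn : ‖((δ / 2 : ℝ) : ℂ)‖ = δ / 2 := by
    rw [Complex.norm_real, Real.norm_of_nonneg (by positivity)]
  have h0 : ((δ / 2 : ℝ) : ℂ) ≠ 0 := by
    rw [← norm_pos_iff, hτn]; positivity
  set τ₀ : ℂ := ((δ / 2 : ℝ) : ℂ)
  obtain ⟨s, hs, hmem⟩ := exists_roots (T.mpos i) (pow_ne_zero (T.m i) h0)
  have hnorm : ∀ τ ∈ s, τ ∈ PD δ := by
    intro τ hτ
    have h1 := congrArg norm ((hmem τ).1 hτ)
    rw [norm_pow, norm_pow] at h1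
    have h2 := (pow_left_inj₀ (norm_nonneg _) (norm_nonneg _) (T.mpos i).ne').1 h1
    change 0 < ‖τ‖ ∧ ‖τ‖ < δ
    rw [h2, hτn]
    constructor <;> linarith
  have himg : ∀ τ ∈ s, ∃ τ' ∈ PD T.ε, T.γ (T.σE g i) τ' = g (T.γ i τ) := fun τ hτ =>
    h1 ⟨_, ⟨τ, hnorm τ hτ, rfl⟩, rfl⟩
  have hx₀ : τ₀ ∈ s := (hmem τ₀).2 rfl
  choose! F hF hFe using himg
  obtain ⟨s', hs', hmem'⟩ := exists_roots (T.mpos (T.σE g i))
    (pow_ne_zero (T.m (T.σE g i)) (norm_pos_iff.1 (hF τ₀ hx₀).1))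
  rw [← hs, ← hs']
  have hpr : ∀ τ ∈ s, T.pr (g (T.γ i τ)) = χ * bq (T.c i) (τ₀ ^ T.m i) := by
    intro τ hτ
    have h2 := hnorm τ hτ
    rw [hg, pr_bq T i h2.1 (h2.2.trans_le hδε), (hmem τ).1 hτ]
  refine Finset.card_le_card_of_injOn F ?_ ?_
  · intro τ hτ
    have hτs : τ ∈ s := hτ
    refine (hmem' (F τ)).2 ?_
    have a1 := pr_bq T (T.σE g i) (hF τ hτs).1 (hF τ hτs).2
    have a2 := pr_bq T (T.σE g i) (hF τ₀ hx₀).1 (hF τ₀ hx₀).2
    rw [hFe τ hτs, hpr τ hτs] at a1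
    rw [hFe τ₀ hx₀, hpr τ₀ hx₀] at a2
    exact bq_inj (a1.symm.trans a2)
  · intro τ hτ τ' hτ' he
    have a : τ ∈ s := hτ
    have b : τ' ∈ s := hτ'
    have h2 : g (T.γ i τ) = g (T.γ i τ') := by rw [← hFe τ a, ← hFe τ' b, he]
    have h3 := g.injective h2
    exact (T.γ_inj i i τ τ' (hnorm τ a).1 ((hnorm τ a).2.trans_le hδε) (hnorm τ' b).1
      ((hnorm τ' b).2.trans_le hδε) h3).2

/-! ### fibre sums -/

/-- near the ends -/
def NE (S : Finset ℂ) (r : ℝ) (w : ℂ) : Prop := (∃ c ∈ S, ‖w - c‖ < r) ∨ r⁻¹ < ‖w‖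

theorem ne_bq {S : Finset ℂ} {r : ℝ} {c : Option ℂ} (hc : Vc S c) {q : ℂ} (h0 : q ≠ 0)
    (hq : ‖q‖ < r) : NE S r (bq c q) := by
  rcases c with _ | a
  · right
    change r⁻¹ < ‖q⁻¹‖
    rw [norm_inv]
    exact inv_strictAnti₀ (norm_pos_iff.2 h0) hq
  · left
    refine ⟨a, hc a rfl, ?_⟩
    change ‖a + q - a‖ < r
    rwa [add_sub_cancel_left]

/-- the fibre sum -/
def Fs (mu : X → ℤ) (w : ℂ) : ℤ := ∑ᶠ x ∈ {x : X | T.pr x = w}, mu x

theorem fs_lc {mu : X → ℤ} {w : ℂ} (hw : w ∉ T.S)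
    (hmu : ∀ x, T.pr x = w → ∀ᶠ y in 𝓝 x, mu y = mu x) :
    ∀ᶠ w' in 𝓝 w, Fs T mu w' = Fs T mu w := by
  obtain ⟨ρ, hρ, σ, h1, h2, h3, h4⟩ := T.sec w hw
  have key : ∀ z ∈ ball w ρ, Fs T mu z = ∑ j, mu (σ j z) := by
    intro z hz
    have hset : {x : X | T.pr x = z} = range fun j => σ j z := by
      ext x
      constructor
      · intro hx
        have hx' : T.pr x = z := hx
        obtain ⟨j, hj⟩ := h4 x (by rw [hx']; exact hz)
        exact ⟨j, by rw [← hx']; exact hj⟩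
      · rintro ⟨j, rfl⟩
        exact h2 j z hz
    unfold Fs
    rw [hset, finsum_mem_range (h3 z hz), finsum_eq_sum_of_fintype]
  have h5 : ∀ᶠ z in 𝓝 w, ∀ j, mu (σ j z) = mu (σ j w) := by
    rw [eventually_all]
    intro j
    have hc : ContinuousAt (σ j) w := (h1 j).continuousAt (ball_mem_nhds w hρ)
    exact hc.eventually (hmu (σ j w) (h2 j w (mem_ball_self hρ)))
  filter_upwards [h5, ball_mem_nhds w hρ] with z a b
  rw [key z b, key w (mem_ball_self hρ)]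
  exact Finset.sum_congr rfl fun j _ => a j

theorem fs_const {mu : X → ℤ} {r : ℝ} (hS : Sep T.S r)
    (hmu : ∀ x, NE T.S r (T.pr x) → ∀ᶠ y in 𝓝 x, mu y = mu x) {c : Option ℂ} (hc : Vc T.S c)
    {q q' : ℂ} (hq : q ∈ PD r) (hq' : q' ∈ PD r) : Fs T mu (bq c q) = Fs T mu (bq c q') := by
  refine (isPreconnected_PD r).constant (f := fun q => Fs T mu (bq c q)) ?_ hq hq'
  intro u hu
  have hu0 : u ≠ 0 := norm_pos_iff.1 hu.1
  have h1 := fs_lc T (mu := mu) (w := bq c u) (bq_notMem hS hc hu0 hu.2.le)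
    (fun x hx => hmu x (by rw [hx]; exact ne_bq hc hu0 hu.2))
  have h2 := (bq_cont (c := c) hu0).eventually h1
  refine ContinuousAt.continuousWithinAt ?_
  exact (continuousAt_const (y := Fs T mu (bq c u))).congr (h2.mono fun _ h => h.symm)

/-- `mu` is constant on the ends -/
theorem mu_const {mu : X → ℤ} {r : ℝ} (hmu : ∀ x, NE T.S r (T.pr x) → ∀ᶠ y in 𝓝 x, mu y = mu x)
    {δ : ℝ} (h1 : δ ≤ 1) (hr : δ ≤ r) (hε : δ ≤ T.ε) (i : T.ι) {τ τ' : ℂ} (hτ : τ ∈ PD δ)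
    (hτ' : τ' ∈ PD δ) : mu (T.γ i τ) = mu (T.γ i τ') := by
  refine (isPreconnected_PD δ).constant (f := fun τ => mu (T.γ i τ)) ?_ hτ hτ'
  intro u hu
  have hu0 : u ≠ 0 := norm_pos_iff.1 hu.1
  have hP : u ∈ T.Pn := ⟨hu.1, hu.2.trans_le hε⟩
  have hc : ContinuousAt (T.γ i) u := (T.γ_cont i).continuousAt (T.isOpen_Pn.mem_nhds hP)
  have hq : ‖u ^ T.m i‖ < r := by
    rw [norm_pow]
    refine lt_of_le_of_lt (pow_le_of_le_one hu.1.le (hu.2.le.trans h1) (T.mpos i).ne') ?_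
    exact hu.2.trans_le hr
  have h2 := hc.eventually (hmu (T.γ i u) (by
    rw [pr_bq T i hP.1 hP.2]
    exact ne_bq (vc_c T i) (pow_ne_zero _ hu0) hq))
  refine ContinuousAt.continuousWithinAt ?_
  exact (continuousAt_const (y := mu (T.γ i u))).congr (h2.mono fun _ h => h.symm)

open Classical in
/-- the fibre sum near an end -/
theorem fs_end {mu : X → ℤ} {r : ℝ} (hS : Sep T.S r)
    (hmu : ∀ x, NE T.S r (T.pr x) → ∀ᶠ y in 𝓝 x, mu y = mu x)
    {δ : ℝ} (h0 : 0 < δ) (hε : δ ≤ T.ε) {μ : T.ι → ℤ}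
    (hμ : ∀ i, ∀ τ ∈ PD δ, mu (T.γ i τ) = μ i) {c : Option ℂ} (hc : Vc T.S c) {q : ℂ}
    (hq : q ∈ PD r) : Fs T mu (bq c q) = ∑ i, if T.c i = c then (T.m i : ℤ) * μ i else 0 := by
  obtain ⟨η, hη, hηm, h2⟩ := ends T h0
  have hm0 : 0 < min η r / 2 := by
    have := hS.pos
    positivity
  have hqn : ‖((min η r / 2 : ℝ) : ℂ)‖ = min η r / 2 := by
    rw [Complex.norm_real, Real.norm_of_nonneg hm0.le]
  have hmη : min η r ≤ η := min_le_left _ _
  have hmr : min η r ≤ r := min_le_right _ _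
  set q₀ : ℂ := ((min η r / 2 : ℝ) : ℂ)
  have hq0 : q₀ ≠ 0 := by rw [← norm_pos_iff, hqn]; exact hm0
  have hq₀ : q₀ ∈ PD r := ⟨by rw [hqn]; exact hm0, by rw [hqn]; linarith⟩
  rw [fs_const T hS hmu hc hq hq₀]
  -- the roots
  have hrt : ∀ i : T.ι, ∃ s : Finset ℂ, s.card = T.m i ∧ ∀ τ, τ ∈ s ↔ τ ^ T.m i = q₀ :=
    fun i => exists_roots (T.mpos i) hq0
  choose s hs hmem using hrt
  have hsmall : ∀ i, ∀ τ ∈ s i, τ ∈ PD δ := by
    intro i τ hτ
    have a1 := congrArg norm ((hmem i τ).1 hτ)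
    rw [norm_pow, hqn] at a1
    have a2 : τ ≠ 0 := by
      rintro rfl
      rw [norm_zero, zero_pow (T.mpos i).ne'] at a1
      linarith
    refine ⟨norm_pos_iff.2 a2, ?_⟩
    have a3 : ‖τ‖ ^ T.m i < δ ^ T.m i := by
      rw [a1]
      have := hηm i
      linarith
    exact lt_of_pow_lt_pow_left₀ _ h0.le a3
  set J : Finset (Σ _ : T.ι, ℂ) := (Finset.univ.filter fun i => T.c i = c).sigma s with hJ
  have hset : {x : X | T.pr x = bq c q₀} = ↑(J.image fun p => T.γ p.1 p.2) := by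
    ext x
    rw [Finset.mem_coe, Finset.mem_image]
    constructor
    · intro hx
      have hx' : T.pr x = bq c q₀ := hx
      obtain ⟨i, τ, b1, b2, b3, b4, b5, b6⟩ := h2 c hc q₀ hq0 (by rw [hqn]; linarith) x hx'
      refine ⟨⟨i, τ⟩, ?_, b6⟩
      rw [hJ, Finset.mem_sigma, Finset.mem_filter]
      exact ⟨⟨Finset.mem_univ _, b1⟩, (hmem i τ).2 b5⟩
    · rintro ⟨⟨i, τ⟩, hp, rfl⟩
      rw [hJ, Finset.mem_sigma, Finset.mem_filter] at hp
      have hτ := hsmall i τ hp.2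
      change T.pr (T.γ i τ) = _
      rw [pr_bq T i hτ.1 (hτ.2.trans_le hε), (hmem i τ).1 hp.2, hp.1.2]
  unfold Fs
  rw [hset, finsum_mem_coe_finset, Finset.sum_image, hJ, Finset.sum_sigma, Finset.sum_filter]
  · refine Finset.sum_congr rfl fun i _ => ?_
    split_ifs with hi
    · rw [Finset.sum_congr rfl fun τ hτ => hμ i τ (hsmall i τ hτ), Finset.sum_const, hs i,
        nsmul_eq_mul]
    · rfl
  · rintro ⟨i, τ⟩ hp ⟨i', τ'⟩ hp' he
    rw [hJ, Finset.mem_coe, Finset.mem_sigma] at hp hp'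
    have hτ := hsmall i τ hp.2
    have hτ' := hsmall i' τ' hp'.2
    obtain ⟨a, b⟩ := T.γ_inj i i' τ τ' hτ.1 (hτ.2.trans_le hε) hτ'.1 (hτ'.2.trans_le hε) he
    rw [a, b]

end

end Crest.Agent.R257.Rsn1_980
private theorem rz_670a791680 : type_of% @_root_.Crest.Agent.R257.Rsn1_980.bq.eq_1 := @_root_.Crest.Agent.R257.Rsn1_980.bq.eq_1 -- L24
end

-- ▼ part R257/RSX_176
section

/-!
# Row 257, part C, the action of a finite group on the compactification (helper176), file RSX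

* `Srf.act`     : the action on `T.Cp` (as a definition, not an instance), `act_jn`, `act_en`
* `Srf.holAct`  : it is holomorphic for every compatible atlas
-/

set_option autoImplicit false
set_option linter.unusedSectionVars false

open Set Filter Topology Metric
open scoped ContDiff Manifold

noncomputable section

namespace Crest.Agent.R257.RS_176

open Crest.Agent.R275.Geo Crest.Agent.R257.RSA_844
open Crest.Agent.R273.Map_835 (HolMap)

namespace Srf

variable {X : Type} [TopologicalSpace X] [T2Space X] (T : Srf X)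
  {Γ : Type} [Group Γ] [MulAction Γ X]

/-- the homeomorphism given by an element of the group -/
def hom (hΓ : ∀ γ : Γ, Continuous fun x : X => γ • x) (γ : Γ) : X ≃ₜ X where
  toFun x := γ • x
  invFun x := γ⁻¹ • x
  left_inv x := inv_smul_smul γ x
  right_inv x := smul_inv_smul γ x
  continuous_toFun := hΓ γ
  continuous_invFun := hΓ γ⁻¹

@[simp] lemma hom_apply (hΓ : ∀ γ : Γ, Continuous fun x : X => γ • x) (γ : Γ) (x : X) :
    hom hΓ γ x = γ • x := rfl

lemma hom_one (hΓ : ∀ γ : Γ, Continuous fun x : X => γ • x) :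
    hom hΓ (1 : Γ) = Homeomorph.refl X := by
  ext x
  exact one_smul Γ x

lemma hom_mul (hΓ : ∀ γ : Γ, Continuous fun x : X => γ • x) (γ δ : Γ) :
    hom hΓ (γ * δ) = (hom hΓ δ).trans (hom hΓ γ) := by
  ext x
  exact mul_smul γ δ x

/-- the action on the compactification -/
@[reducible] def act (hΓ : ∀ γ : Γ, Continuous fun x : X => γ • x) : MulAction Γ T.Cp where
  smul γ p := T.ext (hom hΓ γ) p
  one_smul p := by
    change T.ext (hom hΓ 1) p = p
    rw [hom_one, T.ext_refl]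
  mul_smul γ δ p := by
    change T.ext (hom hΓ (γ * δ)) p = T.ext (hom hΓ γ) (T.ext (hom hΓ δ) p)
    rw [hom_mul, T.ext_trans]

/-- holomorphic homeomorphisms are holomorphic maps for compatible atlases -/
theorem holMap_ext {A : Atl 1 T.Cp} (hC : T.Compat A) (g : X ≃ₜ X)
    (hg : T.Hol fun x => T.pr (g x)) : HolMap A A (fun p => T.ext g p) where
  cont := (T.ext g).continuous
  hol i j := by
    rintro v ⟨hv, hv'⟩
    set p : T.Cp := (A.e i).symm v with hp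
    have hpi : p ∈ (A.e i).source := (A.e i).map_target hv
    have hpj : T.ext g p ∈ (A.e j).source := hv'
    obtain ⟨a, ha⟩ : ∃ a, p ∈ (T.ch0 a).source := T.exists_mem_source p
    obtain ⟨b, hb⟩ : ∃ b, T.ext g p ∈ (T.ch0 b).source := T.exists_mem_source _
    -- the three maps
    have h1 : DifferentiableAt ℂ (fun v => T.ch0 a ((A.e i).symm v)) v :=
      (hC.inn a i).differentiableAt
        (((A.e i).isOpen_inter_preimage_symm (T.ch0 a).open_source).mem_nhds ⟨hv, ha⟩)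
    have hap : (T.ch0 a).symm (T.ch0 a p) = p := (T.ch0 a).left_inv ha
    have hopen : IsOpen {z | z ∈ (T.ch0 a).target ∧
        T.ext g ((T.ch0 a).symm z) ∈ (T.ch0 b).source} :=
      (T.ch0 a).isOpen_inter_preimage_symm
        ((T.ch0 b).open_source.preimage (T.ext g).continuous)
    have h2 : DifferentiableAt ℂ (fun z => T.ch0 b (T.ext g ((T.ch0 a).symm z))) (T.ch0 a p) :=
      (T.holo_ext g hg a b).differentiableAt
        (hopen.mem_nhds ⟨(T.ch0 a).map_source ha, by rw [hap]; exact hb⟩)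
    have hbp : (T.ch0 b).symm (T.ch0 b (T.ext g p)) = T.ext g p := (T.ch0 b).left_inv hb
    have h3 : DifferentiableAt ℂ (fun z => A.e j ((T.ch0 b).symm z)) (T.ch0 b (T.ext g p)) :=
      (hC.out b j).differentiableAt
        (((T.ch0 b).isOpen_inter_preimage_symm (A.e j).open_source).mem_nhds
          ⟨(T.ch0 b).map_source hb, by rw [mem_preimage, hbp]; exact hpj⟩)
    have h12 : DifferentiableAt ℂ
        (fun v => T.ch0 b (T.ext g ((T.ch0 a).symm (T.ch0 a ((A.e i).symm v))))) v :=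
      DifferentiableAt.comp (g := fun z => T.ch0 b (T.ext g ((T.ch0 a).symm z)))
        (f := fun v => T.ch0 a ((A.e i).symm v)) v h2 h1
    have h3' : DifferentiableAt ℂ (fun z => A.e j ((T.ch0 b).symm z))
        (T.ch0 b (T.ext g ((T.ch0 a).symm (T.ch0 a ((A.e i).symm v))))) := by
      rw [← hp, hap]
      exact h3
    have h123 := DifferentiableAt.comp (g := fun z => A.e j ((T.ch0 b).symm z))
      (f := fun v => T.ch0 b (T.ext g ((T.ch0 a).symm (T.ch0 a ((A.e i).symm v))))) v h3' h12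
    refine (h123.congr_of_eventuallyEq ?_).differentiableWithinAt
    have c1 : ContinuousAt (A.e i).symm v := (A.e i).continuousAt_symm hv
    have c2 : ContinuousAt (fun v => T.ext g ((A.e i).symm v)) v :=
      (T.ext g).continuous.continuousAt.comp c1
    filter_upwards [c1.eventually ((T.ch0 a).open_source.mem_nhds ha),
      c2.eventually ((T.ch0 b).open_source.mem_nhds hb)] with y hy1 hy2
    simp only [Function.comp_apply]
    rw [(T.ch0 a).left_inv hy1, (T.ch0 b).left_inv hy2]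

/-- **the action on the compactification is holomorphic** -/
theorem holAct {A : Atl 1 T.Cp} (hC : T.Compat A) (hΓ : ∀ γ : Γ, Continuous fun x : X => γ • x)
    (χ : Γ → ℂ) (hχ : ∀ (γ : Γ) x, T.pr (γ • x) = χ γ * T.pr x) :
    letI := T.act hΓ
    HolAct A Γ := by
  intro γ
  refine T.holMap_ext hC (hom hΓ γ) ?_
  have h1 : (fun x => T.pr (hom hΓ γ x)) = fun x => (fun z => χ γ * z) (T.pr x) :=
    funext fun x => hχ γ x
  rw [h1]
  exact Hol.comp_pr fun z _ => (differentiableAt_id.const_mul (χ γ))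

end Srf

end Crest.Agent.R257.RS_176
end
end

-- ▼ part R257/Rsn4_980
section

/-!
# R257 (S0395), part C, task C-RSN (helper980), file 4: no invariant holomorphic form

`noH` : `NoTh` (in the coordinate `pr`) implies `NoH` on `T.Cp`.
-/

set_option autoImplicit false
set_option linter.unusedSectionVars false

open Set Filter Topology Metric
open scoped ContDiff

namespace Crest.Agent.R257.Rsn1_980

open Crest.Agent.R273 Crest.Agent.R275 Crest.Agent.R275.Geo Crest.Agent.R275.Core144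
open Crest.Agent.R273.Map_835 Crest.Agent.R257.RSA_844 Crest.Agent.R257.RS_176
open Crest.Agent.R257.Rsn_843 Crest.Agent.R257.Wt_258

noncomputable section

variable {X : Type} [TopologicalSpace X] [T2Space X] {T : Srf X} {A : Atl 1 T.Cp}

/-- the order of the pole of `dw` -/
def kk (c : Option ℂ) : ℕ :=
  match c with
  | some _ => 0
  | none => 2

theorem norm_deriv_endPr (c : Option ℂ) {m : ℕ} (hm : 0 < m) {τ : ℂ} (h0 : τ ≠ 0) :
    ‖deriv (endPr c m) τ‖ * ‖τ ^ m‖ ^ kk c = m * ‖τ‖ ^ (m - 1) := by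
  have h1 : HasDerivAt (fun τ : ℂ => τ ^ m) ((m : ℂ) * τ ^ (m - 1)) τ := hasDerivAt_pow m τ
  rcases c with _ | a
  · have h2 : HasDerivAt (endPr none m) (-((m : ℂ) * τ ^ (m - 1)) / (τ ^ m) ^ 2) τ :=
      h1.inv (pow_ne_zero _ h0)
    have h3 : ‖τ ^ m‖ ≠ 0 := norm_ne_zero_iff.2 (pow_ne_zero _ h0)
    rw [h2.deriv]
    simp only [kk, norm_div, norm_neg, norm_mul, norm_pow, Complex.norm_natCast]
    rw [norm_pow] at h3
    field_simp
  · have h2 : HasDerivAt (endPr (some a) m) ((m : ℂ) * τ ^ (m - 1)) τ := h1.const_add a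
    rw [h2.deriv]
    simp only [kk, norm_mul, norm_pow, Complex.norm_natCast, pow_zero, mul_one]

/-- growth at an end -/
theorem gf_end (hC : T.Compat A) {θ : A.ι → T.Cp → ℂ} (hθ : H10 A θ) {n : ℕ} (i : T.ι)
    (hmn : T.m i ≤ n) : ∃ C : ℝ, 0 ≤ C ∧ ∀ τ : ℂ, 0 < ‖τ‖ → ‖τ‖ ≤ T.ε / 2 → ‖τ‖ ≤ 1 →
      ‖gf T A θ (T.γ i τ)‖ ≤
        C * (‖τ ^ T.m i‖ ^ (-1 + 1 / (n : ℝ)) * ‖τ ^ T.m i‖ ^ kk (T.c i)) := by
  have hε := T.εpos
  have hcont : ContinuousOn (pe A θ (T.D i)) (closedBall 0 (T.ε / 2)) := by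
    intro y hy
    have hy' : y ∈ ball (0 : ℂ) T.ε := closedBall_subset_ball (by linarith) hy
    refine ContinuousAt.continuousWithinAt (AnalyticAt.continuousAt (pe_an hθ ?_))
    filter_upwards [(T.ch0 (Sum.inr i)).open_target.mem_nhds hy'] with z hz
    exact hc_ch0 hC (Sum.inr i) hz
  obtain ⟨C, hCb⟩ := (isCompact_closedBall (0 : ℂ) (T.ε / 2)).exists_bound_of_continuousOn hcont
  have hC0 : 0 ≤ C := (norm_nonneg _).trans (hCb 0 (mem_closedBall_self (by positivity)))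
  refine ⟨C, hC0, fun τ h1 h2 h3 => ?_⟩
  have h0 : τ ≠ 0 := norm_pos_iff.1 h1
  have hP : τ ∈ T.Pn := ⟨h1, by linarith⟩
  have h4 := hCb τ (mem_closedBall_zero_iff.2 h2)
  rw [pe_end hC i hP, norm_mul] at h4
  have h5 := norm_deriv_endPr (T.c i) (T.mpos i) h0
  have hm1 : (1 : ℝ) ≤ T.m i := by exact_mod_cast T.mpos i
  have hn0 : (0 : ℝ) < n := by exact_mod_cast (T.mpos i).trans_le hmn
  set G := ‖gf T A θ (T.γ i τ)‖
  set Dn := ‖deriv (endPr (T.c i) (T.m i)) τ‖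
  set Q := ‖τ ^ T.m i‖ with hQ
  have hQ0 : 0 < Q := norm_pos_iff.2 (pow_ne_zero _ h0)
  have hp : 0 < ‖τ‖ ^ (T.m i - 1) := pow_pos h1 _
  -- `G * ‖τ‖^(m-1) ≤ C * Q^k`
  have h6 : G * ‖τ‖ ^ (T.m i - 1) ≤ C * Q ^ kk (T.c i) := by
    calc G * ‖τ‖ ^ (T.m i - 1) ≤ G * (T.m i * ‖τ‖ ^ (T.m i - 1)) := by
          refine mul_le_mul_of_nonneg_left ?_ (norm_nonneg _)
          nlinarith
      _ = (G * Dn) * Q ^ kk (T.c i) := by rw [← h5]; ring
      _ ≤ C * Q ^ kk (T.c i) := mul_le_mul_of_nonneg_right h4 (by positivity)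
  -- `1 ≤ Q^(-1+1/n) * ‖τ‖^(m-1)`
  have h7 : 1 ≤ Q ^ (-1 + 1 / (n : ℝ)) * ‖τ‖ ^ (T.m i - 1) := by
    have e1 : Q ^ (-1 + 1 / (n : ℝ)) = ‖τ‖ ^ ((T.m i : ℝ) * (-1 + 1 / (n : ℝ))) := by
      rw [hQ, norm_pow, ← Real.rpow_natCast, ← Real.rpow_mul (norm_nonneg _)]
    have e2 : ‖τ‖ ^ (T.m i - 1) = ‖τ‖ ^ ((T.m i : ℝ) - 1) := by
      rw [← Real.rpow_natCast, Nat.cast_sub (T.mpos i), Nat.cast_one]
    rw [e1, e2, ← Real.rpow_add h1]
    refine Real.one_le_rpow_of_pos_of_le_one_of_nonpos h1 h3 ?_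
    have h8 : (T.m i : ℝ) * (1 / n) ≤ 1 := by
      rw [mul_one_div, div_le_one hn0]
      exact_mod_cast hmn
    nlinarith
  have h9 : 0 ≤ G := norm_nonneg _
  calc G ≤ G * (Q ^ (-1 + 1 / (n : ℝ)) * ‖τ‖ ^ (T.m i - 1)) := by nlinarith
    _ = Q ^ (-1 + 1 / (n : ℝ)) * (G * ‖τ‖ ^ (T.m i - 1)) := by ring
    _ ≤ Q ^ (-1 + 1 / (n : ℝ)) * (C * Q ^ kk (T.c i)) :=
        mul_le_mul_of_nonneg_left h6 (Real.rpow_nonneg hQ0.le _)
    _ = C * (Q ^ (-1 + 1 / (n : ℝ)) * Q ^ kk (T.c i)) := by ring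

/-- annuli are compact -/
theorem ann_compact (T : Srf X) {r : ℝ} (hS : Sep T.S r) {c : Option ℂ} (hc : Vc T.S c) {δ ρ : ℝ}
    (hδ : 0 < δ) (hρ : ρ ≤ r) :
    IsCompact (T.pr ⁻¹' (bq c '' {q : ℂ | δ ≤ ‖q‖ ∧ ‖q‖ ≤ ρ})) := by
  have h1 : IsCompact {q : ℂ | δ ≤ ‖q‖ ∧ ‖q‖ ≤ ρ} := by
    have h2 : {q : ℂ | δ ≤ ‖q‖ ∧ ‖q‖ ≤ ρ} = closedBall 0 ρ ∩ {q : ℂ | δ ≤ ‖q‖} := by
      ext q
      simp only [mem_inter_iff, mem_closedBall_zero_iff]
      exact and_comm
    rw [h2]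
    exact (isCompact_closedBall 0 ρ).inter_right (isClosed_le continuous_const continuous_norm)
  have hne : ∀ q : ℂ, δ ≤ ‖q‖ → q ≠ 0 := fun q h => norm_pos_iff.1 (hδ.trans_le h)
  refine T.isCompact_pr_preimage (h1.image_of_continuousOn fun q hq =>
    (bq_cont (hne q hq.1)).continuousWithinAt) ?_
  rintro _ ⟨q, hq, rfl⟩
  exact bq_notMem hS hc (hne q hq.1) (hq.2.trans hρ)

theorem gbound (hC : T.Compat A) {θ : A.ι → T.Cp → ℂ} (hθ : H10 A θ) {n : ℕ}
    (hn : ∀ i, T.m i ≤ n) {r : ℝ} (hS : Sep T.S r) {c : Option ℂ} (hc : Vc T.S c) :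
    ∃ C : ℝ, 0 ≤ C ∧ ∀ x q, T.pr x = bq c q → q ≠ 0 → ‖q‖ < r →
      ‖gf T A θ x‖ ≤ C * (‖q‖ ^ (-1 + 1 / (n : ℝ)) * ‖q‖ ^ kk c) := by
  have hr := hS.pos
  have hε := T.εpos
  choose C hC0 hCb using fun i => gf_end hC hθ i (hn i)
  obtain ⟨δ, hδ, -, h1⟩ := ends T (show 0 < min 1 (T.ε / 2) by positivity)
  obtain ⟨C', hC'⟩ := (ann_compact T hS hc hδ le_rfl).exists_bound_of_continuousOn
    (holX_cont T (gf_hol hC hθ)).continuousOn
  set e : ℝ := -1 + 1 / (n : ℝ) with he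
  have he0 : e ≤ 0 := by
    have : 1 / (n : ℝ) ≤ 1 := by
      rcases Nat.eq_zero_or_pos n with h | h
      · rw [h]; simp
      · rw [div_le_one (by exact_mod_cast h)]; exact_mod_cast h
    linarith
  set c₀ : ℝ := r ^ e * δ ^ kk c with hc₀
  have hc₀p : 0 < c₀ := by positivity
  refine ⟨∑ i, C i + |C'| / c₀, add_nonneg (Finset.sum_nonneg fun i _ => hC0 i)
    (by positivity), fun x q hx h0 hq => ?_⟩
  have hq0 : 0 < ‖q‖ := norm_pos_iff.2 h0
  have hB : 0 ≤ ‖q‖ ^ e * ‖q‖ ^ kk c := by positivity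
  rcases lt_or_ge ‖q‖ δ with h2 | h2
  · obtain ⟨i, τ, b1, b2, b3, b4, b5, b6⟩ := h1 c hc q h0 h2 x hx
    have h3 := hCb i τ b2 ((b3.trans_le (min_le_right _ _)).le)
      ((b3.trans_le (min_le_left _ _)).le)
    rw [b5, b6, b1] at h3
    refine h3.trans (mul_le_mul_of_nonneg_right ?_ hB)
    have h4 : C i ≤ ∑ i, C i := Finset.single_le_sum (fun i _ => hC0 i) (Finset.mem_univ i)
    have : 0 ≤ |C'| / c₀ := by positivity
    linarith
  · have h3 := hC' x ⟨q, ⟨h2, hq.le⟩, hx.symm⟩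
    have h4 : c₀ ≤ ‖q‖ ^ e * ‖q‖ ^ kk c := by
      refine mul_le_mul ?_ (pow_le_pow_left₀ hδ.le h2 _) (by positivity) (by positivity)
      exact Real.rpow_le_rpow_of_nonpos hq0 hq.le he0
    have h5 : ‖gf T A θ x‖ ≤ |C'| := h3.trans (le_abs_self _)
    have h6 : |C'| ≤ |C'| / c₀ * (‖q‖ ^ e * ‖q‖ ^ kk c) := by
      rw [div_mul_eq_mul_div, le_div_iff₀ hc₀p]
      exact mul_le_mul_of_nonneg_left h4 (abs_nonneg _)
    have h7 : 0 ≤ ∑ i, C i := Finset.sum_nonneg fun i _ => hC0 i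
    nlinarith

theorem endL (hC : T.Compat A) {θ : A.ι → T.Cp → ℂ} (hθ : H10 A θ) {n : ℕ}
    (hn : ∀ i, T.m i ≤ n) {r : ℝ} (hS : Sep T.S r) : EndL T.pr T.S r n (gf T A θ) := by
  have hr := hS.pos
  have h1 : ∀ a ∈ T.S, Vc T.S (some a) := fun a ha b hb => by
    rw [Option.some.injEq] at hb; rwa [← hb]
  have h2 : Vc T.S none := fun b hb => by simp at hb
  choose! C hC0 hCb using fun a (ha : a ∈ T.S) => gbound hC hθ hn hS (h1 a ha)
  obtain ⟨C', hC'0, hC'b⟩ := gbound hC hθ hn hS h2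
  have hs0 : 0 ≤ ∑ a ∈ T.S, C a := Finset.sum_nonneg fun a ha => hC0 a ha
  refine ⟨∑ a ∈ T.S, C a + C', ?_, ?_⟩
  · intro a ha x hx
    have hne : T.pr x - a ≠ 0 := by
      intro h
      exact T.pr_notMem x (by rw [sub_eq_zero.1 h]; exact ha)
    have h3 := hCb a ha x (T.pr x - a) (by simp [bq]) hne hx
    simp only [kk, pow_zero, mul_one] at h3
    refine h3.trans (mul_le_mul_of_nonneg_right ?_ (Real.rpow_nonneg (norm_nonneg _) _))
    have h4 : C a ≤ ∑ a ∈ T.S, C a := Finset.single_le_sum (fun a ha => hC0 a ha) ha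
    linarith
  · intro x hx
    have hx0 : 0 < ‖T.pr x‖ := (inv_pos.2 hr).trans hx
    have hne : (T.pr x)⁻¹ ≠ 0 := inv_ne_zero (norm_pos_iff.1 hx0)
    have h3 := hC'b x (T.pr x)⁻¹ (by simp [bq]) hne (by
      rw [norm_inv]; exact inv_lt_of_inv_lt₀ hr hx)
    have h4 : ‖(T.pr x)⁻¹‖ ^ (-1 + 1 / (n : ℝ)) * ‖(T.pr x)⁻¹‖ ^ kk none =
        ‖T.pr x‖ ^ (-1 - 1 / (n : ℝ)) := by
      change ‖(T.pr x)⁻¹‖ ^ (-1 + 1 / (n : ℝ)) * ‖(T.pr x)⁻¹‖ ^ 2 = _
      rw [norm_inv, ← Real.rpow_natCast, ← Real.rpow_add (inv_pos.2 hx0), Real.inv_rpow hx0.le,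
        ← Real.rpow_neg hx0.le]
      congr 1
      push_cast
      ring
    rw [h4] at h3
    refine h3.trans (mul_le_mul_of_nonneg_right ?_ (Real.rpow_nonneg (norm_nonneg _) _))
    linarith

/-! ### the invariant forms -/

section act

variable {Γ : Type} [Group Γ] [Fintype Γ] [MulAction Γ X]

theorem gf_inv (hC : T.Compat A) {θ : A.ι → T.Cp → ℂ} (hθ : H10 A θ)
    (hΓ : ∀ γ : Γ, Continuous fun x : X => γ • x) {χ : Γ → ℂ}
    (hχ : ∀ (γ : Γ) x, T.pr (γ • x) = χ γ * T.pr x) (hχ0 : ∀ γ, χ γ ≠ 0)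
    (hinv : letI := T.act hΓ; InvH A Γ θ) (γ : Γ) (x : X) :
    χ γ * gf T A θ (γ • x) = gf T A θ x := by
  let _ := T.act hΓ
  have hact : HolAct A Γ := T.holAct hC hΓ χ hχ
  set s := sx T x with hs
  have hm : T.pr x ∈ ball s.w s.r := sx_mem x
  have hsx : s.s (T.pr x) = x := sx_s x
  have hχw : (χ γ)⁻¹ * (χ γ * T.pr x) = T.pr x := by
    rw [← mul_assoc, inv_mul_cancel₀ (hχ0 γ), one_mul]
  -- the section `σ'`
  set σ' : ℂ → X := fun z => γ • s.s ((χ γ)⁻¹ * z) with hσ'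
  have hcs : ContinuousAt s.s (T.pr x) := s.cont.continuousAt (isOpen_ball.mem_nhds hm)
  have hc1 : ContinuousAt (fun z : ℂ => (χ γ)⁻¹ * z) (χ γ * T.pr x) := by fun_prop
  have hc' : ContinuousAt σ' (χ γ * T.pr x) := by
    refine (hΓ γ).continuousAt.comp ?_
    refine ContinuousAt.comp (f := fun z : ℂ => (χ γ)⁻¹ * z) (g := s.s) ?_ hc1
    rw [hχw]; exact hcs
  have hev : ∀ᶠ z in 𝓝 (χ γ * T.pr x), T.pr (σ' z) = z := by
    have h1 : ∀ᶠ z in 𝓝 (χ γ * T.pr x), (χ γ)⁻¹ * z ∈ ball s.w s.r := by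
      refine hc1.eventually (isOpen_ball.mem_nhds ?_)
      change (χ γ)⁻¹ * (χ γ * T.pr x) ∈ ball s.w s.r
      rw [hχw]; exact hm
    filter_upwards [h1] with z hz
    rw [hσ']
    simp only
    rw [hχ, s.sec _ hz, ← mul_assoc, mul_inv_cancel₀ (hχ0 γ), one_mul]
  have hval : σ' (χ γ * T.pr x) = γ • x := by
    rw [hσ']
    simp only
    rw [hχw, hsx]
  have h1 : gf T A θ (γ • x) = pe A θ (fun z => T.jn (σ' z)) (χ γ * T.pr x) := by
    rw [← hval]; exact gf_sec θ hc' hev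
  have h2 : gf T A θ x = pe A θ (fun z => γ • T.jn (s.s z)) (T.pr x) :=
    (pe_inv hact hθ hinv (hc_ch0 hC (Sum.inl s) hm) γ).symm
  have h3 : (fun z => γ • T.jn (s.s z)) = fun z => T.jn (σ' (χ γ * z)) := by
    funext z
    rw [hσ']
    simp only
    rw [← mul_assoc, inv_mul_cancel₀ (hχ0 γ), one_mul]
    rfl
  rw [h2, h3, pe_comp (c := fun z => T.jn (σ' z)) (φ := fun z => χ γ * z) (hc_sec hC hc' hev)
    (by fun_prop), h1]
  have h4 : deriv (fun z : ℂ => χ γ * z) (T.pr x) = χ γ := by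
    simp
  rw [h4, mul_comm]

/-- **no invariant holomorphic form on the compactification** -/
theorem noH (hC : T.Compat A) {n : ℕ} (hn : ∀ i, T.m i ≤ n) {r : ℝ} (hS : Sep T.S r)
    (hΓ : ∀ γ : Γ, Continuous fun x : X => γ • x) {χ : Γ → ℂ}
    (hχ : ∀ (γ : Γ) x, T.pr (γ • x) = χ γ * T.pr x) (hχ0 : ∀ γ, χ γ ≠ 0)
    (hno : NoTh (Γ := Γ) T.pr χ T.S r n) : letI := T.act hΓ; NoH A Γ := by
  intro θ hθ hinv
  refine form_zero hC hθ ?_
  exact hno (gf T A θ) (gf_hol hC hθ) (gf_inv hC hθ hΓ hχ hχ0 hinv) (endL hC hθ hn hS)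

end act

end

end Crest.Agent.R257.Rsn1_980
private theorem rz_2a2d0273eb : type_of% @_root_.Crest.Agent.R257.Rsn1_980.kk.eq_1 := @_root_.Crest.Agent.R257.Rsn1_980.kk.eq_1 -- L28
end

-- ▼ part R257/Rsn5_980
section

/-!
# R257 (S0395), part C, task C-RSN (helper980), file 5: the invariant function

`mero` : the invariant zero-free function with prescribed exponents at the ends, for `T : Srf X`.
-/

set_option autoImplicit false
set_option linter.unusedSectionVars false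

open Set Filter Topology Metric
open scoped ContDiff

namespace Crest.Agent.R257.Rsn1_980

open Crest.Agent.R273 Crest.Agent.R275 Crest.Agent.R275.Geo Crest.Agent.R275.Core144
open Crest.Agent.R273.Map_835 Crest.Agent.R257.RSA_844 Crest.Agent.R257.RS_176
open Crest.Agent.R257.Rsn_843 Crest.Agent.R257.Wt_258

noncomputable section

variable {X : Type} [TopologicalSpace X] [T2Space X] {T : Srf X}
variable {Γ : Type} [Group Γ] [Fintype Γ] [MulAction Γ X]

/-- two-sided bound near a point where the function is continuous and not zero -/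
theorem ev_two {α : Type*} [TopologicalSpace α] {f : α → ℂ} {x : α} (h : ContinuousAt f x)
    (h0 : f x ≠ 0) : ∃ C : ℝ, 0 < C ∧ ∀ᶠ y in 𝓝 x, C⁻¹ ≤ ‖f y‖ ∧ ‖f y‖ ≤ C := by
  have hp : 0 < ‖f x‖ := norm_pos_iff.2 h0
  have h1 := h.norm.eventually (Ioo_mem_nhds (show ‖f x‖ / 2 < ‖f x‖ by linarith)
    (show ‖f x‖ < 2 * ‖f x‖ by linarith))
  refine ⟨2 * ‖f x‖ + 2 * ‖f x‖⁻¹, by positivity, ?_⟩
  filter_upwards [h1] with y hy
  have hi : 0 < ‖f x‖⁻¹ := inv_pos.2 hp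
  refine ⟨?_, by linarith [hy.2]⟩
  have h2 : (2 * ‖f x‖ + 2 * ‖f x‖⁻¹)⁻¹ ≤ (2 * ‖f x‖⁻¹)⁻¹ :=
    inv_anti₀ (by positivity) (by linarith)
  have h3 : (2 * ‖f x‖⁻¹)⁻¹ = ‖f x‖ / 2 := by field_simp
  linarith [hy.1]

/-- two-sided bound on a compact set -/
theorem cpt_two {α : Type*} [TopologicalSpace α] {K : Set α} (hK : IsCompact K) {f : α → ℝ}
    (h : ContinuousOn f K) (h0 : ∀ x ∈ K, 0 < f x) :
    ∃ C : ℝ, 0 < C ∧ ∀ y ∈ K, C⁻¹ ≤ f y ∧ f y ≤ C := by
  obtain ⟨C₁, h1⟩ := hK.exists_bound_of_continuousOn h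
  obtain ⟨C₂, h2⟩ := hK.exists_bound_of_continuousOn (h.inv₀ fun x hx => (h0 x hx).ne')
  refine ⟨1 + |C₁| + |C₂|, by positivity, fun y hy => ?_⟩
  have h3 := h1 y hy
  have h4 : ‖(f y)⁻¹‖ ≤ C₂ := h2 y hy
  have hp := h0 y hy
  simp only [Real.norm_eq_abs] at h3 h4
  rw [abs_of_pos hp] at h3
  rw [abs_of_pos (inv_pos.2 hp)] at h4
  refine ⟨?_, by linarith [le_abs_self C₁, abs_nonneg C₂]⟩
  have h5 : (f y)⁻¹ ≤ 1 + |C₁| + |C₂| := by linarith [le_abs_self C₂, abs_nonneg C₁]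
  exact inv_le_of_inv_le₀ hp h5

/-- the invariant function -/
theorem mero [ConnectedSpace X] {n : ℕ} (hn : ∀ i, T.m i ≤ n) {r : ℝ} (hS : Sep T.S r)
    (hΓ : ∀ γ : Γ, Continuous fun x : X => γ • x) {χ : Γ → ℂ}
    (hχ : ∀ (γ : Γ) x, T.pr (γ • x) = χ γ * T.pr x) (hχ0 : ∀ γ, χ γ ≠ 0)
    (hno : NoTh (Γ := Γ) T.pr χ T.S r n) (D : T.ι → ℤ)
    (hD : ∀ (γ : Γ) i, D (T.σE (Srf.hom hΓ γ) i) = D i) (hD0 : ∑ i, D i = 0) :
    ∃ f : X → ℂ, HolX T.pr f ∧ (∀ x, f x ≠ 0) ∧ (∀ (γ : Γ) x, f (γ • x) = f x) ∧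
      ∀ i, ∃ C δ : ℝ, 0 < C ∧ 0 < δ ∧ ∀ τ : ℂ, 0 < ‖τ‖ → ‖τ‖ < δ →
        C⁻¹ * ‖τ‖ ^ ((Fintype.card Γ : ℤ) * D i) ≤ ‖f (T.γ i τ)‖ ∧
        ‖f (T.γ i τ)‖ ≤ C * ‖τ‖ ^ ((Fintype.card Γ : ℤ) * D i) := by
  classical
  obtain ⟨A, -, ⟨P⟩, hfin, hC, -⟩ := T.exists_atl (fun _ : Unit => (univ : Set T.Cp))
    (fun _ => isOpen_univ) (fun _ => ⟨(), mem_univ _⟩)
  let _ := T.act hΓ
  have hact : HolAct A Γ := T.holAct hC hΓ χ hχ
  have hnoH : NoH A Γ := noH hC hn hS hΓ hχ hχ0 hno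
  set S : Finset T.Cp := Finset.univ.map ⟨T.en, T.en_injective⟩ with hSdef
  have hjS : ∀ x, T.jn x ∉ S := by
    intro x hx
    rw [hSdef, Finset.mem_map] at hx
    obtain ⟨i, -, hi⟩ := hx
    exact T.jn_ne_en x i hi.symm
  have heS : ∀ i, T.en i ∈ S := fun i => by
    rw [hSdef, Finset.mem_map]
    exact ⟨i, Finset.mem_univ _, rfl⟩
  set D' : T.Cp → ℤ := fun p => Sum.elim (fun _ => (0 : ℤ)) (fun i => D i) p with hD'
  have hD'j : ∀ x, D' (T.jn x) = 0 := fun x => rfl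
  have hD'e : ∀ i, D' (T.en i) = D i := fun i => rfl
  obtain ⟨F, h1, h2, h3⟩ := exists_mero (Γ := Γ) P hact hnoH S
    (by
      intro γ p hp
      rw [hSdef, Finset.mem_map] at hp
      obtain ⟨i, -, rfl⟩ := hp
      exact heS (T.σE (Srf.hom hΓ γ) i))
    D'
    (by
      intro γ p
      rcases T.cases p with ⟨x, rfl⟩ | ⟨i, rfl⟩
      · exact (hD'j (γ • x)).trans (hD'j x).symm
      · exact (hD'e (T.σE (Srf.hom hΓ γ) i)).trans ((hD γ i).trans (hD'e i).symm))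
    (by
      rw [hSdef, Finset.sum_map]
      exact hD0)
  refine ⟨fun x => F (T.jn x), ?_, fun x => (h2 _ (hjS x)).1, fun γ x => h1 γ _ (hjS x), ?_⟩
  · -- holomorphic
    intro w₀ ρ σ hρ hσ hs
    have hw : w₀ ∈ ball w₀ ρ := mem_ball_self hρ
    exact holN_ch0 hC (Sum.inl ⟨w₀, ρ, σ, hσ, hs⟩) hw (h2 _ (hjS (σ w₀))).2
  · intro i
    obtain ⟨u, hu, hu0, hue⟩ := h3 (T.en i) (heS i) _ (crd_end hC i)
    have h0 : (0 : ℂ) ∈ (T.ch0 (Sum.inr i)).target := mem_ball_self T.εpos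
    have hs0 : (T.ch0 (Sum.inr i)).symm 0 = T.en i := T.D_zero i
    have hcu : ContinuousAt (fun y => u ((T.ch0 (Sum.inr i)).symm y)) 0 :=
      (holN_ch0 hC (Sum.inr i) h0 (by rw [hs0]; exact hu)).continuousAt
    obtain ⟨C, hC0, hCe⟩ := ev_two hcu (by rw [hs0]; exact hu0)
    have hc0 : Tendsto (T.ch0 (Sum.inr i)).symm (𝓝 0) (𝓝 (T.en i)) := by
      have := (T.ch0 (Sum.inr i)).continuousAt_symm h0
      rwa [ContinuousAt, hs0] at this
    have hev := (hc0.eventually hue).and (hCe.and ((T.ch0 (Sum.inr i)).open_target.mem_nhds h0))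
    obtain ⟨δ, hδ, hball⟩ := Metric.eventually_nhds_iff_ball.1 hev
    refine ⟨C, δ, hC0, hδ, fun τ b1 b2 => ?_⟩
    obtain ⟨a1, ⟨a2, a3⟩, a4⟩ := hball τ (mem_ball_zero_iff.2 b2)
    have hne : τ ≠ 0 := norm_pos_iff.1 b1
    have e1 : (T.ch0 (Sum.inr i)).symm τ = T.jn (T.γ i τ) := T.D_of_ne i hne
    have e2 : T.ch0 (Sum.inr i) (T.jn (T.γ i τ)) = τ := by
      rw [← e1]; exact (T.ch0 (Sum.inr i)).right_inv a4
    rw [e1] at a1 a2 a3
    have e3 := a1 (T.jn_ne_en _ _)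
    rw [e2, hD'e] at e3
    change C⁻¹ * _ ≤ ‖F (T.jn (T.γ i τ))‖ ∧ ‖F (T.jn (T.γ i τ))‖ ≤ _
    rw [e3, norm_mul, norm_zpow]
    have hz : 0 < ‖τ‖ ^ ((Fintype.card Γ : ℤ) * D i) := zpow_pos b1 _
    constructor
    · rw [mul_comm]
      exact mul_le_mul_of_nonneg_left a2 hz.le
    · rw [mul_comm]
      exact mul_le_mul_of_nonneg_right a3 hz.le

end

end Crest.Agent.R257.Rsn1_980
end

-- ▼ part R257/Rsn6_980

/-!
# R257 (S0395), part C, task C-RSN (helper980), file 6: **`RSNStmt`**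
-/

set_option autoImplicit false
set_option linter.unusedSectionVars false

open Set Filter Topology Metric

namespace Crest.Agent.R257.Rsn1_980

open Crest.Agent.R257.RS_176 Crest.Agent.R257.Rsn_843 Crest.Agent.R257.Wt_258
open Crest.Agent.R257.Cpt1_419 (FCov exists_srf)

noncomputable section

variable {X : Type} [TopologicalSpace X] [T2Space X] {T : Srf X}

theorem exists_small' {ι : Type*} [Finite ι] {δ : ι → ℝ} (h : ∀ i, 0 < δ i) {ρ : ℝ}
    (hρ : 0 < ρ) : ∃ η > 0, η ≤ ρ ∧ ∀ i, η ≤ δ i := by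
  have h1 : ∀ᶠ η in 𝓝[>] (0 : ℝ), ∀ i, η ≤ δ i := by
    rw [eventually_all]
    intro i
    exact mem_of_superset (Ioo_mem_nhdsGT (h i)) fun η hη => hη.2.le
  have h2 : ∀ᶠ η in 𝓝[>] (0 : ℝ), η ≤ ρ :=
    mem_of_superset (Ioo_mem_nhdsGT hρ) fun η hη => hη.2.le
  obtain ⟨η, h3, h4, h5⟩ := (h1.and (h2.and self_mem_nhdsWithin)).exists
  exact ⟨η, h5, h4, h3⟩

/-- two-sided bound -/
def Bd2 (C y z : ℝ) : Prop := C⁻¹ * y ≤ z ∧ z ≤ C * y

theorem Bd2.mono {C C' y z : ℝ} (h : Bd2 C y z) (hC : 0 < C) (hCC : C ≤ C') (hy : 0 ≤ y) :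
    Bd2 C' y z :=
  ⟨(mul_le_mul_of_nonneg_right (inv_anti₀ hC hCC) hy).trans h.1,
    h.2.trans (mul_le_mul_of_nonneg_right hCC hy)⟩

/-- the coordinate of a point -/
def qf (T : Srf X) (c : Option ℂ) (x : X) : ℂ :=
  match c with
  | some a => T.pr x - a
  | none => (T.pr x)⁻¹

theorem qf_eq {c : Option ℂ} {x : X} {q : ℂ} (h : T.pr x = bq c q) : qf T c x = q := by
  rcases c with _ | a
  · change (T.pr x)⁻¹ = q
    rw [h]
    change (q⁻¹)⁻¹ = q
    exact inv_inv q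
  · change T.pr x - a = q
    rw [h]
    change a + q - a = q
    ring

theorem qf_cont {c : Option ℂ} {x : X} (h : qf T c x ≠ 0) : ContinuousAt (qf T c) x := by
  rcases c with _ | a
  · have h1 : T.pr x ≠ 0 := fun h0 => h (by change (T.pr x)⁻¹ = 0; rw [h0, inv_zero])
    exact T.contPr.continuousAt.inv₀ h1
  · exact (T.contPr.sub continuous_const).continuousAt

theorem fbound {f : X → ℂ} (hf : HolX T.pr f) (hf0 : ∀ x, f x ≠ 0) {r : ℝ} (hS : Sep T.S r)
    {mu : X → ℤ} (hmu : ∀ x, NE T.S r (T.pr x) → ∀ᶠ y in 𝓝 x, mu y = mu x)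
    {δ₀ : ℝ} (hδ₀ : 0 < δ₀) {μ : T.ι → ℤ} (hμ : ∀ i, ∀ τ ∈ PD δ₀, mu (T.γ i τ) = μ i)
    (hend : ∀ i, ∃ C δ : ℝ, 0 < C ∧ 0 < δ ∧ ∀ τ : ℂ, 0 < ‖τ‖ → ‖τ‖ < δ →
      Bd2 C (‖τ‖ ^ ((T.m i : ℤ) * μ i)) ‖f (T.γ i τ)‖) {c : Option ℂ} (hc : Vc T.S c) :
    ∃ C : ℝ, 0 < C ∧ ∀ x q, T.pr x = bq c q → q ≠ 0 → ‖q‖ < r / 2 →
      Bd2 C (‖q‖ ^ mu x) ‖f x‖ := by
  have hr := hS.pos
  choose C δ hC hδ hb using hend
  obtain ⟨η, hη, hηδ₀, hηδ⟩ := exists_small' hδ hδ₀
  obtain ⟨δ', hδ', -, h1⟩ := ends T hη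
  have hK := ann_compact T hS hc hδ' (show r / 2 ≤ r by linarith)
  have hKq : ∀ x ∈ T.pr ⁻¹' (bq c '' {q : ℂ | δ' ≤ ‖q‖ ∧ ‖q‖ ≤ r / 2}),
      δ' ≤ ‖qf T c x‖ ∧ ‖qf T c x‖ ≤ r / 2 ∧ T.pr x = bq c (qf T c x) := by
    rintro x ⟨q, hq, hx⟩
    rw [qf_eq hx.symm]
    exact ⟨hq.1, hq.2, hx.symm⟩
  obtain ⟨C', hC', h2⟩ := cpt_two hK (f := fun x => ‖f x‖ / ‖qf T c x‖ ^ mu x)
    (by
      intro x hx
      obtain ⟨a1, a2, a3⟩ := hKq x hx
      have hq0 : qf T c x ≠ 0 := norm_pos_iff.1 (hδ'.trans_le a1)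
      have hne : NE T.S r (T.pr x) := by
        rw [a3]
        exact ne_bq hc hq0 (by linarith)
      have hcq : ContinuousAt (fun y => ‖qf T c y‖ ^ mu x) x :=
        ContinuousAt.zpow₀ (qf_cont hq0).norm _ (Or.inl (norm_ne_zero_iff.2 hq0))
      have hcf : ContinuousAt (fun y => ‖f y‖ / ‖qf T c y‖ ^ mu x) x :=
        ((holX_cont T hf).norm.continuousAt).div hcq
          (zpow_ne_zero _ (norm_ne_zero_iff.2 hq0))
      refine ContinuousAt.continuousWithinAt (hcf.congr ?_)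
      filter_upwards [hmu x hne] with y hy
      rw [hy])
    (by
      intro x hx
      obtain ⟨a1, a2, a3⟩ := hKq x hx
      exact div_pos (norm_pos_iff.2 (hf0 x)) (zpow_pos (hδ'.trans_le a1) _))
  have hs0 : 0 ≤ ∑ i, C i := Finset.sum_nonneg fun i _ => (hC i).le
  refine ⟨∑ i, C i + C', by linarith, fun x q hx h0 hq => ?_⟩
  have hqn : 0 < ‖q‖ := norm_pos_iff.2 h0
  rcases lt_or_ge ‖q‖ δ' with h3 | h3
  · obtain ⟨i, τ, b1, b2, b3, b4, b5, b6⟩ := h1 c hc q h0 h3 x hx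
    have h4 := hb i τ b2 (b3.trans_le (hηδ i))
    have h5 : mu x = μ i := by rw [← b6]; exact hμ i τ ⟨b2, b3.trans_le hηδ₀⟩
    rw [b6, zpow_mul, zpow_natCast, ← norm_pow, b5, ← h5] at h4
    refine h4.mono (hC i) ?_ (zpow_pos hqn _).le
    have h6 : C i ≤ ∑ i, C i := Finset.single_le_sum (fun i _ => (hC i).le) (Finset.mem_univ i)
    linarith
  · have h4 := h2 x ⟨q, ⟨h3, hq.le⟩, hx.symm⟩
    simp only [qf_eq hx] at h4
    have hz : 0 < ‖q‖ ^ mu x := zpow_pos hqn _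
    have h5 : Bd2 C' (‖q‖ ^ mu x) ‖f x‖ :=
      ⟨(le_div_iff₀ hz).1 h4.1, (div_le_iff₀ hz).1 h4.2⟩
    exact h5.mono hC' (by linarith) hz.le

variable {Γ : Type} [Group Γ] [Fintype Γ] [MulAction Γ X]

theorem m_σ (hΓ : ∀ γ : Γ, Continuous fun x : X => γ • x) {χ : Γ → ℂ}
    (hχ : ∀ (γ : Γ) x, T.pr (γ • x) = χ γ * T.pr x) (γ : Γ) (i : T.ι) :
    T.m (T.σE (Srf.hom hΓ γ) i) = T.m i := by
  refine le_antisymm ?_ (m_le_σ T (Srf.hom hΓ γ) (hχ γ) i)
  have h1 := m_le_σ T (Srf.hom hΓ γ⁻¹) (hχ γ⁻¹) (T.σE (Srf.hom hΓ γ) i)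
  have h2 : T.σE (Srf.hom hΓ γ⁻¹) (T.σE (Srf.hom hΓ γ) i) = i := by
    let _ := T.act hΓ
    have h3 : γ⁻¹ • (γ • T.en i) = T.en i := inv_smul_smul γ (T.en i)
    exact T.en_injective h3
  rwa [h2] at h1

theorem rsn_srf [ConnectedSpace X] {n : ℕ} (hn : ∀ w, {x | T.pr x = w}.ncard ≤ n) {r : ℝ}
    (hS : Sep T.S r) (hΓ : ∀ γ : Γ, Continuous fun x : X => γ • x) {χ : Γ → ℂ}
    (hχ : ∀ (γ : Γ) x, T.pr (γ • x) = χ γ * T.pr x) (hχ1 : ∀ γ, ‖χ γ‖ = 1)
    (hno : NoTh (Γ := Γ) T.pr χ T.S r n) {mu : X → ℤ}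
    (hmu : ∀ x, NE T.S r (T.pr x) → ∀ᶠ y in 𝓝 x, mu y = mu x)
    (hmuΓ : ∀ (γ : Γ) x, mu (γ • x) = mu x) (hdvd : ∀ x, (Fintype.card Γ : ℤ) ∣ mu x)
    (w : Option ℂ → ℂ) (hw1 : ∀ c ∈ T.S, 0 < ‖w (some c) - c‖ ∧ ‖w (some c) - c‖ < r)
    (hw2 : r⁻¹ < ‖w none‖) (hsum : ∑ c ∈ T.S, Fs T mu (w (some c)) + Fs T mu (w none) = 0) :
    ∃ (f : X → ℂ) (C : ℝ), HolX T.pr f ∧ (∀ x, f x ≠ 0) ∧ (∀ (γ : Γ) x, f (γ • x) = f x) ∧
      0 < C ∧ (∀ c ∈ T.S, ∀ x, ‖T.pr x - c‖ < r / 2 → Bd2 C (‖T.pr x - c‖ ^ mu x) ‖f x‖) ∧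
      ∀ x, 2 * r⁻¹ < ‖T.pr x‖ → Bd2 C (‖T.pr x‖ ^ (-mu x)) ‖f x‖ := by
  classical
  have hr := hS.pos
  have hε := T.εpos
  set δ₀ : ℝ := min (min 1 r) T.ε with hδ₀d
  have hδ₀ : 0 < δ₀ := by positivity
  have d1 : δ₀ ≤ 1 := (min_le_left _ _).trans (min_le_left _ _)
  have d2 : δ₀ ≤ r := (min_le_left _ _).trans (min_le_right _ _)
  have d3 : δ₀ ≤ T.ε := min_le_right _ _
  have hhalf : ∀ {δ : ℝ}, 0 < δ → ((δ / 2 : ℝ) : ℂ) ∈ PD δ := by
    intro δ hδ
    have h1 : ‖((δ / 2 : ℝ) : ℂ)‖ = δ / 2 := by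
      rw [Complex.norm_real, Real.norm_of_nonneg (by positivity)]
    exact ⟨by rw [h1]; positivity, by rw [h1]; linarith⟩
  set μ : T.ι → ℤ := fun i => mu (T.γ i ((δ₀ / 2 : ℝ) : ℂ)) with hμd
  have hμ : ∀ i, ∀ τ ∈ PD δ₀, mu (T.γ i τ) = μ i := fun i τ hτ =>
    mu_const T hmu d1 d2 d3 i hτ (hhalf hδ₀)
  set D : T.ι → ℤ := fun i => (T.m i : ℤ) * μ i / (Fintype.card Γ : ℤ) with hDd
  have hcD : ∀ i, (Fintype.card Γ : ℤ) * D i = (T.m i : ℤ) * μ i := fun i =>
    Int.mul_ediv_cancel' ((hdvd _).mul_left _)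
  have hcard : (Fintype.card Γ : ℤ) ≠ 0 := by exact_mod_cast Fintype.card_ne_zero
  have hμσ : ∀ (γ : Γ) i, μ (T.σE (Srf.hom hΓ γ) i) = μ i := by
    intro γ i
    obtain ⟨δ, hδ, hδε, h1⟩ := T.σE_spec (Srf.hom hΓ γ) i hδ₀
    have hm : 0 < min δ δ₀ := lt_min hδ hδ₀
    have h2 := hhalf hm
    obtain ⟨τ', hτ', he⟩ := h1 ⟨_, ⟨_, PD_mono (min_le_left _ _) h2, rfl⟩, rfl⟩
    rw [← hμ _ τ' hτ', he, Srf.hom_apply, hmuΓ, hμ i _ (PD_mono (min_le_right _ _) h2)]
  have hDσ : ∀ (γ : Γ) i, D (T.σE (Srf.hom hΓ γ) i) = D i := by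
    intro γ i
    simp only [hDd]
    rw [hμσ, m_σ hΓ hχ]
  have hvs : ∀ a ∈ T.S, Vc T.S (some a) := fun a ha b hb => by
    rw [Option.some.injEq] at hb; rwa [← hb]
  have hvn : Vc T.S none := fun b hb => by simp at hb
  have hD0 : ∑ i, D i = 0 := by
    have h1 : ∀ a ∈ T.S, Fs T mu (w (some a)) =
        ∑ i, if T.c i = some a then (T.m i : ℤ) * μ i else 0 := by
      intro a ha
      have h2 := fs_end T hS hmu hδ₀ d3 hμ (hvs a ha) (q := w (some a) - a) (hw1 a ha)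
      have h3 : bq (some a) (w (some a) - a) = w (some a) := by
        change a + (w (some a) - a) = _
        ring
      rwa [h3] at h2
    have hwn : 0 < ‖w none‖ := (inv_pos.2 hr).trans hw2
    have h2 := fs_end T hS hmu hδ₀ d3 hμ hvn (q := (w none)⁻¹)
      ⟨by rw [norm_inv]; exact inv_pos.2 hwn, by
        rw [norm_inv]; exact inv_lt_of_inv_lt₀ hr hw2⟩
    have h3 : bq none (w none)⁻¹ = w none := by
      change ((w none)⁻¹)⁻¹ = _
      exact inv_inv _
    rw [h3] at h2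
    rw [Finset.sum_congr rfl h1, h2, Finset.sum_comm, ← Finset.sum_add_distrib] at hsum
    have h4 : ∀ i, (∑ a ∈ T.S, if T.c i = some a then (T.m i : ℤ) * μ i else 0) +
        (if T.c i = none then (T.m i : ℤ) * μ i else 0) = (Fintype.card Γ : ℤ) * D i := by
      intro i
      rw [hcD]
      rcases hci : T.c i with _ | b
      · simp
      · have hb := T.c_mem i b hci
        simp only [Option.some.injEq, reduceCtorEq, if_false, add_zero]
        rw [Finset.sum_ite_eq]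
        simp [hb]
    rw [Finset.sum_congr rfl fun i _ => h4 i, ← Finset.mul_sum] at hsum
    exact (mul_eq_zero.1 hsum).resolve_left hcard
  have hχ0 : ∀ γ, χ γ ≠ 0 := fun γ h0 => by
    have := hχ1 γ
    rw [h0, norm_zero] at this
    exact zero_ne_one this
  obtain ⟨f, hf, hf0, hfΓ, hend⟩ := mero (Γ := Γ) (fun i => m_le_n T hn i) hS hΓ hχ hχ0 hno D
    hDσ hD0
  have hend' : ∀ i, ∃ C δ : ℝ, 0 < C ∧ 0 < δ ∧ ∀ τ : ℂ, 0 < ‖τ‖ → ‖τ‖ < δ →
      Bd2 C (‖τ‖ ^ ((T.m i : ℤ) * μ i)) ‖f (T.γ i τ)‖ := by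
    intro i
    obtain ⟨C, δ, h1, h2, h3⟩ := hend i
    refine ⟨C, δ, h1, h2, fun τ a b => ?_⟩
    have h4 := h3 τ a b
    rw [hcD] at h4
    exact h4
  choose! C hC0 hCb using fun a (ha : a ∈ T.S) => fbound hf hf0 hS hmu hδ₀ hμ hend' (hvs a ha)
  obtain ⟨C', hC', hC'b⟩ := fbound hf hf0 hS hmu hδ₀ hμ hend' hvn
  have hs0 : 0 ≤ ∑ a ∈ T.S, C a := Finset.sum_nonneg fun a ha => (hC0 a ha).le
  refine ⟨f, ∑ a ∈ T.S, C a + C', hf, hf0, hfΓ, by linarith, ?_, ?_⟩
  · intro a ha x hx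
    have hne : T.pr x - a ≠ 0 := by
      intro h
      exact T.pr_notMem x (by rw [sub_eq_zero.1 h]; exact ha)
    refine (hCb a ha x (T.pr x - a) (by simp [bq]) hne hx).mono (hC0 a ha) ?_
      (zpow_pos (norm_pos_iff.2 hne) _).le
    have h4 : C a ≤ ∑ a ∈ T.S, C a := Finset.single_le_sum (fun a ha => (hC0 a ha).le) ha
    linarith
  · intro x hx
    have hx0 : 0 < ‖T.pr x‖ := by
      have := inv_pos.2 hr
      linarith
    have h1 := hC'b x (T.pr x)⁻¹ (by simp [bq]) (inv_ne_zero (norm_pos_iff.1 hx0)) (by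
      rw [norm_inv]
      have h2 : (r / 2)⁻¹ < ‖T.pr x‖ := by
        have : (r / 2)⁻¹ = 2 * r⁻¹ := by field_simp
        rw [this]; exact hx
      exact inv_lt_of_inv_lt₀ (by positivity) h2)
    rw [norm_inv, inv_zpow, ← zpow_neg] at h1
    exact h1.mono hC' (by linarith) (zpow_pos hx0 _).le

/-- **`RSNStmt`** -/
theorem rsn : RSNStmt := by
  intro S X _ _ _ P Γ _ _ _ χ n mu r hS hn hΓ hχ hχ1 hno hmu hmuΓ hdvd hw
  obtain ⟨w, hw1, hw2, hsum⟩ := hw
  obtain ⟨T, hpr, hTS⟩ := exists_srf P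
  have hprx : ∀ x, (P.p x).1 = T.pr x := fun x => (congrFun hpr x).symm
  have hnn : ∀ w, {x | T.pr x = w}.ncard ≤ n := by
    intro w
    by_cases hwS : w ∈ S
    · have h1 : {x | T.pr x = w} = ∅ := by
        ext x
        simp only [mem_ofPred_eq, mem_empty_iff_false, iff_false]
        intro hx
        exact T.pr_notMem x (by rw [hx, hTS]; exact hwS)
      rw [h1, Set.ncard_empty]
      exact Nat.zero_le _
    · have h1 : {x | T.pr x = w} = P.p ⁻¹' {⟨w, by simpa using hwS⟩} := by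
        ext x
        simp only [mem_ofPred_eq, mem_preimage, mem_singleton_iff]
        rw [← hprx, Subtype.ext_iff]
      rw [h1]
      exact hn _
  simp only [hprx] at hχ hno hmu hw1 hw2 hsum
  rw [← hTS] at hS hno hw1
  obtain ⟨f, C, h1, h2, h3, h4, h5, h6⟩ := rsn_srf (T := T) (Γ := Γ) (n := n) (r := r) (χ := χ)
    (mu := mu) hnn hS hΓ hχ hχ1 hno (fun x hx => hmu x (by rw [← hTS]; exact hx)) hmuΓ hdvd w hw1
    hw2 (by rw [hTS]; exact hsum)
  refine ⟨f, C, ?_, h2, h3, h4, ?_, ?_⟩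
  · simp only [hprx]; exact h1
  · simp only [hprx]
    rw [← hTS]
    exact h5
  · simp only [hprx]
    exact h6

end

end Crest.Agent.R257.Rsn1_980
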