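import Crest.Agent.R257.SkelV2_952

/-!
R257 / SkelV_952: `VStmt` of `Defs_219` from the leaves of `KED_952`.
-/

set_option autoImplicit false

open Topology Filter MeasureTheory Set
open scoped ENNReal ContDiff Matrix
open Crest.AlgGeometry.Germ

noncomputable section

namespace Crest.Agent.R257.SkelV_952

open Crest.Agent.R275.Geo
open Crest.Agent.R257.Defs_219 Crest.Agent.R257.KED_952
open Crest.Agent.R257.PN_835 (nsq)
open Crest.Agent.R257.Aff_835 (eta2a nga)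

/-! ### facts on a convergent family -/

section

variable {Φ : E3 × PP → ℂ} {τ₀ : PP} {l : Filter PP} {r C : ℝ} {w : PP → E3 → ℝ} {u χ : E3 → ℝ}

theorem fam_an (h : Fam Φ τ₀ l r) : ∀ x, nsq x < r ^ 2 → AnalyticAt ℂ (fun x => Φ (x, τ₀)) x :=
  fun _ hx => (h.an _ hx.le).curry_left

theorem fam_sm (h : Fam Φ τ₀ l r) : ∀ x, x ≠ 0 → nsq x < r ^ 2 → Φ (x, τ₀) = 0 →
    fderiv ℂ (fun x => Φ (x, τ₀)) x ≠ 0 := fun x hx hx1 h0 => h.sm0 x hx hx1.le h0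

theorem cv_c (cvd : CvDStmt) (ctd : CtDStmt) (h : FamD Φ τ₀ l r C w u) (hχ : Cut r χ) :
    Cv0 Φ r l τ₀ (fun τ x => χ x * c2d (fun x => Φ (x, τ)) (w τ) x)
      (fun x => χ x * c2d (fun x => Φ (x, τ₀)) u x) :=
  Cv0.mul (cv0_amb h.lim hχ.sm.continuous) (cvd Φ τ₀ l r C w u h χ hχ).1
    (ctl_amb hχ.sm.continuous) (ctd _ 0 r h.r_pos (fam_an h.toFam) (fam_sm h.toFam) u h.ke0.1).1

theorem ct_e (ctd : CtDStmt) {f : E3 → ℂ} {s : ℂ} (hr : 0 < r)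
    (han : ∀ x, nsq x < r ^ 2 → AnalyticAt ℂ f x)
    (hsm : ∀ x, x ≠ 0 → nsq x < r ^ 2 → f x = s → fderiv ℂ f x ≠ 0) (hu : KEon f s r u)
    (hχ : Cut r χ) : CtL f s r fun x => χ x * (c2d f u x - 2 / 3 * Real.exp (u x)) :=
  CtL.mul (ctl_amb hχ.sm.continuous) (CtL.sub (ctd f s r hr han hsm u hu).1
    (CtL.mul (ctl_amb (a := fun _ => 2 / 3) continuous_const) (CtL.exp (ctl_ke hu))))

theorem cv_e (cvd : CvDStmt) (ctd : CtDStmt) (h : FamD Φ τ₀ l r C w u) (hχ : Cut r χ) :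
    Cv0 Φ r l τ₀ (fun τ x => χ x * (c2d (fun x => Φ (x, τ)) (w τ) x - 2 / 3 * Real.exp (w τ x)))
      (fun x => χ x * (c2d (fun x => Φ (x, τ₀)) u x - 2 / 3 * Real.exp (u x))) := by
  have h1 := (ctd _ 0 r h.r_pos (fam_an h.toFam) (fam_sm h.toFam) u h.ke0.1).1
  have h2 : Cv0 Φ r l τ₀ (fun τ x => Real.exp (w τ x)) (fun x => Real.exp (u x)) :=
    Cv0.exp (cv0_of_conv h.conv) (ctl_ke h.ke0.1)
  have h3 : Cv0 Φ r l τ₀ (fun τ x => 2 / 3 * Real.exp (w τ x)) (fun x => 2 / 3 * Real.exp (u x)) :=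
    Cv0.mul (cv0_amb (χ := fun _ => 2 / 3) h.lim continuous_const) h2 (ctl_amb continuous_const)
      (CtL.exp (ctl_ke h.ke0.1))
  exact Cv0.mul (cv0_amb h.lim hχ.sm.continuous) (Cv0.sub (cvd Φ τ₀ l r C w u h χ hχ).1 h3)
    (ctl_amb hχ.sm.continuous) (CtL.sub h1 (CtL.mul (ctl_amb (a := fun _ => 2 / 3) continuous_const)
      (CtL.exp (ctl_ke h.ke0.1))))

theorem cv_t (cvd : CvDStmt) (ctd : CtDStmt) (h : FamD Φ τ₀ l r C w u) (hχ : Cut r χ) :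
    Cv0 Φ r l τ₀ (fun τ x => w τ x * mxd (fun x => Φ (x, τ)) (w τ) χ x)
      (fun x => u x * mxd (fun x => Φ (x, τ₀)) u χ x) :=
  Cv0.mul (cv0_of_conv h.conv) (cvd Φ τ₀ l r C w u h χ hχ).2 (ctl_ke h.ke0.1)
    ((ctd _ 0 r h.r_pos (fam_an h.toFam) (fam_sm h.toFam) u h.ke0.1).2 χ hχ.sm)

/-- `mxd f a χ` vanishes where `χ` is locally constant -/
theorem mxd_eq_zero {f : E3 → ℂ} {a χ : E3 → ℝ} {x : E3} {k : ℝ} (hx : ∀ᶠ y in 𝓝 x, χ y = k) :
    mxd f a χ x = 0 := by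
  unfold mxd dns
  split_ifs with h
  · obtain ⟨h1, h2, h3⟩ := h.choose_spec
    set θ := h.choose.1 with hθ
    set z := h.choose.2.2 with hz
    have hc : ContinuousAt θ z := (h1.hol.continuousOn).continuousAt (h1.isOpen.mem_nhds h2)
    have h4 : (fun z => χ (θ z)) =ᶠ[𝓝 z] fun _ => k := by
      have : ∀ᶠ y in 𝓝 (θ z), χ y = k := by rw [h3]; exact hx
      exact hc.eventually this
    have h5 : Crest.Agent.R273.YauDefs_635.cH (fun z => χ (θ z)) z = 0 := by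
      have e1 : fderiv ℝ (fun z => χ (θ z)) =ᶠ[𝓝 z] fderiv ℝ (fun _ => k) := h4.fderiv
      have e2 : fderiv ℝ (fderiv ℝ (fun z => χ (θ z))) z = 0 := by
        rw [e1.fderiv_eq]
        have : fderiv ℝ (fun _ : Cn 2 => k) = fun _ => 0 := by
          funext y
          simp
        rw [this]
        simp
      ext i j
      simp [Crest.Agent.R273.YauDefs_635.cH, Crest.Agent.R273.YauDefs_635.D2, e2]
    show (C2F1_625.pd _ (Crest.Agent.R273.YauDefs_635.cH (fun z => χ (θ z)) z)).re / _ = 0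
    rw [h5]
    simp [C2F1_625.pd]
  · rfl

end

theorem continuous_nsq : Continuous fun x : E3 => nsq x := by
  unfold nsq
  fun_prop

theorem supp_t {r : ℝ} {χ : E3 → ℝ} (hχ : Cut r χ) : ∃ r₁ r₂ : ℝ, 0 < r₁ ∧ 0 < r₂ ∧ r₂ < r ∧
    ∀ x, nsq x ≤ r₁ ^ 2 ∨ r₂ ^ 2 ≤ nsq x → ∀ (f : E3 → ℂ) (a : E3 → ℝ), mxd f a χ x = 0 := by
  obtain ⟨ρ, hρ, h1⟩ := Metric.eventually_nhds_iff_ball.1 hχ.one
  obtain ⟨r', h2, h3, h4⟩ := hχ.supp
  refine ⟨ρ / 2, (r' + r) / 2, by positivity, by linarith, by linarith, fun x hx f a => ?_⟩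
  rcases hx with hx | hx
  · have h5 : ‖x‖ < ρ := by
      have := norm_sq_le_nsq x
      have h6 : ‖x‖ ≤ ρ / 2 := (sq_le_sq₀ (norm_nonneg _) (by positivity)).1 (this.trans hx)
      linarith
    refine mxd_eq_zero (k := 1) ?_
    filter_upwards [Metric.isOpen_ball.mem_nhds (show x ∈ Metric.ball (0 : E3) ρ by simpa using h5)]
      with y hy using h1 y hy
  · refine mxd_eq_zero (k := 0) ?_
    have h5 : r' ^ 2 < nsq x := by nlinarith
    filter_upwards [(continuous_nsq.tendsto x).eventually (lt_mem_nhds h5)] with y hy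
    exact h4 y hy.le

/-! ### the theorem -/


end Crest.Agent.R257.SkelV_952
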