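import Crest.Agent.R257.Rot1_558
import Crest.Agent.R257.FrmA_547
import Crest.Agent.R257.FrmB_547
import Crest.Agent.R257.Vt1_558

-- ▼ part R257/Rot2_558
section

/-!
Row 257 (S0395), part C, T-frame: rotation and shift of the points of the special fibre and of the
components (helper558, task C-ROT).

* `rx`   : `X T i k ≃ X T (sg ξ i) k`, `(w, γ) ↦ (ξ^(-Mk) w, γ ∘ rq)`; `step_rx`, `rC` on components;
* `sx`   : `X T i k ≃ X T j k` for `Eqv T k i j`, `(w, γ) ↦ (w + sh 0, γ (s, β - sh s + sh 0))`; `cl_sx`,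
           `sC` on components.
-/

set_option autoImplicit false
set_option linter.unusedSectionVars false

open Polynomial Set Filter Topology Metric
open Crest.AlgGeometry.Germ Crest.Agent.R257.AJ387 Crest.Agent.R257.T387
open Crest.Agent.R257.Frm_547 Crest.Agent.R257.Rot1_558

noncomputable section

namespace Crest.Agent.R257.Rot2_558

variable {f : (Fin 3 → ℂ) → ℂ}

/-! ### rotation -/

section rot

variable (T : TB f)

/-- the inverse rotation on vertex charts -/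
def lq (ξ : ℂ) (k : ℕ) (p : ℂ × ℂ) : ℂ × ℂ := (ξ⁻¹ * p.1, ξ ^ (T.M * k) * p.2)

/-- the rotation on vertex charts -/
def lp (ξ : ℂ) (k : ℕ) (p : ℂ × ℂ) : ℂ × ℂ := (ξ * p.1, (ξ ^ (T.M * k))⁻¹ * p.2)

variable {T}




lemma lp_lq {ξ : ℂ} (hξ : ξ ^ T.N = 1) (k : ℕ) (p : ℂ × ℂ) : lp T ξ k (lq T ξ k p) = p := by
  have h := ne_zero T hξ
  simp [lp, lq, h]


lemma lq_mem {ξ : ℂ} (hξ : ξ ^ T.N = 1) {k : ℕ} {p : ℂ × ℂ} {r r' : ℝ} :
    lq T ξ k p ∈ BD r r' ↔ p ∈ BD r r' := by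
  have h := norm_one T hξ
  simp [BD, lq, h]

lemma lq_an (ξ : ℂ) (k : ℕ) (p : ℂ × ℂ) : AnalyticAt ℂ (lq T ξ k) p :=
  (analyticAt_const.mul analyticAt_fst).prod (analyticAt_const.mul analyticAt_snd)

lemma lq_tendsto (ξ : ℂ) (k : ℕ) : Tendsto (lq T ξ k) (𝓝 (0 : ℂ × ℂ)) (𝓝 (0 : ℂ × ℂ)) := by
  have h := (lq_an (T := T) ξ k 0).continuousAt.tendsto
  have h0 : lq T ξ k 0 = 0 := by simp [lq]
  rwa [h0] at h

lemma map_vert_rot (hG : GalPt T) {ξ : ℂ} (hξ : ξ ^ T.N = 1) {i : Fin T.m} {k : ℕ} {w : ℂ}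
    {p : ℂ × ℂ} (hp : ‖p.1‖ ^ T.M < T.ρ) :
    T.map (.vert (sg T ξ i) k ((ξ ^ (T.M * k))⁻¹ * w)) (lp T ξ k p) =
      (ξ * p.1, (T.map (.vert i k w) p).2) := by
  have hball : p.1 ^ T.M ∈ ball (0 : ℂ) T.ρ := by simpa using hp
  have h0 : ξ ^ (T.M * k) ≠ 0 := pow_ne_zero _ (ne_zero T hξ)
  simp only [TB.map, lp]
  rw [mul_pow ξ p.1 T.M, phi_sg hG hξ i hball]
  refine Prod.ext rfl ?_
  show T.φ i (p.1 ^ T.M) + (ξ * p.1) ^ (T.M * k) *
      ((ξ ^ (T.M * k))⁻¹ * w + (ξ ^ (T.M * k))⁻¹ * p.2) = _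
  rw [mul_pow, ← mul_add]
  calc _ = T.φ i (p.1 ^ T.M) + (ξ ^ (T.M * k) * (ξ ^ (T.M * k))⁻¹) *
          (p.1 ^ (T.M * k) * (w + p.2)) := by ring
      _ = _ := by rw [mul_inv_cancel₀ h0, one_mul]

theorem sh1_rot (hG : GalPt T) {ξ : ℂ} (hξ : ξ ^ T.N = 1) {i : Fin T.m} {k : ℕ} {w : ℂ} {r : ℝ}
    {ζ : ℂ × ℂ → ℂ} (h : Sh1 T i k w r ζ) :
    Sh1 T (sg T ξ i) k ((ξ ^ (T.M * k))⁻¹ * w) r (ζ ∘ lq T ξ k) := by
  have h0 : ξ ^ (T.M * k) ≠ 0 := pow_ne_zero _ (ne_zero T hξ)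
  have hn := norm_one T hξ
  have hkey : ∀ p ∈ BD r r, T.map (.vert (sg T ξ i) k ((ξ ^ (T.M * k))⁻¹ * w)) p =
      (ξ * (T.map (.vert i k w) (lq T ξ k p)).1, (T.map (.vert i k w) (lq T ξ k p)).2) := by
    intro p hp
    have h1 : lq T ξ k p ∈ BD r r := (lq_mem hξ).2 hp
    have h2 := map_vert_rot hG hξ (i := i) (k := k) (w := w) (p := lq T ξ k p) (h.mem _ h1).2
    rw [lp_lq hξ] at h2
    rw [h2]
    rfl
  refine ⟨h.r_pos, fun β hβ => ?_, fun p hp => ?_, fun p hp => ?_, fun p hp => ?_⟩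
  · have h1 : (ξ ^ (T.M * k))⁻¹ * w + β = (ξ ^ (T.M * k))⁻¹ * (w + ξ ^ (T.M * k) * β) := by
      rw [mul_add, inv_mul_cancel_left₀ h0]
    rw [h1, Rot1_558.mem_Sp_sg hG hξ]
    exact h.sp _ (by rw [norm_mul, norm_pow, hn, one_pow, one_mul]; exact hβ)
  · have h1 : lq T ξ k p ∈ BD r r := (lq_mem hξ).2 hp
    have h2 := h.mem _ h1
    rw [hkey p hp]
    simp only [BD, mem_ofPred_eq] at h2 ⊢
    rw [norm_mul, hn, one_mul]
    exact h2
  · have h1 : lq T ξ k p ∈ BD r r := (lq_mem hξ).2 hp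
    exact AnalyticAt.comp (g := ζ) (h.an _ h1) (lq_an ξ k p)
  · have h1 : lq T ξ k p ∈ BD r r := (lq_mem hξ).2 hp
    rw [hkey p hp, Q_rot hξ]
    exact h.root _ h1

/-- a step between pairs -/
def RStep (T : TB f) (i : Fin T.m) (k : ℕ) (x y : ℂ × Z2) : Prop :=
  ∃ (r : ℝ) (ζ : ℂ × ℂ → ℂ), Sh1 T i k x.1 r ζ ∧ x.2 = (ζ : Z2) ∧ ∃ β : ℂ, ‖β‖ < r ∧
    y.1 = x.1 + β ∧ y.2 = ((fun p : ℂ × ℂ => ζ (p.1, p.2 + β) : ℂ × ℂ → ℂ) : Z2)

lemma step_iff {i : Fin T.m} {k : ℕ} {x y : X T i k} : Step T i k x y ↔ RStep T i k x.1 y.1 := Iff.rfl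

/-- a point -/
def RX (T : TB f) (i : Fin T.m) (k : ℕ) (x : ℂ × Z2) : Prop :=
  x.1 ∉ T.Sp i k ∧ ∃ (r : ℝ) (ζ : ℂ × ℂ → ℂ), Sh1 T i k x.1 r ζ ∧ x.2 = (ζ : Z2)

variable (T) in
/-- the rotation of pairs -/
def rr (ξ : ℂ) (k : ℕ) (x : ℂ × Z2) : ℂ × Z2 :=
  ((ξ ^ (T.M * k))⁻¹ * x.1, x.2.compTendsto (lq T ξ k) (lq_tendsto ξ k))

lemma rr_coe (ξ : ℂ) (k : ℕ) (w : ℂ) (ζ : ℂ × ℂ → ℂ) :
    rr T ξ k (w, (ζ : Z2)) = ((ξ ^ (T.M * k))⁻¹ * w, ((ζ ∘ lq T ξ k : ℂ × ℂ → ℂ) : Z2)) := rfl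

lemma rr_one (k : ℕ) (x : ℂ × Z2) : rr T 1 k x = x := by
  obtain ⟨w, γ⟩ := x
  induction γ using Germ.inductionOn with | _ ζ => ?_
  rw [rr_coe]
  have : ζ ∘ lq T 1 k = ζ := by funext p; simp [lq]
  rw [this]
  simp

lemma rr_mul (ξ η : ℂ) (k : ℕ) (x : ℂ × Z2) : rr T (ξ * η) k x = rr T ξ k (rr T η k x) := by
  obtain ⟨w, γ⟩ := x
  induction γ using Germ.inductionOn with | _ ζ => ?_
  rw [rr_coe, rr_coe, rr_coe]
  have : ζ ∘ lq T (ξ * η) k = (ζ ∘ lq T η k) ∘ lq T ξ k := by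
    funext p; simp only [Function.comp, lq]; congr 2
    · rw [mul_inv]; ring
    · rw [mul_pow]; ring
  rw [this]
  refine Prod.ext ?_ rfl
  show ((ξ * η) ^ (T.M * k))⁻¹ * w = (ξ ^ (T.M * k))⁻¹ * ((η ^ (T.M * k))⁻¹ * w)
  rw [mul_pow, mul_inv, mul_assoc]

lemma rx_rr (hG : GalPt T) {ξ : ℂ} (hξ : ξ ^ T.N = 1) {i : Fin T.m} {k : ℕ} {x : ℂ × Z2}
    (h : RX T i k x) : RX T (sg T ξ i) k (rr T ξ k x) := by
  obtain ⟨h1, r, ζ, h2, h3⟩ := h
  obtain ⟨w, γ⟩ := x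
  simp only at h3
  subst h3
  exact ⟨fun h => h1 ((Rot1_558.mem_Sp_sg hG hξ).1 h), r, ζ ∘ lq T ξ k, sh1_rot hG hξ h2, rfl⟩

lemma rstep_rr (hG : GalPt T) {ξ : ℂ} (hξ : ξ ^ T.N = 1) {i : Fin T.m} {k : ℕ} {x y : ℂ × Z2}
    (h : RStep T i k x y) : RStep T (sg T ξ i) k (rr T ξ k x) (rr T ξ k y) := by
  obtain ⟨r, ζ, h1, h2, β, hβ, h3, h4⟩ := h
  obtain ⟨w, γ⟩ := x
  obtain ⟨w', γ'⟩ := y
  simp only at h2 h3 h4
  subst h2 h3 h4
  have h0 : ξ ^ (T.M * k) ≠ 0 := pow_ne_zero _ (ne_zero T hξ)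
  refine ⟨r, ζ ∘ lq T ξ k, sh1_rot hG hξ h1, rfl, (ξ ^ (T.M * k))⁻¹ * β, ?_, ?_, ?_⟩
  · simpa [norm_one T hξ] using hβ
  · show (ξ ^ (T.M * k))⁻¹ * (w + β) = _
    rw [mul_add]; rfl
  · rw [rr_coe]
    show ((_ : ℂ × ℂ → ℂ) : Z2) = ((_ : ℂ × ℂ → ℂ) : Z2)
    congr 1
    funext p
    simp only [Function.comp, lq]
    rw [mul_add, mul_inv_cancel_left₀ h0]

lemma sg_inv_apply (hG : GalPt T) {ξ : ℂ} (hξ : ξ ^ T.N = 1) (i : Fin T.m) :
    sg T ξ⁻¹ (sg T ξ i) = i := by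
  rw [sg_inv hG hξ]; simp

lemma rr_inv_left {ξ : ℂ} (hξ : ξ ^ T.N = 1) (k : ℕ) (x : ℂ × Z2) :
    rr T ξ⁻¹ k (rr T ξ k x) = x := by
  rw [← rr_mul, inv_mul_cancel₀ (ne_zero T hξ), rr_one]

lemma rr_inv_right {ξ : ℂ} (hξ : ξ ^ T.N = 1) (k : ℕ) (x : ℂ × Z2) :
    rr T ξ k (rr T ξ⁻¹ k x) = x := by
  rw [← rr_mul, mul_inv_cancel₀ (ne_zero T hξ), rr_one]

/-- the rotation of points -/
def rx (hG : GalPt T) {ξ : ℂ} (hξ : ξ ^ T.N = 1) (i : Fin T.m) (k : ℕ) :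
    X T i k ≃ X T (sg T ξ i) k where
  toFun x := ⟨rr T ξ k x.1, rx_rr hG hξ x.2⟩
  invFun y := ⟨rr T ξ⁻¹ k y.1, by
    have h := rx_rr hG (inv_root hξ) y.2
    rwa [sg_inv_apply hG hξ] at h⟩
  left_inv x := Subtype.ext (rr_inv_left hξ k x.1)
  right_inv y := Subtype.ext (rr_inv_right hξ k y.1)

@[simp] lemma rx_val (hG : GalPt T) {ξ : ℂ} (hξ : ξ ^ T.N = 1) (i : Fin T.m) (k : ℕ) (x : X T i k) :
    (rx hG hξ i k x).1 = rr T ξ k x.1 := rfl

lemma step_rx (hG : GalPt T) {ξ : ℂ} (hξ : ξ ^ T.N = 1) {i : Fin T.m} {k : ℕ} (x y : X T i k) :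
    Step T i k x y ↔ Step T (sg T ξ i) k (rx hG hξ i k x) (rx hG hξ i k y) := by
  refine ⟨fun h => rstep_rr hG hξ h, fun h => ?_⟩
  have h1 := rstep_rr hG (inv_root hξ) (step_iff.1 h)
  rw [sg_inv_apply hG hξ, rx_val, rx_val, rr_inv_left hξ, rr_inv_left hξ] at h1
  exact h1

/-- the rotation of components -/
def rC (hG : GalPt T) {ξ : ℂ} (hξ : ξ ^ T.N = 1) (i : Fin T.m) (k : ℕ) :
    Cmp T i k ≃ Cmp T (sg T ξ i) k :=
  Quot.congr (rx hG hξ i k) (step_rx hG hξ)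

@[simp] lemma rC_cl (hG : GalPt T) {ξ : ℂ} (hξ : ξ ^ T.N = 1) {i : Fin T.m} {k : ℕ} (x : X T i k) :
    rC hG hξ i k (cl T x) = cl T (rx hG hξ i k x) := rfl

end rot

/-! ### shift -/

section shift

variable (T : TB f)

/-- `sh s - sh 0` -/
def dl (k : ℕ) (i j : Fin T.m) (s : ℂ) : ℂ := sh T k i j s - sh T k i j 0

@[simp] lemma dl_zero (k : ℕ) (i j : Fin T.m) : dl T k i j 0 = 0 := sub_self _

lemma dl_an {k : ℕ} {i j : Fin T.m} : AnalyticOnNhd ℂ (dl T k i j) (sD T) := fun s hs =>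
  (sh_an T s hs).sub analyticAt_const

/-- the shift of the `β`-coordinate -/
def ls (k : ℕ) (i j : Fin T.m) (p : ℂ × ℂ) : ℂ × ℂ := (p.1, p.2 - dl T k i j p.1)

lemma ls_an {k : ℕ} {i j : Fin T.m} {p : ℂ × ℂ} (hp : p.1 ∈ sD T) : AnalyticAt ℂ (ls T k i j) p := by
  have h : AnalyticAt ℂ (fun p : ℂ × ℂ => dl T k i j p.1) p :=
    AnalyticAt.comp (g := dl T k i j) (dl_an T _ hp) analyticAt_fst
  exact analyticAt_fst.prod (analyticAt_snd.sub h)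

lemma ls_tendsto (k : ℕ) (i j : Fin T.m) : Tendsto (ls T k i j) (𝓝 (0 : ℂ × ℂ)) (𝓝 (0 : ℂ × ℂ)) := by
  have h := (ls_an T (k := k) (i := i) (j := j) (p := 0) (zero_mem_sD T)).continuousAt.tendsto
  have h0 : ls T k i j 0 = 0 := by simp [ls]
  rwa [h0] at h

variable {T}

lemma map_vert_shift {k : ℕ} {i j : Fin T.m} (h : Eqv T k i j) {w b : ℂ} {p : ℂ × ℂ}
    (hp : p.1 ∈ sD T) :
    T.map (.vert j k (w + b + sh T k i j 0)) p =
      T.map (.vert i k w) (p.1, p.2 - dl T k i j p.1 + b) := by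
  simp only [TB.map, dl]
  rw [φ_sh T h hp]
  refine Prod.ext rfl ?_
  ring

theorem sh1_shift {k : ℕ} {i j : Fin T.m} (h : Eqv T k i j) {w : ℂ} {r : ℝ} {ζ : ℂ × ℂ → ℂ}
    (hs : Sh1 T i k w r ζ) {b : ℂ} (hb : ‖b‖ < r) :
    ∃ r', Sh1 T j k (w + b + sh T k i j 0) r' (fun p => ζ (p.1, p.2 - dl T k i j p.1 + b)) := by
  have h1 : ContinuousAt (dl T k i j) 0 := (dl_an T 0 (zero_mem_sD T)).continuousAt
  have h2 : ∀ᶠ s in 𝓝 (0 : ℂ), ‖dl T k i j s‖ < (r - ‖b‖) / 2 := by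
    have h3 : Tendsto (fun s => ‖dl T k i j s‖) (𝓝 0) (𝓝 0) := by
      have := h1.norm.tendsto
      simpa using this
    exact h3.eventually (gt_mem_nhds (by linarith))
  obtain ⟨e, he, h3⟩ := Metric.eventually_nhds_iff_ball.1 h2
  have hr := hs.r_pos
  set r' := min (min e r) ((r - ‖b‖) / 2) with hr'
  have hb2 : 0 < (r - ‖b‖) / 2 := by linarith
  have hr'0 : 0 < r' := by positivity
  have h4 : ∀ p ∈ BD r' r', (p.1, p.2 - dl T k i j p.1 + b) ∈ BD r r := by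
    intro p hp
    have h5 : ‖p.1‖ < e := hp.1.trans_le ((min_le_left _ _).trans (min_le_left _ _))
    have h6 : ‖p.1‖ < r := hp.1.trans_le ((min_le_left _ _).trans (min_le_right _ _))
    have h7 : ‖p.2‖ < (r - ‖b‖) / 2 := hp.2.trans_le (min_le_right _ _)
    have h8 := h3 p.1 (by simpa using h5)
    refine ⟨h6, ?_⟩
    calc ‖p.2 - dl T k i j p.1 + b‖ ≤ ‖p.2‖ + ‖dl T k i j p.1‖ + ‖b‖ :=
          (norm_add_le _ _).trans (add_le_add (norm_sub_le _ _) le_rfl)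
      _ < r := by linarith
  have h5 : ∀ p ∈ BD r' r', p.1 ∈ sD T := fun p hp => (hs.mem _ (h4 p hp)).2
  refine ⟨r', hr'0, fun β hβ => ?_, fun p hp => ?_, fun p hp => ?_, fun p hp => ?_⟩
  · have h6 : w + b + sh T k i j 0 + β = (w + (b + β)) + sh T k i j 0 := by ring
    rw [h6, ← sp_shift T h]
    refine hs.sp _ ?_
    have h7 : ‖β‖ < (r - ‖b‖) / 2 := hβ.trans_le (min_le_right _ _)
    calc ‖b + β‖ ≤ ‖b‖ + ‖β‖ := norm_add_le _ _
      _ < r := by linarith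
  · rw [map_vert_shift h (h5 p hp)]
    exact hs.mem _ (h4 p hp)
  · have h6 : AnalyticAt ℂ (fun p : ℂ × ℂ => (p.1, p.2 - dl T k i j p.1 + b)) p := by
      have h7 : AnalyticAt ℂ (fun p : ℂ × ℂ => dl T k i j p.1) p :=
        AnalyticAt.comp (g := dl T k i j) (dl_an T _ (h5 p hp)) analyticAt_fst
      exact analyticAt_fst.prod ((analyticAt_snd.sub h7).add analyticAt_const)
    exact AnalyticAt.comp (g := ζ) (hs.an _ (h4 p hp)) h6
  · rw [map_vert_shift h (h5 p hp)]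
    exact hs.root _ (h4 p hp)

variable (T) in
/-- the shift of pairs -/
def ss (k : ℕ) (i j : Fin T.m) (x : ℂ × Z2) : ℂ × Z2 :=
  (x.1 + sh T k i j 0, x.2.compTendsto (ls T k i j) (ls_tendsto T k i j))

lemma ss_coe (k : ℕ) (i j : Fin T.m) (w : ℂ) (ζ : ℂ × ℂ → ℂ) :
    ss T k i j (w, (ζ : Z2)) = (w + sh T k i j 0, ((ζ ∘ ls T k i j : ℂ × ℂ → ℂ) : Z2)) := rfl

lemma rx_ss {k : ℕ} {i j : Fin T.m} (h : Eqv T k i j) {x : ℂ × Z2}
    (hx : RX T i k x) : RX T j k (ss T k i j x) := by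
  obtain ⟨h1, r, ζ, h2, h3⟩ := hx
  obtain ⟨w, γ⟩ := x
  simp only at h3
  subst h3
  refine ⟨fun h' => h1 ((sp_shift T h).2 h'), ?_⟩
  obtain ⟨r', hr'⟩ := sh1_shift h h2 (b := 0) (by simpa using h2.r_pos)
  simp only [add_zero] at hr'
  exact ⟨r', _, hr', rfl⟩

lemma ss_self (k : ℕ) (i : Fin T.m) (x : ℂ × Z2) : ss T k i i x = x := by
  obtain ⟨w, γ⟩ := x
  induction γ using Germ.inductionOn with | _ ζ => ?_
  rw [ss_coe]
  have : ζ ∘ ls T k i i = ζ := by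
    funext p; simp [ls, dl, sh_self]
  rw [this, sh_self, add_zero]

lemma ss_ss {k : ℕ} {i j l : Fin T.m} (h : Eqv T k i j) (h' : Eqv T k j l) (x : ℂ × Z2) :
    ss T k j l (ss T k i j x) = ss T k i l x := by
  obtain ⟨w, γ⟩ := x
  induction γ using Germ.inductionOn with | _ ζ => ?_
  rw [ss_coe, ss_coe, ss_coe]
  refine Prod.ext ?_ ?_
  · show w + sh T k i j 0 + sh T k j l 0 = w + sh T k i l 0
    rw [sh_cocycle T h h' (zero_mem_sD T)]; ring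
  · show ((_ : ℂ × ℂ → ℂ) : Z2) = ((_ : ℂ × ℂ → ℂ) : Z2)
    rw [Germ.coe_eq]
    have h1 : ∀ᶠ p in 𝓝 (0 : ℂ × ℂ), p.1 ∈ sD T :=
      continuousAt_fst.eventually ((isOpen_sD T).mem_nhds (zero_mem_sD T))
    filter_upwards [h1] with p hp
    simp only [Function.comp, ls, dl]
    congr 2
    rw [sh_cocycle T h h' hp, sh_cocycle T h h' (zero_mem_sD T)]
    ring

/-- the shift of points -/
def sx {k : ℕ} {i j : Fin T.m} (h : Eqv T k i j) : X T i k ≃ X T j k where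
  toFun x := ⟨ss T k i j x.1, rx_ss h x.2⟩
  invFun y := ⟨ss T k j i y.1, rx_ss h.symm y.2⟩
  left_inv x := Subtype.ext (by
    show ss T k j i (ss T k i j x.1) = x.1
    rw [ss_ss h h.symm, ss_self])
  right_inv y := Subtype.ext (by
    show ss T k i j (ss T k j i y.1) = y.1
    rw [ss_ss h.symm h, ss_self])

@[simp] lemma sx_val {k : ℕ} {i j : Fin T.m} (h : Eqv T k i j) (x : X T i k) :
    (sx h x).1 = ss T k i j x.1 := rfl

/-- the point of the sheet `ζ` at `w + b` -/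
def ptb {i : Fin T.m} {k : ℕ} {w : ℂ} {r : ℝ} {ζ : ℂ × ℂ → ℂ} (hs : Sh1 T i k w r ζ) {b : ℂ}
    (hb : ‖b‖ < r) : X T i k :=
  ⟨(w + b, ((fun p : ℂ × ℂ => ζ (p.1, p.2 + b) : ℂ × ℂ → ℂ) : Z2)), by
    refine ⟨hs.sp b hb, ?_⟩
    obtain ⟨r', hr'⟩ := sh1_shift (Eqv.refl T k i) hs hb
    simp only [sh_self, add_zero, dl, sub_zero] at hr'
    exact ⟨r', _, hr', rfl⟩⟩

lemma cl_ptb_eq {i : Fin T.m} {k : ℕ} {w : ℂ} {r : ℝ} {ζ : ℂ × ℂ → ℂ} (hs : Sh1 T i k w r ζ)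
    {j : Fin T.m} (h : Eqv T k i j) {b b' : ℂ} (hb : ‖b‖ < r) (hb' : ‖b'‖ < r) :
    cl T (sx h (ptb hs hb)) = cl T (sx h (ptb hs hb')) := by
  classical
  let F : ℂ → Option (Cmp T j k) := fun b => if hb : ‖b‖ < r then some (cl T (sx h (ptb hs hb))) else none
  have key : ∀ x ∈ ball (0 : ℂ) r, ∀ᶠ y in 𝓝[ball 0 r] x, F x = F y := by
    intro b hb
    have hbn : ‖b‖ < r := by simpa using hb
    obtain ⟨r', hr'⟩ := sh1_shift h hs hbn
    have hr0 := hr'.r_pos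
    filter_upwards [nhdsWithin_le_nhds (ball_mem_nhds b hr0), self_mem_nhdsWithin] with b' h1 h2
    have hbn' : ‖b'‖ < r := by simpa using h2
    have h3 : ‖b' - b‖ < r' := by simpa [dist_eq_norm] using h1
    simp only [F, dif_pos hbn, dif_pos hbn']
    congr 1
    refine Quot.sound ⟨r', _, hr', ?_, b' - b, h3, ?_, ?_⟩
    · show ((_ : ℂ × ℂ → ℂ) : Z2) = ((_ : ℂ × ℂ → ℂ) : Z2)
      rfl
    · show w + b' + sh T k i j 0 = w + b + sh T k i j 0 + (b' - b)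
      ring
    · show ((_ : ℂ × ℂ → ℂ) : Z2) = ((_ : ℂ × ℂ → ℂ) : Z2)
      congr 1
      funext p
      simp only [Function.comp, ls]
      congr 2
      ring
  have h2 := IsPreconnected.induction₂' (convex_ball (0 : ℂ) r).isPreconnected
    (P := fun x y => F x = F y) (fun x hx => (key x hx).mono fun y hy => ⟨hy, hy.symm⟩)
    (fun x y z _ _ _ h1 h2 => h1.trans h2) (x := b) (y := b') (by simpa using hb) (by simpa using hb')
  simpa [F, hb, hb'] using h2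

lemma cl_sx {i : Fin T.m} {k : ℕ} {j : Fin T.m} (h : Eqv T k i j) {x y : X T i k}
    (hxy : Step T i k x y) : cl T (sx h x) = cl T (sx h y) := by
  obtain ⟨r, ζ, h1, h2, β, hβ, h3, h4⟩ := hxy
  have h0 : ‖(0 : ℂ)‖ < r := by simpa using h1.r_pos
  have e1 : x = ptb h1 h0 := by
    refine Subtype.ext (Prod.ext ?_ ?_)
    · simp [ptb]
    · simp [ptb, h2]
  have e2 : y = ptb h1 hβ := Subtype.ext (Prod.ext h3 h4)
  rw [e1, e2]
  exact cl_ptb_eq h1 h h0 hβ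

/-- the shift of components -/
def sC {k : ℕ} {i j : Fin T.m} (h : Eqv T k i j) : Cmp T i k ≃ Cmp T j k where
  toFun := Quot.lift (fun x => cl T (sx h x)) fun _ _ hxy => cl_sx h hxy
  invFun := Quot.lift (fun x => cl T (sx h.symm x)) fun _ _ hxy => cl_sx h.symm hxy
  left_inv := by
    rintro ⟨x⟩
    show cl T (sx h.symm (sx h x)) = cl T x
    congr 1
    exact (sx h).left_inv x
  right_inv := by
    rintro ⟨x⟩
    show cl T (sx h (sx h.symm x)) = cl T x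
    congr 1
    exact (sx h).right_inv x

@[simp] lemma sC_cl {k : ℕ} {i j : Fin T.m} (h : Eqv T k i j) (x : X T i k) :
    sC h (cl T x) = cl T (sx h x) := rfl

end shift

end Crest.Agent.R257.Rot2_558
end
end

-- ▼ part R257/Rot3_558
section

/-!
Row 257 (S0395), part C, T-frame: canonical labels, the rotation `pi ξ` on the set of all components
(helper558, task C-ROT).

* `Vx T`, `Idx T`  : canonical vertices `(i, k)`, `k ∈ lev i`, `rep i k = i`; components over them;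
* `lab hk x`       : the label of a point `x : X T i k` (any `i`);
* `piE hG hξ`      : the permutation of `Idx T`, `piE (lab x) = lab (rx x)`; group law;
* `att_rot`, `att_sx` : `Att` under rotation and change of the branch index.
-/

set_option autoImplicit false
set_option linter.unusedSectionVars false

open Polynomial Set Filter Topology Metric
open Crest.AlgGeometry.Germ Crest.Agent.R257.AJ387 Crest.Agent.R257.T387
open Crest.Agent.R257.Frm_547 Crest.Agent.R257.Rot1_558 Crest.Agent.R257.Rot2_558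

noncomputable section

namespace Crest.Agent.R257.Rot3_558

variable {f : (Fin 3 → ℂ) → ℂ}

/-! ### `Att` -/

section att

variable {T : TB f}







end att

/-! ### canonical labels -/

/-- canonical vertices -/
def Vx (T : TB f) : Type := {v : Fin T.m × ℕ // v.2 ∈ T.lev v.1 ∧ rep T v.1 v.2 = v.1}

/-- all components -/
def Idx (T : TB f) : Type := Σ v : Vx T, Cmp T v.1.1 v.1.2

instance finite_Vx (T : TB f) : Finite (Vx T) := by
  classical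
  let S : Finset (Fin T.m × ℕ) := Finset.univ.biUnion fun i => (T.lev i).image fun k => (i, k)
  have h : ∀ v : Vx T, v.1 ∈ S := fun v =>
    Finset.mem_biUnion.2 ⟨v.1.1, Finset.mem_univ _, Finset.mem_image.2 ⟨v.1.2, v.2.1, rfl⟩⟩
  exact Finite.of_injective (fun v : Vx T => (⟨v.1, h v⟩ : S)) fun v v' h =>
    Subtype.ext (congrArg (fun z : S => z.1) h)


variable {T : TB f}

/-- the label over a given canonical index -/
def labl {i l : Fin T.m} {k : ℕ} (hl : k ∈ T.lev l) (hr : rep T l k = l) (h : Eqv T k i l)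
    (x : X T i k) : Idx T := ⟨⟨(l, k), hl, hr⟩, cl T (sx h x)⟩

/-- the label of a point -/
def lab {i : Fin T.m} {k : ℕ} (hk : k ∈ T.lev i) (x : X T i k) : Idx T :=
  labl (rep_lev T hk) (rep_rep T i k) (rep_eqv T i k) x








/-! ### the rotation of the labels -/
















end Crest.Agent.R257.Rot3_558
end
end

-- ▼ part R257/Rot4_558
section

/-!
Row 257 (S0395), part C, T-frame: sheets of equivalent edge charts (helper558, task C-ROT).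

* `match_sheets` : two systems of sheets related by an analytic map `χ` are permuted;
* `edge_match`   : the edge charts `(i, k, k')` and `(i₀, k, k')`, `Eqv k' i i₀`;
* `att_comp`     : `Att` and composition.
-/

set_option autoImplicit false
set_option linter.unusedSectionVars false

open Polynomial Set Filter Topology Metric
open Crest.AlgGeometry.Germ Crest.Agent.R257.AJ387 Crest.Agent.R257.T387
open Crest.Agent.R257.Frm_547 Crest.Agent.R257.Rot1_558 Crest.Agent.R257.Rot2_558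
open Crest.Agent.R257.Rot3_558

noncomputable section

namespace Crest.Agent.R257.Rot4_558

variable {f : (Fin 3 → ℂ) → ℂ} {T : TB f}


lemma isPreconnected_BD (r r' : ℝ) : IsPreconnected (BD r r') := by
  have : BD r r' = ball (0 : ℂ) r ×ˢ ball (0 : ℂ) r' := by
    ext p; simp [BD]
  rw [this]
  exact ((convex_ball _ _).prod (convex_ball _ _)).isPreconnected

/-- two systems of sheets related by an analytic map `χ` are permuted -/
theorem match_sheets {d : ℕ} {r' : ℝ} (hr' : 0 < r') {F : ℂ × ℂ → ℂ[X]} {a b : Fin d → ℂ × ℂ → ℂ}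
    (ha : ∀ j, AnalyticOnNhd ℂ (a j) (BD r' r')) (hb : ∀ j, AnalyticOnNhd ℂ (b j) (BD r' r'))
    (ea : ∀ p ∈ BD r' r', F p = ∏ j, (Polynomial.X - C (a j p)))
    (eb : ∀ p ∈ BD r' r', F p = ∏ j, (Polynomial.X - C (b j p)))
    (hinj : ∃ p ∈ BD r' r', Function.Injective fun j => a j p) :
    ∃ τ : Equiv.Perm (Fin d), ∀ j, ∀ p ∈ BD r' r', a j p = b (τ j) p := by
  classical
  have h0 : (0 : ℂ × ℂ) ∈ BD r' r' := ⟨by simpa using hr', by simpa using hr'⟩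
  have h1 : ∀ j, ∃ l, ∀ p ∈ BD r' r', a j p = b l p := by
    intro j
    have h2 : ∀ᶠ p in 𝓝 (0 : ℂ × ℂ), ∏ l, (a j p - b l p) = 0 := by
      filter_upwards [(isOpen_BD r' r').mem_nhds h0] with p hp
      have h3 : (F p).eval (a j p) = 0 := by
        rw [ea p hp, eval_prod]
        exact Finset.prod_eq_zero (Finset.mem_univ j) (by simp)
      rw [eb p hp, eval_prod] at h3
      simpa using h3
    obtain ⟨l, -, hl⟩ := prod_ev Finset.univ (fun l _ => (ha j 0 h0).sub (hb l 0 h0)) h2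
    refine ⟨l, fun p hp => ?_⟩
    have h3 : ∀ᶠ p in 𝓝 (0 : ℂ × ℂ), a j p = b l p := by
      filter_upwards [hl] with p hp using sub_eq_zero.1 hp
    exact (ha j).eqOn_of_preconnected_of_eventuallyEq (hb l) (isPreconnected_BD r' r') h0 h3 hp
  choose τ hτ using h1
  obtain ⟨p₀, hp₀, hi⟩ := hinj
  have hτi : Function.Injective τ := fun j j' h => hi (by
    show a j p₀ = a j' p₀
    rw [hτ j p₀ hp₀, hτ j' p₀ hp₀, h])
  exact ⟨Equiv.ofBijective τ (Finite.injective_iff_bijective.1 hτi), hτ⟩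

/-! ### edges -/

section edge

variable (T)

/-- `1 + α^(M(k'-k)) sh(αβ)` -/
def tht (i i₀ : Fin T.m) (k k' : ℕ) (p : ℂ × ℂ) : ℂ :=
  1 + p.1 ^ (T.M * (k' - k)) * sh T k' i i₀ (p.1 * p.2)

/-- its root -/
def VV (i i₀ : Fin T.m) (k k' : ℕ) (p : ℂ × ℂ) : ℂ :=
  Complex.exp (Complex.log (tht T i i₀ k k' p) / ((T.M * (k' - k) : ℕ) : ℂ))


variable {T}












end edge

end Crest.Agent.R257.Rot4_558
end
end

-- ▼ part R257/Vt2_558

/-!
Row 257 (S0395), part C: local form of the retraction `IsRet` (helper558, tasks C-ROT, C-JAC).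

* `LD U v w₀`    : the local data of `RetStmt` at `(v, w₀)`;  `exists_LD`;
* `LD.attach`    : a root along an analytic map is one of the sheets;
* `LD.attach_ret`: hence near the special fibre its retraction is `σ l (W p)`;
* `LD.of_ret`    : every retraction is of this form;
* `sheet_near`   : points of `XV U v` near a point of the section `σ j` are on `σ j`;
* `inT_of`, `rt_unique`, `rt_exists`.
-/

set_option autoImplicit false
set_option linter.unusedSectionVars false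

open Polynomial Set Filter Topology Metric
open Crest.AlgGeometry.Germ Crest.Agent.R257.AJ387 Crest.Agent.R257.T387
open Crest.Agent.R257.Frm_547 (mul_ev prod_ev)
open Crest.Agent.R257.Rot1_558 Crest.Agent.R257.BP_258 Crest.Agent.R257.Vt1_558

noncomputable section

namespace Crest.Agent.R257.Vt2_558

variable {f : (Fin 3 → ℂ) → ℂ} {T : TB f} {U : Tub T}

@[simp] lemma pt_0 (z : ℂ) (q : ℂ × ℂ) : pt z q 0 = z := rfl
@[simp] lemma pt_1 (z : ℂ) (q : ℂ × ℂ) : pt z q 1 = q.1 := rfl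
@[simp] lemma pt_2 (z : ℂ) (q : ℂ × ℂ) : pt z q 2 = q.2 := rfl

lemma pt_eta (x : Fin 3 → ℂ) : pt (x 0) (x 1, x 2) = x := by
  funext i
  fin_cases i <;> rfl

/-- the local data of `RetStmt` -/
structure LD (U : Tub T) (v : Vtx) (w₀ : ℂ) where
  r : ℝ
  R : ℝ
  Z : Fin T.d → ℂ × ℂ → ℂ
  σ : Fin T.d → ℂ → XV U v
  hv : v ∈ Vs T
  r_pos : 0 < r
  R_pos : 0 < R
  lt : ∀ w ∈ ball w₀ r, w ∉ sp T v ∧ U.ρ v w < R
  an : ∀ j, AnalyticOnNhd ℂ (Z j) (ball 0 R ×ˢ ball w₀ r)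
  split : ∀ q ∈ ball (0 : ℂ) R ×ˢ ball w₀ r, (q.1, yv T v q) ∈ BD 1 T.R ∧ ‖q.1‖ ^ T.M < T.ρ ∧
      T.Q (q.1, yv T v q) = ∏ j, (X - C (Z j q))
  inj : ∀ q ∈ ball (0 : ℂ) R ×ˢ ball w₀ r, q.1 ≠ 0 → Function.Injective fun j => Z j q
  cont : ∀ j, ContinuousOn (σ j) (ball w₀ r)
  proj : ∀ j, ∀ w ∈ ball w₀ r, pV U v (σ j w) = w
  σinj : ∀ w ∈ ball w₀ r, Function.Injective fun j => σ j w
  surj : ∀ q, pV U v q ∈ ball w₀ r → ∃ j, σ j (pV U v q) = q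
  ret : ∀ j, ∀ w ∈ ball w₀ r, ∀ s, s ≠ 0 → ‖s‖ < U.ρ v w →
      IsRet U v (pt (Z j (s, w)) (s, yv T v (s, w))) (σ j w)
  uniq : ∀ x, InT U v x → ∃! q, IsRet U v x q

lemma exists_LD (hR : RetStmt U) {v : Vtx} (hv : v ∈ Vs T) {w₀ : ℂ} (hw : w₀ ∉ sp T v) :
    Nonempty (LD U v w₀) := by
  obtain ⟨r, hr, R, hR', Z, σ, h1, h2, h3, h4, h5, h6, h7, h8, h9⟩ := (hR v hv).2 w₀ hw
  exact ⟨⟨r, R, Z, σ, hv, hr, hR', h1, h2, h3, h4, h5, h6, h7, h8, h9, (hR v hv).1⟩⟩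

lemma isOpen_nsp (v : Vtx) : IsOpen {w : ℂ | w ∉ sp T v} := by
  have : {w : ℂ | w ∉ sp T v} = (↑(sp T v) : Set ℂ)ᶜ := by ext; simp
  rw [this]
  exact (sp T v).finite_toSet.isClosed.isOpen_compl

lemma rho_contAt (U : Tub T) {v : Vtx} (hv : v ∈ Vs T) {w : ℂ} (hw : w ∉ sp T v) :
    ContinuousAt (U.ρ v) w :=
  (U.cont v hv).continuousAt ((isOpen_nsp v).mem_nhds hw)

namespace LD

variable {v : Vtx} {w₀ : ℂ} (D : LD U v w₀)

include D in
lemma w0_mem : w₀ ∈ ball w₀ D.r := mem_ball_self D.r_pos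


lemma root (j : Fin T.d) {q : ℂ × ℂ} (hq : q ∈ ball (0 : ℂ) D.R ×ˢ ball w₀ D.r) :
    (T.Q (q.1, yv T v q)).eval (D.Z j q) = 0 := by
  rw [(D.split q hq).2.2, eval_prod]
  exact Finset.prod_eq_zero (Finset.mem_univ j) (by simp)

lemma root_iff {q : ℂ × ℂ} (hq : q ∈ ball (0 : ℂ) D.R ×ˢ ball w₀ D.r) {z : ℂ} :
    (T.Q (q.1, yv T v q)).eval z = 0 ↔ ∃ j, D.Z j q = z := by
  rw [(D.split q hq).2.2, eval_prod, Finset.prod_eq_zero_iff]
  simp only [Finset.mem_univ, true_and, eval_sub, eval_X, eval_C, sub_eq_zero]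
  exact ⟨fun ⟨j, hj⟩ => ⟨j, hj.symm⟩, fun ⟨j, hj⟩ => ⟨j, hj.symm⟩⟩

/-- every retraction is on one of the sheets -/
theorem of_ret {x : Fin 3 → ℂ} {q : XV U v} (h : IsRet U v x q) (hw : pV U v q ∈ ball w₀ D.r) :
    ∃ j, x 1 ≠ 0 ∧ ‖x 1‖ < U.ρ v (pV U v q) ∧ x 2 = yv T v (x 1, pV U v q) ∧
      x 0 = D.Z j (x 1, pV U v q) ∧ q = D.σ j (pV U v q) := by
  have h0 := h
  obtain ⟨hT, hq, -⟩ := h
  have hq' : pV U v q = wv T v (x 1, x 2) := hq
  have h2 : x 2 = yv T v (x 1, pV U v q) := by rw [hq', yv_wv v hT.ne]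
  have h3 : ‖x 1‖ < U.ρ v (pV U v q) := by rw [hq']; exact hT.lt
  have h4 : (x 1, pV U v q) ∈ ball (0 : ℂ) D.R ×ˢ ball w₀ D.r :=
    ⟨by simpa using h3.trans (D.lt _ hw).2, hw⟩
  have h5 := hT.root
  rw [h2] at h5
  obtain ⟨j, hj⟩ := (D.root_iff h4).1 h5
  refine ⟨j, hT.ne, h3, h2, hj.symm, ?_⟩
  have h6 := D.ret j _ hw (x 1) hT.ne h3
  rw [hj, ← h2, pt_eta] at h6
  exact (D.uniq x hT).unique h0 h6

/-- points near a section are on it -/
theorem near {j : Fin T.d} {w : ℂ} (hw : w ∈ ball w₀ D.r) :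
    ∀ᶠ q in 𝓝 (D.σ j w), D.σ j (pV U v q) = q ∧ pV U v q ∈ ball w₀ D.r := by
  have hp : Continuous (pV U v) := continuous_fst.comp continuous_subtype_val
  have hp0 : pV U v (D.σ j w) = w := D.proj j w hw
  have h1 : ∀ᶠ q in 𝓝 (D.σ j w), pV U v q ∈ ball w₀ D.r := by
    refine hp.continuousAt.eventually ?_
    rw [hp0]
    exact isOpen_ball.mem_nhds hw
  have h2 : ∀ l, l ≠ j → ∀ᶠ q in 𝓝 (D.σ j w), D.σ l (pV U v q) ≠ q := by
    intro l hl
    have h3 : ContinuousAt (fun q => D.σ l (pV U v q)) (D.σ j w) := by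
      have h4 : ContinuousAt (D.σ l) (pV U v (D.σ j w)) := by
        rw [hp0]
        exact (D.cont l).continuousAt (isOpen_ball.mem_nhds hw)
      exact ContinuousAt.comp (g := D.σ l) (f := pV U v) h4 hp.continuousAt
    have h5 : (fun q => D.σ l (pV U v q)) (D.σ j w) ≠ D.σ j w := by
      show D.σ l (pV U v (D.σ j w)) ≠ D.σ j w
      rw [hp0]
      exact fun h => hl (D.σinj w hw h)
    have h6 : T2Space (XV U v) := by unfold XV; infer_instance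
    exact (h3.ne_iff_eventually_ne continuousAt_id).1 h5
  have h8 : ∀ᶠ q in 𝓝 (D.σ j w), ∀ l, l ≠ j → D.σ l (pV U v q) ≠ q := by
    rw [eventually_all]
    intro l
    by_cases hl : l = j
    · exact Eventually.of_forall fun q h => absurd hl h
    · exact (h2 l hl).mono fun q h _ => h
  filter_upwards [h1, h8] with q e1 e2
  obtain ⟨l, hl⟩ := D.surj q e1
  by_cases hlj : l = j
  · rw [hlj] at hl; exact ⟨hl, e1⟩
  · exact absurd hl (e2 l hlj)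

/-- a root along an analytic map is one of the sheets -/
theorem attach {E : Type*} [NormedAddCommGroup E] [NormedSpace ℂ E] [CompleteSpace E]
    {μ : E → ℂ × ℂ} {ζ W : E → ℂ} {p₀ : E} (hμ : AnalyticAt ℂ (fun p => (μ p).1) p₀)
    (hζ : AnalyticAt ℂ ζ p₀) (hW : AnalyticAt ℂ W p₀) (h0 : (μ p₀).1 = 0) (hw : W p₀ ∈ ball w₀ D.r)
    (he : ∀ᶠ p in 𝓝 p₀, (μ p).2 = yv T v ((μ p).1, W p) ∧ (T.Q (μ p)).eval (ζ p) = 0) :
    ∃ l, ∀ᶠ p in 𝓝 p₀, ζ p = D.Z l ((μ p).1, W p) := by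
  have hmem0 : ((μ p₀).1, W p₀) ∈ ball (0 : ℂ) D.R ×ˢ ball w₀ D.r :=
    ⟨by rw [h0]; simpa using D.R_pos, hw⟩
  have hpair : AnalyticAt ℂ (fun p => ((μ p).1, W p)) p₀ := hμ.prod hW
  have hmem : ∀ᶠ p in 𝓝 p₀, ((μ p).1, W p) ∈ ball (0 : ℂ) D.R ×ˢ ball w₀ D.r :=
    hpair.continuousAt.eventually ((isOpen_ball.prod isOpen_ball).mem_nhds hmem0)
  have hprod : ∀ᶠ p in 𝓝 p₀, ∏ l, (ζ p - D.Z l ((μ p).1, W p)) = 0 := by
    filter_upwards [he, hmem] with p h1 h2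
    have h3 := (D.split _ h2).2.2
    have h4 : ((μ p).1, yv T v ((μ p).1, W p)) = μ p := Prod.ext rfl h1.1.symm
    rw [h4] at h3
    have h5 := h1.2
    rw [h3, eval_prod] at h5
    simpa using h5
  obtain ⟨l, -, hl⟩ := prod_ev Finset.univ (fun l _ => hζ.sub
    (AnalyticAt.comp (g := D.Z l) (f := fun p => ((μ p).1, W p)) (D.an l _ hmem0) hpair)) hprod
  exact ⟨l, hl.mono fun p hp => sub_eq_zero.1 hp⟩

/-- near the special fibre the retraction of a root is `σ l (W p)` -/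
theorem attach_ret {E : Type*} [NormedAddCommGroup E] [NormedSpace ℂ E] [CompleteSpace E]
    {μ : E → ℂ × ℂ} {ζ W : E → ℂ} {p₀ : E} (hμ : AnalyticAt ℂ (fun p => (μ p).1) p₀)
    (hζ : AnalyticAt ℂ ζ p₀) (hW : AnalyticAt ℂ W p₀) (h0 : (μ p₀).1 = 0) (hw : W p₀ ∈ ball w₀ D.r)
    (he : ∀ᶠ p in 𝓝 p₀, (μ p).2 = yv T v ((μ p).1, W p) ∧ (T.Q (μ p)).eval (ζ p) = 0) :
    ∃ l, ∀ᶠ p in 𝓝 p₀, ζ p = D.Z l ((μ p).1, W p) ∧
      ((μ p).1 ≠ 0 → IsRet U v (pt (ζ p) (μ p)) (D.σ l (W p))) := by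
  obtain ⟨l, hl⟩ := D.attach hμ hζ hW h0 hw he
  refine ⟨l, ?_⟩
  have hW1 : ∀ᶠ p in 𝓝 p₀, W p ∈ ball w₀ D.r := hW.continuousAt.eventually (isOpen_ball.mem_nhds hw)
  have hnsp := (D.lt _ hw).1
  have h1 : ∀ᶠ p in 𝓝 p₀, ‖(μ p).1‖ < U.ρ v (W p) := by
    have h2 : ContinuousAt (fun p => U.ρ v (W p)) p₀ :=
      ContinuousAt.comp (g := U.ρ v) (f := W) (rho_contAt U D.hv hnsp) hW.continuousAt
    have h3 : ContinuousAt (fun p => ‖(μ p).1‖) p₀ := hμ.continuousAt.norm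
    exact h3.eventually_lt h2 (by
      show ‖(μ p₀).1‖ < U.ρ v (W p₀)
      rw [h0, norm_zero]; exact U.pos v D.hv _ hnsp)
  filter_upwards [hl, he, hW1, h1] with p e1 e2 e3 e4
  refine ⟨e1, fun hne => ?_⟩
  have h5 := D.ret l _ e3 _ hne e4
  have h4 : ((μ p).1, yv T v ((μ p).1, W p)) = μ p := Prod.ext rfl e2.1.symm
  rwa [h4, ← e1] at h5

end LD

/-- existence of points with a given retraction -/
lemma exists_pt (hR : RetStmt U) {v : Vtx} (q : XV U v) (ε : ℝ) (hε : 0 < ε) :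
    ∃ x, IsRet U v x q ∧ ‖x 1‖ < ε := by
  have hv := q.2.1
  have hw : pV U v q ∉ sp T v := q.2.2.1
  obtain ⟨D⟩ := exists_LD hR hv hw
  obtain ⟨j, hj⟩ := D.surj q D.w0_mem
  have hpos := U.pos v hv _ hw
  set s : ℂ := ((min ε (U.ρ v (pV U v q)) / 2 : ℝ) : ℂ) with hs
  have hm : 0 < min ε (U.ρ v (pV U v q)) := lt_min hε hpos
  have hn : ‖s‖ = min ε (U.ρ v (pV U v q)) / 2 := by
    rw [hs, Complex.norm_real, Real.norm_of_nonneg (by linarith)]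
  have hs0 : s ≠ 0 := by
    intro h
    rw [h, norm_zero] at hn
    linarith
  have h1 := D.ret j _ D.w0_mem s hs0 (by
    rw [hn]; linarith [min_le_right ε (U.ρ v (pV U v q))])
  rw [hj] at h1
  refine ⟨_, h1, ?_⟩
  show ‖s‖ < ε
  rw [hn]; linarith [min_le_left ε (U.ρ v (pV U v q))]

end Crest.Agent.R257.Vt2_558
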