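import Mathlib
import Crest.Agent.R257.WtD_258
import Crest.Agent.R257.Wt1_258
import Crest.Agent.R257.Typ_201
import Crest.Agent.R257.Vx_331
import Crest.Agent.R257.Lab3_931
import Crest.Agent.R257.WtF_258

-- ▼ part R257/Wt2_258
section

/-!
Row 257 (S0395), C-WT, file 2 (helper258): types of filters (201) in the language of `BPDefs_258`,
the key lemma: a sheet of a chart whose points tend to a point `q₀` of a vertex curve does so along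
one of the axes of the chart.
-/

set_option autoImplicit false
set_option linter.unusedSectionVars false

open Polynomial Set Filter Topology Metric
open Crest.AlgGeometry.Germ Crest.Agent.R257.AJ387 Crest.Agent.R257.T387
open Crest.Agent.R257.Gr1_157 Crest.Agent.R257.HoB_843 Crest.Agent.R257.BP_258
open Crest.Agent.R257.Frm_547 Crest.Agent.R257.Typ_201 Crest.Agent.R257.Lab_931

noncomputable section

namespace Crest.Agent.R257.Wt_258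

variable {f : (Fin 3 → ℂ) → ℂ} {T : TB f} {U : Tub T} {S : Sh T}

section types

variable {l : Filter (ℂ × ℂ)} (h0 : Tendsto Prod.fst l (𝓝 0)) (h1 : ∀ᶠ q in l, q.1 ≠ 0)


include h0 h1 in
lemma tv_vx {i : Fin T.m} {k : ℕ} (hk : k ∈ T.lev i) {w : ℂ}
    (hw : Tendsto (wv T (vx T i k)) l (𝓝 w)) (hs : w ∉ sp T (vx T i k)) :
    TV T l i k (w - co T i k) := by
  refine ⟨hk, ?_, fun h => hs ((Vx_331.mem_sp T).2 h)⟩
  have h2 : Tendsto (fun q : ℂ × ℂ => Vx_331.rest T i k q.1) l (𝓝 (co T i k)) := by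
    have := (Vx_331.rest_an T i k 0 (zero_mem_sD T)).continuousAt.tendsto.comp h0
    rwa [Vx_331.rest_zero] at this
  refine (hw.sub h2).congr' ?_
  filter_upwards [h1] with q hq
  have := Vx_331.wv_add T i k (s := q.1) (y := q.2) hq
  rw [show wv T (vx T i k) q = wv T (vx T i k) (q.1, q.2) from rfl, this]
  unfold Typ_201.wc
  ring

include h0 h1 in
lemma v_unique [l.NeBot] {v v' : Vtx} (hv : v ∈ Vs T) (hv' : v' ∈ Vs T) {w w' : ℂ}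
    (hw : Tendsto (wv T v) l (𝓝 w)) (hs : w ∉ sp T v)
    (hw' : Tendsto (wv T v') l (𝓝 w')) (hs' : w' ∉ sp T v') : v = v' := by
  obtain ⟨i, k, hk, rfl⟩ := (Vx_331.mem_Vs T).1 hv
  obtain ⟨i', k', hk', rfl⟩ := (Vx_331.mem_Vs T).1 hv'
  obtain ⟨rfl, h⟩ := TV_TV h0 h1 (tv_vx h0 h1 hk hw hs) (tv_vx h0 h1 hk' hw' hs')
  exact (Vx_331.vx_eq_iff T i i' k).2 h

include h0 h1 in
lemma not_node [l.NeBot] {v : Vtx} (hv : v ∈ Vs T) {w : ℂ}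
    (hw : Tendsto (wv T v) l (𝓝 w)) (hs : w ∉ sp T v) {i : Fin T.m} {k k' : ℕ}
    (h : TN T l i k k') : False := by
  obtain ⟨i', k'', hk, rfl⟩ := (Vx_331.mem_Vs T).1 hv
  exact TV_TN h0 h1 (tv_vx h0 h1 hk hw hs) h

include h0 h1 in
lemma not_leg [l.NeBot] {v : Vtx} (hv : v ∈ Vs T) {w : ℂ}
    (hw : Tendsto (wv T v) l (𝓝 w)) (hs : w ∉ sp T v) {i : Fin T.m} (h : TL T l i) : False := by
  obtain ⟨i', k'', hk, rfl⟩ := (Vx_331.mem_Vs T).1 hv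
  exact TV_TL h0 h1 (tv_vx h0 h1 hk hw hs) h

include h0 in
lemma φ_tendsto (i : Fin T.m) : Tendsto (fun q : ℂ × ℂ => T.φ i (q.1 ^ T.M)) l (𝓝 0) := by
  have h2 : ContinuousAt (T.φ i) 0 := (T.φ_an i 0 (mem_ball_self T.ρ_pos)).continuousAt
  have h3 : Tendsto (fun q : ℂ × ℂ => q.1 ^ T.M) l (𝓝 0) := by
    have := h0.pow T.M
    rwa [zero_pow T.M_pos.ne'] at this
  have := h2.tendsto.comp h3
  rwa [T.φ_zero] at this

include h0 h1 in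
lemma snd_zero {i : Fin T.m} {k : ℕ} {w : ℂ} (hw : Tendsto (Typ_201.wc T i k) l (𝓝 w))
    (h : k ≠ 0 ∨ w = 0) : Tendsto Prod.snd l (𝓝 0) := by
  have h2 : Tendsto (fun q : ℂ × ℂ => T.φ i (q.1 ^ T.M) + q.1 ^ (T.M * k) * Typ_201.wc T i k q) l
      (𝓝 (0 + 0 ^ (T.M * k) * w)) := (φ_tendsto h0 i).add ((h0.pow _).mul hw)
  have h3 : (0 : ℂ) + 0 ^ (T.M * k) * w = 0 := by
    rcases h with h | h
    · rw [zero_pow (Nat.mul_ne_zero T.M_pos.ne' h)]; ring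
    · rw [h]; ring
  rw [h3] at h2
  refine h2.congr' ?_
  filter_upwards [h1] with q hq
  unfold Typ_201.wc
  have : q.1 ^ (T.M * k) ≠ 0 := pow_ne_zero _ hq
  field_simp
  ring

include h0 h1 in
lemma v_snd_zero {v : Vtx} (hv : v ∈ Vs T) {w : ℂ}
    (hw : Tendsto (wv T v) l (𝓝 w)) (hs : w ∉ sp T v) : Tendsto Prod.snd l (𝓝 0) := by
  obtain ⟨i, k, hk, rfl⟩ := (Vx_331.mem_Vs T).1 hv
  exact snd_zero h0 h1 (tv_vx h0 h1 hk hw hs).2.1 (Or.inl (TB.lev_pos T hk).ne')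

end types

instance (v : Vtx) : T2Space (XV U v) := inferInstanceAs (T2Space {q : ℂ × ℂ // _})

lemma gen_fst {c : Ch T.m} {p : ℂ × ℂ} (h : T.Gen c p) : p.1 ≠ 0 := by
  cases c with
  | edge i k k' => exact h.1
  | leg i => exact h.1
  | vert i k w₀ => exact h

lemma gen_snd {c : Ch T.m} {p : ℂ × ℂ} (h : T.Gen c p) (hc : ¬ IsV c) : p.2 ≠ 0 := by
  cases c with
  | edge i k k' => exact h.2
  | leg i => exact h.2
  | vert i k w₀ => exact absurd trivial hc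

lemma eq_of_lim {v : Vtx} {j : Fin T.d} {c : Ch T.m} {𝒰 : Filter (ℂ × ℂ)} [𝒰.NeBot] {q₀ q₁ : XV U v}
    (h1 : ∀ O ∈ 𝓝 q₀, ∀ᶠ p in 𝒰, ∀ q, IsRet U v (wc S c j p) q → q ∈ O)
    (h2 : ∀ O ∈ 𝓝 q₁, ∀ᶠ p in 𝒰, ∀ q, IsRet U v (wc S c j p) q → q ∈ O)
    (hex : ∀ᶠ p in 𝒰, ∃ q', IsRet U v (wc S c j p) q') : q₀ = q₁ := by
  by_contra hne
  obtain ⟨O, O', hO, hO', ho, ho', hd⟩ := t2_separation hne
  obtain ⟨p, hp1, hp2, q, hq⟩ := ((h1 O (hO.mem_nhds ho)).and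
    ((h2 O' (hO'.mem_nhds ho')).and hex)).exists
  exact Set.disjoint_left.1 hd (hp1 q hq) (hp2 q hq)

/-- **the key lemma** -/
theorem key (hR : RetStmt U) {v : Vtx} (hv : v ∈ Vs T) {c : Ch T.m} (hc : T.Valid c) {j : Fin T.d}
    {q₀ : XV U v} {r₁ r₂ : ℝ} (hr₁ : r₁ ≤ S.r c) (hr₂ : r₂ ≤ S.r c) (𝒰 : Ultrafilter (ℂ × ℂ))
    (hb : ∀ᶠ p in (𝒰 : Filter (ℂ × ℂ)), ‖p.1‖ ≤ r₁ ∧ ‖p.2‖ ≤ r₂ ∧ T.Gen c p)
    (hs : Tendsto (fun p => (T.map c p).1) (𝒰 : Filter (ℂ × ℂ)) (𝓝 0))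
    (hq : ∀ O ∈ 𝓝 q₀, ∀ᶠ p in (𝒰 : Filter (ℂ × ℂ)), ∀ q, IsRet U v (wc S c j p) q → q ∈ O)
    (hex : ∀ᶠ p in (𝒰 : Filter (ℂ × ℂ)), ∃ q, IsRet U v (wc S c j p) q) :
    (∃ b, (𝒰 : Filter (ℂ × ℂ)) ≤ 𝓝 (0, b) ∧ v1 T c = some v ∧ (IsV c ∨ b ≠ 0) ∧ ‖b‖ ≤ r₂ ∧
      ∀ γ, End1 U S c v γ → γ j b = q₀) ∨
    (∃ a, (𝒰 : Filter (ℂ × ℂ)) ≤ 𝓝 (a, 0) ∧ v2 T c = some v ∧ a ≠ 0 ∧ ‖a‖ ≤ r₁ ∧
      ∀ γ, End2 U S c v γ → γ j a = q₀) := by
  have hM := T.M_pos.ne'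
  -- the limit
  have hK : IsCompact (closedBall (0 : ℂ) r₁ ×ˢ closedBall (0 : ℂ) r₂) :=
    (isCompact_closedBall _ _).prod (isCompact_closedBall _ _)
  obtain ⟨ps, hps, hle⟩ := hK.ultrafilter_le_nhds 𝒰 (by
    rw [le_principal_iff]
    filter_upwards [hb] with p hp
    exact ⟨mem_closedBall_zero_iff.2 hp.1, mem_closedBall_zero_iff.2 hp.2.1⟩)
  have hp1 : ‖ps.1‖ ≤ r₁ := mem_closedBall_zero_iff.1 hps.1
  have hp2 : ‖ps.2‖ ≤ r₂ := mem_closedBall_zero_iff.1 hps.2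
  have hBD : ps ∈ BD (2 * S.r c) (2 * S.r c) :=
    ⟨lt_two_r S (hp1.trans hr₁), lt_two_r S (hp2.trans hr₂)⟩
  have hBDn : BD (2 * S.r c) (2 * S.r c) ∈ 𝓝 ps := (isOpen_BD _ _).mem_nhds hBD
  -- the map
  have hmc : ContinuousAt (T.map c) ps := (map_cont S hc).continuousAt hBDn
  have hs0 : (T.map c ps).1 = 0 :=
    tendsto_nhds_unique ((hmc.fst.tendsto).mono_left hle) hs
  set l : Filter (ℂ × ℂ) := Filter.map (T.map c) 𝒰 with hl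
  have lne : l.NeBot := by rw [hl]; infer_instance
  have l0 : Tendsto Prod.fst l (𝓝 0) := tendsto_map'_iff.2 hs
  have l1 : ∀ᶠ q in l, q.1 ≠ 0 := by
    rw [hl, eventually_map]
    filter_upwards [hb] with p hp
    exact map_ne hp.2.2
  -- `w → pV q₀`
  have hw : Tendsto (wv T v) l (𝓝 (pV U v q₀)) := by
    rw [hl, tendsto_map'_iff]
    intro O hO
    have hc1 : Continuous (pV U v) := continuous_fst.comp continuous_subtype_val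
    show ∀ᶠ p in (𝒰 : Filter (ℂ × ℂ)), wv T v (T.map c p) ∈ O
    filter_upwards [hq _ (hc1.continuousAt.preimage_mem_nhds hO), hex] with p hp hp'
    obtain ⟨q, hq'⟩ := hp'
    have h2 := hp q hq'
    have h3 : pV U v q = wv T v (T.map c p) := hq'.2.1
    rw [← h3]
    exact h2
  have hsp : pV U v q₀ ∉ sp T v := q₀.2.2.1
  -- type of the axes
  have axis1 : ∀ {v' : Vtx}, v1 T c = some v' → ps.1 = 0 → (IsV c ∨ ps.2 ≠ 0) → 
      (∃ b, (𝒰 : Filter (ℂ × ℂ)) ≤ 𝓝 (0, b) ∧ v1 T c = some v ∧ (IsV c ∨ b ≠ 0) ∧ ‖b‖ ≤ r₂ ∧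
      ∀ γ, End1 U S c v γ → γ j b = q₀) := by
    intro v' hv' h10 h20
    have e : ps = (0, ps.2) := Prod.ext h10 rfl
    have hW : Tendsto (wv T v') l (𝓝 (W1 c (0, ps.2))) := by
      rw [hl, tendsto_map'_iff]
      have h2 : Tendsto (W1 c) (𝒰 : Filter (ℂ × ℂ)) (𝓝 (W1 c ps)) :=
        ((W1_cont S hc).continuousAt hBDn).tendsto.mono_left hle
      rw [e] at h2
      refine h2.congr' ?_
      filter_upwards [hb] with p hp
      exact (W1_eq hc hv' hp.2.2).symm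
    have hv'' := v1_mem hc hv'
    have hns : W1 c (0, ps.2) ∉ sp T v' := W1_zero S hc hv' (hp2.trans hr₂) h20
    obtain rfl := v_unique l0 l1 hv hv'' hw hsp hW hns
    refine ⟨ps.2, by rw [← e]; exact hle, hv', h20, hp2, fun γ hγ => ?_⟩
    have hPD : ps.2 ∈ PDv S c := by
      refine ⟨h20.imp id fun h => norm_pos_iff.2 h, hBD.2⟩
    refine eq_of_lim (𝒰 := (𝒰 : Filter (ℂ × ℂ))) (c := c) (j := j) (S := S) (fun O hO => ?_) hq hex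
    have h3 := (hγ.lim j ps.2 hPD).2 O hO
    have h4 : ∀ᶠ p in (𝒰 : Filter (ℂ × ℂ)), p.1 ≠ 0 → ∀ q, IsRet U v (wc S c j p) q → q ∈ O :=
      h3.filter_mono (by rw [← e]; exact hle)
    filter_upwards [h4, hb] with p hp hp'
    exact hp (gen_fst hp'.2.2)
  have axis2 : ∀ {v' : Vtx}, v2 T c = some v' → ps.2 = 0 → ps.1 ≠ 0 → 
      (∃ a, (𝒰 : Filter (ℂ × ℂ)) ≤ 𝓝 (a, 0) ∧ v2 T c = some v ∧ a ≠ 0 ∧ ‖a‖ ≤ r₁ ∧
      ∀ γ, End2 U S c v γ → γ j a = q₀) := by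
    intro v' hv' h20 h10
    have e : ps = (ps.1, 0) := Prod.ext rfl h20
    have hnV : ¬ IsV c := by
      intro h
      cases c with
      | edge i k k' => exact h
      | leg i => exact h
      | vert i k w₀ => simp [v2] at hv'
    have hW : Tendsto (wv T v') l (𝓝 (W2 c (ps.1, 0))) := by
      rw [hl, tendsto_map'_iff]
      have h2 : Tendsto (W2 c) (𝒰 : Filter (ℂ × ℂ)) (𝓝 (W2 c ps)) := by
        refine ((W2_cont S hc).continuousAt ?_).tendsto.mono_left hle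
        exact Filter.inter_mem hBDn ((isOpen_ne_fun continuous_fst continuous_const).mem_nhds h10)
      rw [e] at h2
      refine h2.congr' ?_
      filter_upwards [hb] with p hp
      exact (W2_eq hc hv' hp.2.2).symm
    have hv'' := v2_mem hc hv'
    have hns : W2 c (ps.1, 0) ∉ sp T v' := W2_zero S hc hv' (hp1.trans hr₁) h10
    obtain rfl := v_unique l0 l1 hv hv'' hw hsp hW hns
    refine ⟨ps.1, by rw [← e]; exact hle, hv', h10, hp1, fun γ hγ => ?_⟩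
    have hPD : ps.1 ∈ PDc S c := ⟨norm_pos_iff.2 h10, hBD.1⟩
    refine eq_of_lim (𝒰 := (𝒰 : Filter (ℂ × ℂ))) (c := c) (j := j) (S := S) (fun O hO => ?_) hq hex
    have h3 := (hγ.lim j ps.1 hPD).2 O hO
    have h4 : ∀ᶠ p in (𝒰 : Filter (ℂ × ℂ)), p.2 ≠ 0 → ∀ q, IsRet U v (wc S c j p) q → q ∈ O :=
      h3.filter_mono (by rw [← e]; exact hle)
    filter_upwards [h4, hb] with p hp hp'
    exact hp (gen_snd hp'.2.2 hnV)
  -- the cases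
  cases c with
  | vert i k w₀ =>
    left
    exact axis1 (v' := vx T i k) rfl hs0 (Or.inl trivial)
  | leg i =>
    left
    have h10 : ps.1 = 0 := hs0
    refine axis1 (v' := vx T i (T.top i)) rfl h10 (Or.inr fun h20 => ?_)
    refine not_leg l0 l1 hv hw hsp (i := i) ?_
    unfold TL
    rw [hl, tendsto_map'_iff]
    have h2 : Tendsto (fun p : ℂ × ℂ => p.2 ^ T.M) (𝒰 : Filter (ℂ × ℂ)) (𝓝 (ps.2 ^ T.M)) :=
      ((continuous_snd.pow _).tendsto ps).mono_left hle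
    rw [h20, zero_pow hM] at h2
    refine h2.congr' ?_
    filter_upwards [hb] with p hp
    have hp0 : p.1 ≠ 0 := hp.2.2.1
    simp only [Function.comp_apply, Typ_201.wc, TB.map]
    rw [add_sub_cancel_left, mul_div_cancel_left₀ _ (pow_ne_zero _ hp0)]
  | edge i k k' =>
    have hkk : k < k' := hc.2.2.1
    have hll : T.M * (k' - k) ≠ 0 := Nat.mul_ne_zero hM (by omega)
    have e1 : ∀ p : ℂ × ℂ, p.1 ≠ 0 → p.2 ≠ 0 →
        Typ_201.wc T i k (T.map (.edge i k k') p) = p.2 ^ (T.M * (k' - k)) := by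
      intro p hp1 hp2
      simp only [Typ_201.wc, TB.map]
      rw [add_sub_cancel_left, mul_pow, mul_div_mul_left _ _ (pow_ne_zero _ hp1),
        div_eq_iff (pow_ne_zero _ hp2), ← pow_add, ← mul_add, Nat.sub_add_cancel hkk.le]
    have e2 : ∀ p : ℂ × ℂ, p.1 ≠ 0 → p.2 ≠ 0 →
        Typ_201.wc T i k' (T.map (.edge i k k') p) = (p.1 ^ (T.M * (k' - k)))⁻¹ := by
      intro p hp1 hp2
      simp only [Typ_201.wc, TB.map]
      rw [add_sub_cancel_left, mul_pow, mul_div_mul_right _ _ (pow_ne_zero _ hp2)]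
      have h3 : p.1 ^ (T.M * k') = p.1 ^ (T.M * k) * p.1 ^ (T.M * (k' - k)) := by
        rw [← pow_add, ← mul_add, Nat.add_sub_cancel' hkk.le]
      rw [h3, ← div_div, div_self (pow_ne_zero _ hp1), one_div]
    have hs0' : ps.1 * ps.2 = 0 := hs0
    by_cases h10 : ps.1 = 0
    · by_cases h20 : ps.2 = 0
      · -- the corner
        exfalso
        refine not_node l0 l1 hv hw hsp (i := i) (k := k) (k' := k') ⟨hc, ?_, ?_⟩
        · rw [hl, tendsto_map'_iff]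
          have h2 : Tendsto (fun p : ℂ × ℂ => p.2 ^ (T.M * (k' - k))) (𝒰 : Filter (ℂ × ℂ))
              (𝓝 (ps.2 ^ (T.M * (k' - k)))) := ((continuous_snd.pow _).tendsto ps).mono_left hle
          rw [h20, zero_pow hll] at h2
          refine h2.congr' ?_
          filter_upwards [hb] with p hp
          exact (e1 p hp.2.2.1 hp.2.2.2).symm
        · rw [hl, tendsto_map'_iff, ← tendsto_norm_atTop_iff_cobounded]
          have h2 : Tendsto (fun p : ℂ × ℂ => ‖p.1 ^ (T.M * (k' - k))‖) (𝒰 : Filter (ℂ × ℂ))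
              (𝓝 ‖ps.1 ^ (T.M * (k' - k))‖) :=
            ((continuous_fst.pow _).norm.tendsto ps).mono_left hle
          rw [h10, zero_pow hll, norm_zero] at h2
          have h3 : Tendsto (fun p : ℂ × ℂ => ‖p.1 ^ (T.M * (k' - k))‖⁻¹) (𝒰 : Filter (ℂ × ℂ))
              atTop := by
            refine tendsto_inv_nhdsGT_zero.comp ?_
            rw [tendsto_nhdsWithin_iff]
            refine ⟨h2, ?_⟩
            filter_upwards [hb] with p hp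
            exact norm_pos_iff.2 (pow_ne_zero _ hp.2.2.1)
          refine h3.congr' ?_
          filter_upwards [hb] with p hp
          rw [Function.comp_apply, e2 p hp.2.2.1 hp.2.2.2, norm_inv]
      · -- first axis
        by_cases hk0 : k = 0
        · exfalso
          subst hk0
          have h3 := v_snd_zero l0 l1 hv hw hsp
          have h4 : Tendsto (fun q : ℂ × ℂ => Typ_201.wc T i 0 q) l (𝓝 0) := by
            have h5 := h3.sub (φ_tendsto l0 i)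
            rw [sub_zero] at h5
            refine h5.congr fun q => ?_
            simp [Typ_201.wc]
          have h6 : Tendsto (fun q : ℂ × ℂ => Typ_201.wc T i 0 q) l
              (𝓝 (ps.2 ^ (T.M * (k' - 0)))) := by
            rw [hl, tendsto_map'_iff]
            have h2 : Tendsto (fun p : ℂ × ℂ => p.2 ^ (T.M * (k' - 0))) (𝒰 : Filter (ℂ × ℂ))
                (𝓝 (ps.2 ^ (T.M * (k' - 0)))) := ((continuous_snd.pow _).tendsto ps).mono_left hle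
            refine h2.congr' ?_
            filter_upwards [hb] with p hp
            exact (e1 p hp.2.2.1 hp.2.2.2).symm
          exact pow_ne_zero _ h20 (tendsto_nhds_unique h6 h4)
        · left
          exact axis1 (v' := vx T i k) (by simp [v1, hk0]) h10 (Or.inr h20)
    · right
      have h20 : ps.2 = 0 := (mul_eq_zero.1 hs0').resolve_left h10
      exact axis2 (v' := vx T i k') rfl h20 h10

end Crest.Agent.R257.Wt_258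
end
end

-- ▼ part R257/Wt3_258

/-!
Row 257 (S0395), C-WT, file 3 (helper258): the parameters of the construction and the weight `Φ₀`.
-/

set_option autoImplicit false
set_option linter.unusedSectionVars false
set_option linter.unusedVariables false

open Polynomial Set Filter Topology Metric
open Crest.AlgGeometry.Germ Crest.Agent.R257.AJ387 Crest.Agent.R257.T387
open Crest.Agent.R257.Gr1_157 Crest.Agent.R257.HoB_843 Crest.Agent.R257.BP_258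
open Crest.Agent.R257.Frm_547 Crest.Agent.R257.Lab_931

noncomputable section

namespace Crest.Agent.R257.Wt_258

variable {f : (Fin 3 → ℂ) → ℂ} {T : TB f} {U : Tub T} {S : Sh T}

/-- charts carrying an edge function -/
def Es {F : Finset (Ch T.m)} (K : DKill S F) (c : Ch T.m) (j : Fin T.d) : Prop :=
  Ok S c ∧ (IsV c → (c, j) ∈ K.κ)

/-- radius in `α` of the zone of a chart -/
def ta (S : Sh T) (τ : ℝ) (c : Ch T.m) : ℝ := if v2 T c = none then S.r c else τ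

/-- radius in `β` of the zone of a chart -/
def tb (S : Sh T) (τ : ℝ) (c : Ch T.m) : ℝ := if v1 T c = none then S.r c else τ

/-- the zone of a chart -/
def zn (S : Sh T) (τ : ℝ) (c : Ch T.m) : Set (ℂ × ℂ) :=
  {p | ‖p.1‖ < ta S τ c ∧ ‖p.2‖ < tb S τ c ∧ T.Gen c p}

/-- the core of the curve over `v` -/
def Om {F : Finset (Ch T.m)} (K : DKill S F)
    (γ1 : ∀ (_ : Ch T.m) (v : Vtx) (_ : v ∈ Vs T), Fin T.d → ℂ → XV U v) (κ : ℝ) (v : Vtx) : Set (XV U v) :=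
  {q | ‖pV U v q‖ < κ⁻¹ ∧ (∀ c ∈ sp T v, κ < ‖pV U v q - c‖) ∧
    ∀ c j, (c, j) ∈ K.κ → IsV c → v1 T c = some v → ∀ b : ℂ, ‖b‖ ≤ κ → γ1 c v q.2.1 j b ≠ q}

open Classical in
/-- the excess, `0` if there is no kill -/
def tt {F : Finset (Ch T.m)} (K : DKill S F) (c : Ch T.m) (j : Fin T.d) : ℝ :=
  if (c, j) ∈ K.κ then K.t (c, j) else 0

/-- the edge function of a sheet of a chart -/
def EL (L : Lab U S) (y : II U → ℝ) {F : Finset (Ch T.m)} (K : DKill S F) (c : Ch T.m)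
    (j : Fin T.d) (p : ℂ × ℂ) : ℝ :=
  yo y (L.e1 c j) * Real.log (‖p.1‖ ^ 2) + yo y (L.e2 c j) * Real.log (‖p.2‖ ^ 2) +
    tt K c j * Real.log (‖p.1‖ ^ (2 * K.b (c, j)) + ‖p.2‖ ^ (2 * K.a (c, j)))

/-- the parameters -/
structure WPar (L : Lab U S) [Fintype (II U)] (y : II U → ℝ) {F : Finset (Ch T.m)} (K : DKill S F)
    (τ₀ τ₁ : ℝ) where
  γ1 : ∀ (_ : Ch T.m) (v : Vtx) (_ : v ∈ Vs T), Fin T.d → ℂ → XV U v
  γ2 : ∀ (_ : Ch T.m) (v : Vtx) (_ : v ∈ Vs T), Fin T.d → ℂ → XV U v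
  h : ∀ v, XV U v → ℝ
  δ : ℝ
  C : ℝ
  τH : ℝ
  τ : ℝ
  κ : ℝ
  B : ℝ
  hF : ∀ c ∈ F, Ok S c
  end1 : ∀ c, Ok S c → ∀ v : {v // v ∈ Vs T}, v1 T c = some v.1 →
    End1 U S c v.1 (γ1 c v.1 v.2) ∧ ∀ j, ∀ b ∈ PDv S c, L.e1 c j = some (lab U v (γ1 c v.1 v.2 j b))
  end2 : ∀ c, Ok S c → ∀ v : {v // v ∈ Vs T}, v2 T c = some v.1 →
    End2 U S c v.1 (γ2 c v.1 v.2) ∧ ∀ j, ∀ a ∈ PDc S c, L.e2 c j = some (lab U v (γ2 c v.1 v.2 j a))
  smp : ∀ v ∈ Vs T, SmPos (pV U v)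
    {q | ∃ c j, (c, j) ∈ K.κ ∧ IsV c ∧ v1 T c = some v ∧ q = γ1 c v q.2.1 j 0} (h v)
  hv1 : ∀ c, Ok S c → ∀ v : {v // v ∈ Vs T}, v1 T c = some v.1 → ∀ j, (IsV c → (c, j) ∈ K.κ) →
    ∀ b : ℂ, 0 < ‖b‖ → ‖b‖ < τH → ‖b‖ < S.r c →
      |h v.1 (γ1 c v.1 v.2 j b) - (d1 L y K c j + δ) * Real.log (‖b‖ ^ 2)| ≤ C
  hv2 : ∀ c, Ok S c → ∀ v : {v // v ∈ Vs T}, v2 T c = some v.1 → ∀ j,
    ∀ a : ℂ, 0 < ‖a‖ → ‖a‖ < τH → ‖a‖ < S.r c →
      |h v.1 (γ2 c v.1 v.2 j a) - (d2 L y K c j + δ) * Real.log (‖a‖ ^ 2)| ≤ C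
  δ_pos : 0 < δ
  τ_pos : 0 < τ
  τ_lt1 : τ < 1
  τ_τ₀ : τ < τ₀
  κ_pos : 0 < κ
  κ_lt : κ < τ
  τ_lt : τ < τH
  τ_r : ∀ c j, Es K c j → τ < S.r c
  sep11 : ∀ c c' j j', Es K c j → Es K c' j' → ∀ v, v1 T c = some v → v1 T c' = some v →
    ∀ b b' : ℂ, ‖b‖ ≤ τ → ‖b'‖ ≤ τ → cx T c + b ^ lx T c = cx T c' + b' ^ lx T c' → c = c'
  sep12 : ∀ c c' j j', Es K c j → Es K c' j' → ∀ v, v1 T c = some v → v2 T c' = some v →
    ∀ b a : ℂ, ‖b‖ ≤ τ → a ≠ 0 → ‖a‖ ≤ τ → cx T c + b ^ lx T c ≠ (a ^ lx T c')⁻¹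
  bigB : 2 + C < B + δ * Real.log (τ ^ 2)
  smallκ : ∀ c j, Es K c j → ∀ b : ℂ, b ≠ 0 → ‖b‖ ^ lx T c ≤ κ →
    ‖b‖ < τ ∧ δ * Real.log (‖b‖ ^ 2) + C + B < -1
  sm1 : ∀ c j, Es K c j → ∀ v, v1 T c = some v → ∀ b : ℂ, ‖b‖ ≤ τ →
    ‖cx T c + b ^ lx T c‖ < κ⁻¹ ∧ ∀ c' ∈ sp T v, c' ≠ cx T c → κ < ‖cx T c + b ^ lx T c - c'‖
  sm2 : ∀ c j, Es K c j → ∀ v, v2 T c = some v → ∀ a : ℂ, a ≠ 0 → ‖a‖ ≤ τ →
    ∀ c' ∈ sp T v, κ < ‖(a ^ lx T c)⁻¹ - c'‖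
  str1 : ∀ c ∈ F, ∀ j v, v1 T c = some v → ∀ b : ℂ, ‖b‖ ≤ S.r c →
    ((K.κ = ∅ ∧ (IsV c ∨ τ₀ ≤ ‖b‖)) ∨ ((c, j) ∈ K.κ ∧ τ₀ ≤ ‖b‖ ∧ ‖b‖ ≤ τ₁)) →
    (∀ c' j', Es K c' j' → v1 T c' = some v → ∀ b' : ℂ, ‖b'‖ ≤ τ →
      cx T c + b ^ lx T c ≠ cx T c' + b' ^ lx T c') ∧
    (∀ c' j', Es K c' j' → v2 T c' = some v → ∀ a : ℂ, a ≠ 0 → ‖a‖ ≤ τ →
      cx T c + b ^ lx T c ≠ (a ^ lx T c')⁻¹)
  str2 : ∀ c ∈ F, ∀ j v, v2 T c = some v → ∀ a : ℂ, ‖a‖ ≤ S.r c → τ₀ ≤ ‖a‖ →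
    (K.κ = ∅ ∨ ((c, j) ∈ K.κ ∧ ‖a‖ ≤ τ₁)) →
    (∀ c' j', Es K c' j' → v1 T c' = some v → ∀ b' : ℂ, ‖b'‖ ≤ τ →
      (a ^ lx T c)⁻¹ ≠ cx T c' + b' ^ lx T c') ∧
    (∀ c' j', Es K c' j' → v2 T c' = some v → ∀ a' : ℂ, a' ≠ 0 → ‖a'‖ ≤ τ →
      (a ^ lx T c)⁻¹ ≠ (a' ^ lx T c')⁻¹)

variable {L : Lab U S} [Fintype (II U)] {y : II U → ℝ} {F : Finset (Ch T.m)} {K : DKill S F}
  {τ₀ τ₁ : ℝ} (P : WPar L y K τ₀ τ₁)

namespace WPar

/-- values of the vertex functions at `x` -/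
def RV (x : Fin 3 → ℂ) (a : ℝ) : Prop := ∃ v : {v // v ∈ Vs T}, ∃ q, IsRet U v.1 x q ∧
  q ∈ Om K P.γ1 P.κ v.1 ∧ a = y (lab U v q) * Real.log (‖x 1‖ ^ 2) + P.h v.1 q

/-- values of the edge functions at `x` -/
def RE (x : Fin 3 → ℂ) (b : ℝ) : Prop := ∃ c j p, Es K c j ∧ p ∈ zn S P.τ c ∧
  wc S c j p = x ∧ b = EL L y K c j p - P.B

open Classical in
/-- the glued weight -/
def Φ (x : Fin 3 → ℂ) : ℝ :=
  if hV : ∃ a, P.RV x a then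
    if hE : ∃ b, P.RE x b then smx hV.choose hE.choose else hV.choose
  else if hE : ∃ b, P.RE x b then hE.choose else 0

variable {P}

lemma Φ_VE {x : Fin 3 → ℂ} {A B : ℝ} (h1 : P.RV x A) (h1' : ∀ a, P.RV x a → a = A)
    (h2 : P.RE x B) (h2' : ∀ b, P.RE x b → b = B) : P.Φ x = smx A B := by
  unfold Φ
  have hV : ∃ a, P.RV x a := ⟨A, h1⟩
  have hE : ∃ b, P.RE x b := ⟨B, h2⟩
  rw [dif_pos hV, dif_pos hE, h1' _ hV.choose_spec, h2' _ hE.choose_spec]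

lemma Φ_V {x : Fin 3 → ℂ} {A : ℝ} (h1 : P.RV x A) (h1' : ∀ a, P.RV x a → a = A)
    (h2 : ∀ b, P.RE x b → b + 1 ≤ A) : P.Φ x = A := by
  unfold Φ
  have hV : ∃ a, P.RV x a := ⟨A, h1⟩
  rw [dif_pos hV]
  split_ifs with hE
  · rw [h1' _ hV.choose_spec]
    exact smx_left (h2 _ hE.choose_spec)
  · exact h1' _ hV.choose_spec

lemma Φ_E {x : Fin 3 → ℂ} {B : ℝ} (h1 : P.RE x B) (h1' : ∀ b, P.RE x b → b = B)
    (h2 : ∀ a, P.RV x a → a + 1 ≤ B) : P.Φ x = B := by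
  unfold Φ
  have hE : ∃ b, P.RE x b := ⟨B, h1⟩
  split_ifs with hV
  · rw [h1' _ hE.choose_spec]
    exact smx_right (h2 _ hV.choose_spec)
  · exact h1' _ hE.choose_spec

end WPar

/-! ### tube charts -/

variable (U) in
/-- the tube chart at a point of the curve over `v` -/
structure TC (v : Vtx) (q₀ : XV U v) where
  r : ℝ
  R : ℝ
  r_pos : 0 < r
  R_pos : 0 < R
  Z : ℂ × ℂ → ℂ
  σ : ℂ → XV U v
  hv : v ∈ Vs T
  σ0 : σ (pV U v q₀) = q₀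
  σc : ContinuousOn σ (ball (pV U v q₀) r)
  σp : ∀ w ∈ ball (pV U v q₀) r, pV U v (σ w) = w
  ρR : ∀ w ∈ ball (pV U v q₀) r, w ∉ sp T v ∧ U.ρ v w < R
  Zan : AnalyticOnNhd ℂ Z (ball 0 R ×ˢ ball (pV U v q₀) r)
  mem : ∀ q ∈ ball (0 : ℂ) R ×ˢ ball (pV U v q₀) r, (q.1, yv T v q) ∈ BD 1 T.R ∧
    ‖q.1‖ ^ T.M < T.ρ ∧ (T.Q (q.1, yv T v q)).eval (Z q) = 0
  ret : ∀ w ∈ ball (pV U v q₀) r, ∀ s, s ≠ 0 → ‖s‖ < U.ρ v w →
    IsRet U v (pt (Z (s, w)) (s, yv T v (s, w))) (σ w)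

theorem exists_TC (hR : RetStmt U) {v : Vtx} (hv : v ∈ Vs T) (q₀ : XV U v) :
    Nonempty (TC U v q₀) := by
  obtain ⟨r, hr, R, hR0, Z, σ, h1, h2, h3, h4, h5, h6, h7, h8, h9⟩ := (hR v hv).2 (pV U v q₀) q₀.2.2.1
  obtain ⟨i, hi⟩ := h8 q₀ (mem_ball_self hr)
  exact ⟨{ r := r, R := R, r_pos := hr, R_pos := hR0, Z := Z i, σ := σ i, hv := hv, σ0 := hi
           σc := h5 i, σp := h6 i, ρR := h1, Zan := h2 i
           mem := fun q hq => ⟨(h3 q hq).1, (h3 q hq).2.1, by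
             rw [(h3 q hq).2.2, eval_prod_X_sub_C]
             exact ⟨i, rfl⟩⟩
           ret := fun w hw s hs hs' => h9 i w hw s hs hs' }⟩

namespace TC

variable {v : Vtx} {q₀ : XV U v} (D : TC U v q₀)

/-- the points of the tube chart -/
def X (q : ℂ × ℂ) : Fin 3 → ℂ := pt (D.Z q) (q.1, yv T v q)

/-- the filter of the generic points near `(0, w₁)` -/
def Fl (_ : TC U v q₀) : Filter (ℂ × ℂ) := 𝓝[{q : ℂ × ℂ | q.1 ≠ 0}] ((0 : ℂ), pV U v q₀)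

lemma Fl_le : D.Fl ≤ 𝓝 ((0 : ℂ), pV U v q₀) := nhdsWithin_le_nhds

lemma ev_ne : ∀ᶠ q in D.Fl, q.1 ≠ 0 := self_mem_nhdsWithin

lemma ev_ball : ∀ᶠ q in D.Fl, q.2 ∈ ball (pV U v q₀) D.r := by
  have h1 : ∀ᶠ q : ℂ × ℂ in 𝓝 ((0 : ℂ), pV U v q₀), q.2 ∈ ball (pV U v q₀) D.r :=
    continuous_snd.continuousAt.preimage_mem_nhds (isOpen_ball.mem_nhds (mem_ball_self D.r_pos))
  exact h1.filter_mono D.Fl_le

include D in
lemma ρ_cont : ContinuousAt (U.ρ v) (pV U v q₀) :=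
  (U.cont v D.hv).continuousAt ((isClosed_sp v).isOpen_compl.mem_nhds q₀.2.2.1)

lemma ev_ρ : ∀ᶠ q in D.Fl, ‖q.1‖ < U.ρ v q.2 := by
  have h1 : Tendsto (fun q : ℂ × ℂ => ‖q.1‖) (𝓝 ((0 : ℂ), pV U v q₀)) (𝓝 0) := by
    have := (continuous_fst (X := ℂ) (Y := ℂ)).norm.tendsto ((0 : ℂ), pV U v q₀)
    simpa using this
  have h2 : Tendsto (fun q : ℂ × ℂ => U.ρ v q.2) (𝓝 ((0 : ℂ), pV U v q₀))
      (𝓝 (U.ρ v (pV U v q₀))) := D.ρ_cont.tendsto.comp (continuous_snd.tendsto _)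
  exact (h1.eventually_lt h2 (U.pos v D.hv _ q₀.2.2.1)).filter_mono D.Fl_le

lemma ev_ret : ∀ᶠ q in D.Fl, IsRet U v (D.X q) (D.σ q.2) := by
  filter_upwards [D.ev_ne, D.ev_ball, D.ev_ρ] with q h1 h2 h3
  exact D.ret q.2 h2 q.1 h1 h3

lemma σ_cont : ContinuousAt D.σ (pV U v q₀) :=
  D.σc.continuousAt (isOpen_ball.mem_nhds (mem_ball_self D.r_pos))

lemma σ_tendsto : Tendsto (fun q : ℂ × ℂ => D.σ q.2) D.Fl (𝓝 q₀) := by
  have h1 : Tendsto (fun q : ℂ × ℂ => D.σ q.2) (𝓝 ((0 : ℂ), pV U v q₀)) (𝓝 (D.σ (pV U v q₀))) :=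
    D.σ_cont.tendsto.comp (continuous_snd.tendsto _)
  rw [D.σ0] at h1
  exact h1.mono_left D.Fl_le

lemma fst_tendsto : Tendsto (fun q : ℂ × ℂ => q.1) D.Fl (𝓝 0) :=
  ((continuous_fst (X := ℂ) (Y := ℂ)).tendsto _).mono_left D.Fl_le

lemma snd_tendsto : Tendsto (fun q : ℂ × ℂ => q.2) D.Fl (𝓝 (pV U v q₀)) :=
  ((continuous_snd (X := ℂ) (Y := ℂ)).tendsto _).mono_left D.Fl_le

instance : D.Fl.NeBot := by
  unfold Fl
  rw [← mem_closure_iff_nhdsWithin_neBot]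
  have h1 : Dense ({0}ᶜ : Set ℂ) := dense_compl_singleton 0
  have h2 : Dense ({q : ℂ × ℂ | q.1 ≠ 0}) := by
    have := h1.prod (dense_univ (X := ℂ))
    refine this.mono fun q hq => hq.1
  exact h2 _

lemma ret_unique (hR : RetStmt U) {x : Fin 3 → ℂ} {q q' : XV U v} (h : IsRet U v x q)
    (h' : IsRet U v x q') : q = q' :=
  ((hR v h.1.mem).1 x h.1).unique h h'

/-- retractions of the points of the tube chart -/
lemma ev_ret_lim (hR : RetStmt U) (O : Set (XV U v)) (hO : O ∈ 𝓝 q₀) :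
    ∀ᶠ q in D.Fl, ∀ q', IsRet U v (D.X q) q' → q' ∈ O := by
  filter_upwards [D.ev_ret, D.σ_tendsto.eventually_mem hO] with q h1 h2 q' h3
  rw [ret_unique hR h3 h1]
  exact h2

/-- **frequent points of a chart in the tube chart** -/
theorem freq (hR : RetStmt U) {c : Ch T.m} (hc : T.Valid c) {j : Fin T.d} {r₁ r₂ : ℝ}
    (hr₁ : r₁ ≤ S.r c) (hr₂ : r₂ ≤ S.r c) {A : ℂ × ℂ → ℂ × ℂ → Prop}
    (h : ∃ᶠ q in D.Fl, ∃ p, (‖p.1‖ ≤ r₁ ∧ ‖p.2‖ ≤ r₂ ∧ T.Gen c p) ∧ wc S c j p = D.X q ∧ A q p) :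
    ∃ (𝒱 : Ultrafilter (ℂ × ℂ)) (g : ℂ × ℂ → ℂ × ℂ), (𝒱 : Filter (ℂ × ℂ)) ≤ D.Fl ∧
      (∀ᶠ q in (𝒱 : Filter (ℂ × ℂ)), (‖(g q).1‖ ≤ r₁ ∧ ‖(g q).2‖ ≤ r₂ ∧ T.Gen c (g q)) ∧
        wc S c j (g q) = D.X q ∧ A q (g q)) ∧
      ((∃ b, Tendsto g 𝒱 (𝓝 (0, b)) ∧ v1 T c = some v ∧ (IsV c ∨ b ≠ 0) ∧ ‖b‖ ≤ r₂ ∧
        ∀ γ, End1 U S c v γ → γ j b = q₀) ∨
      (∃ a, Tendsto g 𝒱 (𝓝 (a, 0)) ∧ v2 T c = some v ∧ a ≠ 0 ∧ ‖a‖ ≤ r₁ ∧
        ∀ γ, End2 U S c v γ → γ j a = q₀)) := by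
  classical
  set Aset : Set (ℂ × ℂ) := {q | ∃ p, (‖p.1‖ ≤ r₁ ∧ ‖p.2‖ ≤ r₂ ∧ T.Gen c p) ∧
    wc S c j p = D.X q ∧ A q p} with hA
  have hne : (D.Fl ⊓ 𝓟 Aset).NeBot := Filter.frequently_mem_iff_neBot.1 h
  obtain ⟨𝒱, h𝒱⟩ := Ultrafilter.exists_le (D.Fl ⊓ 𝓟 Aset)
  have hV1 : (𝒱 : Filter (ℂ × ℂ)) ≤ D.Fl := h𝒱.trans inf_le_left
  have hV2 : Aset ∈ (𝒱 : Filter (ℂ × ℂ)) := h𝒱 (mem_inf_of_right (mem_principal_self _))
  let g : ℂ × ℂ → ℂ × ℂ := fun q => if hq : q ∈ Aset then hq.choose else 0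
  have hg : ∀ᶠ q in (𝒱 : Filter (ℂ × ℂ)), (‖(g q).1‖ ≤ r₁ ∧ ‖(g q).2‖ ≤ r₂ ∧ T.Gen c (g q)) ∧
      wc S c j (g q) = D.X q ∧ A q (g q) := by
    filter_upwards [hV2] with q hq
    have e : g q = hq.choose := dif_pos hq
    rw [e]
    exact hq.choose_spec
  refine ⟨𝒱, g, hV1, hg, ?_⟩
  have hk := key hR D.hv hc (j := j) (q₀ := q₀) hr₁ hr₂ (𝒱.map g) ?_ ?_ ?_ ?_
  · exact hk
  · show ∀ᶠ q in (𝒱 : Filter (ℂ × ℂ)), _
    filter_upwards [hg] with q hq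
    exact hq.1
  · show Tendsto (fun p => (T.map c p).1) (Filter.map g 𝒱) (𝓝 0)
    rw [tendsto_map'_iff]
    refine (D.fst_tendsto.mono_left hV1).congr' ?_
    filter_upwards [hg] with q hq
    have h2 : wc S c j (g q) 1 = D.X q 1 := by rw [hq.2.1]
    exact h2.symm
  · intro O hO
    show ∀ᶠ q in (𝒱 : Filter (ℂ × ℂ)), _
    filter_upwards [hg, (D.ev_ret_lim hR O hO).filter_mono hV1] with q hq hq'
    rw [hq.2.1]
    exact hq'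
  · show ∀ᶠ q in (𝒱 : Filter (ℂ × ℂ)), _
    filter_upwards [hg, D.ev_ret.filter_mono hV1] with q hq hq'
    rw [hq.2.1]
    exact ⟨_, hq'⟩

end TC

end Crest.Agent.R257.Wt_258
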