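import Crest.Agent.R257.FrmA_547
import Crest.Agent.R257.TCov_554
import Crest.Agent.R257.BPDefs_258
import Crest.Agent.R257.T2_387
import Mathlib
import Crest.Agent.R257.Wt4_258
import Crest.Agent.R257.Hv1_174
import Crest.Agent.R257.Vt2_558
import Crest.Agent.R257.EndB_636

-- ▼ part R257/Can_287
section

/-!
R257 / Can_287 (task C-CANON, (CANON) of post 3898): canonical charts cover.

* `Can c`    : the chart `c` is canonical (`edge i k k'` with `rep i k' = i`, `vert i k w` with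
               `rep i k = i`, all legs)
* `cn c`     : the canonical chart containing (a smaller copy of) the chart `c`
* `cn_cov`   : pointwise comparison of `c` and `cn c`
* `canon`    : for all radii finitely many canonical valid charts cover a punctured neighbourhood
-/

set_option autoImplicit false

open Polynomial Set Filter Topology Metric
open Crest.AlgGeometry.Germ Crest.Agent.R257.AJ387 Crest.Agent.R257.T387 Crest.Agent.R257.Frm_547

noncomputable section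

namespace Crest.Agent.R257.Can_287

variable {f : (Fin 3 → ℂ) → ℂ} (T : TB f)




theorem cons_of_eqv {i j : Fin T.m} {k k' : ℕ} (h : Eqv T k' j i) (hc : T.Cons j k k') :
    T.Cons i k k' := by
  obtain ⟨h1, h2, h3, h4⟩ := hc
  refine ⟨h1.imp id fun h5 => lev_of_eqv T (h.mono h3.le) h5, lev_of_eqv T h h2, h3,
    fun l hl => ?_⟩
  rcases le_or_gt k' l with h5 | h5
  · exact Or.inr h5
  · exact h4 l (lev_of_eqv T (h.mono h5.le).symm hl)







end Crest.Agent.R257.Can_287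
end
end

-- ▼ part R257/OB1_287
section

/-!
R257 / OB1_287 (task C-ORDS, OrdStmt of BPDefs_258), part 1: Taylor coefficients of the branches and
the children of a vertex.

* `taylor`     : `φ_i = tr_i k + s^k h`, `h 0 = co_i k`
* `tr_eq_iff`  : `tr T i k = tr T j k ↔ Eqv T k i j`
* `ci_tr`, `ci_co`, `ci_vx` : the canonical centre of a vertex
* `Chd S v c`  : the chart `c` is a child of the vertex `v` (its first branch lies in `v`)
* `chd_exists`, `chd_uniq` : children ↔ finite special points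
-/

set_option autoImplicit false
set_option linter.unusedSectionVars false

open Polynomial Set Filter Topology Metric
open Crest.AlgGeometry.Germ Crest.Agent.R257.AJ387 Crest.Agent.R257.T387
open Crest.Agent.R257.Frm_547 (Eqv lev_of_eqv Eqv.symm)
open Crest.Agent.R257.BP_258

noncomputable section

namespace Crest.Agent.R257.OB_287

variable {f : (Fin 3 → ℂ) → ℂ} {T : TB f}

theorem φ_an0 (i : Fin T.m) : AnalyticAt ℂ (T.φ i) 0 := T.φ_an i 0 (mem_ball_self T.ρ_pos)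

theorem eval_tr (i : Fin T.m) (k : ℕ) (s : ℂ) :
    (tr T i k).eval s = ∑ n ∈ Finset.range k, co T i n * s ^ n := by
  simp [tr, eval_finsetSum]

theorem coeff_tr (i : Fin T.m) (k n : ℕ) :
    (tr T i k).coeff n = if n < k then co T i n else 0 := by
  simp only [tr, finsetSum_coeff, coeff_C_mul, coeff_X_pow, mul_ite, mul_one, mul_zero]
  rw [Finset.sum_ite_eq]
  simp [Finset.mem_range]

/-- Taylor expansion of the branches -/
theorem taylor (i : Fin T.m) (k : ℕ) : ∃ h : ℂ → ℂ, AnalyticAt ℂ h 0 ∧ h 0 = co T i k ∧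
    ∀ s, T.φ i s = (tr T i k).eval s + s ^ k * h s := by
  obtain ⟨F, hF, h⟩ := (φ_an0 (T := T) i).exists_eq_sum_add_pow_mul (k + 1)
  refine ⟨fun s => co T i k + s * F s, analyticAt_const.add (analyticAt_id.mul hF), by simp,
    fun s => ?_⟩
  rw [h s, Finset.sum_range_succ, eval_tr]
  have e1 : ∑ n ∈ Finset.range k, (s ^ n / (n.factorial : ℂ)) • iteratedDeriv n (T.φ i) 0 =
      ∑ n ∈ Finset.range k, co T i n * s ^ n := by
    refine Finset.sum_congr rfl fun n _ => ?_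
    simp only [smul_eq_mul, co]
    ring
  rw [e1]
  simp only [smul_eq_mul, co]
  ring

theorem tr_congr {i j : Fin T.m} {k : ℕ} (h : ∀ n < k, co T i n = co T j n) :
    tr T i k = tr T j k := by
  unfold tr
  exact Finset.sum_congr rfl fun n hn => by rw [h n (Finset.mem_range.1 hn)]

theorem co_of_tr {i j : Fin T.m} {k : ℕ} (h : tr T i k = tr T j k) {n : ℕ} (hn : n < k) :
    co T i n = co T j n := by
  have h1 := congrArg (fun p : ℂ[X] => p.coeff n) h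
  simpa [coeff_tr, hn] using h1

/-- comparison of the coefficients of two branches -/
theorem co_sub {i j : Fin T.m} {e : ℕ} {u : ℂ → ℂ} (hu : ContinuousAt u 0)
    (h : ∀ᶠ s in 𝓝[≠] (0 : ℂ), T.φ i s - T.φ j s = s ^ e * u s) :
    ∀ n ≤ e, co T i n - co T j n = if n = e then u 0 else 0 := by
  intro n
  induction n using Nat.strong_induction_on with
  | _ n ih =>
    intro hne
    have h1 : tr T i n = tr T j n := tr_congr fun l hl => by
      have := ih l hl (by omega)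
      rw [if_neg (by omega)] at this
      exact sub_eq_zero.1 this
    obtain ⟨a, ha, ha0, hae⟩ := taylor (T := T) i n
    obtain ⟨b, hb, hb0, hbe⟩ := taylor (T := T) j n
    have h2 : ∀ᶠ s in 𝓝[≠] (0 : ℂ), a s - b s = s ^ (e - n) * u s := by
      filter_upwards [h, self_mem_nhdsWithin] with s hs hs0
      rw [hae, hbe, h1] at hs
      have h3 : s ^ n ≠ 0 := pow_ne_zero _ hs0
      apply mul_left_cancel₀ h3
      have h4 : s ^ e = s ^ n * s ^ (e - n) := by rw [← pow_add, Nat.add_sub_cancel' hne]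
      rw [h4] at hs
      linear_combination hs
    have h3 : Tendsto (fun s => a s - b s) (𝓝[≠] 0) (𝓝 (a 0 - b 0)) :=
      (ha.continuousAt.sub hb.continuousAt).tendsto.mono_left nhdsWithin_le_nhds
    have h4 : Tendsto (fun s : ℂ => s ^ (e - n) * u s) (𝓝[≠] 0) (𝓝 ((0 : ℂ) ^ (e - n) * u 0)) :=
      ((continuousAt_id.pow _).mul hu).tendsto.mono_left nhdsWithin_le_nhds
    have h5 := tendsto_nhds_unique (h3.congr' h2) h4
    rw [← ha0, ← hb0, h5]
    by_cases hn : n = e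
    · simp [hn]
    · rw [if_neg hn, zero_pow (by omega), zero_mul]

theorem co_sub_del {i j : Fin T.m} (hij : i ≠ j) : ∀ n ≤ T.del i j, co T i n - co T j n =
    if n = T.del i j then T.u i j 0 else 0 := by
  refine co_sub (T.u_an i j hij 0 (mem_ball_self T.ρ_pos)).continuousAt ?_
  refine Filter.Eventually.filter_mono nhdsWithin_le_nhds ?_
  filter_upwards [ball_mem_nhds (0 : ℂ) T.ρ_pos] with s hs
  exact T.φ_sub i j hij s hs

theorem tr_eq_iff {i j : Fin T.m} {k : ℕ} : tr T i k = tr T j k ↔ Eqv T k i j := by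
  constructor
  · intro h
    by_contra hcon
    unfold Eqv at hcon
    push Not at hcon
    obtain ⟨hij, hd⟩ := hcon
    have h1 := co_sub_del (T := T) hij _ le_rfl
    rw [if_pos rfl, co_of_tr h hd, sub_self] at h1
    exact T.u_ne i j hij 0 (mem_ball_self T.ρ_pos) h1.symm
  · rintro (h | h)
    · rw [h]
    · by_cases hij : i = j
      · rw [hij]
      · refine tr_congr fun n hn => ?_
        have := co_sub_del (T := T) hij n (by omega)
        rw [if_neg (by omega)] at this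
        exact sub_eq_zero.1 this


theorem tr_mono {i j : Fin T.m} {k l : ℕ} (hkl : k ≤ l) (h : tr T i l = tr T j l) :
    tr T i k = tr T j k := tr_congr fun _ hn => co_of_tr h (lt_of_lt_of_le hn hkl)

theorem mem_Vs {v : Vtx} : v ∈ Vs T ↔ ∃ i, ∃ k ∈ T.lev i, vx T i k = v := by
  classical
  simp [Vs]

theorem vx_mem {i : Fin T.m} {k : ℕ} (hk : k ∈ T.lev i) : vx T i k ∈ Vs T :=
  mem_Vs.2 ⟨i, k, hk, rfl⟩

theorem mem_sp {v : Vtx} {c : ℂ} : c ∈ sp T v ↔ ∃ j, tr T j v.1 = v.2 ∧ co T j v.1 = c := by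
  classical
  simp [sp]

theorem Vs_lev {v : Vtx} (hv : v ∈ Vs T) {j : Fin T.m} (hj : tr T j v.1 = v.2) :
    v.1 ∈ T.lev j := by
  obtain ⟨i, k, hk, rfl⟩ := mem_Vs.1 hv
  exact lev_of_eqv T (tr_eq_iff.1 hj).symm hk

theorem Vs_pos {v : Vtx} (hv : v ∈ Vs T) : 0 < v.1 := by
  obtain ⟨i, k, hk, rfl⟩ := mem_Vs.1 hv
  exact TB.lev_pos T hk

variable (S : Sh T)

/-- the canonical centre is a branch of the vertex -/
theorem ci_tr {v : Vtx} (hv : v ∈ Vs T) : tr T (S.ci v) v.1 = v.2 := by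
  obtain ⟨i, k, hk, rfl⟩ := mem_Vs.1 hv
  obtain ⟨a, ha, -, hae⟩ := taylor (T := T) i k
  have h1 : ∀ n ≤ k, co T (S.ci (vx T i k)) n - co T i n = if n = k then - a 0 else 0 := by
    refine co_sub (u := fun s => - a s) ha.continuousAt.neg ?_
    refine Filter.Eventually.filter_mono nhdsWithin_le_nhds ?_
    filter_upwards [ball_mem_nhds (0 : ℂ) T.ρ_pos] with s hs
    rw [S.ci_eq _ hv s hs, hae s]
    show (tr T i k).eval s - _ = _
    ring
  refine tr_congr (T := T) (i := S.ci (vx T i k)) (j := i) fun n hn => ?_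
  have hn' : n < k := hn
  have := h1 n hn'.le
  rw [if_neg hn'.ne] at this
  exact sub_eq_zero.1 this





/-- uniqueness of the predecessor -/
theorem cons_pred {i j : Fin T.m} {k l k' : ℕ} (h : tr T i k' = tr T j k') (hi : T.Cons i k k')
    (hj : T.Cons j l k') : k = l := by
  have he := tr_eq_iff.1 h
  have hj' := Can_287.cons_of_eqv T he.symm hj
  obtain ⟨a1, a2, a3, a4⟩ := hi
  obtain ⟨b1, b2, b3, b4⟩ := hj'
  rcases a1 with rfl | a1
  · rcases b1 with rfl | b1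
    · rfl
    · rcases a4 l b1 with h1 | h1 <;> omega
  · rcases b4 k a1 with h1 | h1
    · rcases b1 with rfl | b1
      · omega
      · rcases a4 l b1 with h2 | h2 <;> omega
    · omega

/-- the chart `c` is a child of the vertex `v` -/
def Chd (v : Vtx) (c : Ch T.m) : Prop :=
  (∃ v' ∈ Vs T, c = ec S v' ∧ S.kp v' ≠ 0 ∧ vx T (S.ci v') (S.kp v') = v) ∨
    ∃ i, c = .leg i ∧ vx T i (T.top i) = v

variable (T) in
/-- the special point of a child -/
def pc : Ch T.m → ℂ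
  | .edge i k _ => co T i k
  | .leg i => co T i (T.top i)
  | .vert _ _ _ => 0

theorem exists_next {j : Fin T.m} {k : ℕ} (hk : k ∈ T.lev j) (hkt : k ≠ T.top j) :
    ∃ k', T.Cons j k k' := by
  classical
  have hlt : k < T.top j := lt_of_le_of_ne (TB.le_top T hk) hkt
  have hne : ((T.lev j).filter fun l => k < l).Nonempty :=
    ⟨T.top j, Finset.mem_filter.2 ⟨TB.top_mem T j, hlt⟩⟩
  have hm := Finset.min'_mem _ hne
  refine ⟨((T.lev j).filter fun l => k < l).min' hne, Or.inr hk, (Finset.mem_filter.1 hm).1,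
    (Finset.mem_filter.1 hm).2, fun l hl => ?_⟩
  by_cases h : k < l
  · exact Or.inr (Finset.min'_le _ _ (Finset.mem_filter.2 ⟨hl, h⟩))
  · exact Or.inl (not_lt.1 h)

/-- every finite special point belongs to a child -/
theorem chd_exists {v : Vtx} (hv : v ∈ Vs T) {c : ℂ} (hc : c ∈ sp T v) :
    ∃ a, Chd S v a ∧ pc T a = c := by
  obtain ⟨j, hj, hjc⟩ := mem_sp.1 hc
  have hlev := Vs_lev hv hj
  by_cases ht : v.1 = T.top j
  · refine ⟨.leg j, Or.inr ⟨j, rfl, ?_⟩, ?_⟩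
    · rw [← ht]; exact Prod.ext rfl hj
    · show co T j (T.top j) = c
      rw [← ht]; exact hjc
  · obtain ⟨k', hk'⟩ := exists_next hlev ht
    have hv' : vx T j k' ∈ Vs T := vx_mem hk'.2.1
    have h1 : tr T (S.ci (vx T j k')) k' = tr T j k' := ci_tr S hv'
    have h2 : S.kp (vx T j k') = v.1 := cons_pred h1 (S.kp_cons _ hv') hk'
    have h3 : tr T (S.ci (vx T j k')) v.1 = v.2 := (tr_mono hk'.2.2.1.le h1).trans hj
    refine ⟨ec S (vx T j k'), Or.inl ⟨_, hv', rfl, ?_, ?_⟩, ?_⟩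
    · rw [h2]; exact (Vs_pos hv).ne'
    · rw [h2]; exact Prod.ext rfl h3
    · show co T (S.ci (vx T j k')) (S.kp (vx T j k')) = c
      rw [h2, co_of_tr h1 hk'.2.2.1, hjc]



end Crest.Agent.R257.OB_287
end
end

-- ▼ part R257/Wt5_258
section

/-!
Row 257 (S0395), C-WT, file 5 (helper258): tube charts and retractions, uniqueness of the values of
the vertex functions, values of the edge functions near a point of a vertex curve.
-/

set_option autoImplicit false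
set_option linter.unusedSectionVars false
set_option linter.unusedVariables false

open Polynomial Set Filter Topology Metric
open Crest.AlgGeometry.Germ Crest.Agent.R257.AJ387 Crest.Agent.R257.T387
open Crest.Agent.R257.Gr1_157 Crest.Agent.R257.HoB_843 Crest.Agent.R257.BP_258
open Crest.Agent.R257.Frm_547 Crest.Agent.R257.Lab_931

noncomputable section

namespace Crest.Agent.R257.Wt_258

variable {f : (Fin 3 → ℂ) → ℂ} {T : TB f} {U : Tub T} {S : Sh T}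

/-- every special point is attached -/
lemma ex_att {v : Vtx} (hv : v ∈ Vs T) {c' : ℂ} (hc : c' ∈ sp T v) :
    ∃ c, Ok S c ∧ ¬ IsV c ∧ v1 T c = some v ∧ cx T c = c' := by
  obtain ⟨a, ha, hp⟩ := OB_287.chd_exists (S := S) hv hc
  rcases ha with ⟨v', hv', rfl, h0, h1⟩ | ⟨i, rfl, h1⟩
  · refine ⟨ec S v', Lab_931.ok_ec S hv', by simp [ec, IsV], ?_, hp⟩
    simp [ec, v1, h0, h1]
  · exact ⟨.leg i, ⟨trivial, trivial⟩, by simp [IsV], by simp [v1, h1], hp⟩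

lemma pV_cont (v : Vtx) : Continuous (pV U v) := continuous_fst.comp continuous_subtype_val

/-- a point is determined by its retraction and `s` -/
theorem ret_inj (hR : RetStmt U) {v : Vtx} {x x' : Fin 3 → ℂ} {q : XV U v} (h : IsRet U v x q)
    (h' : IsRet U v x' q) (h1 : x 1 = x' 1) : x = x' := by
  obtain ⟨D⟩ := Vt2_558.exists_LD hR h.1.mem (w₀ := pV U v q) q.2.2.1
  obtain ⟨l, -, -, a2, c1, c2⟩ := D.of_ret h (mem_ball_self D.r_pos)
  obtain ⟨l', -, -, b2, c3, c4⟩ := D.of_ret h' (mem_ball_self D.r_pos)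
  have c5 : l = l' := D.σinj _ (mem_ball_self D.r_pos) (c2.symm.trans c4)
  subst c5
  funext t
  fin_cases t
  · show x 0 = x' 0
    rw [c1, c3, h1]
  · exact h1
  · show x 2 = x' 2
    rw [a2, b2, h1]

namespace TC

variable {v : Vtx} {q₀ : XV U v} (D : TC U v q₀)

lemma near_ball : ∀ᶠ q' in 𝓝 q₀, pV U v q' ∈ ball (pV U v q₀) D.r :=
  (pV_cont v).continuousAt.eventually (isOpen_ball.mem_nhds (mem_ball_self D.r_pos))

theorem near (hR : RetStmt U) : ∀ᶠ q' in 𝓝 q₀, D.σ (pV U v q') = q' := by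
  obtain ⟨E⟩ := Vt2_558.exists_LD hR D.hv (w₀ := pV U v q₀) q₀.2.2.1
  obtain ⟨i, hi⟩ := E.surj q₀ (mem_ball_self E.r_pos)
  have h1 := E.near (j := i) (mem_ball_self E.r_pos)
  rw [hi] at h1
  have h2 : Tendsto (fun q' => D.σ (pV U v q')) (𝓝 q₀) (𝓝 q₀) := by
    have h3 : Tendsto (fun q' => D.σ (pV U v q')) (𝓝 q₀) (𝓝 (D.σ (pV U v q₀))) :=
      D.σ_cont.tendsto.comp ((pV_cont v).tendsto q₀)
    rwa [D.σ0] at h3
  filter_upwards [h1, h2.eventually h1, D.near_ball] with q' a1 a2 a3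
  have e1 := a2.1
  rw [D.σp _ a3] at e1
  rw [← e1, a1.1]

/-- points whose retraction is near `q₀` are in the tube chart -/
theorem ident (hR : RetStmt U) {α : Type*} {l : Filter α} {X : α → Fin 3 → ℂ}
    (hT : ∀ᶠ a in l, InT U v (X a))
    (h : ∀ O ∈ 𝓝 q₀, ∀ᶠ a in l, ∀ q', IsRet U v (X a) q' → q' ∈ O) :
    ∀ᶠ a in l, X a = D.X (X a 1, wv T v (X a 1, X a 2)) ∧
      wv T v (X a 1, X a 2) ∈ ball (pV U v q₀) D.r ∧
      IsRet U v (X a) (D.σ (wv T v (X a 1, X a 2))) := by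
  filter_upwards [hT, h _ (D.near hR), h _ D.near_ball] with a a1 a2 a3
  obtain ⟨q', hq', -⟩ := (hR v D.hv).1 _ a1
  have e1 : D.σ (pV U v q') = q' := a2 q' hq'
  have e2 : pV U v q' ∈ ball (pV U v q₀) D.r := a3 q' hq'
  have e3 : pV U v q' = wv T v (X a 1, X a 2) := hq'.2.1
  have e4 := D.ret (pV U v q') e2 (X a 1) a1.ne (by rw [e3]; exact a1.lt)
  rw [e1] at e4
  have e5 := ret_inj hR hq' e4 rfl
  rw [← e3]
  exact ⟨e5, e2, by rw [e1]; exact hq'⟩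

/-- the labels along the section -/
lemma lab_σ {w : ℂ} (hw : w ∈ ball (pV U v q₀) D.r) :
    lab U ⟨v, D.hv⟩ (D.σ w) = lab U ⟨v, D.hv⟩ q₀ := by
  have h1 : IsPreconnected (D.σ '' ball (pV U v q₀) D.r) :=
    (convex_ball _ _).isPreconnected.image _ D.σc
  have h2 : (D.σ w : ConnectedComponents (XV U v)) = (q₀ : ConnectedComponents (XV U v)) := by
    rw [ConnectedComponents.coe_eq_coe']
    have h3 : q₀ ∈ D.σ '' ball (pV U v q₀) D.r := ⟨_, mem_ball_self D.r_pos, D.σ0⟩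
    exact h1.subset_connectedComponent h3 ⟨w, hw, rfl⟩
  unfold lab
  rw [h2]

lemma X_1 (q : ℂ × ℂ) : D.X q 1 = q.1 := rfl
lemma X_2 (q : ℂ × ℂ) : D.X q 2 = yv T v q := rfl

lemma wv_X {q : ℂ × ℂ} (hq : q.1 ≠ 0) : wv T v (D.X q 1, D.X q 2) = q.2 := by
  rw [X_1, X_2]
  exact wv_yv v q.2 hq

end TC

variable {L : Lab U S} [Fintype (II U)] {y : II U → ℝ} {F : Finset (Ch T.m)} {K : DKill S F}
  {τ₀ τ₁ : ℝ} (P : WPar L y K τ₀ τ₁)

/-! ### the vertex functions -/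

/-- bounded vertex coordinates converge along ultrafilters -/
theorem RV_lim {v' : Vtx} {α : Type*} {𝒱 : Ultrafilter α} {X : α → Fin 3 → ℂ}
    (h : ∀ᶠ a in (𝒱 : Filter α), ∃ q', IsRet U v' (X a) q' ∧ q' ∈ Om K P.γ1 P.κ v') :
    ∃ w' ∉ sp T v', Tendsto (fun a => wv T v' (X a 1, X a 2)) 𝒱 (𝓝 w') := by
  set Kc : Set ℂ := closedBall 0 P.κ⁻¹ ∩ ⋂ c ∈ sp T v', {w | P.κ ≤ ‖w - c‖} with hKc
  have hK : IsCompact Kc := by
    refine (isCompact_closedBall _ _).inter_right ?_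
    refine isClosed_biInter fun c _ => ?_
    exact isClosed_le continuous_const (by fun_prop)
  obtain ⟨w', hw', hle⟩ := hK.ultrafilter_le_nhds (𝒱.map fun a => wv T v' (X a 1, X a 2)) (by
    rw [le_principal_iff]
    show ∀ᶠ a in (𝒱 : Filter α), wv T v' (X a 1, X a 2) ∈ Kc
    filter_upwards [h] with a ha
    obtain ⟨q', hq', hO⟩ := ha
    have e3 : pV U v' q' = wv T v' (X a 1, X a 2) := hq'.2.1
    rw [← e3]
    refine ⟨mem_closedBall_zero_iff.2 hO.1.le, mem_iInter₂.2 fun c hc => (hO.2.1 c hc).le⟩)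
  refine ⟨w', fun hs => ?_, hle⟩
  have h1 := mem_iInter₂.1 hw'.2 w' hs
  simp only [Set.mem_ofPred_eq, sub_self, norm_zero] at h1
  exact absurd P.κ_pos (not_lt.2 h1)

section tube

variable {v : Vtx} {q₀ : XV U v} (D : TC U v q₀)

/-- the vertex function in the tube chart -/
def FV (q : ℂ × ℂ) : ℝ := y (lab U ⟨v, D.hv⟩ q₀) * Real.log (‖q.1‖ ^ 2) + P.h v (D.σ q.2)

/-- **uniqueness of the value of the vertex functions** -/
theorem RV_uniq (hR : RetStmt U) : ∀ᶠ q in D.Fl, ∀ a, P.RV (D.X q) a →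
    D.σ q.2 ∈ Om K P.γ1 P.κ v ∧ a = FV P D q := by
  have h1 : ∀ᶠ q in D.Fl, ∀ v' ∈ Vs T, v' ≠ v →
      ¬ ∃ q', IsRet U v' (D.X q) q' ∧ q' ∈ Om K P.γ1 P.κ v' := by
    rw [Filter.eventually_all_finset]
    intro v' hv'
    by_cases hne : v' = v
    · exact Eventually.of_forall fun q h => absurd hne h
    by_contra hcon
    have hcon' : ∃ᶠ q in D.Fl, ∃ q', IsRet U v' (D.X q) q' ∧ q' ∈ Om K P.γ1 P.κ v' := by
      intro h
      exact hcon (h.mono fun q hq _ => hq)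
    haveI hne' : (D.Fl ⊓ 𝓟 {q | ∃ q', IsRet U v' (D.X q) q' ∧
        q' ∈ Om K P.γ1 P.κ v'}).NeBot := Filter.frequently_mem_iff_neBot.1 hcon'
    obtain ⟨𝒱, h𝒱⟩ := Ultrafilter.exists_le (D.Fl ⊓ 𝓟 {q | ∃ q', IsRet U v' (D.X q) q' ∧
      q' ∈ Om K P.γ1 P.κ v'})
    have hV1 : (𝒱 : Filter (ℂ × ℂ)) ≤ D.Fl := h𝒱.trans inf_le_left
    have hV2 : ∀ᶠ q in (𝒱 : Filter (ℂ × ℂ)), ∃ q', IsRet U v' (D.X q) q' ∧
        q' ∈ Om K P.γ1 P.κ v' := h𝒱 (mem_inf_of_right (mem_principal_self _))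
    obtain ⟨w', hw', ht⟩ := RV_lim P hV2
    set l : Filter (ℂ × ℂ) := Filter.map (fun q => (D.X q 1, D.X q 2)) 𝒱 with hl
    have lne : l.NeBot := by rw [hl]; infer_instance
    have l0 : Tendsto Prod.fst l (𝓝 0) := tendsto_map'_iff.2 (D.fst_tendsto.mono_left hV1)
    have l1 : ∀ᶠ q in l, q.1 ≠ 0 := by
      rw [hl, eventually_map]
      exact D.ev_ne.filter_mono hV1
    have hw : Tendsto (wv T v) l (𝓝 (pV U v q₀)) := by
      rw [hl, tendsto_map'_iff]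
      refine (D.snd_tendsto.mono_left hV1).congr' ?_
      filter_upwards [D.ev_ne.filter_mono hV1] with q hq
      exact (D.wv_X hq).symm
    exact hne (v_unique l0 l1 hv' D.hv (tendsto_map'_iff.2 ht) hw' hw q₀.2.2.1)
  filter_upwards [h1, D.ev_ret, D.ev_ball] with q a1 a2 a3 a hRV
  obtain ⟨⟨v', hv'⟩, q', b1, b2, b3⟩ := hRV
  have e : v' = v := by
    by_contra hne
    exact a1 v' hv' hne ⟨q', b1, b2⟩
  subst e
  have e2 : q' = D.σ q.2 := TC.ret_unique hR b1 a2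
  subst e2
  refine ⟨b2, ?_⟩
  rw [b3]
  unfold FV
  have h5 : lab U ⟨v', hv'⟩ (D.σ q.2) = lab U ⟨v', D.hv⟩ q₀ := D.lab_σ a3
  rw [h5]
  rfl

/-- the core is open -/
lemma Om_open {v : Vtx} (hv : v ∈ Vs T) {q₀ : XV U v} (h : q₀ ∈ Om K P.γ1 P.κ v) :
    ∀ᶠ q' in 𝓝 q₀, q' ∈ Om K P.γ1 P.κ v := by
  have h1 : ∀ᶠ q' in 𝓝 q₀, ‖pV U v q'‖ < P.κ⁻¹ :=
    (pV_cont v).norm.continuousAt.eventually (gt_mem_nhds h.1)
  have h2 : ∀ᶠ q' in 𝓝 q₀, ∀ c ∈ sp T v, P.κ < ‖pV U v q' - c‖ := by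
    rw [Filter.eventually_all_finset]
    intro c hc
    exact ((pV_cont v).sub continuous_const).norm.continuousAt.eventually (lt_mem_nhds (h.2.1 c hc))
  have h3 : ∀ᶠ q' in 𝓝 q₀, ∀ c ∈ F, ∀ j, (c, j) ∈ K.κ → IsV c → v1 T c = some v →
      ∀ b : ℂ, ‖b‖ ≤ P.κ → P.γ1 c v hv j b ≠ q' := by
    rw [Filter.eventually_all_finset]
    intro c hc
    rw [eventually_all]
    intro j
    by_cases hk : (c, j) ∈ K.κ ∧ IsV c ∧ v1 T c = some v
    · obtain ⟨k1, k2, k3⟩ := hk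
      have hEs : Es K c j := ⟨P.hF c hc, fun _ => k1⟩
      have hsub : closedBall (0 : ℂ) P.κ ⊆ PDv S c := by
        intro b hb
        refine ⟨Or.inl k2, ?_⟩
        have := mem_closedBall_zero_iff.1 hb
        have h4 := P.τ_r c j hEs
        have h5 := P.κ_lt
        have h6 := S.pos c
        linarith
      have hcl : IsClosed (P.γ1 c v hv j '' closedBall (0 : ℂ) P.κ) :=
        ((isCompact_closedBall _ _).image_of_continuousOn
          (((P.end1 c (P.hF c hc) ⟨v, hv⟩ k3).1.cont j).mono hsub)).isClosed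
      have hn : q₀ ∉ P.γ1 c v hv j '' closedBall (0 : ℂ) P.κ := by
        rintro ⟨b, hb, hb'⟩
        exact h.2.2 c j k1 k2 k3 b (mem_closedBall_zero_iff.1 hb) hb'
      filter_upwards [hcl.isOpen_compl.mem_nhds hn] with q' hq' _ _ _ b hb hb'
      exact hq' ⟨b, mem_closedBall_zero_iff.2 hb, hb'⟩
    · exact Eventually.of_forall fun q' k1 k2 k3 => absurd ⟨k1, k2, k3⟩ hk
  filter_upwards [h1, h2, h3] with q' a1 a2 a3
  exact ⟨a1, a2, fun c j k1 k2 k3 b hb => a3 c (K.mem _ k1) j k1 k2 k3 b hb⟩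

theorem RV_ex (hR : RetStmt U) (h : q₀ ∈ Om K P.γ1 P.κ v) :
    ∀ᶠ q in D.Fl, P.RV (D.X q) (FV P D q) := by
  filter_upwards [D.ev_ret, D.ev_ball, D.σ_tendsto.eventually (Om_open P D.hv h)] with q a1 a2 a3
  refine ⟨⟨v, D.hv⟩, D.σ q.2, a1, a3, ?_⟩
  unfold FV
  rw [D.lab_σ a2]
  rfl

/-! ### the edge functions -/

lemma ev_Es {α : Type*} {l : Filter α} {A : Ch T.m → Fin T.d → α → Prop} (hF : ∀ c ∈ F, Ok S c)
    (h : ∀ c j, Es K c j → ∀ᶠ a in l, A c j a) : ∀ᶠ a in l, ∀ c j, Es K c j → A c j a := by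
  classical
  have h1 : ∀ᶠ a in l, ∀ c ∈ Hv_174.NC S ∪ F, ∀ j, Es K c j → A c j a := by
    rw [Filter.eventually_all_finset]
    intro c _
    rw [eventually_all]
    intro j
    by_cases hE : Es K c j
    · exact (h c j hE).mono fun a ha _ => ha
    · exact Eventually.of_forall fun a hE' => absurd hE' hE
  filter_upwards [h1] with a ha c j hE
  refine ha c ?_ j hE
  by_cases hV : IsV c
  · exact Finset.mem_union_right _ (K.mem _ (hE.2 hV))
  · exact Finset.mem_union_left _ (Hv_174.mem_NC.2 ⟨hE.1, hV⟩)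

lemma ta_le {c : Ch T.m} {j : Fin T.d} (hE : Es K c j) : ta S P.τ c ≤ S.r c := by
  unfold ta
  split_ifs
  · exact le_rfl
  · exact (P.τ_r c j hE).le

lemma tb_le {c : Ch T.m} {j : Fin T.d} (hE : Es K c j) : tb S P.τ c ≤ S.r c := by
  unfold tb
  split_ifs
  · exact le_rfl
  · exact (P.τ_r c j hE).le


/-- **frequent points of the zones near `q₀`** -/
theorem zn_freq (hR : RetStmt U) {c : Ch T.m} {j : Fin T.d} (hE : Es K c j)
    {A : ℂ × ℂ → ℂ × ℂ → Prop}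
    (h : ∃ᶠ q in D.Fl, ∃ p ∈ zn S P.τ c, wc S c j p = D.X q ∧ A q p) :
    ∃ (𝒱 : Ultrafilter (ℂ × ℂ)) (g : ℂ × ℂ → ℂ × ℂ), (𝒱 : Filter (ℂ × ℂ)) ≤ D.Fl ∧
      (∀ᶠ q in (𝒱 : Filter (ℂ × ℂ)), g q ∈ BD (2 * S.r c) (2 * S.r c) ∧ T.Gen c (g q) ∧
        wc S c j (g q) = D.X q ∧ A q (g q)) ∧
      ((∃ b, Tendsto g 𝒱 (𝓝 (0, b)) ∧ v1 T c = some v ∧ (IsV c ∨ b ≠ 0) ∧ ‖b‖ ≤ P.τ ∧
        P.γ1 c v D.hv j b = q₀) ∨
      (∃ a, Tendsto g 𝒱 (𝓝 (a, 0)) ∧ v2 T c = some v ∧ a ≠ 0 ∧ ‖a‖ ≤ P.τ ∧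
        P.γ2 c v D.hv j a = q₀)) := by
  obtain ⟨𝒱, g, h1, h2, h3⟩ := D.freq hR hE.1.1 (j := j) (ta_le P hE) (tb_le P hE) (A := A)
    (h.mono fun q ⟨p, hp, hp'⟩ => ⟨p, ⟨hp.1.le, hp.2.1.le, hp.2.2⟩, hp'⟩)
  refine ⟨𝒱, g, h1, ?_, ?_⟩
  · filter_upwards [h2] with q hq
    have hr := S.pos c
    exact ⟨⟨lt_of_le_of_lt (hq.1.1.trans (ta_le P hE)) (by linarith),
      lt_of_le_of_lt (hq.1.2.1.trans (tb_le P hE)) (by linarith)⟩, hq.1.2.2, hq.2⟩
  · rcases h3 with ⟨b, b1, b2, b3, b4, b5⟩ | ⟨a, b1, b2, b3, b4, b5⟩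
    · left
      refine ⟨b, b1, b2, b3, ?_, b5 _ (P.end1 c hE.1 ⟨v, D.hv⟩ b2).1⟩
      have : tb S P.τ c = P.τ := if_neg (by rw [b2]; simp)
      rwa [this] at b4
    · right
      refine ⟨a, b1, b2, b3, ?_, b5 _ (P.end2 c hE.1 ⟨v, D.hv⟩ b2).1⟩
      have : ta S P.τ c = P.τ := if_neg (by rw [b2]; simp)
      rwa [this] at b4

/-- **uniqueness of the value of the edge functions at an attached point** -/
theorem RE_uniq (hR : RetStmt U) {c : Ch T.m} {j : Fin T.d} (hE : Es K c j) {Pm : ℂ × ℂ → ℂ × ℂ}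
    (hP : ∀ᶠ q in D.Fl, Pm q ∈ zn S P.τ c ∧ wc S c j (Pm q) = D.X q)
    (hs1 : ∀ c' j', Es K c' j' → v1 T c' = some v → ∀ b' : ℂ, ‖b'‖ ≤ P.τ →
      P.γ1 c' v D.hv j' b' = q₀ → (IsV c' ∨ b' ≠ 0) → c' = c)
    (hs2 : ∀ c' j', Es K c' j' → v2 T c' = some v → ∀ a' : ℂ, ‖a'‖ ≤ P.τ → a' ≠ 0 →
      P.γ2 c' v D.hv j' a' = q₀ → c' = c) :
    ∀ᶠ q in D.Fl, P.RE (D.X q) (EL L y K c j (Pm q) - P.B) ∧
      ∀ b, P.RE (D.X q) b → b = EL L y K c j (Pm q) - P.B := by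
  have h1 : ∀ᶠ q in D.Fl, ∀ c' j', Es K c' j' → ∀ p ∈ zn S P.τ c', wc S c' j' p = D.X q →
      EL L y K c' j' p = EL L y K c j (Pm q) := by
    refine ev_Es P.hF fun c' j' hE' => ?_
    by_contra hcon
    have hcon' : ∃ᶠ q in D.Fl, ∃ p ∈ zn S P.τ c', wc S c' j' p = D.X q ∧
        ¬ EL L y K c' j' p = EL L y K c j (Pm q) := by
      intro h
      refine hcon (h.mono fun q hq p hp hw => ?_)
      by_contra hn
      exact hq ⟨p, hp, hw, hn⟩
    obtain ⟨𝒱, g, k1, k2, k3⟩ := zn_freq P D hR hE' hcon'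
    have hcc : c' = c := by
      rcases k3 with ⟨b, b1, b2, b3, b4, b5⟩ | ⟨a, b1, b2, b3, b4, b5⟩
      · exact hs1 c' j' hE' b2 b b4 b5 b3
      · exact hs2 c' j' hE' b2 a b4 b3 b5
    subst hcc
    obtain ⟨q, q1, q2⟩ := (k2.and (hP.filter_mono k1)).exists
    exact q1.2.2.2 (EL_val L y K hR hE.1 q1.1 q1.2.1 (q1.2.2.1.trans q2.2.symm))
  filter_upwards [h1, hP] with q a1 a2
  refine ⟨⟨c, j, Pm q, hE, a2.1, a2.2, rfl⟩, fun b hb => ?_⟩
  obtain ⟨c', j', p, b1, b2, b3, b4⟩ := hb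
  rw [b4, a1 c' j' b1 p b2 b3]

end tube

end Crest.Agent.R257.Wt_258
end
end

-- ▼ part R257/Wt6_258
section

/-!
Row 257 (S0395), C-WT, file 6 (helper258): comparison of the vertex and edge functions.
-/

set_option autoImplicit false
set_option linter.unusedSectionVars false
set_option linter.unusedVariables false

open Polynomial Set Filter Topology Metric
open Crest.AlgGeometry.Germ Crest.Agent.R257.AJ387 Crest.Agent.R257.T387
open Crest.Agent.R257.Gr1_157 Crest.Agent.R257.HoB_843 Crest.Agent.R257.BP_258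
open Crest.Agent.R257.Frm_547 Crest.Agent.R257.Lab_931

noncomputable section

namespace Crest.Agent.R257.Wt_258

variable {f : (Fin 3 → ℂ) → ℂ} {T : TB f} {U : Tub T} {S : Sh T}
variable {L : Lab U S} {y : II U → ℝ} {F : Finset (Ch T.m)} {K : DKill S F}

lemma isV_v2 {c : Ch T.m} {v : Vtx} (h : v2 T c = some v) : IsE c := by
  cases c with
  | edge i k k' => trivial
  | leg i => simp [v2] at h
  | vert i k w => simp [v2] at h

lemma v2_none {c : Ch T.m} (h : ¬ IsE c) : v2 T c = none := by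
  cases c with
  | edge i k k' => exact absurd trivial h
  | leg i => rfl
  | vert i k w => rfl

lemma map1_nE {c : Ch T.m} (h : ¬ IsE c) (p : ℂ × ℂ) : (T.map c p).1 = p.1 := by
  cases c with
  | edge i k k' => exact absurd trivial h
  | leg i => rfl
  | vert i k w => rfl

lemma map1_E {c : Ch T.m} (h : IsE c) (p : ℂ × ℂ) : (T.map c p).1 = p.1 * p.2 := by
  cases c with
  | edge i k k' => rfl
  | leg i => exact absurd h (by simp [IsE])
  | vert i k w => exact absurd h (by simp [IsE])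

lemma gen_snd_E {c : Ch T.m} (h : IsE c) {p : ℂ × ℂ} (hg : T.Gen c p) : p.2 ≠ 0 := by
  cases c with
  | edge i k k' => exact hg.2
  | leg i => exact absurd h (by simp [IsE])
  | vert i k w => exact absurd h (by simp [IsE])

lemma log_mul_sq {a b : ℂ} (ha : a ≠ 0) (hb : b ≠ 0) :
    Real.log (‖a * b‖ ^ 2) = Real.log (‖a‖ ^ 2) + Real.log (‖b‖ ^ 2) := by
  have h1 := norm_pos_iff.2 ha
  have h2 := norm_pos_iff.2 hb
  rw [norm_mul, mul_pow, Real.log_mul (by positivity) (by positivity)]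

lemma tend_log {α : Type*} {l : Filter α} {g : α → ℂ} {b : ℂ} (hb : b ≠ 0) (h : Tendsto g l (𝓝 b)) :
    Tendsto (fun a => Real.log (‖g a‖ ^ 2)) l (𝓝 (Real.log (‖b‖ ^ 2))) := by
  have h1 := norm_pos_iff.2 hb
  exact (h.norm.pow 2).log (by positivity)

/-- the edge function along the first axis -/
theorem EL_along1 {c : Ch T.m} (hc : Ok S c) (j : Fin T.d) {b : ℂ} (hb : b ≠ 0)
    {α : Type*} {l : Filter α} {g : α → ℂ × ℂ} {s : α → ℂ} (hg : Tendsto g l (𝓝 (0, b)))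
    (hgen : ∀ᶠ q in l, T.Gen c (g q) ∧ (T.map c (g q)).1 = s q) :
    Tendsto (fun q => EL L y K c j (g q) - yo y (L.e1 c j) * Real.log (‖s q‖ ^ 2)) l
      (𝓝 (d1 L y K c j * Real.log (‖b‖ ^ 2))) := by
  have h1 := (EL_lim1 L y K c j hb (fun h => (K.ab_pos _ h).2)).comp hg
  have h2 : Tendsto (fun q => (g q).2) l (𝓝 b) := (continuous_snd.tendsto _).comp hg
  have h3 := (tend_log hb h2).const_mul (d1 L y K c j)
  have h4 := h1.add h3
  rw [zero_add] at h4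
  refine h4.congr' ?_
  filter_upwards [hgen, h2.eventually_ne hb] with q hq hq2
  obtain ⟨q1, q3⟩ := hq
  have hq1 : (g q).1 ≠ 0 := gen_fst q1
  simp only [Function.comp_apply]
  by_cases hE : IsE c
  · have e1 : Real.log (‖s q‖ ^ 2) = Real.log (‖(g q).1‖ ^ 2) + Real.log (‖(g q).2‖ ^ 2) := by
      rw [← q3, map1_E hE, log_mul_sq hq1 hq2]
    rw [e1]
    unfold d1
    rw [if_pos hE]
    ring
  · have e1 : Real.log (‖s q‖ ^ 2) = Real.log (‖(g q).1‖ ^ 2) := by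
      rw [← q3, map1_nE hE]
    rw [e1]
    unfold d1
    rw [if_neg hE, yo_v2 L y hc j (v2_none hE)]
    ring

/-- the edge function along the second axis -/
theorem EL_along2 {c : Ch T.m} (hE : IsE c) (j : Fin T.d) {a : ℂ} (ha : a ≠ 0)
    {α : Type*} {l : Filter α} {g : α → ℂ × ℂ} {s : α → ℂ} (hg : Tendsto g l (𝓝 (a, 0)))
    (hgen : ∀ᶠ q in l, T.Gen c (g q) ∧ (T.map c (g q)).1 = s q) :
    Tendsto (fun q => EL L y K c j (g q) - yo y (L.e2 c j) * Real.log (‖s q‖ ^ 2)) l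
      (𝓝 (d2 L y K c j * Real.log (‖a‖ ^ 2))) := by
  have h1 := (EL_lim2 L y K c j ha (fun h => (K.ab_pos _ h).1)).comp hg
  have h2 : Tendsto (fun q => (g q).1) l (𝓝 a) := (continuous_fst.tendsto _).comp hg
  have h3 := (tend_log ha h2).const_mul (d2 L y K c j)
  have h4 := h1.add h3
  rw [zero_add] at h4
  refine h4.congr' ?_
  filter_upwards [hgen, h2.eventually_ne ha] with q hq hq1
  obtain ⟨q1, q3⟩ := hq
  have hq2 : (g q).2 ≠ 0 := gen_snd_E hE q1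
  simp only [Function.comp_apply]
  have e1 : Real.log (‖s q‖ ^ 2) = Real.log (‖(g q).1‖ ^ 2) + Real.log (‖(g q).2‖ ^ 2) := by
    rw [← q3, map1_E hE, log_mul_sq hq1 hq2]
  rw [e1]
  unfold d2
  ring

variable [Fintype (II U)] {τ₀ τ₁ : ℝ} (P : WPar L y K τ₀ τ₁)

section tube

variable {v : Vtx} {q₀ : XV U v} (D : TC U v q₀)

/-- killed points -/
def Kd (v : Vtx) : Set (XV U v) :=
  {q | ∃ c j, (c, j) ∈ K.κ ∧ IsV c ∧ v1 T c = some v ∧ q = P.γ1 c v q.2.1 j 0}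

lemma Kd_closed : IsClosed (Kd P v) := by
  classical
  by_cases hv : v ∈ Vs T
  swap
  · have h0 : Kd P v = ∅ := by
      ext q
      exact ⟨fun h => absurd q.2.1 hv, fun h => absurd h (by simp)⟩
    rw [h0]
    exact isClosed_empty
  have h : Kd P v ⊆ ⋃ c ∈ F, ⋃ j : Fin T.d, {P.γ1 c v hv j 0} := by
    rintro q ⟨c, j, h1, h2, h3, h4⟩
    exact mem_iUnion₂.2 ⟨c, K.mem _ h1, mem_iUnion.2 ⟨j, h4⟩⟩
  have hf : (⋃ c ∈ F, ⋃ j : Fin T.d, ({P.γ1 c v hv j 0} : Set (XV U v))).Finite :=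
    F.finite_toSet.biUnion fun c _ => finite_iUnion fun j => finite_singleton _
  exact (hf.subset h).isClosed

/-- the function `h` along the section, off the kills -/
theorem hσ (hq : q₀ ∉ Kd P v) : ∀ᶠ w in 𝓝 (pV U v q₀),
    ContDiffAt ℝ (⊤ : ℕ∞) (fun w => P.h v (D.σ w)) w ∧ 0 < lvE (fun w => P.h v (D.σ w)) w 1 := by
  have h1 : ∀ᶠ w in 𝓝 (pV U v q₀), D.σ w ∉ Kd P v := by
    have h0 : ∀ᶠ q' in 𝓝 (D.σ (pV U v q₀)), q' ∉ Kd P v := by
      rw [D.σ0]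
      exact (Kd_closed P).isOpen_compl.mem_nhds hq
    exact D.σ_cont.tendsto.eventually h0
  filter_upwards [h1, isOpen_ball.mem_nhds (mem_ball_self D.r_pos)] with w a1 a2
  obtain ⟨ε, hε, hsub⟩ := Metric.isOpen_iff.1 isOpen_ball w a2
  exact P.smp v D.hv w ε D.σ hε (D.σc.mono hsub) (fun w' hw' => D.σp w' (hsub hw')) a1

end tube

end Crest.Agent.R257.Wt_258
end
end

-- ▼ part R257/Wt7_258

/-!
Row 257 (S0395), C-WT, file 7 (helper258): literal statements of the remaining pieces.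

* `Unk K τ₁` : the killed vertex points are not on the small discs of the killed charts;
* `LA`, `LocS` : the local form of the estimates of `WTDStmt`;
* `TubeOut` : the estimates in a tube chart.
-/

set_option autoImplicit false
set_option linter.unusedSectionVars false
set_option linter.unusedVariables false

open Polynomial Set Filter Topology Metric
open Crest.AlgGeometry.Germ Crest.Agent.R257.AJ387 Crest.Agent.R257.T387
open Crest.Agent.R257.Gr1_157 Crest.Agent.R257.HoB_843 Crest.Agent.R257.BP_258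
open Crest.Agent.R257.Frm_547 Crest.Agent.R257.Lab_931

noncomputable section

namespace Crest.Agent.R257.Wt_258

variable {f : (Fin 3 → ℂ) → ℂ} {T : TB f} {U : Tub T} {S : Sh T}
variable {L : Lab U S} {y : II U → ℝ} {F : Finset (Ch T.m)} {K : DKill S F}

/-- the killed vertex points are away from the small discs of the killed charts -/
structure Unk (K : DKill S F) (τ₁ : ℝ) : Prop where
  unk1 : ∀ c j, (c, j) ∈ K.κ → ∀ v, v1 T c = some v → ∀ b : ℂ, b ≠ 0 → ‖b‖ ≤ τ₁ →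
    ∀ c' j', (c', j') ∈ K.κ → IsV c' → v1 T c' = some v → cx T c + b ^ lx T c ≠ cx T c'
  unk2 : ∀ c j, (c, j) ∈ K.κ → ∀ v, v2 T c = some v → ∀ a : ℂ, a ≠ 0 → ‖a‖ ≤ τ₁ →
    ∀ c' j', (c', j') ∈ K.κ → IsV c' → v1 T c' = some v → (a ^ lx T c)⁻¹ ≠ cx T c'

variable [Fintype (II U)] {τ₀ τ₁ : ℝ} (P : WPar L y K τ₀ τ₁)

/-- the weight -/
def WPar.Ψ (x : Fin 3 → ℂ) : ℝ := P.Φ x + ‖x 1‖ ^ 2

/-- the estimates of `WTDStmt` at a point `p` of the chart `c` -/
structure LA (c : Ch T.m) (j : Fin T.d) (C c₀ : ℝ) (p : ℂ × ℂ) : Prop where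
  sm : ContDiffAt ℝ (⊤ : ℕ∞) (P.Ψ ∘ wc S c j) p
  psh : ∀ w, 0 ≤ lvE (P.Ψ ∘ wc S c j) p w
  ub : P.Ψ (wc S c j p) ≤ yo y (L.e1 c j) * Real.log (‖p.1‖ ^ 2) +
    yo y (L.e2 c j) * Real.log (‖p.2‖ ^ 2) + C
  lb : K.κ = ∅ → yo y (L.e1 c j) * Real.log (‖p.1‖ ^ 2) +
    yo y (L.e2 c j) * Real.log (‖p.2‖ ^ 2) - C ≤ P.Ψ (wc S c j p)
  kil : (c, j) ∈ K.κ → ‖p.1‖ < τ₁ → ‖p.2‖ < τ₁ →
    |P.Ψ (wc S c j p) - yo y (L.e1 c j) * Real.log (‖p.1‖ ^ 2) -
      yo y (L.e2 c j) * Real.log (‖p.2‖ ^ 2) -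
      K.t (c, j) * Real.log (‖p.1‖ ^ (2 * K.b (c, j)) + ‖p.2‖ ^ (2 * K.a (c, j)))| ≤ C
  st1 : K.κ = ∅ → L.e1 c j ≠ none → IsV c ∨ τ₀ ≤ ‖p.2‖ →
    ∀ w, c₀ * (‖w.1‖ ^ 2 + ‖w.2‖ ^ 2) ≤ lvE (P.Ψ ∘ wc S c j) p w
  st2 : K.κ = ∅ → L.e2 c j ≠ none → τ₀ ≤ ‖p.1‖ →
    ∀ w, c₀ * (‖w.1‖ ^ 2 + ‖w.2‖ ^ 2) ≤ lvE (P.Ψ ∘ wc S c j) p w
  ks1 : (c, j) ∈ K.κ → ‖p.1‖ < τ₁ → ‖p.2‖ < τ₁ → L.e1 c j ≠ none → τ₀ ≤ ‖p.2‖ →
    ∀ w, c₀ * (‖w.1‖ ^ 2 + ‖w.2‖ ^ 2) ≤ lvE (P.Ψ ∘ wc S c j) p w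
  ks2 : (c, j) ∈ K.κ → ‖p.1‖ < τ₁ → ‖p.2‖ < τ₁ → L.e2 c j ≠ none → τ₀ ≤ ‖p.1‖ →
    ∀ w, c₀ * (‖w.1‖ ^ 2 + ‖w.2‖ ^ 2) ≤ lvE (P.Ψ ∘ wc S c j) p w

/-- the local form at a point of `{s = 0}` -/
def LocS (c : Ch T.m) (j : Fin T.d) (p₀ : ℂ × ℂ) : Prop :=
  ∃ C c₀ : ℝ, 0 < c₀ ∧ ∀ᶠ p in 𝓝 p₀, ‖p.1‖ < S.r c → ‖p.2‖ < S.r c → T.Gen c p →
    LA P c j C c₀ p

variable {v : Vtx} {q₀ : XV U v} (D : TC U v q₀)

/-- the estimates in a tube chart -/
structure TubeOut : Prop where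
  sm : ∀ᶠ q in D.Fl, ContDiffAt ℝ (⊤ : ℕ∞) (P.Φ ∘ D.X) q ∧ ∀ w, 0 ≤ lvE (P.Φ ∘ D.X) q w
  ub : ∃ C', ∀ᶠ q in D.Fl, P.Φ (D.X q) ≤ y (lab U ⟨v, D.hv⟩ q₀) * Real.log (‖q.1‖ ^ 2) + C'
  lb : q₀ ∉ Kd P v → ∃ C', ∀ᶠ q in D.Fl,
    y (lab U ⟨v, D.hv⟩ q₀) * Real.log (‖q.1‖ ^ 2) - C' ≤ P.Φ (D.X q)
  nat : (∀ c' j', Es K c' j' → v1 T c' = some v → ∀ b' : ℂ, ‖b'‖ < P.τ → (IsV c' ∨ b' ≠ 0) →
      P.γ1 c' v D.hv j' b' ≠ q₀) →
    (∀ c' j', Es K c' j' → v2 T c' = some v → ∀ a' : ℂ, ‖a'‖ < P.τ → a' ≠ 0 →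
      P.γ2 c' v D.hv j' a' ≠ q₀) → ∀ᶠ q in D.Fl, P.Φ (D.X q) = FV P D q
  kil : q₀ ∈ Kd P v → ∀ᶠ q in D.Fl, ∀ b, P.RE (D.X q) b → P.Φ (D.X q) = b

end Crest.Agent.R257.Wt_258
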