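import Mathlib
import Crest.Agent.R257.Wt7_258
import Crest.Agent.R257.V1_82
import Crest.Agent.R257.LabI_387
import Crest.Agent.R257.Wt3_258
import Crest.Agent.R257.Sep_547
import Crest.Agent.R257.LwD_89

-- ▼ part R257/Wt8_258
section

/-!
Row 257 (S0395), C-WT, file 8 (helper258): attachments.
-/

set_option autoImplicit false
set_option linter.unusedSectionVars false
set_option linter.unusedVariables false

open Polynomial Set Filter Topology Metric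
open Crest.AlgGeometry.Germ Crest.Agent.R257.AJ387 Crest.Agent.R257.T387
open Crest.Agent.R257.Gr1_157 Crest.Agent.R257.HoB_843 Crest.Agent.R257.BP_258
open Crest.Agent.R257.Frm_547 Crest.Agent.R257.Lab_931

noncomputable section

namespace Crest.Agent.R257.Wt_258

variable {f : (Fin 3 → ℂ) → ℂ} {T : TB f} {U : Tub T} {S : Sh T}
variable {L : Lab U S} {y : II U → ℝ} {F : Finset (Ch T.m)} {K : DKill S F}
variable [Fintype (II U)] {τ₀ τ₁ : ℝ} (P : WPar L y K τ₀ τ₁)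

section tube

variable {v : Vtx} {q₀ : XV U v} (D : TC U v q₀)

/-- attachment of an edge function at `q₀` -/
structure Att where
  c : Ch T.m
  j : Fin T.d
  hE : Es K c j
  Pm : ℂ × ℂ → ℂ × ℂ
  an : AnalyticAt ℂ Pm ((0 : ℂ), pV U v q₀)
  ev : ∀ᶠ q in D.Fl, Pm q ∈ zn S P.τ c ∧ wc S c j (Pm q) = D.X q
  s1 : ∀ c' j', Es K c' j' → v1 T c' = some v → ∀ b' : ℂ, ‖b'‖ ≤ P.τ →
      P.γ1 c' v D.hv j' b' = q₀ → (IsV c' ∨ b' ≠ 0) → c' = c
  s2 : ∀ c' j', Es K c' j' → v2 T c' = some v → ∀ a' : ℂ, ‖a'‖ ≤ P.τ → a' ≠ 0 →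
      P.γ2 c' v D.hv j' a' = q₀ → c' = c
  ub : ∃ C', ∀ᶠ q in D.Fl, EL L y K c j (Pm q) ≤
    y (lab U ⟨v, D.hv⟩ q₀) * Real.log (‖q.1‖ ^ 2) + C'
  alt : (q₀ ∉ Kd P v ∧ ∃ sl u : ℝ, Tendsto (fun q => EL L y K c j (Pm q) -
        y (lab U ⟨v, D.hv⟩ q₀) * Real.log (‖q.1‖ ^ 2)) D.Fl (𝓝 (sl * u)) ∧
      |P.h v q₀ - (sl + P.δ) * u| ≤ P.C ∧
      (q₀ ∉ Om K P.γ1 P.κ v → P.δ * u + P.C + P.B < -1)) ∨
    (q₀ ∈ Kd P v ∧ ∀ᶠ q' in 𝓝 q₀, q' ∉ Om K P.γ1 P.κ v)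

lemma mem_PDv {c : Ch T.m} {j : Fin T.d} (hE : Es K c j) {b : ℂ} (hb : ‖b‖ ≤ P.τ)
    (h0 : IsV c ∨ b ≠ 0) : b ∈ PDv S c := by
  have h1 := P.τ_r c j hE
  have h2 := S.pos c
  exact ⟨h0.imp id fun h => norm_pos_iff.2 h, by linarith⟩

lemma mem_PDc {c : Ch T.m} {j : Fin T.d} (hE : Es K c j) {b : ℂ} (hb : ‖b‖ ≤ P.τ)
    (h0 : b ≠ 0) : b ∈ PDc S c := by
  have h1 := P.τ_r c j hE
  have h2 := S.pos c
  exact ⟨norm_pos_iff.2 h0, by linarith⟩

lemma lx_V {c : Ch T.m} (h : IsV c) : lx T c = 1 := by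
  cases c with
  | edge i k k' => exact absurd h (by simp [IsV])
  | leg i => exact absurd h (by simp [IsV])
  | vert i k w => rfl

include D in
/-- an attachment outside of the core is small -/
lemma small1 {c : Ch T.m} {j : Fin T.d} (hE : Es K c j) (hv : v1 T c = some v) {b : ℂ}
    (hb : ‖b‖ ≤ P.τ) (h0 : IsV c ∨ b ≠ 0) (hq : P.γ1 c v D.hv j b = q₀)
    (hO : q₀ ∉ Om K P.γ1 P.κ v) : ‖b‖ ^ lx T c ≤ P.κ := by
  have hpr : pV U v q₀ = cx T c + b ^ lx T c := by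
    rw [← hq]
    exact (P.end1 c hE.1 ⟨v, D.hv⟩ hv).1.pr j b (mem_PDv P hE hb h0)
  obtain ⟨m1, m2⟩ := P.sm1 c j hE v hv b hb
  by_contra hcon
  rw [not_le] at hcon
  refine hO ⟨by rw [hpr]; exact m1, fun c' hc' => ?_, fun c' j' k1 k2 k3 b' hb' hb'' => ?_⟩
  · rw [hpr]
    by_cases h : c' = cx T c
    · rw [h, add_sub_cancel_left, norm_pow]
      exact hcon
    · exact m2 c' hc' h
  · have hE' : Es K c' j' := ⟨P.hF c' (K.mem _ k1), fun _ => k1⟩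
    have hb2 : ‖b'‖ ≤ P.τ := hb'.trans P.κ_lt.le
    have hpr' : pV U v q₀ = cx T c' + b' ^ lx T c' := by
      rw [← hb'']
      exact (P.end1 c' hE'.1 ⟨v, D.hv⟩ k3).1.pr j' b' (mem_PDv P hE' hb2 (Or.inl k2))
    have hcc : c = c' := P.sep11 c c' j j' hE hE' v hv k3 b b' hb hb2 (hpr.symm.trans hpr')
    subst hcc
    rw [hpr, lx_V k2, pow_one, pow_one] at hpr'
    have h3 : b = b' := add_left_cancel hpr'
    rw [lx_V k2, pow_one, h3] at hcon
    exact absurd hb' (not_le.2 hcon)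

include D in
lemma small2 {c : Ch T.m} {j : Fin T.d} (hE : Es K c j) (hv : v2 T c = some v) {a : ℂ}
    (ha : ‖a‖ ≤ P.τ) (h0 : a ≠ 0) (hq : P.γ2 c v D.hv j a = q₀)
    (hO : q₀ ∉ Om K P.γ1 P.κ v) : ‖a‖ ^ lx T c ≤ P.κ := by
  have hpr : pV U v q₀ = (a ^ lx T c)⁻¹ := by
    rw [← hq]
    exact (P.end2 c hE.1 ⟨v, D.hv⟩ hv).1.pr j a (mem_PDc P hE ha h0)
  by_contra hcon
  rw [not_le] at hcon
  refine hO ⟨?_, fun c' hc' => ?_, fun c' j' k1 k2 k3 b' hb' hb'' => ?_⟩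
  · rw [hpr, norm_inv, norm_pow]
    exact (inv_lt_inv₀ (pow_pos (norm_pos_iff.2 h0) _) P.κ_pos).2 hcon
  · rw [hpr]
    exact P.sm2 c j hE v hv a h0 ha c' hc'
  · have hE' : Es K c' j' := ⟨P.hF c' (K.mem _ k1), fun _ => k1⟩
    have hb2 : ‖b'‖ ≤ P.τ := hb'.trans P.κ_lt.le
    have hpr' : pV U v q₀ = cx T c' + b' ^ lx T c' := by
      rw [← hb'']
      exact (P.end1 c' hE'.1 ⟨v, D.hv⟩ k3).1.pr j' b' (mem_PDv P hE' hb2 (Or.inl k2))
    exact P.sep12 c' c j' j hE' hE v k3 hv b' a hb2 h0 ha (hpr'.symm.trans hpr)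

lemma ta_pos {c : Ch T.m} : 0 < ta S P.τ c := by
  unfold ta
  split_ifs
  · exact S.pos c
  · exact P.τ_pos

lemma tb_pos {c : Ch T.m} : 0 < tb S P.τ c := by
  unfold tb
  split_ifs
  · exact S.pos c
  · exact P.τ_pos

/-- attachments along the first axis -/
theorem att1 (hR : RetStmt U) {c : Ch T.m} {j : Fin T.d} (hE : Es K c j) (hv : v1 T c = some v)
    {b₀ : ℂ} (hb : ‖b₀‖ < P.τ) (h0 : IsV c ∨ b₀ ≠ 0) (hq : P.γ1 c v D.hv j b₀ = q₀) :
    Nonempty (Att P D) := by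
  have hbr : ‖b₀‖ ≤ S.r c := (hb.trans (P.τ_r c j hE)).le
  have hPD := mem_PDv P hE hb.le h0
  obtain ⟨hγ, hlab⟩ := P.end1 c hE.1 ⟨v, D.hv⟩ hv
  have hpr : pV U v q₀ = cx T c + b₀ ^ lx T c := by
    rw [← hq]
    exact hγ.pr j b₀ hPD
  obtain ⟨Pm, an, p0, pev⟩ := V1_82.inv1 hE.1 hv hbr h0
  rw [← hpr] at an p0 pev
  have hPt : Tendsto Pm D.Fl (𝓝 (0, b₀)) := by
    have h1 := an.continuousAt.tendsto
    rw [p0] at h1
    exact h1.mono_left D.Fl_le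
  have h1t : Tendsto (fun q => (Pm q).1) D.Fl (𝓝 0) := (continuous_fst.tendsto _).comp hPt
  have h2t : Tendsto (fun q => (Pm q).2) D.Fl (𝓝 b₀) := (continuous_snd.tendsto _).comp hPt
  have pev' := pev.filter_mono D.Fl_le
  have hgen : ∀ᶠ q in D.Fl, T.Gen c (Pm q) ∧ (T.map c (Pm q)).1 = q.1 := by
    rcases h0 with h0 | h0
    · filter_upwards [pev', D.ev_ne] with q a1 a2
      exact ⟨gen_of (a1.2.2 a2) (Or.inl h0), a1.1⟩
    · filter_upwards [pev', D.ev_ne, h2t.eventually_ne h0] with q a1 a2 a3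
      exact ⟨gen_of (a1.2.2 a2) (Or.inr a3), a1.1⟩
  have hwc : ∀ᶠ q in D.Fl, wc S c j (Pm q) = D.X q := by
    have hlim := hγ.lim j b₀ hPD
    have g1 : ∀ᶠ q in D.Fl, InT U v (wc S c j (Pm q)) := by
      filter_upwards [hPt.eventually hlim.1, hgen] with q a1 a2
      exact a1 (gen_fst a2.1)
    have g2 : ∀ O ∈ 𝓝 q₀, ∀ᶠ q in D.Fl, ∀ q', IsRet U v (wc S c j (Pm q)) q' → q' ∈ O := by
      intro O hO
      rw [← hq] at hO
      filter_upwards [hPt.eventually (hlim.2 O hO), hgen] with q a1 a2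
      exact a1 (gen_fst a2.1)
    filter_upwards [D.ident hR g1 g2, hgen, pev', D.ev_ne] with q a1 a2 a3 a4
    have e1 : wc S c j (Pm q) 1 = q.1 := a2.2
    have e2 : wv T v (wc S c j (Pm q) 1, wc S c j (Pm q) 2) = q.2 := by
      have := W1_eq hE.1.1 hv a2.1
      rw [a3.2.1] at this
      exact this
    rw [a1.1, e2, e1]
  have hzn : ∀ᶠ q in D.Fl, Pm q ∈ zn S P.τ c := by
    have z1 : ∀ᶠ q in D.Fl, ‖(Pm q).1‖ < ta S P.τ c := by
      have := h1t.norm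
      rw [norm_zero] at this
      exact this.eventually (gt_mem_nhds (ta_pos P))
    have z2 : ∀ᶠ q in D.Fl, ‖(Pm q).2‖ < tb S P.τ c := by
      have e : tb S P.τ c = P.τ := if_neg (by rw [hv]; simp)
      rw [e]
      exact h2t.norm.eventually (gt_mem_nhds hb)
    filter_upwards [z1, z2, hgen] with q a1 a2 a3
    exact ⟨a1, a2, a3.1⟩
  have hY : yo y (L.e1 c j) = y (lab U ⟨v, D.hv⟩ q₀) := by
    rw [hlab j b₀ hPD, hq]
    rfl
  have hs1 : ∀ c' j', Es K c' j' → v1 T c' = some v → ∀ b' : ℂ, ‖b'‖ ≤ P.τ →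
      P.γ1 c' v D.hv j' b' = q₀ → (IsV c' ∨ b' ≠ 0) → c' = c := by
    intro c' j' hE' hv' b' hb' hq' h0'
    have hpr' : pV U v q₀ = cx T c' + b' ^ lx T c' := by
      rw [← hq']
      exact (P.end1 c' hE'.1 ⟨v, D.hv⟩ hv').1.pr j' b' (mem_PDv P hE' hb' h0')
    exact P.sep11 c' c j' j hE' hE v hv' hv b' b₀ hb' hb.le (hpr'.symm.trans hpr)
  have hs2 : ∀ c' j', Es K c' j' → v2 T c' = some v → ∀ a' : ℂ, ‖a'‖ ≤ P.τ → a' ≠ 0 →
      P.γ2 c' v D.hv j' a' = q₀ → c' = c := by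
    intro c' j' hE' hv' a' ha' h0' hq'
    have hpr' : pV U v q₀ = (a' ^ lx T c')⁻¹ := by
      rw [← hq']
      exact (P.end2 c' hE'.1 ⟨v, D.hv⟩ hv').1.pr j' a' (mem_PDc P hE' ha' h0')
    exact absurd (hpr.symm.trans hpr') (P.sep12 c c' j j' hE hE' v hv hv' b₀ a' hb.le h0' ha')
  by_cases hb0 : b₀ = 0
  · -- killed vertex
    subst hb0
    have hV : IsV c := h0.resolve_right (by simp)
    have hk : (c, j) ∈ K.κ := hE.2 hV
    refine ⟨{ c := c, j := j, hE := hE, Pm := Pm, an := an, ev := hzn.and hwc, s1 := hs1, s2 := hs2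
              ub := ⟨tt K c j * Real.log 2, ?_⟩
              alt := Or.inr ⟨⟨c, j, hk, hV, hv, hq.symm⟩, ?_⟩ }⟩
    · have hnE : ¬ IsE c := by
        intro h
        cases c with
        | edge i k k' => exact hV
        | leg i => exact h
        | vert i k w => exact h
      filter_upwards [hzn, hgen] with q a1 a2
      have hr := S.le c
      have l1 : ‖(Pm q).1‖ ≤ 1 := (a1.1.trans_le (ta_le P hE)).le.trans (by linarith)
      have l2 : ‖(Pm q).2‖ ≤ 1 := (a1.2.1.trans_le (tb_le P hE)).le.trans (by linarith)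
      have h3 := EL_le L y K c j l1 l2
      rw [yo_v2 L y hE.1 j (v2_none hnE), hY] at h3
      have e : (Pm q).1 = q.1 := by rw [← a2.2, map1_nE hnE]
      rw [e] at h3
      linarith
    · have hw : Tendsto (fun q' : XV U v => pV U v q' - cx T c) (𝓝 q₀) (𝓝 0) := by
        have h3 := (pV_cont (U := U) v).continuousAt (x := q₀)
        have h4 := h3.tendsto.sub_const (cx T c)
        rw [hpr, lx_V hV, pow_one, add_zero, sub_self] at h4
        exact h4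
      have h5 : Tendsto (fun q' : XV U v => P.γ1 c v D.hv j (pV U v q' - cx T c)) (𝓝 q₀) (𝓝 q₀) := by
        have h6 : ContinuousAt (P.γ1 c v D.hv j) 0 := by
          refine (hγ.cont j).continuousAt ?_
          have h7 : ball (0 : ℂ) (2 * S.r c) ∈ 𝓝 (0 : ℂ) :=
            ball_mem_nhds _ (by have := S.pos c; linarith)
          filter_upwards [h7] with b hb'
          exact ⟨Or.inl hV, mem_ball_zero_iff.1 hb'⟩
        have h8 := h6.tendsto.comp hw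
        rw [hq] at h8
        exact h8
      have h9 : ∀ᶠ q' in 𝓝 q₀, ‖pV U v q' - cx T c‖ < P.κ := by
        have := hw.norm
        rw [norm_zero] at this
        exact this.eventually (gt_mem_nhds P.κ_pos)
      filter_upwards [D.near hR, h5.eventually (D.near hR), h9, D.near_ball] with q' a1 a2 a3 a4 hO
      have hPD' : pV U v q' - cx T c ∈ PDv S c :=
        mem_PDv P hE (a3.le.trans P.κ_lt.le) (Or.inl hV)
      have e1 : pV U v (P.γ1 c v D.hv j (pV U v q' - cx T c)) = pV U v q' := by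
        rw [hγ.pr j _ hPD', lx_V hV, pow_one]
        ring
      rw [e1, a1] at a2
      exact hO.2.2 c j hk hV hv _ a3.le a2.symm
  · have hunk : q₀ ∉ Kd P v := by
      rintro ⟨c', j', k1, k2, k3, k4⟩
      have hE' : Es K c' j' := ⟨P.hF c' (K.mem _ k1), fun _ => k1⟩
      have hcc := hs1 c' j' hE' k3 0 (by rw [norm_zero]; exact P.τ_pos.le) k4.symm (Or.inl k2)
      subst hcc
      have e2 : pV U v q₀ = cx T c' + 0 ^ lx T c' := by
        rw [k4]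
        exact hγ.pr j' 0 (mem_PDv P hE' (by rw [norm_zero]; exact P.τ_pos.le) (Or.inl k2))
      rw [hpr, lx_V k2, pow_one, pow_one] at e2
      exact hb0 (add_left_cancel e2)
    have htend := EL_along1 (K := K) (y := y) (L := L) hE.1 j hb0 hPt hgen
    rw [hY] at htend
    refine ⟨{ c := c, j := j, hE := hE, Pm := Pm, an := an, ev := hzn.and hwc, s1 := hs1, s2 := hs2
              ub := ⟨d1 L y K c j * Real.log (‖b₀‖ ^ 2) + 1, ?_⟩
              alt := Or.inl ⟨hunk, d1 L y K c j, Real.log (‖b₀‖ ^ 2), htend, ?_, ?_⟩ }⟩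
    · filter_upwards [htend.eventually (gt_mem_nhds (lt_add_one _))] with q a1
      linarith
    · have := P.hv1 c hE.1 ⟨v, D.hv⟩ hv j hE.2 b₀ (norm_pos_iff.2 hb0) (hb.trans P.τ_lt)
        (hb.trans (P.τ_r c j hE))
      rw [hq] at this
      exact this
    · intro hO
      exact (P.smallκ c j hE b₀ hb0 (small1 P D hE hv hb.le h0 hq hO)).2

/-- attachments along the second axis -/
theorem att2 (hR : RetStmt U) {c : Ch T.m} {j : Fin T.d} (hE : Es K c j) (hv : v2 T c = some v)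
    {a₀ : ℂ} (ha : ‖a₀‖ < P.τ) (h0 : a₀ ≠ 0) (hq : P.γ2 c v D.hv j a₀ = q₀) :
    Nonempty (Att P D) := by
  have har : ‖a₀‖ ≤ S.r c := (ha.trans (P.τ_r c j hE)).le
  have hPD := mem_PDc P hE ha.le h0
  have hIE : IsE c := isV_v2 hv
  obtain ⟨hγ, hlab⟩ := P.end2 c hE.1 ⟨v, D.hv⟩ hv
  have hpr : pV U v q₀ = (a₀ ^ lx T c)⁻¹ := by
    rw [← hq]
    exact hγ.pr j a₀ hPD
  obtain ⟨Pm, an, p0, pev⟩ := V1_82.inv2 hE.1 hv har h0
  rw [← hpr] at an p0 pev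
  have hPt : Tendsto Pm D.Fl (𝓝 (a₀, 0)) := by
    have h1 := an.continuousAt.tendsto
    rw [p0] at h1
    exact h1.mono_left D.Fl_le
  have h1t : Tendsto (fun q => (Pm q).1) D.Fl (𝓝 a₀) := (continuous_fst.tendsto _).comp hPt
  have h2t : Tendsto (fun q => (Pm q).2) D.Fl (𝓝 0) := (continuous_snd.tendsto _).comp hPt
  have pev' := pev.filter_mono D.Fl_le
  have hgen : ∀ᶠ q in D.Fl, T.Gen c (Pm q) ∧ (T.map c (Pm q)).1 = q.1 := by
    filter_upwards [pev', D.ev_ne, h1t.eventually_ne h0] with q a1 a2 a3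
    exact ⟨gen_of a3 (Or.inr (a1.2.2 a2)), a1.1⟩
  have hwc : ∀ᶠ q in D.Fl, wc S c j (Pm q) = D.X q := by
    have hlim := hγ.lim j a₀ hPD
    have g1 : ∀ᶠ q in D.Fl, InT U v (wc S c j (Pm q)) := by
      filter_upwards [hPt.eventually hlim.1, hgen] with q a1 a2
      exact a1 (gen_snd_E hIE a2.1)
    have g2 : ∀ O ∈ 𝓝 q₀, ∀ᶠ q in D.Fl, ∀ q', IsRet U v (wc S c j (Pm q)) q' → q' ∈ O := by
      intro O hO
      rw [← hq] at hO
      filter_upwards [hPt.eventually (hlim.2 O hO), hgen] with q a1 a2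
      exact a1 (gen_snd_E hIE a2.1)
    filter_upwards [D.ident hR g1 g2, hgen, pev', D.ev_ne] with q a1 a2 a3 a4
    have e1 : wc S c j (Pm q) 1 = q.1 := a2.2
    have e2 : wv T v (wc S c j (Pm q) 1, wc S c j (Pm q) 2) = q.2 := by
      have := W2_eq hE.1.1 hv a2.1
      rw [a3.2.1] at this
      exact this
    rw [a1.1, e2, e1]
  have hzn : ∀ᶠ q in D.Fl, Pm q ∈ zn S P.τ c := by
    have z1 : ∀ᶠ q in D.Fl, ‖(Pm q).2‖ < tb S P.τ c := by
      have := h2t.norm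
      rw [norm_zero] at this
      exact this.eventually (gt_mem_nhds (tb_pos P))
    have z2 : ∀ᶠ q in D.Fl, ‖(Pm q).1‖ < ta S P.τ c := by
      have e : ta S P.τ c = P.τ := if_neg (by rw [hv]; simp)
      rw [e]
      exact h1t.norm.eventually (gt_mem_nhds ha)
    filter_upwards [z1, z2, hgen] with q a1 a2 a3
    exact ⟨a2, a1, a3.1⟩
  have hY : yo y (L.e2 c j) = y (lab U ⟨v, D.hv⟩ q₀) := by
    rw [hlab j a₀ hPD, hq]
    rfl
  have hs1 : ∀ c' j', Es K c' j' → v1 T c' = some v → ∀ b' : ℂ, ‖b'‖ ≤ P.τ →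
      P.γ1 c' v D.hv j' b' = q₀ → (IsV c' ∨ b' ≠ 0) → c' = c := by
    intro c' j' hE' hv' b' hb' hq' h0'
    have hpr' : pV U v q₀ = cx T c' + b' ^ lx T c' := by
      rw [← hq']
      exact (P.end1 c' hE'.1 ⟨v, D.hv⟩ hv').1.pr j' b' (mem_PDv P hE' hb' h0')
    exact absurd (hpr'.symm.trans hpr) (P.sep12 c' c j' j hE' hE v hv' hv b' a₀ hb' h0 ha.le)
  have hs2 : ∀ c' j', Es K c' j' → v2 T c' = some v → ∀ a' : ℂ, ‖a'‖ ≤ P.τ → a' ≠ 0 →
      P.γ2 c' v D.hv j' a' = q₀ → c' = c := by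
    intro c' j' hE' hv' a' ha' h0' hq'
    rw [Hv_174.v2_eq hE'.1 hv', Hv_174.v2_eq hE.1 hv]
  have hunk : q₀ ∉ Kd P v := by
    rintro ⟨c', j', k1, k2, k3, k4⟩
    have hE' : Es K c' j' := ⟨P.hF c' (K.mem _ k1), fun _ => k1⟩
    have hcc := hs1 c' j' hE' k3 0 (by rw [norm_zero]; exact P.τ_pos.le) k4.symm (Or.inl k2)
    subst hcc
    cases c' with
    | edge i k k' => exact k2
    | leg i => exact k2
    | vert i k w => exact hIE
  have htend := EL_along2 (K := K) (y := y) (L := L) hIE j h0 hPt hgen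
  rw [hY] at htend
  refine ⟨{ c := c, j := j, hE := hE, Pm := Pm, an := an, ev := hzn.and hwc, s1 := hs1, s2 := hs2
            ub := ⟨d2 L y K c j * Real.log (‖a₀‖ ^ 2) + 1, ?_⟩
            alt := Or.inl ⟨hunk, d2 L y K c j, Real.log (‖a₀‖ ^ 2), htend, ?_, ?_⟩ }⟩
  · filter_upwards [htend.eventually (gt_mem_nhds (lt_add_one _))] with q a1
    linarith
  · have := P.hv2 c hE.1 ⟨v, D.hv⟩ hv j a₀ (norm_pos_iff.2 h0) (ha.trans P.τ_lt)
      (ha.trans (P.τ_r c j hE))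
    rw [hq] at this
    exact this
  · intro hO
    exact (P.smallκ c j hE a₀ h0 (small2 P D hE hv ha.le h0 hq hO)).2

end tube

end Crest.Agent.R257.Wt_258
end
end

-- ▼ part R257/Wt9_258
section

/-!
Row 257 (S0395), C-WT, file 9 (helper258): the estimates in a tube chart.
-/

set_option autoImplicit false
set_option linter.unusedSectionVars false
set_option linter.unusedVariables false

open Polynomial Set Filter Topology Metric
open Crest.AlgGeometry.Germ Crest.Agent.R257.AJ387 Crest.Agent.R257.T387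
open Crest.Agent.R257.Gr1_157 Crest.Agent.R257.HoB_843 Crest.Agent.R257.BP_258
open Crest.Agent.R257.Frm_547 Crest.Agent.R257.Lab_931

noncomputable section

namespace Crest.Agent.R257.Wt_258

variable {f : (Fin 3 → ℂ) → ℂ} {T : TB f} {U : Tub T} {S : Sh T}
variable {L : Lab U S} {y : II U → ℝ} {F : Finset (Ch T.m)} {K : DKill S F}
variable [Fintype (II U)] {τ₀ τ₁ : ℝ} (P : WPar L y K τ₀ τ₁)

section tube

variable {v : Vtx} {q₀ : XV U v} (D : TC U v q₀)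

/-- no attachment -/
structure NA : Prop where
  n1 : ∀ c' j', Es K c' j' → v1 T c' = some v → ∀ b' : ℂ, ‖b'‖ < P.τ → (IsV c' ∨ b' ≠ 0) →
      P.γ1 c' v q₀.2.1 j' b' ≠ q₀
  n2 : ∀ c' j', Es K c' j' → v2 T c' = some v → ∀ a' : ℂ, ‖a'‖ < P.τ → a' ≠ 0 →
      P.γ2 c' v q₀.2.1 j' a' ≠ q₀

theorem na_or_att (hR : RetStmt U) : NA P (q₀ := q₀) ∨ Nonempty (Att P D) := by
  by_contra hcon
  rw [not_or] at hcon
  obtain ⟨h1, h2⟩ := hcon
  refine h1 ⟨fun c j hE hv b hb h0 hq => ?_, fun c j hE hv a ha h0 hq => ?_⟩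
  · exact h2 (att1 P D hR hE hv hb h0 hq)
  · exact h2 (att2 P D hR hE hv ha h0 hq)

include D in
lemma NA.unk (h : NA P (q₀ := q₀)) : q₀ ∉ Kd P v := by
  rintro ⟨c', j', k1, k2, k3, k4⟩
  have hE' : Es K c' j' := ⟨P.hF c' (K.mem _ k1), fun _ => k1⟩
  exact h.n1 c' j' hE' k3 0 (by rw [norm_zero]; exact P.τ_pos) (Or.inl k2) k4.symm

include D in
/-- points without attachments are in the core -/
theorem NA.om (h : NA P (q₀ := q₀)) : q₀ ∈ Om K P.γ1 P.κ v := by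
  refine ⟨?_, fun c' hc' => ?_, fun c j k1 k2 k3 b hb hq => ?_⟩
  · by_contra hcon
    rw [not_lt] at hcon
    set c : Ch T.m := ec S v with hc
    have hOk : Ok S c := Lab_931.ok_ec S D.hv
    have hv2 : v2 T c = some v := Lab_931.v2_ec S D.hv
    obtain ⟨j⟩ : Nonempty (Fin T.d) := by
      obtain ⟨E⟩ := Vt2_558.exists_LD (Tb_941.retStmt U) D.hv (w₀ := pV U v q₀) q₀.2.2.1
      obtain ⟨j, -⟩ := E.surj q₀ E.w0_mem
      exact ⟨j⟩
    have hE : ∀ j, Es K c j := fun j => ⟨hOk, fun h => absurd h (by simp [hc, ec, IsV])⟩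
    obtain ⟨hγ, -⟩ := P.end2 c hOk ⟨v, D.hv⟩ hv2
    have hl : 0 < lx T c := Hv_174.lx_pos hOk.1
    have hw : 0 < ‖pV U v q₀‖ := lt_of_lt_of_le (inv_pos.2 P.κ_pos) hcon
    obtain ⟨a, ha⟩ := IsAlgClosed.exists_pow_nat_eq (pV U v q₀)⁻¹ hl
    have ha0 : a ≠ 0 := by
      rintro rfl
      rw [zero_pow hl.ne'] at ha
      exact (inv_ne_zero (norm_pos_iff.1 hw)) ha.symm
    have hn : ‖a‖ ^ lx T c ≤ P.κ := by
      rw [← norm_pow, ha, norm_inv]
      exact (inv_le_comm₀ hw P.κ_pos).2 hcon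
    have ht := (P.smallκ c j (hE j) a ha0 hn).1
    obtain ⟨j', hj'⟩ := hγ.surj a (mem_PDc P (hE j) ht.le ha0) q₀ (by rw [ha, inv_inv])
    exact h.n2 c j' (hE j') hv2 a ht ha0 hj'
  · by_contra hcon
    rw [not_lt] at hcon
    obtain ⟨c, hOk, hnV, hv1, hcx⟩ := ex_att (S := S) D.hv hc'
    have hE : ∀ j, Es K c j := fun j => ⟨hOk, fun h => absurd h hnV⟩
    obtain ⟨hγ, -⟩ := P.end1 c hOk ⟨v, D.hv⟩ hv1
    have hl : 0 < lx T c := Hv_174.lx_pos hOk.1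
    obtain ⟨j⟩ : Nonempty (Fin T.d) := by
      obtain ⟨E⟩ := Vt2_558.exists_LD (Tb_941.retStmt U) D.hv (w₀ := pV U v q₀) q₀.2.2.1
      obtain ⟨j, -⟩ := E.surj q₀ E.w0_mem
      exact ⟨j⟩
    obtain ⟨b, hb⟩ := IsAlgClosed.exists_pow_nat_eq (pV U v q₀ - c') hl
    have hb0 : b ≠ 0 := by
      rintro rfl
      rw [zero_pow hl.ne'] at hb
      have : pV U v q₀ = c' := (sub_eq_zero.1 hb.symm)
      exact q₀.2.2.1 (by rw [show q₀.1.1 = c' from this]; exact hc')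
    have hn : ‖b‖ ^ lx T c ≤ P.κ := by
      rw [← norm_pow, hb]
      exact hcon
    have ht := (P.smallκ c j (hE j) b hb0 hn).1
    obtain ⟨j', hj'⟩ := hγ.surj b (mem_PDv P (hE j) ht.le (Or.inr hb0)) q₀ (by
      rw [hb, hcx]; ring)
    exact h.n1 c j' (hE j') hv1 b ht (Or.inr hb0) hj'
  · have hE' : Es K c j := ⟨P.hF c (K.mem _ k1), fun _ => k1⟩
    exact h.n1 c j hE' k3 b (hb.trans_lt P.κ_lt) (Or.inl k2) hq

lemma FV_tend (hq : q₀ ∉ Kd P v) : Tendsto (fun q => P.h v (D.σ q.2)) D.Fl (𝓝 (P.h v q₀)) := by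
  have h1 := (hσ P D hq).self_of_nhds.1.continuousAt
  have h2 : Tendsto (fun q : ℂ × ℂ => P.h v (D.σ q.2)) D.Fl (𝓝 (P.h v (D.σ (pV U v q₀)))) :=
    h1.tendsto.comp D.snd_tendsto
  rwa [D.σ0] at h2

/-- **edge functions are small at points without attachments** -/
theorem RE_small (hR : RetStmt U) (h : NA P (q₀ := q₀)) :
    ∀ᶠ q in D.Fl, ∀ b, P.RE (D.X q) b → b + 1 ≤ FV P D q := by
  have hunk := h.unk P D
  have h1 : ∀ᶠ q in D.Fl, ∀ c j, Es K c j → ∀ p ∈ zn S P.τ c, wc S c j p = D.X q →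
      EL L y K c j p - P.B + 1 ≤ FV P D q := by
    refine ev_Es P.hF fun c j hE => ?_
    by_contra hcon
    have hcon' : ∃ᶠ q in D.Fl, ∃ p ∈ zn S P.τ c, wc S c j p = D.X q ∧
        ¬ EL L y K c j p - P.B + 1 ≤ FV P D q := by
      intro h
      refine hcon (h.mono fun q hq p hp hw => ?_)
      by_contra hn
      exact hq ⟨p, hp, hw, hn⟩
    obtain ⟨𝒱, g, k1, k2, k3⟩ := zn_freq P D hR hE hcon'
    have hgen : ∀ᶠ q in (𝒱 : Filter (ℂ × ℂ)), T.Gen c (g q) ∧ (T.map c (g q)).1 = q.1 := by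
      filter_upwards [k2] with q hq
      refine ⟨hq.2.1, ?_⟩
      have h2 : wc S c j (g q) 1 = D.X q 1 := by rw [hq.2.2.1]
      exact h2
    -- the limit
    have key : ∃ sl u : ℝ, Tendsto (fun q => EL L y K c j (g q) -
        y (lab U ⟨v, D.hv⟩ q₀) * Real.log (‖q.1‖ ^ 2)) 𝒱 (𝓝 (sl * u)) ∧
        |P.h v q₀ - (sl + P.δ) * u| ≤ P.C ∧ u = Real.log (P.τ ^ 2) := by
      rcases k3 with ⟨b, b1, b2, b3, b4, b5⟩ | ⟨a, b1, b2, b3, b4, b5⟩
      · have hbt : ‖b‖ = P.τ := le_antisymm b4 (by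
          by_contra hlt
          rw [not_le] at hlt
          exact h.n1 c j hE b2 b hlt b3 b5)
        have hb0 : b ≠ 0 := norm_pos_iff.1 (by rw [hbt]; exact P.τ_pos)
        have ht := EL_along1 (K := K) (y := y) (L := L) hE.1 j hb0 b1 hgen
        have hY : yo y (L.e1 c j) = y (lab U ⟨v, D.hv⟩ q₀) := by
          rw [(P.end1 c hE.1 ⟨v, D.hv⟩ b2).2 j b (mem_PDv P hE b4 b3), b5]
          rfl
        rw [hY] at ht
        refine ⟨d1 L y K c j, Real.log (‖b‖ ^ 2), ht, ?_, by rw [hbt]⟩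
        have := P.hv1 c hE.1 ⟨v, D.hv⟩ b2 j hE.2 b (norm_pos_iff.2 hb0)
          (by rw [hbt]; exact P.τ_lt) (by rw [hbt]; exact P.τ_r c j hE)
        rw [b5] at this
        exact this
      · have hbt : ‖a‖ = P.τ := le_antisymm b4 (by
          by_contra hlt
          rw [not_le] at hlt
          exact h.n2 c j hE b2 a hlt b3 b5)
        have ht := EL_along2 (K := K) (y := y) (L := L) (isV_v2 b2) j b3 b1 hgen
        have hY : yo y (L.e2 c j) = y (lab U ⟨v, D.hv⟩ q₀) := by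
          rw [(P.end2 c hE.1 ⟨v, D.hv⟩ b2).2 j a (mem_PDc P hE b4 b3), b5]
          rfl
        rw [hY] at ht
        refine ⟨d2 L y K c j, Real.log (‖a‖ ^ 2), ht, ?_, by rw [hbt]⟩
        have := P.hv2 c hE.1 ⟨v, D.hv⟩ b2 j a (norm_pos_iff.2 b3)
          (by rw [hbt]; exact P.τ_lt) (by rw [hbt]; exact P.τ_r c j hE)
        rw [b5] at this
        exact this
    obtain ⟨sl, u, t1, t2, t3⟩ := key
    have t4 := ((FV_tend P D hunk).mono_left k1).sub t1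
    have t5 : P.B - 1 > -(P.h v q₀ - sl * u) := by
      have e1 := (abs_le.1 t2).1
      have e2 := P.bigB
      rw [← t3] at e2
      have e3 : P.h v q₀ - (sl + P.δ) * u = P.h v q₀ - sl * u - P.δ * u := by ring
      rw [e3] at e1
      linarith
    obtain ⟨q, q1, q2⟩ := (k2.and (t4.eventually
      (lt_mem_nhds (show -(P.B - 1) < P.h v q₀ - sl * u by linarith)))).exists
    refine q1.2.2.2 ?_
    unfold FV
    linarith
  filter_upwards [h1] with q a1 b hb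
  obtain ⟨c, j, p, b1, b2, b3, b4⟩ := hb
  have := a1 c j b1 p b2 b3
  linarith

/-- **vertex functions are small at attached points outside of the core** -/
theorem RV_small (hR : RetStmt U) (A : Att P D) (hO : q₀ ∉ Om K P.γ1 P.κ v) :
    ∀ᶠ q in D.Fl, ∀ a, P.RV (D.X q) a → a + 1 ≤ EL L y K A.c A.j (A.Pm q) - P.B := by
  rcases A.alt with ⟨hunk, sl, u, t1, t2, t3⟩ | ⟨hk, t1⟩
  · have t4 := (FV_tend P D hunk).sub t1
    have e0 := t3 hO
    have e1 := (abs_le.1 t2).2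
    have e3 : P.h v q₀ - (sl + P.δ) * u = P.h v q₀ - sl * u - P.δ * u := by ring
    rw [e3] at e1
    have t5 : P.h v q₀ - sl * u < -1 - P.B := by linarith
    filter_upwards [RV_uniq P D hR, t4.eventually (gt_mem_nhds t5)] with q a1 a2 a ha
    obtain ⟨-, b2⟩ := a1 a ha
    rw [b2]
    unfold FV
    linarith
  · filter_upwards [RV_uniq P D hR, D.σ_tendsto.eventually t1] with q a1 a2 a ha
    exact absurd (a1 a ha).1 a2

/-- local form of eventual statements -/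
lemma ev_ev {A : ℂ × ℂ → Prop} (h : ∀ᶠ q in D.Fl, A q) : ∀ᶠ q in D.Fl, ∀ᶠ q' in 𝓝 q, A q' := by
  have h1 : ∀ᶠ q in D.Fl, ∀ᶠ q' in 𝓝[{q : ℂ × ℂ | q.1 ≠ 0}] q, A q' :=
    eventually_eventually_nhdsWithin.2 h
  filter_upwards [h1, D.ev_ne] with q a1 a2
  have ho : IsOpen {q : ℂ × ℂ | q.1 ≠ 0} := isOpen_ne_fun continuous_fst continuous_const
  rwa [ho.nhdsWithin_eq a2] at a1

/-- the vertex function is smooth and psh -/
theorem FV_sm (hq : q₀ ∉ Kd P v) : ∀ᶠ q in D.Fl, ContDiffAt ℝ (⊤ : ℕ∞) (FV P D) q ∧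
    ∀ w, 0 ≤ lvE (FV P D) q w := by
  filter_upwards [D.ev_ne, D.snd_tendsto.eventually (hσ P D hq)] with q a1 a2
  have h := Glue2_101.tube (s := fun q : ℂ × ℂ => q.1) (g := fun q : ℂ × ℂ => q.2)
    (H := fun w => P.h v (D.σ w)) (z := q) (y (lab U ⟨v, D.hv⟩ q₀)) 0 fst_cd a1 snd_cd a2.1
  have e : (fun p : ℂ × ℂ => y (lab U ⟨v, D.hv⟩ q₀) * Real.log (‖p.1‖ ^ 2) + P.h v (D.σ p.2) +
      0 * ‖p.1‖ ^ 2) = FV P D := by
    funext p
    unfold FV
    ring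
  rw [e] at h
  refine ⟨h.1, fun w => ?_⟩
  rw [h.2 w]
  have := a2.2
  positivity

/-- the edge function in the tube chart -/
theorem EP_sm (A : Att P D) : ∀ᶠ q in D.Fl,
    ContDiffAt ℝ (⊤ : ℕ∞) (fun q => EL L y K A.c A.j (A.Pm q) - P.B) q ∧
    ∀ w, 0 ≤ lvE (fun q => EL L y K A.c A.j (A.Pm q) - P.B) q w := by
  filter_upwards [A.ev, A.an.eventually_analyticAt.filter_mono D.Fl_le] with q a1 a2
  obtain ⟨b1, b2⟩ := EL_sm L y K A.hE.1 A.j a1.1.2.2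
  have c1 : ContDiffAt ℂ (⊤ : ℕ∞) A.Pm q := a2.contDiffAt
  have two : (2 : WithTop ℕ∞) ≤ ((⊤ : ℕ∞) : WithTop ℕ∞) := by norm_cast
  have c2 : ContDiffAt ℝ (⊤ : ℕ∞) (fun q => EL L y K A.c A.j (A.Pm q)) q :=
    b1.comp q (c1.restrict_scalars ℝ)
  refine ⟨c2.sub contDiffAt_const, fun w => ?_⟩
  have e : (fun q => EL L y K A.c A.j (A.Pm q) - P.B) =
      fun q => EL L y K A.c A.j (A.Pm q) + (-P.B) := by
    funext q; ring
  rw [e, lvE_add (c2.of_le two) contDiffAt_const, lvE_const, add_zero]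
  have h3 := lvE_comp (c1.of_le two) (b1.of_le two) w
  have e2 : (EL L y K A.c A.j) ∘ A.Pm = fun q => EL L y K A.c A.j (A.Pm q) := rfl
  rw [e2] at h3
  rw [h3]
  exact b2 _

/-- **the estimates in a tube chart** -/
theorem tubeOut (hR : RetStmt U) : TubeOut P D := by
  have two : (2 : WithTop ℕ∞) ≤ ((⊤ : ℕ∞) : WithTop ℕ∞) := by norm_cast
  have congr_sm : ∀ {G : ℂ × ℂ → ℝ}, (∀ᶠ q in D.Fl, P.Φ (D.X q) = G q) →
      (∀ᶠ q in D.Fl, ContDiffAt ℝ (⊤ : ℕ∞) G q ∧ ∀ w, 0 ≤ lvE G q w) →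
      ∀ᶠ q in D.Fl, ContDiffAt ℝ (⊤ : ℕ∞) (P.Φ ∘ D.X) q ∧ ∀ w, 0 ≤ lvE (P.Φ ∘ D.X) q w := by
    intro G h1 h2
    filter_upwards [ev_ev D h1, h2] with q a1 a2
    have e : P.Φ ∘ D.X =ᶠ[𝓝 q] G := a1
    refine ⟨a2.1.congr_of_eventuallyEq e, fun w => ?_⟩
    rw [lvE_congr e]
    exact a2.2 w
  by_cases hna : NA P (q₀ := q₀)
  · -- no attachment
    have hO := hna.om P D
    have hunk := hna.unk P D
    have hΦ : ∀ᶠ q in D.Fl, P.Φ (D.X q) = FV P D q := by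
      filter_upwards [RV_uniq P D hR, RV_ex P D hR hO, RE_small P D hR hna] with q a1 a2 a3
      exact WPar.Φ_V a2 (fun a ha => (a1 a ha).2) a3
    have ht := FV_tend P D hunk
    refine ⟨congr_sm hΦ (FV_sm P D hunk), ⟨P.h v q₀ + 1, ?_⟩, fun _ => ⟨-P.h v q₀ + 1, ?_⟩,
      fun _ _ => hΦ, fun hk => absurd hk hunk⟩
    · filter_upwards [hΦ, ht.eventually (gt_mem_nhds (lt_add_one _))] with q a1 a2
      rw [a1]
      unfold FV
      linarith
    · filter_upwards [hΦ, ht.eventually (lt_mem_nhds (sub_one_lt _))] with q a1 a2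
      rw [a1]
      unfold FV
      linarith
  · obtain ⟨A⟩ := (na_or_att P D hR).resolve_left hna
    have hRE := RE_uniq P D hR A.hE A.ev A.s1 A.s2
    obtain ⟨C₂, hub⟩ := A.ub
    have hnat : NA P (q₀ := q₀) → False := hna
    by_cases hO : q₀ ∈ Om K P.γ1 P.κ v
    · -- transition
      have hunk : q₀ ∉ Kd P v := by
        rintro ⟨c', j', k1, k2, k3, k4⟩
        exact hO.2.2 c' j' k1 k2 k3 0 (by rw [norm_zero]; exact P.κ_pos.le) k4.symm
      have hΦ : ∀ᶠ q in D.Fl, P.Φ (D.X q) = smx (FV P D q) (EL L y K A.c A.j (A.Pm q) - P.B) := by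
        filter_upwards [RV_uniq P D hR, RV_ex P D hR hO, hRE] with q a1 a2 a3
        exact WPar.Φ_VE a2 (fun a ha => (a1 a ha).2) a3.1 a3.2
      have ht := FV_tend P D hunk
      have hG : ∀ᶠ q in D.Fl, ContDiffAt ℝ (⊤ : ℕ∞)
          (fun q => smx (FV P D q) (EL L y K A.c A.j (A.Pm q) - P.B)) q ∧
          ∀ w, 0 ≤ lvE (fun q => smx (FV P D q) (EL L y K A.c A.j (A.Pm q) - P.B)) q w := by
        filter_upwards [FV_sm P D hunk, EP_sm P D A] with q a1 a2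
        exact ⟨smx_contDiffAt le_rfl a1.1 a2.1, fun w => lvE_smx_nonneg (a1.1.of_le two)
          (a2.1.of_le two) w (a1.2 w) (a2.2 w)⟩
      refine ⟨congr_sm hΦ hG, ⟨max (P.h v q₀ + 1) (C₂ - P.B) + 1, ?_⟩, fun _ => ⟨-P.h v q₀ + 1, ?_⟩,
        fun n1 n2 => (hnat ⟨n1, n2⟩).elim, fun hk => absurd hk hunk⟩
      · filter_upwards [hΦ, ht.eventually (gt_mem_nhds (lt_add_one _)), hub] with q a1 a2 a3
        rw [a1]
        refine (smx_le _ _).trans ?_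
        have m1 := le_max_left (P.h v q₀ + 1) (C₂ - P.B)
        have m2 := le_max_right (P.h v q₀ + 1) (C₂ - P.B)
        have : max (FV P D q) (EL L y K A.c A.j (A.Pm q) - P.B) ≤
            y (lab U ⟨v, D.hv⟩ q₀) * Real.log (‖q.1‖ ^ 2) + max (P.h v q₀ + 1) (C₂ - P.B) := by
          refine max_le ?_ (by linarith)
          unfold FV
          linarith
        linarith
      · filter_upwards [hΦ, ht.eventually (lt_mem_nhds (sub_one_lt _))] with q a1 a2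
        rw [a1]
        refine le_trans ?_ (le_smx_left _ _)
        unfold FV
        linarith
    · -- outside of the core
      have hΦ : ∀ᶠ q in D.Fl, P.Φ (D.X q) = EL L y K A.c A.j (A.Pm q) - P.B := by
        filter_upwards [RV_small P D hR A hO, hRE] with q a1 a3
        exact WPar.Φ_E a3.1 a3.2 a1
      refine ⟨congr_sm hΦ (EP_sm P D A), ⟨C₂ - P.B, ?_⟩, fun hunk => ?_,
        fun n1 n2 => (hnat ⟨n1, n2⟩).elim, fun hk => ?_⟩
      · filter_upwards [hΦ, hub] with q a1 a2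
        rw [a1]
        linarith
      · rcases A.alt with ⟨-, sl, u, t1, -, -⟩ | ⟨hk, -⟩
        · refine ⟨-(sl * u) + 1 + P.B, ?_⟩
          filter_upwards [hΦ, t1.eventually (lt_mem_nhds (sub_one_lt _))] with q a1 a2
          rw [a1]
          linarith
        · exact absurd hk hunk
      · filter_upwards [hΦ, hRE] with q a1 a2 b hb
        rw [a1, a2.2 b hb]

end tube

end Crest.Agent.R257.Wt_258
end
end

-- ▼ part R257/WtAs_82
section

/-!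
# Row 257 (S0395), C-WT, leaves (F1), (F2) (helper82): compactness and assembly

* `y_nn` : the values `y` of a superharmonic function are non-negative;
* `assemble` : `WTDStmt` from the local estimates `LocS` at the points of `{s = 0}`.
-/

set_option autoImplicit false
set_option linter.unusedSectionVars false
set_option linter.unusedVariables false

open Polynomial Set Filter Topology Metric
open Crest.AlgGeometry.Germ Crest.Agent.R257.AJ387 Crest.Agent.R257.T387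
open Crest.Agent.R257.Gr1_157 Crest.Agent.R257.HoB_843 Crest.Agent.R257.BP_258
open Crest.Agent.R257.Frm_547 Crest.Agent.R257.Lab_931 Crest.Agent.R257.Wt_258

noncomputable section

namespace Crest.Agent.R257.WtAs_82

variable {f : (Fin 3 → ℂ) → ℂ} {T : TB f} {U : Tub T} {S : Sh T}

lemma kc_nn (c : Ch T.m) : 0 ≤ kc (T := T) c := by
  cases c with
  | edge i k k' =>
    show (0 : ℝ) ≤ 1 / (T.M * (k' - k : ℕ) : ℝ)
    positivity
  | leg i =>
    show (0 : ℝ) ≤ 1 / (T.M : ℝ)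
    positivity
  | vert i k w₀ =>
    show (0 : ℝ) ≤ 1
    exact zero_le_one

/-- **(F2)** -/
theorem y_nn (L : Lab U S) [Fintype (II U)] : ∀ (y : II U → ℝ) (F : Finset (Ch T.m))
    (K : DKill S F), (∀ c ∈ F, Ok S c) → (∀ E, DSup L y K E) → ∀ E, 0 ≤ y E := by
  classical
  intro y F K hF hK
  refine nonneg_of (LabI_387.iform (L := L)) (S := Set.univ) (fun E _ => ?_)
    (fun E h => absurd (mem_univ E) h)
  have h1 := hK E
  unfold DSup at h1
  have h2 : 0 ≤ ∑ c ∈ F, ∑ j, (if (c, j) ∈ K.κ then kc c * K.t (c, j) *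
      ((K.a (c, j) : ℝ) * (if L.e1 c j = some E then 1 else 0) +
        (K.b (c, j) : ℝ) * (if L.e2 c j = some E then 1 else 0)) else 0) := by
    refine Finset.sum_nonneg fun c _ => Finset.sum_nonneg fun j _ => ?_
    split_ifs with hk
    all_goals first
      | exact le_rfl
      | (have := K.t_pos _ hk
         have := kc_nn c
         positivity)
  linarith

/-! ### compactness -/

variable {L : Lab U S} {y : II U → ℝ} {F : Finset (Ch T.m)} {K : DKill S F}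
variable [Fintype (II U)] {τ₀ τ₁ : ℝ}

lemma map1_cont (c : Ch T.m) : Continuous fun p : ℂ × ℂ => (T.map c p).1 := by
  cases c with
  | edge i k k' => exact continuous_fst.mul continuous_snd
  | leg i => exact continuous_fst
  | vert i k w₀ => exact continuous_fst

lemma LA_mono {P : WPar L y K τ₀ τ₁} {c : Ch T.m} {j : Fin T.d} {C C' c₀ c₀' : ℝ} {p : ℂ × ℂ}
    (h : LA P c j C c₀ p) (hC : C ≤ C') (hc : c₀' ≤ c₀) : LA P c j C' c₀' p := by
  have hq : ∀ w : ℂ × ℂ, c₀' * (‖w.1‖ ^ 2 + ‖w.2‖ ^ 2) ≤ c₀ * (‖w.1‖ ^ 2 + ‖w.2‖ ^ 2) :=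
    fun w => mul_le_mul_of_nonneg_right hc (by positivity)
  exact
    { sm := h.sm
      psh := h.psh
      ub := h.ub.trans (by linarith)
      lb := fun a => le_trans (by linarith) (h.lb a)
      kil := fun a b d => (h.kil a b d).trans hC
      st1 := fun a b d w => (hq w).trans (h.st1 a b d w)
      st2 := fun a b d w => (hq w).trans (h.st2 a b d w)
      ks1 := fun a b d e g w => (hq w).trans (h.ks1 a b d e g w)
      ks2 := fun a b d e g w => (hq w).trans (h.ks2 a b d e g w) }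

/-- uniform constants for one sheet of one chart -/
theorem one (P : WPar L y K τ₀ τ₁) (c : Ch T.m) (j : Fin T.d)
    (h : ∀ p₀ : ℂ × ℂ, ‖p₀.1‖ ≤ S.r c → ‖p₀.2‖ ≤ S.r c → (T.map c p₀).1 = 0 → LocS P c j p₀) :
    ∃ ρ C c₀ : ℝ, 0 < ρ ∧ 0 < c₀ ∧ ∀ p ∈ Og (S := S) c ρ, LA P c j C c₀ p := by
  set Q : ℝ → ℝ → ℂ × ℂ → Prop := fun C c₀ p =>
    ‖p.1‖ < S.r c → ‖p.2‖ < S.r c → T.Gen c p → LA P c j C c₀ p with hQ
  set D : Set (ℂ × ℂ) := closedBall 0 (S.r c) ×ˢ closedBall 0 (S.r c) with hD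
  have hDc : IsCompact D := (isCompact_closedBall _ _).prod (isCompact_closedBall _ _)
  set Kc : Set (ℂ × ℂ) := D ∩ {p | (T.map c p).1 = 0} with hKc
  have hKcc : IsCompact Kc :=
    hDc.inter_right (isClosed_eq (map1_cont c) continuous_const)
  have h1 : ∃ C c₀ : ℝ, 0 < c₀ ∧ ∀ᶠ p in 𝓝ˢ Kc, Q C c₀ p := by
    refine hKcc.induction_on (p := fun A => ∃ C c₀ : ℝ, 0 < c₀ ∧ ∀ᶠ p in 𝓝ˢ A, Q C c₀ p)
      ?_ ?_ ?_ ?_
    · exact ⟨0, 1, one_pos, by simp⟩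
    · rintro A B hAB ⟨C, c₀, h0, h⟩
      exact ⟨C, c₀, h0, h.filter_mono (nhdsSet_mono hAB)⟩
    · rintro A B ⟨C, c₀, h0, h⟩ ⟨C', c₀', h0', h'⟩
      refine ⟨max C C', min c₀ c₀', lt_min h0 h0', ?_⟩
      rw [nhdsSet_union, eventually_sup]
      refine ⟨h.mono fun p hp a b d => ?_, h'.mono fun p hp a b d => ?_⟩
      · exact LA_mono (hp a b d) (le_max_left _ _) (min_le_left _ _)
      · exact LA_mono (hp a b d) (le_max_right _ _) (min_le_right _ _)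
    · intro x hx
      obtain ⟨C, c₀, h0, h2⟩ := h x (by simpa using hx.1.1) (by simpa using hx.1.2) hx.2
      have h3 : ∀ᶠ p in 𝓝 x, ∀ᶠ p' in 𝓝 p, Q C c₀ p' := eventually_eventually_nhds.2 h2
      refine ⟨{p | ∀ᶠ p' in 𝓝 p, Q C c₀ p'}, mem_nhdsWithin_of_mem_nhds h3, C, c₀, h0, ?_⟩
      exact eventually_nhdsSet_iff_forall.2 fun p hp => hp
  obtain ⟨C, c₀, h0, h2⟩ := h1
  obtain ⟨O, hO, hO1, hO2⟩ := mem_nhdsSet_iff_exists.1 h2
  have h3 : ∃ ρ : ℝ, 0 < ρ ∧ ∀ p ∈ D, ‖(T.map c p).1‖ < ρ → p ∈ O := by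
    have hc2 : IsCompact (D \ O) := hDc.diff hO
    rcases (D \ O).eq_empty_or_nonempty with he | hne
    · refine ⟨1, one_pos, fun p hp _ => ?_⟩
      by_contra hn
      have : p ∈ D \ O := ⟨hp, hn⟩
      rw [he] at this
      exact this
    · obtain ⟨p₁, hp1, hmin⟩ := hc2.exists_isMinOn hne (f := fun p => ‖(T.map c p).1‖)
        (map1_cont c).norm.continuousOn
      have hpos : 0 < ‖(T.map c p₁).1‖ := by
        rw [norm_pos_iff]
        intro hz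
        exact hp1.2 (hO1 ⟨hp1.1, hz⟩)
      refine ⟨_, hpos, fun p hp hlt => ?_⟩
      by_contra hn
      exact absurd (hmin ⟨hp, hn⟩) (not_le.2 hlt)
  obtain ⟨ρ, hρ, h4⟩ := h3
  refine ⟨ρ, C, c₀, hρ, h0, fun p hp => ?_⟩
  have hpD : p ∈ D := ⟨by simpa using hp.1.le, by simpa using hp.2.1.le⟩
  exact hO2 (h4 p hpD hp.2.2.2) hp.1 hp.2.1 hp.2.2.1

/-- uniform constants -/
theorem all (P : WPar L y K τ₀ τ₁)
    (h : ∀ c ∈ F, ∀ j, ∀ p₀ : ℂ × ℂ, ‖p₀.1‖ ≤ S.r c → ‖p₀.2‖ ≤ S.r c → (T.map c p₀).1 = 0 →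
      LocS P c j p₀) :
    ∃ ρ C c₀ : ℝ, 0 < ρ ∧ 0 < c₀ ∧ ∀ c ∈ F, ∀ j, ∀ p ∈ Og (S := S) c ρ, LA P c j C c₀ p := by
  have h1 : ∀ c ∈ F, ∀ j, ∀ᶠ x : ℝ × ℝ × ℝ in (𝓝[>] (0 : ℝ)) ×ˢ (atTop : Filter ℝ) ×ˢ (𝓝[>] (0 : ℝ)),
      ∀ p ∈ Og (S := S) c x.1, LA P c j x.2.1 x.2.2 p := by
    intro c hc j
    obtain ⟨ρ, C, c₀, h0, h1, h2⟩ := one P c j (h c hc j)
    have e1 : ∀ᶠ r : ℝ in 𝓝[>] (0 : ℝ), r < ρ := by
      filter_upwards [Ioo_mem_nhdsGT h0] with r hr using hr.2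
    have e2 : ∀ᶠ r : ℝ in 𝓝[>] (0 : ℝ), r < c₀ := by
      filter_upwards [Ioo_mem_nhdsGT h1] with r hr using hr.2
    filter_upwards [e1.prod_mk ((eventually_ge_atTop C).prod_mk e2)] with x hx p hp
    exact LA_mono (h2 p ⟨hp.1, hp.2.1, hp.2.2.1, hp.2.2.2.trans hx.1⟩) hx.2.1 hx.2.2.le
  have h2 : ∀ᶠ x : ℝ × ℝ × ℝ in (𝓝[>] (0 : ℝ)) ×ˢ (atTop : Filter ℝ) ×ˢ (𝓝[>] (0 : ℝ)),
      ∀ c ∈ F, ∀ j, ∀ p ∈ Og (S := S) c x.1, LA P c j x.2.1 x.2.2 p := by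
    rw [Filter.eventually_all_finset]
    intro c hc
    rw [Filter.eventually_all]
    exact h1 c hc
  have e1 : ∀ᶠ r : ℝ in 𝓝[>] (0 : ℝ), 0 < r := self_mem_nhdsWithin
  have h3 := e1.prod_mk ((eventually_ge_atTop (0 : ℝ)).prod_mk e1)
  obtain ⟨x, hx, hx0⟩ := (h2.and h3).exists
  exact ⟨x.1, x.2.1, x.2.2, hx0.1, hx0.2.2, hx⟩

/-- **(F1)** -/
theorem assemble (L : Lab U S)
    (hP : ∀ (y : II U → ℝ) (F : Finset (Ch T.m)) (K : DKill S F), (∀ c ∈ F, Ok S c) →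
      (∀ E, DSup L y K E) →
      ∃ τ₁ > 0, Unk K τ₁ ∧ ∀ τ₀ > 0, τ₀ < τ₁ → Nonempty (WPar L y K τ₀ τ₁))
    (hy : ∀ (y : II U → ℝ) (F : Finset (Ch T.m)) (K : DKill S F), (∀ c ∈ F, Ok S c) →
      (∀ E, DSup L y K E) → ∀ E, 0 ≤ y E)
    (hloc : ∀ (y : II U → ℝ) (F : Finset (Ch T.m)) (K : DKill S F) (τ₀ τ₁ : ℝ), 0 < τ₀ →
      τ₀ < τ₁ → Unk K τ₁ → ∀ P : WPar L y K τ₀ τ₁, ∀ c ∈ F, ∀ j, ∀ p₀ : ℂ × ℂ,
      ‖p₀.1‖ ≤ S.r c → ‖p₀.2‖ ≤ S.r c → (T.map c p₀).1 = 0 → LocS P c j p₀) : WTDStmt L := by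
  intro y F K hF hK
  obtain ⟨τ₁, hτ₁, hu, hpar⟩ := hP y F K hF hK
  refine ⟨τ₁, hτ₁, fun τ₀ h0 h01 => ?_⟩
  obtain ⟨P⟩ := hpar τ₀ h0 h01
  obtain ⟨ρ, C, c₀, hρ, hc₀, h1⟩ := all P (hloc y F K τ₀ τ₁ h0 h01 hu P)
  have hy' := hy y F K hF hK
  have hyo : ∀ e : Option (II U), 0 ≤ yo y e := fun e => by
    cases e with
    | none => exact le_rfl
    | some E => exact hy' E
  refine ⟨P.Ψ, ρ, C, c₀, hρ, hc₀, fun c hc j => ?_⟩
  have h2 := h1 c hc j
  have hlog : ∀ z : ℂ, ‖z‖ < S.r c → Real.log (‖z‖ ^ 2) ≤ 0 := fun z hz => by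
    have h3 : ‖z‖ ≤ 1 := hz.le.trans ((S.le c).trans (by norm_num))
    exact Real.log_nonpos (by positivity) (pow_le_one₀ (norm_nonneg _) h3)
  refine ⟨fun p hp => ⟨(h2 p hp).sm, (h2 p hp).psh, ?_⟩, fun p hp => (h2 p hp).ub,
    fun hk p hp => (h2 p hp).lb hk, fun hk p hp a b => (h2 p hp).kil hk a b,
    fun hk p hp => ⟨(h2 p hp).st1 hk, (h2 p hp).st2 hk⟩,
    fun hk p hp a b => ⟨(h2 p hp).ks1 hk a b, (h2 p hp).ks2 hk a b⟩⟩
  have h3 := (h2 p hp).ub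
  have h4 := mul_nonpos_of_nonneg_of_nonpos (hyo (L.e1 c j)) (hlog p.1 hp.1)
  have h5 := mul_nonpos_of_nonneg_of_nonpos (hyo (L.e2 c j)) (hlog p.2 hp.2.1)
  linarith

end Crest.Agent.R257.WtAs_82
end
end

-- ▼ part R257/Cor_547
section

/-!
Row 257 (S0395), C-WT-COR (helper547): the weight at the corners and on the top curve.

* `kinds`    : a sheet of a canonical chart tends to a point of type V, to the origin of a chart or
               to the top curve;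
* `KV_OT`, `KV_KT`, `OT_KT`, `top_unique` : the kinds exclude each other;
* `el_val`   : the edge function depends only on the point;
* `corner`   : near a corner or a point of the top curve, `Φ` is the edge function.
-/

set_option autoImplicit false
set_option linter.unusedSectionVars false

open Polynomial Set Filter Topology Metric
open Crest.AlgGeometry.Germ Crest.Agent.R257.AJ387 Crest.Agent.R257.T387
open Crest.Agent.R257.Gr1_157 Crest.Agent.R257.HoB_843 Crest.Agent.R257.BP_258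
open Crest.Agent.R257.Frm_547 Crest.Agent.R257.Lab_931 Crest.Agent.R257.Wt_258
open Crest.Agent.R257.FrmF_547
open Crest.Agent.R257.Typ_201 (TV TL TN)

noncomputable section

namespace Crest.Agent.R257.Cor_547

variable {f : (Fin 3 → ℂ) → ℂ} {T : TB f} {U : Tub T} {S : Sh T}

variable (T) in
/-- kind V -/
def KV (l : Filter (ℂ × ℂ)) : Prop :=
  ∃ v ∈ Vs T, ∃ w, w ∉ sp T v ∧ Tendsto (wv T v) l (𝓝 w)

/-- kind top -/
def KT (l : Filter (ℂ × ℂ)) : Prop := ∃ y : ℂ, y ≠ 0 ∧ Tendsto (Prod.snd : ℂ × ℂ → ℂ) l (𝓝 y)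

section excl

variable {l : Filter (ℂ × ℂ)} (h0 : Tendsto Prod.fst l (𝓝 0)) (h1 : ∀ᶠ q in l, q.1 ≠ 0)

include h0 h1 in
lemma KV_OT [l.NeBot] (h : KV T l) {c : Ch T.m} (hV : ¬ IsV c) (h' : Sep_547.OT c l) : False := by
  obtain ⟨v, hv, w, hw, ht⟩ := h
  cases c with
  | edge i k k' => exact not_node h0 h1 hv ht hw h'
  | leg i => exact not_leg h0 h1 hv ht hw h'
  | vert i k w₀ => exact hV trivial

include h0 h1 in
lemma KV_KT [l.NeBot] (h : KV T l) (h' : KT l) : False := by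
  obtain ⟨v, hv, w, hw, ht⟩ := h
  obtain ⟨y, hy, hy'⟩ := h'
  exact hy (tendsto_nhds_unique hy' (v_snd_zero h0 h1 hv ht hw))

include h0 h1 in
lemma OT_KT [l.NeBot] {c : Ch T.m} (hV : ¬ IsV c) (h : Sep_547.OT c l) (h' : KT l) : False := by
  obtain ⟨y, hy, hy'⟩ := h'
  cases c with
  | edge i k k' => exact hy (tendsto_nhds_unique hy' (snd_zero h0 h1 h.2.1 (Or.inr rfl)))
  | leg i => exact hy (tendsto_nhds_unique hy' (snd_zero h0 h1 h (Or.inr rfl)))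
  | vert i k w₀ => exact hV trivial

end excl

lemma v1_none {c : Ch T.m} (h : v1 T c = none) : ∃ i k', c = .edge i 0 k' := by
  cases c with
  | edge i k k' =>
    simp only [v1] at h
    split_ifs at h with hk
    exact ⟨i, k', by rw [hk]⟩
  | leg i => simp [v1] at h
  | vert i k w₀ => simp [v1] at h

lemma top_unique {c c' : Ch T.m} (hc : Ok S c) (hc' : Ok S c') (h : v1 T c = none)
    (h' : v1 T c' = none) : c = c' := by
  obtain ⟨i, k, rfl⟩ := v1_none h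
  obtain ⟨i', k', rfl⟩ := v1_none h'
  have e : ∀ {i : Fin T.m} {k : ℕ}, T.Cons i 0 k → k = 1 := by
    intro i k hk
    have h1 := hk.2.2.1
    have h2 := hk.2.2.2 1 (T.one_mem_lev i)
    omega
  obtain rfl := e hc.1
  obtain rfl := e hc'.1
  obtain ⟨v, hv, e1⟩ := ok_edge hc
  obtain ⟨v', hv', e1'⟩ := ok_edge hc'
  simp only [ec, Ch.edge.injEq] at e1 e1'
  obtain ⟨rfl, -, e2⟩ := e1
  obtain ⟨rfl, -, e2'⟩ := e1'
  have h3 : v = v' := Sep_547.ci_unique (S := S) hv hv' (e2 ▸ e2' ▸ rfl) (by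
    rw [← e2]
    exact Or.inr (T.del_pos _ _))
  rw [h3]

lemma top_snd {c : Ch T.m} (h : v1 T c = none) {p : ℂ × ℂ} (h1 : p.1 = 0) (h2 : p.2 ≠ 0) :
    (T.map c p).2 ≠ 0 := by
  obtain ⟨i, k', rfl⟩ := v1_none h
  simp only [TB.map, h1, zero_mul, zero_pow T.M_pos.ne', T.φ_zero, mul_zero, pow_zero, one_mul,
    zero_add]
  exact pow_ne_zero _ h2

lemma cont_at {c : Ch T.m} (hc : T.Valid c) {p₀ : ℂ × ℂ} (h1 : ‖p₀.1‖ ≤ S.r c)
    (h2 : ‖p₀.2‖ ≤ S.r c) : ContinuousAt (T.map c) p₀ :=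
  (map_cont S hc).continuousAt ((isOpen_BD _ _).mem_nhds ⟨lt_two_r S h1, lt_two_r S h2⟩)

/-- **the kinds** -/
theorem kinds {c : Ch T.m} (hc : T.Valid c) (𝒰 : Ultrafilter (ℂ × ℂ))
    (hb : ∀ᶠ p in (𝒰 : Filter (ℂ × ℂ)), ‖p.1‖ ≤ S.r c ∧ ‖p.2‖ ≤ S.r c ∧ T.Gen c p)
    (hs : Tendsto (fun p => (T.map c p).1) (𝒰 : Filter (ℂ × ℂ)) (𝓝 0)) :
    KV T (Filter.map (T.map c) 𝒰) ∨ (¬ IsV c ∧ Sep_547.OT c (Filter.map (T.map c) 𝒰)) ∨
      (v1 T c = none ∧ KT (Filter.map (T.map c) 𝒰)) := by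
  have hK : IsCompact (closedBall (0 : ℂ) (S.r c) ×ˢ closedBall (0 : ℂ) (S.r c)) :=
    (isCompact_closedBall _ _).prod (isCompact_closedBall _ _)
  obtain ⟨ps, hps, hle⟩ := hK.ultrafilter_le_nhds 𝒰 (by
    rw [le_principal_iff]
    filter_upwards [hb] with p hp
    exact ⟨mem_closedBall_zero_iff.2 hp.1, mem_closedBall_zero_iff.2 hp.2.1⟩)
  have hp1 : ‖ps.1‖ ≤ S.r c := mem_closedBall_zero_iff.1 hps.1
  have hp2 : ‖ps.2‖ ≤ S.r c := mem_closedBall_zero_iff.1 hps.2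
  have hBD : ps ∈ BD (2 * S.r c) (2 * S.r c) := ⟨lt_two_r S hp1, lt_two_r S hp2⟩
  have hBDn : BD (2 * S.r c) (2 * S.r c) ∈ 𝓝 ps := (isOpen_BD _ _).mem_nhds hBD
  have hmc : ContinuousAt (T.map c) ps := cont_at hc hp1 hp2
  have hs0 : (T.map c ps).1 = 0 :=
    tendsto_nhds_unique ((hmc.fst.tendsto).mono_left hle) hs
  have axis1 : ∀ {v' : Vtx}, v1 T c = some v' → ps.1 = 0 → (IsV c ∨ ps.2 ≠ 0) →
      KV T (Filter.map (T.map c) 𝒰) := by
    intro v' hv' h10 h20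
    have e : ps = (0, ps.2) := Prod.ext h10 rfl
    refine ⟨v', v1_mem hc hv', W1 c (0, ps.2), W1_zero S hc hv' hp2 h20, ?_⟩
    rw [tendsto_map'_iff]
    have h2 : Tendsto (W1 c) (𝒰 : Filter (ℂ × ℂ)) (𝓝 (W1 c ps)) :=
      ((W1_cont S hc).continuousAt hBDn).tendsto.mono_left hle
    rw [e] at h2
    refine h2.congr' ?_
    filter_upwards [hb] with p hp
    exact (W1_eq hc hv' hp.2.2).symm
  have axis2 : ∀ {v' : Vtx}, v2 T c = some v' → ps.2 = 0 → ps.1 ≠ 0 →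
      KV T (Filter.map (T.map c) 𝒰) := by
    intro v' hv' h20 h10
    have e : ps = (ps.1, 0) := Prod.ext rfl h20
    refine ⟨v', v2_mem hc hv', W2 c (ps.1, 0), W2_zero S hc hv' hp1 h10, ?_⟩
    rw [tendsto_map'_iff]
    have h2 : Tendsto (W2 c) (𝒰 : Filter (ℂ × ℂ)) (𝓝 (W2 c ps)) := by
      refine ((W2_cont S hc).continuousAt ?_).tendsto.mono_left hle
      exact Filter.inter_mem hBDn ((isOpen_ne_fun continuous_fst continuous_const).mem_nhds h10)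
    rw [e] at h2
    refine h2.congr' ?_
    filter_upwards [hb] with p hp
    exact (W2_eq hc hv' hp.2.2).symm
  have orig : ps.1 = 0 → ps.2 = 0 → Sep_547.OT c (Filter.map (T.map c) 𝒰) := by
    intro h10 h20
    have e : ps = 0 := Prod.ext h10 h20
    exact Sep_547.origin_type hc (e ▸ hle) (hb.mono fun p hp => hp.2.2)
  cases c with
  | vert i k w₀ => exact Or.inl (axis1 (v' := vx T i k) rfl hs0 (Or.inl trivial))
  | leg i =>
    have h10 : ps.1 = 0 := hs0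
    by_cases h20 : ps.2 = 0
    · exact Or.inr (Or.inl ⟨id, orig h10 h20⟩)
    · exact Or.inl (axis1 (v' := vx T i (T.top i)) rfl h10 (Or.inr h20))
  | edge i k k' =>
    have hs0' : ps.1 * ps.2 = 0 := hs0
    by_cases h10 : ps.1 = 0
    · by_cases h20 : ps.2 = 0
      · exact Or.inr (Or.inl ⟨id, orig h10 h20⟩)
      · by_cases hk0 : k = 0
        · refine Or.inr (Or.inr ⟨by simp [v1, hk0], (T.map (.edge i k k') ps).2,
            top_snd (by simp [v1, hk0]) h10 h20, ?_⟩)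
          rw [tendsto_map'_iff]
          exact hmc.snd.tendsto.mono_left hle
        · exact Or.inl (axis1 (v' := vx T i k) (by simp [v1, hk0]) h10 (Or.inr h20))
    · have h20 : ps.2 = 0 := (mul_eq_zero.1 hs0').resolve_left h10
      exact Or.inl (axis2 (v' := vx T i k') rfl h20 h10)

/-- the kind of the given point -/
theorem mine {c : Ch T.m} (hc : T.Valid c) {p₀ : ℂ × ℂ}
    (h : (p₀ = 0 ∧ ¬ IsV c) ∨ (v1 T c = none ∧ p₀.1 = 0 ∧ ‖p₀.2‖ ≤ S.r c)) {m : Filter (ℂ × ℂ)}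
    (hm : m ≤ 𝓝 p₀) (hg : ∀ᶠ p in m, T.Gen c p) :
    (¬ IsV c ∧ Sep_547.OT c (Filter.map (T.map c) m)) ∨
      (v1 T c = none ∧ KT (Filter.map (T.map c) m)) := by
  rcases h with ⟨rfl, hV⟩ | ⟨h1, h2, h3⟩
  · exact Or.inl ⟨hV, Sep_547.origin_type hc hm hg⟩
  · by_cases h4 : p₀.2 = 0
    · have e : p₀ = 0 := Prod.ext h2 h4
      subst e
      refine Or.inl ⟨?_, Sep_547.origin_type hc hm hg⟩
      obtain ⟨i, k', rfl⟩ := v1_none h1
      exact id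
    · refine Or.inr ⟨h1, (T.map c p₀).2, top_snd h1 h2 h4, ?_⟩
      rw [tendsto_map'_iff]
      have h5 : ‖p₀.1‖ ≤ S.r c := by rw [h2, norm_zero]; exact (S.pos c).le
      exact (cont_at hc h5 h3).snd.tendsto.mono_left hm

lemma fst_zero {c : Ch T.m} {p₀ : ℂ × ℂ}
    (h : (p₀ = 0 ∧ ¬ IsV c) ∨ (v1 T c = none ∧ p₀.1 = 0 ∧ ‖p₀.2‖ ≤ S.r c)) :
    p₀.1 = 0 ∧ ‖p₀.2‖ ≤ S.r c := by
  rcases h with ⟨rfl, -⟩ | h
  · exact ⟨rfl, by simpa using (S.pos c).le⟩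
  · exact h.2

lemma map_fst_zero (c : Ch T.m) {p : ℂ × ℂ} (h : p.1 = 0) : (T.map c p).1 = 0 := by
  cases c <;> simp [TB.map, h]

/-! ### the charts -/

variable (S) in
/-- the canonical charts which are no vertex charts or in `F` -/
def CS (F : Finset (Ch T.m)) : Set (Ch T.m) := {c | Ok S c ∧ (IsV c → c ∈ F)}

lemma finite_CS (F : Finset (Ch T.m)) : (CS S F).Finite := by
  refine Set.Finite.subset ((((Vs T).finite_toSet.image (ec S)).union
    (Set.finite_range (Ch.leg (m := T.m)))).union F.finite_toSet) ?_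
  intro c hc
  cases c with
  | edge i k k' =>
    obtain ⟨v, hv, e⟩ := ok_edge hc.1
    exact Or.inl (Or.inl ⟨v, hv, e.symm⟩)
  | leg i => exact Or.inl (Or.inr ⟨i, rfl⟩)
  | vert i k w => exact Or.inr (hc.2 trivial)

/-! ### the edge function -/

variable {L : Lab U S} [Fintype (II U)] {y : II U → ℝ} {F : Finset (Ch T.m)} {K : DKill S F}
  {τ₀ τ₁ : ℝ}

lemma gen_smul {c : Ch T.m} {p : ℂ × ℂ} (h : T.Gen c p) {t : ℂ} (ht : t ≠ 0) :
    T.Gen c (t • p) := by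
  cases c with
  | edge i k k' => exact ⟨mul_ne_zero ht h.1, mul_ne_zero ht h.2⟩
  | leg i => exact ⟨mul_ne_zero ht h.1, mul_ne_zero ht h.2⟩
  | vert i k w => exact mul_ne_zero ht h

/-- kills are invariant under the coincidences of a chart -/
theorem kill_val (K : DKill S F) {c : Ch T.m} (hc : Ok S c) {j j' : Fin T.d} {p p' : ℂ × ℂ}
    (hp : p ∈ BD (2 * S.r c) (2 * S.r c)) (hg : T.Gen c p) (hg' : T.Gen c p')
    (h : wc S c j p = wc S c j' p') (hκ : (c, j) ∈ K.κ) :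
    (c, j') ∈ K.κ ∧ K.t (c, j') = K.t (c, j) ∧ K.a (c, j') = K.a (c, j) ∧
      K.b (c, j') = K.b (c, j) := by
  obtain ⟨r, hr, hex⟩ := K.ex
  obtain ⟨e1, e2, -, hray⟩ := LwD_89.pers hc hp hg h
  set N : ℝ := max ‖p.1‖ ‖p.2‖ with hN
  have hN0 : 0 ≤ N := (norm_nonneg _).trans (le_max_left _ _)
  set t : ℝ := min 1 (r / (N + 1) / 2) with ht
  have ht0 : 0 < t := lt_min one_pos (by positivity)
  have ht1 : t ≤ 1 := min_le_left _ _
  have htN : ∀ x : ℝ, 0 ≤ x → x ≤ N → t * x < r := by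
    intro x hx0 hx
    have h2 : t * x ≤ r / (N + 1) / 2 * N :=
      mul_le_mul (min_le_right _ _) hx hx0 (by positivity)
    have h3 : r / (N + 1) / 2 * N < r := by
      have : r / (N + 1) * (N + 1) = r := div_mul_cancel₀ _ (by positivity)
      have h4 : 0 < r / (N + 1) := by positivity
      nlinarith
    linarith
  have hnorm : ∀ q : ℂ × ℂ, ‖q.1‖ ≤ N → ‖q.2‖ ≤ N → (t : ℂ) • q ∈ BD r r := by
    intro q h2 h3
    refine ⟨?_, ?_⟩
    · rw [Prod.smul_fst, norm_smul, Complex.norm_real, Real.norm_of_nonneg ht0.le]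
      exact htN _ (norm_nonneg _) h2
    · rw [Prod.smul_snd, norm_smul, Complex.norm_real, Real.norm_of_nonneg ht0.le]
      exact htN _ (norm_nonneg _) h3
  have htc : (t : ℂ) ≠ 0 := by exact_mod_cast ht0.ne'
  have := hex (c, j) hκ c (Or.inl rfl) j' ((t : ℂ) • p) ((t : ℂ) • p')
    (hnorm p (le_max_left _ _) (le_max_right _ _))
    (hnorm p' (e1 ▸ le_max_left _ _) (e2 ▸ le_max_right _ _))
    (gen_smul hg htc) (gen_smul hg' htc) (hray t ht0.le ht1)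
  exact this.2

/-- **the edge function depends only on the point** -/
theorem el_val {c : Ch T.m} (hc : Ok S c) {j j' : Fin T.d} {p p' : ℂ × ℂ}
    (hp : p ∈ BD (2 * S.r c) (2 * S.r c)) (hp' : p' ∈ BD (2 * S.r c) (2 * S.r c))
    (hg : T.Gen c p) (hg' : T.Gen c p') (h : wc S c j p = wc S c j' p') :
    EL L y K c j p = EL L y K c j' p' := by
  obtain ⟨e1, e2, -, -⟩ := LwD_89.pers hc hp hg h
  obtain ⟨l1, l2⟩ := LwD_89.labWD L c hc j j' p p' hp hp' hg hg' h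
  unfold EL
  rw [e1, e2, l1, l2]
  congr 1
  by_cases hκ : (c, j) ∈ K.κ
  · obtain ⟨k1, k2, k3, k4⟩ := kill_val K hc hp hg hg' h hκ
    unfold tt
    rw [if_pos hκ, if_pos k1, k2, k3, k4]
  · have hκ' : (c, j') ∉ K.κ := fun hκ' => hκ (kill_val K hc hp' hg' hg h.symm hκ').1
    unfold tt
    rw [if_neg hκ, if_neg hκ', zero_mul, zero_mul]

/-! ### the corners -/

lemma zn_le (P : WPar L y K τ₀ τ₁) {c : Ch T.m} {j : Fin T.d} (hE : Es K c j) {p : ℂ × ℂ}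
    (hp : p ∈ zn S P.τ c) : ‖p.1‖ ≤ S.r c ∧ ‖p.2‖ ≤ S.r c ∧ T.Gen c p := by
  have hτ := P.τ_r c j hE
  refine ⟨hp.1.le.trans ?_, hp.2.1.le.trans ?_, hp.2.2⟩
  · unfold ta; split_ifs
    · exact le_rfl
    · exact hτ.le
  · unfold tb; split_ifs
    · exact le_rfl
    · exact hτ.le

/-- the common data of a contradiction at a corner -/
lemma data {c : Ch T.m} (hc : T.Valid c) {p₀ : ℂ × ℂ}
    (h : (p₀ = 0 ∧ ¬ IsV c) ∨ (v1 T c = none ∧ p₀.1 = 0 ∧ ‖p₀.2‖ ≤ S.r c)) {m : Filter (ℂ × ℂ)}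
    (hm : m ≤ 𝓝 p₀) (hg : ∀ᶠ p in m, T.Gen c p) :
    Tendsto Prod.fst (Filter.map (T.map c) m) (𝓝 0) ∧
      ∀ᶠ q in Filter.map (T.map c) m, q.1 ≠ 0 := by
  obtain ⟨h1, h2⟩ := fst_zero h
  refine ⟨?_, ?_⟩
  · rw [tendsto_map'_iff]
    have h5 : ‖p₀.1‖ ≤ S.r c := by rw [h1, norm_zero]; exact (S.pos c).le
    have := (cont_at hc h5 h2).fst.tendsto.mono_left hm
    rwa [map_fst_zero c h1] at this
  · rw [eventually_map]
    exact hg.mono fun p hp => map_ne hp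

/-- (1) no value of a vertex function -/
theorem no_RV (P : WPar L y K τ₀ τ₁) {c : Ch T.m} {j : Fin T.d} (hE : Es K c j)
    {p₀ : ℂ × ℂ}
    (h : (p₀ = 0 ∧ ¬ IsV c) ∨ (v1 T c = none ∧ p₀.1 = 0 ∧ ‖p₀.2‖ ≤ S.r c)) :
    ∀ᶠ p in 𝓝 p₀, p ∈ zn S P.τ c → ∀ a, ¬ P.RV (wc S c j p) a := by
  by_contra hcon
  set A : Set (ℂ × ℂ) := {p | p ∈ zn S P.τ c ∧ ∃ a, P.RV (wc S c j p) a} with hA
  have hfr : ∃ᶠ p in 𝓝 p₀, p ∈ A := by
    intro hA'
    refine hcon ?_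
    filter_upwards [hA'] with p hp hz a ha
    exact hp ⟨hz, a, ha⟩
  have hne : (𝓝 p₀ ⊓ 𝓟 A).NeBot := Filter.frequently_mem_iff_neBot.1 hfr
  obtain ⟨𝒰, h𝒰⟩ := Ultrafilter.exists_le (𝓝 p₀ ⊓ 𝓟 A)
  have hU1 : (𝒰 : Filter (ℂ × ℂ)) ≤ 𝓝 p₀ := h𝒰.trans inf_le_left
  have hU2 : A ∈ (𝒰 : Filter (ℂ × ℂ)) := h𝒰 (mem_inf_of_right (mem_principal_self _))
  have hg : ∀ᶠ p in (𝒰 : Filter (ℂ × ℂ)), T.Gen c p := by
    filter_upwards [hU2] with p hp
    exact hp.1.2.2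
  -- the vertex
  have hv : ∃ v ∈ (Vs T : Set Vtx), {p | ∃ q, IsRet U v (wc S c j p) q ∧
      q ∈ Om K P.γ1 P.κ v} ∈ 𝒰 := by
    rw [← Ultrafilter.finite_biUnion_mem_iff (Vs T).finite_toSet]
    refine Filter.mem_of_superset (f := (𝒰 : Filter (ℂ × ℂ))) hU2 ?_
    rintro p ⟨-, a, v, q, hq, hq', -⟩
    exact mem_biUnion v.2 ⟨q, hq, hq'⟩
  obtain ⟨v, hv, hev⟩ := hv
  obtain ⟨d1, d2⟩ := data hE.1.1 h hU1 hg
  have lne : (Filter.map (T.map c) (𝒰 : Filter (ℂ × ℂ))).NeBot := by infer_instance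
  have hKV : KV T (Filter.map (T.map c) (𝒰 : Filter (ℂ × ℂ))) := by
    have hcomp : IsCompact (closedBall (0 : ℂ) P.κ⁻¹ ∩ ⋂ c' ∈ sp T v, {w : ℂ | P.κ ≤ ‖w - c'‖}) := by
      refine (isCompact_closedBall _ _).inter_right ?_
      refine isClosed_biInter fun c' _ => isClosed_le continuous_const ?_
      fun_prop
    obtain ⟨w, hw, hle⟩ := hcomp.ultrafilter_le_nhds (𝒰.map fun p => wv T v (T.map c p)) (by
      rw [le_principal_iff]
      show ∀ᶠ p in (𝒰 : Filter (ℂ × ℂ)), wv T v (T.map c p) ∈ _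
      filter_upwards [show _ ∈ (𝒰 : Filter (ℂ × ℂ)) from hev] with p hp
      obtain ⟨q, hq, hq'⟩ := hp
      have h3 : pV U v q = wv T v (T.map c p) := hq.2.1
      rw [← h3]
      refine ⟨mem_closedBall_zero_iff.2 hq'.1.le, ?_⟩
      rw [mem_iInter₂]
      exact fun c' hc' => (hq'.2.1 c' hc').le)
    refine ⟨v, hv, w, fun hsp => ?_, ?_⟩
    · have h4 := mem_iInter₂.1 hw.2 w hsp
      have h5 : P.κ ≤ ‖w - w‖ := h4
      rw [sub_self, norm_zero] at h5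
      exact absurd h5 (not_le.2 P.κ_pos)
    · rw [tendsto_map'_iff]
      exact hle
  rcases mine hE.1.1 h hU1 hg with ⟨h1, h2⟩ | ⟨-, h2⟩
  · exact KV_OT d1 d2 hKV h1 h2
  · exact KV_KT d1 d2 hKV h2

/-- (2) the value of the edge function is unique -/
theorem uniq_RE (P : WPar L y K τ₀ τ₁) {c : Ch T.m} {j : Fin T.d} (hE : Es K c j)
    {p₀ : ℂ × ℂ}
    (h : (p₀ = 0 ∧ ¬ IsV c) ∨ (v1 T c = none ∧ p₀.1 = 0 ∧ ‖p₀.2‖ ≤ S.r c)) :
    ∀ᶠ p in 𝓝 p₀, p ∈ zn S P.τ c → ∀ b, P.RE (wc S c j p) b → b = EL L y K c j p - P.B := by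
  classical
  by_contra hcon
  set A : Set (ℂ × ℂ) := {p | p ∈ zn S P.τ c ∧ ∃ x : Ch T.m × Fin T.d, ∃ p', x.1 ≠ c ∧
    Es K x.1 x.2 ∧ p' ∈ zn S P.τ x.1 ∧ wc S x.1 x.2 p' = wc S c j p} with hA
  have hfr : ∃ᶠ p in 𝓝 p₀, p ∈ A := by
    intro hA'
    refine hcon ?_
    filter_upwards [hA'] with p hp hz b hb
    obtain ⟨c', j', p', h1, h2, h3, h4⟩ := hb
    by_contra hne
    refine hp ⟨hz, (c', j'), p', ?_, h1, h2, h3⟩
    rintro (rfl : c' = c)
    obtain ⟨g1, g2, g3⟩ := zn_le P hE hz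
    obtain ⟨g1', g2', g3'⟩ := zn_le P h1 h2
    refine hne ?_
    rw [h4, el_val h1.1 ⟨lt_two_r S g1', lt_two_r S g2'⟩ ⟨lt_two_r S g1, lt_two_r S g2⟩ g3' g3 h3]
  have hne : (𝓝 p₀ ⊓ 𝓟 A).NeBot := Filter.frequently_mem_iff_neBot.1 hfr
  obtain ⟨𝒰, h𝒰⟩ := Ultrafilter.exists_le (𝓝 p₀ ⊓ 𝓟 A)
  have hU1 : (𝒰 : Filter (ℂ × ℂ)) ≤ 𝓝 p₀ := h𝒰.trans inf_le_left
  have hU2 : A ∈ (𝒰 : Filter (ℂ × ℂ)) := h𝒰 (mem_inf_of_right (mem_principal_self _))
  have hg : ∀ᶠ p in (𝒰 : Filter (ℂ × ℂ)), T.Gen c p := by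
    filter_upwards [hU2] with p hp
    exact hp.1.2.2
  -- the chart
  have hx : ∃ x ∈ (CS S F) ×ˢ (univ : Set (Fin T.d)), {p | p ∈ zn S P.τ c ∧ ∃ p', x.1 ≠ c ∧
      Es K x.1 x.2 ∧ p' ∈ zn S P.τ x.1 ∧ wc S x.1 x.2 p' = wc S c j p} ∈ 𝒰 := by
    rw [← Ultrafilter.finite_biUnion_mem_iff ((finite_CS F).prod finite_univ)]
    refine Filter.mem_of_superset (f := (𝒰 : Filter (ℂ × ℂ))) hU2 ?_
    rintro p ⟨hz, x, p', h1, h2, h3⟩
    exact mem_biUnion (x := x) ⟨⟨h2.1, fun h => K.mem _ (h2.2 h)⟩, mem_univ _⟩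
      ⟨hz, p', h1, h2, h3⟩
  obtain ⟨⟨c', j'⟩, -, hev⟩ := hx
  let g : ℂ × ℂ → ℂ × ℂ := fun p => if hp : ∃ p', c' ≠ c ∧ Es K c' j' ∧ p' ∈ zn S P.τ c' ∧
    wc S c' j' p' = wc S c j p then hp.choose else 0
  have hgg : ∀ᶠ p in (𝒰 : Filter (ℂ × ℂ)), c' ≠ c ∧ Es K c' j' ∧ g p ∈ zn S P.τ c' ∧
      wc S c' j' (g p) = wc S c j p := by
    filter_upwards [show _ ∈ (𝒰 : Filter (ℂ × ℂ)) from hev] with p hp
    have hp' : ∃ p', c' ≠ c ∧ Es K c' j' ∧ p' ∈ zn S P.τ c' ∧ wc S c' j' p' = wc S c j p := hp.2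
    have e : g p = hp'.choose := dif_pos hp'
    rw [e]
    exact hp'.choose_spec
  obtain ⟨_, hcc, hE', -⟩ := hgg.exists
  obtain ⟨d1, d2⟩ := data hE.1.1 h hU1 hg
  have hmap : Filter.map (T.map c') (𝒰.map g : Filter (ℂ × ℂ)) =
      Filter.map (T.map c) (𝒰 : Filter (ℂ × ℂ)) := by
    show Filter.map (T.map c') (Filter.map g 𝒰) = _
    rw [Filter.map_map]
    refine Filter.map_congr ?_
    filter_upwards [hgg] with p hp
    have h1 := congrFun hp.2.2.2 1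
    have h2 := congrFun hp.2.2.2 2
    exact Prod.ext h1 h2
  have lne : (Filter.map (T.map c) (𝒰 : Filter (ℂ × ℂ))).NeBot := by infer_instance
  have hk := kinds (S := S) hE'.1.1 (𝒰.map g) (by
    show ∀ᶠ p in (𝒰 : Filter (ℂ × ℂ)), _
    filter_upwards [hgg] with p hp
    exact zn_le P hE' hp.2.2.1) (by
    rw [← hmap, tendsto_map'_iff] at d1
    exact d1)
  rw [hmap] at hk
  rcases mine hE.1.1 h hU1 hg with ⟨h1, h2⟩ | ⟨h1, h2⟩
  · rcases hk with k | ⟨k1, k2⟩ | ⟨k1, k2⟩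
    · exact KV_OT d1 d2 k h1 h2
    · exact hcc (Sep_547.eq_of_type hE'.1 hE.1 d1 d2 k2 h2)
    · exact OT_KT d1 d2 h1 h2 k2
  · rcases hk with k | ⟨k1, k2⟩ | ⟨k1, k2⟩
    · exact KV_KT d1 d2 k h2
    · exact OT_KT d1 d2 k1 k2 h2
    · exact hcc (top_unique hE'.1 hE.1 k1 h1)

/-- **the weight at the corners and on the top curve** -/
theorem corner (P : WPar L y K τ₀ τ₁) (_hR : RetStmt U) {c : Ch T.m} {j : Fin T.d} (hE : Es K c j) {p₀ : ℂ × ℂ}
    (h : (p₀ = 0 ∧ ¬ IsV c) ∨ (v1 T c = none ∧ p₀.1 = 0 ∧ ‖p₀.2‖ ≤ S.r c)) :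
    ∀ᶠ p in 𝓝 p₀, p ∈ zn S P.τ c → P.Φ (wc S c j p) = EL L y K c j p - P.B := by
  filter_upwards [no_RV P hE h, uniq_RE P hE h] with p h1 h2 hz
  exact WPar.Φ_E ⟨c, j, p, hE, hz, rfl, rfl⟩ (h2 hz) fun a ha => absurd ha (h1 hz a)

end Crest.Agent.R257.Cor_547
end
end

-- ▼ part R257/Cor2_547
section

/-!
Row 257 (S0395), C-WT, leaf F3 (helper547): the local estimates at the corners and on the top curve
(`loc_corner`).
-/

set_option autoImplicit false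
set_option linter.unusedSectionVars false

open Polynomial Set Filter Topology Metric
open Crest.AlgGeometry.Germ Crest.Agent.R257.AJ387 Crest.Agent.R257.T387
open Crest.Agent.R257.Gr1_157 Crest.Agent.R257.HoB_843 Crest.Agent.R257.BP_258
open Crest.Agent.R257.Frm_547 Crest.Agent.R257.Lab_931 Crest.Agent.R257.Wt_258

noncomputable section

namespace Crest.Agent.R257.Cor_547

variable {f : (Fin 3 → ℂ) → ℂ} {T : TB f} {U : Tub T} {S : Sh T}
variable {L : Lab U S} [Fintype (II U)] {y : II U → ℝ} {F : Finset (Ch T.m)} {K : DKill S F}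
  {τ₀ τ₁ : ℝ}

lemma isOpen_gen (c : Ch T.m) : IsOpen {p : ℂ × ℂ | T.Gen c p} := by
  have h1 : IsOpen {p : ℂ × ℂ | p.1 ≠ 0} := isOpen_ne_fun continuous_fst continuous_const
  have h2 : IsOpen {p : ℂ × ℂ | p.2 ≠ 0} := isOpen_ne_fun continuous_snd continuous_const
  cases c with
  | edge i k k' => exact h1.inter h2
  | leg i => exact h1.inter h2
  | vert i k w => exact h1

lemma isOpen_zn (τ : ℝ) (c : Ch T.m) : IsOpen (zn S τ c) := by
  have h1 : IsOpen {p : ℂ × ℂ | ‖p.1‖ < ta S τ c} :=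
    isOpen_lt continuous_fst.norm continuous_const
  have h2 : IsOpen {p : ℂ × ℂ | ‖p.2‖ < tb S τ c} :=
    isOpen_lt continuous_snd.norm continuous_const
  exact h1.inter (h2.inter (isOpen_gen c))

lemma s_cd (c : Ch T.m) (p : ℂ × ℂ) :
    ContDiffAt ℂ (⊤ : ℕ∞) (fun p : ℂ × ℂ => (T.map c p).1) p := by
  cases c with
  | edge i k k' => exact contDiffAt_fst.mul contDiffAt_snd
  | leg i => exact contDiffAt_fst
  | vert i k w => exact contDiffAt_fst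

lemma s_le (c : Ch T.m) {p : ℂ × ℂ} (h1 : ‖p.1‖ ≤ 1) (h2 : ‖p.2‖ ≤ 1) :
    ‖(T.map c p).1‖ ^ 2 ≤ 1 := by
  refine pow_le_one₀ (norm_nonneg _) ?_
  cases c with
  | edge i k k' =>
    show ‖p.1 * p.2‖ ≤ 1
    rw [norm_mul]
    exact mul_le_one₀ h1 (norm_nonneg _) h2
  | leg i => exact h1
  | vert i k w => exact h1

/-- `Ψ` where `Φ` is the edge function -/
lemma psi_sm (P : WPar L y K τ₀ τ₁) {c : Ch T.m} (hc : Ok S c) {j : Fin T.d} {p : ℂ × ℂ}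
    (hg : T.Gen c p) (h : ∀ᶠ p' in 𝓝 p, P.Φ (wc S c j p') = EL L y K c j p' - P.B) :
    ContDiffAt ℝ (⊤ : ℕ∞) (P.Ψ ∘ wc S c j) p ∧ ∀ w, 0 ≤ lvE (P.Ψ ∘ wc S c j) p w := by
  have two : (2 : WithTop ℕ∞) ≤ ((⊤ : ℕ∞) : WithTop ℕ∞) := by norm_cast
  have e : (P.Ψ ∘ wc S c j) =ᶠ[𝓝 p] fun p' => (EL L y K c j p' + -P.B) + ‖(T.map c p').1‖ ^ 2 := by
    filter_upwards [h] with p' hp'
    show P.Φ (wc S c j p') + ‖wc S c j p' 1‖ ^ 2 = _
    rw [hp']
    rfl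
  obtain ⟨a1, b1⟩ := EL_sm L y K hc j hg
  have a2 : ContDiffAt ℝ (⊤ : ℕ∞) (fun p' : ℂ × ℂ => EL L y K c j p' + -P.B) p :=
    a1.add contDiffAt_const
  have a3 : ContDiffAt ℝ (⊤ : ℕ∞) (fun p' : ℂ × ℂ => ‖(T.map c p').1‖ ^ 2) p := by
    have h1 : ContDiffAt ℝ (⊤ : ℕ∞) (fun p : ℂ × ℂ => (T.map c p).1) p :=
      (s_cd c p).restrict_scalars ℝ
    exact (contDiff_norm_sq ℝ).contDiffAt.comp p h1
  refine ⟨(a2.add a3).congr_of_eventuallyEq e, fun w => ?_⟩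
  rw [lvE_congr e, lvE_add (a2.of_le two) (a3.of_le two), lvE_add (a1.of_le two) contDiffAt_const,
    lvE_const, lvE_normSq ((s_cd c p).of_le two)]
  have := b1 w
  positivity

/-- **(F3)** the local estimates at the corners and on the top curve -/
theorem loc_corner (P : WPar L y K τ₀ τ₁) (hR : RetStmt U) (hτ : 0 < τ₀) {c : Ch T.m} (hc : c ∈ F)
    (j : Fin T.d) {p₀ : ℂ × ℂ}
    (h : (p₀ = 0 ∧ ¬ IsV c) ∨ (v1 T c = none ∧ p₀.1 = 0 ∧ ‖p₀.2‖ ≤ S.r c)) : LocS P c j p₀ := by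
  have hok : Ok S c := P.hF c hc
  have hV : ¬ IsV c := by
    rcases h with ⟨-, h⟩ | ⟨h, -⟩
    · exact h
    · obtain ⟨i, k', rfl⟩ := v1_none h
      exact id
  have hE : Es K c j := ⟨hok, fun h => absurd h hV⟩
  have h10 : p₀.1 = 0 := (fst_zero h).1
  have hr := S.pos c
  have htt := mul_nonneg (tt_nn K c j) (Real.log_nonneg (show (1 : ℝ) ≤ 2 by norm_num))
  have hB1 := le_abs_self P.B
  have hB2 := neg_le_abs P.B
  refine ⟨tt K c j * Real.log 2 + |P.B| + 1, 1, one_pos, ?_⟩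
  -- near `p₀`
  have n1 : ∀ ε > 0, ∀ᶠ p : ℂ × ℂ in 𝓝 p₀, ‖p.1‖ < ε := by
    intro ε hε
    have h1 : Tendsto (fun p : ℂ × ℂ => ‖p.1‖) (𝓝 p₀) (𝓝 ‖p₀.1‖) :=
      continuous_fst.norm.tendsto p₀
    rw [h10, norm_zero] at h1
    exact h1.eventually (gt_mem_nhds hε)
  have n2 : ∀ ε > 0, v1 T c ≠ none → ∀ᶠ p : ℂ × ℂ in 𝓝 p₀, ‖p.2‖ < ε := by
    intro ε hε hv
    have h20 : p₀.2 = 0 := by
      rcases h with ⟨h, -⟩ | ⟨h, -⟩
      · rw [h]; rfl
      · exact absurd h hv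
    have h1 : Tendsto (fun p : ℂ × ℂ => ‖p.2‖) (𝓝 p₀) (𝓝 ‖p₀.2‖) :=
      continuous_snd.norm.tendsto p₀
    rw [h20, norm_zero] at h1
    exact h1.eventually (gt_mem_nhds hε)
  have m1 : ∀ᶠ p : ℂ × ℂ in 𝓝 p₀, ‖p.1‖ < ta S P.τ c := by
    refine n1 _ ?_
    unfold ta
    split_ifs
    · exact hr
    · exact P.τ_pos
  have m2 : ∀ᶠ p : ℂ × ℂ in 𝓝 p₀, ‖p.2‖ < S.r c → ‖p.2‖ < tb S P.τ c := by
    unfold tb
    split_ifs with hv
    · exact Eventually.of_forall fun p hp => hp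
    · exact (n2 _ P.τ_pos hv).mono fun p hp _ => hp
  have m3 : ∀ᶠ p : ℂ × ℂ in 𝓝 p₀, L.e1 c j ≠ none → ‖p.2‖ < τ₀ := by
    by_cases hv : v1 T c = none
    · exact Eventually.of_forall fun p hp => absurd (FrmF_547.e1_none L hok j hv) hp
    · exact (n2 _ hτ hv).mono fun p hp _ => hp
  filter_upwards [(corner P hR hE h).eventually_nhds, m1, m2, m3, n1 τ₀ hτ]
    with p h1 h2 h3 h4 h5 hr1 hr2 hg
  have hz : p ∈ zn S P.τ c := ⟨h2, h3 hr2, hg⟩
  have hev : ∀ᶠ p' in 𝓝 p, P.Φ (wc S c j p') = EL L y K c j p' - P.B := by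
    filter_upwards [h1, (isOpen_zn P.τ c).mem_nhds hz] with p' hp' hz'
    exact hp' hz'
  have hval : P.Ψ (wc S c j p) = EL L y K c j p - P.B + ‖(T.map c p).1‖ ^ 2 := by
    show P.Φ (wc S c j p) + ‖wc S c j p 1‖ ^ 2 = _
    rw [hev.self_of_nhds]
    rfl
  have hp1 : ‖p.1‖ ≤ 1 := by have := S.le c; linarith
  have hp2 : ‖p.2‖ ≤ 1 := by have := S.le c; linarith
  have hs1 := s_le c hp1 hp2
  have hs0 : 0 ≤ ‖(T.map c p).1‖ ^ 2 := by positivity
  obtain ⟨a1, a2⟩ := psi_sm P hok hg hev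
  refine ⟨a1, a2, ?_, ?_, ?_, ?_, ?_, ?_, ?_⟩
  · have h6 := EL_le L y K c j hp1 hp2
    rw [hval]
    linarith
  · intro hκ
    have h6 : tt K c j = 0 := if_neg (by rw [hκ]; exact fun h => h)
    rw [hval]
    unfold EL
    rw [h6, zero_mul, zero_mul]
    linarith
  · intro hκ _ _
    have h6 : tt K c j = K.t (c, j) := if_pos hκ
    rw [hval, abs_le]
    unfold EL
    rw [h6] at htt ⊢
    constructor <;> linarith
  · rintro - he (hv | hv)
    · exact absurd hv hV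
    · exact absurd (h4 he) (not_lt.2 hv)
  · rintro - - hv
    exact absurd h5 (not_lt.2 hv)
  · rintro - - - he hv
    exact absurd (h4 he) (not_lt.2 hv)
  · rintro - - - - hv
    exact absurd h5 (not_lt.2 hv)

end Crest.Agent.R257.Cor_547
end
end

-- ▼ part R257/WtZ0_258

/-!
Row 257 (S0395), C-WT (helper258): last assembly, from the parameters and the two transfer theorems.
-/

set_option autoImplicit false
set_option linter.unusedSectionVars false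
set_option linter.unusedVariables false

open Polynomial Set Filter Topology Metric
open Crest.AlgGeometry.Germ Crest.Agent.R257.AJ387 Crest.Agent.R257.T387
open Crest.Agent.R257.Gr1_157 Crest.Agent.R257.HoB_843 Crest.Agent.R257.BP_258
open Crest.Agent.R257.Frm_547 Crest.Agent.R257.Lab_931

noncomputable section

namespace Crest.Agent.R257.Wt_258

variable {f : (Fin 3 → ℂ) → ℂ} {T : TB f} {U : Tub T} {S : Sh T}

/-- **the weights exist**, from the three leaves -/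
theorem wtd_of (L : Lab U S) [Fintype (II U)]
    (hP : ∀ (y : II U → ℝ) (F : Finset (Ch T.m)) (K : DKill S F), (∀ c ∈ F, Ok S c) →
      (∀ E, DSup L y K E) → ∃ τ₁ > 0, Unk K τ₁ ∧ ∀ τ₀ > 0, τ₀ < τ₁ → Nonempty (WPar L y K τ₀ τ₁))
    (h1 : ∀ {y : II U → ℝ} {F : Finset (Ch T.m)} {K : DKill S F} {τ₀ τ₁ : ℝ}
      (P : WPar L y K τ₀ τ₁), 0 < τ₀ → Unk K τ₁ → ∀ {c}, c ∈ F → ∀ (j : Fin T.d) {v : Vtx},
      v1 T c = some v → ∀ {b : ℂ}, ‖b‖ ≤ S.r c → (IsV c ∨ b ≠ 0) → LocS P c j (0, b))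
    (h2 : ∀ {y : II U → ℝ} {F : Finset (Ch T.m)} {K : DKill S F} {τ₀ τ₁ : ℝ}
      (P : WPar L y K τ₀ τ₁), 0 < τ₀ → Unk K τ₁ → ∀ {c}, c ∈ F → ∀ (j : Fin T.d) {v : Vtx},
      v2 T c = some v → ∀ {a : ℂ}, ‖a‖ ≤ S.r c → a ≠ 0 → LocS P c j (a, 0)) : WTDStmt L := by
  refine WtAs_82.assemble L hP (WtAs_82.y_nn L) ?_
  intro y F K τ₀ τ₁ hτ hττ hu P c hc j p₀ hp1 hp2 hs
  have hOk := P.hF c hc
  have hR := Tb_941.retStmt U
  obtain ⟨a, b⟩ := p₀
  cases c with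
  | edge i k k' =>
    have hs' : a * b = 0 := hs
    by_cases ha : a = 0
    · subst ha
      by_cases hb : b = 0
      · subst hb
        exact Cor_547.loc_corner P hR hτ hc j (Or.inl ⟨rfl, by simp [IsV]⟩)
      · by_cases hk : k = 0
        · exact Cor_547.loc_corner P hR hτ hc j (Or.inr ⟨by simp [v1, hk], rfl, hp2⟩)
        · exact h1 P hτ hu hc j (v := vx T i k) (by simp [v1, hk]) hp2 (Or.inr hb)
    · have hb : b = 0 := (mul_eq_zero.1 hs').resolve_left ha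
      subst hb
      exact h2 P hτ hu hc j (v := vx T i k') rfl hp1 ha
  | leg i =>
    have ha : a = 0 := hs
    subst ha
    by_cases hb : b = 0
    · subst hb
      exact Cor_547.loc_corner P hR hτ hc j (Or.inl ⟨rfl, by simp [IsV]⟩)
    · exact h1 P hτ hu hc j (v := vx T i (T.top i)) rfl hp2 (Or.inr hb)
  | vert i k w₀ =>
    have ha : a = 0 := hs
    subst ha
    exact h1 P hτ hu hc j (v := vx T i k) rfl hp2 (Or.inl trivial)

end Crest.Agent.R257.Wt_258
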