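import Mathlib
import Crest.Agent.R257.Par1_258
import Crest.Agent.R257.EndB_636
import Crest.Agent.R257.Wt4_258
import Crest.Agent.R257.Vt2_558
import Crest.Agent.R257.V1_82
import Crest.Agent.R257.Wt7_258
import Crest.Agent.R257.V2_808
import Crest.Agent.R257.Ta2_980
import Crest.Agent.R257.Hv4_174
import Crest.Agent.R257.RSD_176
import Crest.Agent.R257.RSA4_844
import Crest.Agent.R257.Wt0_258
import Crest.Agent.R257.RSE_176
import Crest.Agent.R257.Cpt2_419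
import Crest.Agent.R257.HvS_636
import Crest.Agent.R257.WtZ0_258
import Crest.Agent.R257.LWD_547

-- ▼ part R257/Par2_258
section

/-!
Row 257 (S0395), C-WT (helper258): existence of the parameters.
-/

set_option autoImplicit false
set_option linter.unusedSectionVars false
set_option linter.unusedVariables false

open Polynomial Set Filter Topology Metric
open Crest.AlgGeometry.Germ Crest.Agent.R257.AJ387 Crest.Agent.R257.T387
open Crest.Agent.R257.Gr1_157 Crest.Agent.R257.HoB_843 Crest.Agent.R257.BP_258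
open Crest.Agent.R257.Frm_547 Crest.Agent.R257.Lab_931

noncomputable section

namespace Crest.Agent.R257.Wt_258

variable {f : (Fin 3 → ℂ) → ℂ} {T : TB f} {U : Tub T} {S : Sh T}
variable {F : Finset (Ch T.m)} {K : DKill S F}

lemma notsp1 {c : Ch T.m} (hc : Ok S c) {v : Vtx} (hv : v1 T c = some v) {b : ℂ}
    (hb : ‖b‖ ≤ S.r c) (h0 : IsV c ∨ b ≠ 0) : cx T c + b ^ lx T c ∉ sp T v := by
  have h := W1_zero S hc.1 hv hb h0
  rwa [End_636.W1_axis hc] at h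

lemma notsp2 {c : Ch T.m} (hc : Ok S c) {v : Vtx} (hv : v2 T c = some v) {a : ℂ}
    (ha : ‖a‖ ≤ S.r c) (h0 : a ≠ 0) : (a ^ lx T c)⁻¹ ∉ sp T v := by
  have h := W2_zero S hc.1 hv ha h0
  rwa [End_636.W2_axis hc hv] at h

/-- different attached charts have different centres -/
lemma cx_ne {c c' : Ch T.m} {j j' : Fin T.d} (hE : Es K c j) (hE' : Es K c' j') {v : Vtx}
    (hv : v1 T c = some v) (hv' : v1 T c' = some v) (h : cx T c = cx T c') : c = c' := by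
  by_cases hV : IsV c
  · by_cases hV' : IsV c'
    · exact Hv_174.vert_unique hE.1 hE'.1 hV hV' hv hv' h
    · exact absurd (h ▸ Hv_174.cx_mem hV' hv') (Hv_174.vert_eq hE.1 hV hv).2.2.1
  · by_cases hV' : IsV c'
    · exact absurd (h ▸ Hv_174.cx_mem hV hv) (Hv_174.vert_eq hE'.1 hV' hv').2.2.1
    · exact Hv_174.att_unique hE.1 hE'.1 hV hV' hv hv' h

/-- finitely many kills -/
lemma ev_kill {α : Type*} {l : Filter α} {A : Ch T.m → Fin T.d → α → Prop}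
    (h : ∀ c j, (c, j) ∈ K.κ → ∀ᶠ a in l, A c j a) :
    ∀ᶠ a in l, ∀ c j, (c, j) ∈ K.κ → A c j a := by
  have h1 : ∀ᶠ a in l, ∀ c ∈ F, ∀ j, (c, j) ∈ K.κ → A c j a := by
    rw [Filter.eventually_all_finset]
    intro c _
    rw [eventually_all]
    intro j
    by_cases hE : (c, j) ∈ K.κ
    · exact (h c j hE).mono fun a ha _ => ha
    · exact Eventually.of_forall fun a hE' => absurd hE' hE
  filter_upwards [h1] with a ha c j hE
  exact ha c (K.mem _ hE) j hE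

/-- **the radius `τ₁`** -/
theorem exists_unk (hF : ∀ c ∈ F, Ok S c) : ∃ τ₁ > 0, Unk K τ₁ := by
  have hok : ∀ {c j}, (c, j) ∈ K.κ → Ok S c := fun h => hF _ (K.mem _ h)
  have u1 : ∀ᶠ τ in 𝓝[>] (0 : ℝ), ∀ c j, (c, j) ∈ K.κ → ∀ v, v1 T c = some v →
      ∀ c' j', (c', j') ∈ K.κ → IsV c' → v1 T c' = some v → ∀ b : ℂ, b ≠ 0 → ‖b‖ ≤ τ →
      cx T c + b ^ lx T c ≠ cx T c' := by
    refine ev_kill fun c j hk => ev_some fun v hv => ev_kill fun c' j' hk' => ?_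
    have hl := Hv_174.lx_pos (hok hk).1
    by_cases hx : cx T c = cx T c'
    · refine Eventually.of_forall fun τ _ _ b hb _ he => ?_
      rw [hx] at he
      exact pow_ne_zero _ hb (add_eq_left.1 he)
    · filter_upwards [d1c hx hl] with τ hτ _ _ b _ hb
      exact hτ b hb
  have u2 : ∀ᶠ τ in 𝓝[>] (0 : ℝ), ∀ c j, (c, j) ∈ K.κ → ∀ v, v2 T c = some v →
      ∀ c' j', (c', j') ∈ K.κ → IsV c' → v1 T c' = some v → ∀ a : ℂ, a ≠ 0 → ‖a‖ ≤ τ →
      (a ^ lx T c)⁻¹ ≠ cx T c' := by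
    refine ev_kill fun c j hk => ev_some fun v hv => ev_kill fun c' j' hk' => ?_
    filter_upwards [d2c (cx T c') (Hv_174.lx_pos (hok hk).1)] with τ hτ _ _ a ha0 ha
    exact hτ a ha0 ha
  obtain ⟨τ, h1, h2, h3⟩ := (u1.and (u2.and self_mem_nhdsWithin)).exists
  exact ⟨τ, h3, fun c j hk v hv b hb hb' c' j' hk' hV' hv' =>
    h1 c j hk v hv c' j' hk' hV' hv' b hb hb', fun c j hk v hv a ha ha' c' j' hk' hV' hv' =>
    h2 c j hk v hv c' j' hk' hV' hv' a ha ha'⟩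

/-- compactness of the strict regions -/
lemma cptK {A : ℂ → Prop} {r : ℝ} (hA : IsClosed {b | A b}) : IsCompact {b : ℂ | ‖b‖ ≤ r ∧ A b} := by
  have h1 : {b : ℂ | ‖b‖ ≤ r ∧ A b} = closedBall (0 : ℂ) r ∩ {b | A b} := by
    ext b
    simp
  rw [h1]
  exact (isCompact_closedBall _ _).inter_right hA

/-- **the radius `τ`** -/
theorem exists_tau (hF : ∀ c ∈ F, Ok S c) {τ₁ : ℝ} (hu : Unk K τ₁) {τ₀ : ℝ} (hτ₀ : 0 < τ₀)
    {τH : ℝ} (hτH : 0 < τH) :
    ∃ τ, 0 < τ ∧ τ < 1 ∧ τ < τ₀ ∧ τ < τH ∧ (∀ c j, Es K c j → τ < S.r c) ∧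
    (∀ c c' j j', Es K c j → Es K c' j' → ∀ v, v1 T c = some v → v1 T c' = some v →
      ∀ b b' : ℂ, ‖b‖ ≤ τ → ‖b'‖ ≤ τ → cx T c + b ^ lx T c = cx T c' + b' ^ lx T c' → c = c') ∧
    (∀ c c' j j', Es K c j → Es K c' j' → ∀ v, v1 T c = some v → v2 T c' = some v →
      ∀ b a : ℂ, ‖b‖ ≤ τ → a ≠ 0 → ‖a‖ ≤ τ → cx T c + b ^ lx T c ≠ (a ^ lx T c')⁻¹) ∧
    (∀ c j, Es K c j → ∀ v, v1 T c = some v → ∀ b : ℂ, ‖b‖ ≤ τ →
      ∀ c' ∈ sp T v, c' ≠ cx T c → cx T c + b ^ lx T c ≠ c') ∧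
    (∀ c j, Es K c j → ∀ v, v2 T c = some v → ∀ a : ℂ, a ≠ 0 → ‖a‖ ≤ τ →
      ∀ c' ∈ sp T v, 1 < ‖(a ^ lx T c)⁻¹ - c'‖) ∧
    (∀ c ∈ F, ∀ j v, v1 T c = some v → ∀ b : ℂ, ‖b‖ ≤ S.r c →
      ((K.κ = ∅ ∧ (IsV c ∨ τ₀ ≤ ‖b‖)) ∨ ((c, j) ∈ K.κ ∧ τ₀ ≤ ‖b‖ ∧ ‖b‖ ≤ τ₁)) →
      (∀ c' j', Es K c' j' → v1 T c' = some v → ∀ b' : ℂ, ‖b'‖ ≤ τ →
        cx T c + b ^ lx T c ≠ cx T c' + b' ^ lx T c') ∧
      (∀ c' j', Es K c' j' → v2 T c' = some v → ∀ a : ℂ, a ≠ 0 → ‖a‖ ≤ τ →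
        cx T c + b ^ lx T c ≠ (a ^ lx T c')⁻¹)) ∧
    (∀ c ∈ F, ∀ j v, v2 T c = some v → ∀ a : ℂ, ‖a‖ ≤ S.r c → τ₀ ≤ ‖a‖ →
      (K.κ = ∅ ∨ ((c, j) ∈ K.κ ∧ ‖a‖ ≤ τ₁)) →
      (∀ c' j', Es K c' j' → v1 T c' = some v → ∀ b' : ℂ, ‖b'‖ ≤ τ →
        (a ^ lx T c)⁻¹ ≠ cx T c' + b' ^ lx T c') ∧
      (∀ c' j', Es K c' j' → v2 T c' = some v → ∀ a' : ℂ, a' ≠ 0 → ‖a'‖ ≤ τ →
        (a ^ lx T c)⁻¹ ≠ (a' ^ lx T c')⁻¹)) := by
  have hlp : ∀ {c j}, Es K c j → 0 < lx T c := fun h => Hv_174.lx_pos h.1.1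
  have e1 : ∀ᶠ τ in 𝓝[>] (0 : ℝ), ∀ c j, Es K c j → τ < S.r c :=
    ev_Es hF fun c j _ => ev_small _ (S.pos c)
  have e2 : ∀ᶠ τ in 𝓝[>] (0 : ℝ), ∀ c j, Es K c j → ∀ c' j', Es K c' j' → ∀ v, v1 T c = some v →
      v1 T c' = some v → ∀ b b' : ℂ, ‖b‖ ≤ τ → ‖b'‖ ≤ τ →
      cx T c + b ^ lx T c = cx T c' + b' ^ lx T c' → c = c' := by
    refine ev_Es hF fun c j hE => ev_Es hF fun c' j' hE' => ev_some fun v hv => ?_
    by_cases hcc : c = c'
    · exact Eventually.of_forall fun τ _ b b' _ _ _ => hcc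
    by_cases hv' : v1 T c' = some v
    · have hx : cx T c ≠ cx T c' := fun h => hcc (cx_ne hE hE' hv hv' h)
      filter_upwards [d11 hx (hlp hE) (hlp hE')] with τ hτ _ b b' hb hb' he
      exact absurd he (hτ b b' hb hb')
    · exact Eventually.of_forall fun τ h => absurd h hv'
  have e3 : ∀ᶠ τ in 𝓝[>] (0 : ℝ), ∀ c j, Es K c j → ∀ c' j', Es K c' j' →
      ∀ b a : ℂ, ‖b‖ ≤ τ → ‖a‖ ≤ τ → a ≠ 0 → cx T c + b ^ lx T c ≠ (a ^ lx T c')⁻¹ :=
    ev_Es hF fun c j hE => ev_Es hF fun c' j' hE' => d12 (cx T c) (hlp hE')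
  have e4 : ∀ᶠ τ in 𝓝[>] (0 : ℝ), ∀ c j, Es K c j → ∀ v, v1 T c = some v →
      ∀ c' ∈ sp T v, c' ≠ cx T c → ∀ b : ℂ, ‖b‖ ≤ τ → cx T c + b ^ lx T c ≠ c' := by
    refine ev_Es hF fun c j hE => ev_some fun v hv => ?_
    rw [Filter.eventually_all_finset]
    intro c' hc'
    by_cases hx : c' = cx T c
    · exact Eventually.of_forall fun τ h => absurd hx h
    · filter_upwards [d1c (Ne.symm hx) (hlp hE)] with τ hτ _ b hb
      exact hτ b hb
  have e5 : ∀ᶠ τ in 𝓝[>] (0 : ℝ), ∀ c j, Es K c j → ∀ v, v2 T c = some v →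
      ∀ c' ∈ sp T v, ∀ a : ℂ, a ≠ 0 → ‖a‖ ≤ τ → 1 < ‖(a ^ lx T c)⁻¹ - c'‖ := by
    refine ev_Es hF fun c j hE => ev_some fun v hv => ?_
    rw [Filter.eventually_all_finset]
    intro c' hc'
    exact d2far c' (hlp hE)
  -- strict regions
  set R1 : Ch T.m → Fin T.d → ℂ → Prop := fun c j b =>
    (K.κ = ∅ ∧ (IsV c ∨ τ₀ ≤ ‖b‖)) ∨ ((c, j) ∈ K.κ ∧ τ₀ ≤ ‖b‖ ∧ ‖b‖ ≤ τ₁) with hR1
  have cl1 : ∀ c j, IsClosed {b | R1 c j b} := by
    intro c j
    have g1 : IsClosed {b : ℂ | τ₀ ≤ ‖b‖} := isClosed_le continuous_const continuous_norm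
    have g2 : IsClosed {b : ℂ | ‖b‖ ≤ τ₁} := isClosed_le continuous_norm continuous_const
    have c1 : ∀ A : Prop, IsClosed {_b : ℂ | A} := fun A => isClosed_const
    exact ((c1 (K.κ = ∅)).inter ((c1 (IsV c)).union g1)).union
      ((c1 ((c, j) ∈ K.κ)).inter (g1.inter g2))
  have R1_ne : ∀ {c j b}, R1 c j b → IsV c ∧ K.κ = ∅ ∨ b ≠ 0 := by
    intro c j b h
    rcases h with ⟨h1, h2 | h2⟩ | ⟨-, h2, -⟩
    · exact Or.inl ⟨h2, h1⟩
    · exact Or.inr (norm_pos_iff.1 (lt_of_lt_of_le hτ₀ h2))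
    · exact Or.inr (norm_pos_iff.1 (lt_of_lt_of_le hτ₀ h2))
  have e6 : ∀ᶠ τ in 𝓝[>] (0 : ℝ), ∀ c ∈ F, ∀ j v, v1 T c = some v → ∀ c' j', Es K c' j' →
      v1 T c' = some v → ∀ b ∈ {b : ℂ | ‖b‖ ≤ S.r c ∧ R1 c j b}, ∀ b' : ℂ, ‖b'‖ ≤ τ →
      cx T c + b ^ lx T c ≠ cx T c' + b' ^ lx T c' := by
    rw [Filter.eventually_all_finset]
    intro c hc
    rw [eventually_all]
    intro j
    refine ev_some fun v hv => ev_Es hF fun c' j' hE' => ?_
    by_cases hv' : v1 T c' = some v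
    · have hOk := hF c hc
      have hx : ∀ b ∈ {b : ℂ | ‖b‖ ≤ S.r c ∧ R1 c j b}, cx T c + b ^ lx T c ≠ cx T c' := by
        rintro b ⟨hb, hb2⟩ he
        have h0 := R1_ne hb2
        by_cases hV' : IsV c'
        · have hk' := hE'.2 hV'
          rcases hb2 with ⟨h1, -⟩ | ⟨h1, h2, h3⟩
          · rw [h1] at hk'
            exact hk'
          · exact hu.unk1 c j h1 v hv b (h0.resolve_left fun h => by
              rw [h.2] at hk'; exact hk') h3 c' j' hk' hV' hv' he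
        · have h4 := Hv_174.cx_mem hV' hv'
          rw [← he] at h4
          exact notsp1 hOk hv hb (h0.imp (fun h => h.1) id) h4
      filter_upwards [dK1 (cptK (cl1 c j)) (g := fun b => cx T c + b ^ lx T c)
        (by fun_prop) hx (hlp hE')] with τ hτ _ b hb b' hb'
      exact hτ b hb b' hb'
    · exact Eventually.of_forall fun τ h => absurd h hv'
  have e7 : ∀ᶠ τ in 𝓝[>] (0 : ℝ), ∀ c ∈ F, ∀ j, ∀ c' j', Es K c' j' →
      ∀ b ∈ {b : ℂ | ‖b‖ ≤ S.r c ∧ R1 c j b}, ∀ a : ℂ, a ≠ 0 → ‖a‖ ≤ τ →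
      cx T c + b ^ lx T c ≠ (a ^ lx T c')⁻¹ := by
    rw [Filter.eventually_all_finset]
    intro c hc
    rw [eventually_all]
    intro j
    refine ev_Es hF fun c' j' hE' => ?_
    exact dK2 (cptK (cl1 c j)) (g := fun b => cx T c + b ^ lx T c) (by fun_prop) (hlp hE')
  set R2 : Ch T.m → Fin T.d → ℂ → Prop := fun c j a =>
    τ₀ ≤ ‖a‖ ∧ (K.κ = ∅ ∨ ((c, j) ∈ K.κ ∧ ‖a‖ ≤ τ₁)) with hR2
  have cl2 : ∀ c j, IsClosed {b | R2 c j b} := by
    intro c j
    have g1 : IsClosed {b : ℂ | τ₀ ≤ ‖b‖} := isClosed_le continuous_const continuous_norm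
    have g2 : IsClosed {b : ℂ | ‖b‖ ≤ τ₁} := isClosed_le continuous_norm continuous_const
    have c1 : ∀ A : Prop, IsClosed {_b : ℂ | A} := fun A => isClosed_const
    exact g1.inter ((c1 (K.κ = ∅)).union ((c1 ((c, j) ∈ K.κ)).inter g2))
  have R2_ne : ∀ {c j a}, R2 c j a → a ≠ 0 := fun h =>
    norm_pos_iff.1 (lt_of_lt_of_le hτ₀ h.1)
  have ct2 : ∀ c j, ContinuousOn (fun a : ℂ => (a ^ lx T c)⁻¹)
      {b : ℂ | ‖b‖ ≤ S.r c ∧ R2 c j b} := fun c j =>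
    (continuous_pow _).continuousOn.inv₀ fun a ha => pow_ne_zero _ (R2_ne ha.2)
  have e8 : ∀ᶠ τ in 𝓝[>] (0 : ℝ), ∀ c ∈ F, ∀ j v, v2 T c = some v → ∀ c' j', Es K c' j' →
      v1 T c' = some v → ∀ a ∈ {b : ℂ | ‖b‖ ≤ S.r c ∧ R2 c j b}, ∀ b' : ℂ, ‖b'‖ ≤ τ →
      (a ^ lx T c)⁻¹ ≠ cx T c' + b' ^ lx T c' := by
    rw [Filter.eventually_all_finset]
    intro c hc
    rw [eventually_all]
    intro j
    refine ev_some fun v hv => ev_Es hF fun c' j' hE' => ?_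
    by_cases hv' : v1 T c' = some v
    · have hOk := hF c hc
      have hx : ∀ a ∈ {b : ℂ | ‖b‖ ≤ S.r c ∧ R2 c j b}, (a ^ lx T c)⁻¹ ≠ cx T c' := by
        rintro a ⟨hb, hb2⟩ he
        have h0 := R2_ne hb2
        by_cases hV' : IsV c'
        · have hk' := hE'.2 hV'
          rcases hb2.2 with h1 | ⟨h1, h3⟩
          · rw [h1] at hk'
            exact hk'
          · exact hu.unk2 c j h1 v hv a h0 h3 c' j' hk' hV' hv' he
        · have h4 := Hv_174.cx_mem hV' hv'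
          rw [← he] at h4
          exact notsp2 hOk hv hb h0 h4
      filter_upwards [dK1 (cptK (cl2 c j)) (ct2 c j) hx (hlp hE')] with τ hτ _ b hb b' hb'
      exact hτ b hb b' hb'
    · exact Eventually.of_forall fun τ h => absurd h hv'
  have e9 : ∀ᶠ τ in 𝓝[>] (0 : ℝ), ∀ c ∈ F, ∀ j, ∀ c' j', Es K c' j' →
      ∀ b ∈ {b : ℂ | ‖b‖ ≤ S.r c ∧ R2 c j b}, ∀ a : ℂ, a ≠ 0 → ‖a‖ ≤ τ →
      (b ^ lx T c)⁻¹ ≠ (a ^ lx T c')⁻¹ := by
    rw [Filter.eventually_all_finset]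
    intro c hc
    rw [eventually_all]
    intro j
    refine ev_Es hF fun c' j' hE' => ?_
    exact dK2 (cptK (cl2 c j)) (ct2 c j) (hlp hE')
  obtain ⟨τ, h0, h1, h2, h3, h4, h5, h6, h7, h8, h9, h10, h11, h12⟩ := ((show ∀ᶠ τ in 𝓝[>] (0 : ℝ), 0 < τ
    from self_mem_nhdsWithin).and ((ev_small 1 one_pos).and ((ev_small τ₀ hτ₀).and
    ((ev_small τH hτH).and (e1.and (e2.and (e3.and (e4.and (e5.and (e6.and (e7.and
    (e8.and e9)))))))))))).exists
  refine ⟨τ, h0, h1, h2, h3, h4, ?_, ?_, ?_, ?_, ?_, ?_⟩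
  · exact fun c c' j j' hE hE' v hv hv' b b' hb hb' he => h5 c j hE c' j' hE' v hv hv' b b' hb hb' he
  · exact fun c c' j j' hE hE' v _ _ b a hb h0 ha => h6 c j hE c' j' hE' b a hb ha h0
  · exact fun c j hE v hv b hb c' hc' hne => h7 c j hE v hv c' hc' hne b hb
  · exact fun c j hE v hv a ha0 ha c' hc' => h8 c j hE v hv c' hc' a ha0 ha
  · exact fun c hc j v hv b hb hreg =>
      ⟨fun c' j' hE' hv' b' hb' => h9 c hc j v hv c' j' hE' hv' b ⟨hb, hreg⟩ b' hb',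
       fun c' j' hE' _ a ha0 ha => h10 c hc j c' j' hE' b ⟨hb, hreg⟩ a ha0 ha⟩
  · exact fun c hc j v hv b hb hb0 hreg =>
      ⟨fun c' j' hE' hv' b' hb' => h11 c hc j v hv c' j' hE' hv' b ⟨hb, hb0, hreg⟩ b' hb',
       fun c' j' hE' _ a ha0 ha => h12 c hc j c' j' hE' b ⟨hb, hb0, hreg⟩ a ha0 ha⟩

end Crest.Agent.R257.Wt_258
end
end

-- ▼ part R257/Par3_258
section

/-!
Row 257 (S0395), C-WT (helper258): existence of the parameters: `exists_par'`.
-/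

set_option autoImplicit false
set_option linter.unusedSectionVars false
set_option linter.unusedVariables false

open Polynomial Set Filter Topology Metric
open Crest.AlgGeometry.Germ Crest.Agent.R257.AJ387 Crest.Agent.R257.T387
open Crest.Agent.R257.Gr1_157 Crest.Agent.R257.HoB_843 Crest.Agent.R257.BP_258
open Crest.Agent.R257.Frm_547 Crest.Agent.R257.Lab_931

noncomputable section

namespace Crest.Agent.R257.Wt_258

variable {f : (Fin 3 → ℂ) → ℂ} {T : TB f} {U : Tub T} {S : Sh T}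
variable {F : Finset (Ch T.m)} {K : DKill S F}

/-- **the radius `κ`** -/
theorem exists_kap (hF : ∀ c ∈ F, Ok S c) {τ δ C' : ℝ} (hτ : 0 < τ) (hδ : 0 < δ)
    (h4 : ∀ c j, Es K c j → ∀ v, v1 T c = some v → ∀ b : ℂ, ‖b‖ ≤ τ →
      ∀ c' ∈ sp T v, c' ≠ cx T c → cx T c + b ^ lx T c ≠ c')
    (h5 : ∀ c j, Es K c j → ∀ v, v2 T c = some v → ∀ a : ℂ, a ≠ 0 → ‖a‖ ≤ τ →
      ∀ c' ∈ sp T v, 1 < ‖(a ^ lx T c)⁻¹ - c'‖) :
    ∃ κ, 0 < κ ∧ κ < τ ∧
    (∀ c j, Es K c j → ∀ b : ℂ, b ≠ 0 → ‖b‖ ^ lx T c ≤ κ →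
      ‖b‖ < τ ∧ δ * Real.log (‖b‖ ^ 2) + C' < -1) ∧
    (∀ c j, Es K c j → ∀ v, v1 T c = some v → ∀ b : ℂ, ‖b‖ ≤ τ →
      ‖cx T c + b ^ lx T c‖ < κ⁻¹ ∧ ∀ c' ∈ sp T v, c' ≠ cx T c → κ < ‖cx T c + b ^ lx T c - c'‖) ∧
    (∀ c j, Es K c j → ∀ v, v2 T c = some v → ∀ a : ℂ, a ≠ 0 → ‖a‖ ≤ τ →
      ∀ c' ∈ sp T v, κ < ‖(a ^ lx T c)⁻¹ - c'‖) := by
  have hlp : ∀ {c j}, Es K c j → 0 < lx T c := fun h => Hv_174.lx_pos h.1.1
  have hK : IsCompact (closedBall (0 : ℂ) τ) := isCompact_closedBall _ _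
  have e1 : ∀ᶠ κ in 𝓝[>] (0 : ℝ), ∀ c j, Es K c j → ∀ b : ℂ, b ≠ 0 → ‖b‖ ^ lx T c ≤ κ →
      ‖b‖ < τ ∧ δ * Real.log (‖b‖ ^ 2) + C' < -1 :=
    ev_Es hF fun c j hE => dlog hδ C' hτ (hlp hE)
  have e2 : ∀ᶠ κ in 𝓝[>] (0 : ℝ), ∀ c j, Es K c j → ∀ b ∈ closedBall (0 : ℂ) τ,
      ‖cx T c + b ^ lx T c‖ < κ⁻¹ :=
    ev_Es hF fun c j hE => dK4 hK (g := fun b => cx T c + b ^ lx T c) (by fun_prop)
  have e3 : ∀ᶠ κ in 𝓝[>] (0 : ℝ), ∀ c j, Es K c j → ∀ v, v1 T c = some v → ∀ c' ∈ sp T v,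
      c' ≠ cx T c → ∀ b ∈ closedBall (0 : ℂ) τ, κ < ‖cx T c + b ^ lx T c - c'‖ := by
    refine ev_Es hF fun c j hE => ev_some fun v hv => ?_
    rw [Filter.eventually_all_finset]
    intro c' hc'
    by_cases hx : c' = cx T c
    · exact Eventually.of_forall fun τ h => absurd hx h
    · filter_upwards [dK3 hK (g := fun b => cx T c + b ^ lx T c) (by fun_prop)
        (fun b hb => h4 c j hE v hv b (mem_closedBall_zero_iff.1 hb) c' hc' hx)] with κ hκ _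
      exact hκ
  obtain ⟨κ, k0, k1, k2, k3, k4, k5⟩ := ((show ∀ᶠ τ in 𝓝[>] (0 : ℝ), 0 < τ
    from self_mem_nhdsWithin).and ((ev_small τ hτ).and ((ev_small 1 one_pos).and
    (e1.and (e2.and e3))))).exists
  refine ⟨κ, k0, k1, k3, fun c j hE v hv b hb => ⟨k4 c j hE b (mem_closedBall_zero_iff.2 hb),
    fun c' hc' hne => k5 c j hE v hv c' hc' hne b (mem_closedBall_zero_iff.2 hb)⟩,
    fun c j hE v hv a ha0 ha c' hc' => k2.trans (h5 c j hE v hv a ha0 ha c' hc')⟩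

/-- **(P')** existence of the parameters -/
theorem exists_par' (L : Lab U S) [Fintype (II U)] (hE : EndStmt L) (hH : HVDStmt L) :
    ∀ (y : II U → ℝ) (F : Finset (Ch T.m)) (K : DKill S F), (∀ c ∈ F, Ok S c) →
      (∀ E, DSup L y K E) → ∃ τ₁ > 0, Unk K τ₁ ∧ ∀ τ₀ > 0, τ₀ < τ₁ →
        Nonempty (WPar L y K τ₀ τ₁) := by
  classical
  intro y F K hF hK
  obtain ⟨τ₁, hτ₁, hu⟩ := exists_unk (K := K) hF
  refine ⟨τ₁, hτ₁, hu, fun τ₀ hτ₀ _ => ?_⟩
  obtain ⟨δ, τH, C, h, hδ, hτH, hsm, hsl⟩ := hH y F K hF hK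
  -- the ends
  have nn : ∀ v, v ∈ Vs T → Nonempty (Fin T.d → ℂ → XV U v) := by
    intro v hv
    obtain ⟨w₀, hw₀⟩ : ∃ w₀ : ℂ, w₀ ∉ sp T v := by
      obtain ⟨w, hw⟩ := (sp T v).finite_toSet.infinite_compl.nonempty
      exact ⟨w, hw⟩
    obtain ⟨D⟩ := Vt2_558.exists_LD (Tb_941.retStmt U) hv hw₀
    exact ⟨fun j _ => D.σ j w₀⟩
  have g1 : ∀ (c : Ch T.m) (v : Vtx) (hv : v ∈ Vs T), ∃ γ : Fin T.d → ℂ → XV U v,
      Ok S c → v1 T c = some v → End1 U S c v γ ∧ ∀ j, ∀ b ∈ PDv S c,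
        L.e1 c j = some (lab U ⟨v, hv⟩ (γ j b)) := by
    intro c v hv
    by_cases hx : Ok S c ∧ v1 T c = some v
    · obtain ⟨γ, b1, b2⟩ := (hE c hx.1 ⟨v, hv⟩).1 hx.2
      exact ⟨γ, fun _ _ => ⟨b1, b2⟩⟩
    · obtain ⟨γ⟩ := nn v hv
      exact ⟨γ, fun a1 a2 => absurd ⟨a1, a2⟩ hx⟩
  have g2 : ∀ (c : Ch T.m) (v : Vtx) (hv : v ∈ Vs T), ∃ γ : Fin T.d → ℂ → XV U v,
      Ok S c → v2 T c = some v → End2 U S c v γ ∧ ∀ j, ∀ a ∈ PDc S c,
        L.e2 c j = some (lab U ⟨v, hv⟩ (γ j a)) := by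
    intro c v hv
    by_cases hx : Ok S c ∧ v2 T c = some v
    · obtain ⟨γ, b1, b2⟩ := (hE c hx.1 ⟨v, hv⟩).2 hx.2
      exact ⟨γ, fun _ _ => ⟨b1, b2⟩⟩
    · obtain ⟨γ⟩ := nn v hv
      exact ⟨γ, fun a1 a2 => absurd ⟨a1, a2⟩ hx⟩
  choose γ1 hγ1 using g1
  choose γ2 hγ2 using g2
  obtain ⟨τ, t0, t1, t2, t3, t4, t5, t6, t7, t8, t9, t10⟩ := exists_tau (K := K) hF hu hτ₀ hτH
  obtain ⟨κ, k0, k1, k2, k3, k4⟩ := exists_kap (K := K) (τ := τ) (δ := δ)
    (C' := C + (3 + C - δ * Real.log (τ ^ 2))) hF t0 hδ t7 t8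
  refine ⟨{ γ1 := γ1, γ2 := γ2, h := h, δ := δ, C := C, τH := τH, τ := τ, κ := κ
            B := 3 + C - δ * Real.log (τ ^ 2), hF := hF
            end1 := fun c hc v hv => hγ1 c v.1 v.2 hc hv
            end2 := fun c hc v hv => hγ2 c v.1 v.2 hc hv
            smp := ?_
            hv1 := fun c hc v hv j hVj b hb0 hb1 hb2 =>
              (hsl c hc v).1 hv _ (hγ1 c v.1 v.2 hc hv).1 j hVj b hb0 hb1 hb2
            hv2 := fun c hc v hv j a ha0 ha1 ha2 =>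
              (hsl c hc v).2 hv _ (hγ2 c v.1 v.2 hc hv).1 j a ha0 ha1 ha2
            δ_pos := hδ, τ_pos := t0, τ_lt1 := t1, τ_τ₀ := t2, κ_pos := k0, κ_lt := k1
            τ_lt := t3, τ_r := t4, sep11 := t5, sep12 := t6
            bigB := by linarith
            smallκ := fun c j hEs b hb0 hb => ?_
            sm1 := k3, sm2 := k4, str1 := t9, str2 := t10 }⟩
  · intro v hv w₀ ρ σ hρ hσc hσp hσQ
    refine hsm v hv w₀ ρ σ hρ hσc hσp fun hq => hσQ ?_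
    obtain ⟨c, j, γ, q1, q2, q3, q4, q5⟩ := hq
    refine ⟨c, j, q1, q2, q3, ?_⟩
    have hOk := hF c (K.mem _ q1)
    have hd : (0 : ℂ) ∈ PDv S c := ⟨Or.inl q2, by
      rw [norm_zero]; have := S.pos c; linarith⟩
    rw [q5]
    exact Hv_174.AE.uniq (Hv_174.AE.of1 q4) (Hv_174.AE.of1 (hγ1 c v hv hOk q3).1) j hd
  · obtain ⟨m1, m2⟩ := k2 c j hEs b hb0 hb
    exact ⟨m1, by linarith⟩

end Crest.Agent.R257.Wt_258
end
end

-- ▼ part R257/WtTr_938
section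

/-!
Row 257 (S0395), C-WT, transfer (helper938): near a point of an axis of a chart the points of the
chart are the points of the tube chart at the corresponding point of the vertex curve.

* `trans_gen`, `trans1`, `trans2` : `wc S c j p = D.X ((T.map c p).1, W p)`;
* `back1`, `back2` : `D.X q = wc S c j (P q)` with the local inverse `P` of `V1_82`.
-/

set_option autoImplicit false
set_option linter.unusedSectionVars false
set_option linter.unusedVariables false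

open Polynomial Set Filter Topology Metric
open Crest.AlgGeometry.Germ Crest.Agent.R257.AJ387 Crest.Agent.R257.T387
open Crest.Agent.R257.Gr1_157 Crest.Agent.R257.HoB_843 Crest.Agent.R257.BP_258
open Crest.Agent.R257.Frm_547 Crest.Agent.R257.Lab_931 Crest.Agent.R257.Wt_258

noncomputable section

namespace Crest.Agent.R257.WtTr_938

variable {f : (Fin 3 → ℂ) → ℂ} {T : TB f} {U : Tub T} {S : Sh T} [Fintype (II U)]

/-- a point whose retraction lies on a section is on the corresponding sheet -/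
lemma pt_of {v : Vtx} {w₀ : ℂ} (E : Vt2_558.LD U v w₀) {i : Fin T.d} {x : Fin 3 → ℂ} {q : XV U v}
    (h : IsRet U v x q) (h1 : E.σ i (pV U v q) = q) (h2 : pV U v q ∈ ball w₀ E.r) :
    x = pt (E.Z i (x 1, pV U v q)) (x 1, yv T v (x 1, pV U v q)) := by
  obtain ⟨j', h3, h4, h5, h6, h7⟩ := E.of_ret h h2
  have h8 : j' = i := E.σinj _ h2 (h7.symm.trans h1.symm)
  subst h8
  funext k
  fin_cases k
  · exact h6
  · rfl
  · exact h5

/-- general form of the transfer -/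
theorem trans_gen (hR : RetStmt U) {v : Vtx} {q₀ : XV U v} (D : TC U v q₀) {X : Type*}
    {𝓕 : Filter X} {x : X → Fin 3 → ℂ} {g : X → ℂ × ℂ}
    (hg : Tendsto g 𝓕 (𝓝 ((0 : ℂ), pV U v q₀))) (hne : ∀ᶠ p in 𝓕, (g p).1 ≠ 0)
    (hin : ∀ᶠ p in 𝓕, InT U v (x p))
    (h1 : ∀ᶠ p in 𝓕, x p 1 = (g p).1 ∧ wv T v (x p 1, x p 2) = (g p).2)
    (hlim : ∀ O ∈ 𝓝 q₀, ∀ᶠ p in 𝓕, ∀ q, IsRet U v (x p) q → q ∈ O) :
    ∀ᶠ p in 𝓕, x p = D.X (g p) := by
  obtain ⟨E⟩ := Vt2_558.exists_LD hR D.hv q₀.2.2.1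
  obtain ⟨i, hi⟩ := E.surj q₀ E.w0_mem
  have hnear := E.near (j := i) E.w0_mem
  have hi' : E.σ i (pV U v q₀) = q₀ := hi
  change E.σ i (q₀.1.1) = q₀ at hi'
  rw [hi'] at hnear
  have hgl : Tendsto g 𝓕 D.Fl := tendsto_nhdsWithin_iff.2 ⟨hg, hne⟩
  have hD : ∀ᶠ p in 𝓕, IsRet U v (D.X (g p)) (D.σ (g p).2) := hgl.eventually D.ev_ret
  have hDn : ∀ᶠ p in 𝓕, E.σ i (pV U v (D.σ (g p).2)) = D.σ (g p).2 ∧
      pV U v (D.σ (g p).2) ∈ ball (q₀.1.1) E.r := (D.σ_tendsto.comp hgl).eventually hnear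
  have hDb : ∀ᶠ p in 𝓕, (g p).2 ∈ ball (pV U v q₀) D.r := hgl.eventually D.ev_ball
  filter_upwards [hin, h1, hlim _ hnear, hD, hDn, hDb] with p e1 e2 e3 e4 e5 e6
  obtain ⟨q, hq⟩ := (((hR v D.hv).1 (x p) e1).exists)
  have e7 : pV U v q = (g p).2 := hq.2.1.trans e2.2
  have e8 : pV U v (D.σ (g p).2) = (g p).2 := D.σp _ e6
  have e9 := e3 q hq
  have a1 := pt_of E hq e9.1 e9.2
  have a2 := pt_of E e4 e5.1 e5.2
  rw [e8] at a2
  rw [e7, e2.1] at a1
  exact a1.trans a2.symm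

lemma W1_at {c : Ch T.m} (hc : Ok S c) {v : Vtx} (hv : v1 T c = some v) (b : ℂ) :
    W1 c ((0 : ℂ), b) = cx T c + b ^ lx T c := by
  cases c with
  | edge i k k' =>
    simp only [W1, cx, lx, zero_mul]
    rw [zero_pow T.M_pos.ne', hk_φ]
  | leg i =>
    simp only [W1, cx, lx]
    rw [zero_pow T.M_pos.ne', hk_φ]
  | vert i k w₀ =>
    obtain ⟨v', hv', rfl, rfl, hw⟩ := hc.2
    simp only [W1, cx, lx]
    rw [zero_pow T.M_pos.ne', hk_φ, co_ci S hv', zero_add, pow_one]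


lemma PDv_BD {c : Ch T.m} {b : ℂ} (hb : b ∈ PDv S c) :
    ((0 : ℂ), b) ∈ BD (2 * S.r c) (2 * S.r c) :=
  ⟨by simpa using two_r_pos S c, hb.2⟩


lemma map_zero1 {c : Ch T.m} (b : ℂ) : (T.map c ((0 : ℂ), b)).1 = 0 := by
  cases c with
  | edge i k k' => exact zero_mul _
  | leg i => rfl
  | vert i k w₀ => rfl


/-- the coordinates `(s, w)` of the chart near `(0, b)` -/
lemma tend1 {c : Ch T.m} (hc : Ok S c) {v : Vtx} (hv : v1 T c = some v) {b : ℂ}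
    (hb : b ∈ PDv S c) : Tendsto (fun p => ((T.map c p).1, W1 c p)) (𝓝 ((0 : ℂ), b))
      (𝓝 ((0 : ℂ), cx T c + b ^ lx T c)) := by
  have hn : BD (2 * S.r c) (2 * S.r c) ∈ 𝓝 ((0 : ℂ), b) := (isOpen_BD _ _).mem_nhds (PDv_BD hb)
  have h1 : ContinuousAt (fun p => (T.map c p).1) ((0 : ℂ), b) :=
    (((map_cont S hc.1).continuousAt hn)).fst
  have h2 : ContinuousAt (W1 c) ((0 : ℂ), b) := (W1_cont S hc.1).continuousAt hn
  have h3 := h1.tendsto.prodMk_nhds h2.tendsto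
  rw [map_zero1, W1_at hc hv] at h3
  exact h3


/-- **transfer at `(0, b)`** -/
theorem trans1 (hR : RetStmt U) {c : Ch T.m} (hc : Ok S c) {v : Vtx} (hv : v1 T c = some v)
    {γ : Fin T.d → ℂ → XV U v} (hγ : End1 U S c v γ) {b : ℂ} (hb : b ∈ PDv S c) (j : Fin T.d)
    {q₀ : XV U v} (hq : γ j b = q₀) (D : TC U v q₀) :
    ∀ᶠ p in 𝓝 ((0 : ℂ), b), T.Gen c p → wc S c j p = D.X ((T.map c p).1, W1 c p) := by
  subst hq
  have hne : ∀ᶠ p in 𝓝 ((0 : ℂ), b) ⊓ 𝓟 {p | T.Gen c p}, T.Gen c p :=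
    mem_inf_of_right (mem_principal_self _)
  have hle : 𝓝 ((0 : ℂ), b) ⊓ 𝓟 {p | T.Gen c p} ≤ 𝓝 ((0 : ℂ), b) := inf_le_left
  have ht : Tendsto (fun p => ((T.map c p).1, W1 c p)) (𝓝 ((0 : ℂ), b))
      (𝓝 ((0 : ℂ), pV U v (γ j b))) := by
    rw [hγ.pr j b hb]
    exact tend1 hc hv hb
  have h := trans_gen hR D (𝓕 := 𝓝 ((0 : ℂ), b) ⊓ 𝓟 {p | T.Gen c p})
    (x := fun p => wc S c j p) (g := fun p => ((T.map c p).1, W1 c p)) (ht.mono_left hle)
    (by filter_upwards [hne] with p hp using map_ne hp)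
    (by filter_upwards [hne, (hγ.lim j b hb).1.filter_mono hle] with p hp h using h (gen_fst hp))
    (by
      filter_upwards [hne] with p hp
      exact ⟨rfl, W1_eq hc.1 hv hp⟩)
    (fun O hO => by
      filter_upwards [hne, ((hγ.lim j b hb).2 O hO).filter_mono hle] with p hp h
      exact h (gen_fst hp))
  rw [eventually_inf_principal] at h
  exact h






end Crest.Agent.R257.WtTr_938
end
end

-- ▼ part R257/Ta0_938
section

/-!
Row 257 (S0395), C-WT, leaf (F4), common part of both axes (helper938).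

Setting of `Ax`: a chart `c`, a point `p₀`, a map `g = (s, W)` of the chart to the tube chart `D`.
* `Ax.smpsh`, `Ax.ub`, `Ax.lb`, `Ax.nat` : pull-back of `TubeOut`;
* `Ax.strict` : strictness from `V2`;
* `finish` : assembly of `LocS`.
-/

set_option autoImplicit false
set_option linter.unusedSectionVars false
set_option linter.unusedVariables false

open Polynomial Set Filter Topology Metric
open Crest.AlgGeometry.Germ Crest.Agent.R257.AJ387 Crest.Agent.R257.T387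
open Crest.Agent.R257.Gr1_157 Crest.Agent.R257.HoB_843 Crest.Agent.R257.BP_258
open Crest.Agent.R257.Frm_547 Crest.Agent.R257.Lab_931 Crest.Agent.R257.Wt_258
open Crest.Agent.R257.WtTr_938

noncomputable section

namespace Crest.Agent.R257.Ta_938

variable {f : (Fin 3 → ℂ) → ℂ} {T : TB f} {U : Tub T} {S : Sh T}
variable {L : Lab U S} {y : II U → ℝ} {F : Finset (Ch T.m)} {K : DKill S F}

lemma gen_open (c : Ch T.m) {p : ℂ × ℂ} (h : T.Gen c p) : ∀ᶠ p' in 𝓝 p, T.Gen c p' := by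
  have e1 : p.1 ≠ 0 → ∀ᶠ p' : ℂ × ℂ in 𝓝 p, p'.1 ≠ 0 := fun h =>
    continuous_fst.continuousAt.eventually_ne h
  have e2 : p.2 ≠ 0 → ∀ᶠ p' : ℂ × ℂ in 𝓝 p, p'.2 ≠ 0 := fun h =>
    continuous_snd.continuousAt.eventually_ne h
  cases c with
  | edge i k k' => exact (e1 h.1).and (e2 h.2)
  | leg i => exact (e1 h.1).and (e2 h.2)
  | vert i k w₀ => exact e1 h

lemma ev_near {α : Type*} {u v : ℂ × ℂ → α} {c : Ch T.m} {p₀ : ℂ × ℂ}
    (h : ∀ᶠ p in 𝓝 p₀, T.Gen c p → u p = v p) :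
    ∀ᶠ p in 𝓝 p₀, T.Gen c p → u =ᶠ[𝓝 p] v := by
  filter_upwards [h.eventually_nhds] with p hp hg
  filter_upwards [hp, gen_open c hg] with p' h1 h2 using h1 h2

variable [Fintype (II U)] {τ₀ τ₁ : ℝ} (P : WPar L y K τ₀ τ₁)

lemma Ψ_wc (c : Ch T.m) (j : Fin T.d) (p : ℂ × ℂ) :
    P.Ψ (wc S c j p) = P.Φ (wc S c j p) + ‖(T.map c p).1‖ ^ 2 := rfl

/-- the linear function of the chart -/
def lin (L : Lab U S) (y : II U → ℝ) (c : Ch T.m) (j : Fin T.d) (p : ℂ × ℂ) : ℝ :=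
  yo y (L.e1 c j) * Real.log (‖p.1‖ ^ 2) + yo y (L.e2 c j) * Real.log (‖p.2‖ ^ 2)

/-- the region of strictness -/
def StC (L : Lab U S) {F : Finset (Ch T.m)} (K : DKill S F) (τ₀ τ₁ : ℝ) (c : Ch T.m)
    (j : Fin T.d) (p : ℂ × ℂ) : Prop :=
  (K.κ = ∅ ∧ ((L.e1 c j ≠ none ∧ (IsV c ∨ τ₀ ≤ ‖p.2‖)) ∨ (L.e2 c j ≠ none ∧ τ₀ ≤ ‖p.1‖))) ∨
  ((c, j) ∈ K.κ ∧ ‖p.1‖ < τ₁ ∧ ‖p.2‖ < τ₁ ∧
    ((L.e1 c j ≠ none ∧ τ₀ ≤ ‖p.2‖) ∨ (L.e2 c j ≠ none ∧ τ₀ ≤ ‖p.1‖)))

/-- **assembly of the local statement** -/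
theorem finish {c : Ch T.m} {j : Fin T.d} {p₀ : ℂ × ℂ}
    (h1 : ∀ᶠ p in 𝓝 p₀, T.Gen c p → ContDiffAt ℝ (⊤ : ℕ∞) (P.Ψ ∘ wc S c j) p ∧
      ∀ w, 0 ≤ lvE (P.Ψ ∘ wc S c j) p w)
    (h2 : ∃ C : ℝ, ∀ᶠ p in 𝓝 p₀, T.Gen c p → P.Ψ (wc S c j p) ≤ lin L y c j p + C)
    (h3 : K.κ = ∅ → ∃ C : ℝ, ∀ᶠ p in 𝓝 p₀, T.Gen c p → lin L y c j p - C ≤ P.Ψ (wc S c j p))
    (h4 : (c, j) ∈ K.κ → ∃ C : ℝ, ∀ᶠ p in 𝓝 p₀, T.Gen c p → ‖p.1‖ < τ₁ → ‖p.2‖ < τ₁ →
      |P.Ψ (wc S c j p) - lin L y c j p -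
        K.t (c, j) * Real.log (‖p.1‖ ^ (2 * K.b (c, j)) + ‖p.2‖ ^ (2 * K.a (c, j)))| ≤ C)
    (h5 : ∃ c₀ > 0, ∀ᶠ p in 𝓝 p₀, T.Gen c p → StC L K τ₀ τ₁ c j p →
      ∀ w : ℂ × ℂ, c₀ * (‖w.1‖ ^ 2 + ‖w.2‖ ^ 2) ≤ lvE (P.Ψ ∘ wc S c j) p w) :
    LocS P c j p₀ := by
  obtain ⟨C2, h2⟩ := h2
  have h3' : ∃ C : ℝ, K.κ = ∅ → ∀ᶠ p in 𝓝 p₀, T.Gen c p →
      lin L y c j p - C ≤ P.Ψ (wc S c j p) := by
    by_cases hk : K.κ = ∅
    · obtain ⟨C, hC⟩ := h3 hk
      exact ⟨C, fun _ => hC⟩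
    · exact ⟨0, fun h => absurd h hk⟩
  have h4' : ∃ C : ℝ, (c, j) ∈ K.κ → ∀ᶠ p in 𝓝 p₀, T.Gen c p → ‖p.1‖ < τ₁ → ‖p.2‖ < τ₁ →
      |P.Ψ (wc S c j p) - lin L y c j p -
        K.t (c, j) * Real.log (‖p.1‖ ^ (2 * K.b (c, j)) + ‖p.2‖ ^ (2 * K.a (c, j)))| ≤ C := by
    by_cases hk : (c, j) ∈ K.κ
    · obtain ⟨C, hC⟩ := h4 hk
      exact ⟨C, fun _ => hC⟩
    · exact ⟨0, fun h => absurd h hk⟩
  obtain ⟨C3, h3'⟩ := h3'
  obtain ⟨C4, h4'⟩ := h4'
  obtain ⟨c₀, hc₀, h5⟩ := h5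
  refine ⟨max C2 (max C3 C4), c₀, hc₀, ?_⟩
  have e3 : ∀ᶠ p in 𝓝 p₀, K.κ = ∅ → T.Gen c p → lin L y c j p - C3 ≤ P.Ψ (wc S c j p) := by
    by_cases hk : K.κ = ∅
    · exact (h3' hk).mono fun p hp _ => hp
    · exact Eventually.of_forall fun p h => absurd h hk
  have e4 : ∀ᶠ p in 𝓝 p₀, (c, j) ∈ K.κ → T.Gen c p → ‖p.1‖ < τ₁ → ‖p.2‖ < τ₁ →
      |P.Ψ (wc S c j p) - lin L y c j p -
        K.t (c, j) * Real.log (‖p.1‖ ^ (2 * K.b (c, j)) + ‖p.2‖ ^ (2 * K.a (c, j)))| ≤ C4 := by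
    by_cases hk : (c, j) ∈ K.κ
    · exact (h4' hk).mono fun p hp _ => hp
    · exact Eventually.of_forall fun p h => absurd h hk
  filter_upwards [h1, h2, e3, e4, h5] with p a1 a2 a3 a4 a5 _ _ hg
  have m2 : C2 ≤ max C2 (max C3 C4) := le_max_left _ _
  have m3 : C3 ≤ max C2 (max C3 C4) := (le_max_left _ _).trans (le_max_right _ _)
  have m4 : C4 ≤ max C2 (max C3 C4) := (le_max_right _ _).trans (le_max_right _ _)
  exact
    { sm := (a1 hg).1
      psh := (a1 hg).2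
      ub := by
        have := a2 hg
        unfold lin at this
        linarith
      lb := fun hk => by
        have := a3 hk hg
        unfold lin at this
        linarith
      kil := fun hk b1 b2 => by
        have := a4 hk hg b1 b2
        unfold lin at this
        rw [sub_add_eq_sub_sub] at this
        exact this.trans m4
      st1 := fun hk b1 b2 => a5 hg (Or.inl ⟨hk, Or.inl ⟨b1, b2⟩⟩)
      st2 := fun hk b1 b2 => a5 hg (Or.inl ⟨hk, Or.inr ⟨b1, b2⟩⟩)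
      ks1 := fun hk b1 b2 b3 b4 => a5 hg (Or.inr ⟨hk, b1, b2, Or.inl ⟨b3, b4⟩⟩)
      ks2 := fun hk b1 b2 b3 b4 => a5 hg (Or.inr ⟨hk, b1, b2, Or.inr ⟨b3, b4⟩⟩) }

variable {v : Vtx} {q₀ : XV U v}

/-- a chart at a point of an axis, seen in the tube chart -/
structure Ax (D : TC U v q₀) (c : Ch T.m) (j : Fin T.d) (p₀ : ℂ × ℂ) (W : ℂ × ℂ → ℂ) : Prop where
  tend : Tendsto (fun p => ((T.map c p).1, W p)) (𝓝 p₀) (𝓝 ((0 : ℂ), pV U v q₀))
  an : AnalyticAt ℂ W p₀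
  tr : ∀ᶠ p in 𝓝 p₀, T.Gen c p → wc S c j p = D.X ((T.map c p).1, W p)

namespace Ax

variable {D : TC U v q₀} {c : Ch T.m} {j : Fin T.d} {p₀ : ℂ × ℂ} {W : ℂ × ℂ → ℂ}
  (A : Ax (S := S) D c j p₀ W)

include A in
lemma pull {Q : ℂ × ℂ → Prop} (h : ∀ᶠ q in D.Fl, Q q) :
    ∀ᶠ p in 𝓝 p₀, T.Gen c p → Q ((T.map c p).1, W p) := by
  have h' : ∀ᶠ q in 𝓝[{q : ℂ × ℂ | q.1 ≠ 0}] ((0 : ℂ), pV U v q₀), Q q := h
  rw [eventually_nhdsWithin_iff] at h'
  exact (A.tend.eventually h').mono fun p hp hg => hp (map_ne hg)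

include A in
/-- smoothness and plurisubharmonicity -/
theorem smpsh (hT : TubeOut P D) : ∀ᶠ p in 𝓝 p₀, T.Gen c p →
    ContDiffAt ℝ (⊤ : ℕ∞) (P.Ψ ∘ wc S c j) p ∧ ∀ w, 0 ≤ lvE (P.Ψ ∘ wc S c j) p w := by
  have h0 : ∀ᶠ p in 𝓝 p₀, T.Gen c p → (P.Ψ ∘ wc S c j) p =
      (fun p => (P.Φ ∘ D.X) ((T.map c p).1, W p) + ‖(T.map c p).1‖ ^ 2) p := by
    filter_upwards [A.tr] with p hp hg
    show P.Φ (wc S c j p) + ‖(T.map c p).1‖ ^ 2 = _
    rw [hp hg]
    rfl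
  filter_upwards [ev_near h0, A.pull hT.sm, A.an.eventually_analyticAt] with p h1 h2 h3 hg
  obtain ⟨h4, h5⟩ := h2 hg
  have hs : AnalyticAt ℂ (fun p => (T.map c p).1) p := V2_808.s_an c p
  have hg' : AnalyticAt ℂ (fun p => ((T.map c p).1, W p)) p := hs.prod h3
  have two : (2 : WithTop ℕ∞) ≤ ((⊤ : ℕ∞) : WithTop ℕ∞) := by norm_cast
  have k1 : ContDiffAt ℝ (⊤ : ℕ∞) (fun p => (P.Φ ∘ D.X) ((T.map c p).1, W p)) p :=
    ContDiffAt.comp (g := P.Φ ∘ D.X) (f := fun p => ((T.map c p).1, W p)) p h4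
      (hg'.contDiffAt.restrict_scalars ℝ)
  have k2 : ContDiffAt ℝ (⊤ : ℕ∞) (fun p => ‖(T.map c p).1‖ ^ 2) p :=
    Glue2_101.sm_of_hol hs.contDiffAt
  refine ⟨(k1.add k2).congr_of_eventuallyEq (h1 hg), fun w => ?_⟩
  rw [lvE_congr (h1 hg), Glue2_101.lvE_add k1 k2, Glue2_101.lvE_sq hs.contDiffAt]
  have k3 : lvE (fun p => (P.Φ ∘ D.X) ((T.map c p).1, W p)) p w =
      lvE (P.Φ ∘ D.X) ((T.map c p).1, W p)
        (fderiv ℂ (fun p => ((T.map c p).1, W p)) p w) :=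
    lvE_comp (T := fun p => ((T.map c p).1, W p)) (u := P.Φ ∘ D.X)
      (hg'.contDiffAt.of_le two) (h4.of_le two) w
  rw [k3]
  have := h5 (fderiv ℂ (fun p => ((T.map c p).1, W p)) p w)
  positivity


include A in
lemma s_small : ∀ᶠ p in 𝓝 p₀, ‖(T.map c p).1‖ ^ 2 ≤ 1 := by
  have h1 : Tendsto (fun p => (T.map c p).1) (𝓝 p₀) (𝓝 0) :=
    (continuous_fst.tendsto _).comp A.tend
  have h2 := h1.norm.pow 2
  rw [norm_zero, zero_pow two_ne_zero] at h2
  exact (h2.eventually_lt_const one_pos).mono fun p hp => hp.le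

include A in
/-- upper bound -/
theorem ub (hT : TubeOut P D) : ∃ C : ℝ, ∀ᶠ p in 𝓝 p₀, T.Gen c p →
    P.Ψ (wc S c j p) ≤ y (lab U ⟨v, D.hv⟩ q₀) * Real.log (‖(T.map c p).1‖ ^ 2) + C := by
  obtain ⟨C, hC⟩ := hT.ub
  refine ⟨C + 1, ?_⟩
  filter_upwards [A.tr, A.pull hC, A.s_small] with p h1 h2 h3 hg
  rw [Ψ_wc, h1 hg]
  have := h2 hg
  linarith

include A in
/-- lower bound -/
theorem lb (hT : TubeOut P D) (hq : q₀ ∉ Kd P v) : ∃ C : ℝ, ∀ᶠ p in 𝓝 p₀, T.Gen c p →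
    y (lab U ⟨v, D.hv⟩ q₀) * Real.log (‖(T.map c p).1‖ ^ 2) - C ≤ P.Ψ (wc S c j p) := by
  obtain ⟨C, hC⟩ := hT.lb hq
  refine ⟨C, ?_⟩
  filter_upwards [A.tr, A.pull hC] with p h1 h2 hg
  rw [Ψ_wc, h1 hg]
  have := h2 hg
  have h3 : 0 ≤ ‖(T.map c p).1‖ ^ 2 := by positivity
  linarith

include A in
/-- **strictness** from `V2` and `TubeOut.nat` -/
theorem strict (hnat : ∀ᶠ q in D.Fl, P.Φ (D.X q) = FV P D q)
    (hV : ∃ c₀ > 0, ∀ᶠ p in 𝓝 p₀, T.Gen c p → ∀ w : ℂ × ℂ, c₀ * (‖w.1‖ ^ 2 + ‖w.2‖ ^ 2) ≤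
      lvE (fun p => y (lab U ⟨v, D.hv⟩ q₀) * Real.log (‖(T.map c p).1‖ ^ 2) +
        (fun w => P.h v (D.σ w)) (W p) + ‖(T.map c p).1‖ ^ 2) p w) :
    ∃ c₀ > 0, ∀ᶠ p in 𝓝 p₀, T.Gen c p →
      ∀ w : ℂ × ℂ, c₀ * (‖w.1‖ ^ 2 + ‖w.2‖ ^ 2) ≤ lvE (P.Ψ ∘ wc S c j) p w := by
  obtain ⟨c₀, hc₀, hV⟩ := hV
  refine ⟨c₀, hc₀, ?_⟩
  have h0 : ∀ᶠ p in 𝓝 p₀, T.Gen c p → (P.Ψ ∘ wc S c j) p =
      (fun p => y (lab U ⟨v, D.hv⟩ q₀) * Real.log (‖(T.map c p).1‖ ^ 2) +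
        (fun w => P.h v (D.σ w)) (W p) + ‖(T.map c p).1‖ ^ 2) p := by
    filter_upwards [A.tr, A.pull hnat] with p h1 h2 hg
    show P.Φ (wc S c j p) + ‖(T.map c p).1‖ ^ 2 = _
    rw [h1 hg, h2 hg]
    rfl
  filter_upwards [ev_near h0, hV] with p h1 h2 hg w
  rw [lvE_congr (h1 hg)]
  exact h2 hg w

end Ax

/-- `log ‖g p‖²` is bounded near a point where `g ≠ 0` -/
lemma log_bdd {g : ℂ × ℂ → ℂ} {p₀ : ℂ × ℂ} (hg : ContinuousAt g p₀) (h0 : g p₀ ≠ 0) (a : ℝ) :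
    ∃ C : ℝ, 0 ≤ C ∧ ∀ᶠ p in 𝓝 p₀, |a * Real.log (‖g p‖ ^ 2)| ≤ C := by
  have h1 : ContinuousAt (fun p => |a * Real.log (‖g p‖ ^ 2)|) p₀ :=
    (continuousAt_const.mul ((hg.norm.pow 2).log
      (pow_ne_zero 2 (norm_ne_zero_iff.2 h0)))).abs
  refine ⟨|a * Real.log (‖g p₀‖ ^ 2)| + 1, by positivity, ?_⟩
  exact (h1.eventually_lt continuousAt_const (by
    show |a * Real.log (‖g p₀‖ ^ 2)| < |a * Real.log (‖g p₀‖ ^ 2)| + 1
    linarith)).mono fun p hp => le_of_lt hp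

/-- the kernel of the kill is bounded near a point `≠ 0` -/
lemma ker_bdd {a b : ℕ} {p₀ : ℂ × ℂ} (h0 : p₀.1 ≠ 0 ∨ p₀.2 ≠ 0) (t : ℝ) :
    ∃ C : ℝ, 0 ≤ C ∧ ∀ᶠ p in 𝓝 p₀, |t * Real.log (‖p.1‖ ^ (2 * b) + ‖p.2‖ ^ (2 * a))| ≤ C := by
  have hpos : 0 < ‖p₀.1‖ ^ (2 * b) + ‖p₀.2‖ ^ (2 * a) := by
    rcases h0 with h | h
    · have := norm_pos_iff.2 h
      positivity
    · have := norm_pos_iff.2 h
      positivity
  have h1 : ContinuousAt (fun p : ℂ × ℂ =>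
      |t * Real.log (‖p.1‖ ^ (2 * b) + ‖p.2‖ ^ (2 * a))|) p₀ := by
    have h2 : ContinuousAt (fun p : ℂ × ℂ => ‖p.1‖ ^ (2 * b) + ‖p.2‖ ^ (2 * a)) p₀ := by fun_prop
    exact (continuousAt_const.mul (h2.log hpos.ne')).abs
  refine ⟨|t * Real.log (‖p₀.1‖ ^ (2 * b) + ‖p₀.2‖ ^ (2 * a))| + 1, by positivity, ?_⟩
  exact (h1.eventually_lt continuousAt_const (by
    show |t * Real.log (‖p₀.1‖ ^ (2 * b) + ‖p₀.2‖ ^ (2 * a))| <
      |t * Real.log (‖p₀.1‖ ^ (2 * b) + ‖p₀.2‖ ^ (2 * a))| + 1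
    linarith)).mono fun p hp => le_of_lt hp

end Crest.Agent.R257.Ta_938
end
end

-- ▼ part R257/Ta1_938
section

/-!
Row 257 (S0395), C-WT, leaf (F4), first axis (helper938): `loc_axis1`.
-/

set_option autoImplicit false
set_option linter.unusedSectionVars false
set_option linter.unusedVariables false

open Polynomial Set Filter Topology Metric
open Crest.AlgGeometry.Germ Crest.Agent.R257.AJ387 Crest.Agent.R257.T387
open Crest.Agent.R257.Gr1_157 Crest.Agent.R257.HoB_843 Crest.Agent.R257.BP_258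
open Crest.Agent.R257.Frm_547 Crest.Agent.R257.Lab_931 Crest.Agent.R257.Wt_258
open Crest.Agent.R257.WtTr_938 Crest.Agent.R257.Ta_938

noncomputable section

namespace Crest.Agent.R257.Ta1_938

variable {f : (Fin 3 → ℂ) → ℂ} {T : TB f} {U : Tub T} {S : Sh T}
variable {L : Lab U S} {y : II U → ℝ} {F : Finset (Ch T.m)} {K : DKill S F}
variable [Fintype (II U)] {τ₀ τ₁ : ℝ} (P : WPar L y K τ₀ τ₁)

/-- killed points are not on the small discs of the killed charts -/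
lemma not_Kd1 (hu : Unk K τ₁) {c : Ch T.m} {j : Fin T.d} {v : Vtx} (hvV : v ∈ Vs T)
    (hv : v1 T c = some v) {b : ℂ} (hk : (c, j) ∈ K.κ) (hb0 : b ≠ 0) (hb : ‖b‖ ≤ τ₁)
    {q₀ : XV U v} (hpr : pV U v q₀ = cx T c + b ^ lx T c) : q₀ ∉ Kd P v := by
  rintro ⟨c', j', k1, k2, k3, k4⟩
  have hok' : Ok S c' := P.hF c' (K.mem _ k1)
  have h2 := (P.end1 c' hok' ⟨v, hvV⟩ k3).1.pr j' 0
    ⟨Or.inl k2, by rw [norm_zero]; exact two_r_pos S c'⟩
  rw [← k4, hpr] at h2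
  refine hu.unk1 c j hk v hv b hb0 hb c' j' k1 k2 k3 ?_
  rw [h2]
  have hl : lx T c' = 1 := by
    cases c' with
    | edge i k k' => exact absurd k2 (by simp [IsV])
    | leg i => exact absurd k2 (by simp [IsV])
    | vert i k w₀ => rfl
  rw [hl, zero_pow one_ne_zero, add_zero]

/-- **the local statement at a point of the first axis** -/
theorem loc_axis1 (hR : RetStmt U) (hτ : 0 < τ₀) (hu : Unk K τ₁) {c : Ch T.m} (hc : c ∈ F)
    (j : Fin T.d) {v : Vtx} (hv : v1 T c = some v) {b : ℂ} (hb : ‖b‖ ≤ S.r c)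
    (h0 : IsV c ∨ b ≠ 0)
    (hT : ∀ {v : Vtx} {q₀ : XV U v} (D : TC U v q₀), TubeOut P D) : LocS P c j ((0 : ℂ), b) := by
  have hok : Ok S c := P.hF c hc
  have hvV : v ∈ Vs T := v1_mem hok.1 hv
  obtain ⟨hγ, hlab⟩ := P.end1 c hok ⟨v, hvV⟩ hv
  have hb' : b ∈ PDv S c := ⟨h0.imp_right norm_pos_iff.2, lt_two_r S hb⟩
  obtain ⟨q₀, hq₀⟩ : ∃ q₀, P.γ1 c v hvV j b = q₀ := ⟨_, rfl⟩
  have hpr : pV U v q₀ = cx T c + b ^ lx T c := by rw [← hq₀]; exact hγ.pr j b hb'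
  obtain ⟨D⟩ := exists_TC hR hvV q₀
  have A : Ax (S := S) D c j ((0 : ℂ), b) (W1 c) :=
    ⟨by rw [hpr]; exact tend1 hok hv hb', V2_808.W1_an c b, trans1 hR hok hv hγ hb' j hq₀ D⟩
  have hO := hT D
  obtain ⟨Y, hY⟩ : ∃ Y, y (lab U ⟨v, D.hv⟩ q₀) = Y := ⟨_, rfl⟩
  have hyo : yo y (L.e1 c j) = Y := by
    rw [hlab j b hb', hq₀, ← hY]; rfl
  -- the two linear functions
  have hΔ : ∃ C : ℝ, 0 ≤ C ∧ ∀ᶠ p in 𝓝 ((0 : ℂ), b), T.Gen c p →
      |Y * Real.log (‖(T.map c p).1‖ ^ 2) - lin L y c j p| ≤ C := by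
    by_cases hE : IsE c
    · have hb0 : b ≠ 0 := by
        refine h0.resolve_left fun h => ?_
        cases c with
        | edge i k k' => exact h
        | leg i => exact h
        | vert i k w₀ => exact hE
      obtain ⟨C, hC0, hC⟩ := log_bdd (g := Prod.snd) (p₀ := ((0 : ℂ), b))
        continuous_snd.continuousAt hb0 (Y - yo y (L.e2 c j))
      refine ⟨C, hC0, hC.mono fun p hp hg => ?_⟩
      rw [map1_E hE, log_mul_sq (gen_fst hg) (gen_snd_E hE hg)]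
      unfold lin
      rw [hyo]
      refine le_of_eq_of_le ?_ hp
      congr 1
      ring
    · refine ⟨0, le_rfl, Eventually.of_forall fun p hg => ?_⟩
      rw [map1_nE hE]
      unfold lin
      rw [hyo, yo_v2 L y hok j (v2_none hE)]
      simp
  obtain ⟨CΔ, hCΔ0, hΔ⟩ := hΔ
  have hub : ∃ C : ℝ, ∀ᶠ p in 𝓝 ((0 : ℂ), b), T.Gen c p →
      P.Ψ (wc S c j p) ≤ lin L y c j p + C := by
    obtain ⟨C, hC⟩ := A.ub P hO
    rw [hY] at hC
    refine ⟨C + CΔ, ?_⟩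
    filter_upwards [hC, hΔ] with p h1 h2 hg
    have a1 := h1 hg
    have a2 := abs_le.1 (h2 hg)
    linarith [a2.2]
  have hlb : q₀ ∉ Kd P v → ∃ C : ℝ, ∀ᶠ p in 𝓝 ((0 : ℂ), b), T.Gen c p →
      lin L y c j p - C ≤ P.Ψ (wc S c j p) := by
    intro hq
    obtain ⟨C, hC⟩ := A.lb P hO hq
    rw [hY] at hC
    refine ⟨C + CΔ, ?_⟩
    filter_upwards [hC, hΔ] with p h1 h2 hg
    have a1 := h1 hg
    have a2 := abs_le.1 (h2 hg)
    linarith [a2.1]
  refine finish P (A.smpsh P hO) hub (fun hk => hlb ?_) (fun hk => ?_) ?_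
  · rintro ⟨c', j', k1, -⟩
    rw [hk] at k1
    exact k1
  · -- the kill estimate
    by_cases hb0 : b = 0
    · have hV : IsV c := h0.resolve_right fun h => h hb0
      have hKd : q₀ ∈ Kd P v := ⟨c, j, hk, hV, hv, by rw [← hq₀, hb0]⟩
      have hEs : Es K c j := ⟨hok, fun _ => hk⟩
      have hzn : ∀ᶠ p in 𝓝 ((0 : ℂ), b), T.Gen c p → p ∈ zn S P.τ c := by
        have z1 : 0 < ta S P.τ c := by
          unfold ta
          split_ifs
          · exact S.pos c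
          · exact P.τ_pos
        have z2 : 0 < tb S P.τ c := by
          unfold tb
          split_ifs
          · exact S.pos c
          · exact P.τ_pos
        have c1 : ∀ᶠ p : ℂ × ℂ in 𝓝 ((0 : ℂ), b), ‖p.1‖ < ta S P.τ c :=
          (continuous_fst.norm.tendsto ((0 : ℂ), b)).eventually_lt_const (by simpa using z1)
        have c2 : ∀ᶠ p : ℂ × ℂ in 𝓝 ((0 : ℂ), b), ‖p.2‖ < tb S P.τ c :=
          (continuous_snd.norm.tendsto ((0 : ℂ), b)).eventually_lt_const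
            (by simpa [hb0] using z2)
        filter_upwards [c1, c2] with p h1 h2 hg using ⟨h1, h2, hg⟩
      refine ⟨1 + |P.B|, ?_⟩
      filter_upwards [A.tr, A.pull (hO.kil hKd), hzn, A.s_small] with p h1 h2 h3 h4 hg _ _
      have e1 : P.Φ (wc S c j p) = EL L y K c j p - P.B := by
        have := h2 hg (EL L y K c j p - P.B) ⟨c, j, p, hEs, h3 hg, h1 hg, rfl⟩
        rw [← h1 hg] at this
        exact this
      have e2 : EL L y K c j p = lin L y c j p +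
          K.t (c, j) * Real.log (‖p.1‖ ^ (2 * K.b (c, j)) + ‖p.2‖ ^ (2 * K.a (c, j))) := by
        unfold EL lin tt
        rw [if_pos hk]
      rw [Ψ_wc, e1, e2]
      have e3 : lin L y c j p +
          K.t (c, j) * Real.log (‖p.1‖ ^ (2 * K.b (c, j)) + ‖p.2‖ ^ (2 * K.a (c, j))) - P.B +
          ‖(T.map c p).1‖ ^ 2 - lin L y c j p -
          K.t (c, j) * Real.log (‖p.1‖ ^ (2 * K.b (c, j)) + ‖p.2‖ ^ (2 * K.a (c, j))) =
          ‖(T.map c p).1‖ ^ 2 - P.B := by ring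
      rw [e3]
      refine (abs_sub _ _).trans (add_le_add ?_ le_rfl)
      rw [abs_of_nonneg (by positivity)]
      exact h4
    · by_cases hbτ : ‖b‖ ≤ τ₁
      · have hq : q₀ ∉ Kd P v := not_Kd1 P hu hvV hv hk hb0 hbτ hpr
        obtain ⟨C1, hC1⟩ := hub
        obtain ⟨C2, hC2⟩ := hlb hq
        obtain ⟨C3, hC30, hC3⟩ := ker_bdd (a := K.a (c, j)) (b := K.b (c, j))
          (p₀ := ((0 : ℂ), b)) (Or.inr hb0) (K.t (c, j))
        refine ⟨|C1| + |C2| + C3, ?_⟩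
        filter_upwards [hC1, hC2, hC3] with p h1 h2 h3 hg _ _
        have a1 := h1 hg
        have a2 := h2 hg
        have a3 := abs_le.1 h3
        have b1 := le_abs_self C1
        have b2 := le_abs_self C2
        have b3 := abs_nonneg C1
        have b4 := abs_nonneg C2
        rw [abs_le]
        constructor <;> linarith [a3.1, a3.2]
      · refine ⟨0, ?_⟩
        have h1 : ∀ᶠ p : ℂ × ℂ in 𝓝 ((0 : ℂ), b), τ₁ < ‖p.2‖ :=
          (continuous_snd.norm.tendsto ((0 : ℂ), b)).eventually_const_lt (not_le.1 hbτ)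
        filter_upwards [h1] with p hp _ _ h2
        exact absurd h2 (not_lt.2 hp.le)
  · -- strictness
    by_cases hg : (K.κ = ∅ ∧ (IsV c ∨ τ₀ ≤ ‖b‖)) ∨ ((c, j) ∈ K.κ ∧ τ₀ ≤ ‖b‖ ∧ ‖b‖ ≤ τ₁)
    · have hs := P.str1 c hc j v hv b hb hg
      have hq : q₀ ∉ Kd P v := by
        rcases hg with ⟨hk, -⟩ | ⟨hk, h1, h2⟩
        · rintro ⟨c', j', k1, -⟩
          rw [hk] at k1
          exact k1
        · exact not_Kd1 P hu hvV hv hk (norm_pos_iff.1 (hτ.trans_le h1)) h2 hpr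
      have hnat := hO.nat
        (fun c' j' hE' hv' b' hb1 hb2 he => by
          have hok' := hE'.1
          have hp' := (P.end1 c' hok' ⟨v, hvV⟩ hv').1.pr j' b' ⟨hb2.imp_right norm_pos_iff.2, by
            have := P.τ_r c' j' hE'
            have := S.pos c'
            linarith⟩
          rw [he, hpr] at hp'
          exact hs.1 c' j' hE' hv' b' hb1.le hp')
        (fun c' j' hE' hv' a' ha1 ha2 he => by
          have hok' := hE'.1
          have hp' := (P.end2 c' hok' ⟨v, hvV⟩ hv').1.pr j' a' ⟨norm_pos_iff.2 ha2, by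
            have := P.τ_r c' j' hE'
            have := S.pos c'
            linarith⟩
          rw [he, hpr] at hp'
          exact hs.2 c' j' hE' hv' a' ha2 ha1.le hp')
      have hσ0 := (hσ P D hq).self_of_nhds
      rw [hpr] at hσ0
      obtain ⟨c₀, hc₀, h⟩ := A.strict P hnat
        (V2_808.strict1 hok hv hb h0 (H := fun w => P.h v (D.σ w)) hσ0.1 hσ0.2
          (y (lab U ⟨v, D.hv⟩ q₀)))
      exact ⟨c₀, hc₀, h.mono fun p hp hg' _ => hp hg'⟩
    · refine ⟨1, one_pos, ?_⟩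
      have e1 : ∀ᶠ p : ℂ × ℂ in 𝓝 ((0 : ℂ), b), ‖p.1‖ < τ₀ :=
        (continuous_fst.norm.tendsto ((0 : ℂ), b)).eventually_lt_const (by simpa using hτ)
      have e2 : ∀ᶠ p : ℂ × ℂ in 𝓝 ((0 : ℂ), b), ‖b‖ < τ₀ → ‖p.2‖ < τ₀ := by
        by_cases h : ‖b‖ < τ₀
        · exact ((continuous_snd.norm.tendsto ((0 : ℂ), b)).eventually_lt_const h).mono
            fun p hp _ => hp
        · exact Eventually.of_forall fun p h' => absurd h' h
      have e3 : ∀ᶠ p : ℂ × ℂ in 𝓝 ((0 : ℂ), b), τ₁ < ‖b‖ → τ₁ < ‖p.2‖ := by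
        by_cases h : τ₁ < ‖b‖
        · exact ((continuous_snd.norm.tendsto ((0 : ℂ), b)).eventually_const_lt h).mono
            fun p hp _ => hp
        · exact Eventually.of_forall fun p h' => absurd h' h
      filter_upwards [e1, e2, e3] with p h1 h2 h3 _ hSt
      exfalso
      have k1 : τ₀ ≤ ‖p.2‖ → τ₀ ≤ ‖b‖ := fun h => by
        by_contra hn
        exact absurd (h2 (not_le.1 hn)) (not_lt.2 h)
      have k2 : ‖p.2‖ < τ₁ → ‖b‖ ≤ τ₁ := fun h => by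
        by_contra hn
        exact absurd (h3 (not_le.1 hn)) (not_lt.2 h.le)
      apply hg
      rcases hSt with ⟨hk, ⟨-, h⟩ | ⟨-, h⟩⟩ | ⟨hk, -, h4, ⟨-, h⟩ | ⟨-, h⟩⟩
      · exact Or.inl ⟨hk, h.imp_right k1⟩
      · exact absurd h1 (not_lt.2 h)
      · exact Or.inr ⟨hk, k1 h, k2 h4⟩
      · exact absurd h1 (not_lt.2 h)

end Crest.Agent.R257.Ta1_938
end
end

-- ▼ part R257/Ta3_980
section

/-!
# Row 257 (S0395), C-WT, leaf (F4) (helper980): `loc_axis2`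
-/

set_option autoImplicit false
set_option linter.unusedSectionVars false
set_option linter.unusedVariables false

open Polynomial Set Filter Topology Metric
open Crest.AlgGeometry.Germ Crest.Agent.R257.AJ387 Crest.Agent.R257.T387
open Crest.Agent.R257.Gr1_157 Crest.Agent.R257.HoB_843 Crest.Agent.R257.BP_258
open Crest.Agent.R257.Frm_547 Crest.Agent.R257.Lab_931 Crest.Agent.R257.Wt_258

noncomputable section

namespace Crest.Agent.R257.Ta2_980

variable {f : (Fin 3 → ℂ) → ℂ} {T : TB f} {U : Tub T} {S : Sh T}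
variable {L : Lab U S} {y : II U → ℝ} {F : Finset (Ch T.m)} {K : DKill S F}
variable [Fintype (II U)] {τ₀ τ₁ : ℝ}

theorem strict2 : Strict2 S := fun hc _ hv _ ha h0 _ hH hp Y =>
  V2_808.strict2 hc hv ha h0 hH hp Y

/-- **the second axis** -/
theorem loc_axis2 (P : WPar L y K τ₀ τ₁) (hR : RetStmt U) (hτ : 0 < τ₀) (hu : Unk K τ₁)
    {c : Ch T.m} (hc : c ∈ F) (j : Fin T.d) {v : Vtx} (hv : v2 T c = some v) {a : ℂ}
    (ha : ‖a‖ ≤ S.r c) (h0 : a ≠ 0)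
    (hT : ∀ {v : Vtx} {q₀ : XV U v} (D : TC U v q₀), TubeOut P D) : LocS P c j (a, 0) :=
  loc_axis2_of P strict2 hR hτ hu hc j hv ha h0 hT

end Crest.Agent.R257.Ta2_980
end
end

-- ▼ part R257/Hv5_174
section

/-!
Row 257 (S0395), task C-HV (helper174), file 5: **`HVDStmt`** from `RSWStmt`, `EndStmt`, `LabWD` and
the sum formula `SumStmt`.
-/

set_option autoImplicit false
set_option linter.unusedSectionVars false

open Polynomial Set Filter Topology Metric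
open Crest.AlgGeometry.Germ Crest.Agent.R257.AJ387 Crest.Agent.R257.T387
open Crest.Agent.R257.Gr1_157 Crest.Agent.R257.HoB_843 Crest.Agent.R257.BP_258
open Crest.Agent.R257.Wt_258 Crest.Agent.R257.Cpt1_419

noncomputable section

namespace Crest.Agent.R257.Hv_174

variable {f : (Fin 3 → ℂ) → ℂ} {T : TB f} {S : Sh T} {U : Tub T}

/-- a common positive bound -/
lemma exists_lower {ι : Type*} (s : Finset ι) (τ : ι → ℝ) (h : ∀ i ∈ s, 0 < τ i) :
    ∃ τ₁ : ℝ, 0 < τ₁ ∧ ∀ i ∈ s, τ₁ < τ i := by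
  have h1 : ∀ᶠ t in 𝓝[>] (0 : ℝ), ∀ i ∈ s, t < τ i := by
    rw [Finset.eventually_all]
    exact fun i hi => nhdsWithin_le_nhds (gt_mem_nhds (h i hi))
  obtain ⟨t, ht, h0⟩ := (h1.and self_mem_nhdsWithin).exists
  exact ⟨t, h0, ht⟩

theorem hvdStmt_of [Fintype (II U)] (hRSW : RSWStmt) {L : Lab U S} (hE : EndStmt L) (hW : LabWD L)
    (hsum : ∀ (y : II U → ℝ) (F : Finset (Ch T.m)) (K : DKill S F), (∀ c ∈ F, Ok S c) →
      (∀ E, DSup L y K E) → ∀ E, tot L y K 0 E < 0) : HVDStmt L := by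
  classical
  intro y F K hF hK
  have h1 : ∀ᶠ δ in 𝓝 (0 : ℝ), ∀ E, tot L y K δ E < 0 := by
    rw [eventually_all]
    intro E
    have h2 : tot L y K 0 E < 0 := hsum y F K hF hK E
    exact (tot_cont L y K E).continuousAt.eventually (gt_mem_nhds h2)
  obtain ⟨δ, hδ, hδ0⟩ := ((h1.filter_mono (nhdsWithin_le_nhds (s := Ioi (0 : ℝ)))).and
    self_mem_nhdsWithin).exists
  have hV : ∀ v : Vtx, ∃ (τ C : ℝ) (h : XV U v → ℝ), v ∈ Vs T → (0 < τ ∧
      SmPos (pV U v) (QD K v) h ∧ ∀ c, Ok S c →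
      (v1 T c = some v → ∀ γ, End1 U S c v γ → ∀ j, (IsV c → (c, j) ∈ K.κ) →
        ∀ b : ℂ, 0 < ‖b‖ → ‖b‖ < τ → ‖b‖ < S.r c →
        |h (γ j b) - (d1 L y K c j + δ) * Real.log (‖b‖ ^ 2)| ≤ C) ∧
      (v2 T c = some v → ∀ γ, End2 U S c v γ → ∀ j,
        ∀ a : ℂ, 0 < ‖a‖ → ‖a‖ < τ → ‖a‖ < S.r c →
        |h (γ j a) - (d2 L y K c j + δ) * Real.log (‖a‖ ^ 2)| ≤ C)) := by
    intro v
    by_cases hv : v ∈ Vs T
    · obtain ⟨τ, C, h, h3⟩ := perV hRSW hE hW y K hF hv (fun E => hδ ⟨⟨v, hv⟩, E⟩)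
      exact ⟨τ, C, h, fun _ => h3⟩
    · exact ⟨0, 0, fun _ => 0, fun h => absurd h hv⟩
  choose τ C h hh using hV
  obtain ⟨τ₁, hτ₁, hτ⟩ := exists_lower (Vs T) τ fun v hv => (hh v hv).1
  have hC : ∀ v ∈ Vs T, C v ≤ ∑ v ∈ Vs T, |C v| := fun v hv =>
    (le_abs_self _).trans (Finset.single_le_sum (f := fun v => |C v|) (fun _ _ => abs_nonneg _) hv)
  refine ⟨δ, τ₁, ∑ v ∈ Vs T, |C v|, h, hδ0, hτ₁, fun v hv => (hh v hv).2.1, ?_⟩
  intro c hc v
  obtain ⟨h2, h3⟩ := (hh v.1 v.2).2.2 c hc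
  refine ⟨fun e γ hγ j hj b hb hb1 hb2 => ?_, fun e γ hγ j a ha ha1 ha2 => ?_⟩
  · exact (h2 e γ hγ j hj b hb (hb1.trans (hτ _ v.2)) hb2).trans (hC _ v.2)
  · exact (h3 e γ hγ j a ha (ha1.trans (hτ _ v.2)) ha2).trans (hC _ v.2)

end Crest.Agent.R257.Hv_174
end
end

-- ▼ part R257/RSW1_176
section

/-!
# Row 257, part C, weights on finite coverings (helper176), file RSW1

* `crd_ch0`  : the charts of the compactification are coordinates for the atlas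
* `lv_pos`   : a function with positive `∂∂̄` in the atlas has positive Laplacian along sections
* `wt_conn`  : the weight on a connected covering, with its asymptotics at the ends and poles
-/

set_option autoImplicit false
set_option linter.unusedSectionVars false

open Set Filter Topology Metric Complex
open scoped ContDiff Manifold Matrix ComplexConjugate ComplexOrder

noncomputable section

namespace Crest.Agent.R257.RS_176

open Crest.Agent.R273 Crest.Agent.R275 Crest.Agent.R275.Geo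
open Crest.Agent.R273.Defs_333 Crest.Agent.R273.Kah_333 Crest.Agent.R273.Hess_333
open Crest.Agent.R273.HM_333 Crest.Agent.R273.Vm_333 Crest.Agent.R273.Vol_333
open Crest.Agent.R273.HessB_333 Crest.Agent.R273.Green_5 Crest.Agent.R273.GreenM_5
open Crest.Agent.R275.EDR890 Crest.Agent.R273.StokesV_332
open Crest.Agent.R257.RSA_844 Crest.Agent.R257.HoB_843
open Crest.Agent.R275.Dg199 (SmN smN_iff)

namespace Srf

variable {X : Type} [TopologicalSpace X] [T2Space X] (T : Srf X)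

/-- the chart `a` read in the chart `j` of the atlas, and back -/
lemma trans_inv {A : Atl 1 T.Cp} (hC : T.Compat A) (a : T.SecD ⊕ T.ι) {p : T.Cp}
    (ha : p ∈ (T.ch0 a).source) {j : A.ι} (hj : p ∈ (A.e j).source) :
    AnalyticAt ℂ (fun z => A.e j ((T.ch0 a).symm z)) (T.ch0 a p) ∧
    AnalyticAt ℂ (fun v => T.ch0 a ((A.e j).symm v)) (A.e j p) ∧
    fderiv ℂ (fun v => T.ch0 a ((A.e j).symm v)) (A.e j p)
      (fderiv ℂ (fun z => A.e j ((T.ch0 a).symm z)) (T.ch0 a p) 1) = 1 := by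
  have ho1 : IsOpen {z | z ∈ (T.ch0 a).target ∧ (T.ch0 a).symm z ∈ (A.e j).source} :=
    (T.ch0 a).isOpen_inter_preimage_symm (A.e j).open_source
  have ho2 : IsOpen {v | v ∈ (A.e j).target ∧ (A.e j).symm v ∈ (T.ch0 a).source} :=
    (A.e j).isOpen_inter_preimage_symm (T.ch0 a).open_source
  have hm1 : T.ch0 a p ∈ {z | z ∈ (T.ch0 a).target ∧ (T.ch0 a).symm z ∈ (A.e j).source} :=
    ⟨(T.ch0 a).map_source ha, by rw [(T.ch0 a).left_inv ha]; exact hj⟩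
  have hm2 : A.e j p ∈ {v | v ∈ (A.e j).target ∧ (A.e j).symm v ∈ (T.ch0 a).source} :=
    ⟨(A.e j).map_source hj, by rw [(A.e j).left_inv hj]; exact ha⟩
  have h1 : AnalyticAt ℂ (fun z => A.e j ((T.ch0 a).symm z)) (T.ch0 a p) :=
    (hC.out a j).analyticAt (ho1.mem_nhds hm1)
  have h2 : AnalyticAt ℂ (fun v => T.ch0 a ((A.e j).symm v)) (A.e j p) :=
    Crest.Agent.R266.SCV.analyticOnNhd_of_differentiableOn ho2 (hC.inn a j) _ hm2
  refine ⟨h1, h2, ?_⟩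
  have hv : A.e j ((T.ch0 a).symm (T.ch0 a p)) = A.e j p := by rw [(T.ch0 a).left_inv ha]
  have h2' : DifferentiableAt ℂ (fun v => T.ch0 a ((A.e j).symm v))
      ((fun z => A.e j ((T.ch0 a).symm z)) (T.ch0 a p)) := by
    simp only [hv]
    exact h2.differentiableAt
  have hc := fderiv_comp (T.ch0 a p) h2' h1.differentiableAt
  have he : ((fun v => T.ch0 a ((A.e j).symm v)) ∘ fun z => A.e j ((T.ch0 a).symm z))
      =ᶠ[𝓝 (T.ch0 a p)] id := by
    filter_upwards [ho1.mem_nhds hm1] with z hz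
    simp only [Function.comp_apply, id]
    rw [(A.e j).left_inv hz.2, (T.ch0 a).right_inv hz.1]
  rw [he.fderiv_eq, fderiv_id] at hc
  have h3 := congrArg (fun L : ℂ →L[ℂ] ℂ => L 1) hc
  simp only [ContinuousLinearMap.id_apply, ContinuousLinearMap.comp_apply, hv] at h3
  exact h3.symm

/-- the charts of the compactification are coordinates of the atlas -/
lemma crd_ch0 {A : Atl 1 T.Cp} (hC : T.Compat A) (a : T.SecD ⊕ T.ι) {p : T.Cp}
    (ha : p ∈ (T.ch0 a).source) : Crd A p (fun x => T.ch0 a x - T.ch0 a p) where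
  zero := sub_self _
  ex := by
    obtain ⟨j, hj⟩ := A.cover p
    obtain ⟨h1, h2, h3⟩ := T.trans_inv hC a ha hj
    refine ⟨j, hj, h2.sub analyticAt_const, ?_⟩
    rw [fderiv_sub_const]
    intro h0
    set v := fderiv ℂ (fun z => A.e j ((T.ch0 a).symm z)) (T.ch0 a p) 1 with hv
    rw [eq_smul_e v, map_smul, h0, smul_zero] at h3
    exact zero_ne_one h3

/-- positivity along the charts -/
lemma lv_pos {A : Atl 1 T.Cp} (hC : T.Compat A) (a : T.SecD ⊕ T.ι) {p : T.Cp}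
    (ha : p ∈ (T.ch0 a).source) {H : T.Cp → ℝ} (hH : SmN A H p) {j : A.ι}
    (hj : p ∈ (A.e j).source) (hpos : 0 < (hsf A H j p 0 0).re) :
    ContDiffAt ℝ ∞ (fun z => H ((T.ch0 a).symm z)) (T.ch0 a p) ∧
      0 < lvE (fun z => H ((T.ch0 a).symm z)) (T.ch0 a p) 1 := by
  obtain ⟨h1, h2, h3⟩ := T.trans_inv hC a ha hj
  have hs : ContDiffAt ℝ ∞ (fun z => H ((A.e j).symm z)) (A.e j p) := (smN_iff hj).1 hH
  have hv : A.e j ((T.ch0 a).symm (T.ch0 a p)) = A.e j p := by rw [(T.ch0 a).left_inv ha]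
  have ho1 : IsOpen {z | z ∈ (T.ch0 a).target ∧ (T.ch0 a).symm z ∈ (A.e j).source} :=
    (T.ch0 a).isOpen_inter_preimage_symm (A.e j).open_source
  have hm1 : T.ch0 a p ∈ {z | z ∈ (T.ch0 a).target ∧ (T.ch0 a).symm z ∈ (A.e j).source} :=
    ⟨(T.ch0 a).map_source ha, by rw [(T.ch0 a).left_inv ha]; exact hj⟩
  have he : (fun z => H ((T.ch0 a).symm z)) =ᶠ[𝓝 (T.ch0 a p)]
      (fun z => H ((A.e j).symm z)) ∘ fun z => A.e j ((T.ch0 a).symm z) := by
    filter_upwards [ho1.mem_nhds hm1] with z hz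
    simp only [Function.comp_apply]
    rw [(A.e j).left_inv hz.2]
  have hs' : ContDiffAt ℝ ∞ (fun z => H ((A.e j).symm z))
      ((fun z => A.e j ((T.ch0 a).symm z)) (T.ch0 a p)) := by
    simp only [hv]
    exact hs
  constructor
  · exact (ContDiffAt.comp (g := fun z => H ((A.e j).symm z))
      (f := fun z => A.e j ((T.ch0 a).symm z)) (T.ch0 a p) hs'
      (h1.contDiffAt.restrict_scalars ℝ)).congr_of_eventuallyEq he
  · rw [lvE_congr he, lvE_comp h1.contDiffAt (hs'.of_le (WithTop.coe_le_coe.2 le_top))]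
    set v := fderiv ℂ (fun z => A.e j ((T.ch0 a).symm z)) (T.ch0 a p) 1 with hvd
    have hv0 : v 0 ≠ 0 := by
      intro h0
      rw [eq_smul_e v, h0, zero_smul, map_zero] at h3
      exact zero_ne_one h3
    have h4 : lvE (fun z => H ((A.e j).symm z)) (A.e j p) v =
        Levi_145.lev (fun z => H ((A.e j).symm z)) (A.e j p) v := by
      unfold lvE Levi_145.lev
      ring
    simp only [hv]
    rw [h4, eq_smul_e v, Levi_145.lev_smul (hs.of_le (WithTop.coe_le_coe.2 le_top))]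
    have h5 := hess_lev hs
    have h6 : (hsf A H j p 0 0).re = Levi_145.lev (fun z => H ((A.e j).symm z)) (A.e j p)
        (EuclideanSpace.single 0 1) := by
      unfold hsf
      rw [h5, ofReal_re]
    rw [← h6]
    have := norm_pos_iff.2 hv0
    positivity

/-- asymptotics in a coordinate -/
lemma asym {A : Atl 1 T.Cp} (hC : T.Compat A) (a : T.SecD ⊕ T.ι) {p : T.Cp}
    (ha : p ∈ (T.ch0 a).source) {H : T.Cp → ℝ} {b : ℝ}
    (hlog : ∀ j, p ∈ (A.e j).source → ∃ B : T.Cp → ℝ, (∀ᶠ x in 𝓝 p, SmN A B x) ∧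
      ∀ᶠ x in 𝓝 p, x ≠ p → H x = b * Real.log (rho (A.e j p) (A.e j x)) + B x) :
    ∃ C : ℝ, ∀ᶠ x in 𝓝 p, x ≠ p →
      |H x - b * Real.log (‖T.ch0 a x - T.ch0 a p‖ ^ 2)| ≤ C := by
  obtain ⟨j, hj⟩ := A.cover p
  obtain ⟨B, hB1, hB2⟩ := hlog j hj
  obtain ⟨B', hB'⟩ := (T.crd_ch0 hC a ha).log hj
  have hc : ContinuousAt (fun x => B x - b * B' x) p :=
    ContinuousAt.sub hB1.self_of_nhds.continuousAt
      (continuousAt_const.mul hB'.self_of_nhds.1.continuousAt)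
  have hb : ∀ᶠ x in 𝓝 p, |B x - b * B' x| < |B p - b * B' p| + 1 :=
    hc.abs.eventually (gt_mem_nhds (by linarith))
  refine ⟨|B p - b * B' p| + 1, ?_⟩
  filter_upwards [hB2, hB', hb] with x h1 h2 h3 hx
  rw [h1 hx, h2.2.2 hx]
  refine le_trans (le_of_eq ?_) h3.le
  congr 1
  ring

lemma ch0_sec (s : T.SecD) {x : X} (h : T.jn x ∈ (T.ch0 (Sum.inl s)).source) :
    T.ch0 (Sum.inl s) (T.jn x) = T.pr x := by
  obtain ⟨z, hz, hzx⟩ := h
  have hzx' : T.jn (s.s z) = T.jn x := hzx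
  have h1 : s.s z = x := T.jn_injective hzx'
  rw [← h1, s.sec z hz]
  exact mkCh_apply (hmap := fun _ h => T.map_nhds_jsec s h) hz

lemma ch0_end (i : T.ι) {τ : ℂ} (h : τ ∈ ball (0 : ℂ) T.ε) :
    T.ch0 (Sum.inr i) (T.D i τ) = τ := mkCh_apply (hmap := fun _ h => T.map_nhds_D _ h) h

/-- **the weight on a connected covering** -/
theorem wt_conn [ConnectedSpace X] (Q : Finset X) (t : X → ℝ) (b : T.ι → ℝ)
    (hneg : ∑ i, b i + ∑ q ∈ Q, t q < 0) :
    ∃ h : X → ℝ, Wt_258.SmPos T.pr (↑Q) h ∧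
      (∀ i, ∃ C δ : ℝ, 0 < δ ∧ ∀ τ : ℂ, 0 < ‖τ‖ → ‖τ‖ < δ →
        |h (T.γ i τ) - b i * Real.log (‖τ‖ ^ 2)| ≤ C) ∧
      ∀ q ∈ Q, ∃ C : ℝ, ∀ᶠ x in 𝓝 q, x ≠ q →
        |h x - t q * Real.log (‖T.pr x - T.pr q‖ ^ 2)| ≤ C := by
  classical
  obtain ⟨A, -, ⟨P⟩, hfin, hC, -⟩ := T.exists_atl (fun _ : Unit => (univ : Set T.Cp))
    (fun _ => isOpen_univ) (fun _ => ⟨(), trivial⟩)
  let S : Finset T.Cp := (Q.disjSum (Finset.univ : Finset T.ι) : Finset (X ⊕ T.ι))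
  let bb : T.Cp → ℝ := (Sum.elim t b : X ⊕ T.ι → ℝ)
  have hS1 : ∀ x, T.jn x ∈ S ↔ x ∈ Q := fun x => Finset.inl_mem_disjSum
  have hS2 : ∀ i, T.en i ∈ S := fun i => Finset.inr_mem_disjSum.2 (Finset.mem_univ i)
  have hsum : ∑ p ∈ S, bb p = ∑ q ∈ Q, t q + ∑ i, b i :=
    Finset.sum_disjSum Q (Finset.univ : Finset T.ι) (Sum.elim t b)
  obtain ⟨H, κ, h1, h2, h3, h4⟩ := exists_h2 (kah P) P S bb
  have hne' : Nonempty T.Cp := inferInstance
  have hvol := (int_g_pos (kah P) P).1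
  have hκ : 0 < κ := by
    have h5 : 0 < κ * (intD P (fun i x => (kah P).g i x 0 0)).re := by
      rw [h1, hsum]
      have := Real.pi_pos
      nlinarith
    exact (pos_iff_pos_of_mul_pos h5).2 hvol
  have hpos : ∀ i, ∀ x ∈ (A.e i).source, x ∉ S → 0 < (hsf A H i x 0 0).re := by
    intro i x hx hxS
    rw [h3 i x hx hxS, Complex.re_ofReal_mul]
    have h5 := det_re_pos ((kah P).pos i x hx)
    rw [det1] at h5
    positivity
  refine ⟨fun x => H (T.jn x), ?_, ?_, ?_⟩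
  · intro w₀ ρ σ hρ hσ hσ' hq
    set a : T.SecD ⊕ T.ι := Sum.inl ⟨w₀, ρ, σ, hσ, hσ'⟩ with ha
    have hp : T.jn (σ w₀) ∈ (T.ch0 a).source := ⟨w₀, mem_ball_self hρ, rfl⟩
    have hch : T.ch0 a (T.jn (σ w₀)) = w₀ := by
      rw [T.ch0_sec _ hp, hσ' _ (mem_ball_self hρ)]
    obtain ⟨j, hj⟩ := A.cover (T.jn (σ w₀))
    have hqS : T.jn (σ w₀) ∉ S := fun h => hq ((hS1 _).1 h)
    have h5 := T.lv_pos hC a hp (h2 _ hqS) hj (hpos j _ hj hqS)
    rw [hch] at h5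
    exact h5
  · intro i
    have hp : T.en i ∈ (T.ch0 (Sum.inr i)).source := ⟨0, mem_ball_self T.εpos, T.D_zero i⟩
    obtain ⟨C, hC'⟩ := T.asym hC (Sum.inr i) hp (h4 _ (hS2 i))
    have hch : T.ch0 (Sum.inr i) (T.en i) = 0 := by
      rw [← T.D_zero i]
      exact T.ch0_end i (mem_ball_self T.εpos)
    have hD := T.map_nhds_D i (mem_ball_self T.εpos)
    rw [D_zero] at hD
    rw [← hD, Filter.eventually_map] at hC'
    obtain ⟨δ, hδ, hball⟩ := Metric.eventually_nhds_iff_ball.1 hC'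
    refine ⟨C, min δ T.ε, lt_min hδ T.εpos, fun τ h5 h6 => ?_⟩
    have h7 := hball τ (mem_ball_zero_iff.2 (h6.trans_le (min_le_left _ _)))
      (by rw [T.D_of_ne i (norm_pos_iff.1 h5)]; exact T.jn_ne_en _ _)
    rw [hch, sub_zero, T.ch0_end i (mem_ball_zero_iff.2 (h6.trans_le (min_le_right _ _))),
      T.D_of_ne i (norm_pos_iff.1 h5)] at h7
    exact h7
  · intro q hq
    obtain ⟨s, hr, hw, hx⟩ := T.exists_secD q
    have hq' : T.pr q ∈ ball s.w s.r := by rw [← hw]; exact mem_ball_self hr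
    have hp : T.jn q ∈ (T.ch0 (Sum.inl s)).source := ⟨T.pr q, hq', congrArg T.jn hx⟩
    obtain ⟨C, hC'⟩ := T.asym hC (Sum.inl s) hp (h4 _ ((hS1 q).2 hq))
    refine ⟨C, ?_⟩
    have hj := T.isOpenEmbedding_jn.continuous.continuousAt.eventually
      (hC'.and ((T.ch0 (Sum.inl s)).open_source.mem_nhds hp))
    filter_upwards [hj] with x h5 h6
    have h7 := h5.1 (fun h => h6 (T.jn_injective h))
    rw [T.ch0_sec s h5.2, T.ch0_sec s hp] at h7
    exact h7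

end Srf

end Crest.Agent.R257.RS_176
end
end

-- ▼ part R257/RSW2_176
section

/-!
# Row 257, part C, weights on finite coverings (helper176), file RSW2

Sums over the fibres near a branch point (or infinity) and the ends: `sum_fib_eq`.
-/

set_option autoImplicit false
set_option linter.unusedSectionVars false

open Set Filter Topology Metric
open scoped ContDiff

noncomputable section

namespace Crest.Agent.R257.RS_176

/-- a function locally constant along a preconnected set is constant -/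
lemma const_on {α β : Type*} [TopologicalSpace α] {s : Set α} (hs : IsPreconnected s)
    {f : α → β} (hf : ∀ x ∈ s, ∀ᶠ y in 𝓝[s] x, f y = f x) {x y : α} (hx : x ∈ s) (hy : y ∈ s) :
    f x = f y := by
  have h1 : PreconnectedSpace s := isPreconnected_iff_preconnectedSpace.1 hs
  have h2 : IsLocallyConstant (fun z : s => f z.1) := by
    rw [IsLocallyConstant.iff_eventually_eq]
    intro z
    have h3 := hf z.1 z.2
    rw [nhdsWithin_eq_map_subtype_coe z.2, Filter.eventually_map] at h3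
    exact h3
  exact h2.apply_eq_of_isPreconnected (s := univ) isPreconnected_univ (mem_univ (⟨x, hx⟩ : s))
    (mem_univ (⟨y, hy⟩ : s))

/-- region around a centre -/
def Rg (c : Option ℂ) (ρ : ℝ) : Set ℂ :=
  match c with
  | some a => {w | ‖w - a‖ < ρ}
  | none => {w | ρ⁻¹ < ‖w‖}

/-- closed region around a centre -/
def Rc (c : Option ℂ) (ρ : ℝ) : Set ℂ :=
  match c with
  | some a => {w | ‖w - a‖ ≤ ρ}
  | none => {w | ρ⁻¹ ≤ ‖w‖}

/-- the logarithm of a centre -/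
def Lg (c : Option ℂ) (w : ℂ) : ℝ :=
  match c with
  | some a => Real.log (‖w - a‖ ^ 2)
  | none => - Real.log (‖w‖ ^ 2)


lemma isClosed_Rc (c : Option ℂ) (ρ : ℝ) : IsClosed (Rc c ρ) := by
  cases c with
  | none => exact isClosed_le continuous_const continuous_norm
  | some a => exact isClosed_le (continuous_id.sub continuous_const).norm continuous_const

lemma Rg_sub_Rc (c : Option ℂ) (ρ : ℝ) : Rg c ρ ⊆ Rc c ρ := by
  cases c with
  | none => exact fun w (hw : ρ⁻¹ < ‖w‖) => show ρ⁻¹ ≤ ‖w‖ from hw.le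
  | some a => exact fun w (hw : ‖w - a‖ < ρ) => show ‖w - a‖ ≤ ρ from hw.le

lemma Rc_sub_Rg (c : Option ℂ) {ρ ρ' : ℝ} (h0 : 0 < ρ) (h : ρ < ρ') : Rc c ρ ⊆ Rg c ρ' := by
  cases c with
  | none =>
    intro w hw
    have h1 : ρ⁻¹ ≤ ‖w‖ := hw
    exact lt_of_lt_of_le ((inv_lt_inv₀ (h0.trans h) h0).2 h) h1
  | some a =>
    intro w hw
    exact lt_of_le_of_lt hw h

lemma pow_bd {m : ℕ} (hm : 0 < m) {τ : ℂ} {ρ : ℝ} (h : τ ∈ PD (min 1 ρ)) :
    0 < ‖τ‖ ^ m ∧ ‖τ‖ ^ m < ρ := by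
  refine ⟨pow_pos h.1 m, ?_⟩
  have h1 : ‖τ‖ < 1 := h.2.trans_le (min_le_left _ _)
  exact (pow_le_of_le_one h.1.le h1.le hm.ne').trans_lt (h.2.trans_le (min_le_right _ _))

lemma Rg_of_pow (c : Option ℂ) {m : ℕ} {τ : ℂ} {ρ : ℝ} (h0 : 0 < ‖τ‖ ^ m)
    (h1 : ‖τ‖ ^ m < ρ) : endPr c m τ ∈ Rg c ρ := by
  cases c with
  | none =>
    change ρ⁻¹ < ‖(τ ^ m)⁻¹‖
    rw [norm_inv, norm_pow]
    exact (inv_lt_inv₀ (h0.trans h1) h0).2 h1
  | some a =>
    change ‖a + τ ^ m - a‖ < ρ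
    rw [add_sub_cancel_left, norm_pow]
    exact h1

lemma Lg_endPr (c : Option ℂ) (m : ℕ) (τ : ℂ) :
    Lg c (endPr c m τ) = m * Real.log (‖τ‖ ^ 2) := by
  cases c with
  | none =>
    change - Real.log (‖(τ ^ m)⁻¹‖ ^ 2) = _
    rw [norm_inv, norm_pow, inv_pow, Real.log_inv, neg_neg, ← pow_mul, mul_comm m 2, pow_mul,
      Real.log_pow]
  | some a =>
    change Real.log (‖a + τ ^ m - a‖ ^ 2) = _
    rw [add_sub_cancel_left, norm_pow, ← pow_mul, mul_comm m 2, pow_mul, Real.log_pow]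

/-- the punctured region -/
def PR (c : Option ℂ) (ρ : ℝ) : Set ℂ := endPr c 1 '' PD ρ

lemma isPreconnected_PR (c : Option ℂ) (ρ : ℝ) : IsPreconnected (PR c ρ) := by
  refine (isPreconnected_PD ρ).image _ fun q hq => ?_
  obtain ⟨d, -, h⟩ := hasStrictDerivAt_endPr c one_pos (norm_pos_iff.1 hq.1)
  exact h.hasDerivAt.continuousAt.continuousWithinAt

lemma mem_PR {c : Option ℂ} {ρ : ℝ} (hρ : 0 < ρ) {w : ℂ} :
    w ∈ PR c ρ ↔ w ∈ Rg c ρ ∧ ∀ a, c = some a → w ≠ a := by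
  cases c with
  | none =>
    constructor
    · rintro ⟨q, hq, rfl⟩
      exact ⟨Rg_of_pow none (by simpa using hq.1) (by simpa using hq.2), by simp⟩
    · rintro ⟨h1, -⟩
      have h1' : ρ⁻¹ < ‖w‖ := h1
      have h2 : 0 < ‖w‖ := lt_trans (inv_pos.2 hρ) h1'
      refine ⟨w⁻¹, ⟨by rw [norm_inv]; positivity, ?_⟩, ?_⟩
      · rw [norm_inv]
        rw [inv_lt_comm₀ h2 hρ]
        exact h1'
      · simp [endPr]
  | some a =>
    constructor
    · rintro ⟨q, hq, rfl⟩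
      refine ⟨Rg_of_pow (some a) (by simpa using hq.1) (by simpa using hq.2), ?_⟩
      intro b hb
      have hb' : a = b := by simpa using hb
      subst hb'
      intro h
      have h3 : q = 0 := by simpa [endPr] using h
      rw [h3] at hq
      simp [PD] at hq
    · rintro ⟨h1, h2⟩
      have h1' : ‖w - a‖ < ρ := h1
      exact ⟨w - a, ⟨norm_pos_iff.2 (sub_ne_zero.2 (h2 a rfl)), h1'⟩, by simp [endPr]⟩

lemma continuousAt_Lg {c : Option ℂ} {ρ : ℝ} (hρ : 0 < ρ) {w : ℂ} (h : w ∈ Rg c ρ)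
    (h' : ∀ a, c = some a → w ≠ a) : ContinuousAt (Lg c) w := by
  cases c with
  | none =>
    have h1 : ρ⁻¹ < ‖w‖ := h
    have h2 : 0 < ‖w‖ := lt_trans (inv_pos.2 hρ) h1
    exact (ContinuousAt.log (continuous_norm.pow 2).continuousAt (pow_pos h2 2).ne').neg
  | some a =>
    have h2 : 0 < ‖w - a‖ := norm_pos_iff.2 (sub_ne_zero.2 (h' a rfl))
    exact ContinuousAt.log ((continuous_id.sub continuous_const).norm.pow 2).continuousAt
      (pow_pos h2 2).ne'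

lemma endPr_inj {c : Option ℂ} {m : ℕ} {τ q : ℂ} (h : endPr c m τ = endPr c 1 q) :
    τ ^ m = q := by
  cases c with
  | none => simpa [endPr] using h
  | some a => simpa [endPr] using h

lemma exists_roots {q : ℂ} (hq : q ≠ 0) {m : ℕ} (hm : 0 < m) :
    ∃ R : Finset ℂ, R.card = m ∧ ∀ τ, τ ∈ R ↔ τ ^ m = q := by
  classical
  have h1 := Complex.isPrimitiveRoot_exp m hm.ne'
  refine ⟨(Polynomial.nthRoots m q).toFinset, ?_, fun τ => ?_⟩
  · rw [Multiset.toFinset_card_of_nodup (h1.nthRoots_nodup hq), h1.card_nthRoots, if_pos]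
    obtain ⟨τ, hτ⟩ := IsAlgClosed.exists_pow_nat_eq q hm
    exact ⟨τ, hτ⟩
  · rw [Multiset.mem_toFinset, Polynomial.mem_nthRoots hm]

namespace Srf

variable {X : Type} [TopologicalSpace X] (T : Srf X)

variable {T} in
lemma sum_fib {w : ℂ} {r : ℝ} {σ : Fin T.n → ℂ → X}
    (h2 : ∀ j, ∀ z ∈ ball w r, T.pr (σ j z) = z)
    (h3 : ∀ z ∈ ball w r, Function.Injective fun j => σ j z)
    (h4 : ∀ x, T.pr x ∈ ball w r → ∃ j, σ j (T.pr x) = x) {z : ℂ} (hz : z ∈ ball w r)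
    (f : X → ℝ) : ∑ x ∈ T.fib z, f x = ∑ j, f (σ j z) := by
  have h := prod_fib (T := T) h2 h3 h4 hz (f := fun x => Multiplicative.ofAdd (f x))
  have h' := congrArg Multiplicative.toAdd h
  simpa using h'

/-- sums of locally constant functions over the fibres are locally constant -/
lemma sum_fib_loc [T2Space X] {f : X → ℝ} {w : ℂ} (hw : w ∉ T.S)
    (hf : ∀ x, T.pr x = w → ∀ᶠ y in 𝓝 x, f y = f x) :
    ∀ᶠ z in 𝓝 w, ∑ x ∈ T.fib z, f x = ∑ x ∈ T.fib w, f x := by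
  obtain ⟨r, hr, σ, h1, h2, h3, h4⟩ := T.sec w hw
  have h5 : ∀ᶠ z in 𝓝 w, ∀ j, f (σ j z) = f (σ j w) := by
    rw [eventually_all]
    intro j
    have h6 : ContinuousAt (σ j) w := (h1 j).continuousAt (ball_mem_nhds w hr)
    exact h6.eventually (hf (σ j w) (h2 j w (mem_ball_self hr)))
  filter_upwards [h5, ball_mem_nhds w hr] with z hz hzb
  rw [sum_fib h2 h3 h4 hzb, sum_fib h2 h3 h4 (mem_ball_self hr)]
  exact Finset.sum_congr rfl fun j _ => hz j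

lemma cover_end (c : Option ℂ) (hc : ∀ a, c = some a → a ∈ T.S) :
    ∃ η > 0, ∀ x, ∀ q ∈ PD η, T.pr x = endPr c 1 q →
      ∃ i τ, T.c i = c ∧ τ ∈ PD T.ε ∧ T.γ i τ = x ∧ τ ^ T.m i = q := by
  have hε := T.εpos
  cases c with
  | none =>
    obtain ⟨R, hR⟩ := T.exists_R
    refine ⟨(|R| + 1)⁻¹, by positivity, fun x q hq hx => ?_⟩
    have h1 : R < ‖T.pr x‖ := by
      rw [hx]
      change R < ‖(q ^ 1)⁻¹‖
      rw [pow_one, norm_inv]
      have h2 : |R| + 1 < ‖q‖⁻¹ := by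
        rw [lt_inv_comm₀ (by positivity) hq.1]
        exact hq.2
      have := le_abs_self R
      linarith
    obtain ⟨i, τ, hi, h2, h3, h4⟩ := hR x h1
    refine ⟨i, τ, hi, ⟨h2, by linarith⟩, h4, ?_⟩
    rw [← h4, T.pr_γ i τ h2 (by linarith), hi] at hx
    exact endPr_inj hx
  | some a =>
    obtain ⟨δ, hδ, h⟩ := T.exists_delta
    refine ⟨δ, hδ, fun x q hq hx => ?_⟩
    obtain ⟨i, τ, hi, h2, h3, h4⟩ := h a (hc a rfl) x (by
      rw [hx]
      change ‖a + q ^ 1 - a‖ < δ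
      rw [add_sub_cancel_left, pow_one]
      exact hq.2)
    refine ⟨i, τ, hi, ⟨h2, by linarith⟩, h4, ?_⟩
    rw [← h4, T.pr_γ i τ h2 (by linarith), hi] at hx
    exact endPr_inj hx

open Classical in
lemma sum_near (c : Option ℂ) (hc : ∀ a, c = some a → a ∈ T.S) {r : ℝ} (hr : 0 < r)
    (hS : ∀ q ∈ PD r, endPr c 1 q ∉ T.S) {f : X → ℝ} {v : T.ι → ℝ} {δ : ℝ} (hδ : 0 < δ)
    (hv : ∀ i, T.c i = c → ∀ τ ∈ PD δ, f (T.γ i τ) = v i) :
    ∃ q ∈ PD r, ∑ x ∈ T.fib (endPr c 1 q), f x =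
      ∑ i with T.c i = c, (T.m i : ℝ) * v i := by
  have hε := T.εpos
  obtain ⟨η, hη, hcov⟩ := T.cover_end c hc
  have h1 : ∀ᶠ q' in 𝓝[>] (0 : ℝ), ∀ i : T.ι, q' < (min δ T.ε) ^ T.m i := by
    rw [eventually_all]
    intro i
    exact mem_of_superset (Ioo_mem_nhdsGT (show (0 : ℝ) < (min δ T.ε) ^ T.m i from
      pow_pos (lt_min hδ hε) _)) fun q' hq' => hq'.2
  have h2 : ∀ᶠ q' in 𝓝[>] (0 : ℝ), q' < min η r :=
    mem_of_superset (Ioo_mem_nhdsGT (lt_min hη hr)) fun q' hq' => hq'.2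
  obtain ⟨q', h3, h4, h5⟩ := (h1.and (h2.and self_mem_nhdsWithin)).exists
  have h5' : 0 < q' := h5
  set q : ℂ := (q' : ℂ) with hq
  have hqn : ‖q‖ = q' := by rw [hq, Complex.norm_real, Real.norm_of_nonneg h5'.le]
  have hqr : q ∈ PD r := ⟨by rw [hqn]; exact h5', by rw [hqn]; exact h4.trans_le (min_le_right _ _)⟩
  have hqη : q ∈ PD η := ⟨by rw [hqn]; exact h5', by rw [hqn]; exact h4.trans_le (min_le_left _ _)⟩
  have hq0 : q ≠ 0 := norm_pos_iff.1 hqr.1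
  refine ⟨q, hqr, ?_⟩
  choose R hR1 hR2 using fun i : T.ι => exists_roots hq0 (T.mpos i)
  have hRτ : ∀ i, ∀ τ ∈ R i, τ ∈ PD (min δ T.ε) := by
    intro i τ hτ
    have h6 := (hR2 i τ).1 hτ
    have h7 : ‖τ‖ ^ T.m i = q' := by rw [← norm_pow, h6, hqn]
    constructor
    · rw [norm_pos_iff]
      rintro rfl
      rw [norm_zero, zero_pow (T.mpos i).ne'] at h7
      linarith
    · have h8 := h3 i
      rw [← h7] at h8
      exact lt_of_pow_lt_pow_left₀ _ (lt_min hδ hε).le h8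
  have hfib : T.fib (endPr c 1 q) = ((Finset.univ.filter fun i => T.c i = c).sigma R).image
      fun p => T.γ p.1 p.2 := by
    ext x
    rw [mem_fib (hS q hqr), Finset.mem_image]
    constructor
    · intro hx
      obtain ⟨i, τ, hi, hτ, hx', hm⟩ := hcov x q hqη hx
      exact ⟨⟨i, τ⟩, by simp [hi, hR2, hm], hx'⟩
    · rintro ⟨⟨i, τ⟩, hp, rfl⟩
      simp only [Finset.mem_sigma, Finset.mem_filter, Finset.mem_univ, true_and] at hp
      have h6 := hRτ i τ hp.2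
      have h7 := T.pr_γ i τ h6.1 (h6.2.trans_le (min_le_right _ _))
      simp only
      rw [h7, hp.1]
      have h8 := (hR2 i τ).1 hp.2
      cases c with
      | none => simp [endPr, h8]
      | some a => simp [endPr, h8]
  rw [hfib, Finset.sum_image, Finset.sum_sigma]
  · refine Finset.sum_congr rfl fun i hi => ?_
    have hi' : T.c i = c := (Finset.mem_filter.1 hi).2
    rw [Finset.sum_congr rfl fun τ hτ =>
      hv i hi' τ ((PD_mono (min_le_left _ _)) (hRτ i τ hτ)), Finset.sum_const, hR1, nsmul_eq_mul]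
  · rintro ⟨i, τ⟩ hp ⟨i', τ'⟩ hp' he
    simp only [Finset.coe_sigma, Set.mem_sigma_iff, Finset.mem_coe] at hp hp'
    have h6 := hRτ i τ hp.2
    have h7 := hRτ i' τ' hp'.2
    obtain ⟨h8, h9⟩ := T.γ_inj i i' τ τ' h6.1 (h6.2.trans_le (min_le_right _ _)) h7.1
      (h7.2.trans_le (min_le_right _ _)) he
    subst h8; subst h9
    rfl

open Classical in
/-- **sums over the fibres near a centre** -/
lemma sum_fib_eq [T2Space X] (c : Option ℂ) (hc : ∀ a, c = some a → a ∈ T.S) {r : ℝ} (hr : 0 < r)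
    (hS : ∀ q ∈ PD r, endPr c 1 q ∉ T.S) {f : X → ℝ}
    (hf : ∀ x, T.pr x ∈ PR c r → ∀ᶠ y in 𝓝 x, f y = f x) {v : T.ι → ℝ} {δ : ℝ} (hδ : 0 < δ)
    (hv : ∀ i, T.c i = c → ∀ τ ∈ PD δ, f (T.γ i τ) = v i) {w : ℂ} (hw : w ∈ PR c r) :
    ∑ x ∈ T.fib w, f x = ∑ i with T.c i = c, (T.m i : ℝ) * v i := by
  obtain ⟨q, hq, h1⟩ := T.sum_near c hc hr hS hδ hv
  rw [← h1]
  have hS' : ∀ z ∈ PR c r, z ∉ T.S := by
    rintro _ ⟨q, hq, rfl⟩
    exact hS q hq
  refine const_on (isPreconnected_PR c r) (f := fun z => ∑ x ∈ T.fib z, f x) ?_ hw ⟨q, hq, rfl⟩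
  intro z hz
  exact eventually_nhdsWithin_of_eventually_nhds
    (T.sum_fib_loc (hS' z hz) fun x hx => hf x (by rw [hx]; exact hz))

/-- constancy along the ends -/
lemma exists_vals [T2Space X] {r : ℝ} (hr : 0 < r) (lam : Option ℂ → X → ℝ)
    (hlam : ∀ i x, T.pr x ∈ PR (T.c i) r → ∀ᶠ y in 𝓝 x, lam (T.c i) y = lam (T.c i) x) :
    ∃ (v : T.ι → ℝ) (δ : ℝ), 0 < δ ∧ δ ≤ T.ε ∧ ∀ i, ∀ τ ∈ PD δ,
      T.pr (T.γ i τ) ∈ PR (T.c i) r ∧ lam (T.c i) (T.γ i τ) = v i := by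
  have hε := T.εpos
  set δ : ℝ := min (min 1 r) T.ε with hδ
  have hδ0 : 0 < δ := by positivity
  have hmem : ∀ i, ∀ τ ∈ PD δ, T.pr (T.γ i τ) ∈ PR (T.c i) r := by
    intro i τ hτ
    have h1 := pow_bd (T.mpos i) (PD_mono (min_le_left _ _) hτ)
    rw [T.pr_γ i τ hτ.1 (hτ.2.trans_le (min_le_right _ _))]
    refine ⟨τ ^ T.m i, ⟨?_, ?_⟩, ?_⟩
    · rw [norm_pow]; exact h1.1
    · rw [norm_pow]; exact h1.2
    · cases T.c i <;> simp [endPr]
  have h0 : ((δ / 2 : ℝ) : ℂ) ∈ PD δ := by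
    have h1 : ‖((δ / 2 : ℝ) : ℂ)‖ = δ / 2 := by
      rw [Complex.norm_real, Real.norm_of_nonneg (by positivity)]
    exact ⟨by rw [h1]; positivity, by rw [h1]; linarith⟩
  refine ⟨fun i => lam (T.c i) (T.γ i ((δ / 2 : ℝ) : ℂ)), δ, hδ0, min_le_right _ _,
    fun i τ hτ => ⟨hmem i τ hτ, ?_⟩⟩
  refine const_on (isPreconnected_PD δ) (f := fun τ => lam (T.c i) (T.γ i τ)) ?_ hτ h0
  intro τ' hτ'
  have h1 : ContinuousWithinAt (T.γ i) (PD δ) τ' :=
    ((T.γ_cont i).mono (PD_mono (min_le_right _ _))) τ' hτ'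
  exact h1.eventually (hlam i _ (hmem i τ' hτ'))

end Srf

end Crest.Agent.R257.RS_176
end
end

-- ▼ part R257/RSW3_176
section

/-!
# Row 257, part C, weights on finite coverings (helper176), file RSW3

`wt_srf`: the statement `RSWStmt` for a connected `Srf`.
-/

set_option autoImplicit false
set_option linter.unusedSectionVars false

open Set Filter Topology Metric
open scoped ContDiff

noncomputable section

namespace Crest.Agent.R257.RS_176

open Crest.Agent.R257.Wt_258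

lemma exists_small {ι : Type*} [Finite ι] {δ : ι → ℝ} (h : ∀ i, 0 < δ i) {ρ : ℝ} (hρ : 0 < ρ) :
    ∃ η > 0, η ≤ ρ ∧ ∀ i, η ≤ δ i := by
  have h1 : ∀ᶠ η in 𝓝[>] (0 : ℝ), ∀ i, η ≤ δ i := by
    rw [eventually_all]
    intro i
    exact mem_of_superset (Ioo_mem_nhdsGT (h i)) fun η hη => hη.2.le
  have h2 : ∀ᶠ η in 𝓝[>] (0 : ℝ), η ≤ ρ :=
    mem_of_superset (Ioo_mem_nhdsGT hρ) fun η hη => hη.2.le
  obtain ⟨η, h3, h4, h5⟩ := (h1.and (h2.and self_mem_nhdsWithin)).exists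
  exact ⟨η, h5, h4, h3⟩

section sep

variable {S : Finset ℂ} {r : ℝ} (hs : Sep S r)
include hs

lemma Rg_disj {c c' : Option ℂ} (hc : ∀ a, c = some a → a ∈ S) (hc' : ∀ a, c' = some a → a ∈ S)
    {w : ℂ} (h : w ∈ Rg c r) (h' : w ∈ Rg c' r) : c = c' := by
  have hr := hs.pos
  cases c with
  | none =>
    cases c' with
    | none => rfl
    | some a =>
      exfalso
      have h1 : r⁻¹ < ‖w‖ := h
      have h2 : ‖w - a‖ < r := h'
      have h3 := hs.inf a (hc' a rfl)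
      have h4 := norm_sub_norm_le w a
      linarith
  | some a =>
    cases c' with
    | none =>
      exfalso
      have h1 : r⁻¹ < ‖w‖ := h'
      have h2 : ‖w - a‖ < r := h
      have h3 := hs.inf a (hc a rfl)
      have h4 := norm_sub_norm_le w a
      linarith
    | some b =>
      by_cases hab : a = b
      · rw [hab]
      · exfalso
        have h1 : ‖w - a‖ < r := h
        have h2 : ‖w - b‖ < r := h'
        have h3 := hs.sep a (hc a rfl) b (hc' b rfl) hab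
        have h4 : ‖a - b‖ ≤ ‖w - b‖ + ‖w - a‖ := by
          have := norm_sub_le (w - b) (w - a)
          rwa [show w - b - (w - a) = a - b by ring] at this
        linarith

lemma endPr_notMem {c : Option ℂ} (hc : ∀ a, c = some a → a ∈ S) {q : ℂ} (hq : q ∈ PD r) :
    endPr c 1 q ∉ S := by
  intro h
  have hr := hs.pos
  have h1 : endPr c 1 q ∈ Rg c r := Rg_of_pow c (by simpa using hq.1) (by simpa using hq.2)
  have h2 : endPr c 1 q ∈ Rg (some (endPr c 1 q)) r := by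
    change ‖endPr c 1 q - endPr c 1 q‖ < r
    rw [sub_self, norm_zero]
    exact hr
  have h3 := Rg_disj hs hc (c' := some (endPr c 1 q)) (fun a ha => by
    have : endPr c 1 q = a := by simpa using ha
    rwa [← this]) h1 h2
  have h4 := ((mem_PR hr (c := c)).1 ⟨q, hq, rfl⟩).2 _ h3
  exact h4 rfl

end sep

namespace Srf

variable {X : Type} [TopologicalSpace X] [T2Space X] (T : Srf X)

/-- continuity off the poles -/
lemma cont_of_smPos {Q : Set X} {h : X → ℝ} (hh : SmPos T.pr Q h) {x : X} (hx : x ∉ Q) :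
    ContinuousAt h x := by
  obtain ⟨s, hr, hw, hsx⟩ := T.exists_secD x
  have hb : s.w ∈ ball s.w s.r := mem_ball_self hr
  have h1 : s.s s.w = x := by rw [hw]; exact hsx
  have h2 := (hh s.w s.r s.s hr s.cont s.sec (by rw [h1]; exact hx)).1.continuousAt
  have h3 := T.map_nhds_sec s hb
  rw [h1] at h3
  have h4 : Tendsto h (map s.s (𝓝 s.w)) (𝓝 (h x)) := by
    rw [Filter.tendsto_map'_iff]
    have h5 := h2.tendsto
    simp only [Function.comp_apply, h1] at h5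
    exact h5
  rw [h3] at h4
  exact h4

open Classical in
/-- **weights on a connected covering** -/
theorem wt_srf [ConnectedSpace X] (Q : Finset X) (t : X → ℝ) (lam : Option ℂ → X → ℝ) {r : ℝ}
    (hs : Sep T.S r) (hQ : ∀ q ∈ Q, (∀ c ∈ T.S, r ≤ ‖T.pr q - c‖) ∧ ‖T.pr q‖ ≤ r⁻¹)
    (hl1 : ∀ c ∈ T.S, ∀ x, ‖T.pr x - c‖ < r → ∀ᶠ y in 𝓝 x, lam (some c) y = lam (some c) x)
    (hl2 : ∀ x, r⁻¹ < ‖T.pr x‖ → ∀ᶠ y in 𝓝 x, lam none y = lam none x)
    (w : Option ℂ → ℂ) (hw1 : ∀ c ∈ T.S, 0 < ‖w (some c) - c‖ ∧ ‖w (some c) - c‖ < r)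
    (hw2 : r⁻¹ < ‖w none‖)
    (hneg : (∑ c ∈ T.S, ∑ x ∈ T.fib (w (some c)), lam (some c) x) +
      (∑ x ∈ T.fib (w none), lam none x) + ∑ q ∈ Q, t q < 0) :
    ∃ (h : X → ℝ) (C : ℝ), SmPos T.pr (↑Q) h ∧
      (∀ c ∈ T.S, ∀ x, ‖T.pr x - c‖ < r / 2 →
        |h x - lam (some c) x * Real.log (‖T.pr x - c‖ ^ 2)| ≤ C) ∧
      (∀ x, 2 * r⁻¹ < ‖T.pr x‖ → |h x + lam none x * Real.log (‖T.pr x‖ ^ 2)| ≤ C) ∧
      ∀ q ∈ Q, ∀ᶠ x in 𝓝 q, x ≠ q →
        |h x - t q * Real.log (‖T.pr x - T.pr q‖ ^ 2)| ≤ C := by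
  have hr := hs.pos
  have hmem : ∀ c : Option ℂ, c ∈ Finset.insertNone T.S ↔ ∀ a, c = some a → a ∈ T.S := by
    intro c
    rw [Finset.mem_insertNone]
    rfl
  have hci : ∀ i, T.c i ∈ Finset.insertNone T.S := fun i => (hmem _).2 (T.c_mem i)
  have hl : ∀ c ∈ Finset.insertNone T.S, ∀ x, T.pr x ∈ Rg c r →
      ∀ᶠ y in 𝓝 x, lam c y = lam c x := by
    intro c hc x hx
    cases c with
    | none => exact hl2 x hx
    | some a => exact hl1 a ((hmem _).1 hc a rfl) x hx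
  have hPR : ∀ {c : Option ℂ} {z : ℂ}, z ∈ PR c r → z ∈ Rg c r := fun h => ((mem_PR hr).1 h).1
  have hwc : ∀ c ∈ Finset.insertNone T.S, w c ∈ PR c r := by
    intro c hc
    rw [mem_PR hr]
    cases c with
    | none => exact ⟨hw2, by simp⟩
    | some a =>
      have h1 := hw1 a ((hmem _).1 hc a rfl)
      refine ⟨h1.2, fun b hb => ?_⟩
      have hb' : a = b := by simpa using hb
      rw [← hb']
      exact sub_ne_zero.1 (norm_pos_iff.1 h1.1)
  have hQc : ∀ c ∈ Finset.insertNone T.S, ∀ x, T.pr x ∈ Rg c r → x ∉ Q := by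
    intro c hc x hx hxQ
    cases c with
    | none =>
      have h1 : r⁻¹ < ‖T.pr x‖ := hx
      have := (hQ x hxQ).2
      linarith
    | some a =>
      have h1 : ‖T.pr x - a‖ < r := hx
      have := (hQ x hxQ).1 a ((hmem _).1 hc a rfl)
      linarith
  -- the values at the ends
  obtain ⟨v, δ, hδ, hδε, hv⟩ := T.exists_vals hr lam
    (fun i x hx => hl _ (hci i) x (hPR hx))
  have hsum : ∑ i, (T.m i : ℝ) * v i =
      ∑ c ∈ Finset.insertNone T.S, ∑ x ∈ T.fib (w c), lam c x := by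
    rw [← Finset.sum_fiberwise_of_maps_to (s := Finset.univ) (g := T.c) fun i _ => hci i]
    refine Finset.sum_congr rfl fun c hc => ?_
    refine (T.sum_fib_eq c ((hmem c).1 hc) hr (fun q hq => endPr_notMem hs ((hmem c).1 hc) hq)
      (fun x hx => hl c hc x (hPR hx)) hδ ?_ (hwc c hc)).symm
    intro i hi τ hτ
    rw [← hi]
    exact (hv i τ hτ).2
  rw [Finset.sum_insertNone] at hsum
  obtain ⟨h, h1, h2, h3⟩ := T.wt_conn Q t (fun i => (T.m i : ℝ) * v i) (by rw [hsum]; linarith)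
  choose Ci δi hδi hCi using h2
  choose! Cq hCq using h3
  obtain ⟨η, hη, hηδ, hηi⟩ := exists_small hδi hδ
  have hcore := T.isCompact_core hη (hηδ.trans hδε)
  -- the bounds near the centres
  have hB : ∀ c ∈ Finset.insertNone T.S, ∃ C : ℝ, ∀ x, T.pr x ∈ Rg c (r / 2) →
      |h x - lam c x * Lg c (T.pr x)| ≤ C := by
    intro c hc
    have hsub : Rc c (r / 2) ⊆ Rg c r := Rc_sub_Rg c (by positivity) (by linarith)
    have hKc : IsCompact ((⋃ i, T.γ i '' PD η)ᶜ ∩ T.pr ⁻¹' Rc c (r / 2)) :=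
      hcore.inter_right ((isClosed_Rc c _).preimage T.contPr)
    have hcont : ContinuousOn (fun x => h x - lam c x * Lg c (T.pr x))
        ((⋃ i, T.γ i '' PD η)ᶜ ∩ T.pr ⁻¹' Rc c (r / 2)) := by
      intro x hx
      have hx' : T.pr x ∈ Rg c r := hsub hx.2
      have c1 : ContinuousAt h x := T.cont_of_smPos h1 (hQc c hc x hx')
      have c2 : ContinuousAt (lam c) x :=
        (continuousAt_const (y := lam c x)).congr ((hl c hc x hx').mono fun y hy => hy.symm)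
      have c3 : ContinuousAt (Lg c) (T.pr x) := continuousAt_Lg hr hx' (by
        intro a ha hxa
        exact T.pr_notMem x (hxa ▸ (hmem c).1 hc a ha))
      exact (c1.sub (c2.mul (ContinuousAt.comp (f := T.pr) (g := Lg c) c3
        T.contPr.continuousAt))).continuousWithinAt
    obtain ⟨C₀, hC₀⟩ := hKc.exists_bound_of_continuousOn hcont
    refine ⟨|C₀| + ∑ i, |Ci i|, fun x hx => ?_⟩
    have hpos : 0 ≤ ∑ i, |Ci i| := Finset.sum_nonneg fun i _ => abs_nonneg _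
    have hC₀' := le_abs_self C₀
    have hC₀'' := abs_nonneg C₀
    by_cases hxc : x ∈ (⋃ i, T.γ i '' PD η)ᶜ
    · have h5 := hC₀ x ⟨hxc, Rg_sub_Rc c _ hx⟩
      rw [Real.norm_eq_abs] at h5
      linarith
    · rw [mem_compl_iff, not_not] at hxc
      obtain ⟨i, τ, hτ, rfl⟩ := mem_iUnion.1 hxc
      have h5 := hv i τ (PD_mono hηδ hτ)
      have hcc : T.c i = c := Rg_disj hs (T.c_mem i) ((hmem c).1 hc) (hPR h5.1)
        (hsub (Rg_sub_Rc c _ hx))
      have h6 := hCi i τ hτ.1 (hτ.2.trans_le (hηi i))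
      have h7 : |Ci i| ≤ ∑ i, |Ci i| :=
        Finset.single_le_sum (f := fun i => |Ci i|) (fun i _ => abs_nonneg _) (Finset.mem_univ i)
      have h8 := le_abs_self (Ci i)
      have h9 : lam c (T.γ i τ) = v i := by rw [← hcc]; exact h5.2
      have h10 : Lg c (T.pr (T.γ i τ)) = T.m i * Real.log (‖τ‖ ^ 2) := by
        rw [T.pr_γ i τ hτ.1 (hτ.2.trans_le (hηδ.trans hδε)), hcc, Lg_endPr]
      rw [h9, h10]
      have h11 : h (T.γ i τ) - v i * (T.m i * Real.log (‖τ‖ ^ 2)) =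
          h (T.γ i τ) - T.m i * v i * Real.log (‖τ‖ ^ 2) := by ring
      rw [h11]
      linarith
  choose! CB hCB using hB
  set C : ℝ := ∑ c ∈ Finset.insertNone T.S, |CB c| + ∑ q ∈ Q, |Cq q| with hC
  have hC1 : ∀ c ∈ Finset.insertNone T.S, CB c ≤ C := by
    intro c hc
    have h5 : |CB c| ≤ ∑ c ∈ Finset.insertNone T.S, |CB c| :=
      Finset.single_le_sum (f := fun c => |CB c|) (fun i _ => abs_nonneg _) hc
    have h6 : 0 ≤ ∑ q ∈ Q, |Cq q| := Finset.sum_nonneg fun i _ => abs_nonneg _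
    have h7 := le_abs_self (CB c)
    linarith
  have hC2 : ∀ q ∈ Q, Cq q ≤ C := by
    intro q hq
    have h5 : |Cq q| ≤ ∑ q ∈ Q, |Cq q| :=
      Finset.single_le_sum (f := fun q => |Cq q|) (fun i _ => abs_nonneg _) hq
    have h6 : 0 ≤ ∑ c ∈ Finset.insertNone T.S, |CB c| :=
      Finset.sum_nonneg fun i _ => abs_nonneg _
    have h7 := le_abs_self (Cq q)
    linarith
  refine ⟨h, C, h1, ?_, ?_, ?_⟩
  · intro c hc x hx
    have hc' : some c ∈ Finset.insertNone T.S := Finset.some_mem_insertNone.2 hc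
    exact (hCB (some c) hc' x hx).trans (hC1 _ hc')
  · intro x hx
    have hn : none ∈ Finset.insertNone T.S := Finset.none_mem_insertNone
    have h5 := hCB none hn x (by
      change (r / 2)⁻¹ < ‖T.pr x‖
      rw [inv_div, div_eq_mul_inv]
      exact hx)
    have h6 : h x - lam none x * Lg none (T.pr x) =
        h x + lam none x * Real.log (‖T.pr x‖ ^ 2) := by
      change h x - lam none x * (-Real.log (‖T.pr x‖ ^ 2)) = _
      ring
    rw [h6] at h5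
    exact h5.trans (hC1 _ hn)
  · intro q hq
    filter_upwards [hCq q hq] with x hx hxq
    exact (hx hxq).trans (hC2 q hq)

end Srf

end Crest.Agent.R257.RS_176
end
end

-- ▼ part R257/RSW4_176
section

/-!
# Row 257, part C, weights on finite coverings (helper176), file RSW4

`rsw : Wt_258.RSWStmt`.
-/

set_option autoImplicit false
set_option linter.unusedSectionVars false

open Set Filter Topology Metric
open scoped ContDiff

noncomputable section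

namespace Crest.Agent.R257.RS_176

open Crest.Agent.R257.Wt_258 Crest.Agent.R257.Cpt1_419 Crest.Agent.R257.HoB_843

lemma Srf.finsum_fib {X : Type} [TopologicalSpace X] (T : Srf X) {w : ℂ} (hw : w ∉ T.S)
    (f : X → ℝ) : ∑ᶠ x ∈ {x | T.pr x = w}, f x = ∑ x ∈ T.fib w, f x := by
  have h : {x | T.pr x = w} = ((T.fib w : Finset X) : Set X) := by
    ext x
    simp only [Finset.mem_coe, Srf.mem_fib hw, mem_ofPred_eq]
  rw [h, finsum_mem_coe_finset]

/-- **the connected case** -/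
theorem wt_fcov {S : Finset ℂ} {Y : Type} [TopologicalSpace Y] [T2Space Y] [ConnectedSpace Y]
    (P : FCov (↑S : Set ℂ) Y) (Q : Finset Y) (t : Y → ℝ) (lam : Option ℂ → Y → ℝ) (r : ℝ)
    (hs : Wt_258.Sep S r)
    (hQ : ∀ q ∈ Q, (∀ c ∈ S, r ≤ ‖(P.p q).1 - c‖) ∧ ‖(P.p q).1‖ ≤ r⁻¹)
    (hl1 : ∀ c ∈ S, ∀ x, ‖(P.p x).1 - c‖ < r → ∀ᶠ y in 𝓝 x, lam (some c) y = lam (some c) x)
    (hl2 : ∀ x, r⁻¹ < ‖(P.p x).1‖ → ∀ᶠ y in 𝓝 x, lam none y = lam none x)
    (w : Option ℂ → ℂ) (hw1 : ∀ c ∈ S, 0 < ‖w (some c) - c‖ ∧ ‖w (some c) - c‖ < r)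
    (hw2 : r⁻¹ < ‖w none‖)
    (hneg : (∑ c ∈ S, ∑ᶠ x ∈ {x : Y | (P.p x).1 = w (some c)}, lam (some c) x) +
      (∑ᶠ x ∈ {x : Y | (P.p x).1 = w none}, lam none x) + ∑ q ∈ Q, t q < 0) :
    ∃ (h : Y → ℝ) (C : ℝ), SmPos (fun x => (P.p x).1) (↑Q) h ∧
      (∀ c ∈ S, ∀ x, ‖(P.p x).1 - c‖ < r / 2 →
        |h x - lam (some c) x * Real.log (‖(P.p x).1 - c‖ ^ 2)| ≤ C) ∧
      (∀ x, 2 * r⁻¹ < ‖(P.p x).1‖ → |h x + lam none x * Real.log (‖(P.p x).1‖ ^ 2)| ≤ C) ∧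
      ∀ q ∈ Q, ∀ᶠ x in 𝓝 q, x ≠ q →
        |h x - t q * Real.log (‖(P.p x).1 - (P.p q).1‖ ^ 2)| ≤ C := by
  have hne : Nonempty Y := inferInstance
  obtain ⟨T, hpr, hS⟩ := exists_srf P
  have hpr' : ∀ x, (P.p x).1 = T.pr x := fun x => (congrFun hpr x).symm
  have hfun : (fun x => (P.p x).1) = T.pr := hpr.symm
  simp only [hpr'] at hQ hl1 hl2 hneg ⊢
  rw [← hS] at hs hQ hl1 hw1 hneg ⊢
  have hr := hs.pos
  refine T.wt_srf Q t lam hs hQ hl1 hl2 w hw1 hw2 ?_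
  have h1 : ∀ c ∈ T.S, w (some c) ∉ T.S := by
    intro c hc
    have h2 : w (some c) ∈ PR (some c) r := by
      rw [mem_PR hr]
      refine ⟨(hw1 c hc).2, fun b hb => ?_⟩
      have hb' : c = b := by simpa using hb
      rw [← hb']
      exact sub_ne_zero.1 (norm_pos_iff.1 (hw1 c hc).1)
    obtain ⟨q, hq, h3⟩ := h2
    rw [← h3]
    refine endPr_notMem hs (fun a ha => ?_) hq
    have ha' : c = a := by simpa using ha
    rwa [← ha']
  have h2 : w none ∉ T.S := by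
    have h3 : w none ∈ PR none r := by
      rw [mem_PR hr]
      exact ⟨hw2, by simp⟩
    obtain ⟨q, hq, h4⟩ := h3
    rw [← h4]
    exact endPr_notMem hs (by simp) hq
  rw [T.finsum_fib h2, Finset.sum_congr rfl fun c hc => T.finsum_fib (h1 c hc) _] at hneg
  exact hneg

/-- **weights on a finite étale cover** -/
theorem rsw : RSWStmt := by
  intro S X _ _ P Q t lam r hs hQ hl1 hl2 hneg
  classical
  rcases isEmpty_or_nonempty X with hX | hX
  · exact ⟨fun _ => 0, 0, fun w₀ _ σ _ _ _ _ => (hX.false (σ w₀)).elim,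
      fun _ _ x => (hX.false x).elim, fun x => (hX.false x).elim, fun q _ => (hX.false q).elim⟩
  obtain ⟨T, hpr, hTS⟩ := exists_srf P
  -- the components
  have hop : ∀ x : X, IsOpen (connectedComponent x) := by
    intro x
    rw [isOpen_iff_mem_nhds]
    intro y hy
    rw [connectedComponent_eq hy]
    obtain ⟨s, hr, hw, hsy⟩ := T.exists_secD y
    have hb : s.w ∈ ball s.w s.r := mem_ball_self hr
    have h1 : s.s s.w = y := by rw [hw]; exact hsy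
    have h2 := T.map_nhds_sec s hb
    rw [h1] at h2
    rw [← h2, Filter.mem_map]
    refine mem_of_superset (ball_mem_nhds _ hr) ?_
    have h3 : IsPreconnected (s.s '' ball s.w s.r) :=
      (convex_ball _ _).isPreconnected.image _ s.cont
    have h4 := h3.subset_connectedComponent (x := y) ⟨s.w, hb, h1⟩
    exact fun z hz => h4 ⟨z, hz, rfl⟩
  let Y : ConnectedComponents X → Set X := fun E => {x | (x : ConnectedComponents X) = E}
  have hY : ∀ x : X, Y x = connectedComponent x := by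
    intro x
    ext y
    exact ConnectedComponents.coe_eq_coe'
  have hYcl : ∀ E, IsClopen (Y E) := by
    intro E
    obtain ⟨x, rfl⟩ := ConnectedComponents.surjective_coe E
    rw [hY]
    exact ⟨isClosed_connectedComponent, hop x⟩
  have hYc : ∀ E, ConnectedSpace (Y E) := by
    intro E
    obtain ⟨x, rfl⟩ := ConnectedComponents.surjective_coe E
    rw [hY]
    exact isConnected_iff_connectedSpace.1 isConnected_connectedComponent
  -- finitely many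
  have hfin : Finite (ConnectedComponents X) := by
    have x₁ : X := Classical.arbitrary X
    have hf : Finite (P.fb (P.p x₁).1) := P.fb_finite _
    refine Finite.of_surjective (fun x : P.fb (P.p x₁).1 => (x.1 : ConnectedComponents X)) ?_
    intro E
    obtain ⟨x, hx⟩ := ConnectedComponents.surjective_coe E
    have hxE : x ∈ Y E := hx
    have h1 := ncard_const (P.restrict (Y E) (hYcl E)) (w := (P.p x).1) (w' := (P.p x₁).1)
      (by simpa using (P.p x).2) (by simpa using (P.p x₁).2)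
    have h2 : 0 < ((P.restrict (Y E) (hYcl E)).fb (P.p x).1).ncard := by
      rw [Set.ncard_pos ((P.restrict (Y E) (hYcl E)).fb_finite _)]
      exact ⟨⟨x, hxE⟩, rfl⟩
    rw [h1, Set.ncard_pos ((P.restrict (Y E) (hYcl E)).fb_finite _)] at h2
    obtain ⟨y, hy⟩ := h2
    exact ⟨⟨y.1, hy⟩, y.2⟩
  -- the weights on the components
  have main : ∀ E, ∃ (h : Y E → ℝ) (C : ℝ), SmPos (fun x : Y E => (P.p x.1).1)
        {x | x.1 ∈ Q} h ∧
      (∀ c ∈ S, ∀ x : Y E, ‖(P.p x.1).1 - c‖ < r / 2 →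
        |h x - lam (some c) x.1 * Real.log (‖(P.p x.1).1 - c‖ ^ 2)| ≤ C) ∧
      (∀ x : Y E, 2 * r⁻¹ < ‖(P.p x.1).1‖ →
        |h x + lam none x.1 * Real.log (‖(P.p x.1).1‖ ^ 2)| ≤ C) ∧
      ∀ q : Y E, q.1 ∈ Q → ∀ᶠ x in 𝓝 q, x ≠ q →
        |h x - t q.1 * Real.log (‖(P.p x.1).1 - (P.p q.1).1‖ ^ 2)| ≤ C := by
    intro E
    have := hYc E
    obtain ⟨w, hw1, hw2, hn⟩ := hneg E
    have hsub : ∀ (z : ℂ) (f : X → ℝ),
        ∑ᶠ x ∈ {x : X | (P.p x).1 = z ∧ (x : ConnectedComponents X) = E}, f x =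
        ∑ᶠ y ∈ {y : Y E | (P.p y.1).1 = z}, f y.1 := by
      intro z f
      rw [← finsum_mem_image (f := f) (g := (Subtype.val : Y E → X))
        Subtype.val_injective.injOn]
      have he : {x : X | (P.p x).1 = z ∧ (x : ConnectedComponents X) = E} =
          Subtype.val '' {y : Y E | (P.p y.1).1 = z} := by
        ext x
        refine ⟨fun h => ⟨⟨x, h.2⟩, h.1, rfl⟩, ?_⟩
        rintro ⟨y, hy, rfl⟩
        exact ⟨hy, y.2⟩
      rw [he]
    rw [Finset.sum_congr rfl fun c _ => hsub (w (some c)) _, hsub, ← Finset.sum_filter,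
      ← Finset.sum_subtype_eq_sum_filter] at hn
    have hmemQ : ∀ x : Y E, x ∈ Q.subtype (fun x : X => (x : ConnectedComponents X) = E) ↔
      x.1 ∈ Q := fun x => Finset.mem_subtype
    obtain ⟨h, C, h1, h2, h3, h4⟩ := wt_fcov (P.restrict (Y E) (hYcl E))
      (Q.subtype (fun x : X => (x : ConnectedComponents X) = E)) (fun x => t x.1)
      (fun c x => lam c x.1) r hs (fun q hq => hQ q.1 ((hmemQ q).1 hq))
      (fun c hc x hx => continuous_subtype_val.continuousAt.eventually (hl1 c hc x.1 hx))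
      (fun x hx => continuous_subtype_val.continuousAt.eventually (hl2 x.1 hx))
      w hw1 hw2 hn
    refine ⟨h, C, ?_, h2, h3, fun q hq => h4 q ((hmemQ q).2 hq)⟩
    intro w₀ ρ σ hρ hσ hσ' hq
    exact h1 w₀ ρ σ hρ hσ hσ' fun hm => hq ((hmemQ _).1 hm)
  choose h C h1 h2 h3 h4 using main
  have hft : Fintype (ConnectedComponents X) := Fintype.ofFinite _
  have hCE : ∀ E, C E ≤ ∑ E, |C E| := fun E => (le_abs_self _).trans
    (Finset.single_le_sum (f := fun E => |C E|) (fun _ _ => abs_nonneg _) (Finset.mem_univ E))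
  let H : X → ℝ := fun x => h (x : ConnectedComponents X) ⟨x, rfl⟩
  have hH : ∀ E, ∀ y : Y E, H y.1 = h E y := by
    rintro E ⟨y, hy⟩
    have hy' : (y : ConnectedComponents X) = E := hy
    subst hy'
    rfl
  refine ⟨H, ∑ E, |C E|, ?_, ?_, ?_, ?_⟩
  · intro w₀ ρ σ hρ hσ hσ' hq
    set E : ConnectedComponents X := (σ w₀ : ConnectedComponents X) with hE
    have hw : w₀ ∈ ball w₀ ρ := mem_ball_self hρ
    have hin : ∀ z ∈ ball w₀ ρ, σ z ∈ Y E := by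
      intro z hz
      have h5 : IsPreconnected (σ '' ball w₀ ρ) := (convex_ball _ _).isPreconnected.image _ hσ
      have h6 := h5.subset_connectedComponent (x := σ w₀) ⟨w₀, hw, rfl⟩ ⟨z, hz, rfl⟩
      exact ConnectedComponents.coe_eq_coe'.2 h6
    let σ' : ℂ → Y E := fun z => if hz : σ z ∈ Y E then ⟨σ z, hz⟩ else ⟨σ w₀, rfl⟩
    have hσv : ∀ z ∈ ball w₀ ρ, (σ' z).1 = σ z := by
      intro z hz
      simp only [σ']
      rw [dif_pos (hin z hz)]
    have hσc : ContinuousOn σ' (ball w₀ ρ) := by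
      rw [Topology.IsInducing.subtypeVal.continuousOn_iff]
      exact hσ.congr fun z hz => hσv z hz
    have h5 := h1 E w₀ ρ σ' hρ hσc (fun z hz => by
        change (P.p (σ' z).1).1 = z
        rw [hσv z hz]; exact hσ' z hz)
      (fun hm => hq (by
        have : (σ' w₀).1 ∈ Q := hm
        rwa [hσv w₀ hw] at this))
    have he : H ∘ σ =ᶠ[𝓝 w₀] h E ∘ σ' := by
      filter_upwards [ball_mem_nhds w₀ hρ] with z hz
      simp only [Function.comp_apply]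
      rw [← hH E (σ' z), hσv z hz]
    exact ⟨h5.1.congr_of_eventuallyEq he, by rw [lvE_congr he]; exact h5.2⟩
  · intro c hc x hx
    exact (h2 (x : ConnectedComponents X) c hc ⟨x, rfl⟩ hx).trans (hCE _)
  · intro x hx
    exact (h3 (x : ConnectedComponents X) ⟨x, rfl⟩ hx).trans (hCE _)
  · intro q hq
    set E : ConnectedComponents X := (q : ConnectedComponents X) with hE
    have h5 := h4 E ⟨q, rfl⟩ hq
    have h6 := (hYcl E).2.isOpenEmbedding_subtypeVal.map_nhds_eq (⟨q, rfl⟩ : Y E)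
    simp only at h6
    rw [← h6, Filter.eventually_map]
    filter_upwards [h5] with y hy hyq
    have h7 := hy fun h => hyq (congrArg Subtype.val h)
    rw [hH E y]
    exact h7.trans (hCE _)

end Crest.Agent.R257.RS_176
end
end

-- ▼ part R257/Hv6_174
section

/-!
Row 257 (S0395), task C-HV, file 6: the degree identity `sumD` (proof of helper636's `sumE`, with the
directions `(a, b)` of `DKill`), and **`hvdStmt : LabWD L → HVDStmt L`**.
-/

set_option autoImplicit false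
set_option linter.unusedSectionVars false

open Polynomial Set Filter Topology Metric
open Crest.AlgGeometry.Germ Crest.Agent.R257.AJ387 Crest.Agent.R257.T387
open Crest.Agent.R257.Gr1_157 Crest.Agent.R257.HoB_843 Crest.Agent.R257.BP_258
open Crest.Agent.R257.Wt_258
open Crest.Agent.R257.Lab_931 (dg_Mx ok_ec)
open Crest.Agent.R257.HvS_636 (e2_ec cd_eq kc_v)

noncomputable section

namespace Crest.Agent.R257.Hv_174

variable {f : (Fin 3 → ℂ) → ℂ} {T : TB f} {U : Tub T} {S : Sh T}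

open Classical in
theorem sumD (L : Lab U S) [Fintype (II U)] (y : II U → ℝ) {F : Finset (Ch T.m)}
    (K : DKill S F) (hF : ∀ c ∈ F, Ok S c) (E : II U) :
    (∑ c ∈ NC S, ∑ j, if L.e1 c j = some E then d1 L y K c j / lx T c else 0) +
      (∑ j, if L.e2 (ec S E.1.1) j = some E then
        d2 L y K (ec S E.1.1) j / lx T (ec S E.1.1) else 0) +
      (∑ c ∈ F.filter IsV, ∑ j, if (c, j) ∈ K.κ ∧ L.e1 c j = some E then K.t (c, j) * K.a (c, j) else 0) =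
    dg (Mx L) y E + ∑ c ∈ F, ∑ j, (if (c, j) ∈ K.κ then kc c * K.t (c, j) *
      ((K.a (c, j) : ℝ) * (if L.e1 c j = some E then 1 else 0) +
        (K.b (c, j) : ℝ) * (if L.e2 c j = some E then 1 else 0)) else 0) := by
  -- the kill sum, first labels
  set X : Ch T.m → ℝ := fun c => ∑ j, if L.e1 c j = some E then kc c * dk1 K c j else 0 with hX
  set Y : Ch T.m → ℝ := fun c => ∑ j, if L.e2 c j = some E then kc c * dk2 K c j else 0 with hY
  have hXY : ∀ c, (∑ j, (if (c, j) ∈ K.κ then kc c * K.t (c, j) *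
      ((K.a (c, j) : ℝ) * (if L.e1 c j = some E then 1 else 0) +
        (K.b (c, j) : ℝ) * (if L.e2 c j = some E then 1 else 0)) else 0)) =
      X c + Y c := by
    intro c
    rw [hX, hY]
    simp only
    rw [← Finset.sum_add_distrib]
    refine Finset.sum_congr rfl fun j _ => ?_
    unfold dk1 dk2
    split_ifs <;> ring
  have hX0 : ∀ c, c ∉ F → X c = 0 := by
    intro c hc
    refine Finset.sum_eq_zero fun j _ => ?_
    have : (c, j) ∉ K.κ := fun h => hc (K.mem _ h)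
    simp [dk1, dk2, this]
  have hY0 : ∀ c, c ∉ F → Y c = 0 := by
    intro c hc
    refine Finset.sum_eq_zero fun j _ => ?_
    have : (c, j) ∉ K.κ := fun h => hc (K.mem _ h)
    simp [dk1, dk2, this]
  have e1 : ∑ c ∈ F, X c = (∑ c ∈ F.filter IsV, ∑ j,
      if (c, j) ∈ K.κ ∧ L.e1 c j = some E then K.t (c, j) * K.a (c, j) else 0) + ∑ c ∈ NC S, X c := by
    rw [← Finset.sum_filter_add_sum_filter_not F IsV X]
    congr 1
    · refine Finset.sum_congr rfl fun c hc => ?_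
      have h1 := kc_v (Finset.mem_filter.1 hc).2
      rw [hX]
      refine Finset.sum_congr rfl fun j _ => ?_
      rw [h1]
      unfold dk1
      by_cases h2 : (c, j) ∈ K.κ <;> by_cases h3 : L.e1 c j = some E <;> simp [h2, h3]
    · refine Finset.sum_subset ?_ ?_
      · intro c hc
        have := Finset.mem_filter.1 hc
        exact mem_NC.2 ⟨hF c this.1, this.2⟩
      · intro c hc hc'
        refine hX0 c fun h => hc' (Finset.mem_filter.2 ⟨h, (mem_NC.1 hc).2⟩)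
  have e2 : ∑ c ∈ F, Y c = Y (ec S E.1.1) := by
    by_cases hm : ec S E.1.1 ∈ F
    · refine Finset.sum_eq_single_of_mem _ hm fun c hc hne => ?_
      refine Finset.sum_eq_zero fun j _ => ?_
      rw [if_neg]
      exact fun h => hne (e2_ec L (hF c hc) h)
    · rw [hY0 _ hm]
      refine Finset.sum_eq_zero fun c hc => Finset.sum_eq_zero fun j _ => ?_
      rw [if_neg]
      intro h
      exact hm (e2_ec L (hF c hc) h ▸ hc)
  have e3 : ∑ c ∈ NC S, (∑ j, if L.e1 c j = some E then d1 L y K c j / lx T c else 0) =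
      (∑ v ∈ Vs T, ∑ j, cd S v * (if L.e1 (ec S v) j = some E then
        yo y (L.e2 (ec S v) j) - y E else 0)) + ∑ c ∈ NC S, X c := by
    have h1 : ∀ c, (∑ j, if L.e1 c j = some E then d1 L y K c j / lx T c else 0) =
        (∑ j, if L.e1 c j = some E then
          (if IsE c then yo y (L.e2 c j) - yo y (L.e1 c j) else 0) / lx T c else 0) + X c := by
      intro c
      rw [hX]
      simp only
      rw [← Finset.sum_add_distrib]
      refine Finset.sum_congr rfl fun j _ => ?_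
      rw [kc_eq c]
      unfold d1
      split_ifs <;> ring
    rw [Finset.sum_congr rfl fun c _ => h1 c, Finset.sum_add_distrib, sum_NC]
    congr 1
    have h2 : ∑ i : Fin T.m, (∑ j, if L.e1 (.leg i) j = some E then
        (if IsE (Ch.leg i : Ch T.m) then yo y (L.e2 (.leg i) j) - yo y (L.e1 (.leg i) j) else 0) /
          (lx T (.leg i) : ℝ) else 0) = 0 := by
      refine Finset.sum_eq_zero fun i _ => Finset.sum_eq_zero fun j _ => ?_
      have : ¬ IsE (Ch.leg i : Ch T.m) := by simp [IsE]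
      simp [this]
    rw [h2, add_zero]
    refine Finset.sum_congr rfl fun v _ => Finset.sum_congr rfl fun j _ => ?_
    have : IsE (ec S v) := by simp [IsE, ec]
    rw [if_pos this, cd_eq]
    by_cases h : L.e1 (ec S v) j = some E
    · rw [if_pos h, if_pos h, h]
      simp only [yo, Option.elim]
      ring
    · rw [if_neg h, if_neg h, mul_zero]
  have e4 : (∑ j, if L.e2 (ec S E.1.1) j = some E then
        d2 L y K (ec S E.1.1) j / lx T (ec S E.1.1) else 0) =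
      (∑ v ∈ Vs T, ∑ j, cd S v * (if L.e2 (ec S v) j = some E then
        yo y (L.e1 (ec S v) j) - y E else 0)) + Y (ec S E.1.1) := by
    have h1 : (∑ v ∈ Vs T, ∑ j, cd S v * (if L.e2 (ec S v) j = some E then
        yo y (L.e1 (ec S v) j) - y E else 0)) = ∑ j, cd S E.1.1 *
          (if L.e2 (ec S E.1.1) j = some E then yo y (L.e1 (ec S E.1.1) j) - y E else 0) := by
      refine Finset.sum_eq_single_of_mem _ E.1.2 fun v hv hne => ?_
      refine Finset.sum_eq_zero fun j _ => ?_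
      rw [if_neg, mul_zero]
      intro h
      have := e2_ec L (ok_ec S hv) h
      exact hne (ec_inj hv E.1.2 this)
    rw [h1, hY]
    simp only
    rw [← Finset.sum_add_distrib]
    refine Finset.sum_congr rfl fun j _ => ?_
    rw [kc_eq, cd_eq]
    unfold d2
    by_cases h : L.e2 (ec S E.1.1) j = some E
    · rw [if_pos h, if_pos h, if_pos h, h]
      simp only [yo, Option.elim]
      ring
    · rw [if_neg h, if_neg h, if_neg h, mul_zero, zero_add]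
  rw [dg_Mx, Finset.sum_congr rfl fun c _ => hXY c, Finset.sum_add_distrib, e1, e2, e3, e4]
  have e5 : (∑ v ∈ Vs T, ∑ j, cd S v *
    ((if L.e1 (ec S v) j = some E then yo y (L.e2 (ec S v) j) - y E else 0) +
     (if L.e2 (ec S v) j = some E then yo y (L.e1 (ec S v) j) - y E else 0))) =
      (∑ v ∈ Vs T, ∑ j, cd S v * (if L.e1 (ec S v) j = some E then
        yo y (L.e2 (ec S v) j) - y E else 0)) +
      (∑ v ∈ Vs T, ∑ j, cd S v * (if L.e2 (ec S v) j = some E then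
        yo y (L.e1 (ec S v) j) - y E else 0)) := by
    rw [← Finset.sum_add_distrib]
    refine Finset.sum_congr rfl fun v _ => ?_
    rw [← Finset.sum_add_distrib]
    refine Finset.sum_congr rfl fun j _ => ?_
    ring
  rw [e5]
  ring

/-- **`HVDStmt`**: functions with prescribed slopes -/
theorem hvdStmt [Fintype (II U)] {L : Lab U S} (hW : LabWD L) : HVDStmt L := by
  refine hvdStmt_of RS_176.rsw (End_636.endStmt L) hW ?_
  intro y F K hF hK E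
  have h1 := hK E
  unfold DSup at h1
  have h2 := sumD L y K hF E
  unfold tot
  simp only [add_zero]
  rw [h2]
  exact h1

end Crest.Agent.R257.Hv_174
end
end

-- ▼ part R257/WtZ_258

/-!
Row 257 (S0395), C-WT (helper258): **the weights exist**, `WTDStmt`.
-/

set_option autoImplicit false
set_option linter.unusedSectionVars false
set_option linter.unusedVariables false

open Polynomial Set Filter Topology Metric
open Crest.AlgGeometry.Germ Crest.Agent.R257.AJ387 Crest.Agent.R257.T387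
open Crest.Agent.R257.Gr1_157 Crest.Agent.R257.HoB_843 Crest.Agent.R257.BP_258
open Crest.Agent.R257.Frm_547 Crest.Agent.R257.Lab_931

noncomputable section

namespace Crest.Agent.R257.Wt_258

variable {f : (Fin 3 → ℂ) → ℂ} {T : TB f} {U : Tub T} {S : Sh T}

/-- **C-WT** -/
theorem wtd (L : Lab U S) [Fintype (II U)] : WTDStmt L := by
  have hR := Tb_941.retStmt U
  refine wtd_of L (exists_par' L (End_636.endStmt L) (Hv_174.hvdStmt (LWD_547.labWD hR L))) ?_ ?_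
  · intro y F K τ₀ τ₁ P h0 hu c hc j v hv b hb hb0
    exact Ta1_938.loc_axis1 P hR h0 hu hc j hv hb hb0 fun D => tubeOut P D hR
  · intro y F K τ₀ τ₁ P h0 hu c hc j v hv a ha ha0
    exact Ta2_980.loc_axis2 P hR h0 hu hc j hv ha ha0 fun D => tubeOut P D hR


end Crest.Agent.R257.Wt_258
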